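import Crest.Prelude.Def_CubeNoise

/-!
# R307/Cube: averages, noise and production on the cube; slices in the first coordinate
-/

set_option autoImplicit false

namespace Crest.Agent.R307

open Crest.CubeNoise

variable {n : ℕ}

/-- The slice of `g` with first bit `b`. -/
def sl {β : Type} (g : (Fin (n + 1) → Bool) → β) (b : Bool) : (Fin n → Bool) → β := fun x => g (Fin.cons b x)

theorem sum_succ (g : (Fin (n + 1) → Bool) → ℝ) : ∑ x, g x = ∑ x, sl g false x + ∑ x, sl g true x := by
  rw [← (Fin.consEquiv fun _ : Fin (n + 1) => Bool).sum_comp, Fintype.sum_prod_type, Fintype.sum_bool, add_comm]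
  rfl

theorem avg_succ (g : (Fin (n + 1) → Bool) → ℝ) :
    cubeAverage g = (cubeAverage (sl g false) + cubeAverage (sl g true)) / 2 := by
  unfold cubeAverage
  rw [sum_succ, pow_succ]
  field_simp

theorem avg_zero_dim (g : (Fin 0 → Bool) → ℝ) : cubeAverage g = g default := by
  rw [cubeAverage, Fintype.sum_unique, pow_zero, div_one]
  exact congrArg g (Subsingleton.elim _ _)

theorem avg_const (c : ℝ) : cubeAverage (fun _ : Fin n → Bool => c) = c := by
  simp [cubeAverage]

theorem avg_add (f g : (Fin n → Bool) → ℝ) : cubeAverage (fun x => f x + g x) = cubeAverage f + cubeAverage g := by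
  simp [cubeAverage, Finset.sum_add_distrib, add_div]

theorem avg_sub (f g : (Fin n → Bool) → ℝ) : cubeAverage (fun x => f x - g x) = cubeAverage f - cubeAverage g := by
  simp [cubeAverage, Finset.sum_sub_distrib, sub_div]

theorem avg_mul (c : ℝ) (f : (Fin n → Bool) → ℝ) : cubeAverage (fun x => c * f x) = c * cubeAverage f := by
  simp [cubeAverage, ← Finset.mul_sum, mul_div_assoc]

theorem avg_div (c : ℝ) (f : (Fin n → Bool) → ℝ) : cubeAverage (fun x => f x / c) = cubeAverage f / c := by
  simp only [div_eq_inv_mul _ c, avg_mul]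

theorem avg_neg (f : (Fin n → Bool) → ℝ) : cubeAverage (fun x => -f x) = -cubeAverage f := by
  simp [cubeAverage, neg_div]

theorem avg_mono {f g : (Fin n → Bool) → ℝ} (h : ∀ x, f x ≤ g x) : cubeAverage f ≤ cubeAverage g :=
  div_le_div_of_nonneg_right (Finset.sum_le_sum fun x _ => h x) (by positivity)

theorem avg_lt {f g : (Fin n → Bool) → ℝ} (h : ∀ x, f x < g x) : cubeAverage f < cubeAverage g :=
  div_lt_div_of_pos_right (Finset.sum_lt_sum_of_nonempty Finset.univ_nonempty fun x _ => h x) (by positivity)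

theorem avg_nonneg {f : (Fin n → Bool) → ℝ} (h : ∀ x, 0 ≤ f x) : 0 ≤ cubeAverage f := by
  simpa [avg_const] using avg_mono (f := fun _ => 0) h

theorem avg_le {f : (Fin n → Bool) → ℝ} {c : ℝ} (h : ∀ x, f x ≤ c) : cubeAverage f ≤ c := by
  simpa [avg_const] using avg_mono (g := fun _ => c) h

theorem le_avg {f : (Fin n → Bool) → ℝ} {c : ℝ} (h : ∀ x, c ≤ f x) : c ≤ cubeAverage f := by
  simpa [avg_const] using avg_mono (f := fun _ => c) h

theorem abs_avg_lt {f : (Fin n → Bool) → ℝ} (h : ∀ x, |f x| < 1) : |cubeAverage f| < 1 := by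
  rw [abs_lt]
  constructor
  · simpa [avg_const] using avg_lt (f := fun _ => -1) fun x => (abs_lt.1 (h x)).1
  · simpa [avg_const] using avg_lt (g := fun _ => 1) fun x => (abs_lt.1 (h x)).2

/-- The noise weight. -/
noncomputable def wt (ρ : ℝ) (x y : Fin n → Bool) : ℝ := ∏ i, (1 + ρ * spin (x i) * spin (y i)) / 2

theorem noise_eq (ρ : ℝ) (u : (Fin n → Bool) → ℝ) (x : Fin n → Bool) : noise ρ u x = ∑ y, wt ρ x y * u y := rfl

theorem spin_cases (b : Bool) : spin b = 1 ∨ spin b = -1 := by cases b <;> simp [spin]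

theorem spin_not (b : Bool) : spin (!b) = -spin b := by cases b <;> simp [spin]

theorem wt_symm (ρ : ℝ) (x y : Fin n → Bool) : wt ρ x y = wt ρ y x :=
  Finset.prod_congr rfl fun i _ => by ring

theorem wt_nonneg {ρ : ℝ} (h : |ρ| ≤ 1) (x y : Fin n → Bool) : 0 ≤ wt ρ x y := by
  obtain ⟨h1, h2⟩ := abs_le.1 h
  refine Finset.prod_nonneg fun i _ => ?_
  rcases spin_cases (x i) with a | a <;> rcases spin_cases (y i) with b | b <;> rw [a, b] <;> linarith

theorem wt_pos {ρ : ℝ} (h : |ρ| < 1) (x y : Fin n → Bool) : 0 < wt ρ x y := by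
  obtain ⟨h1, h2⟩ := abs_lt.1 h
  refine Finset.prod_pos fun i _ => ?_
  rcases spin_cases (x i) with a | a <;> rcases spin_cases (y i) with b | b <;> rw [a, b] <;> linarith

theorem sum_wt (ρ : ℝ) (x : Fin n → Bool) : ∑ y, wt ρ x y = 1 := by
  unfold wt
  rw [← Fintype.piFinset_univ, ← Finset.prod_univ_sum (fun _ : Fin n => (Finset.univ : Finset Bool))
    fun i b => (1 + ρ * spin (x i) * spin b) / 2]
  refine Finset.prod_eq_one fun i _ => ?_
  simp only [Fintype.sum_bool, spin, if_true, Bool.false_eq_true, if_false]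
  ring

theorem noise_const (ρ c : ℝ) (x : Fin n → Bool) : noise ρ (fun _ => c) x = c := by
  rw [noise_eq, ← Finset.sum_mul, sum_wt, one_mul]

theorem noise_mono {ρ : ℝ} (h : |ρ| ≤ 1) {u v : (Fin n → Bool) → ℝ} (huv : ∀ y, u y ≤ v y) (x : Fin n → Bool) :
    noise ρ u x ≤ noise ρ v x :=
  Finset.sum_le_sum fun y _ => mul_le_mul_of_nonneg_left (huv y) (wt_nonneg h x y)

theorem noise_lt {ρ : ℝ} (h : |ρ| < 1) {u v : (Fin n → Bool) → ℝ} (huv : ∀ y, u y ≤ v y) (hne : ∃ y, u y < v y)
    (x : Fin n → Bool) : noise ρ u x < noise ρ v x := by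
  obtain ⟨y, hy⟩ := hne
  exact Finset.sum_lt_sum (fun y _ => mul_le_mul_of_nonneg_left (huv y) (wt_pos h x y).le)
    ⟨y, Finset.mem_univ _, mul_lt_mul_of_pos_left hy (wt_pos h x y)⟩

theorem noise_add (ρ : ℝ) (u v : (Fin n → Bool) → ℝ) (x : Fin n → Bool) :
    noise ρ (fun y => u y + v y) x = noise ρ u x + noise ρ v x := by
  simp [noise_eq, mul_add, Finset.sum_add_distrib]

theorem noise_affine (ρ a c : ℝ) (u : (Fin n → Bool) → ℝ) (x : Fin n → Bool) :
    noise ρ (fun y => a * u y + c) x = a * noise ρ u x + c := by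
  rw [noise_add, noise_const, noise_eq, noise_eq, Finset.mul_sum]
  congr 1
  exact Finset.sum_congr rfl fun y _ => by ring

theorem abs_noise_le {ρ : ℝ} (h : |ρ| ≤ 1) {u : (Fin n → Bool) → ℝ} (hu : ∀ y, |u y| ≤ 1) (x : Fin n → Bool) :
    |noise ρ u x| ≤ 1 := by
  rw [abs_le]
  constructor
  · simpa [noise_const] using noise_mono h (u := fun _ => -1) (fun y => (abs_le.1 (hu y)).1) x
  · simpa [noise_const] using noise_mono h (v := fun _ => 1) (fun y => (abs_le.1 (hu y)).2) x

theorem avg_noise (ρ : ℝ) (u : (Fin n → Bool) → ℝ) : cubeAverage (noise ρ u) = cubeAverage u := by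
  unfold cubeAverage
  congr 1
  simp only [noise_eq]
  rw [Finset.sum_comm]
  refine Finset.sum_congr rfl fun y _ => ?_
  rw [← Finset.sum_mul]
  simp only [wt_symm ρ _ y, sum_wt, one_mul]

theorem wt_cons (ρ : ℝ) (a b : Bool) (x y : Fin n → Bool) :
    wt ρ (Fin.cons a x : Fin (n + 1) → Bool) (Fin.cons b y) = (1 + ρ * spin a * spin b) / 2 * wt ρ x y := by
  simp only [wt, Fin.prod_univ_succ, Fin.cons_zero, Fin.cons_succ]

/-- Noise acts on the two slices by a two-point average. -/
theorem noise_sl (ρ : ℝ) (u : (Fin (n + 1) → Bool) → ℝ) (b : Bool) (x : Fin n → Bool) :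
    sl (noise ρ u) b x = (1 - ρ * spin b) / 2 * noise ρ (sl u false) x + (1 + ρ * spin b) / 2 * noise ρ (sl u true) x := by
  change noise ρ u (Fin.cons b x) = _
  rw [noise_eq, sum_succ, noise_eq, noise_eq, Finset.mul_sum, Finset.mul_sum]
  congr 1 <;> refine Finset.sum_congr rfl fun y _ => ?_ <;> simp only [sl, wt_cons, spin] <;> simp <;> ring

theorem noise_zero_dim (ρ : ℝ) (u : (Fin 0 → Bool) → ℝ) (x : Fin 0 → Bool) : noise ρ u x = u default := by
  rw [noise, Fintype.sum_unique, Finset.univ_eq_empty, Finset.prod_empty, one_mul]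
  exact congrArg u (Subsingleton.elim _ _)

theorem noise_one (u : (Fin n → Bool) → ℝ) (x : Fin n → Bool) : noise 1 u x = u x := by
  rw [noise_eq, Finset.sum_eq_single x]
  · have : wt 1 x x = 1 := Finset.prod_eq_one fun i _ => by rcases spin_cases (x i) with a | a <;> rw [a] <;> norm_num
    rw [this, one_mul]
  · intro y _ hy
    obtain ⟨i, hi⟩ := Function.ne_iff.1 hy
    have : wt 1 x y = 0 := Finset.prod_eq_zero (Finset.mem_univ i) (by
      revert hi
      cases x i <;> cases y i <;> simp [spin])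
    rw [this, zero_mul]
  · simp

theorem noise_neg (ρ : ℝ) (u : (Fin n → Bool) → ℝ) (x : Fin n → Bool) :
    noise (-ρ) u x = noise ρ u fun i => !x i := by
  simp only [noise, spin_not]
  refine Finset.sum_congr rfl fun y _ => ?_
  congr 1
  exact Finset.prod_congr rfl fun i _ => by ring

theorem avg_not (g : (Fin n → Bool) → ℝ) : cubeAverage (fun x => g fun i => !x i) = cubeAverage g := by
  unfold cubeAverage
  congr 1
  exact Equiv.sum_comp (Function.Involutive.toPerm (fun (x : Fin n → Bool) i => !x i) fun x => by simp) g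

theorem flip_zero (b : Bool) (x : Fin n → Bool) :
    flipBit 0 (Fin.cons b x : Fin (n + 1) → Bool) = Fin.cons (!b) x := by
  simp [flipBit, Fin.update_cons_zero]

theorem flip_succ (i : Fin n) (b : Bool) (x : Fin n → Bool) :
    flipBit i.succ (Fin.cons b x : Fin (n + 1) → Bool) = Fin.cons b (flipBit i x) := by
  simp [flipBit, Fin.cons_update]

/-- The cost of an edge. -/
noncomputable def kap (u v : ℝ) : ℝ := (v - u) * (Real.artanh v - Real.artanh u) / 4

theorem production_succ (g : (Fin (n + 1) → Bool) → ℝ) :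
    production g = (production (sl g false) + production (sl g true)) / 2 +
      cubeAverage fun x => kap (sl g false x) (sl g true x) := by
  unfold production
  rw [avg_succ, ← avg_add, ← avg_add, ← avg_div, ← avg_div, ← avg_add]
  congr 1
  ext x
  simp only [sl, Fin.sum_univ_succ, flip_zero, flip_succ, kap, Bool.not_false, Bool.not_true]
  ring

theorem production_zero_dim (g : (Fin 0 → Bool) → ℝ) : production g = 0 := by
  simp [production, cubeAverage]

end Crest.Agent.R307
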