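import Crest.Agent.R307.IA0
set_option autoImplicit false
namespace Crest.Agent.R307.IA

theorem neg_mul_c {c d v : ℝ} (h : -d = c) : -(d * v) = c * v := by rw [← h]; ring
theorem sub_c {c d v : ℝ} (h : d = -c) : v + d = v - c := by rw [h]; ring
theorem div_c {c d v : ℝ} (h : d = c⁻¹) : d * v = v / c := by rw [h]; ring
theorem pow_dbl {k n : ℕ} {v : ℝ} (h : n = k * 2) : (v ^ k) ^ 2 = v ^ n := by rw [h, pow_mul]
theorem pow_sc {k n : ℕ} {v : ℝ} (h : n = k + 1) : v ^ k * v = v ^ n := by rw [h, pow_succ]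
theorem max_rl (x y : ℝ) : x + max (y - x) 0 = max x y := by
  rcases le_total x y with h | h
  · rw [max_eq_left (sub_nonneg.2 h), max_eq_right h]; ring
  · rw [max_eq_right (sub_nonpos.2 h), max_eq_left h]; ring
theorem min_rl (x y : ℝ) : x - max (x - y) 0 = min x y := by
  rcases le_total x y with h | h
  · rw [max_eq_right (sub_nonpos.2 h), min_eq_left h]; ring
  · rw [max_eq_left (sub_nonneg.2 h), min_eq_right h]; ring
theorem abs_rl (x : ℝ) : max x 0 + max x 0 - x = |x| := by
  rcases le_total x 0 with h | h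
  · rw [max_eq_right h, abs_of_nonpos h]; ring
  · rw [max_eq_left h, abs_of_nonneg h]; ring

end Crest.Agent.R307.IA
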