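import Crest.Agent.R307.IA3
import Crest.Agent.R307.IAx
set_option autoImplicit false
set_option linter.unusedVariables false
set_option maxRecDepth 20000
namespace Crest.Agent.R307.GPa
open Crest.Agent.R307.IA Crest.Agent.R307.IA3

theorem In_cast {e1 e2 e3 : ℝ} {x y1 y2 y3 r : ℕ} {v w : ℝ}
    (h : In e1 e2 e3 x y1 y2 y3 r v) (e : v = w) : In e1 e2 e3 x y1 y2 y3 r w := e ▸ h

noncomputable def w (R t s : ℝ) : ℝ := (√((t * t) + (((s * ((1:ℝ) - (t * t))) ^ 2) / (4:ℝ))))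
noncomputable def S (R t s : ℝ) : ℝ := (√(((1:ℝ) + (t * t)) + ((2:ℝ) * (w R t s))))
noncomputable def P (R t s : ℝ) : ℝ := ((1:ℝ) + (t * t))
noncomputable def G (R t s : ℝ) : ℝ := (((4:ℝ) / (((S R t s) + (1:ℝ)) + t)) + (((R ^ 3) * ((w R t s) + t)) * ((1/5:ℝ) + ((((1/2:ℝ) * (R ^ 6)) * (P R t s)) * ((((P R t s) * (P R t s)) - ((w R t s) * (w R t s))) - (t * t))))))
noncomputable def c0 (R t s : ℝ) : ℝ := (((31/500:ℝ) + ((13/100:ℝ) * s)) + (((19/100:ℝ) * s) * s))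
noncomputable def u0 (R t s : ℝ) : ℝ := ((((2:ℝ) - ((9/5:ℝ) * R)) - ((R ^ 3) / (10:ℝ))) - ((R ^ 9) / (10:ℝ)))
noncomputable def kap (R t s : ℝ) : ℝ := ((((2:ℝ) / ((1:ℝ) + (√((1:ℝ) + s)))) + ((7/40:ℝ) * s)) - ((s ^ 3) / (32:ℝ)))
noncomputable def u1 (R t s : ℝ) : ℝ := ((((2:ℝ) - ((9/5:ℝ) * (R * t))) - (((R * t) ^ 3) / (10:ℝ))) - (((R * t) ^ 9) / (10:ℝ)))
noncomputable def m (R t s : ℝ) : ℝ := (((4/3:ℝ) / ((1:ℝ) + t)) + (R * ((999/1000:ℝ) - ((2/3:ℝ) * (((9/5:ℝ) + (((R * R) * (P R t s)) / (10:ℝ))) + (((R ^ 8) * ((1:ℝ) + ((t * t) * ((1:ℝ) + ((t * t) * ((1:ℝ) + ((t * t) * ((1:ℝ) + (t * t))))))))) / (10:ℝ)))))))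

def Q (R t s : ℝ) : Prop :=
  (
  (0 < (((G R t s) * (((((w R t s) - t) * (G R t s)) + (((4:ℝ) * (c0 R t s)) * (u0 R t s))) + ((((2:ℝ) * ((1:ℝ) - (((2/3:ℝ) * s) * (kap R t s)))) * t) * (u1 R t s)))) - ((((((4:ℝ) * (kap R t s)) * (kap R t s)) * ((w R t s) + t)) * (m R t s)) * (m R t s)))) ∨
  (0 < (-(m R t s))))

noncomputable def alt0 (z1 w1 z2 w2 z3 w3 : ℕ) : Bool :=
  sqK z2 1152921504606846976 (Nat.add w2 1152921504606846976) 1152921504606846976 0 fun c1 a1_1 a1_2 a1_3 q1 =>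
  addcK c1 a1_1 a1_2 a1_3 q1 1152922604118474752 0 fun c3 a3_1 a3_2 a3_3 q3 =>
  negK c1 a1_1 a1_2 a1_3 q1 fun c5 a5_1 a5_2 a5_3 q5 =>
  addcK c5 a5_1 a5_2 a5_3 q5 1152922604118474752 0 fun c6 a6_1 a6_2 a6_3 q6 =>
  mulK z3 1152921504606846976 1152921504606846976 (Nat.add w3 1152921504606846976) 0 c6 a6_1 a6_2 a6_3 q6 fun c8 a8_1 a8_2 a8_3 q8 =>
  sqK c8 a8_1 a8_2 a8_3 q8 fun c9 a9_1 a9_2 a9_3 q9 =>
  smulK 1 4 4611686018427387908 1152921504606846976 c9 a9_1 a9_2 a9_3 q9 fun c10 a10_1 a10_2 a10_3 q10 =>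
  addK c1 a1_1 a1_2 a1_3 q1 c10 a10_1 a10_2 a10_3 q10 fun c12 a12_1 a12_2 a12_3 q12 =>
  sqrtK c12 a12_1 a12_2 a12_3 q12 fun c13 a13_1 a13_2 a13_3 q13 =>
  smulK 2 1 1152921504606846977 2305843009213693952 c13 a13_1 a13_2 a13_3 q13 fun c15 a15_1 a15_2 a15_3 q15 =>
  addK c3 a3_1 a3_2 a3_3 q3 c15 a15_1 a15_2 a15_3 q15 fun c16 a16_1 a16_2 a16_3 q16 =>
  sqrtK c16 a16_1 a16_2 a16_3 q16 fun c17 a17_1 a17_2 a17_3 q17 =>
  addcK c17 a17_1 a17_2 a17_3 q17 1152922604118474752 0 fun c19 a19_1 a19_2 a19_3 q19 =>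
  addK c19 a19_1 a19_2 a19_3 q19 z2 1152921504606846976 (Nat.add w2 1152921504606846976) 1152921504606846976 0 fun c20 a20_1 a20_2 a20_3 q20 =>
  invK c20 a20_1 a20_2 a20_3 q20 fun c21 a21_1 a21_2 a21_3 q21 =>
  smulK 4 1 1152921504606846977 4611686018427387904 c21 a21_1 a21_2 a21_3 q21 fun c22 a22_1 a22_2 a22_3 q22 =>
  sqK z1 (Nat.add w1 1152921504606846976) 1152921504606846976 1152921504606846976 0 fun c24 a24_1 a24_2 a24_3 q24 =>
  mulK c24 a24_1 a24_2 a24_3 q24 z1 (Nat.add w1 1152921504606846976) 1152921504606846976 1152921504606846976 0 fun c25 a25_1 a25_2 a25_3 q25 =>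
  addK c13 a13_1 a13_2 a13_3 q13 z2 1152921504606846976 (Nat.add w2 1152921504606846976) 1152921504606846976 0 fun c27 a27_1 a27_2 a27_3 q27 =>
  mulK c25 a25_1 a25_2 a25_3 q25 c27 a27_1 a27_2 a27_3 q27 fun c28 a28_1 a28_2 a28_3 q28 =>
  sqK c25 a25_1 a25_2 a25_3 q25 fun c29 a29_1 a29_2 a29_3 q29 =>
  smulK 1 2 2305843009213693954 1152921504606846976 c29 a29_1 a29_2 a29_3 q29 fun c31 a31_1 a31_2 a31_3 q31 =>
  mulK c31 a31_1 a31_2 a31_3 q31 c3 a3_1 a3_2 a3_3 q3 fun c33 a33_1 a33_2 a33_3 q33 =>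
  sqK c3 a3_1 a3_2 a3_3 q3 fun c34 a34_1 a34_2 a34_3 q34 =>
  sqK c13 a13_1 a13_2 a13_3 q13 fun c36 a36_1 a36_2 a36_3 q36 =>
  subK c34 a34_1 a34_2 a34_3 q34 c36 a36_1 a36_2 a36_3 q36 fun c38 a38_1 a38_2 a38_3 q38 =>
  subK c38 a38_1 a38_2 a38_3 q38 c1 a1_1 a1_2 a1_3 q1 fun c39 a39_1 a39_2 a39_3 q39 =>
  mulK c33 a33_1 a33_2 a33_3 q33 c39 a39_1 a39_2 a39_3 q39 fun c40 a40_1 a40_2 a40_3 q40 =>
  addcK c40 a40_1 a40_2 a40_3 q40 1152921724509172531 1 fun c41 a41_1 a41_2 a41_3 q41 =>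
  mulK c28 a28_1 a28_2 a28_3 q28 c41 a41_1 a41_2 a41_3 q41 fun c43 a43_1 a43_2 a43_3 q43 =>
  addK c22 a22_1 a22_2 a22_3 q22 c43 a43_1 a43_2 a43_3 q43 fun c44 a44_1 a44_2 a44_3 q44 =>
  subK c13 a13_1 a13_2 a13_3 q13 z2 1152921504606846976 (Nat.add w2 1152921504606846976) 1152921504606846976 0 fun c46 a46_1 a46_2 a46_3 q46 =>
  mulK c46 a46_1 a46_2 a46_3 q46 c44 a44_1 a44_2 a44_3 q44 fun c47 a47_1 a47_2 a47_3 q47 =>
  smulK 13 100 115292150460684697700 14987979559889010688 z3 1152921504606846976 1152921504606846976 (Nat.add w3 1152921504606846976) 0 fun c48 a48_1 a48_2 a48_3 q48 =>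
  addcK c48 a48_1 a48_2 a48_3 q48 1152921572776567898 1 fun c49 a49_1 a49_2 a49_3 q49 =>
  smulK 19 100 115292150460684697700 21905508587530092544 z3 1152921504606846976 1152921504606846976 (Nat.add w3 1152921504606846976) 0 fun c51 a51_1 a51_2 a51_3 q51 =>
  mulK c51 a51_1 a51_2 a51_3 q51 z3 1152921504606846976 1152921504606846976 (Nat.add w3 1152921504606846976) 0 fun c52 a52_1 a52_2 a52_3 q52 =>
  addK c49 a49_1 a49_2 a49_3 q49 c52 a52_1 a52_2 a52_3 q52 fun c53 a53_1 a53_2 a53_3 q53 =>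
  smulK 4 1 1152921504606846977 4611686018427387904 c53 a53_1 a53_2 a53_3 q53 fun c55 a55_1 a55_2 a55_3 q55 =>
  smulK 9 5 5764607523034234885 10376293541461622784 z1 (Nat.add w1 1152921504606846976) 1152921504606846976 1152921504606846976 0 fun c56 a56_1 a56_2 a56_3 q56 =>
  negK c56 a56_1 a56_2 a56_3 q56 fun c57 a57_1 a57_2 a57_3 q57 =>
  addcK c57 a57_1 a57_2 a57_3 q57 1152923703630102528 0 fun c58 a58_1 a58_2 a58_3 q58 =>
  smulK 1 10 11529215046068469770 1152921504606846976 c25 a25_1 a25_2 a25_3 q25 fun c60 a60_1 a60_2 a60_3 q60 =>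
  subK c58 a58_1 a58_2 a58_3 q58 c60 a60_1 a60_2 a60_3 q60 fun c62 a62_1 a62_2 a62_3 q62 =>
  sqK c24 a24_1 a24_2 a24_3 q24 fun c63 a63_1 a63_2 a63_3 q63 =>
  sqK c63 a63_1 a63_2 a63_3 q63 fun c65 a65_1 a65_2 a65_3 q65 =>
  mulK c65 a65_1 a65_2 a65_3 q65 z1 (Nat.add w1 1152921504606846976) 1152921504606846976 1152921504606846976 0 fun c67 a67_1 a67_2 a67_3 q67 =>
  smulK 1 10 11529215046068469770 1152921504606846976 c67 a67_1 a67_2 a67_3 q67 fun c69 a69_1 a69_2 a69_3 q69 =>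
  subK c62 a62_1 a62_2 a62_3 q62 c69 a69_1 a69_2 a69_3 q69 fun c71 a71_1 a71_2 a71_3 q71 =>
  mulK c55 a55_1 a55_2 a55_3 q55 c71 a71_1 a71_2 a71_3 q71 fun c73 a73_1 a73_2 a73_3 q73 =>
  addK c47 a47_1 a47_2 a47_3 q47 c73 a73_1 a73_2 a73_3 q73 fun c74 a74_1 a74_2 a74_3 q74 =>
  smulK 2 3 3458764513820540931 2305843009213693952 z3 1152921504606846976 1152921504606846976 (Nat.add w3 1152921504606846976) 0 fun c75 a75_1 a75_2 a75_3 q75 =>
  addcK z3 1152921504606846976 1152921504606846976 (Nat.add w3 1152921504606846976) 0 1152922604118474752 0 fun c76 a76_1 a76_2 a76_3 q76 =>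
  sqrtK c76 a76_1 a76_2 a76_3 q76 fun c78 a78_1 a78_2 a78_3 q78 =>
  addcK c78 a78_1 a78_2 a78_3 q78 1152922604118474752 0 fun c79 a79_1 a79_2 a79_3 q79 =>
  invK c79 a79_1 a79_2 a79_3 q79 fun c81 a81_1 a81_2 a81_3 q81 =>
  smulK 2 1 1152921504606846977 2305843009213693952 c81 a81_1 a81_2 a81_3 q81 fun c82 a82_1 a82_2 a82_3 q82 =>
  smulK 7 40 46116860184273879080 8070450532247928832 z3 1152921504606846976 1152921504606846976 (Nat.add w3 1152921504606846976) 0 fun c84 a84_1 a84_2 a84_3 q84 =>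
  addK c82 a82_1 a82_2 a82_3 q82 c84 a84_1 a84_2 a84_3 q84 fun c85 a85_1 a85_2 a85_3 q85 =>
  sqK z3 1152921504606846976 1152921504606846976 (Nat.add w3 1152921504606846976) 0 fun c86 a86_1 a86_2 a86_3 q86 =>
  mulK c86 a86_1 a86_2 a86_3 q86 z3 1152921504606846976 1152921504606846976 (Nat.add w3 1152921504606846976) 0 fun c87 a87_1 a87_2 a87_3 q87 =>
  smulK 1 32 36893488147419103264 1152921504606846976 c87 a87_1 a87_2 a87_3 q87 fun c89 a89_1 a89_2 a89_3 q89 =>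
  subK c85 a85_1 a85_2 a85_3 q85 c89 a89_1 a89_2 a89_3 q89 fun c91 a91_1 a91_2 a91_3 q91 =>
  mulK c75 a75_1 a75_2 a75_3 q75 c91 a91_1 a91_2 a91_3 q91 fun c93 a93_1 a93_2 a93_3 q93 =>
  negK c93 a93_1 a93_2 a93_3 q93 fun c94 a94_1 a94_2 a94_3 q94 =>
  addcK c94 a94_1 a94_2 a94_3 q94 1152922604118474752 0 fun c95 a95_1 a95_2 a95_3 q95 =>
  smulK 2 1 1152921504606846977 2305843009213693952 c95 a95_1 a95_2 a95_3 q95 fun c97 a97_1 a97_2 a97_3 q97 =>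
  mulK c97 a97_1 a97_2 a97_3 q97 z2 1152921504606846976 (Nat.add w2 1152921504606846976) 1152921504606846976 0 fun c98 a98_1 a98_2 a98_3 q98 =>
  mulK z1 (Nat.add w1 1152921504606846976) 1152921504606846976 1152921504606846976 0 z2 1152921504606846976 (Nat.add w2 1152921504606846976) 1152921504606846976 0 fun c99 a99_1 a99_2 a99_3 q99 =>
  smulK 9 5 5764607523034234885 10376293541461622784 c99 a99_1 a99_2 a99_3 q99 fun c100 a100_1 a100_2 a100_3 q100 =>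
  negK c100 a100_1 a100_2 a100_3 q100 fun c101 a101_1 a101_2 a101_3 q101 =>
  addcK c101 a101_1 a101_2 a101_3 q101 1152923703630102528 0 fun c102 a102_1 a102_2 a102_3 q102 =>
  sqK c99 a99_1 a99_2 a99_3 q99 fun c104 a104_1 a104_2 a104_3 q104 =>
  mulK c104 a104_1 a104_2 a104_3 q104 c99 a99_1 a99_2 a99_3 q99 fun c105 a105_1 a105_2 a105_3 q105 =>
  smulK 1 10 11529215046068469770 1152921504606846976 c105 a105_1 a105_2 a105_3 q105 fun c107 a107_1 a107_2 a107_3 q107 =>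
  subK c102 a102_1 a102_2 a102_3 q102 c107 a107_1 a107_2 a107_3 q107 fun c109 a109_1 a109_2 a109_3 q109 =>
  sqK c104 a104_1 a104_2 a104_3 q104 fun c110 a110_1 a110_2 a110_3 q110 =>
  sqK c110 a110_1 a110_2 a110_3 q110 fun c112 a112_1 a112_2 a112_3 q112 =>
  mulK c112 a112_1 a112_2 a112_3 q112 c99 a99_1 a99_2 a99_3 q99 fun c114 a114_1 a114_2 a114_3 q114 =>
  smulK 1 10 11529215046068469770 1152921504606846976 c114 a114_1 a114_2 a114_3 q114 fun c116 a116_1 a116_2 a116_3 q116 =>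
  subK c109 a109_1 a109_2 a109_3 q109 c116 a116_1 a116_2 a116_3 q116 fun c118 a118_1 a118_2 a118_3 q118 =>
  mulK c98 a98_1 a98_2 a98_3 q98 c118 a118_1 a118_2 a118_3 q118 fun c120 a120_1 a120_2 a120_3 q120 =>
  addK c74 a74_1 a74_2 a74_3 q74 c120 a120_1 a120_2 a120_3 q120 fun c121 a121_1 a121_2 a121_3 q121 =>
  mulK c44 a44_1 a44_2 a44_3 q44 c121 a121_1 a121_2 a121_3 q121 fun c122 a122_1 a122_2 a122_3 q122 =>
  smulK 4 1 1152921504606846977 4611686018427387904 c91 a91_1 a91_2 a91_3 q91 fun c123 a123_1 a123_2 a123_3 q123 =>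
  mulK c123 a123_1 a123_2 a123_3 q123 c91 a91_1 a91_2 a91_3 q91 fun c124 a124_1 a124_2 a124_3 q124 =>
  mulK c124 a124_1 a124_2 a124_3 q124 c27 a27_1 a27_2 a27_3 q27 fun c125 a125_1 a125_2 a125_3 q125 =>
  addcK z2 1152921504606846976 (Nat.add w2 1152921504606846976) 1152921504606846976 0 1152922604118474752 0 fun c126 a126_1 a126_2 a126_3 q126 =>
  invK c126 a126_1 a126_2 a126_3 q126 fun c128 a128_1 a128_2 a128_3 q128 =>
  smulK 4 3 3458764513820540931 4611686018427387904 c128 a128_1 a128_2 a128_3 q128 fun c129 a129_1 a129_2 a129_3 q129 =>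
  mulK c24 a24_1 a24_2 a24_3 q24 c3 a3_1 a3_2 a3_3 q3 fun c132 a132_1 a132_2 a132_3 q132 =>
  smulK 1 10 11529215046068469770 1152921504606846976 c132 a132_1 a132_2 a132_3 q132 fun c133 a133_1 a133_2 a133_3 q133 =>
  addcK c133 a133_1 a133_2 a133_3 q133 1152923483727776973 1 fun c135 a135_1 a135_2 a135_3 q135 =>
  mulK c1 a1_1 a1_2 a1_3 q1 c3 a3_1 a3_2 a3_3 q3 fun c137 a137_1 a137_2 a137_3 q137 =>
  addcK c137 a137_1 a137_2 a137_3 q137 1152922604118474752 0 fun c138 a138_1 a138_2 a138_3 q138 =>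
  mulK c1 a1_1 a1_2 a1_3 q1 c138 a138_1 a138_2 a138_3 q138 fun c140 a140_1 a140_2 a140_3 q140 =>
  addcK c140 a140_1 a140_2 a140_3 q140 1152922604118474752 0 fun c141 a141_1 a141_2 a141_3 q141 =>
  mulK c1 a1_1 a1_2 a1_3 q1 c141 a141_1 a141_2 a141_3 q141 fun c143 a143_1 a143_2 a143_3 q143 =>
  addcK c143 a143_1 a143_2 a143_3 q143 1152922604118474752 0 fun c144 a144_1 a144_2 a144_3 q144 =>
  mulK c65 a65_1 a65_2 a65_3 q65 c144 a144_1 a144_2 a144_3 q144 fun c146 a146_1 a146_2 a146_3 q146 =>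
  smulK 1 10 11529215046068469770 1152921504606846976 c146 a146_1 a146_2 a146_3 q146 fun c147 a147_1 a147_2 a147_3 q147 =>
  addK c135 a135_1 a135_2 a135_3 q135 c147 a147_1 a147_2 a147_3 q147 fun c149 a149_1 a149_2 a149_3 q149 =>
  smulK 2 3 3458764513820540931 2305843009213693952 c149 a149_1 a149_2 a149_3 q149 fun c150 a150_1 a150_2 a150_3 q150 =>
  negK c150 a150_1 a150_2 a150_3 q150 fun c151 a151_1 a151_2 a151_3 q151 =>
  addcK c151 a151_1 a151_2 a151_3 q151 1152922603018963124 1 fun c152 a152_1 a152_2 a152_3 q152 =>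
  mulK z1 (Nat.add w1 1152921504606846976) 1152921504606846976 1152921504606846976 0 c152 a152_1 a152_2 a152_3 q152 fun c154 a154_1 a154_2 a154_3 q154 =>
  addK c129 a129_1 a129_2 a129_3 q129 c154 a154_1 a154_2 a154_3 q154 fun c155 a155_1 a155_2 a155_3 q155 =>
  mulK c125 a125_1 a125_2 a125_3 q125 c155 a155_1 a155_2 a155_3 q155 fun c157 a157_1 a157_2 a157_3 q157 =>
  mulK c157 a157_1 a157_2 a157_3 q157 c155 a155_1 a155_2 a155_3 q155 fun c158 a158_1 a158_2 a158_3 q158 =>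
  subK c122 a122_1 a122_2 a122_3 q122 c158 a158_1 a158_2 a158_3 q158 fun c159 a159_1 a159_2 a159_3 q159 =>
  pos c159 a159_1 a159_2 a159_3 q159

theorem alt0_s {z1 w1 z2 w2 z3 w3 : ℕ} {e1 e2 e3 R t s : ℝ} (he : Ev e1 e2 e3)
    (hx1 : In e1 e2 e3 z1 (Nat.add w1 1152921504606846976) 1152921504606846976 1152921504606846976 0 R)
    (hx2 : In e1 e2 e3 z2 1152921504606846976 (Nat.add w2 1152921504606846976) 1152921504606846976 0 t)
    (hx3 : In e1 e2 e3 z3 1152921504606846976 1152921504606846976 (Nat.add w3 1152921504606846976) 0 s)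
    (H0 : alt0 z1 w1 z2 w2 z3 w3 = true) : 0 < (((G R t s) * (((((w R t s) - t) * (G R t s)) + (((4:ℝ) * (c0 R t s)) * (u0 R t s))) + ((((2:ℝ) * ((1:ℝ) - (((2/3:ℝ) * s) * (kap R t s)))) * t) * (u1 R t s)))) - ((((((4:ℝ) * (kap R t s)) * (kap R t s)) * ((w R t s) + t)) * (m R t s)) * (m R t s))) := by
  unfold alt0 at H0
  refine sqK_s he hx2 (fun _ _ _ _ _ h1 H1 => ?_) H0
  have h2 := In_cast h1 (sq _)
  refine addcK_s he h2 (v' := (1:ℝ)) (by norm_num [SS, BB, abs_le]) (fun _ _ _ _ _ h3 H2 => ?_) H1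
  have h4 := In_cast h3 (add_comm _ _)
  refine negK_s he h2 (fun _ _ _ _ _ h5 H3 => ?_) H2
  refine addcK_s he h5 (v' := (1:ℝ)) (by norm_num [SS, BB, abs_le]) (fun _ _ _ _ _ h6 H4 => ?_) H3
  have h7 := In_cast h6 (neg_add_eq_sub _ _)
  refine mulK_s he hx3 h7 (fun _ _ _ _ _ h8 H5 => ?_) H4
  refine sqK_s he h8 (fun _ _ _ _ _ h9 H6 => ?_) H5
  refine smulK_s he (w := (1/4:ℝ)) (by norm_num) (by norm_num) (by norm_num) (by norm_num) h9 (fun _ _ _ _ _ h10 H7 => ?_) H6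
  have h11 := In_cast h10 (div_c (c := (4:ℝ)) (by norm_num))
  refine addK_s he h2 h11 (fun _ _ _ _ _ h12 H8 => ?_) H7
  refine sqrtK_s he h12 (fun _ _ _ _ _ h13 H9 => ?_) H8
  have h14 := In_cast (w := (w R t s)) h13 rfl
  refine smulK_s he (w := (2:ℝ)) (by norm_num) (by norm_num) (by norm_num) (by norm_num) h14 (fun _ _ _ _ _ h15 H10 => ?_) H9
  refine addK_s he h4 h15 (fun _ _ _ _ _ h16 H11 => ?_) H10
  refine sqrtK_s he h16 (fun _ _ _ _ _ h17 H12 => ?_) H11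
  have h18 := In_cast (w := (S R t s)) h17 rfl
  refine addcK_s he h18 (v' := (1:ℝ)) (by norm_num [SS, BB, abs_le]) (fun _ _ _ _ _ h19 H13 => ?_) H12
  refine addK_s he h19 hx2 (fun _ _ _ _ _ h20 H14 => ?_) H13
  refine invK_s he h20 (fun _ _ _ _ _ h21 H15 => ?_) H14
  refine smulK_s he (w := (4:ℝ)) (by norm_num) (by norm_num) (by norm_num) (by norm_num) h21 (fun _ _ _ _ _ h22 H16 => ?_) H15
  have h23 := In_cast h22 ((div_eq_mul_inv _ _).symm)
  refine sqK_s he hx1 (fun _ _ _ _ _ h24 H17 => ?_) H16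
  refine mulK_s he h24 hx1 (fun _ _ _ _ _ h25 H18 => ?_) H17
  have h26 := In_cast h25 (pow_sc (n := 3) rfl)
  refine addK_s he h14 hx2 (fun _ _ _ _ _ h27 H19 => ?_) H18
  refine mulK_s he h26 h27 (fun _ _ _ _ _ h28 H20 => ?_) H19
  refine sqK_s he h26 (fun _ _ _ _ _ h29 H21 => ?_) H20
  have h30 := In_cast h29 (pow_dbl (n := 6) rfl)
  refine smulK_s he (w := (1/2:ℝ)) (by norm_num) (by norm_num) (by norm_num) (by norm_num) h30 (fun _ _ _ _ _ h31 H22 => ?_) H21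
  have h32 := In_cast (w := (P R t s)) h4 rfl
  refine mulK_s he h31 h32 (fun _ _ _ _ _ h33 H23 => ?_) H22
  refine sqK_s he h32 (fun _ _ _ _ _ h34 H24 => ?_) H23
  have h35 := In_cast h34 (sq _)
  refine sqK_s he h14 (fun _ _ _ _ _ h36 H25 => ?_) H24
  have h37 := In_cast h36 (sq _)
  refine subK_s he h35 h37 (fun _ _ _ _ _ h38 H26 => ?_) H25
  refine subK_s he h38 h2 (fun _ _ _ _ _ h39 H27 => ?_) H26
  refine mulK_s he h33 h39 (fun _ _ _ _ _ h40 H28 => ?_) H27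
  refine addcK_s he h40 (v' := (1/5:ℝ)) (by norm_num [SS, BB, abs_le]) (fun _ _ _ _ _ h41 H29 => ?_) H28
  have h42 := In_cast h41 (add_comm _ _)
  refine mulK_s he h28 h42 (fun _ _ _ _ _ h43 H30 => ?_) H29
  refine addK_s he h23 h43 (fun _ _ _ _ _ h44 H31 => ?_) H30
  have h45 := In_cast (w := (G R t s)) h44 rfl
  refine subK_s he h14 hx2 (fun _ _ _ _ _ h46 H32 => ?_) H31
  refine mulK_s he h46 h45 (fun _ _ _ _ _ h47 H33 => ?_) H32
  refine smulK_s he (w := (13/100:ℝ)) (by norm_num) (by norm_num) (by norm_num) (by norm_num) hx3 (fun _ _ _ _ _ h48 H34 => ?_) H33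
  refine addcK_s he h48 (v' := (31/500:ℝ)) (by norm_num [SS, BB, abs_le]) (fun _ _ _ _ _ h49 H35 => ?_) H34
  have h50 := In_cast h49 (add_comm _ _)
  refine smulK_s he (w := (19/100:ℝ)) (by norm_num) (by norm_num) (by norm_num) (by norm_num) hx3 (fun _ _ _ _ _ h51 H36 => ?_) H35
  refine mulK_s he h51 hx3 (fun _ _ _ _ _ h52 H37 => ?_) H36
  refine addK_s he h50 h52 (fun _ _ _ _ _ h53 H38 => ?_) H37
  have h54 := In_cast (w := (c0 R t s)) h53 rfl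
  refine smulK_s he (w := (4:ℝ)) (by norm_num) (by norm_num) (by norm_num) (by norm_num) h54 (fun _ _ _ _ _ h55 H39 => ?_) H38
  refine smulK_s he (w := (9/5:ℝ)) (by norm_num) (by norm_num) (by norm_num) (by norm_num) hx1 (fun _ _ _ _ _ h56 H40 => ?_) H39
  refine negK_s he h56 (fun _ _ _ _ _ h57 H41 => ?_) H40
  refine addcK_s he h57 (v' := (2:ℝ)) (by norm_num [SS, BB, abs_le]) (fun _ _ _ _ _ h58 H42 => ?_) H41
  have h59 := In_cast h58 (neg_add_eq_sub _ _)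
  refine smulK_s he (w := (1/10:ℝ)) (by norm_num) (by norm_num) (by norm_num) (by norm_num) h26 (fun _ _ _ _ _ h60 H43 => ?_) H42
  have h61 := In_cast h60 (div_c (c := (10:ℝ)) (by norm_num))
  refine subK_s he h59 h61 (fun _ _ _ _ _ h62 H44 => ?_) H43
  refine sqK_s he h24 (fun _ _ _ _ _ h63 H45 => ?_) H44
  have h64 := In_cast h63 (pow_dbl (n := 4) rfl)
  refine sqK_s he h64 (fun _ _ _ _ _ h65 H46 => ?_) H45
  have h66 := In_cast h65 (pow_dbl (n := 8) rfl)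
  refine mulK_s he h66 hx1 (fun _ _ _ _ _ h67 H47 => ?_) H46
  have h68 := In_cast h67 (pow_sc (n := 9) rfl)
  refine smulK_s he (w := (1/10:ℝ)) (by norm_num) (by norm_num) (by norm_num) (by norm_num) h68 (fun _ _ _ _ _ h69 H48 => ?_) H47
  have h70 := In_cast h69 (div_c (c := (10:ℝ)) (by norm_num))
  refine subK_s he h62 h70 (fun _ _ _ _ _ h71 H49 => ?_) H48
  have h72 := In_cast (w := (u0 R t s)) h71 rfl
  refine mulK_s he h55 h72 (fun _ _ _ _ _ h73 H50 => ?_) H49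
  refine addK_s he h47 h73 (fun _ _ _ _ _ h74 H51 => ?_) H50
  refine smulK_s he (w := (2/3:ℝ)) (by norm_num) (by norm_num) (by norm_num) (by norm_num) hx3 (fun _ _ _ _ _ h75 H52 => ?_) H51
  refine addcK_s he hx3 (v' := (1:ℝ)) (by norm_num [SS, BB, abs_le]) (fun _ _ _ _ _ h76 H53 => ?_) H52
  have h77 := In_cast h76 (add_comm _ _)
  refine sqrtK_s he h77 (fun _ _ _ _ _ h78 H54 => ?_) H53
  refine addcK_s he h78 (v' := (1:ℝ)) (by norm_num [SS, BB, abs_le]) (fun _ _ _ _ _ h79 H55 => ?_) H54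
  have h80 := In_cast h79 (add_comm _ _)
  refine invK_s he h80 (fun _ _ _ _ _ h81 H56 => ?_) H55
  refine smulK_s he (w := (2:ℝ)) (by norm_num) (by norm_num) (by norm_num) (by norm_num) h81 (fun _ _ _ _ _ h82 H57 => ?_) H56
  have h83 := In_cast h82 ((div_eq_mul_inv _ _).symm)
  refine smulK_s he (w := (7/40:ℝ)) (by norm_num) (by norm_num) (by norm_num) (by norm_num) hx3 (fun _ _ _ _ _ h84 H58 => ?_) H57
  refine addK_s he h83 h84 (fun _ _ _ _ _ h85 H59 => ?_) H58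
  refine sqK_s he hx3 (fun _ _ _ _ _ h86 H60 => ?_) H59
  refine mulK_s he h86 hx3 (fun _ _ _ _ _ h87 H61 => ?_) H60
  have h88 := In_cast h87 (pow_sc (n := 3) rfl)
  refine smulK_s he (w := (1/32:ℝ)) (by norm_num) (by norm_num) (by norm_num) (by norm_num) h88 (fun _ _ _ _ _ h89 H62 => ?_) H61
  have h90 := In_cast h89 (div_c (c := (32:ℝ)) (by norm_num))
  refine subK_s he h85 h90 (fun _ _ _ _ _ h91 H63 => ?_) H62
  have h92 := In_cast (w := (kap R t s)) h91 rfl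
  refine mulK_s he h75 h92 (fun _ _ _ _ _ h93 H64 => ?_) H63
  refine negK_s he h93 (fun _ _ _ _ _ h94 H65 => ?_) H64
  refine addcK_s he h94 (v' := (1:ℝ)) (by norm_num [SS, BB, abs_le]) (fun _ _ _ _ _ h95 H66 => ?_) H65
  have h96 := In_cast h95 (neg_add_eq_sub _ _)
  refine smulK_s he (w := (2:ℝ)) (by norm_num) (by norm_num) (by norm_num) (by norm_num) h96 (fun _ _ _ _ _ h97 H67 => ?_) H66
  refine mulK_s he h97 hx2 (fun _ _ _ _ _ h98 H68 => ?_) H67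
  refine mulK_s he hx1 hx2 (fun _ _ _ _ _ h99 H69 => ?_) H68
  refine smulK_s he (w := (9/5:ℝ)) (by norm_num) (by norm_num) (by norm_num) (by norm_num) h99 (fun _ _ _ _ _ h100 H70 => ?_) H69
  refine negK_s he h100 (fun _ _ _ _ _ h101 H71 => ?_) H70
  refine addcK_s he h101 (v' := (2:ℝ)) (by norm_num [SS, BB, abs_le]) (fun _ _ _ _ _ h102 H72 => ?_) H71
  have h103 := In_cast h102 (neg_add_eq_sub _ _)
  refine sqK_s he h99 (fun _ _ _ _ _ h104 H73 => ?_) H72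
  refine mulK_s he h104 h99 (fun _ _ _ _ _ h105 H74 => ?_) H73
  have h106 := In_cast h105 (pow_sc (n := 3) rfl)
  refine smulK_s he (w := (1/10:ℝ)) (by norm_num) (by norm_num) (by norm_num) (by norm_num) h106 (fun _ _ _ _ _ h107 H75 => ?_) H74
  have h108 := In_cast h107 (div_c (c := (10:ℝ)) (by norm_num))
  refine subK_s he h103 h108 (fun _ _ _ _ _ h109 H76 => ?_) H75
  refine sqK_s he h104 (fun _ _ _ _ _ h110 H77 => ?_) H76
  have h111 := In_cast h110 (pow_dbl (n := 4) rfl)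
  refine sqK_s he h111 (fun _ _ _ _ _ h112 H78 => ?_) H77
  have h113 := In_cast h112 (pow_dbl (n := 8) rfl)
  refine mulK_s he h113 h99 (fun _ _ _ _ _ h114 H79 => ?_) H78
  have h115 := In_cast h114 (pow_sc (n := 9) rfl)
  refine smulK_s he (w := (1/10:ℝ)) (by norm_num) (by norm_num) (by norm_num) (by norm_num) h115 (fun _ _ _ _ _ h116 H80 => ?_) H79
  have h117 := In_cast h116 (div_c (c := (10:ℝ)) (by norm_num))
  refine subK_s he h109 h117 (fun _ _ _ _ _ h118 H81 => ?_) H80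
  have h119 := In_cast (w := (u1 R t s)) h118 rfl
  refine mulK_s he h98 h119 (fun _ _ _ _ _ h120 H82 => ?_) H81
  refine addK_s he h74 h120 (fun _ _ _ _ _ h121 H83 => ?_) H82
  refine mulK_s he h45 h121 (fun _ _ _ _ _ h122 H84 => ?_) H83
  refine smulK_s he (w := (4:ℝ)) (by norm_num) (by norm_num) (by norm_num) (by norm_num) h92 (fun _ _ _ _ _ h123 H85 => ?_) H84
  refine mulK_s he h123 h92 (fun _ _ _ _ _ h124 H86 => ?_) H85
  refine mulK_s he h124 h27 (fun _ _ _ _ _ h125 H87 => ?_) H86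
  refine addcK_s he hx2 (v' := (1:ℝ)) (by norm_num [SS, BB, abs_le]) (fun _ _ _ _ _ h126 H88 => ?_) H87
  have h127 := In_cast h126 (add_comm _ _)
  refine invK_s he h127 (fun _ _ _ _ _ h128 H89 => ?_) H88
  refine smulK_s he (w := (4/3:ℝ)) (by norm_num) (by norm_num) (by norm_num) (by norm_num) h128 (fun _ _ _ _ _ h129 H90 => ?_) H89
  have h130 := In_cast h129 ((div_eq_mul_inv _ _).symm)
  have h131 := In_cast h24 (sq _)
  refine mulK_s he h131 h32 (fun _ _ _ _ _ h132 H91 => ?_) H90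
  refine smulK_s he (w := (1/10:ℝ)) (by norm_num) (by norm_num) (by norm_num) (by norm_num) h132 (fun _ _ _ _ _ h133 H92 => ?_) H91
  have h134 := In_cast h133 (div_c (c := (10:ℝ)) (by norm_num))
  refine addcK_s he h134 (v' := (9/5:ℝ)) (by norm_num [SS, BB, abs_le]) (fun _ _ _ _ _ h135 H93 => ?_) H92
  have h136 := In_cast h135 (add_comm _ _)
  refine mulK_s he h2 h4 (fun _ _ _ _ _ h137 H94 => ?_) H93
  refine addcK_s he h137 (v' := (1:ℝ)) (by norm_num [SS, BB, abs_le]) (fun _ _ _ _ _ h138 H95 => ?_) H94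
  have h139 := In_cast h138 (add_comm _ _)
  refine mulK_s he h2 h139 (fun _ _ _ _ _ h140 H96 => ?_) H95
  refine addcK_s he h140 (v' := (1:ℝ)) (by norm_num [SS, BB, abs_le]) (fun _ _ _ _ _ h141 H97 => ?_) H96
  have h142 := In_cast h141 (add_comm _ _)
  refine mulK_s he h2 h142 (fun _ _ _ _ _ h143 H98 => ?_) H97
  refine addcK_s he h143 (v' := (1:ℝ)) (by norm_num [SS, BB, abs_le]) (fun _ _ _ _ _ h144 H99 => ?_) H98
  have h145 := In_cast h144 (add_comm _ _)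
  refine mulK_s he h66 h145 (fun _ _ _ _ _ h146 H100 => ?_) H99
  refine smulK_s he (w := (1/10:ℝ)) (by norm_num) (by norm_num) (by norm_num) (by norm_num) h146 (fun _ _ _ _ _ h147 H101 => ?_) H100
  have h148 := In_cast h147 (div_c (c := (10:ℝ)) (by norm_num))
  refine addK_s he h136 h148 (fun _ _ _ _ _ h149 H102 => ?_) H101
  refine smulK_s he (w := (2/3:ℝ)) (by norm_num) (by norm_num) (by norm_num) (by norm_num) h149 (fun _ _ _ _ _ h150 H103 => ?_) H102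
  refine negK_s he h150 (fun _ _ _ _ _ h151 H104 => ?_) H103
  refine addcK_s he h151 (v' := (999/1000:ℝ)) (by norm_num [SS, BB, abs_le]) (fun _ _ _ _ _ h152 H105 => ?_) H104
  have h153 := In_cast h152 (neg_add_eq_sub _ _)
  refine mulK_s he hx1 h153 (fun _ _ _ _ _ h154 H106 => ?_) H105
  refine addK_s he h130 h154 (fun _ _ _ _ _ h155 H107 => ?_) H106
  have h156 := In_cast (w := (m R t s)) h155 rfl
  refine mulK_s he h125 h156 (fun _ _ _ _ _ h157 H108 => ?_) H107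
  refine mulK_s he h157 h156 (fun _ _ _ _ _ h158 H109 => ?_) H108
  refine subK_s he h122 h158 (fun _ _ _ _ _ h159 H110 => ?_) H109
  exact pos_s he h159 H110

noncomputable def alt1 (z1 w1 z2 w2 z3 w3 : ℕ) : Bool :=
  addcK z2 1152921504606846976 (Nat.add w2 1152921504606846976) 1152921504606846976 0 1152922604118474752 0 fun c1 a1_1 a1_2 a1_3 q1 =>
  invK c1 a1_1 a1_2 a1_3 q1 fun c3 a3_1 a3_2 a3_3 q3 =>
  smulK 4 3 3458764513820540931 4611686018427387904 c3 a3_1 a3_2 a3_3 q3 fun c4 a4_1 a4_2 a4_3 q4 =>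
  sqK z1 (Nat.add w1 1152921504606846976) 1152921504606846976 1152921504606846976 0 fun c6 a6_1 a6_2 a6_3 q6 =>
  sqK z2 1152921504606846976 (Nat.add w2 1152921504606846976) 1152921504606846976 0 fun c8 a8_1 a8_2 a8_3 q8 =>
  addcK c8 a8_1 a8_2 a8_3 q8 1152922604118474752 0 fun c10 a10_1 a10_2 a10_3 q10 =>
  mulK c6 a6_1 a6_2 a6_3 q6 c10 a10_1 a10_2 a10_3 q10 fun c13 a13_1 a13_2 a13_3 q13 =>
  smulK 1 10 11529215046068469770 1152921504606846976 c13 a13_1 a13_2 a13_3 q13 fun c14 a14_1 a14_2 a14_3 q14 =>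
  addcK c14 a14_1 a14_2 a14_3 q14 1152923483727776973 1 fun c16 a16_1 a16_2 a16_3 q16 =>
  sqK c6 a6_1 a6_2 a6_3 q6 fun c18 a18_1 a18_2 a18_3 q18 =>
  sqK c18 a18_1 a18_2 a18_3 q18 fun c20 a20_1 a20_2 a20_3 q20 =>
  mulK c8 a8_1 a8_2 a8_3 q8 c10 a10_1 a10_2 a10_3 q10 fun c22 a22_1 a22_2 a22_3 q22 =>
  addcK c22 a22_1 a22_2 a22_3 q22 1152922604118474752 0 fun c23 a23_1 a23_2 a23_3 q23 =>
  mulK c8 a8_1 a8_2 a8_3 q8 c23 a23_1 a23_2 a23_3 q23 fun c25 a25_1 a25_2 a25_3 q25 =>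
  addcK c25 a25_1 a25_2 a25_3 q25 1152922604118474752 0 fun c26 a26_1 a26_2 a26_3 q26 =>
  mulK c8 a8_1 a8_2 a8_3 q8 c26 a26_1 a26_2 a26_3 q26 fun c28 a28_1 a28_2 a28_3 q28 =>
  addcK c28 a28_1 a28_2 a28_3 q28 1152922604118474752 0 fun c29 a29_1 a29_2 a29_3 q29 =>
  mulK c20 a20_1 a20_2 a20_3 q20 c29 a29_1 a29_2 a29_3 q29 fun c31 a31_1 a31_2 a31_3 q31 =>
  smulK 1 10 11529215046068469770 1152921504606846976 c31 a31_1 a31_2 a31_3 q31 fun c32 a32_1 a32_2 a32_3 q32 =>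
  addK c16 a16_1 a16_2 a16_3 q16 c32 a32_1 a32_2 a32_3 q32 fun c34 a34_1 a34_2 a34_3 q34 =>
  smulK 2 3 3458764513820540931 2305843009213693952 c34 a34_1 a34_2 a34_3 q34 fun c35 a35_1 a35_2 a35_3 q35 =>
  negK c35 a35_1 a35_2 a35_3 q35 fun c36 a36_1 a36_2 a36_3 q36 =>
  addcK c36 a36_1 a36_2 a36_3 q36 1152922603018963124 1 fun c37 a37_1 a37_2 a37_3 q37 =>
  mulK z1 (Nat.add w1 1152921504606846976) 1152921504606846976 1152921504606846976 0 c37 a37_1 a37_2 a37_3 q37 fun c39 a39_1 a39_2 a39_3 q39 =>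
  addK c4 a4_1 a4_2 a4_3 q4 c39 a39_1 a39_2 a39_3 q39 fun c40 a40_1 a40_2 a40_3 q40 =>
  negK c40 a40_1 a40_2 a40_3 q40 fun c42 a42_1 a42_2 a42_3 q42 =>
  pos c42 a42_1 a42_2 a42_3 q42

theorem alt1_s {z1 w1 z2 w2 z3 w3 : ℕ} {e1 e2 e3 R t s : ℝ} (he : Ev e1 e2 e3)
    (hx1 : In e1 e2 e3 z1 (Nat.add w1 1152921504606846976) 1152921504606846976 1152921504606846976 0 R)
    (hx2 : In e1 e2 e3 z2 1152921504606846976 (Nat.add w2 1152921504606846976) 1152921504606846976 0 t)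
    (hx3 : In e1 e2 e3 z3 1152921504606846976 1152921504606846976 (Nat.add w3 1152921504606846976) 0 s)
    (H0 : alt1 z1 w1 z2 w2 z3 w3 = true) : 0 < (-(m R t s)) := by
  unfold alt1 at H0
  refine addcK_s he hx2 (v' := (1:ℝ)) (by norm_num [SS, BB, abs_le]) (fun _ _ _ _ _ h1 H1 => ?_) H0
  have h2 := In_cast h1 (add_comm _ _)
  refine invK_s he h2 (fun _ _ _ _ _ h3 H2 => ?_) H1
  refine smulK_s he (w := (4/3:ℝ)) (by norm_num) (by norm_num) (by norm_num) (by norm_num) h3 (fun _ _ _ _ _ h4 H3 => ?_) H2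
  have h5 := In_cast h4 ((div_eq_mul_inv _ _).symm)
  refine sqK_s he hx1 (fun _ _ _ _ _ h6 H4 => ?_) H3
  have h7 := In_cast h6 (sq _)
  refine sqK_s he hx2 (fun _ _ _ _ _ h8 H5 => ?_) H4
  have h9 := In_cast h8 (sq _)
  refine addcK_s he h9 (v' := (1:ℝ)) (by norm_num [SS, BB, abs_le]) (fun _ _ _ _ _ h10 H6 => ?_) H5
  have h11 := In_cast h10 (add_comm _ _)
  have h12 := In_cast (w := (P R t s)) h11 rfl
  refine mulK_s he h7 h12 (fun _ _ _ _ _ h13 H7 => ?_) H6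
  refine smulK_s he (w := (1/10:ℝ)) (by norm_num) (by norm_num) (by norm_num) (by norm_num) h13 (fun _ _ _ _ _ h14 H8 => ?_) H7
  have h15 := In_cast h14 (div_c (c := (10:ℝ)) (by norm_num))
  refine addcK_s he h15 (v' := (9/5:ℝ)) (by norm_num [SS, BB, abs_le]) (fun _ _ _ _ _ h16 H9 => ?_) H8
  have h17 := In_cast h16 (add_comm _ _)
  refine sqK_s he h6 (fun _ _ _ _ _ h18 H10 => ?_) H9
  have h19 := In_cast h18 (pow_dbl (n := 4) rfl)
  refine sqK_s he h19 (fun _ _ _ _ _ h20 H11 => ?_) H10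
  have h21 := In_cast h20 (pow_dbl (n := 8) rfl)
  refine mulK_s he h9 h11 (fun _ _ _ _ _ h22 H12 => ?_) H11
  refine addcK_s he h22 (v' := (1:ℝ)) (by norm_num [SS, BB, abs_le]) (fun _ _ _ _ _ h23 H13 => ?_) H12
  have h24 := In_cast h23 (add_comm _ _)
  refine mulK_s he h9 h24 (fun _ _ _ _ _ h25 H14 => ?_) H13
  refine addcK_s he h25 (v' := (1:ℝ)) (by norm_num [SS, BB, abs_le]) (fun _ _ _ _ _ h26 H15 => ?_) H14
  have h27 := In_cast h26 (add_comm _ _)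
  refine mulK_s he h9 h27 (fun _ _ _ _ _ h28 H16 => ?_) H15
  refine addcK_s he h28 (v' := (1:ℝ)) (by norm_num [SS, BB, abs_le]) (fun _ _ _ _ _ h29 H17 => ?_) H16
  have h30 := In_cast h29 (add_comm _ _)
  refine mulK_s he h21 h30 (fun _ _ _ _ _ h31 H18 => ?_) H17
  refine smulK_s he (w := (1/10:ℝ)) (by norm_num) (by norm_num) (by norm_num) (by norm_num) h31 (fun _ _ _ _ _ h32 H19 => ?_) H18
  have h33 := In_cast h32 (div_c (c := (10:ℝ)) (by norm_num))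
  refine addK_s he h17 h33 (fun _ _ _ _ _ h34 H20 => ?_) H19
  refine smulK_s he (w := (2/3:ℝ)) (by norm_num) (by norm_num) (by norm_num) (by norm_num) h34 (fun _ _ _ _ _ h35 H21 => ?_) H20
  refine negK_s he h35 (fun _ _ _ _ _ h36 H22 => ?_) H21
  refine addcK_s he h36 (v' := (999/1000:ℝ)) (by norm_num [SS, BB, abs_le]) (fun _ _ _ _ _ h37 H23 => ?_) H22
  have h38 := In_cast h37 (neg_add_eq_sub _ _)
  refine mulK_s he hx1 h38 (fun _ _ _ _ _ h39 H24 => ?_) H23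
  refine addK_s he h5 h39 (fun _ _ _ _ _ h40 H25 => ?_) H24
  have h41 := In_cast (w := (m R t s)) h40 rfl
  refine negK_s he h41 (fun _ _ _ _ _ h42 H26 => ?_) H25
  exact pos_s he h42 H26

attribute [irreducible] alt0 alt1

noncomputable def leaf (j u z1 w1 z2 w2 z3 w3 : ℕ) : Bool :=
  sB j (alt0 z1 w1 z2 w2 z3 w3) fun j => alt1 z1 w1 z2 w2 z3 w3

theorem snd : Snd Q leaf := by
  intro j u z1 w1 z2 w2 z3 w3 e1 e2 e3 he H
  unfold leaf at H
  unfold Q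
  replace H := sel H
  rcases H with H | ⟨j, H⟩
  · exact Or.inl (alt0_s he (var1 z1 w1) (var2 z2 w2) (var3 z3 w3) H)
  exact Or.inr (alt1_s he (var1 z1 w1) (var2 z2 w2) (var3 z3 w3) H)

end Crest.Agent.R307.GPa
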