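import Crest.Agent.R307.GPa
set_option autoImplicit false
set_option maxRecDepth 100000
namespace Crest.Agent.R307.GPa
open Crest.Agent.R307.IA Crest.Agent.R307.IA3

theorem k6 : Cov Q 1152922329240568073 1152922604118474752 1152922191801614507 1152922604118474752 1152921504606846976 1152922164313823642 :=
  cov_of snd 0 0 23 _ _ _ _ _ _ 0x43130313031303130313031303130313030330133013303301033033013330033032101330330321330332033033021033032330331033020333003302331331330203330120110 (by decide +kernel)

end Crest.Agent.R307.GPa
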