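import Crest.Agent.R307.IA3
import Crest.Agent.R307.IAx
set_option autoImplicit false
set_option linter.unusedVariables false
set_option maxRecDepth 20000
namespace Crest.Agent.R307.GPb
open Crest.Agent.R307.IA Crest.Agent.R307.IA3

theorem In_cast {e1 e2 e3 : ℝ} {x y1 y2 y3 r : ℕ} {v w : ℝ}
    (h : In e1 e2 e3 x y1 y2 y3 r v) (e : v = w) : In e1 e2 e3 x y1 y2 y3 r w := e ▸ h

noncomputable def v (R w z : ℝ) : ℝ := (((1:ℝ) - (z * z)) / ((1:ℝ) + (z * z)))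
noncomputable def t (R w z : ℝ) : ℝ := (w * (v R w z))
noncomputable def S (R w z : ℝ) : ℝ := (√(((1:ℝ) + ((t R w z) * (t R w z))) + ((2:ℝ) * w)))
noncomputable def P (R w z : ℝ) : ℝ := ((1:ℝ) + ((t R w z) * (t R w z)))
noncomputable def G (R w z : ℝ) : ℝ := (((4:ℝ) / (((S R w z) + (1:ℝ)) + (t R w z))) + (((R ^ 3) * (w + (t R w z))) * ((1/5:ℝ) + ((((1/2:ℝ) * (R ^ 6)) * (P R w z)) * ((((P R w z) * (P R w z)) - (w * w)) - ((t R w z) * (t R w z)))))))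
noncomputable def s (R w z : ℝ) : ℝ := ((((4:ℝ) * w) * z) / (((1:ℝ) + (z * z)) * ((1:ℝ) - ((t R w z) * (t R w z)))))
noncomputable def kap (R w z : ℝ) : ℝ := ((((2:ℝ) / ((1:ℝ) + (√((1:ℝ) + (s R w z))))) + ((7/40:ℝ) * (s R w z))) - (((s R w z) ^ 3) / (32:ℝ)))
noncomputable def u1 (R w z : ℝ) : ℝ := ((((2:ℝ) - ((9/5:ℝ) * (R * (t R w z)))) - (((R * (t R w z)) ^ 3) / (10:ℝ))) - (((R * (t R w z)) ^ 9) / (10:ℝ)))
noncomputable def m (R w z : ℝ) : ℝ := (((4/3:ℝ) / ((1:ℝ) + (t R w z))) + (R * ((999/1000:ℝ) - ((2/3:ℝ) * (((9/5:ℝ) + (((R * R) * (P R w z)) / (10:ℝ))) + (((R ^ 8) * ((1:ℝ) + (((t R w z) * (t R w z)) * ((1:ℝ) + (((t R w z) * (t R w z)) * ((1:ℝ) + (((t R w z) * (t R w z)) * ((1:ℝ) + ((t R w z) * (t R w z)))))))))) / (10:ℝ)))))))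
noncomputable def Ph (R w z : ℝ) : ℝ := (((G R w z) * ((((1:ℝ) - (v R w z)) * (G R w z)) + ((((2:ℝ) * ((1:ℝ) - (((2/3:ℝ) * (s R w z)) * (kap R w z)))) * (v R w z)) * (u1 R w z)))) - ((((((4:ℝ) * (kap R w z)) * (kap R w z)) * ((1:ℝ) + (v R w z))) * (m R w z)) * (m R w z)))
noncomputable def c0 (R w z : ℝ) : ℝ := (((31/500:ℝ) + ((13/100:ℝ) * (s R w z))) + (((19/100:ℝ) * (s R w z)) * (s R w z)))
noncomputable def u0 (R w z : ℝ) : ℝ := ((((2:ℝ) - ((9/5:ℝ) * R)) - ((R ^ 3) / (10:ℝ))) - ((R ^ 9) / (10:ℝ)))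

def Q (R w z : ℝ) : Prop :=
  (
  (0 < ((w * (Ph R w z)) + ((((4:ℝ) * (c0 R w z)) * (G R w z)) * (u0 R w z)))) ∨
  (0 < (Ph R w z)) ∨
  (0 < ((64:ℝ) * ((s R w z) - (3/5:ℝ)))))

noncomputable def alt0 (z1 w1 z2 w2 z3 w3 : ℕ) : Bool :=
  sqK z3 1152921504606846976 1152921504606846976 (Nat.add w3 1152921504606846976) 0 fun c1 a1_1 a1_2 a1_3 q1 =>
  addcK c1 a1_1 a1_2 a1_3 q1 1152922604118474752 0 fun c3 a3_1 a3_2 a3_3 q3 =>
  invK c3 a3_1 a3_2 a3_3 q3 fun c5 a5_1 a5_2 a5_3 q5 =>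
  negK c1 a1_1 a1_2 a1_3 q1 fun c6 a6_1 a6_2 a6_3 q6 =>
  addcK c6 a6_1 a6_2 a6_3 q6 1152922604118474752 0 fun c7 a7_1 a7_2 a7_3 q7 =>
  mulK c7 a7_1 a7_2 a7_3 q7 c5 a5_1 a5_2 a5_3 q5 fun c9 a9_1 a9_2 a9_3 q9 =>
  mulK z2 1152921504606846976 (Nat.add w2 1152921504606846976) 1152921504606846976 0 c9 a9_1 a9_2 a9_3 q9 fun c12 a12_1 a12_2 a12_3 q12 =>
  sqK c12 a12_1 a12_2 a12_3 q12 fun c14 a14_1 a14_2 a14_3 q14 =>
  addcK c14 a14_1 a14_2 a14_3 q14 1152922604118474752 0 fun c16 a16_1 a16_2 a16_3 q16 =>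
  smulK 2 1 1152921504606846977 2305843009213693952 z2 1152921504606846976 (Nat.add w2 1152921504606846976) 1152921504606846976 0 fun c18 a18_1 a18_2 a18_3 q18 =>
  addK c16 a16_1 a16_2 a16_3 q16 c18 a18_1 a18_2 a18_3 q18 fun c19 a19_1 a19_2 a19_3 q19 =>
  sqrtK c19 a19_1 a19_2 a19_3 q19 fun c20 a20_1 a20_2 a20_3 q20 =>
  addcK c20 a20_1 a20_2 a20_3 q20 1152922604118474752 0 fun c22 a22_1 a22_2 a22_3 q22 =>
  addK c22 a22_1 a22_2 a22_3 q22 c12 a12_1 a12_2 a12_3 q12 fun c23 a23_1 a23_2 a23_3 q23 =>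
  invK c23 a23_1 a23_2 a23_3 q23 fun c24 a24_1 a24_2 a24_3 q24 =>
  smulK 4 1 1152921504606846977 4611686018427387904 c24 a24_1 a24_2 a24_3 q24 fun c25 a25_1 a25_2 a25_3 q25 =>
  sqK z1 (Nat.add w1 1152921504606846976) 1152921504606846976 1152921504606846976 0 fun c27 a27_1 a27_2 a27_3 q27 =>
  mulK c27 a27_1 a27_2 a27_3 q27 z1 (Nat.add w1 1152921504606846976) 1152921504606846976 1152921504606846976 0 fun c28 a28_1 a28_2 a28_3 q28 =>
  addK z2 1152921504606846976 (Nat.add w2 1152921504606846976) 1152921504606846976 0 c12 a12_1 a12_2 a12_3 q12 fun c30 a30_1 a30_2 a30_3 q30 =>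
  mulK c28 a28_1 a28_2 a28_3 q28 c30 a30_1 a30_2 a30_3 q30 fun c31 a31_1 a31_2 a31_3 q31 =>
  sqK c28 a28_1 a28_2 a28_3 q28 fun c32 a32_1 a32_2 a32_3 q32 =>
  smulK 1 2 2305843009213693954 1152921504606846976 c32 a32_1 a32_2 a32_3 q32 fun c34 a34_1 a34_2 a34_3 q34 =>
  mulK c34 a34_1 a34_2 a34_3 q34 c16 a16_1 a16_2 a16_3 q16 fun c36 a36_1 a36_2 a36_3 q36 =>
  sqK c16 a16_1 a16_2 a16_3 q16 fun c37 a37_1 a37_2 a37_3 q37 =>
  sqK z2 1152921504606846976 (Nat.add w2 1152921504606846976) 1152921504606846976 0 fun c39 a39_1 a39_2 a39_3 q39 =>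
  subK c37 a37_1 a37_2 a37_3 q37 c39 a39_1 a39_2 a39_3 q39 fun c41 a41_1 a41_2 a41_3 q41 =>
  subK c41 a41_1 a41_2 a41_3 q41 c14 a14_1 a14_2 a14_3 q14 fun c42 a42_1 a42_2 a42_3 q42 =>
  mulK c36 a36_1 a36_2 a36_3 q36 c42 a42_1 a42_2 a42_3 q42 fun c43 a43_1 a43_2 a43_3 q43 =>
  addcK c43 a43_1 a43_2 a43_3 q43 1152921724509172531 1 fun c44 a44_1 a44_2 a44_3 q44 =>
  mulK c31 a31_1 a31_2 a31_3 q31 c44 a44_1 a44_2 a44_3 q44 fun c46 a46_1 a46_2 a46_3 q46 =>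
  addK c25 a25_1 a25_2 a25_3 q25 c46 a46_1 a46_2 a46_3 q46 fun c47 a47_1 a47_2 a47_3 q47 =>
  negK c9 a9_1 a9_2 a9_3 q9 fun c49 a49_1 a49_2 a49_3 q49 =>
  addcK c49 a49_1 a49_2 a49_3 q49 1152922604118474752 0 fun c50 a50_1 a50_2 a50_3 q50 =>
  mulK c50 a50_1 a50_2 a50_3 q50 c47 a47_1 a47_2 a47_3 q47 fun c52 a52_1 a52_2 a52_3 q52 =>
  negK c14 a14_1 a14_2 a14_3 q14 fun c53 a53_1 a53_2 a53_3 q53 =>
  addcK c53 a53_1 a53_2 a53_3 q53 1152922604118474752 0 fun c54 a54_1 a54_2 a54_3 q54 =>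
  mulK c3 a3_1 a3_2 a3_3 q3 c54 a54_1 a54_2 a54_3 q54 fun c56 a56_1 a56_2 a56_3 q56 =>
  invK c56 a56_1 a56_2 a56_3 q56 fun c57 a57_1 a57_2 a57_3 q57 =>
  smulK 4 1 1152921504606846977 4611686018427387904 z2 1152921504606846976 (Nat.add w2 1152921504606846976) 1152921504606846976 0 fun c58 a58_1 a58_2 a58_3 q58 =>
  mulK c58 a58_1 a58_2 a58_3 q58 z3 1152921504606846976 1152921504606846976 (Nat.add w3 1152921504606846976) 0 fun c59 a59_1 a59_2 a59_3 q59 =>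
  mulK c59 a59_1 a59_2 a59_3 q59 c57 a57_1 a57_2 a57_3 q57 fun c60 a60_1 a60_2 a60_3 q60 =>
  smulK 2 3 3458764513820540931 2305843009213693952 c60 a60_1 a60_2 a60_3 q60 fun c63 a63_1 a63_2 a63_3 q63 =>
  addcK c60 a60_1 a60_2 a60_3 q60 1152922604118474752 0 fun c64 a64_1 a64_2 a64_3 q64 =>
  sqrtK c64 a64_1 a64_2 a64_3 q64 fun c66 a66_1 a66_2 a66_3 q66 =>
  addcK c66 a66_1 a66_2 a66_3 q66 1152922604118474752 0 fun c67 a67_1 a67_2 a67_3 q67 =>
  invK c67 a67_1 a67_2 a67_3 q67 fun c69 a69_1 a69_2 a69_3 q69 =>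
  smulK 2 1 1152921504606846977 2305843009213693952 c69 a69_1 a69_2 a69_3 q69 fun c70 a70_1 a70_2 a70_3 q70 =>
  smulK 7 40 46116860184273879080 8070450532247928832 c60 a60_1 a60_2 a60_3 q60 fun c72 a72_1 a72_2 a72_3 q72 =>
  addK c70 a70_1 a70_2 a70_3 q70 c72 a72_1 a72_2 a72_3 q72 fun c73 a73_1 a73_2 a73_3 q73 =>
  sqK c60 a60_1 a60_2 a60_3 q60 fun c74 a74_1 a74_2 a74_3 q74 =>
  mulK c74 a74_1 a74_2 a74_3 q74 c60 a60_1 a60_2 a60_3 q60 fun c75 a75_1 a75_2 a75_3 q75 =>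
  smulK 1 32 36893488147419103264 1152921504606846976 c75 a75_1 a75_2 a75_3 q75 fun c77 a77_1 a77_2 a77_3 q77 =>
  subK c73 a73_1 a73_2 a73_3 q73 c77 a77_1 a77_2 a77_3 q77 fun c79 a79_1 a79_2 a79_3 q79 =>
  mulK c63 a63_1 a63_2 a63_3 q63 c79 a79_1 a79_2 a79_3 q79 fun c81 a81_1 a81_2 a81_3 q81 =>
  negK c81 a81_1 a81_2 a81_3 q81 fun c82 a82_1 a82_2 a82_3 q82 =>
  addcK c82 a82_1 a82_2 a82_3 q82 1152922604118474752 0 fun c83 a83_1 a83_2 a83_3 q83 =>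
  smulK 2 1 1152921504606846977 2305843009213693952 c83 a83_1 a83_2 a83_3 q83 fun c85 a85_1 a85_2 a85_3 q85 =>
  mulK c85 a85_1 a85_2 a85_3 q85 c9 a9_1 a9_2 a9_3 q9 fun c86 a86_1 a86_2 a86_3 q86 =>
  mulK z1 (Nat.add w1 1152921504606846976) 1152921504606846976 1152921504606846976 0 c12 a12_1 a12_2 a12_3 q12 fun c87 a87_1 a87_2 a87_3 q87 =>
  smulK 9 5 5764607523034234885 10376293541461622784 c87 a87_1 a87_2 a87_3 q87 fun c88 a88_1 a88_2 a88_3 q88 =>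
  negK c88 a88_1 a88_2 a88_3 q88 fun c89 a89_1 a89_2 a89_3 q89 =>
  addcK c89 a89_1 a89_2 a89_3 q89 1152923703630102528 0 fun c90 a90_1 a90_2 a90_3 q90 =>
  sqK c87 a87_1 a87_2 a87_3 q87 fun c92 a92_1 a92_2 a92_3 q92 =>
  mulK c92 a92_1 a92_2 a92_3 q92 c87 a87_1 a87_2 a87_3 q87 fun c93 a93_1 a93_2 a93_3 q93 =>
  smulK 1 10 11529215046068469770 1152921504606846976 c93 a93_1 a93_2 a93_3 q93 fun c95 a95_1 a95_2 a95_3 q95 =>
  subK c90 a90_1 a90_2 a90_3 q90 c95 a95_1 a95_2 a95_3 q95 fun c97 a97_1 a97_2 a97_3 q97 =>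
  sqK c92 a92_1 a92_2 a92_3 q92 fun c98 a98_1 a98_2 a98_3 q98 =>
  sqK c98 a98_1 a98_2 a98_3 q98 fun c100 a100_1 a100_2 a100_3 q100 =>
  mulK c100 a100_1 a100_2 a100_3 q100 c87 a87_1 a87_2 a87_3 q87 fun c102 a102_1 a102_2 a102_3 q102 =>
  smulK 1 10 11529215046068469770 1152921504606846976 c102 a102_1 a102_2 a102_3 q102 fun c104 a104_1 a104_2 a104_3 q104 =>
  subK c97 a97_1 a97_2 a97_3 q97 c104 a104_1 a104_2 a104_3 q104 fun c106 a106_1 a106_2 a106_3 q106 =>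
  mulK c86 a86_1 a86_2 a86_3 q86 c106 a106_1 a106_2 a106_3 q106 fun c108 a108_1 a108_2 a108_3 q108 =>
  addK c52 a52_1 a52_2 a52_3 q52 c108 a108_1 a108_2 a108_3 q108 fun c109 a109_1 a109_2 a109_3 q109 =>
  mulK c47 a47_1 a47_2 a47_3 q47 c109 a109_1 a109_2 a109_3 q109 fun c110 a110_1 a110_2 a110_3 q110 =>
  smulK 4 1 1152921504606846977 4611686018427387904 c79 a79_1 a79_2 a79_3 q79 fun c111 a111_1 a111_2 a111_3 q111 =>
  mulK c111 a111_1 a111_2 a111_3 q111 c79 a79_1 a79_2 a79_3 q79 fun c112 a112_1 a112_2 a112_3 q112 =>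
  addcK c9 a9_1 a9_2 a9_3 q9 1152922604118474752 0 fun c113 a113_1 a113_2 a113_3 q113 =>
  mulK c112 a112_1 a112_2 a112_3 q112 c113 a113_1 a113_2 a113_3 q113 fun c115 a115_1 a115_2 a115_3 q115 =>
  addcK c12 a12_1 a12_2 a12_3 q12 1152922604118474752 0 fun c116 a116_1 a116_2 a116_3 q116 =>
  invK c116 a116_1 a116_2 a116_3 q116 fun c118 a118_1 a118_2 a118_3 q118 =>
  smulK 4 3 3458764513820540931 4611686018427387904 c118 a118_1 a118_2 a118_3 q118 fun c119 a119_1 a119_2 a119_3 q119 =>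
  mulK c27 a27_1 a27_2 a27_3 q27 c16 a16_1 a16_2 a16_3 q16 fun c122 a122_1 a122_2 a122_3 q122 =>
  smulK 1 10 11529215046068469770 1152921504606846976 c122 a122_1 a122_2 a122_3 q122 fun c123 a123_1 a123_2 a123_3 q123 =>
  addcK c123 a123_1 a123_2 a123_3 q123 1152923483727776973 1 fun c125 a125_1 a125_2 a125_3 q125 =>
  sqK c27 a27_1 a27_2 a27_3 q27 fun c127 a127_1 a127_2 a127_3 q127 =>
  sqK c127 a127_1 a127_2 a127_3 q127 fun c129 a129_1 a129_2 a129_3 q129 =>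
  mulK c14 a14_1 a14_2 a14_3 q14 c16 a16_1 a16_2 a16_3 q16 fun c131 a131_1 a131_2 a131_3 q131 =>
  addcK c131 a131_1 a131_2 a131_3 q131 1152922604118474752 0 fun c132 a132_1 a132_2 a132_3 q132 =>
  mulK c14 a14_1 a14_2 a14_3 q14 c132 a132_1 a132_2 a132_3 q132 fun c134 a134_1 a134_2 a134_3 q134 =>
  addcK c134 a134_1 a134_2 a134_3 q134 1152922604118474752 0 fun c135 a135_1 a135_2 a135_3 q135 =>
  mulK c14 a14_1 a14_2 a14_3 q14 c135 a135_1 a135_2 a135_3 q135 fun c137 a137_1 a137_2 a137_3 q137 =>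
  addcK c137 a137_1 a137_2 a137_3 q137 1152922604118474752 0 fun c138 a138_1 a138_2 a138_3 q138 =>
  mulK c129 a129_1 a129_2 a129_3 q129 c138 a138_1 a138_2 a138_3 q138 fun c140 a140_1 a140_2 a140_3 q140 =>
  smulK 1 10 11529215046068469770 1152921504606846976 c140 a140_1 a140_2 a140_3 q140 fun c141 a141_1 a141_2 a141_3 q141 =>
  addK c125 a125_1 a125_2 a125_3 q125 c141 a141_1 a141_2 a141_3 q141 fun c143 a143_1 a143_2 a143_3 q143 =>
  smulK 2 3 3458764513820540931 2305843009213693952 c143 a143_1 a143_2 a143_3 q143 fun c144 a144_1 a144_2 a144_3 q144 =>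
  negK c144 a144_1 a144_2 a144_3 q144 fun c145 a145_1 a145_2 a145_3 q145 =>
  addcK c145 a145_1 a145_2 a145_3 q145 1152922603018963124 1 fun c146 a146_1 a146_2 a146_3 q146 =>
  mulK z1 (Nat.add w1 1152921504606846976) 1152921504606846976 1152921504606846976 0 c146 a146_1 a146_2 a146_3 q146 fun c148 a148_1 a148_2 a148_3 q148 =>
  addK c119 a119_1 a119_2 a119_3 q119 c148 a148_1 a148_2 a148_3 q148 fun c149 a149_1 a149_2 a149_3 q149 =>
  mulK c115 a115_1 a115_2 a115_3 q115 c149 a149_1 a149_2 a149_3 q149 fun c151 a151_1 a151_2 a151_3 q151 =>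
  mulK c151 a151_1 a151_2 a151_3 q151 c149 a149_1 a149_2 a149_3 q149 fun c152 a152_1 a152_2 a152_3 q152 =>
  subK c110 a110_1 a110_2 a110_3 q110 c152 a152_1 a152_2 a152_3 q152 fun c153 a153_1 a153_2 a153_3 q153 =>
  mulK z2 1152921504606846976 (Nat.add w2 1152921504606846976) 1152921504606846976 0 c153 a153_1 a153_2 a153_3 q153 fun c155 a155_1 a155_2 a155_3 q155 =>
  smulK 13 100 115292150460684697700 14987979559889010688 c60 a60_1 a60_2 a60_3 q60 fun c156 a156_1 a156_2 a156_3 q156 =>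
  addcK c156 a156_1 a156_2 a156_3 q156 1152921572776567898 1 fun c157 a157_1 a157_2 a157_3 q157 =>
  smulK 19 100 115292150460684697700 21905508587530092544 c60 a60_1 a60_2 a60_3 q60 fun c159 a159_1 a159_2 a159_3 q159 =>
  mulK c159 a159_1 a159_2 a159_3 q159 c60 a60_1 a60_2 a60_3 q60 fun c160 a160_1 a160_2 a160_3 q160 =>
  addK c157 a157_1 a157_2 a157_3 q157 c160 a160_1 a160_2 a160_3 q160 fun c161 a161_1 a161_2 a161_3 q161 =>
  smulK 4 1 1152921504606846977 4611686018427387904 c161 a161_1 a161_2 a161_3 q161 fun c163 a163_1 a163_2 a163_3 q163 =>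
  mulK c163 a163_1 a163_2 a163_3 q163 c47 a47_1 a47_2 a47_3 q47 fun c164 a164_1 a164_2 a164_3 q164 =>
  smulK 9 5 5764607523034234885 10376293541461622784 z1 (Nat.add w1 1152921504606846976) 1152921504606846976 1152921504606846976 0 fun c165 a165_1 a165_2 a165_3 q165 =>
  negK c165 a165_1 a165_2 a165_3 q165 fun c166 a166_1 a166_2 a166_3 q166 =>
  addcK c166 a166_1 a166_2 a166_3 q166 1152923703630102528 0 fun c167 a167_1 a167_2 a167_3 q167 =>
  smulK 1 10 11529215046068469770 1152921504606846976 c28 a28_1 a28_2 a28_3 q28 fun c169 a169_1 a169_2 a169_3 q169 =>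
  subK c167 a167_1 a167_2 a167_3 q167 c169 a169_1 a169_2 a169_3 q169 fun c171 a171_1 a171_2 a171_3 q171 =>
  mulK c129 a129_1 a129_2 a129_3 q129 z1 (Nat.add w1 1152921504606846976) 1152921504606846976 1152921504606846976 0 fun c172 a172_1 a172_2 a172_3 q172 =>
  smulK 1 10 11529215046068469770 1152921504606846976 c172 a172_1 a172_2 a172_3 q172 fun c174 a174_1 a174_2 a174_3 q174 =>
  subK c171 a171_1 a171_2 a171_3 q171 c174 a174_1 a174_2 a174_3 q174 fun c176 a176_1 a176_2 a176_3 q176 =>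
  mulK c164 a164_1 a164_2 a164_3 q164 c176 a176_1 a176_2 a176_3 q176 fun c178 a178_1 a178_2 a178_3 q178 =>
  addK c155 a155_1 a155_2 a155_3 q155 c178 a178_1 a178_2 a178_3 q178 fun c179 a179_1 a179_2 a179_3 q179 =>
  pos c179 a179_1 a179_2 a179_3 q179

theorem alt0_s {z1 w1 z2 w2 z3 w3 : ℕ} {e1 e2 e3 R w z : ℝ} (he : Ev e1 e2 e3)
    (hx1 : In e1 e2 e3 z1 (Nat.add w1 1152921504606846976) 1152921504606846976 1152921504606846976 0 R)
    (hx2 : In e1 e2 e3 z2 1152921504606846976 (Nat.add w2 1152921504606846976) 1152921504606846976 0 w)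
    (hx3 : In e1 e2 e3 z3 1152921504606846976 1152921504606846976 (Nat.add w3 1152921504606846976) 0 z)
    (H0 : alt0 z1 w1 z2 w2 z3 w3 = true) : 0 < ((w * (Ph R w z)) + ((((4:ℝ) * (c0 R w z)) * (G R w z)) * (u0 R w z))) := by
  unfold alt0 at H0
  refine sqK_s he hx3 (fun _ _ _ _ _ h1 H1 => ?_) H0
  have h2 := In_cast h1 (sq _)
  refine addcK_s he h2 (v' := (1:ℝ)) (by norm_num [SS, BB, abs_le]) (fun _ _ _ _ _ h3 H2 => ?_) H1
  have h4 := In_cast h3 (add_comm _ _)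
  refine invK_s he h4 (fun _ _ _ _ _ h5 H3 => ?_) H2
  refine negK_s he h2 (fun _ _ _ _ _ h6 H4 => ?_) H3
  refine addcK_s he h6 (v' := (1:ℝ)) (by norm_num [SS, BB, abs_le]) (fun _ _ _ _ _ h7 H5 => ?_) H4
  have h8 := In_cast h7 (neg_add_eq_sub _ _)
  refine mulK_s he h8 h5 (fun _ _ _ _ _ h9 H6 => ?_) H5
  have h10 := In_cast h9 ((div_eq_mul_inv _ _).symm)
  have h11 := In_cast (w := (v R w z)) h10 rfl
  refine mulK_s he hx2 h11 (fun _ _ _ _ _ h12 H7 => ?_) H6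
  have h13 := In_cast (w := (t R w z)) h12 rfl
  refine sqK_s he h13 (fun _ _ _ _ _ h14 H8 => ?_) H7
  have h15 := In_cast h14 (sq _)
  refine addcK_s he h15 (v' := (1:ℝ)) (by norm_num [SS, BB, abs_le]) (fun _ _ _ _ _ h16 H9 => ?_) H8
  have h17 := In_cast h16 (add_comm _ _)
  refine smulK_s he (w := (2:ℝ)) (by norm_num) (by norm_num) (by norm_num) (by norm_num) hx2 (fun _ _ _ _ _ h18 H10 => ?_) H9
  refine addK_s he h17 h18 (fun _ _ _ _ _ h19 H11 => ?_) H10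
  refine sqrtK_s he h19 (fun _ _ _ _ _ h20 H12 => ?_) H11
  have h21 := In_cast (w := (S R w z)) h20 rfl
  refine addcK_s he h21 (v' := (1:ℝ)) (by norm_num [SS, BB, abs_le]) (fun _ _ _ _ _ h22 H13 => ?_) H12
  refine addK_s he h22 h13 (fun _ _ _ _ _ h23 H14 => ?_) H13
  refine invK_s he h23 (fun _ _ _ _ _ h24 H15 => ?_) H14
  refine smulK_s he (w := (4:ℝ)) (by norm_num) (by norm_num) (by norm_num) (by norm_num) h24 (fun _ _ _ _ _ h25 H16 => ?_) H15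
  have h26 := In_cast h25 ((div_eq_mul_inv _ _).symm)
  refine sqK_s he hx1 (fun _ _ _ _ _ h27 H17 => ?_) H16
  refine mulK_s he h27 hx1 (fun _ _ _ _ _ h28 H18 => ?_) H17
  have h29 := In_cast h28 (pow_sc (n := 3) rfl)
  refine addK_s he hx2 h13 (fun _ _ _ _ _ h30 H19 => ?_) H18
  refine mulK_s he h29 h30 (fun _ _ _ _ _ h31 H20 => ?_) H19
  refine sqK_s he h29 (fun _ _ _ _ _ h32 H21 => ?_) H20
  have h33 := In_cast h32 (pow_dbl (n := 6) rfl)
  refine smulK_s he (w := (1/2:ℝ)) (by norm_num) (by norm_num) (by norm_num) (by norm_num) h33 (fun _ _ _ _ _ h34 H22 => ?_) H21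
  have h35 := In_cast (w := (P R w z)) h17 rfl
  refine mulK_s he h34 h35 (fun _ _ _ _ _ h36 H23 => ?_) H22
  refine sqK_s he h35 (fun _ _ _ _ _ h37 H24 => ?_) H23
  have h38 := In_cast h37 (sq _)
  refine sqK_s he hx2 (fun _ _ _ _ _ h39 H25 => ?_) H24
  have h40 := In_cast h39 (sq _)
  refine subK_s he h38 h40 (fun _ _ _ _ _ h41 H26 => ?_) H25
  refine subK_s he h41 h15 (fun _ _ _ _ _ h42 H27 => ?_) H26
  refine mulK_s he h36 h42 (fun _ _ _ _ _ h43 H28 => ?_) H27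
  refine addcK_s he h43 (v' := (1/5:ℝ)) (by norm_num [SS, BB, abs_le]) (fun _ _ _ _ _ h44 H29 => ?_) H28
  have h45 := In_cast h44 (add_comm _ _)
  refine mulK_s he h31 h45 (fun _ _ _ _ _ h46 H30 => ?_) H29
  refine addK_s he h26 h46 (fun _ _ _ _ _ h47 H31 => ?_) H30
  have h48 := In_cast (w := (G R w z)) h47 rfl
  refine negK_s he h11 (fun _ _ _ _ _ h49 H32 => ?_) H31
  refine addcK_s he h49 (v' := (1:ℝ)) (by norm_num [SS, BB, abs_le]) (fun _ _ _ _ _ h50 H33 => ?_) H32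
  have h51 := In_cast h50 (neg_add_eq_sub _ _)
  refine mulK_s he h51 h48 (fun _ _ _ _ _ h52 H34 => ?_) H33
  refine negK_s he h15 (fun _ _ _ _ _ h53 H35 => ?_) H34
  refine addcK_s he h53 (v' := (1:ℝ)) (by norm_num [SS, BB, abs_le]) (fun _ _ _ _ _ h54 H36 => ?_) H35
  have h55 := In_cast h54 (neg_add_eq_sub _ _)
  refine mulK_s he h4 h55 (fun _ _ _ _ _ h56 H37 => ?_) H36
  refine invK_s he h56 (fun _ _ _ _ _ h57 H38 => ?_) H37
  refine smulK_s he (w := (4:ℝ)) (by norm_num) (by norm_num) (by norm_num) (by norm_num) hx2 (fun _ _ _ _ _ h58 H39 => ?_) H38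
  refine mulK_s he h58 hx3 (fun _ _ _ _ _ h59 H40 => ?_) H39
  refine mulK_s he h59 h57 (fun _ _ _ _ _ h60 H41 => ?_) H40
  have h61 := In_cast h60 ((div_eq_mul_inv _ _).symm)
  have h62 := In_cast (w := (s R w z)) h61 rfl
  refine smulK_s he (w := (2/3:ℝ)) (by norm_num) (by norm_num) (by norm_num) (by norm_num) h62 (fun _ _ _ _ _ h63 H42 => ?_) H41
  refine addcK_s he h62 (v' := (1:ℝ)) (by norm_num [SS, BB, abs_le]) (fun _ _ _ _ _ h64 H43 => ?_) H42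
  have h65 := In_cast h64 (add_comm _ _)
  refine sqrtK_s he h65 (fun _ _ _ _ _ h66 H44 => ?_) H43
  refine addcK_s he h66 (v' := (1:ℝ)) (by norm_num [SS, BB, abs_le]) (fun _ _ _ _ _ h67 H45 => ?_) H44
  have h68 := In_cast h67 (add_comm _ _)
  refine invK_s he h68 (fun _ _ _ _ _ h69 H46 => ?_) H45
  refine smulK_s he (w := (2:ℝ)) (by norm_num) (by norm_num) (by norm_num) (by norm_num) h69 (fun _ _ _ _ _ h70 H47 => ?_) H46
  have h71 := In_cast h70 ((div_eq_mul_inv _ _).symm)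
  refine smulK_s he (w := (7/40:ℝ)) (by norm_num) (by norm_num) (by norm_num) (by norm_num) h62 (fun _ _ _ _ _ h72 H48 => ?_) H47
  refine addK_s he h71 h72 (fun _ _ _ _ _ h73 H49 => ?_) H48
  refine sqK_s he h62 (fun _ _ _ _ _ h74 H50 => ?_) H49
  refine mulK_s he h74 h62 (fun _ _ _ _ _ h75 H51 => ?_) H50
  have h76 := In_cast h75 (pow_sc (n := 3) rfl)
  refine smulK_s he (w := (1/32:ℝ)) (by norm_num) (by norm_num) (by norm_num) (by norm_num) h76 (fun _ _ _ _ _ h77 H52 => ?_) H51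
  have h78 := In_cast h77 (div_c (c := (32:ℝ)) (by norm_num))
  refine subK_s he h73 h78 (fun _ _ _ _ _ h79 H53 => ?_) H52
  have h80 := In_cast (w := (kap R w z)) h79 rfl
  refine mulK_s he h63 h80 (fun _ _ _ _ _ h81 H54 => ?_) H53
  refine negK_s he h81 (fun _ _ _ _ _ h82 H55 => ?_) H54
  refine addcK_s he h82 (v' := (1:ℝ)) (by norm_num [SS, BB, abs_le]) (fun _ _ _ _ _ h83 H56 => ?_) H55
  have h84 := In_cast h83 (neg_add_eq_sub _ _)
  refine smulK_s he (w := (2:ℝ)) (by norm_num) (by norm_num) (by norm_num) (by norm_num) h84 (fun _ _ _ _ _ h85 H57 => ?_) H56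
  refine mulK_s he h85 h11 (fun _ _ _ _ _ h86 H58 => ?_) H57
  refine mulK_s he hx1 h13 (fun _ _ _ _ _ h87 H59 => ?_) H58
  refine smulK_s he (w := (9/5:ℝ)) (by norm_num) (by norm_num) (by norm_num) (by norm_num) h87 (fun _ _ _ _ _ h88 H60 => ?_) H59
  refine negK_s he h88 (fun _ _ _ _ _ h89 H61 => ?_) H60
  refine addcK_s he h89 (v' := (2:ℝ)) (by norm_num [SS, BB, abs_le]) (fun _ _ _ _ _ h90 H62 => ?_) H61
  have h91 := In_cast h90 (neg_add_eq_sub _ _)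
  refine sqK_s he h87 (fun _ _ _ _ _ h92 H63 => ?_) H62
  refine mulK_s he h92 h87 (fun _ _ _ _ _ h93 H64 => ?_) H63
  have h94 := In_cast h93 (pow_sc (n := 3) rfl)
  refine smulK_s he (w := (1/10:ℝ)) (by norm_num) (by norm_num) (by norm_num) (by norm_num) h94 (fun _ _ _ _ _ h95 H65 => ?_) H64
  have h96 := In_cast h95 (div_c (c := (10:ℝ)) (by norm_num))
  refine subK_s he h91 h96 (fun _ _ _ _ _ h97 H66 => ?_) H65
  refine sqK_s he h92 (fun _ _ _ _ _ h98 H67 => ?_) H66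
  have h99 := In_cast h98 (pow_dbl (n := 4) rfl)
  refine sqK_s he h99 (fun _ _ _ _ _ h100 H68 => ?_) H67
  have h101 := In_cast h100 (pow_dbl (n := 8) rfl)
  refine mulK_s he h101 h87 (fun _ _ _ _ _ h102 H69 => ?_) H68
  have h103 := In_cast h102 (pow_sc (n := 9) rfl)
  refine smulK_s he (w := (1/10:ℝ)) (by norm_num) (by norm_num) (by norm_num) (by norm_num) h103 (fun _ _ _ _ _ h104 H70 => ?_) H69
  have h105 := In_cast h104 (div_c (c := (10:ℝ)) (by norm_num))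
  refine subK_s he h97 h105 (fun _ _ _ _ _ h106 H71 => ?_) H70
  have h107 := In_cast (w := (u1 R w z)) h106 rfl
  refine mulK_s he h86 h107 (fun _ _ _ _ _ h108 H72 => ?_) H71
  refine addK_s he h52 h108 (fun _ _ _ _ _ h109 H73 => ?_) H72
  refine mulK_s he h48 h109 (fun _ _ _ _ _ h110 H74 => ?_) H73
  refine smulK_s he (w := (4:ℝ)) (by norm_num) (by norm_num) (by norm_num) (by norm_num) h80 (fun _ _ _ _ _ h111 H75 => ?_) H74
  refine mulK_s he h111 h80 (fun _ _ _ _ _ h112 H76 => ?_) H75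
  refine addcK_s he h11 (v' := (1:ℝ)) (by norm_num [SS, BB, abs_le]) (fun _ _ _ _ _ h113 H77 => ?_) H76
  have h114 := In_cast h113 (add_comm _ _)
  refine mulK_s he h112 h114 (fun _ _ _ _ _ h115 H78 => ?_) H77
  refine addcK_s he h13 (v' := (1:ℝ)) (by norm_num [SS, BB, abs_le]) (fun _ _ _ _ _ h116 H79 => ?_) H78
  have h117 := In_cast h116 (add_comm _ _)
  refine invK_s he h117 (fun _ _ _ _ _ h118 H80 => ?_) H79
  refine smulK_s he (w := (4/3:ℝ)) (by norm_num) (by norm_num) (by norm_num) (by norm_num) h118 (fun _ _ _ _ _ h119 H81 => ?_) H80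
  have h120 := In_cast h119 ((div_eq_mul_inv _ _).symm)
  have h121 := In_cast h27 (sq _)
  refine mulK_s he h121 h35 (fun _ _ _ _ _ h122 H82 => ?_) H81
  refine smulK_s he (w := (1/10:ℝ)) (by norm_num) (by norm_num) (by norm_num) (by norm_num) h122 (fun _ _ _ _ _ h123 H83 => ?_) H82
  have h124 := In_cast h123 (div_c (c := (10:ℝ)) (by norm_num))
  refine addcK_s he h124 (v' := (9/5:ℝ)) (by norm_num [SS, BB, abs_le]) (fun _ _ _ _ _ h125 H84 => ?_) H83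
  have h126 := In_cast h125 (add_comm _ _)
  refine sqK_s he h27 (fun _ _ _ _ _ h127 H85 => ?_) H84
  have h128 := In_cast h127 (pow_dbl (n := 4) rfl)
  refine sqK_s he h128 (fun _ _ _ _ _ h129 H86 => ?_) H85
  have h130 := In_cast h129 (pow_dbl (n := 8) rfl)
  refine mulK_s he h15 h17 (fun _ _ _ _ _ h131 H87 => ?_) H86
  refine addcK_s he h131 (v' := (1:ℝ)) (by norm_num [SS, BB, abs_le]) (fun _ _ _ _ _ h132 H88 => ?_) H87
  have h133 := In_cast h132 (add_comm _ _)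
  refine mulK_s he h15 h133 (fun _ _ _ _ _ h134 H89 => ?_) H88
  refine addcK_s he h134 (v' := (1:ℝ)) (by norm_num [SS, BB, abs_le]) (fun _ _ _ _ _ h135 H90 => ?_) H89
  have h136 := In_cast h135 (add_comm _ _)
  refine mulK_s he h15 h136 (fun _ _ _ _ _ h137 H91 => ?_) H90
  refine addcK_s he h137 (v' := (1:ℝ)) (by norm_num [SS, BB, abs_le]) (fun _ _ _ _ _ h138 H92 => ?_) H91
  have h139 := In_cast h138 (add_comm _ _)
  refine mulK_s he h130 h139 (fun _ _ _ _ _ h140 H93 => ?_) H92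
  refine smulK_s he (w := (1/10:ℝ)) (by norm_num) (by norm_num) (by norm_num) (by norm_num) h140 (fun _ _ _ _ _ h141 H94 => ?_) H93
  have h142 := In_cast h141 (div_c (c := (10:ℝ)) (by norm_num))
  refine addK_s he h126 h142 (fun _ _ _ _ _ h143 H95 => ?_) H94
  refine smulK_s he (w := (2/3:ℝ)) (by norm_num) (by norm_num) (by norm_num) (by norm_num) h143 (fun _ _ _ _ _ h144 H96 => ?_) H95
  refine negK_s he h144 (fun _ _ _ _ _ h145 H97 => ?_) H96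
  refine addcK_s he h145 (v' := (999/1000:ℝ)) (by norm_num [SS, BB, abs_le]) (fun _ _ _ _ _ h146 H98 => ?_) H97
  have h147 := In_cast h146 (neg_add_eq_sub _ _)
  refine mulK_s he hx1 h147 (fun _ _ _ _ _ h148 H99 => ?_) H98
  refine addK_s he h120 h148 (fun _ _ _ _ _ h149 H100 => ?_) H99
  have h150 := In_cast (w := (m R w z)) h149 rfl
  refine mulK_s he h115 h150 (fun _ _ _ _ _ h151 H101 => ?_) H100
  refine mulK_s he h151 h150 (fun _ _ _ _ _ h152 H102 => ?_) H101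
  refine subK_s he h110 h152 (fun _ _ _ _ _ h153 H103 => ?_) H102
  have h154 := In_cast (w := (Ph R w z)) h153 rfl
  refine mulK_s he hx2 h154 (fun _ _ _ _ _ h155 H104 => ?_) H103
  refine smulK_s he (w := (13/100:ℝ)) (by norm_num) (by norm_num) (by norm_num) (by norm_num) h62 (fun _ _ _ _ _ h156 H105 => ?_) H104
  refine addcK_s he h156 (v' := (31/500:ℝ)) (by norm_num [SS, BB, abs_le]) (fun _ _ _ _ _ h157 H106 => ?_) H105
  have h158 := In_cast h157 (add_comm _ _)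
  refine smulK_s he (w := (19/100:ℝ)) (by norm_num) (by norm_num) (by norm_num) (by norm_num) h62 (fun _ _ _ _ _ h159 H107 => ?_) H106
  refine mulK_s he h159 h62 (fun _ _ _ _ _ h160 H108 => ?_) H107
  refine addK_s he h158 h160 (fun _ _ _ _ _ h161 H109 => ?_) H108
  have h162 := In_cast (w := (c0 R w z)) h161 rfl
  refine smulK_s he (w := (4:ℝ)) (by norm_num) (by norm_num) (by norm_num) (by norm_num) h162 (fun _ _ _ _ _ h163 H110 => ?_) H109
  refine mulK_s he h163 h48 (fun _ _ _ _ _ h164 H111 => ?_) H110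
  refine smulK_s he (w := (9/5:ℝ)) (by norm_num) (by norm_num) (by norm_num) (by norm_num) hx1 (fun _ _ _ _ _ h165 H112 => ?_) H111
  refine negK_s he h165 (fun _ _ _ _ _ h166 H113 => ?_) H112
  refine addcK_s he h166 (v' := (2:ℝ)) (by norm_num [SS, BB, abs_le]) (fun _ _ _ _ _ h167 H114 => ?_) H113
  have h168 := In_cast h167 (neg_add_eq_sub _ _)
  refine smulK_s he (w := (1/10:ℝ)) (by norm_num) (by norm_num) (by norm_num) (by norm_num) h29 (fun _ _ _ _ _ h169 H115 => ?_) H114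
  have h170 := In_cast h169 (div_c (c := (10:ℝ)) (by norm_num))
  refine subK_s he h168 h170 (fun _ _ _ _ _ h171 H116 => ?_) H115
  refine mulK_s he h130 hx1 (fun _ _ _ _ _ h172 H117 => ?_) H116
  have h173 := In_cast h172 (pow_sc (n := 9) rfl)
  refine smulK_s he (w := (1/10:ℝ)) (by norm_num) (by norm_num) (by norm_num) (by norm_num) h173 (fun _ _ _ _ _ h174 H118 => ?_) H117
  have h175 := In_cast h174 (div_c (c := (10:ℝ)) (by norm_num))
  refine subK_s he h171 h175 (fun _ _ _ _ _ h176 H119 => ?_) H118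
  have h177 := In_cast (w := (u0 R w z)) h176 rfl
  refine mulK_s he h164 h177 (fun _ _ _ _ _ h178 H120 => ?_) H119
  refine addK_s he h155 h178 (fun _ _ _ _ _ h179 H121 => ?_) H120
  exact pos_s he h179 H121

noncomputable def alt1 (z1 w1 z2 w2 z3 w3 : ℕ) : Bool :=
  sqK z3 1152921504606846976 1152921504606846976 (Nat.add w3 1152921504606846976) 0 fun c1 a1_1 a1_2 a1_3 q1 =>
  addcK c1 a1_1 a1_2 a1_3 q1 1152922604118474752 0 fun c3 a3_1 a3_2 a3_3 q3 =>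
  invK c3 a3_1 a3_2 a3_3 q3 fun c5 a5_1 a5_2 a5_3 q5 =>
  negK c1 a1_1 a1_2 a1_3 q1 fun c6 a6_1 a6_2 a6_3 q6 =>
  addcK c6 a6_1 a6_2 a6_3 q6 1152922604118474752 0 fun c7 a7_1 a7_2 a7_3 q7 =>
  mulK c7 a7_1 a7_2 a7_3 q7 c5 a5_1 a5_2 a5_3 q5 fun c9 a9_1 a9_2 a9_3 q9 =>
  mulK z2 1152921504606846976 (Nat.add w2 1152921504606846976) 1152921504606846976 0 c9 a9_1 a9_2 a9_3 q9 fun c12 a12_1 a12_2 a12_3 q12 =>
  sqK c12 a12_1 a12_2 a12_3 q12 fun c14 a14_1 a14_2 a14_3 q14 =>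
  addcK c14 a14_1 a14_2 a14_3 q14 1152922604118474752 0 fun c16 a16_1 a16_2 a16_3 q16 =>
  smulK 2 1 1152921504606846977 2305843009213693952 z2 1152921504606846976 (Nat.add w2 1152921504606846976) 1152921504606846976 0 fun c18 a18_1 a18_2 a18_3 q18 =>
  addK c16 a16_1 a16_2 a16_3 q16 c18 a18_1 a18_2 a18_3 q18 fun c19 a19_1 a19_2 a19_3 q19 =>
  sqrtK c19 a19_1 a19_2 a19_3 q19 fun c20 a20_1 a20_2 a20_3 q20 =>
  addcK c20 a20_1 a20_2 a20_3 q20 1152922604118474752 0 fun c22 a22_1 a22_2 a22_3 q22 =>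
  addK c22 a22_1 a22_2 a22_3 q22 c12 a12_1 a12_2 a12_3 q12 fun c23 a23_1 a23_2 a23_3 q23 =>
  invK c23 a23_1 a23_2 a23_3 q23 fun c24 a24_1 a24_2 a24_3 q24 =>
  smulK 4 1 1152921504606846977 4611686018427387904 c24 a24_1 a24_2 a24_3 q24 fun c25 a25_1 a25_2 a25_3 q25 =>
  sqK z1 (Nat.add w1 1152921504606846976) 1152921504606846976 1152921504606846976 0 fun c27 a27_1 a27_2 a27_3 q27 =>
  mulK c27 a27_1 a27_2 a27_3 q27 z1 (Nat.add w1 1152921504606846976) 1152921504606846976 1152921504606846976 0 fun c28 a28_1 a28_2 a28_3 q28 =>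
  addK z2 1152921504606846976 (Nat.add w2 1152921504606846976) 1152921504606846976 0 c12 a12_1 a12_2 a12_3 q12 fun c30 a30_1 a30_2 a30_3 q30 =>
  mulK c28 a28_1 a28_2 a28_3 q28 c30 a30_1 a30_2 a30_3 q30 fun c31 a31_1 a31_2 a31_3 q31 =>
  sqK c28 a28_1 a28_2 a28_3 q28 fun c32 a32_1 a32_2 a32_3 q32 =>
  smulK 1 2 2305843009213693954 1152921504606846976 c32 a32_1 a32_2 a32_3 q32 fun c34 a34_1 a34_2 a34_3 q34 =>
  mulK c34 a34_1 a34_2 a34_3 q34 c16 a16_1 a16_2 a16_3 q16 fun c36 a36_1 a36_2 a36_3 q36 =>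
  sqK c16 a16_1 a16_2 a16_3 q16 fun c37 a37_1 a37_2 a37_3 q37 =>
  sqK z2 1152921504606846976 (Nat.add w2 1152921504606846976) 1152921504606846976 0 fun c39 a39_1 a39_2 a39_3 q39 =>
  subK c37 a37_1 a37_2 a37_3 q37 c39 a39_1 a39_2 a39_3 q39 fun c41 a41_1 a41_2 a41_3 q41 =>
  subK c41 a41_1 a41_2 a41_3 q41 c14 a14_1 a14_2 a14_3 q14 fun c42 a42_1 a42_2 a42_3 q42 =>
  mulK c36 a36_1 a36_2 a36_3 q36 c42 a42_1 a42_2 a42_3 q42 fun c43 a43_1 a43_2 a43_3 q43 =>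
  addcK c43 a43_1 a43_2 a43_3 q43 1152921724509172531 1 fun c44 a44_1 a44_2 a44_3 q44 =>
  mulK c31 a31_1 a31_2 a31_3 q31 c44 a44_1 a44_2 a44_3 q44 fun c46 a46_1 a46_2 a46_3 q46 =>
  addK c25 a25_1 a25_2 a25_3 q25 c46 a46_1 a46_2 a46_3 q46 fun c47 a47_1 a47_2 a47_3 q47 =>
  negK c9 a9_1 a9_2 a9_3 q9 fun c49 a49_1 a49_2 a49_3 q49 =>
  addcK c49 a49_1 a49_2 a49_3 q49 1152922604118474752 0 fun c50 a50_1 a50_2 a50_3 q50 =>
  mulK c50 a50_1 a50_2 a50_3 q50 c47 a47_1 a47_2 a47_3 q47 fun c52 a52_1 a52_2 a52_3 q52 =>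
  negK c14 a14_1 a14_2 a14_3 q14 fun c53 a53_1 a53_2 a53_3 q53 =>
  addcK c53 a53_1 a53_2 a53_3 q53 1152922604118474752 0 fun c54 a54_1 a54_2 a54_3 q54 =>
  mulK c3 a3_1 a3_2 a3_3 q3 c54 a54_1 a54_2 a54_3 q54 fun c56 a56_1 a56_2 a56_3 q56 =>
  invK c56 a56_1 a56_2 a56_3 q56 fun c57 a57_1 a57_2 a57_3 q57 =>
  smulK 4 1 1152921504606846977 4611686018427387904 z2 1152921504606846976 (Nat.add w2 1152921504606846976) 1152921504606846976 0 fun c58 a58_1 a58_2 a58_3 q58 =>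
  mulK c58 a58_1 a58_2 a58_3 q58 z3 1152921504606846976 1152921504606846976 (Nat.add w3 1152921504606846976) 0 fun c59 a59_1 a59_2 a59_3 q59 =>
  mulK c59 a59_1 a59_2 a59_3 q59 c57 a57_1 a57_2 a57_3 q57 fun c60 a60_1 a60_2 a60_3 q60 =>
  smulK 2 3 3458764513820540931 2305843009213693952 c60 a60_1 a60_2 a60_3 q60 fun c63 a63_1 a63_2 a63_3 q63 =>
  addcK c60 a60_1 a60_2 a60_3 q60 1152922604118474752 0 fun c64 a64_1 a64_2 a64_3 q64 =>
  sqrtK c64 a64_1 a64_2 a64_3 q64 fun c66 a66_1 a66_2 a66_3 q66 =>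
  addcK c66 a66_1 a66_2 a66_3 q66 1152922604118474752 0 fun c67 a67_1 a67_2 a67_3 q67 =>
  invK c67 a67_1 a67_2 a67_3 q67 fun c69 a69_1 a69_2 a69_3 q69 =>
  smulK 2 1 1152921504606846977 2305843009213693952 c69 a69_1 a69_2 a69_3 q69 fun c70 a70_1 a70_2 a70_3 q70 =>
  smulK 7 40 46116860184273879080 8070450532247928832 c60 a60_1 a60_2 a60_3 q60 fun c72 a72_1 a72_2 a72_3 q72 =>
  addK c70 a70_1 a70_2 a70_3 q70 c72 a72_1 a72_2 a72_3 q72 fun c73 a73_1 a73_2 a73_3 q73 =>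
  sqK c60 a60_1 a60_2 a60_3 q60 fun c74 a74_1 a74_2 a74_3 q74 =>
  mulK c74 a74_1 a74_2 a74_3 q74 c60 a60_1 a60_2 a60_3 q60 fun c75 a75_1 a75_2 a75_3 q75 =>
  smulK 1 32 36893488147419103264 1152921504606846976 c75 a75_1 a75_2 a75_3 q75 fun c77 a77_1 a77_2 a77_3 q77 =>
  subK c73 a73_1 a73_2 a73_3 q73 c77 a77_1 a77_2 a77_3 q77 fun c79 a79_1 a79_2 a79_3 q79 =>
  mulK c63 a63_1 a63_2 a63_3 q63 c79 a79_1 a79_2 a79_3 q79 fun c81 a81_1 a81_2 a81_3 q81 =>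
  negK c81 a81_1 a81_2 a81_3 q81 fun c82 a82_1 a82_2 a82_3 q82 =>
  addcK c82 a82_1 a82_2 a82_3 q82 1152922604118474752 0 fun c83 a83_1 a83_2 a83_3 q83 =>
  smulK 2 1 1152921504606846977 2305843009213693952 c83 a83_1 a83_2 a83_3 q83 fun c85 a85_1 a85_2 a85_3 q85 =>
  mulK c85 a85_1 a85_2 a85_3 q85 c9 a9_1 a9_2 a9_3 q9 fun c86 a86_1 a86_2 a86_3 q86 =>
  mulK z1 (Nat.add w1 1152921504606846976) 1152921504606846976 1152921504606846976 0 c12 a12_1 a12_2 a12_3 q12 fun c87 a87_1 a87_2 a87_3 q87 =>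
  smulK 9 5 5764607523034234885 10376293541461622784 c87 a87_1 a87_2 a87_3 q87 fun c88 a88_1 a88_2 a88_3 q88 =>
  negK c88 a88_1 a88_2 a88_3 q88 fun c89 a89_1 a89_2 a89_3 q89 =>
  addcK c89 a89_1 a89_2 a89_3 q89 1152923703630102528 0 fun c90 a90_1 a90_2 a90_3 q90 =>
  sqK c87 a87_1 a87_2 a87_3 q87 fun c92 a92_1 a92_2 a92_3 q92 =>
  mulK c92 a92_1 a92_2 a92_3 q92 c87 a87_1 a87_2 a87_3 q87 fun c93 a93_1 a93_2 a93_3 q93 =>
  smulK 1 10 11529215046068469770 1152921504606846976 c93 a93_1 a93_2 a93_3 q93 fun c95 a95_1 a95_2 a95_3 q95 =>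
  subK c90 a90_1 a90_2 a90_3 q90 c95 a95_1 a95_2 a95_3 q95 fun c97 a97_1 a97_2 a97_3 q97 =>
  sqK c92 a92_1 a92_2 a92_3 q92 fun c98 a98_1 a98_2 a98_3 q98 =>
  sqK c98 a98_1 a98_2 a98_3 q98 fun c100 a100_1 a100_2 a100_3 q100 =>
  mulK c100 a100_1 a100_2 a100_3 q100 c87 a87_1 a87_2 a87_3 q87 fun c102 a102_1 a102_2 a102_3 q102 =>
  smulK 1 10 11529215046068469770 1152921504606846976 c102 a102_1 a102_2 a102_3 q102 fun c104 a104_1 a104_2 a104_3 q104 =>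
  subK c97 a97_1 a97_2 a97_3 q97 c104 a104_1 a104_2 a104_3 q104 fun c106 a106_1 a106_2 a106_3 q106 =>
  mulK c86 a86_1 a86_2 a86_3 q86 c106 a106_1 a106_2 a106_3 q106 fun c108 a108_1 a108_2 a108_3 q108 =>
  addK c52 a52_1 a52_2 a52_3 q52 c108 a108_1 a108_2 a108_3 q108 fun c109 a109_1 a109_2 a109_3 q109 =>
  mulK c47 a47_1 a47_2 a47_3 q47 c109 a109_1 a109_2 a109_3 q109 fun c110 a110_1 a110_2 a110_3 q110 =>
  smulK 4 1 1152921504606846977 4611686018427387904 c79 a79_1 a79_2 a79_3 q79 fun c111 a111_1 a111_2 a111_3 q111 =>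
  mulK c111 a111_1 a111_2 a111_3 q111 c79 a79_1 a79_2 a79_3 q79 fun c112 a112_1 a112_2 a112_3 q112 =>
  addcK c9 a9_1 a9_2 a9_3 q9 1152922604118474752 0 fun c113 a113_1 a113_2 a113_3 q113 =>
  mulK c112 a112_1 a112_2 a112_3 q112 c113 a113_1 a113_2 a113_3 q113 fun c115 a115_1 a115_2 a115_3 q115 =>
  addcK c12 a12_1 a12_2 a12_3 q12 1152922604118474752 0 fun c116 a116_1 a116_2 a116_3 q116 =>
  invK c116 a116_1 a116_2 a116_3 q116 fun c118 a118_1 a118_2 a118_3 q118 =>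
  smulK 4 3 3458764513820540931 4611686018427387904 c118 a118_1 a118_2 a118_3 q118 fun c119 a119_1 a119_2 a119_3 q119 =>
  mulK c27 a27_1 a27_2 a27_3 q27 c16 a16_1 a16_2 a16_3 q16 fun c122 a122_1 a122_2 a122_3 q122 =>
  smulK 1 10 11529215046068469770 1152921504606846976 c122 a122_1 a122_2 a122_3 q122 fun c123 a123_1 a123_2 a123_3 q123 =>
  addcK c123 a123_1 a123_2 a123_3 q123 1152923483727776973 1 fun c125 a125_1 a125_2 a125_3 q125 =>
  sqK c27 a27_1 a27_2 a27_3 q27 fun c127 a127_1 a127_2 a127_3 q127 =>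
  sqK c127 a127_1 a127_2 a127_3 q127 fun c129 a129_1 a129_2 a129_3 q129 =>
  mulK c14 a14_1 a14_2 a14_3 q14 c16 a16_1 a16_2 a16_3 q16 fun c131 a131_1 a131_2 a131_3 q131 =>
  addcK c131 a131_1 a131_2 a131_3 q131 1152922604118474752 0 fun c132 a132_1 a132_2 a132_3 q132 =>
  mulK c14 a14_1 a14_2 a14_3 q14 c132 a132_1 a132_2 a132_3 q132 fun c134 a134_1 a134_2 a134_3 q134 =>
  addcK c134 a134_1 a134_2 a134_3 q134 1152922604118474752 0 fun c135 a135_1 a135_2 a135_3 q135 =>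
  mulK c14 a14_1 a14_2 a14_3 q14 c135 a135_1 a135_2 a135_3 q135 fun c137 a137_1 a137_2 a137_3 q137 =>
  addcK c137 a137_1 a137_2 a137_3 q137 1152922604118474752 0 fun c138 a138_1 a138_2 a138_3 q138 =>
  mulK c129 a129_1 a129_2 a129_3 q129 c138 a138_1 a138_2 a138_3 q138 fun c140 a140_1 a140_2 a140_3 q140 =>
  smulK 1 10 11529215046068469770 1152921504606846976 c140 a140_1 a140_2 a140_3 q140 fun c141 a141_1 a141_2 a141_3 q141 =>
  addK c125 a125_1 a125_2 a125_3 q125 c141 a141_1 a141_2 a141_3 q141 fun c143 a143_1 a143_2 a143_3 q143 =>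
  smulK 2 3 3458764513820540931 2305843009213693952 c143 a143_1 a143_2 a143_3 q143 fun c144 a144_1 a144_2 a144_3 q144 =>
  negK c144 a144_1 a144_2 a144_3 q144 fun c145 a145_1 a145_2 a145_3 q145 =>
  addcK c145 a145_1 a145_2 a145_3 q145 1152922603018963124 1 fun c146 a146_1 a146_2 a146_3 q146 =>
  mulK z1 (Nat.add w1 1152921504606846976) 1152921504606846976 1152921504606846976 0 c146 a146_1 a146_2 a146_3 q146 fun c148 a148_1 a148_2 a148_3 q148 =>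
  addK c119 a119_1 a119_2 a119_3 q119 c148 a148_1 a148_2 a148_3 q148 fun c149 a149_1 a149_2 a149_3 q149 =>
  mulK c115 a115_1 a115_2 a115_3 q115 c149 a149_1 a149_2 a149_3 q149 fun c151 a151_1 a151_2 a151_3 q151 =>
  mulK c151 a151_1 a151_2 a151_3 q151 c149 a149_1 a149_2 a149_3 q149 fun c152 a152_1 a152_2 a152_3 q152 =>
  subK c110 a110_1 a110_2 a110_3 q110 c152 a152_1 a152_2 a152_3 q152 fun c153 a153_1 a153_2 a153_3 q153 =>
  pos c153 a153_1 a153_2 a153_3 q153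

theorem alt1_s {z1 w1 z2 w2 z3 w3 : ℕ} {e1 e2 e3 R w z : ℝ} (he : Ev e1 e2 e3)
    (hx1 : In e1 e2 e3 z1 (Nat.add w1 1152921504606846976) 1152921504606846976 1152921504606846976 0 R)
    (hx2 : In e1 e2 e3 z2 1152921504606846976 (Nat.add w2 1152921504606846976) 1152921504606846976 0 w)
    (hx3 : In e1 e2 e3 z3 1152921504606846976 1152921504606846976 (Nat.add w3 1152921504606846976) 0 z)
    (H0 : alt1 z1 w1 z2 w2 z3 w3 = true) : 0 < (Ph R w z) := by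
  unfold alt1 at H0
  refine sqK_s he hx3 (fun _ _ _ _ _ h1 H1 => ?_) H0
  have h2 := In_cast h1 (sq _)
  refine addcK_s he h2 (v' := (1:ℝ)) (by norm_num [SS, BB, abs_le]) (fun _ _ _ _ _ h3 H2 => ?_) H1
  have h4 := In_cast h3 (add_comm _ _)
  refine invK_s he h4 (fun _ _ _ _ _ h5 H3 => ?_) H2
  refine negK_s he h2 (fun _ _ _ _ _ h6 H4 => ?_) H3
  refine addcK_s he h6 (v' := (1:ℝ)) (by norm_num [SS, BB, abs_le]) (fun _ _ _ _ _ h7 H5 => ?_) H4
  have h8 := In_cast h7 (neg_add_eq_sub _ _)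
  refine mulK_s he h8 h5 (fun _ _ _ _ _ h9 H6 => ?_) H5
  have h10 := In_cast h9 ((div_eq_mul_inv _ _).symm)
  have h11 := In_cast (w := (v R w z)) h10 rfl
  refine mulK_s he hx2 h11 (fun _ _ _ _ _ h12 H7 => ?_) H6
  have h13 := In_cast (w := (t R w z)) h12 rfl
  refine sqK_s he h13 (fun _ _ _ _ _ h14 H8 => ?_) H7
  have h15 := In_cast h14 (sq _)
  refine addcK_s he h15 (v' := (1:ℝ)) (by norm_num [SS, BB, abs_le]) (fun _ _ _ _ _ h16 H9 => ?_) H8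
  have h17 := In_cast h16 (add_comm _ _)
  refine smulK_s he (w := (2:ℝ)) (by norm_num) (by norm_num) (by norm_num) (by norm_num) hx2 (fun _ _ _ _ _ h18 H10 => ?_) H9
  refine addK_s he h17 h18 (fun _ _ _ _ _ h19 H11 => ?_) H10
  refine sqrtK_s he h19 (fun _ _ _ _ _ h20 H12 => ?_) H11
  have h21 := In_cast (w := (S R w z)) h20 rfl
  refine addcK_s he h21 (v' := (1:ℝ)) (by norm_num [SS, BB, abs_le]) (fun _ _ _ _ _ h22 H13 => ?_) H12
  refine addK_s he h22 h13 (fun _ _ _ _ _ h23 H14 => ?_) H13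
  refine invK_s he h23 (fun _ _ _ _ _ h24 H15 => ?_) H14
  refine smulK_s he (w := (4:ℝ)) (by norm_num) (by norm_num) (by norm_num) (by norm_num) h24 (fun _ _ _ _ _ h25 H16 => ?_) H15
  have h26 := In_cast h25 ((div_eq_mul_inv _ _).symm)
  refine sqK_s he hx1 (fun _ _ _ _ _ h27 H17 => ?_) H16
  refine mulK_s he h27 hx1 (fun _ _ _ _ _ h28 H18 => ?_) H17
  have h29 := In_cast h28 (pow_sc (n := 3) rfl)
  refine addK_s he hx2 h13 (fun _ _ _ _ _ h30 H19 => ?_) H18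
  refine mulK_s he h29 h30 (fun _ _ _ _ _ h31 H20 => ?_) H19
  refine sqK_s he h29 (fun _ _ _ _ _ h32 H21 => ?_) H20
  have h33 := In_cast h32 (pow_dbl (n := 6) rfl)
  refine smulK_s he (w := (1/2:ℝ)) (by norm_num) (by norm_num) (by norm_num) (by norm_num) h33 (fun _ _ _ _ _ h34 H22 => ?_) H21
  have h35 := In_cast (w := (P R w z)) h17 rfl
  refine mulK_s he h34 h35 (fun _ _ _ _ _ h36 H23 => ?_) H22
  refine sqK_s he h35 (fun _ _ _ _ _ h37 H24 => ?_) H23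
  have h38 := In_cast h37 (sq _)
  refine sqK_s he hx2 (fun _ _ _ _ _ h39 H25 => ?_) H24
  have h40 := In_cast h39 (sq _)
  refine subK_s he h38 h40 (fun _ _ _ _ _ h41 H26 => ?_) H25
  refine subK_s he h41 h15 (fun _ _ _ _ _ h42 H27 => ?_) H26
  refine mulK_s he h36 h42 (fun _ _ _ _ _ h43 H28 => ?_) H27
  refine addcK_s he h43 (v' := (1/5:ℝ)) (by norm_num [SS, BB, abs_le]) (fun _ _ _ _ _ h44 H29 => ?_) H28
  have h45 := In_cast h44 (add_comm _ _)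
  refine mulK_s he h31 h45 (fun _ _ _ _ _ h46 H30 => ?_) H29
  refine addK_s he h26 h46 (fun _ _ _ _ _ h47 H31 => ?_) H30
  have h48 := In_cast (w := (G R w z)) h47 rfl
  refine negK_s he h11 (fun _ _ _ _ _ h49 H32 => ?_) H31
  refine addcK_s he h49 (v' := (1:ℝ)) (by norm_num [SS, BB, abs_le]) (fun _ _ _ _ _ h50 H33 => ?_) H32
  have h51 := In_cast h50 (neg_add_eq_sub _ _)
  refine mulK_s he h51 h48 (fun _ _ _ _ _ h52 H34 => ?_) H33
  refine negK_s he h15 (fun _ _ _ _ _ h53 H35 => ?_) H34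
  refine addcK_s he h53 (v' := (1:ℝ)) (by norm_num [SS, BB, abs_le]) (fun _ _ _ _ _ h54 H36 => ?_) H35
  have h55 := In_cast h54 (neg_add_eq_sub _ _)
  refine mulK_s he h4 h55 (fun _ _ _ _ _ h56 H37 => ?_) H36
  refine invK_s he h56 (fun _ _ _ _ _ h57 H38 => ?_) H37
  refine smulK_s he (w := (4:ℝ)) (by norm_num) (by norm_num) (by norm_num) (by norm_num) hx2 (fun _ _ _ _ _ h58 H39 => ?_) H38
  refine mulK_s he h58 hx3 (fun _ _ _ _ _ h59 H40 => ?_) H39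
  refine mulK_s he h59 h57 (fun _ _ _ _ _ h60 H41 => ?_) H40
  have h61 := In_cast h60 ((div_eq_mul_inv _ _).symm)
  have h62 := In_cast (w := (s R w z)) h61 rfl
  refine smulK_s he (w := (2/3:ℝ)) (by norm_num) (by norm_num) (by norm_num) (by norm_num) h62 (fun _ _ _ _ _ h63 H42 => ?_) H41
  refine addcK_s he h62 (v' := (1:ℝ)) (by norm_num [SS, BB, abs_le]) (fun _ _ _ _ _ h64 H43 => ?_) H42
  have h65 := In_cast h64 (add_comm _ _)
  refine sqrtK_s he h65 (fun _ _ _ _ _ h66 H44 => ?_) H43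
  refine addcK_s he h66 (v' := (1:ℝ)) (by norm_num [SS, BB, abs_le]) (fun _ _ _ _ _ h67 H45 => ?_) H44
  have h68 := In_cast h67 (add_comm _ _)
  refine invK_s he h68 (fun _ _ _ _ _ h69 H46 => ?_) H45
  refine smulK_s he (w := (2:ℝ)) (by norm_num) (by norm_num) (by norm_num) (by norm_num) h69 (fun _ _ _ _ _ h70 H47 => ?_) H46
  have h71 := In_cast h70 ((div_eq_mul_inv _ _).symm)
  refine smulK_s he (w := (7/40:ℝ)) (by norm_num) (by norm_num) (by norm_num) (by norm_num) h62 (fun _ _ _ _ _ h72 H48 => ?_) H47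
  refine addK_s he h71 h72 (fun _ _ _ _ _ h73 H49 => ?_) H48
  refine sqK_s he h62 (fun _ _ _ _ _ h74 H50 => ?_) H49
  refine mulK_s he h74 h62 (fun _ _ _ _ _ h75 H51 => ?_) H50
  have h76 := In_cast h75 (pow_sc (n := 3) rfl)
  refine smulK_s he (w := (1/32:ℝ)) (by norm_num) (by norm_num) (by norm_num) (by norm_num) h76 (fun _ _ _ _ _ h77 H52 => ?_) H51
  have h78 := In_cast h77 (div_c (c := (32:ℝ)) (by norm_num))
  refine subK_s he h73 h78 (fun _ _ _ _ _ h79 H53 => ?_) H52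
  have h80 := In_cast (w := (kap R w z)) h79 rfl
  refine mulK_s he h63 h80 (fun _ _ _ _ _ h81 H54 => ?_) H53
  refine negK_s he h81 (fun _ _ _ _ _ h82 H55 => ?_) H54
  refine addcK_s he h82 (v' := (1:ℝ)) (by norm_num [SS, BB, abs_le]) (fun _ _ _ _ _ h83 H56 => ?_) H55
  have h84 := In_cast h83 (neg_add_eq_sub _ _)
  refine smulK_s he (w := (2:ℝ)) (by norm_num) (by norm_num) (by norm_num) (by norm_num) h84 (fun _ _ _ _ _ h85 H57 => ?_) H56
  refine mulK_s he h85 h11 (fun _ _ _ _ _ h86 H58 => ?_) H57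
  refine mulK_s he hx1 h13 (fun _ _ _ _ _ h87 H59 => ?_) H58
  refine smulK_s he (w := (9/5:ℝ)) (by norm_num) (by norm_num) (by norm_num) (by norm_num) h87 (fun _ _ _ _ _ h88 H60 => ?_) H59
  refine negK_s he h88 (fun _ _ _ _ _ h89 H61 => ?_) H60
  refine addcK_s he h89 (v' := (2:ℝ)) (by norm_num [SS, BB, abs_le]) (fun _ _ _ _ _ h90 H62 => ?_) H61
  have h91 := In_cast h90 (neg_add_eq_sub _ _)
  refine sqK_s he h87 (fun _ _ _ _ _ h92 H63 => ?_) H62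
  refine mulK_s he h92 h87 (fun _ _ _ _ _ h93 H64 => ?_) H63
  have h94 := In_cast h93 (pow_sc (n := 3) rfl)
  refine smulK_s he (w := (1/10:ℝ)) (by norm_num) (by norm_num) (by norm_num) (by norm_num) h94 (fun _ _ _ _ _ h95 H65 => ?_) H64
  have h96 := In_cast h95 (div_c (c := (10:ℝ)) (by norm_num))
  refine subK_s he h91 h96 (fun _ _ _ _ _ h97 H66 => ?_) H65
  refine sqK_s he h92 (fun _ _ _ _ _ h98 H67 => ?_) H66
  have h99 := In_cast h98 (pow_dbl (n := 4) rfl)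
  refine sqK_s he h99 (fun _ _ _ _ _ h100 H68 => ?_) H67
  have h101 := In_cast h100 (pow_dbl (n := 8) rfl)
  refine mulK_s he h101 h87 (fun _ _ _ _ _ h102 H69 => ?_) H68
  have h103 := In_cast h102 (pow_sc (n := 9) rfl)
  refine smulK_s he (w := (1/10:ℝ)) (by norm_num) (by norm_num) (by norm_num) (by norm_num) h103 (fun _ _ _ _ _ h104 H70 => ?_) H69
  have h105 := In_cast h104 (div_c (c := (10:ℝ)) (by norm_num))
  refine subK_s he h97 h105 (fun _ _ _ _ _ h106 H71 => ?_) H70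
  have h107 := In_cast (w := (u1 R w z)) h106 rfl
  refine mulK_s he h86 h107 (fun _ _ _ _ _ h108 H72 => ?_) H71
  refine addK_s he h52 h108 (fun _ _ _ _ _ h109 H73 => ?_) H72
  refine mulK_s he h48 h109 (fun _ _ _ _ _ h110 H74 => ?_) H73
  refine smulK_s he (w := (4:ℝ)) (by norm_num) (by norm_num) (by norm_num) (by norm_num) h80 (fun _ _ _ _ _ h111 H75 => ?_) H74
  refine mulK_s he h111 h80 (fun _ _ _ _ _ h112 H76 => ?_) H75
  refine addcK_s he h11 (v' := (1:ℝ)) (by norm_num [SS, BB, abs_le]) (fun _ _ _ _ _ h113 H77 => ?_) H76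
  have h114 := In_cast h113 (add_comm _ _)
  refine mulK_s he h112 h114 (fun _ _ _ _ _ h115 H78 => ?_) H77
  refine addcK_s he h13 (v' := (1:ℝ)) (by norm_num [SS, BB, abs_le]) (fun _ _ _ _ _ h116 H79 => ?_) H78
  have h117 := In_cast h116 (add_comm _ _)
  refine invK_s he h117 (fun _ _ _ _ _ h118 H80 => ?_) H79
  refine smulK_s he (w := (4/3:ℝ)) (by norm_num) (by norm_num) (by norm_num) (by norm_num) h118 (fun _ _ _ _ _ h119 H81 => ?_) H80
  have h120 := In_cast h119 ((div_eq_mul_inv _ _).symm)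
  have h121 := In_cast h27 (sq _)
  refine mulK_s he h121 h35 (fun _ _ _ _ _ h122 H82 => ?_) H81
  refine smulK_s he (w := (1/10:ℝ)) (by norm_num) (by norm_num) (by norm_num) (by norm_num) h122 (fun _ _ _ _ _ h123 H83 => ?_) H82
  have h124 := In_cast h123 (div_c (c := (10:ℝ)) (by norm_num))
  refine addcK_s he h124 (v' := (9/5:ℝ)) (by norm_num [SS, BB, abs_le]) (fun _ _ _ _ _ h125 H84 => ?_) H83
  have h126 := In_cast h125 (add_comm _ _)
  refine sqK_s he h27 (fun _ _ _ _ _ h127 H85 => ?_) H84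
  have h128 := In_cast h127 (pow_dbl (n := 4) rfl)
  refine sqK_s he h128 (fun _ _ _ _ _ h129 H86 => ?_) H85
  have h130 := In_cast h129 (pow_dbl (n := 8) rfl)
  refine mulK_s he h15 h17 (fun _ _ _ _ _ h131 H87 => ?_) H86
  refine addcK_s he h131 (v' := (1:ℝ)) (by norm_num [SS, BB, abs_le]) (fun _ _ _ _ _ h132 H88 => ?_) H87
  have h133 := In_cast h132 (add_comm _ _)
  refine mulK_s he h15 h133 (fun _ _ _ _ _ h134 H89 => ?_) H88
  refine addcK_s he h134 (v' := (1:ℝ)) (by norm_num [SS, BB, abs_le]) (fun _ _ _ _ _ h135 H90 => ?_) H89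
  have h136 := In_cast h135 (add_comm _ _)
  refine mulK_s he h15 h136 (fun _ _ _ _ _ h137 H91 => ?_) H90
  refine addcK_s he h137 (v' := (1:ℝ)) (by norm_num [SS, BB, abs_le]) (fun _ _ _ _ _ h138 H92 => ?_) H91
  have h139 := In_cast h138 (add_comm _ _)
  refine mulK_s he h130 h139 (fun _ _ _ _ _ h140 H93 => ?_) H92
  refine smulK_s he (w := (1/10:ℝ)) (by norm_num) (by norm_num) (by norm_num) (by norm_num) h140 (fun _ _ _ _ _ h141 H94 => ?_) H93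
  have h142 := In_cast h141 (div_c (c := (10:ℝ)) (by norm_num))
  refine addK_s he h126 h142 (fun _ _ _ _ _ h143 H95 => ?_) H94
  refine smulK_s he (w := (2/3:ℝ)) (by norm_num) (by norm_num) (by norm_num) (by norm_num) h143 (fun _ _ _ _ _ h144 H96 => ?_) H95
  refine negK_s he h144 (fun _ _ _ _ _ h145 H97 => ?_) H96
  refine addcK_s he h145 (v' := (999/1000:ℝ)) (by norm_num [SS, BB, abs_le]) (fun _ _ _ _ _ h146 H98 => ?_) H97
  have h147 := In_cast h146 (neg_add_eq_sub _ _)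
  refine mulK_s he hx1 h147 (fun _ _ _ _ _ h148 H99 => ?_) H98
  refine addK_s he h120 h148 (fun _ _ _ _ _ h149 H100 => ?_) H99
  have h150 := In_cast (w := (m R w z)) h149 rfl
  refine mulK_s he h115 h150 (fun _ _ _ _ _ h151 H101 => ?_) H100
  refine mulK_s he h151 h150 (fun _ _ _ _ _ h152 H102 => ?_) H101
  refine subK_s he h110 h152 (fun _ _ _ _ _ h153 H103 => ?_) H102
  have h154 := In_cast (w := (Ph R w z)) h153 rfl
  exact pos_s he h154 H103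

noncomputable def alt2 (z1 w1 z2 w2 z3 w3 : ℕ) : Bool :=
  sqK z3 1152921504606846976 1152921504606846976 (Nat.add w3 1152921504606846976) 0 fun c1 a1_1 a1_2 a1_3 q1 =>
  addcK c1 a1_1 a1_2 a1_3 q1 1152922604118474752 0 fun c3 a3_1 a3_2 a3_3 q3 =>
  invK c3 a3_1 a3_2 a3_3 q3 fun c5 a5_1 a5_2 a5_3 q5 =>
  negK c1 a1_1 a1_2 a1_3 q1 fun c6 a6_1 a6_2 a6_3 q6 =>
  addcK c6 a6_1 a6_2 a6_3 q6 1152922604118474752 0 fun c7 a7_1 a7_2 a7_3 q7 =>
  mulK c7 a7_1 a7_2 a7_3 q7 c5 a5_1 a5_2 a5_3 q5 fun c9 a9_1 a9_2 a9_3 q9 =>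
  mulK z2 1152921504606846976 (Nat.add w2 1152921504606846976) 1152921504606846976 0 c9 a9_1 a9_2 a9_3 q9 fun c12 a12_1 a12_2 a12_3 q12 =>
  sqK c12 a12_1 a12_2 a12_3 q12 fun c14 a14_1 a14_2 a14_3 q14 =>
  negK c14 a14_1 a14_2 a14_3 q14 fun c16 a16_1 a16_2 a16_3 q16 =>
  addcK c16 a16_1 a16_2 a16_3 q16 1152922604118474752 0 fun c17 a17_1 a17_2 a17_3 q17 =>
  mulK c3 a3_1 a3_2 a3_3 q3 c17 a17_1 a17_2 a17_3 q17 fun c19 a19_1 a19_2 a19_3 q19 =>
  invK c19 a19_1 a19_2 a19_3 q19 fun c20 a20_1 a20_2 a20_3 q20 =>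
  smulK 4 1 1152921504606846977 4611686018427387904 z2 1152921504606846976 (Nat.add w2 1152921504606846976) 1152921504606846976 0 fun c21 a21_1 a21_2 a21_3 q21 =>
  mulK c21 a21_1 a21_2 a21_3 q21 z3 1152921504606846976 1152921504606846976 (Nat.add w3 1152921504606846976) 0 fun c22 a22_1 a22_2 a22_3 q22 =>
  mulK c22 a22_1 a22_2 a22_3 q22 c20 a20_1 a20_2 a20_3 q20 fun c23 a23_1 a23_2 a23_3 q23 =>
  addcK c23 a23_1 a23_2 a23_3 q23 1152920844899870310 1 fun c26 a26_1 a26_2 a26_3 q26 =>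
  smulK 64 1 1152921504606846977 73786976294838206464 c26 a26_1 a26_2 a26_3 q26 fun c28 a28_1 a28_2 a28_3 q28 =>
  pos c28 a28_1 a28_2 a28_3 q28

theorem alt2_s {z1 w1 z2 w2 z3 w3 : ℕ} {e1 e2 e3 R w z : ℝ} (he : Ev e1 e2 e3)
    (hx1 : In e1 e2 e3 z1 (Nat.add w1 1152921504606846976) 1152921504606846976 1152921504606846976 0 R)
    (hx2 : In e1 e2 e3 z2 1152921504606846976 (Nat.add w2 1152921504606846976) 1152921504606846976 0 w)
    (hx3 : In e1 e2 e3 z3 1152921504606846976 1152921504606846976 (Nat.add w3 1152921504606846976) 0 z)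
    (H0 : alt2 z1 w1 z2 w2 z3 w3 = true) : 0 < ((64:ℝ) * ((s R w z) - (3/5:ℝ))) := by
  unfold alt2 at H0
  refine sqK_s he hx3 (fun _ _ _ _ _ h1 H1 => ?_) H0
  have h2 := In_cast h1 (sq _)
  refine addcK_s he h2 (v' := (1:ℝ)) (by norm_num [SS, BB, abs_le]) (fun _ _ _ _ _ h3 H2 => ?_) H1
  have h4 := In_cast h3 (add_comm _ _)
  refine invK_s he h4 (fun _ _ _ _ _ h5 H3 => ?_) H2
  refine negK_s he h2 (fun _ _ _ _ _ h6 H4 => ?_) H3
  refine addcK_s he h6 (v' := (1:ℝ)) (by norm_num [SS, BB, abs_le]) (fun _ _ _ _ _ h7 H5 => ?_) H4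
  have h8 := In_cast h7 (neg_add_eq_sub _ _)
  refine mulK_s he h8 h5 (fun _ _ _ _ _ h9 H6 => ?_) H5
  have h10 := In_cast h9 ((div_eq_mul_inv _ _).symm)
  have h11 := In_cast (w := (v R w z)) h10 rfl
  refine mulK_s he hx2 h11 (fun _ _ _ _ _ h12 H7 => ?_) H6
  have h13 := In_cast (w := (t R w z)) h12 rfl
  refine sqK_s he h13 (fun _ _ _ _ _ h14 H8 => ?_) H7
  have h15 := In_cast h14 (sq _)
  refine negK_s he h15 (fun _ _ _ _ _ h16 H9 => ?_) H8
  refine addcK_s he h16 (v' := (1:ℝ)) (by norm_num [SS, BB, abs_le]) (fun _ _ _ _ _ h17 H10 => ?_) H9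
  have h18 := In_cast h17 (neg_add_eq_sub _ _)
  refine mulK_s he h4 h18 (fun _ _ _ _ _ h19 H11 => ?_) H10
  refine invK_s he h19 (fun _ _ _ _ _ h20 H12 => ?_) H11
  refine smulK_s he (w := (4:ℝ)) (by norm_num) (by norm_num) (by norm_num) (by norm_num) hx2 (fun _ _ _ _ _ h21 H13 => ?_) H12
  refine mulK_s he h21 hx3 (fun _ _ _ _ _ h22 H14 => ?_) H13
  refine mulK_s he h22 h20 (fun _ _ _ _ _ h23 H15 => ?_) H14
  have h24 := In_cast h23 ((div_eq_mul_inv _ _).symm)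
  have h25 := In_cast (w := (s R w z)) h24 rfl
  refine addcK_s he h25 (v' := (-3/5:ℝ)) (by norm_num [SS, BB, abs_le]) (fun _ _ _ _ _ h26 H16 => ?_) H15
  have h27 := In_cast h26 (sub_c (c := (3/5:ℝ)) (by norm_num))
  refine smulK_s he (w := (64:ℝ)) (by norm_num) (by norm_num) (by norm_num) (by norm_num) h27 (fun _ _ _ _ _ h28 H17 => ?_) H16
  exact pos_s he h28 H17

attribute [irreducible] alt0 alt1 alt2

noncomputable def leaf (j u z1 w1 z2 w2 z3 w3 : ℕ) : Bool :=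
  sB j (alt0 z1 w1 z2 w2 z3 w3) fun j => sB j (alt1 z1 w1 z2 w2 z3 w3) fun j => alt2 z1 w1 z2 w2 z3 w3

theorem snd : Snd Q leaf := by
  intro j u z1 w1 z2 w2 z3 w3 e1 e2 e3 he H
  unfold leaf at H
  unfold Q
  replace H := sel H
  rcases H with H | ⟨j, H⟩
  · exact Or.inl (alt0_s he (var1 z1 w1) (var2 z2 w2) (var3 z3 w3) H)
  replace H := sel H
  rcases H with H | ⟨j, H⟩
  · exact Or.inr (Or.inl (alt1_s he (var1 z1 w1) (var2 z2 w2) (var3 z3 w3) H))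
  exact Or.inr (Or.inr (alt2_s he (var1 z1 w1) (var2 z2 w2) (var3 z3 w3) H))

end Crest.Agent.R307.GPb
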