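import Crest.Agent.R307.GPb
set_option autoImplicit false
set_option maxRecDepth 100000
namespace Crest.Agent.R307.GPb
open Crest.Agent.R307.IA Crest.Agent.R307.IA3

theorem k6 : Cov Q 1152921504606846976 1152922604118474752 1152921504606846976 1152921724509175915 1152922329240568073 1152922604118474752 :=
  cov_of snd 0 0 30 _ _ _ _ _ _ 0x331331230331331230130331331230331331230130233103313312331331213300331330233133121330023310233302033133123313312130331331233133121330023310303313312331331213300331331233133123012331033002332013323103303233033021330033133213300233103300331330330113303311233203310233133023033032302331332133033112301330033033013312330331133301213300233201333023311023313303120333020331331233133123013033133123303233033021130230331331233233033021130331331233233211302330023320303323321332332130133133113323303302112330030330331133123313311330331121331030233002332033233033021303323303302130233133123303302332332332332430301111130133133123303302332332332332332430301111113012301303303302331331213303302331331212331331233033023323323323323323323324303011111111301331331233133123323323323323323323324303011111113011230130233103033033023313312133233033021230303313303311133133301123030233133213313302332332332332332332332332430301111111130113313321330330233233233233233233233233243030111111113011230303313311331331123303302330330233233233233233233233233243030111111113011330330233033023323323323323323323323324303011111111301121303023013023310301332033001331310 (by decide +kernel)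

theorem k7 : Cov Q 1152921504606846976 1152922604118474752 1152921724509175915 1152921944411498087 1152922329240568073 1152922604118474752 :=
  cov_of snd 0 0 17 _ _ _ _ _ _ 0x5555332303303302233003033032332233003021332011133033013303301233133123013310330330133123303301331213310233033020331331230331331230133003303301331233133123013310233201332330103313312303313312301330330230330330230123303302033133123313312133103303302331330213310233033020133033023311023303133033012015333021332330010555332303303023300153303302330012330332201133230332301330033032330330213310233033020330323033032301330330233033021233033020333020133133113300330330133002330330203313311330033033013300233033010123303033013313033030120153303303021330313303301210253133015330133031120333023330210 (by decide +kernel)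

end Crest.Agent.R307.GPb
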