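import Crest.Agent.R307.GPbC0
import Crest.Agent.R307.GPbC1
set_option autoImplicit false
set_option maxRecDepth 100000
namespace Crest.Agent.R307.GPb
open Crest.Agent.R307.IA Crest.Agent.R307.IA3

theorem cov : Cov Q 1152921504606846976 1152922604118474752 1152921504606846976 1152921944411498087 1152921504606846976 1152922604118474752 :=
  (join3 1152922054362661017 (join3 1152921779484754113 (join2 1152921724509175915 k0 k1) (join2 1152921724509175915 k2 k3)) (join3 1152922329240568073 (join2 1152921724509175915 k4 k5) (join2 1152921724509175915 k6 k7)))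

theorem main (R w z : ℝ) (l0 : (0:ℝ) ≤ R) (u0 : R ≤ (1:ℝ)) (l1 : (0:ℝ) ≤ w) (u1 : w ≤ (2/5:ℝ)) (l2 : (0:ℝ) ≤ z) (u2 : z ≤ (1:ℝ)) : Q R w z :=
  cov R w z (le_trans (by norm_num [val, SS, BB]) l0) (le_trans u0 (by norm_num [val, SS, BB])) (le_trans (by norm_num [val, SS, BB]) l1) (le_trans u1 (by norm_num [val, SS, BB])) (le_trans (by norm_num [val, SS, BB]) l2) (le_trans u2 (by norm_num [val, SS, BB]))

end Crest.Agent.R307.GPb
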