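import Crest.Agent.R307.HPp

/-!
# R307/HPc: a cone inequality `g (g + 2N) ≥ (M₊)²` gives a whole ellipse of steps
-/

set_option autoImplicit false

namespace Crest.Agent.R307

open Crest.CubeNoise Set

/-- The gain of the potential in one step. -/
noncomputable def gain (ρ : ℝ) (U : ℝ → ℝ) (p0 p1 : ℝ) : ℝ :=
  U ((1 + ρ) / 2 * p1 + (1 - ρ) / 2 * p0) + U ((1 + ρ) / 2 * p0 + (1 - ρ) / 2 * p1) - U p0 - U p1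

theorem gain_nonneg {ρ : ℝ} (hρ0 : 0 ≤ ρ) (hρ1 : ρ ≤ 1) {U : ℝ → ℝ} (hc : ConcaveOn ℝ (Icc 0 1) U) {p0 p1 : ℝ}
    (h0 : 0 ≤ p0) (h01 : p0 ≤ p1) (h1 : p1 ≤ 1) : 0 ≤ gain ρ U p0 p1 := by
  have := xind_spread hc (x := (1 + ρ) / 2 * p1 + (1 - ρ) / 2 * p0) (y := (1 + ρ) / 2 * p0 + (1 - ρ) / 2 * p1)
    h0 h1 (by nlinarith) (by nlinarith) (by ring)
  unfold gain
  linarith

/-- `N = n0 U0 + n1 U1`, `M = κ δ + ν0 U0 - ν1 U1` (the factor `s` is inside `κ, ν0, ν1`). -/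
def Cone (ρ : ℝ) (U : ℝ → ℝ) (n0 n1 κ ν0 ν1 : ℝ) : Prop :=
  ∀ p0 p1 : ℝ, 0 ≤ p0 → p0 ≤ p1 → p1 ≤ 1 →
    κ * (p1 - p0) + ν0 * U p0 - ν1 * U p1 ≤ 0 ∨
    (κ * (p1 - p0) + ν0 * U p0 - ν1 * U p1) ^ 2 ≤ gain ρ U p0 p1 * (gain ρ U p0 p1 + 2 * (n0 * U p0 + n1 * U p1))

theorem cone_alg {g N M c t : ℝ} (hg : 0 ≤ g) (hN : 0 ≤ N) (ht : 0 ≤ t) (hct : c ^ 2 + t ^ 2 ≤ 1)
    (h : M ≤ 0 ∨ M ^ 2 ≤ g * (g + 2 * N)) : c * N + t * M ≤ g + N := by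
  have c1 : c ≤ 1 := by nlinarith [sq_nonneg t]
  rcases h with h | h
  · nlinarith [mul_nonneg ht (neg_nonneg.2 h), mul_nonneg hN (sub_nonneg.2 c1)]
  · have e1 : (c * N + t * M) ^ 2 ≤ (c ^ 2 + t ^ 2) * (N ^ 2 + M ^ 2) := by nlinarith [sq_nonneg (c * M - t * N)]
    have e2 : (c ^ 2 + t ^ 2) * (N ^ 2 + M ^ 2) ≤ N ^ 2 + M ^ 2 := mul_le_of_le_one_left (by positivity) hct
    have e3 : (c * N + t * M) ^ 2 ≤ (g + N) ^ 2 := by nlinarith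
    exact (abs_le_of_sq_le_sq' e3 (by positivity)).2

/-- Every point `(c, t)` of the unit disc with `t ≥ 0` gives a step. -/
theorem Cone.ustep {ρ : ℝ} (hρ0 : 0 ≤ ρ) (hρ1 : ρ ≤ 1) {U : ℝ → ℝ} (hc : ConcaveOn ℝ (Icc 0 1) U)
    (hU : ∀ p, 0 ≤ p → p ≤ 1 → 0 ≤ U p) {n0 n1 κ ν0 ν1 : ℝ} (hn0 : 0 ≤ n0) (hn1 : 0 ≤ n1)
    (h : Cone ρ U n0 n1 κ ν0 ν1) {c t : ℝ} (ht : 0 ≤ t) (hct : c ^ 2 + t ^ 2 ≤ 1)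
    (k0 : 0 ≤ 1 - n0 * (1 - c) + ν0 * t) (k1 : 0 ≤ 1 - n1 * (1 - c) - ν1 * t) :
    UStep ρ U (1 - n0 * (1 - c) + ν0 * t) (1 - n1 * (1 - c) - ν1 * t) (κ * t) := by
  refine ⟨k0, k1, fun p0 p1 a b e => ?_⟩
  have := cone_alg (gain_nonneg hρ0 hρ1 hc a b e)
    (add_nonneg (mul_nonneg hn0 (hU p0 a (b.trans e))) (mul_nonneg hn1 (hU p1 (a.trans b) e))) ht hct (h p0 p1 a b e)
  unfold gain at this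
  linarith

/-- Rational parametrisation `c = (1-t²)/(1+t²)`, `sin = 2t/(1+t²)`. -/
theorem Cone.ustep_tan {ρ : ℝ} (hρ0 : 0 ≤ ρ) (hρ1 : ρ ≤ 1) {U : ℝ → ℝ} (hc : ConcaveOn ℝ (Icc 0 1) U)
    (hU : ∀ p, 0 ≤ p → p ≤ 1 → 0 ≤ U p) {n0 n1 κ ν0 ν1 : ℝ} (hn0 : 0 ≤ n0) (hn1 : 0 ≤ n1)
    (h : Cone ρ U n0 n1 κ ν0 ν1) {t : ℝ} (ht : 0 ≤ t)
    (k0 : 0 ≤ 1 - n0 * (2 * t ^ 2 / (1 + t ^ 2)) + ν0 * (2 * t / (1 + t ^ 2)))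
    (k1 : 0 ≤ 1 - n1 * (2 * t ^ 2 / (1 + t ^ 2)) - ν1 * (2 * t / (1 + t ^ 2))) :
    UStep ρ U (1 - n0 * (2 * t ^ 2 / (1 + t ^ 2)) + ν0 * (2 * t / (1 + t ^ 2)))
      (1 - n1 * (2 * t ^ 2 / (1 + t ^ 2)) - ν1 * (2 * t / (1 + t ^ 2))) (κ * (2 * t / (1 + t ^ 2))) := by
  have e : 2 * t ^ 2 / (1 + t ^ 2) = 1 - (1 - t ^ 2) / (1 + t ^ 2) := by field_simp; ring
  rw [e] at k0 k1 ⊢
  refine h.ustep hρ0 hρ1 hc hU hn0 hn1 (by positivity) (le_of_eq ?_) k0 k1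
  field_simp
  ring

/-- The global cone of idea 1270: `N = 2 c0 U0 + (1 - ν s) U1`, `M = s (δ + ν (U0 - U1))`; both multipliers are `≥ 0`. -/
theorem Cone.ustep_gc {ρ s ν c0 : ℝ} (hρ0 : 0 ≤ ρ) (hρ1 : ρ ≤ 1) {U : ℝ → ℝ} (hc : ConcaveOn ℝ (Icc 0 1) U)
    (hU : ∀ p, 0 ≤ p → p ≤ 1 → 0 ≤ U p) (hc0 : 0 ≤ c0) (hc1 : c0 ≤ 1 / 2) (hν0 : 0 ≤ ν * s) (hν1 : ν * s ≤ 1)
    (h : Cone ρ U (2 * c0) (1 - ν * s) s (ν * s) (ν * s)) {c t : ℝ} (hc2 : 0 ≤ c) (ht : 0 ≤ t)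
    (hct : c ^ 2 + t ^ 2 ≤ 1) :
    UStep ρ U (1 - 2 * c0 * (1 - c) + ν * s * t) ((1 - ν * s) * c + ν * s * (1 - t)) (s * t) := by
  have t1 : t ≤ 1 := by nlinarith [sq_nonneg c]
  have e : (1 - ν * s) * c + ν * s * (1 - t) = 1 - (1 - ν * s) * (1 - c) - ν * s * t := by ring
  have k1 : 0 ≤ (1 - ν * s) * c + ν * s * (1 - t) :=
    add_nonneg (mul_nonneg (by linarith) hc2) (mul_nonneg hν0 (by linarith))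
  rw [e] at k1 ⊢
  refine h.ustep hρ0 hρ1 hc hU (by linarith) (by linarith) ht hct ?_ k1
  nlinarith [mul_nonneg hν0 ht, mul_nonneg hc0 hc2]

end Crest.Agent.R307
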