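import Crest.Agent.R307.HPp

/-!
# R307/HPe: end lemmas for a potential `U` that does not split `c` exactly (tangent-line / Jensen trick)
-/

set_option autoImplicit false

namespace Crest.Agent.R307

open Crest.CubeNoise Set

/-- End step by a tangent line: `U p + U (1-p) + μ ≤ θ c(p)` with `θ > 0` and `θ T ≤ X + Y + μ` give `T ≤ E c`. -/
theorem xcore_of_region {ρ : ℝ} (hρ0 : 0 ≤ ρ) (hρ1 : ρ ≤ 1) {U : ℝ → ℝ} (Rg : ℝ → ℝ → ℝ → Prop)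
    (ind : ∀ (n : ℕ) (u : (Fin n → Bool) → ℝ), (∀ y, u y = 0 ∨ u y = 1) →
      Rg (cubeAverage u) (cubeAverage fun x => U (noise ρ u x)) (cubeAverage fun x => U (1 - noise ρ u x)))
    (fin : ∀ a : ℝ, 0 ≤ a → a ≤ 1 → √(1 - ρ ^ 2) - 1 + 2 * √(a * (1 - a)) ≤ 0 ∨ ∃ θ μ : ℝ, 0 < θ ∧
      (∀ p : ℝ, 0 ≤ p → p ≤ 1 → U p + U (1 - p) + μ ≤ θ * (2 * √(p * (1 - p)))) ∧
      ∀ X Y : ℝ, Rg a X Y → θ * (√(1 - ρ ^ 2) - 1 + 2 * √(a * (1 - a))) ≤ X + Y + μ) : XCore ρ := by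
  intro n u hu
  have hρ : |ρ| ≤ 1 := abs_le.2 ⟨by linarith, hρ1⟩
  have u0 : ∀ y, 0 ≤ u y := fun y => by rcases hu y with a | a <;> simp [a]
  have u1 : ∀ y, u y ≤ 1 := fun y => by rcases hu y with a | a <;> simp [a]
  have p0 : ∀ x, 0 ≤ noise ρ u x := fun x => by
    have := noise_mono hρ (u := fun _ => 0) (v := u) u0 x
    rwa [noise_const] at this
  have p1 : ∀ x, noise ρ u x ≤ 1 := fun x => by
    have := noise_mono hρ (v := fun _ => 1) (u := u) u1 x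
    rwa [noise_const] at this
  rcases fin _ (le_avg u0) (avg_le u1) with h | ⟨θ, μ, hθ, hp, hf⟩
  · exact h.trans (avg_nonneg fun x => by positivity)
  have e := avg_mono fun x => hp (noise ρ u x) (p0 x) (p1 x)
  rw [avg_add, avg_add, avg_const, avg_mul] at e
  exact le_of_mul_le_mul_left ((hf _ _ (ind n u hu)).trans e) hθ

/-- The case `U p + U (1-p) + r c(p)² ≤ c(p)` with `0 ≤ r < 1/2`: the target for `X + Y` is `T - r T²`. -/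
theorem xcore_of_region_sq {ρ r : ℝ} (hρ0 : 0 ≤ ρ) (hρ1 : ρ ≤ 1) (hr0 : 0 ≤ r) (hr : r < 1 / 2) {U : ℝ → ℝ}
    (Rg : ℝ → ℝ → ℝ → Prop)
    (ind : ∀ (n : ℕ) (u : (Fin n → Bool) → ℝ), (∀ y, u y = 0 ∨ u y = 1) →
      Rg (cubeAverage u) (cubeAverage fun x => U (noise ρ u x)) (cubeAverage fun x => U (1 - noise ρ u x)))
    (hs : ∀ p : ℝ, 0 ≤ p → p ≤ 1 → U p + U (1 - p) + r * (4 * (p * (1 - p))) ≤ 2 * √(p * (1 - p)))
    (fin : ∀ a T X Y : ℝ, 0 ≤ a → a ≤ 1 → T = √(1 - ρ ^ 2) - 1 + 2 * √(a * (1 - a)) → 0 < T → Rg a X Y →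
      T - r * T ^ 2 ≤ X + Y) : XCore ρ := by
  refine xcore_of_region hρ0 hρ1 Rg ind fun a a0 a1 => ?_
  set T := √(1 - ρ ^ 2) - 1 + 2 * √(a * (1 - a)) with hT
  rcases le_or_gt T 0 with h | h
  · exact Or.inl h
  have T1 : T ≤ 1 := by
    have h1 : √(1 - ρ ^ 2) ≤ 1 := Real.sqrt_le_one.2 (by nlinarith)
    have h2 : √(a * (1 - a)) ≤ 1 / 2 := Real.sqrt_le_iff.2 ⟨by norm_num, by nlinarith [sq_nonneg (a - 1 / 2)]⟩
    linarith
  refine Or.inr ⟨1 - 2 * r * T, -(r * T ^ 2), by nlinarith, fun p p0 p1 => ?_, fun X Y R => ?_⟩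
  · have e := hs p p0 p1
    have q := Real.sq_sqrt (mul_nonneg p0 (sub_nonneg.2 p1))
    rw [← q] at e
    rw [Real.sqrt_sq (Real.sqrt_nonneg _)] at e
    nlinarith [mul_nonneg hr0 (sq_nonneg (2 * √(p * (1 - p)) - T))]
  · have := fin a T X Y a0 a1 hT h R
    nlinarith

/-- General convex remainder: `U p + U (1-p) + R (c p) ≤ c p`, `R` lies above its tangent lines (slope `R1 < 1`). -/
theorem xcore_of_region_cvx {ρ : ℝ} (hρ0 : 0 ≤ ρ) (hρ1 : ρ ≤ 1) {U R R1 : ℝ → ℝ} (Rg : ℝ → ℝ → ℝ → Prop)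
    (ind : ∀ (n : ℕ) (u : (Fin n → Bool) → ℝ), (∀ y, u y = 0 ∨ u y = 1) →
      Rg (cubeAverage u) (cubeAverage fun x => U (noise ρ u x)) (cubeAverage fun x => U (1 - noise ρ u x)))
    (hR : ∀ T c : ℝ, 0 < T → T ≤ 1 → 0 ≤ c → c ≤ 1 → R T + R1 T * (c - T) ≤ R c) (hR1 : ∀ T, 0 < T → T ≤ 1 → R1 T < 1)
    (hs : ∀ p : ℝ, 0 ≤ p → p ≤ 1 → U p + U (1 - p) + R (2 * √(p * (1 - p))) ≤ 2 * √(p * (1 - p)))
    (fin : ∀ a T X Y : ℝ, 0 ≤ a → a ≤ 1 → T = √(1 - ρ ^ 2) - 1 + 2 * √(a * (1 - a)) → 0 < T → Rg a X Y →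
      T - R T ≤ X + Y) : XCore ρ := by
  have hc : ∀ a : ℝ, 2 * √(a * (1 - a)) ≤ 1 := fun a => by
    have h2 : √(a * (1 - a)) ≤ 1 / 2 := Real.sqrt_le_iff.2 ⟨by norm_num, by nlinarith [sq_nonneg (a - 1 / 2)]⟩
    linarith
  refine xcore_of_region hρ0 hρ1 Rg ind fun a a0 a1 => ?_
  set T := √(1 - ρ ^ 2) - 1 + 2 * √(a * (1 - a)) with hT
  rcases le_or_gt T 0 with h | h
  · exact Or.inl h
  have T1 : T ≤ 1 := by
    have h1 : √(1 - ρ ^ 2) ≤ 1 := Real.sqrt_le_one.2 (by nlinarith)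
    linarith [hc a]
  refine Or.inr ⟨1 - R1 T, R T - R1 T * T, by linarith [hR1 T h T1], fun p p0 p1 => ?_, fun X Y Rr => ?_⟩
  · have e := hs p p0 p1
    have := hR T _ h T1 (by positivity) (hc p)
    linarith
  · have := fin a T X Y a0 a1 hT h Rr
    linarith

end Crest.Agent.R307
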