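import Crest.Agent.R307.GPaM
import Crest.Agent.R307.GPbM
import Crest.Agent.R307.HPc
import Crest.Agent.R307.HPe

/-!
# R307/GPc: the global cone for the polynomial potential `Ug`
-/

set_option autoImplicit false

namespace Crest.Agent.R307

open Crest.CubeNoise Set

/-- The potential. -/
noncomputable def Ug (p : ℝ) : ℝ := 2 * √(1 - p) - 9 / 5 * (1 - p) - (1 - p) ^ 2 / 10 - (1 - p) ^ 5 / 10

/-- The target value `σ(s) = s - R(s)` at `a = 1/2`. -/
noncomputable def sig (s : ℝ) : ℝ := 2 * √(1 + s) - 2 + 7 / 40 * s ^ 2 - s ^ 4 / 32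

noncomputable def cz (s : ℝ) : ℝ := 31 / 500 + 13 / 100 * s + 19 / 100 * s * s

theorem sig_eq {s : ℝ} (hs : 0 ≤ s) (R t : ℝ) : sig s = s * GPa.kap R t s := by
  unfold sig GPa.kap
  have h := Real.sq_sqrt (show 0 ≤ 1 + s by linarith)
  have h0 := Real.sqrt_nonneg (1 + s)
  generalize √(1 + s) = r at *
  have : s = r ^ 2 - 1 := by linarith
  subst this
  field_simp
  ring

theorem gp_u0 {R : ℝ} (t s : ℝ) (h0 : 0 ≤ R) (h1 : R ≤ 1) : 0 ≤ GPa.u0 R t s := by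
  unfold GPa.u0
  have := pow_le_one₀ h0 h1 (n := 3)
  have := pow_le_one₀ h0 h1 (n := 9)
  linarith

/-- The certified function. -/
noncomputable def gpF (R t s : ℝ) : ℝ :=
  GPa.G R t s * ((GPa.w R t s - t) * GPa.G R t s + 4 * GPa.c0 R t s * GPa.u0 R t s +
    2 * (1 - 2 / 3 * s * GPa.kap R t s) * t * GPa.u1 R t s) -
    4 * GPa.kap R t s * GPa.kap R t s * (GPa.w R t s + t) * GPa.m R t s * GPa.m R t s

theorem gp_F {R t s : ℝ} (hR0 : 0 ≤ R) (hR1 : R ≤ 1) (ht0 : 0 ≤ t) (ht1 : t ≤ 1) (hs0 : 0 ≤ s) (hs1 : s ≤ 3 / 5) :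
    0 ≤ gpF R t s ∨ GPa.m R t s ≤ 0 := by
  rcases le_or_gt (1 / 4) t with h | h
  · rcases GPa.main R t s hR0 hR1 h ht1 hs0 hs1 with e | e
    · exact Or.inl e.le
    · exact Or.inr (by linarith)
  left
  have hw0 : 0 ≤ GPa.w R t s := Real.sqrt_nonneg _
  have hw2 : GPa.w R t s ^ 2 = t * t + (s * (1 - t * t)) ^ 2 / 4 := Real.sq_sqrt (by positivity)
  have tt : t * t ≤ 1 / 16 := by nlinarith
  have tt0 : 0 ≤ t * t := by positivity
  have sy : (s * (1 - t * t)) ^ 2 ≤ (3 / 5) ^ 2 :=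
    pow_le_pow_left₀ (mul_nonneg hs0 (by linarith)) (by nlinarith) 2
  have hw1 : GPa.w R t s ≤ 2 / 5 := by nlinarith
  obtain ⟨v, y, v0, y0, vy, e1, e2⟩ : ∃ v y : ℝ, 0 ≤ v ∧ 0 ≤ y ∧ v ^ 2 + y ^ 2 = 1 ∧ t = GPa.w R t s * v ∧
      s * (1 - t * t) = 2 * (GPa.w R t s * y) := by
    rcases hw0.eq_or_lt with z | z
    · rw [← z] at hw2 ⊢
      have a1 : t = 0 := by nlinarith [sq_nonneg (s * (1 - t * t))]
      have a2 : s * (1 - t * t) = 0 := by nlinarith [sq_nonneg (s * (1 - t * t))]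
      exact ⟨1, 0, zero_le_one, le_rfl, by norm_num, by simp [a1], by simp [a2]⟩
    · refine ⟨t / GPa.w R t s, s * (1 - t * t) / (2 * GPa.w R t s), by positivity,
        div_nonneg (mul_nonneg hs0 (by linarith)) (by positivity), ?_, by field_simp, by field_simp⟩
      field_simp
      linarith
  generalize hw : GPa.w R t s = w at *
  have y1 : y ≤ 1 := by nlinarith
  have hz0 : 0 ≤ y / (1 + v) := by positivity
  have hz1 : y / (1 + v) ≤ 1 := (div_le_one (by linarith)).2 (by linarith)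
  have zz : 1 + y / (1 + v) * (y / (1 + v)) = 2 / (1 + v) := by
    field_simp
    linear_combination vy
  have bv : GPb.v R w (y / (1 + v)) = v := by
    unfold GPb.v
    rw [show 1 - y / (1 + v) * (y / (1 + v)) = 2 - (1 + y / (1 + v) * (y / (1 + v))) by ring, zz]
    field_simp
    ring
  have bt : GPb.t R w (y / (1 + v)) = t := by rw [GPb.t, bv, ← e1]
  have bs : GPb.s R w (y / (1 + v)) = s := by
    rw [GPb.s, bt, zz]
    have : (0 : ℝ) < 1 - t * t := by linarith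
    rw [div_eq_iff (by positivity)]
    generalize 1 - t * t = x at *
    field_simp
    linear_combination (-2) * e2
  have bG : GPb.G R w (y / (1 + v)) = GPa.G R t s := by
    simp only [GPb.G, GPa.G, GPb.S, GPa.S, GPb.P, GPa.P, bt, hw]
  have bk : GPb.kap R w (y / (1 + v)) = GPa.kap R t s := by simp only [GPb.kap, GPa.kap, bs]
  have bc : GPb.c0 R w (y / (1 + v)) = GPa.c0 R t s := by simp only [GPb.c0, GPa.c0, bs]
  have b0 : GPb.u0 R w (y / (1 + v)) = GPa.u0 R t s := by simp only [GPb.u0, GPa.u0]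
  have b1 : GPb.u1 R w (y / (1 + v)) = GPa.u1 R t s := by simp only [GPb.u1, GPa.u1, bt]
  have bm : GPb.m R w (y / (1 + v)) = GPa.m R t s := by simp only [GPb.m, GPa.m, GPb.P, GPa.P, bt]
  have eF : gpF R t s = w * GPb.Ph R w (y / (1 + v)) + 4 * GPa.c0 R t s * GPa.G R t s * GPa.u0 R t s := by
    rw [GPb.Ph, bG, bk, b1, bm, bs, bv, gpF, hw]
    generalize GPa.G R t s = G
    generalize GPa.kap R t s = k
    generalize GPa.m R t s = m
    generalize GPa.u1 R t s = u1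
    rw [e1]
    ring
  rcases GPb.main R w _ hR0 hR1 hw0 hw1 hz0 hz1 with e | e | e
  · rw [bG, bc, b0, ← eF] at e
    exact e.le
  · have G0 : 0 ≤ GPa.G R t s := by
      unfold GPa.G GPa.P GPa.S
      rw [hw]
      have : 0 ≤ (1 + t * t) * (1 + t * t) - w * w - t * t := by nlinarith
      positivity
    have c0 : 0 ≤ GPa.c0 R t s := by unfold GPa.c0; positivity
    have := gp_u0 t s hR0 hR1
    rw [eF]
    positivity
  · rw [bs] at e
    linarith

theorem gp_param {ρ s p0 p1 : ℝ} (hρ0 : 0 ≤ ρ) (hρ1 : ρ ≤ 1) (hs : s ^ 2 = 1 - ρ ^ 2) (h0 : 0 ≤ p0) (h01 : p0 ≤ p1)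
    (h1 : p1 ≤ 1) (hp : p0 < 1) : ∃ R t : ℝ, 0 < R ∧ R ≤ 1 ∧ 0 ≤ t ∧ t ≤ 1 ∧ p1 - p0 = R ^ 2 * (1 - t ^ 2) ∧
      Ug p0 = R * GPa.u0 R t s ∧ Ug p1 = R * t * GPa.u1 R t s ∧
      gain ρ Ug p0 p1 = R * (GPa.w R t s - t) * GPa.G R t s := by
  have R0 : 0 < √(1 - p0) := Real.sqrt_pos.2 (by linarith)
  have R2 := Real.sq_sqrt (show 0 ≤ 1 - p0 by linarith)
  have r2 := Real.sq_sqrt (show 0 ≤ 1 - p1 by linarith)
  have r0 := Real.sqrt_nonneg (1 - p1)
  have rR : √(1 - p1) ≤ √(1 - p0) := Real.sqrt_le_sqrt (by linarith)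
  have R1 : √(1 - p0) ≤ 1 := Real.sqrt_le_one.2 (by linarith)
  obtain ⟨t, t0, t1, ht⟩ : ∃ t : ℝ, 0 ≤ t ∧ t ≤ 1 ∧ √(1 - p1) = √(1 - p0) * t :=
    ⟨√(1 - p1) / √(1 - p0), by positivity, (div_le_one R0).2 rR, by field_simp⟩
  have U0 : Ug p0 = √(1 - p0) * GPa.u0 (√(1 - p0)) t s := by
    unfold Ug GPa.u0
    generalize √(1 - p0) = R at *
    rw [← R2]
    ring
  have U1 : Ug p1 = √(1 - p0) * t * GPa.u1 (√(1 - p0)) t s := by
    unfold Ug GPa.u1
    rw [← ht]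
    generalize √(1 - p1) = r at *
    rw [← r2]
    ring
  refine ⟨√(1 - p0), t, R0, R1, t0, t1, ?_, U0, U1, ?_⟩
  · rw [ht] at r2
    linear_combination (-1 : ℝ) * R2 + r2
  rw [ht] at r2
  rw [gain, U0, U1]
  generalize √(1 - p0) = R at *
  obtain ⟨a, ha⟩ : ∃ a : ℝ, a = (1 + ρ) / 2 * t ^ 2 + (1 - ρ) / 2 := ⟨_, rfl⟩
  obtain ⟨b, hb⟩ : ∃ b : ℝ, b = (1 + ρ) / 2 + (1 - ρ) / 2 * t ^ 2 := ⟨_, rfl⟩
  have a0 : 0 ≤ a := by rw [ha]; exact add_nonneg (by positivity) (by linarith)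
  have b0 : 0 ≤ b := by rw [hb]; exact add_nonneg (by positivity) (mul_nonneg (by linarith) (sq_nonneg _))
  have ea : 1 - ((1 + ρ) / 2 * p1 + (1 - ρ) / 2 * p0) = R ^ 2 * a := by
    rw [ha]; linear_combination (-(1 + ρ) / 2) * r2 - (1 - ρ) / 2 * R2
  have eb : 1 - ((1 + ρ) / 2 * p0 + (1 - ρ) / 2 * p1) = R ^ 2 * b := by
    rw [hb]; linear_combination (-(1 - ρ) / 2) * r2 - (1 + ρ) / 2 * R2
  have sab : a + b = 1 + t * t := by rw [ha, hb]; ring
  have pab : a * b = t * t + (s * (1 - t * t)) ^ 2 / 4 := by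
    rw [ha, hb]; linear_combination (-(1 - t * t) ^ 2 / 4) * hs
  have hw : GPa.w R t s = √a * √b := by rw [GPa.w, ← pab, Real.sqrt_mul a0]
  have a2 := Real.sq_sqrt a0
  have b2 := Real.sq_sqrt b0
  have x0 := Real.sqrt_nonneg a
  have y0 := Real.sqrt_nonneg b
  have hS : GPa.S R t s = √a + √b := by
    rw [GPa.S, hw, ← sab, show a + b + 2 * (√a * √b) = (√a + √b) ^ 2 by linear_combination -a2 - b2,
      Real.sqrt_sq (by positivity)]
  unfold Ug
  rw [ea, eb, Real.sqrt_mul (sq_nonneg R), Real.sqrt_mul (sq_nonneg R), Real.sqrt_sq R0.le, GPa.G, hS, hw, GPa.P,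
    GPa.u0, GPa.u1]
  generalize √a = x at *
  generalize √b = y at *
  have e : x + y - 1 - t = 2 * (x * y - t) / (x + y + 1 + t) := by
    rw [eq_div_iff (by positivity)]
    linear_combination a2 + b2 + sab
  have e2 : (x * y) ^ 2 = a * b := by rw [mul_pow, a2, b2]
  have e3 : a = 1 + t * t - b := by linarith
  generalize x * y = w at *
  have e4 : R * x + R * y = R * (1 + t + 2 * (w - t) / (x + y + 1 + t)) := by rw [← e]; ring
  have e5 : a ^ 2 + b ^ 2 = (1 + t * t) ^ 2 - 2 * w ^ 2 := by rw [e2, ← sab]; ring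
  have e6 : a ^ 5 + b ^ 5 = (1 + t * t) ^ 5 - 5 * (1 + t * t) ^ 3 * w ^ 2 + 5 * (1 + t * t) * (w ^ 2) ^ 2 := by
    rw [e2, ← sab]; ring
  linear_combination 2 * e4 - 9 / 5 * R ^ 2 * sab - R ^ 4 / 10 * e5 - R ^ 10 / 10 * e6

/-- The cone for `Ug`, `s ≤ 3/5`. -/
theorem gp_cone {ρ s : ℝ} (hρ0 : 0 ≤ ρ) (hρ1 : ρ ≤ 1) (hs0 : 0 ≤ s) (hs : s ^ 2 = 1 - ρ ^ 2) (hs1 : s ≤ 3 / 5) :
    Cone ρ Ug (2 * cz s) (1 - 2 / 3 * sig s) (999 / 1000 * sig s) (2 / 3 * sig s) (2 / 3 * sig s) := by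
  intro p0 p1 h0 h01 h1
  rcases (h01.trans h1).eq_or_lt with hp | hp
  · have : p1 = p0 := by linarith
    left
    rw [this]
    linarith
  obtain ⟨R, t, R0, R1, t0, t1, e, U0, U1, g⟩ := gp_param hρ0 hρ1 hs h0 h01 h1 hp
  have k0 : 0 ≤ GPa.kap R t s := by
    unfold GPa.kap
    have : s ^ 3 ≤ s := pow_le_of_le_one hs0 (by linarith) (by norm_num)
    have : 0 ≤ 2 / (1 + √(1 + s)) := by positivity
    linarith
  have eM : 999 / 1000 * sig s * (p1 - p0) + 2 / 3 * sig s * Ug p0 - 2 / 3 * sig s * Ug p1 =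
      sig s * R * (1 - t * t) * GPa.m R t s := by
    rw [e, U0, U1, GPa.m, GPa.u0, GPa.u1, GPa.P]
    field_simp
    ring
  have tt : 0 ≤ 1 - t * t := by nlinarith
  rw [eM, g, U0, U1, sig_eq hs0 R t]
  rcases gp_F R0.le R1 t0 t1 hs0 hs1 with h | h
  · right
    have hw2 : GPa.w R t s ^ 2 = t * t + (s * (1 - t * t)) ^ 2 / 4 := Real.sq_sqrt (by positivity)
    have wt : t ≤ GPa.w R t s := Real.le_sqrt_of_sq_le (by nlinarith [sq_nonneg (s * (1 - t * t))])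
    have := mul_nonneg (mul_nonneg (sq_nonneg R) (sub_nonneg.2 wt)) h
    unfold gpF at this
    have ec : cz s = GPa.c0 R t s := rfl
    rw [ec]
    generalize GPa.G R t s = G at *
    generalize GPa.kap R t s = k at *
    generalize GPa.m R t s = m at *
    generalize GPa.u1 R t s = u1 at *
    generalize GPa.u0 R t s = u0 at *
    generalize GPa.c0 R t s = c0 at *
    generalize GPa.w R t s = w at *
    linear_combination this - 4 * (R * k * m) ^ 2 * hw2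
  · left
    exact mul_nonpos_of_nonneg_of_nonpos (by positivity) h

theorem Ug_zero : Ug 0 = 0 := by norm_num [Ug]

theorem Ug_one : Ug 1 = 0 := by simp [Ug]

theorem Ug_conc : ConcaveOn ℝ (Icc 0 1) Ug := by
  have db : ∀ p : ℝ, p < 1 → HasDerivAt (fun p => √(1 - p)) (-1 / (2 * √(1 - p))) p := fun p hp => by
    have := ((hasDerivAt_id p).const_sub 1).sqrt (by simp; linarith)
    simpa using this
  have dq : ∀ p : ℝ, HasDerivAt (fun p : ℝ => 1 - p) (-1) p := fun p => (hasDerivAt_id' p).const_sub 1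
  refine concaveOn_of_hasDerivWithinAt2_nonpos (convex_Icc 0 1)
    (f' := fun p => -1 / √(1 - p) + 9 / 5 + (1 - p) / 5 + (1 - p) ^ 4 / 2)
    (f'' := fun p => -(1 / (2 * √(1 - p) ^ 3)) - 1 / 5 - 2 * (1 - p) ^ 3) (by unfold Ug; fun_prop) ?_ ?_ ?_
  · intro p hp
    rw [interior_Icc] at hp
    have b0 := Real.sqrt_pos.2 (sub_pos.2 hp.2)
    have := (((((db p hp.2).const_mul 2).fun_sub ((dq p).const_mul (9 / 5))).fun_sub
      (((dq p).fun_pow 2).div_const 10)).fun_sub (((dq p).fun_pow 5).div_const 10))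
    refine (this.congr_deriv ?_).hasDerivWithinAt
    field_simp
    norm_num
    ring
  · intro p hp
    rw [interior_Icc] at hp
    have b0 := Real.sqrt_pos.2 (sub_pos.2 hp.2)
    have := ((((hasDerivAt_const p (-1 : ℝ)).fun_div (db p hp.2) b0.ne').add_const (9 / 5)).fun_add
      ((dq p).div_const 5)).fun_add (((dq p).fun_pow 4).div_const 2)
    refine (this.congr_deriv ?_).hasDerivWithinAt
    field_simp
    norm_num
    ring
  · intro p hp
    rw [interior_Icc] at hp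
    have b0 := Real.sqrt_pos.2 (sub_pos.2 hp.2)
    have : 0 ≤ 1 / (2 * √(1 - p) ^ 3) := by positivity
    have := pow_nonneg (sub_pos.2 hp.2).le 3
    linarith

theorem Ug_nonneg (p : ℝ) (h0 : 0 ≤ p) (h1 : p ≤ 1) : 0 ≤ Ug p := by
  have := Ug_conc.2 (x := 0) (y := 1) ⟨le_rfl, zero_le_one⟩ ⟨zero_le_one, le_rfl⟩ (sub_nonneg.2 h1) h0 (by ring)
  simpa [Ug_zero, Ug_one] using this

/-- `Ug p + Ug (1-p) = σ(c)` with `c = 2 √(p(1-p))`. -/
theorem Ug_split {p : ℝ} (h0 : 0 ≤ p) (h1 : p ≤ 1) : Ug p + Ug (1 - p) = sig (2 * √(p * (1 - p))) := by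
  have a2 := Real.sq_sqrt h0
  have b2 := Real.sq_sqrt (sub_nonneg.2 h1)
  have x0 := Real.sqrt_nonneg p
  have y0 := Real.sqrt_nonneg (1 - p)
  have e : √(1 + 2 * (√p * √(1 - p))) = √p + √(1 - p) := by
    rw [show 1 + 2 * (√p * √(1 - p)) = (√p + √(1 - p)) ^ 2 by linear_combination -a2 - b2,
      Real.sqrt_sq (by positivity)]
  have e2 : (2 * (√p * √(1 - p))) ^ 2 = 4 * (p * (1 - p)) := by rw [mul_pow, mul_pow, a2, b2]; norm_num
  unfold Ug sig
  rw [sub_sub_cancel, Real.sqrt_mul h0, e, show ∀ c : ℝ, c ^ 4 = (c ^ 2) ^ 2 from fun c => by ring, e2]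
  ring

theorem sig_deriv {c : ℝ} (h : 0 ≤ c) : HasDerivAt sig (1 / √(1 + c) + 7 / 20 * c - c ^ 3 / 8) c := by
  have b0 : 0 < √(1 + c) := Real.sqrt_pos.2 (by linarith)
  have := ((((((hasDerivAt_id' c).const_add 1).sqrt (by linarith)).const_mul 2).sub_const 2).fun_add
    ((hasDerivAt_pow 2 c).const_mul (7 / 40))).fun_sub ((hasDerivAt_pow 4 c).div_const 32)
  refine this.congr_deriv ?_
  field_simp
  norm_num
  ring

theorem sig_conc : ConcaveOn ℝ (Icc 0 1) sig := by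
  refine concaveOn_of_hasDerivWithinAt2_nonpos (convex_Icc 0 1)
    (f' := fun c => 1 / √(1 + c) + 7 / 20 * c - c ^ 3 / 8)
    (f'' := fun c => -(1 / (2 * √(1 + c) ^ 3)) + 7 / 20 - 3 * c ^ 2 / 8) (by unfold sig; fun_prop) ?_ ?_ ?_
  · intro c hc
    rw [interior_Icc] at hc
    exact (sig_deriv hc.1.le).hasDerivWithinAt
  · intro c hc
    rw [interior_Icc] at hc
    have b0 : 0 < √(1 + c) := Real.sqrt_pos.2 (by linarith [hc.1])
    have := (((hasDerivAt_const c (1 : ℝ)).fun_div (((hasDerivAt_id' c).const_add 1).sqrt (by linarith [hc.1]))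
      b0.ne').fun_add ((hasDerivAt_id' c).const_mul (7 / 20))).fun_sub ((hasDerivAt_pow 3 c).div_const 8)
    refine (this.congr_deriv ?_).hasDerivWithinAt
    field_simp
    norm_num
    ring
  · intro c hc
    rw [interior_Icc] at hc
    obtain ⟨c0, c1⟩ := hc
    have b0 : 0 < √(1 + c) := Real.sqrt_pos.2 (by linarith)
    have b1 : √(1 + c) ≤ 1 + c / 2 := Real.sqrt_le_iff.2 ⟨by linarith, by nlinarith⟩
    have b3 : √(1 + c) ^ 3 ≤ (1 + c) * (1 + c / 2) := by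
      rw [pow_succ, Real.sq_sqrt (by linarith)]
      exact mul_le_mul_of_nonneg_left b1 (by linarith)
    have h1 : 1 / (2 * ((1 + c) * (1 + c / 2))) ≤ 1 / (2 * √(1 + c) ^ 3) :=
      one_div_le_one_div_of_le (by positivity) (by linarith)
    have h2 : 7 / 20 - 3 * c ^ 2 / 8 ≤ 1 / (2 * ((1 + c) * (1 + c / 2))) := by
      rw [le_div_iff₀ (by positivity)]
      nlinarith [sq_nonneg (c - 2 / 5), mul_nonneg c0.le (sq_nonneg (c - 2 / 5)), sq_nonneg (c ^ 2 - 1 / 6)]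
    linarith

theorem sig_tan {T c : ℝ} (T0 : 0 ≤ T) (T1 : T ≤ 1) (c0 : 0 ≤ c) (c1 : c ≤ 1) :
    sig c ≤ sig T + (1 / √(1 + T) + 7 / 20 * T - T ^ 3 / 8) * (c - T) := by
  rcases lt_trichotomy T c with h | h | h
  · have := sig_conc.slope_le_of_hasDerivAt ⟨T0, T1⟩ ⟨c0, c1⟩ h (sig_deriv T0)
    rw [slope_def_field, div_le_iff₀ (by linarith)] at this
    linarith
  · simp [h]
  · have := sig_conc.le_slope_of_hasDerivAt ⟨c0, c1⟩ ⟨T0, T1⟩ h (sig_deriv T0)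
    rw [slope_def_field, le_div_iff₀ (by linarith)] at this
    linarith

/-- End lemma for `Ug`: the target for `X + Y` is `σ(T)`. -/
theorem xcore_gp {ρ : ℝ} (hρ0 : 0 ≤ ρ) (hρ1 : ρ ≤ 1) (Rg : ℝ → ℝ → ℝ → Prop)
    (ind : ∀ (n : ℕ) (u : (Fin n → Bool) → ℝ), (∀ y, u y = 0 ∨ u y = 1) →
      Rg (cubeAverage u) (cubeAverage fun x => Ug (noise ρ u x)) (cubeAverage fun x => Ug (1 - noise ρ u x)))
    (fin : ∀ a T X Y : ℝ, 0 ≤ a → a ≤ 1 → T = √(1 - ρ ^ 2) - 1 + 2 * √(a * (1 - a)) → 0 < T → Rg a X Y →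
      sig T ≤ X + Y) : XCore ρ := by
  refine xcore_of_region_cvx (R := fun c => c - sig c) (R1 := fun T => 1 - (1 / √(1 + T) + 7 / 20 * T - T ^ 3 / 8))
    hρ0 hρ1 Rg ind (fun T c a b d e => ?_) (fun T a b => ?_) (fun p a b => ?_) fun a T X Y a0 a1 hT h r => ?_
  · have := sig_tan a.le b d e
    linarith
  · have : 0 ≤ 1 / √(1 + T) := by positivity
    have : T ^ 3 ≤ T := pow_le_of_le_one a.le b (by norm_num)
    linarith
  · rw [Ug_split a b]
    linarith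
  · have := fin a T X Y a0 a1 hT h r
    linarith

theorem sig_nonneg {s : ℝ} (h0 : 0 ≤ s) (h1 : s ≤ 1) : 0 ≤ sig s := by
  have : 1 ≤ √(1 + s) := Real.one_le_sqrt.2 (by linarith)
  have : s ^ 4 ≤ s ^ 2 := pow_le_pow_of_le_one h0 h1 (by norm_num)
  unfold sig
  nlinarith [sq_nonneg s]

theorem sig_le {s : ℝ} (h0 : 0 ≤ s) (h1 : s ≤ 1) : sig s ≤ s := by
  have := sig_tan le_rfl zero_le_one h0 h1
  simpa [sig] using this

/-- Every point of the quarter disc gives a step for `Ug`. -/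
theorem gp_ustep {ρ s : ℝ} (hρ0 : 0 ≤ ρ) (hρ1 : ρ ≤ 1) (hs0 : 0 ≤ s) (hs : s ^ 2 = 1 - ρ ^ 2) (hs1 : s ≤ 3 / 5)
    {c t : ℝ} (hc : 0 ≤ c) (ht : 0 ≤ t) (hct : c ^ 2 + t ^ 2 ≤ 1) :
    UStep ρ Ug (1 - 2 * cz s * (1 - c) + 2 / 3 * sig s * t) (1 - (1 - 2 / 3 * sig s) * (1 - c) - 2 / 3 * sig s * t)
      (999 / 1000 * sig s * t) := by
  have g0 := sig_nonneg hs0 (by linarith)
  have g1 := sig_le hs0 (by linarith)
  have z0 : 0 ≤ cz s := by unfold cz; positivity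
  have z1 : cz s ≤ 1 / 2 := by unfold cz; nlinarith
  have t1 : t ≤ 1 := by nlinarith [sq_nonneg c]
  refine (gp_cone hρ0 hρ1 hs0 hs hs1).ustep hρ0 hρ1 Ug_conc Ug_nonneg (by linarith) (by linarith) ht hct ?_ ?_
  · nlinarith [mul_nonneg g0 ht, mul_nonneg z0 hc]
  · nlinarith [mul_nonneg g0 (sub_nonneg.2 t1), mul_nonneg hc (show 0 ≤ 1 - 2 / 3 * sig s by linarith)]

end Crest.Agent.R307
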