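import Crest.Agent.R307.HK1
set_option autoImplicit false
set_option maxRecDepth 100000
namespace Crest.Agent.R307.HK1
open Crest.Agent.R307.IA Crest.Agent.R307.IA3

theorem k0 : Cov Q 1152921504606846976 1152922186304056198 1152921504606846976 1152922054362661017 1152921504606846976 1152923703630102528 :=
  cov_of snd 16 65535 12 _ _ _ _ _ _ 0x688846888415d72306c0436c04306a7836a78301268fc369e8369e830267443682a3682a3021669830279d5479803281d532067a0467a0405d0630688236882312679c3679c3066463664631263ba3648e3648e312635c30125e34360343269163205f1c3601c328552320158743607432619e36266362663126140302585436054325f8e35f8e315e6a35e6a30121584a3604a320565630583a3603a325cb435cb43125dcc35dcc305a4035a403121556830525830115a0835a0831570a3570a31254b8354b8315198351983124db63014c6030512035120314ddc34e7c34e7c30124a44304920304fa434fa4304c2034c7634c7630124d4034d40314b5634b56304a2a34a2a3212143d43015b903014ab034ab031493a3493a3047a431473e3024a9e34a9e3046683466830466634666301215da83038843047fc347fc30447c3447c312409e3409e303fb4311549c3054263013a0033a003036d4336d430149923024a4324a4301d9c31d9c3011111 (by decide +kernel)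

theorem k1 : Cov Q 1152921504606846976 1152922186304056198 1152922054362661017 1152922329240568073 1152921504606846976 1152923703630102528 :=
  cov_of snd 16 65535 11 _ _ _ _ _ _ 0x5e3935e39316357325f99305e4937398415ff930705040173634736341074163741630737e3737e30127272372723172943729430720237202301126fc8475874758740078b63759e3759e310278a23757037570310205f5735f57316fa840717847178416f9040173484734840073cd4792e4792e400072c0372c03171c0371c031176eb37964379643100271c5371c530711d3711d321702130770437704300711e3711e30708c3708c3126f4b306ecf3078dd378dd300121706347063406e9d406d5f46d5f401690b4076e9476e9400708b3708b30700737007301789137a4a37a4a3000270ff370ff306f0f36f0f3126dd9306d5f307a9337a933006def36ee936ee93126d93306ccf307b6c37b6c300125fe936afd4166bd40788a4788a4006ec336ec3306d6f36d6f3017c8f37c8f307bc631026df536df5306d1736d173026b55307d1d306a9736b8936b8930269cd307f0e301211 (by decide +kernel)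

theorem k2 : Cov Q 1152921504606846976 1152922186304056198 1152922329240568073 1152922604118474752 1152921504606846976 1152923703630102528 :=
  cov_of snd 16 65535 17 _ _ _ _ _ _ 0x3888348cf305bdb34b7334b7330015c0235c02304fe734fe73005da835da830663c4602f32605d3260c3325b7235b723000115e0136001326135326d5c46d5c406c6336c633026c5736c573020671a4671a40658036580302658c3658c3025e3c35e3c31005b5635f56306a06327b3c3274ca474ca407202472024006d8636d863026d6e36d6e30206ede46ede40690640676b3676b3068593685930126783367833068733687330126adc465fe365fe302660e3660e3026f1746663366633026439320001791845e5631772645e9c31073a4373a43027374373743027506475064172c4472c44006eb036eb03126e8e36e8e30207a7045e843168e8325f66379ae479ae40107554477fe477fe401759247592400073be373be306fde36fde300273b6373b6306fb236fb230021701e4701e406ada40694236942306a2836a283012695e3695e306a4236a4230126b4646b46406612366123066ac366ac3012637a3637a30649c3649c30120701847018406eac36eac306af236af230026a9a36b2a36b2a30026b4946b494067053650531265b3365b33065e7365e73012010115ea135f21317a4e45f9731065b7365b7306dd9326ddd326e45326ed5326ff732743532277e4477e44077b4477b4401758847588400073fb373fb3070bb370bb30027411374113070b3370b330025e2d3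5e2d31615932624f32627b325ed935e593106daf325ffe3771e4174644006f5136f513026f9936f993021711c4711c406aa6406bd636bd63066e0366e030026c0336c033066b1366b13002720f4720f4069f1406d6336d633068bf368bf30026d8536d85306895368953002105fff35fff30601532623d327990479904105f8d3600d325f1930166e3366e33168bd368bd3169b7369b731226ab936ab9316bc136bc13126cd936cd9312275a1375a130227716477164074824074a4474a44010706537065307171371713012709b3709b30726537265301271d8471d8406a9a46a9a4006e3e36e3e306a7e36a7e306a0831026e6236e62306a5436a543069e03102015f8b35f043177b8477b84106d4936dc9326e153225fa9373bc41074b2374b231273883738831269bb469bb406b7136d4536d4530026b7136d2336d23300205d7c35fe031627a3268d83275bd475bd4107437474374007485374853027301373013126c6646c66406e82370203702030026e88370043700430020111 (by decide +kernel)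

end Crest.Agent.R307.HK1
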