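import Crest.Agent.R307.IA3
import Crest.Agent.R307.IAx
set_option autoImplicit false
set_option linter.unusedVariables false
set_option maxRecDepth 20000
namespace Crest.Agent.R307.HK2
open Crest.Agent.R307.IA Crest.Agent.R307.IA3

theorem In_cast {e1 e2 e3 : ℝ} {x y1 y2 y3 r : ℕ} {v w : ℝ}
    (h : In e1 e2 e3 x y1 y2 y3 r v) (e : v = w) : In e1 e2 e3 x y1 y2 y3 r w := e ▸ h

noncomputable def tau (ze a e l : ℝ) : ℝ := (l / (2:ℝ))
noncomputable def tt (ze a e l : ℝ) : ℝ := (e * (tau ze a e l))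
noncomputable def iv (ze a e l : ℝ) : ℝ := ((1:ℝ) / ((1:ℝ) + ((tt ze a e l) * (tt ze a e l))))
noncomputable def sg (ze a e l : ℝ) : ℝ := (((2:ℝ) * (tau ze a e l)) * (iv ze a e l))
noncomputable def ga (ze a e l : ℝ) : ℝ := ((tau ze a e l) * (sg ze a e l))
noncomputable def s (ze a e l : ℝ) : ℝ := (ze * e)
noncomputable def w (ze a e l : ℝ) : ℝ := (a * ((1:ℝ) - a))
noncomputable def m (ze a e l : ℝ) : ℝ := (((2:ℝ) * a) - (1:ℝ))
noncomputable def d (ze a e l : ℝ) : ℝ := ((w ze a e l) * e)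
noncomputable def D (ze a e l : ℝ) : ℝ := ((d ze a e l) * (d ze a e l))
noncomputable def Eev (ze a e l : ℝ) : ℝ := ((((((((((-100791/200000:ℝ) * (m ze a e l)) + (-17783/400000:ℝ)) * (D ze a e l)) + (((((((-235179/50000:ℝ) * (m ze a e l)) + (-124481/100000:ℝ)) * (m ze a e l)) + (3983/4000:ℝ)) * (m ze a e l)) + (-4619/80000:ℝ))) * (D ze a e l)) + (((((((((((-705537/100000:ℝ) * (m ze a e l)) + (-124481/40000:ℝ)) * (m ze a e l)) + (3983/800:ℝ)) * (m ze a e l)) + (-13857/16000:ℝ)) * (m ze a e l)) + (-4901/8000:ℝ)) * (m ze a e l)) + (14963/200000:ℝ))) * (D ze a e l)) + (((((((((((((((-100791/50000:ℝ) * (m ze a e l)) + (-124481/100000:ℝ)) * (m ze a e l)) + (11949/4000:ℝ)) * (m ze a e l)) + (-13857/16000:ℝ)) * (m ze a e l)) + (-4901/4000:ℝ)) * (m ze a e l)) + (44889/100000:ℝ)) * (m ze a e l)) + (-59487/400000:ℝ)) * (m ze a e l)) + (-23631/50000:ℝ))) + ((s ze a e l) * (((((((((-8829/16000:ℝ) * (m ze a e l))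 + (-10549/80000:ℝ)) * (D ze a e l)) + (((((((-20601/4000:ℝ) * (m ze a e l)) + (-73843/20000:ℝ)) * (m ze a e l)) + (-25823/25000:ℝ)) * (m ze a e l)) + (79079/400000:ℝ))) * (D ze a e l)) + (((((((((((-61803/8000:ℝ) * (m ze a e l)) + (-73843/8000:ℝ)) * (m ze a e l)) + (-25823/5000:ℝ)) * (m ze a e l)) + (237237/80000:ℝ)) * (m ze a e l)) + (20251/40000:ℝ)) * (m ze a e l)) + (-28381/100000:ℝ))) * (D ze a e l)) + (((((((((((((((-8829/4000:ℝ) * (m ze a e l)) + (-73843/20000:ℝ)) * (m ze a e l)) + (-77469/25000:ℝ)) * (m ze a e l)) + (237237/80000:ℝ)) * (m ze a e l)) + (20251/20000:ℝ)) * (m ze a e l)) + (-85143/50000:ℝ)) * (m ze a e l)) + (-110181/400000:ℝ)) * (m ze a e l)) + (8719/40000:ℝ)))))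
noncomputable def pv (ze a e l : ℝ) : ℝ := ((((((((((((((((11199/50000:ℝ) * (m ze a e l)) + (17783/100000:ℝ)) * (m ze a e l)) + (-17251/50000:ℝ)) * (m ze a e l)) + (20439/50000:ℝ)) * (m ze a e l)) + (3627/25000:ℝ)) * (m ze a e l)) + (1369/12500:ℝ)) * (m ze a e l)) + (34337/100000:ℝ)) * (m ze a e l)) + (2:ℝ)) + ((s ze a e l) * ((((((((((((((981/4000:ℝ) * (m ze a e l)) + (10549/20000:ℝ)) * (m ze a e l)) + (83549/100000:ℝ)) * (m ze a e l)) + (-13167/50000:ℝ)) * (m ze a e l)) + (43047/100000:ℝ)) * (m ze a e l)) + (8719/10000:ℝ)) * (m ze a e l)) + (39887/50000:ℝ)) * (m ze a e l))))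
noncomputable def Ov (ze a e l : ℝ) : ℝ := ((((((((((-11199/200000:ℝ) * (D ze a e l)) + (((((-100791/50000:ℝ) * (m ze a e l)) + (-17783/50000:ℝ)) * (m ze a e l)) + (569/4000:ℝ))) * (D ze a e l)) + (((((((((-705537/100000:ℝ) * (m ze a e l)) + (-124481/50000:ℝ)) * (m ze a e l)) + (11949/4000:ℝ)) * (m ze a e l)) + (-13857/40000:ℝ)) * (m ze a e l)) + (-4901/40000:ℝ))) * (D ze a e l)) + (((((((((((((-235179/50000:ℝ) * (m ze a e l)) + (-124481/50000:ℝ)) * (m ze a e l)) + (3983/800:ℝ)) * (m ze a e l)) + (-4619/4000:ℝ)) * (m ze a e l)) + (-4901/4000:ℝ)) * (m ze a e l)) + (14963/50000:ℝ)) * (m ze a e l)) + (-19829/400000:ℝ))) * (D ze a e l)) + (((((((((((((((((-100791/200000:ℝ) * (m ze a e l)) + (-17783/50000:ℝ)) * (m ze a e l)) + (3983/4000:ℝ)) * (m ze a e l)) + (-13857/40000:ℝ)) * (m ze a e l)) + (-4901/8000:ℝ)) * (m ze a e l)) + (14963/50000:ℝ)) * (m ze a e l)) + (-59487/400000:ℝ)) * (m ze a e l)) + (-23631/25000:ℝ))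 * (m ze a e l)) + (34337/400000:ℝ))) + ((s ze a e l) * (((((((((-981/16000:ℝ) * (D ze a e l)) + (((((-8829/4000:ℝ) * (m ze a e l)) + (-10549/10000:ℝ)) * (m ze a e l)) + (-3689/25000:ℝ))) * (D ze a e l)) + (((((((((-61803/8000:ℝ) * (m ze a e l)) + (-73843/10000:ℝ)) * (m ze a e l)) + (-77469/25000:ℝ)) * (m ze a e l)) + (237237/200000:ℝ)) * (m ze a e l)) + (20251/200000:ℝ))) * (D ze a e l)) + (((((((((((((-20601/4000:ℝ) * (m ze a e l)) + (-73843/10000:ℝ)) * (m ze a e l)) + (-25823/5000:ℝ)) * (m ze a e l)) + (79079/20000:ℝ)) * (m ze a e l)) + (20251/20000:ℝ)) * (m ze a e l)) + (-28381/25000:ℝ)) * (m ze a e l)) + (-36727/400000:ℝ))) * (D ze a e l)) + (((((((((((((((((-8829/16000:ℝ) * (m ze a e l)) + (-10549/10000:ℝ)) * (m ze a e l)) + (-25823/25000:ℝ)) * (m ze a e l)) + (237237/200000:ℝ)) * (m ze a e l)) + (20251/40000:ℝ)) * (m ze a e l)) + (-28381/25000:ℝ)) * (m ze a e l)) + (-110181/400000:ℝ)) * (m ze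 a e l)) + (8719/20000:ℝ)) * (m ze a e l)) + (39887/200000:ℝ)))))

def Q (ze a e : ℝ) : Prop :=
  ∃ l : ℝ, 0 ≤ l ∧ l ≤ 1 ∧ (
  (0 < ((tau ze a e l) - ((3/10:ℝ) * ze)) ∧ 0 < ((((1:ℝ) - ((e * e) * (ga ze a e l))) - ((3/25:ℝ) * ((s ze a e l) * (s ze a e l)))) - ((s ze a e l) * (((7/25:ℝ) * (e * (sg ze a e l))) - ((1/4:ℝ) * ((e * e) * (ga ze a e l)))))) ∧ 0 < ((((((2:ℝ) * (w ze a e l)) * (Eev ze a e l)) - (((ga ze a e l) - (((1/50:ℝ) * ze) * (sg ze a e l))) * ((pv ze a e l) + (((d ze a e l) * e) * (Eev ze a e l))))) - ((((((6/25:ℝ) * ze) * (s ze a e l)) + (((29/50:ℝ) * (s ze a e l)) * (sg ze a e l))) + ((((1:ℝ) - ((s ze a e l) / (2:ℝ))) * e) * (ga ze a e l))) * (Ov ze a e l))) + (((499/500:ℝ) - ((3/500:ℝ) * (s ze a e l))) * (sg ze a e l)))))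

noncomputable def alt0 (p1 z1 w1 z2 w2 z3 w3 : ℕ) : Bool :=
  smulK 1 2 2305843009213693954 1152921504606846976 p1 1152921504606846976 1152921504606846976 1152921504606846976 0 fun c1 a1_1 a1_2 a1_3 q1 =>
  smulK 3 10 11529215046068469770 3458764513820540928 z1 (Nat.add w1 1152921504606846976) 1152921504606846976 1152921504606846976 0 fun c4 a4_1 a4_2 a4_3 q4 =>
  subK c1 a1_1 a1_2 a1_3 q1 c4 a4_1 a4_2 a4_3 q4 fun c5 a5_1 a5_2 a5_3 q5 =>
  posK c5 a5_1 a5_2 a5_3 q5 <|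
  sqK z3 1152921504606846976 1152921504606846976 (Nat.add w3 1152921504606846976) 0 fun c6 a6_1 a6_2 a6_3 q6 =>
  smulK 2 1 1152921504606846977 2305843009213693952 c1 a1_1 a1_2 a1_3 q1 fun c8 a8_1 a8_2 a8_3 q8 =>
  mulK z3 1152921504606846976 1152921504606846976 (Nat.add w3 1152921504606846976) 0 c1 a1_1 a1_2 a1_3 q1 fun c9 a9_1 a9_2 a9_3 q9 =>
  sqK c9 a9_1 a9_2 a9_3 q9 fun c11 a11_1 a11_2 a11_3 q11 =>
  addcK c11 a11_1 a11_2 a11_3 q11 1152922604118474752 0 fun c13 a13_1 a13_2 a13_3 q13 =>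
  invK c13 a13_1 a13_2 a13_3 q13 fun c15 a15_1 a15_2 a15_3 q15 =>
  mulK c8 a8_1 a8_2 a8_3 q8 c15 a15_1 a15_2 a15_3 q15 fun c18 a18_1 a18_2 a18_3 q18 =>
  mulK c1 a1_1 a1_2 a1_3 q1 c18 a18_1 a18_2 a18_3 q18 fun c20 a20_1 a20_2 a20_3 q20 =>
  mulK c6 a6_1 a6_2 a6_3 q6 c20 a20_1 a20_2 a20_3 q20 fun c22 a22_1 a22_2 a22_3 q22 =>
  negK c22 a22_1 a22_2 a22_3 q22 fun c23 a23_1 a23_2 a23_3 q23 =>
  addcK c23 a23_1 a23_2 a23_3 q23 1152922604118474752 0 fun c24 a24_1 a24_2 a24_3 q24 =>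
  mulK z1 (Nat.add w1 1152921504606846976) 1152921504606846976 1152921504606846976 0 z3 1152921504606846976 1152921504606846976 (Nat.add w3 1152921504606846976) 0 fun c26 a26_1 a26_2 a26_3 q26 =>
  sqK c26 a26_1 a26_2 a26_3 q26 fun c28 a28_1 a28_2 a28_3 q28 =>
  smulK 3 25 28823037615171174425 3458764513820540928 c28 a28_1 a28_2 a28_3 q28 fun c30 a30_1 a30_2 a30_3 q30 =>
  subK c24 a24_1 a24_2 a24_3 q24 c30 a30_1 a30_2 a30_3 q30 fun c31 a31_1 a31_2 a31_3 q31 =>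
  mulK z3 1152921504606846976 1152921504606846976 (Nat.add w3 1152921504606846976) 0 c18 a18_1 a18_2 a18_3 q18 fun c32 a32_1 a32_2 a32_3 q32 =>
  smulK 7 25 28823037615171174425 8070450532247928832 c32 a32_1 a32_2 a32_3 q32 fun c33 a33_1 a33_2 a33_3 q33 =>
  smulK 1 4 4611686018427387908 1152921504606846976 c22 a22_1 a22_2 a22_3 q22 fun c34 a34_1 a34_2 a34_3 q34 =>
  subK c33 a33_1 a33_2 a33_3 q33 c34 a34_1 a34_2 a34_3 q34 fun c35 a35_1 a35_2 a35_3 q35 =>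
  mulK c26 a26_1 a26_2 a26_3 q26 c35 a35_1 a35_2 a35_3 q35 fun c36 a36_1 a36_2 a36_3 q36 =>
  subK c31 a31_1 a31_2 a31_3 q31 c36 a36_1 a36_2 a36_3 q36 fun c37 a37_1 a37_2 a37_3 q37 =>
  posK c37 a37_1 a37_2 a37_3 q37 <|
  negK z2 1152921504606846976 (Nat.add w2 1152921504606846976) 1152921504606846976 0 fun c38 a38_1 a38_2 a38_3 q38 =>
  addcK c38 a38_1 a38_2 a38_3 q38 1152922604118474752 0 fun c39 a39_1 a39_2 a39_3 q39 =>
  mulK z2 1152921504606846976 (Nat.add w2 1152921504606846976) 1152921504606846976 0 c39 a39_1 a39_2 a39_3 q39 fun c41 a41_1 a41_2 a41_3 q41 =>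
  smulK 2 1 1152921504606846977 2305843009213693952 c41 a41_1 a41_2 a41_3 q41 fun c43 a43_1 a43_2 a43_3 q43 =>
  smulK 2 1 1152921504606846977 2305843009213693952 z2 1152921504606846976 (Nat.add w2 1152921504606846976) 1152921504606846976 0 fun c44 a44_1 a44_2 a44_3 q44 =>
  addcK c44 a44_1 a44_2 a44_3 q44 1152920405095219200 0 fun c45 a45_1 a45_2 a45_3 q45 =>
  smulK 100791 200000 230584300921369395400000 116204111370828713558016 c45 a45_1 a45_2 a45_3 q45 fun c48 a48_1 a48_2 a48_3 q48 =>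
  negK c48 a48_1 a48_2 a48_3 q48 fun c49 a49_1 a49_2 a49_3 q49 =>
  addcK c49 a49_1 a49_2 a49_3 q49 1152921455725308784 1 fun c51 a51_1 a51_2 a51_3 q51 =>
  mulK c41 a41_1 a41_2 a41_3 q41 z3 1152921504606846976 1152921504606846976 (Nat.add w3 1152921504606846976) 0 fun c52 a52_1 a52_2 a52_3 q52 =>
  sqK c52 a52_1 a52_2 a52_3 q52 fun c54 a54_1 a54_2 a54_3 q54 =>
  mulK c51 a51_1 a51_2 a51_3 q51 c54 a54_1 a54_2 a54_3 q54 fun c57 a57_1 a57_2 a57_3 q57 =>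
  smulK 235179 50000 57646075230342348850000 271142926531933664968704 c45 a45_1 a45_2 a45_3 q45 fun c58 a58_1 a58_2 a58_3 q58 =>
  negK c58 a58_1 a58_2 a58_3 q58 fun c59 a59_1 a59_2 a59_3 q59 =>
  addcK c59 a59_1 a59_2 a59_3 q59 1152920135923777604 1 fun c61 a61_1 a61_2 a61_3 q61 =>
  mulK c61 a61_1 a61_2 a61_3 q61 c45 a45_1 a45_2 a45_3 q45 fun c62 a62_1 a62_2 a62_3 q62 =>
  addcK c62 a62_1 a62_2 a62_3 q62 1152922599445550334 1 fun c63 a63_1 a63_2 a63_3 q63 =>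
  mulK c63 a63_1 a63_2 a63_3 q63 c45 a45_1 a45_2 a45_3 q45 fun c64 a64_1 a64_2 a64_3 q64 =>
  addcK c64 a64_1 a64_2 a64_3 q64 1152921441123794367 1 fun c65 a65_1 a65_2 a65_3 q65 =>
  addK c57 a57_1 a57_2 a57_3 q57 c65 a65_1 a65_2 a65_3 q65 fun c66 a66_1 a66_2 a66_3 q66 =>
  mulK c66 a66_1 a66_2 a66_3 q66 c54 a54_1 a54_2 a54_3 q54 fun c67 a67_1 a67_2 a67_3 q67 =>
  smulK 705537 100000 115292150460684697700000 813428779595800994906112 c45 a45_1 a45_2 a45_3 q45 fun c68 a68_1 a68_2 a68_3 q68 =>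
  negK c68 a68_1 a68_2 a68_3 q68 fun c69 a69_1 a69_2 a69_3 q69 =>
  addcK c69 a69_1 a69_2 a69_3 q69 1152918082899173546 1 fun c71 a71_1 a71_2 a71_3 q71 =>
  mulK c71 a71_1 a71_2 a71_3 q71 c45 a45_1 a45_2 a45_3 q45 fun c72 a72_1 a72_2 a72_3 q72 =>
  addcK c72 a72_1 a72_2 a72_3 q72 1152926978800363766 1 fun c73 a73_1 a73_2 a73_3 q73 =>
  mulK c73 a73_1 a73_2 a73_3 q73 c45 a45_1 a45_2 a45_3 q45 fun c74 a74_1 a74_2 a74_3 q74 =>
  addcK c74 a74_1 a74_2 a74_3 q74 1152920552361057845 1 fun c75 a75_1 a75_2 a75_3 q75 =>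
  mulK c75 a75_1 a75_2 a75_3 q75 c45 a45_1 a45_2 a45_3 q45 fun c76 a76_1 a76_2 a76_3 q76 =>
  addcK c76 a76_1 a76_2 a76_3 q76 1152920831018536010 1 fun c77 a77_1 a77_2 a77_3 q77 =>
  mulK c77 a77_1 a77_2 a77_3 q77 c45 a45_1 a45_2 a45_3 q45 fun c78 a78_1 a78_2 a78_3 q78 =>
  addcK c78 a78_1 a78_2 a78_3 q78 1152921586866809408 1 fun c79 a79_1 a79_2 a79_3 q79 =>
  addK c67 a67_1 a67_2 a67_3 q67 c79 a79_1 a79_2 a79_3 q79 fun c80 a80_1 a80_2 a80_3 q80 =>
  mulK c80 a80_1 a80_2 a80_3 q80 c54 a54_1 a54_2 a54_3 q54 fun c81 a81_1 a81_2 a81_3 q81 =>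
  smulK 100791 50000 57646075230342348850000 116204111370828713558016 c45 a45_1 a45_2 a45_3 q45 fun c82 a82_1 a82_2 a82_3 q82 =>
  negK c82 a82_1 a82_2 a82_3 q82 fun c83 a83_1 a83_2 a83_3 q83 =>
  addcK c83 a83_1 a83_2 a83_3 q83 1152920135923777604 1 fun c85 a85_1 a85_2 a85_3 q85 =>
  mulK c85 a85_1 a85_2 a85_3 q85 c45 a45_1 a45_2 a45_3 q45 fun c86 a86_1 a86_2 a86_3 q86 =>
  addcK c86 a86_1 a86_2 a86_3 q86 1152924789122957050 1 fun c87 a87_1 a87_2 a87_3 q87 =>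
  mulK c87 a87_1 a87_2 a87_3 q87 c45 a45_1 a45_2 a45_3 q45 fun c88 a88_1 a88_2 a88_3 q88 =>
  addcK c88 a88_1 a88_2 a88_3 q88 1152920552361057845 1 fun c89 a89_1 a89_2 a89_3 q89 =>
  mulK c89 a89_1 a89_2 a89_3 q89 c45 a45_1 a45_2 a45_3 q45 fun c90 a90_1 a90_2 a90_3 q90 =>
  addcK c90 a90_1 a90_2 a90_3 q90 1152920157430225043 1 fun c91 a91_1 a91_2 a91_3 q91 =>
  mulK c91 a91_1 a91_2 a91_3 q91 c45 a45_1 a45_2 a45_3 q45 fun c92 a92_1 a92_2 a92_3 q92 =>
  addcK c92 a92_1 a92_2 a92_3 q92 1152921998166621568 1 fun c93 a93_1 a93_2 a93_3 q93 =>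
  mulK c93 a93_1 a93_2 a93_3 q93 c45 a45_1 a45_2 a45_3 q45 fun c94 a94_1 a94_2 a94_3 q94 =>
  addcK c94 a94_1 a94_2 a94_3 q94 1152921341090226472 1 fun c95 a95_1 a95_2 a95_3 q95 =>
  mulK c95 a95_1 a95_2 a95_3 q95 c45 a45_1 a45_2 a45_3 q45 fun c96 a96_1 a96_2 a96_3 q96 =>
  addcK c96 a96_1 a96_2 a96_3 q96 1152920984955661457 1 fun c97 a97_1 a97_2 a97_3 q97 =>
  addK c81 a81_1 a81_2 a81_3 q81 c97 a97_1 a97_2 a97_3 q97 fun c98 a98_1 a98_2 a98_3 q98 =>
  smulK 8829 16000 18446744073709551632000 10179143964173851951104 c45 a45_1 a45_2 a45_3 q45 fun c99 a99_1 a99_2 a99_3 q99 =>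
  negK c99 a99_1 a99_2 a99_3 q99 fun c100 a100_1 a100_2 a100_3 q100 =>
  addcK c100 a100_1 a100_2 a100_3 q100 1152921359622494958 1 fun c102 a102_1 a102_2 a102_3 q102 =>
  mulK c102 a102_1 a102_2 a102_3 q102 c54 a54_1 a54_2 a54_3 q54 fun c103 a103_1 a103_2 a103_3 q103 =>
  smulK 20601 4000 4611686018427387908000 23751335916405654552576 c45 a45_1 a45_2 a45_3 q45 fun c104 a104_1 a104_2 a104_3 q104 =>
  negK c104 a104_1 a104_2 a104_3 q104 fun c105 a105_1 a105_2 a105_3 q105 =>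
  addcK c105 a105_1 a105_2 a105_3 q105 1152917445044990483 1 fun c107 a107_1 a107_2 a107_3 q107 =>
  mulK c107 a107_1 a107_2 a107_3 q107 c45 a45_1 a45_2 a45_3 q45 fun c108 a108_1 a108_2 a108_3 q108 =>
  addcK c108 a108_1 a108_2 a108_3 q108 1152920368899296414 1 fun c109 a109_1 a109_2 a109_3 q109 =>
  mulK c109 a109_1 a109_2 a109_3 q109 c45 a45_1 a45_2 a45_3 q45 fun c110 a110_1 a110_2 a110_3 q110 =>
  addcK c110 a110_1 a110_2 a110_3 q110 1152921721977547008 1 fun c111 a111_1 a111_2 a111_3 q111 =>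
  addK c103 a103_1 a103_2 a103_3 q103 c111 a111_1 a111_2 a111_3 q111 fun c112 a112_1 a112_2 a112_3 q112 =>
  mulK c112 a112_1 a112_2 a112_3 q112 c54 a54_1 a54_2 a54_3 q54 fun c113 a113_1 a113_2 a113_3 q113 =>
  smulK 61803 8000 9223372036854775816000 71254007749216963657728 c45 a45_1 a45_2 a45_3 q45 fun c114 a114_1 a114_2 a114_3 q114 =>
  negK c114 a114_1 a114_2 a114_3 q114 fun c115 a115_1 a115_2 a115_3 q115 =>
  addcK c115 a115_1 a115_2 a115_3 q115 1152911355702205743 1 fun c117 a117_1 a117_2 a117_3 q117 =>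
  mulK c117 a117_1 a117_2 a117_3 q117 c45 a45_1 a45_2 a45_3 q45 fun c118 a118_1 a118_2 a118_3 q118 =>
  addcK c118 a118_1 a118_2 a118_3 q118 1152915826069094164 1 fun c119 a119_1 a119_2 a119_3 q119 =>
  mulK c119 a119_1 a119_2 a119_3 q119 c45 a45_1 a45_2 a45_3 q45 fun c120 a120_1 a120_2 a120_3 q120 =>
  addcK c120 a120_1 a120_2 a120_3 q120 1152924765167347460 1 fun c121 a121_1 a121_2 a121_3 q121 =>
  mulK c121 a121_1 a121_2 a121_3 q121 c45 a45_1 a45_2 a45_3 q45 fun c122 a122_1 a122_2 a122_3 q122 =>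
  addcK c122 a122_1 a122_2 a122_3 q122 1152922061262096328 1 fun c123 a123_1 a123_2 a123_3 q123 =>
  mulK c123 a123_1 a123_2 a123_3 q123 c45 a45_1 a45_2 a45_3 q45 fun c124 a124_1 a124_2 a124_3 q124 =>
  addcK c124 a124_1 a124_2 a124_3 q124 1152921192554451897 1 fun c125 a125_1 a125_2 a125_3 q125 =>
  addK c113 a113_1 a113_2 a113_3 q113 c125 a125_1 a125_2 a125_3 q125 fun c126 a126_1 a126_2 a126_3 q126 =>
  mulK c126 a126_1 a126_2 a126_3 q126 c54 a54_1 a54_2 a54_3 q54 fun c127 a127_1 a127_2 a127_3 q127 =>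
  smulK 8829 4000 4611686018427387908000 10179143964173851951104 c45 a45_1 a45_2 a45_3 q45 fun c128 a128_1 a128_2 a128_3 q128 =>
  negK c128 a128_1 a128_2 a128_3 q128 fun c129 a129_1 a129_2 a129_3 q129 =>
  addcK c129 a129_1 a129_2 a129_3 q129 1152917445044990483 1 fun c131 a131_1 a131_2 a131_3 q131 =>
  mulK c131 a131_1 a131_2 a131_3 q131 c45 a45_1 a45_2 a45_3 q45 fun c132 a132_1 a132_2 a132_3 q132 =>
  addcK c132 a132_1 a132_2 a132_3 q132 1152918097484195289 1 fun c133 a133_1 a133_2 a133_3 q133 =>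
  mulK c133 a133_1 a133_2 a133_3 q133 c45 a45_1 a45_2 a45_3 q45 fun c134 a134_1 a134_2 a134_3 q134 =>
  addcK c134 a134_1 a134_2 a134_3 q134 1152924765167347460 1 fun c135 a135_1 a135_2 a135_3 q135 =>
  mulK c135 a135_1 a135_2 a135_3 q135 c45 a45_1 a45_2 a45_3 q45 fun c136 a136_1 a136_2 a136_3 q136 =>
  addcK c136 a136_1 a136_2 a136_3 q136 1152922617917345681 1 fun c137 a137_1 a137_2 a137_3 q137 =>
  mulK c137 a137_1 a137_2 a137_3 q137 c45 a45_1 a45_2 a45_3 q45 fun c138 a138_1 a138_2 a138_3 q138 =>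
  addcK c138 a138_1 a138_2 a138_3 q138 1152919632292476501 1 fun c139 a139_1 a139_2 a139_3 q139 =>
  mulK c139 a139_1 a139_2 a139_3 q139 c45 a45_1 a45_2 a45_3 q45 fun c140 a140_1 a140_2 a140_3 q140 =>
  addcK c140 a140_1 a140_2 a140_3 q140 1152921201743620326 1 fun c141 a141_1 a141_2 a141_3 q141 =>
  mulK c141 a141_1 a141_2 a141_3 q141 c45 a45_1 a45_2 a45_3 q45 fun c142 a142_1 a142_2 a142_3 q142 =>
  addcK c142 a142_1 a142_2 a142_3 q142 1152921744272894040 1 fun c143 a143_1 a143_2 a143_3 q143 =>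
  addK c127 a127_1 a127_2 a127_3 q127 c143 a143_1 a143_2 a143_3 q143 fun c144 a144_1 a144_2 a144_3 q144 =>
  mulK c26 a26_1 a26_2 a26_3 q26 c144 a144_1 a144_2 a144_3 q144 fun c145 a145_1 a145_2 a145_3 q145 =>
  addK c98 a98_1 a98_2 a98_3 q98 c145 a145_1 a145_2 a145_3 q145 fun c146 a146_1 a146_2 a146_3 q146 =>
  mulK c43 a43_1 a43_2 a43_3 q43 c146 a146_1 a146_2 a146_3 q146 fun c148 a148_1 a148_2 a148_3 q148 =>
  smulK 1 50 57646075230342348850 1152921504606846976 z1 (Nat.add w1 1152921504606846976) 1152921504606846976 1152921504606846976 0 fun c149 a149_1 a149_2 a149_3 q149 =>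
  mulK c149 a149_1 a149_2 a149_3 q149 c18 a18_1 a18_2 a18_3 q18 fun c150 a150_1 a150_2 a150_3 q150 =>
  subK c20 a20_1 a20_2 a20_3 q20 c150 a150_1 a150_2 a150_3 q150 fun c151 a151_1 a151_2 a151_3 q151 =>
  smulK 11199 50000 57646075230342348850000 12911567930092079284224 c45 a45_1 a45_2 a45_3 q45 fun c152 a152_1 a152_2 a152_3 q152 =>
  addcK c152 a152_1 a152_2 a152_3 q152 1152921700132999743 1 fun c153 a153_1 a153_2 a153_3 q153 =>
  mulK c153 a153_1 a153_2 a153_3 q153 c45 a45_1 a45_2 a45_3 q45 fun c154 a154_1 a154_2 a154_3 q154 =>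
  addcK c154 a154_1 a154_2 a154_3 q154 1152921125253345161 1 fun c155 a155_1 a155_2 a155_3 q155 =>
  mulK c155 a155_1 a155_2 a155_3 q155 c45 a45_1 a45_2 a45_3 q45 fun c156 a156_1 a156_2 a156_3 q156 =>
  addcK c156 a156_1 a156_2 a156_3 q156 1152921954065210178 1 fun c157 a157_1 a157_2 a157_3 q157 =>
  mulK c157 a157_1 a157_2 a157_3 q157 c45 a45_1 a45_2 a45_3 q45 fun c158 a158_1 a158_2 a158_3 q158 =>
  addcK c158 a158_1 a158_2 a158_3 q158 1152921664123993934 1 fun c159 a159_1 a159_2 a159_3 q159 =>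
  mulK c159 a159_1 a159_2 a159_3 q159 c45 a45_1 a45_2 a45_3 q45 fun c160 a160_1 a160_2 a160_3 q160 =>
  addcK c160 a160_1 a160_2 a160_3 q160 1152921625025360450 1 fun c161 a161_1 a161_2 a161_3 q161 =>
  mulK c161 a161_1 a161_2 a161_3 q161 c45 a45_1 a45_2 a45_3 q45 fun c162 a162_1 a162_2 a162_3 q162 =>
  addcK c162 a162_1 a162_2 a162_3 q162 1152921882146154605 1 fun c163 a163_1 a163_2 a163_3 q163 =>
  mulK c163 a163_1 a163_2 a163_3 q163 c45 a45_1 a45_2 a45_3 q45 fun c164 a164_1 a164_2 a164_3 q164 =>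
  addcK c164 a164_1 a164_2 a164_3 q164 1152923703630102528 0 fun c165 a165_1 a165_2 a165_3 q165 =>
  smulK 981 4000 4611686018427387908000 1131015996019316883456 c45 a45_1 a45_2 a45_3 q45 fun c166 a166_1 a166_2 a166_3 q166 =>
  addcK c166 a166_1 a166_2 a166_3 q166 1152922084544255046 1 fun c167 a167_1 a167_2 a167_3 q167 =>
  mulK c167 a167_1 a167_2 a167_3 q167 c45 a45_1 a45_2 a45_3 q45 fun c168 a168_1 a168_2 a168_3 q168 =>
  addcK c168 a168_1 a168_2 a168_3 q168 1152922423237816867 1 fun c169 a169_1 a169_2 a169_3 q169 =>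
  mulK c169 a169_1 a169_2 a169_3 q169 c45 a45_1 a45_2 a45_3 q45 fun c170 a170_1 a170_2 a170_3 q170 =>
  addcK c170 a170_1 a170_2 a170_3 q170 1152921215061454917 1 fun c171 a171_1 a171_2 a171_3 q171 =>
  mulK c171 a171_1 a171_2 a171_3 q171 c45 a45_1 a45_2 a45_3 q45 fun c172 a172_1 a172_2 a172_3 q172 =>
  addcK c172 a172_1 a172_2 a172_3 q172 1152921977913617385 1 fun c173 a173_1 a173_2 a173_3 q173 =>
  mulK c173 a173_1 a173_2 a173_3 q173 c45 a45_1 a45_2 a45_3 q45 fun c174 a174_1 a174_2 a174_3 q174 =>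
  addcK c174 a174_1 a174_2 a174_3 q174 1152922463271035234 1 fun c175 a175_1 a175_2 a175_3 q175 =>
  mulK c175 a175_1 a175_2 a175_3 q175 c45 a45_1 a45_2 a45_3 q45 fun c176 a176_1 a176_2 a176_3 q176 =>
  addcK c176 a176_1 a176_2 a176_3 q176 1152922381731252918 1 fun c177 a177_1 a177_2 a177_3 q177 =>
  mulK c177 a177_1 a177_2 a177_3 q177 c45 a45_1 a45_2 a45_3 q45 fun c178 a178_1 a178_2 a178_3 q178 =>
  mulK c26 a26_1 a26_2 a26_3 q26 c178 a178_1 a178_2 a178_3 q178 fun c179 a179_1 a179_2 a179_3 q179 =>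
  addK c165 a165_1 a165_2 a165_3 q165 c179 a179_1 a179_2 a179_3 q179 fun c180 a180_1 a180_2 a180_3 q180 =>
  mulK c52 a52_1 a52_2 a52_3 q52 z3 1152921504606846976 1152921504606846976 (Nat.add w3 1152921504606846976) 0 fun c182 a182_1 a182_2 a182_3 q182 =>
  mulK c182 a182_1 a182_2 a182_3 q182 c146 a146_1 a146_2 a146_3 q146 fun c183 a183_1 a183_2 a183_3 q183 =>
  addK c180 a180_1 a180_2 a180_3 q180 c183 a183_1 a183_2 a183_3 q183 fun c184 a184_1 a184_2 a184_3 q184 =>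
  mulK c151 a151_1 a151_2 a151_3 q151 c184 a184_1 a184_2 a184_3 q184 fun c185 a185_1 a185_2 a185_3 q185 =>
  subK c148 a148_1 a148_2 a148_3 q148 c185 a185_1 a185_2 a185_3 q185 fun c186 a186_1 a186_2 a186_3 q186 =>
  smulK 6 25 28823037615171174425 6917529027641081856 z1 (Nat.add w1 1152921504606846976) 1152921504606846976 1152921504606846976 0 fun c187 a187_1 a187_2 a187_3 q187 =>
  mulK c187 a187_1 a187_2 a187_3 q187 c26 a26_1 a26_2 a26_3 q26 fun c188 a188_1 a188_2 a188_3 q188 =>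
  smulK 29 50 57646075230342348850 33434723633598562304 c26 a26_1 a26_2 a26_3 q26 fun c189 a189_1 a189_2 a189_3 q189 =>
  mulK c189 a189_1 a189_2 a189_3 q189 c18 a18_1 a18_2 a18_3 q18 fun c190 a190_1 a190_2 a190_3 q190 =>
  addK c188 a188_1 a188_2 a188_3 q188 c190 a190_1 a190_2 a190_3 q190 fun c191 a191_1 a191_2 a191_3 q191 =>
  smulK 1 2 2305843009213693954 1152921504606846976 c26 a26_1 a26_2 a26_3 q26 fun c192 a192_1 a192_2 a192_3 q192 =>
  negK c192 a192_1 a192_2 a192_3 q192 fun c194 a194_1 a194_2 a194_3 q194 =>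
  addcK c194 a194_1 a194_2 a194_3 q194 1152922604118474752 0 fun c195 a195_1 a195_2 a195_3 q195 =>
  mulK c195 a195_1 a195_2 a195_3 q195 z3 1152921504606846976 1152921504606846976 (Nat.add w3 1152921504606846976) 0 fun c197 a197_1 a197_2 a197_3 q197 =>
  mulK c197 a197_1 a197_2 a197_3 q197 c20 a20_1 a20_2 a20_3 q20 fun c198 a198_1 a198_2 a198_3 q198 =>
  addK c191 a191_1 a191_2 a191_3 q191 c198 a198_1 a198_2 a198_3 q198 fun c199 a199_1 a199_2 a199_3 q199 =>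
  smulK 11199 200000 230584300921369395400000 12911567930092079284224 c54 a54_1 a54_2 a54_3 q54 fun c200 a200_1 a200_2 a200_3 q200 =>
  negK c200 a200_1 a200_2 a200_3 q200 fun c201 a201_1 a201_2 a201_3 q201 =>
  addcK c83 a83_1 a83_2 a83_3 q83 1152921113554541441 1 fun c203 a203_1 a203_2 a203_3 q203 =>
  mulK c203 a203_1 a203_2 a203_3 q203 c45 a45_1 a45_2 a45_3 q45 fun c204 a204_1 a204_2 a204_3 q204 =>
  addcK c204 a204_1 a204_2 a204_3 q204 1152921661012376027 1 fun c205 a205_1 a205_2 a205_3 q205 =>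
  addK c201 a201_1 a201_2 a201_3 q201 c205 a205_1 a205_2 a205_3 q205 fun c206 a206_1 a206_2 a206_3 q206 =>
  mulK c206 a206_1 a206_2 a206_3 q206 c54 a54_1 a54_2 a54_3 q54 fun c207 a207_1 a207_2 a207_3 q207 =>
  addcK c69 a69_1 a69_2 a69_3 q69 1152918767240708232 1 fun c208 a208_1 a208_2 a208_3 q208 =>
  mulK c208 a208_1 a208_2 a208_3 q208 c45 a45_1 a45_2 a45_3 q45 fun c209 a209_1 a209_2 a209_3 q209 =>
  addcK c209 a209_1 a209_2 a209_3 q209 1152924789122957050 1 fun c210 a210_1 a210_2 a210_3 q210 =>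
  mulK c210 a210_1 a210_2 a210_3 q210 c45 a45_1 a45_2 a45_3 q45 fun c211 a211_1 a211_2 a211_3 q211 =>
  addcK c211 a211_1 a211_2 a211_3 q211 1152921123708531324 1 fun c212 a212_1 a212_2 a212_3 q212 =>
  mulK c212 a212_1 a212_2 a212_3 q212 c45 a45_1 a45_2 a45_3 q45 fun c213 a213_1 a213_2 a213_3 q213 =>
  addcK c213 a213_1 a213_2 a213_3 q213 1152921369889184783 1 fun c214 a214_1 a214_2 a214_3 q214 =>
  addK c207 a207_1 a207_2 a207_3 q207 c214 a214_1 a214_2 a214_3 q214 fun c215 a215_1 a215_2 a215_3 q215 =>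
  mulK c215 a215_1 a215_2 a215_3 q215 c54 a54_1 a54_2 a54_3 q54 fun c216 a216_1 a216_2 a216_3 q216 =>
  addcK c59 a59_1 a59_2 a59_3 q59 1152918767240708232 1 fun c217 a217_1 a217_2 a217_3 q217 =>
  mulK c217 a217_1 a217_2 a217_3 q217 c45 a45_1 a45_2 a45_3 q45 fun c218 a218_1 a218_2 a218_3 q218 =>
  addcK c218 a218_1 a218_2 a218_3 q218 1152926978800363766 1 fun c219 a219_1 a219_2 a219_3 q219 =>
  mulK c219 a219_1 a219_2 a219_3 q219 c45 a45_1 a45_2 a45_3 q45 fun c220 a220_1 a220_2 a220_3 q220 =>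
  addcK c220 a220_1 a220_2 a220_3 q220 1152920234945794802 1 fun c221 a221_1 a221_2 a221_3 q221 =>
  mulK c221 a221_1 a221_2 a221_3 q221 c45 a45_1 a45_2 a45_3 q45 fun c222 a222_1 a222_2 a222_3 q222 =>
  addcK c222 a222_1 a222_2 a222_3 q222 1152920157430225043 1 fun c223 a223_1 a223_2 a223_3 q223 =>
  mulK c223 a223_1 a223_2 a223_3 q223 c45 a45_1 a45_2 a45_3 q45 fun c224 a224_1 a224_2 a224_3 q224 =>
  addcK c224 a224_1 a224_2 a224_3 q224 1152921833646696704 1 fun c225 a225_1 a225_2 a225_3 q225 =>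
  mulK c225 a225_1 a225_2 a225_3 q225 c45 a45_1 a45_2 a45_3 q45 fun c226 a226_1 a226_2 a226_3 q226 =>
  addcK c226 a226_1 a226_2 a226_3 q226 1152921450101306808 1 fun c227 a227_1 a227_2 a227_3 q227 =>
  addK c216 a216_1 a216_2 a216_3 q216 c227 a227_1 a227_2 a227_3 q227 fun c228 a228_1 a228_2 a228_3 q228 =>
  mulK c228 a228_1 a228_2 a228_3 q228 c54 a54_1 a54_2 a54_3 q54 fun c229 a229_1 a229_2 a229_3 q229 =>
  addcK c49 a49_1 a49_2 a49_3 q49 1152921113554541441 1 fun c230 a230_1 a230_2 a230_3 q230 =>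
  mulK c230 a230_1 a230_2 a230_3 q230 c45 a45_1 a45_2 a45_3 q45 fun c231 a231_1 a231_2 a231_3 q231 =>
  addcK c231 a231_1 a231_2 a231_3 q231 1152922599445550334 1 fun c232 a232_1 a232_2 a232_3 q232 =>
  mulK c232 a232_1 a232_2 a232_3 q232 c45 a45_1 a45_2 a45_3 q45 fun c233 a233_1 a233_2 a233_3 q233 =>
  addcK c233 a233_1 a233_2 a233_3 q233 1152921123708531324 1 fun c234 a234_1 a234_2 a234_3 q234 =>
  mulK c234 a234_1 a234_2 a234_3 q234 c45 a45_1 a45_2 a45_3 q45 fun c235 a235_1 a235_2 a235_3 q235 =>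
  addcK c235 a235_1 a235_2 a235_3 q235 1152920831018536010 1 fun c236 a236_1 a236_2 a236_3 q236 =>
  mulK c236 a236_1 a236_2 a236_3 q236 c45 a45_1 a45_2 a45_3 q45 fun c237 a237_1 a237_2 a237_3 q237 =>
  addcK c237 a237_1 a237_2 a237_3 q237 1152921833646696704 1 fun c238 a238_1 a238_2 a238_3 q238 =>
  mulK c238 a238_1 a238_2 a238_3 q238 c45 a45_1 a45_2 a45_3 q45 fun c239 a239_1 a239_2 a239_3 q239 =>
  addcK c239 a239_1 a239_2 a239_3 q239 1152921341090226472 1 fun c240 a240_1 a240_2 a240_3 q240 =>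
  mulK c240 a240_1 a240_2 a240_3 q240 c45 a45_1 a45_2 a45_3 q45 fun c241 a241_1 a241_2 a241_3 q241 =>
  addcK c241 a241_1 a241_2 a241_3 q241 1152920465304475937 1 fun c242 a242_1 a242_2 a242_3 q242 =>
  mulK c242 a242_1 a242_2 a242_3 q242 c45 a45_1 a45_2 a45_3 q45 fun c243 a243_1 a243_2 a243_3 q243 =>
  addcK c243 a243_1 a243_2 a243_3 q243 1152921598991673883 1 fun c244 a244_1 a244_2 a244_3 q244 =>
  addK c229 a229_1 a229_2 a229_3 q229 c244 a244_1 a244_2 a244_3 q244 fun c245 a245_1 a245_2 a245_3 q245 =>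
  smulK 981 16000 18446744073709551632000 1131015996019316883456 c54 a54_1 a54_2 a54_3 q54 fun c246 a246_1 a246_2 a246_3 q246 =>
  negK c246 a246_1 a246_2 a246_3 q246 fun c247 a247_1 a247_2 a247_3 q247 =>
  addcK c129 a129_1 a129_2 a129_3 q129 1152920344732030835 1 fun c249 a249_1 a249_2 a249_3 q249 =>
  mulK c249 a249_1 a249_2 a249_3 q249 c45 a45_1 a45_2 a45_3 q45 fun c250 a250_1 a250_2 a250_3 q250 =>
  addcK c250 a250_1 a250_2 a250_3 q250 1152921342362911181 1 fun c251 a251_1 a251_2 a251_3 q251 =>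
  addK c247 a247_1 a247_2 a247_3 q247 c251 a251_1 a251_2 a251_3 q251 fun c252 a252_1 a252_2 a252_3 q252 =>
  mulK c252 a252_1 a252_2 a252_3 q252 c54 a54_1 a54_2 a54_3 q54 fun c253 a253_1 a253_2 a253_3 q253 =>
  addcK c115 a115_1 a115_2 a115_3 q115 1152913385483133990 1 fun c254 a254_1 a254_2 a254_3 q254 =>
  mulK c254 a254_1 a254_2 a254_3 q254 c45 a45_1 a45_2 a45_3 q45 fun c255 a255_1 a255_2 a255_3 q255 =>
  addcK c255 a255_1 a255_2 a255_3 q255 1152918097484195289 1 fun c256 a256_1 a256_2 a256_3 q256 =>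
  mulK c256 a256_1 a256_2 a256_3 q256 c45 a45_1 a45_2 a45_3 q45 fun c257 a257_1 a257_2 a257_3 q257 =>
  addcK c257 a257_1 a257_2 a257_3 q257 1152922808831047169 1 fun c258 a258_1 a258_2 a258_3 q258 =>
  mulK c258 a258_1 a258_2 a258_3 q258 c45 a45_1 a45_2 a45_3 q45 fun c259 a259_1 a259_2 a259_3 q259 =>
  addcK c259 a259_1 a259_2 a259_3 q259 1152921615937896846 1 fun c260 a260_1 a260_2 a260_3 q260 =>
  addK c253 a253_1 a253_2 a253_3 q253 c260 a260_1 a260_2 a260_3 q260 fun c261 a261_1 a261_2 a261_3 q261 =>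
  mulK c261 a261_1 a261_2 a261_3 q261 c54 a54_1 a54_2 a54_3 q54 fun c262 a262_1 a262_2 a262_3 q262 =>
  addcK c105 a105_1 a105_2 a105_3 q105 1152913385483133990 1 fun c263 a263_1 a263_2 a263_3 q263 =>
  mulK c263 a263_1 a263_2 a263_3 q263 c45 a45_1 a45_2 a45_3 q45 fun c264 a264_1 a264_2 a264_3 q264 =>
  addcK c264 a264_1 a264_2 a264_3 q264 1152915826069094164 1 fun c265 a265_1 a265_2 a265_3 q265 =>
  mulK c265 a265_1 a265_2 a265_3 q265 c45 a45_1 a45_2 a45_3 q45 fun c266 a266_1 a266_2 a266_3 q266 =>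
  addcK c266 a266_1 a266_2 a266_3 q266 1152925852020847621 1 fun c267 a267_1 a267_2 a267_3 q267 =>
  mulK c267 a267_1 a267_2 a267_3 q267 c45 a45_1 a45_2 a45_3 q45 fun c268 a268_1 a268_2 a268_3 q268 =>
  addcK c268 a268_1 a268_2 a268_3 q268 1152922617917345681 1 fun c269 a269_1 a269_2 a269_3 q269 =>
  mulK c269 a269_1 a269_2 a269_3 q269 c45 a45_1 a45_2 a45_3 q45 fun c270 a270_1 a270_2 a270_3 q270 =>
  addcK c270 a270_1 a270_2 a270_3 q270 1152920256397266660 1 fun c271 a271_1 a271_2 a271_3 q271 =>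
  mulK c271 a271_1 a271_2 a271_3 q271 c45 a45_1 a45_2 a45_3 q45 fun c272 a272_1 a272_2 a272_3 q272 =>
  addcK c272 a272_1 a272_2 a272_3 q272 1152921403652438093 1 fun c273 a273_1 a273_2 a273_3 q273 =>
  addK c262 a262_1 a262_2 a262_3 q262 c273 a273_1 a273_2 a273_3 q273 fun c274 a274_1 a274_2 a274_3 q274 =>
  mulK c274 a274_1 a274_2 a274_3 q274 c54 a54_1 a54_2 a54_3 q54 fun c275 a275_1 a275_2 a275_3 q275 =>
  addcK c100 a100_1 a100_2 a100_3 q100 1152920344732030835 1 fun c276 a276_1 a276_2 a276_3 q276 =>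
  mulK c276 a276_1 a276_2 a276_3 q276 c45 a45_1 a45_2 a45_3 q45 fun c277 a277_1 a277_2 a277_3 q277 =>
  addcK c277 a277_1 a277_2 a277_3 q277 1152920368899296414 1 fun c278 a278_1 a278_2 a278_3 q278 =>
  mulK c278 a278_1 a278_2 a278_3 q278 c45 a45_1 a45_2 a45_3 q45 fun c279 a279_1 a279_2 a279_3 q279 =>
  addcK c279 a279_1 a279_2 a279_3 q279 1152922808831047169 1 fun c280 a280_1 a280_2 a280_3 q280 =>
  mulK c280 a280_1 a280_2 a280_3 q280 c45 a45_1 a45_2 a45_3 q45 fun c281 a281_1 a281_2 a281_3 q281 =>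
  addcK c281 a281_1 a281_2 a281_3 q281 1152922061262096328 1 fun c282 a282_1 a282_2 a282_3 q282 =>
  mulK c282 a282_1 a282_2 a282_3 q282 c45 a45_1 a45_2 a45_3 q45 fun c283 a283_1 a283_2 a283_3 q283 =>
  addcK c283 a283_1 a283_2 a283_3 q283 1152920256397266660 1 fun c284 a284_1 a284_2 a284_3 q284 =>
  mulK c284 a284_1 a284_2 a284_3 q284 c45 a45_1 a45_2 a45_3 q45 fun c285 a285_1 a285_2 a285_3 q285 =>
  addcK c285 a285_1 a285_2 a285_3 q285 1152921201743620326 1 fun c286 a286_1 a286_2 a286_3 q286 =>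
  mulK c286 a286_1 a286_2 a286_3 q286 c45 a45_1 a45_2 a45_3 q45 fun c287 a287_1 a287_2 a287_3 q287 =>
  addcK c287 a287_1 a287_2 a287_3 q287 1152921983938941105 1 fun c288 a288_1 a288_2 a288_3 q288 =>
  mulK c288 a288_1 a288_2 a288_3 q288 c45 a45_1 a45_2 a45_3 q45 fun c289 a289_1 a289_2 a289_3 q289 =>
  addcK c289 a289_1 a289_2 a289_3 q289 1152921723887948462 1 fun c290 a290_1 a290_2 a290_3 q290 =>
  addK c275 a275_1 a275_2 a275_3 q275 c290 a290_1 a290_2 a290_3 q290 fun c291 a291_1 a291_2 a291_3 q291 =>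
  mulK c26 a26_1 a26_2 a26_3 q26 c291 a291_1 a291_2 a291_3 q291 fun c292 a292_1 a292_2 a292_3 q292 =>
  addK c245 a245_1 a245_2 a245_3 q245 c292 a292_1 a292_2 a292_3 q292 fun c293 a293_1 a293_2 a293_3 q293 =>
  mulK c199 a199_1 a199_2 a199_3 q199 c293 a293_1 a293_2 a293_3 q293 fun c295 a295_1 a295_2 a295_3 q295 =>
  subK c186 a186_1 a186_2 a186_3 q186 c295 a295_1 a295_2 a295_3 q295 fun c296 a296_1 a296_2 a296_3 q296 =>
  smulK 3 500 576460752303423488500 3458764513820540928 c26 a26_1 a26_2 a26_3 q26 fun c297 a297_1 a297_2 a297_3 q297 =>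
  negK c297 a297_1 a297_2 a297_3 q297 fun c298 a298_1 a298_2 a298_3 q298 =>
  addcK c298 a298_1 a298_2 a298_3 q298 1152922601919451496 1 fun c299 a299_1 a299_2 a299_3 q299 =>
  mulK c299 a299_1 a299_2 a299_3 q299 c18 a18_1 a18_2 a18_3 q18 fun c301 a301_1 a301_2 a301_3 q301 =>
  addK c296 a296_1 a296_2 a296_3 q296 c301 a301_1 a301_2 a301_3 q301 fun c302 a302_1 a302_2 a302_3 q302 =>
  pos c302 a302_1 a302_2 a302_3 q302

theorem alt0_s {p1 z1 w1 z2 w2 z3 w3 : ℕ} {e1 e2 e3 ze a e l : ℝ} (he : Ev e1 e2 e3)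
    (hp1 : In e1 e2 e3 p1 1152921504606846976 1152921504606846976 1152921504606846976 0 l)
    (hx1 : In e1 e2 e3 z1 (Nat.add w1 1152921504606846976) 1152921504606846976 1152921504606846976 0 ze)
    (hx2 : In e1 e2 e3 z2 1152921504606846976 (Nat.add w2 1152921504606846976) 1152921504606846976 0 a)
    (hx3 : In e1 e2 e3 z3 1152921504606846976 1152921504606846976 (Nat.add w3 1152921504606846976) 0 e)
    (H0 : alt0 p1 z1 w1 z2 w2 z3 w3 = true) : 0 < ((tau ze a e l) - ((3/10:ℝ) * ze)) ∧ 0 < ((((1:ℝ) - ((e * e) * (ga ze a e l))) - ((3/25:ℝ) * ((s ze a e l) * (s ze a e l)))) - ((s ze a e l) * (((7/25:ℝ) * (e * (sg ze a e l))) - ((1/4:ℝ) * ((e * e) * (ga ze a e l)))))) ∧ 0 < ((((((2:ℝ) * (w ze a e l)) * (Eev ze a e l)) - (((ga ze a e l) - (((1/50:ℝ) * ze) * (sg ze a e l))) * ((pv ze a e l) + (((d ze a e l) * e) * (Eev ze a e l))))) - ((((((6/25:ℝ) * ze) * (s ze a e l)) + (((29/50:ℝ) * (s ze a e l)) * (sg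 ze a e l))) + ((((1:ℝ) - ((s ze a e l) / (2:ℝ))) * e) * (ga ze a e l))) * (Ov ze a e l))) + (((499/500:ℝ) - ((3/500:ℝ) * (s ze a e l))) * (sg ze a e l))) := by
  unfold alt0 at H0
  refine smulK_s he (w := (1/2:ℝ)) (by norm_num) (by norm_num) (by norm_num) (by norm_num) hp1 (fun _ _ _ _ _ h1 H1 => ?_) H0
  have h2 := In_cast h1 (div_c (c := (2:ℝ)) (by norm_num))
  have h3 := In_cast (w := (tau ze a e l)) h2 rfl
  refine smulK_s he (w := (3/10:ℝ)) (by norm_num) (by norm_num) (by norm_num) (by norm_num) hx1 (fun _ _ _ _ _ h4 H2 => ?_) H1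
  refine subK_s he h3 h4 (fun _ _ _ _ _ h5 H3 => ?_) H2
  refine posK_s he h5 (fun p0 H4 => ?_) H3
  refine sqK_s he hx3 (fun _ _ _ _ _ h6 H5 => ?_) H4
  have h7 := In_cast h6 (sq _)
  refine smulK_s he (w := (2:ℝ)) (by norm_num) (by norm_num) (by norm_num) (by norm_num) h3 (fun _ _ _ _ _ h8 H6 => ?_) H5
  refine mulK_s he hx3 h3 (fun _ _ _ _ _ h9 H7 => ?_) H6
  have h10 := In_cast (w := (tt ze a e l)) h9 rfl
  refine sqK_s he h10 (fun _ _ _ _ _ h11 H8 => ?_) H7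
  have h12 := In_cast h11 (sq _)
  refine addcK_s he h12 (v' := (1:ℝ)) (by norm_num [SS, BB, abs_le]) (fun _ _ _ _ _ h13 H9 => ?_) H8
  have h14 := In_cast h13 (add_comm _ _)
  refine invK_s he h14 (fun _ _ _ _ _ h15 H10 => ?_) H9
  have h16 := In_cast h15 (inv_eq_one_div _)
  have h17 := In_cast (w := (iv ze a e l)) h16 rfl
  refine mulK_s he h8 h17 (fun _ _ _ _ _ h18 H11 => ?_) H10
  have h19 := In_cast (w := (sg ze a e l)) h18 rfl
  refine mulK_s he h3 h19 (fun _ _ _ _ _ h20 H12 => ?_) H11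
  have h21 := In_cast (w := (ga ze a e l)) h20 rfl
  refine mulK_s he h7 h21 (fun _ _ _ _ _ h22 H13 => ?_) H12
  refine negK_s he h22 (fun _ _ _ _ _ h23 H14 => ?_) H13
  refine addcK_s he h23 (v' := (1:ℝ)) (by norm_num [SS, BB, abs_le]) (fun _ _ _ _ _ h24 H15 => ?_) H14
  have h25 := In_cast h24 (neg_add_eq_sub _ _)
  refine mulK_s he hx1 hx3 (fun _ _ _ _ _ h26 H16 => ?_) H15
  have h27 := In_cast (w := (s ze a e l)) h26 rfl
  refine sqK_s he h27 (fun _ _ _ _ _ h28 H17 => ?_) H16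
  have h29 := In_cast h28 (sq _)
  refine smulK_s he (w := (3/25:ℝ)) (by norm_num) (by norm_num) (by norm_num) (by norm_num) h29 (fun _ _ _ _ _ h30 H18 => ?_) H17
  refine subK_s he h25 h30 (fun _ _ _ _ _ h31 H19 => ?_) H18
  refine mulK_s he hx3 h19 (fun _ _ _ _ _ h32 H20 => ?_) H19
  refine smulK_s he (w := (7/25:ℝ)) (by norm_num) (by norm_num) (by norm_num) (by norm_num) h32 (fun _ _ _ _ _ h33 H21 => ?_) H20
  refine smulK_s he (w := (1/4:ℝ)) (by norm_num) (by norm_num) (by norm_num) (by norm_num) h22 (fun _ _ _ _ _ h34 H22 => ?_) H21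
  refine subK_s he h33 h34 (fun _ _ _ _ _ h35 H23 => ?_) H22
  refine mulK_s he h27 h35 (fun _ _ _ _ _ h36 H24 => ?_) H23
  refine subK_s he h31 h36 (fun _ _ _ _ _ h37 H25 => ?_) H24
  refine posK_s he h37 (fun p1 H26 => ?_) H25
  refine negK_s he hx2 (fun _ _ _ _ _ h38 H27 => ?_) H26
  refine addcK_s he h38 (v' := (1:ℝ)) (by norm_num [SS, BB, abs_le]) (fun _ _ _ _ _ h39 H28 => ?_) H27
  have h40 := In_cast h39 (neg_add_eq_sub _ _)
  refine mulK_s he hx2 h40 (fun _ _ _ _ _ h41 H29 => ?_) H28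
  have h42 := In_cast (w := (w ze a e l)) h41 rfl
  refine smulK_s he (w := (2:ℝ)) (by norm_num) (by norm_num) (by norm_num) (by norm_num) h42 (fun _ _ _ _ _ h43 H30 => ?_) H29
  refine smulK_s he (w := (2:ℝ)) (by norm_num) (by norm_num) (by norm_num) (by norm_num) hx2 (fun _ _ _ _ _ h44 H31 => ?_) H30
  refine addcK_s he h44 (v' := (-1:ℝ)) (by norm_num [SS, BB, abs_le]) (fun _ _ _ _ _ h45 H32 => ?_) H31
  have h46 := In_cast h45 (sub_c (c := (1:ℝ)) (by norm_num))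
  have h47 := In_cast (w := (m ze a e l)) h46 rfl
  refine smulK_s he (w := (100791/200000:ℝ)) (by norm_num) (by norm_num) (by norm_num) (by norm_num) h47 (fun _ _ _ _ _ h48 H33 => ?_) H32
  refine negK_s he h48 (fun _ _ _ _ _ h49 H34 => ?_) H33
  have h50 := In_cast h49 (neg_mul_c (c := (-100791/200000:ℝ)) (by norm_num))
  refine addcK_s he h50 (v' := (-17783/400000:ℝ)) (by norm_num [SS, BB, abs_le]) (fun _ _ _ _ _ h51 H35 => ?_) H34
  refine mulK_s he h42 hx3 (fun _ _ _ _ _ h52 H36 => ?_) H35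
  have h53 := In_cast (w := (d ze a e l)) h52 rfl
  refine sqK_s he h53 (fun _ _ _ _ _ h54 H37 => ?_) H36
  have h55 := In_cast h54 (sq _)
  have h56 := In_cast (w := (D ze a e l)) h55 rfl
  refine mulK_s he h51 h56 (fun _ _ _ _ _ h57 H38 => ?_) H37
  refine smulK_s he (w := (235179/50000:ℝ)) (by norm_num) (by norm_num) (by norm_num) (by norm_num) h47 (fun _ _ _ _ _ h58 H39 => ?_) H38
  refine negK_s he h58 (fun _ _ _ _ _ h59 H40 => ?_) H39
  have h60 := In_cast h59 (neg_mul_c (c := (-235179/50000:ℝ)) (by norm_num))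
  refine addcK_s he h60 (v' := (-124481/100000:ℝ)) (by norm_num [SS, BB, abs_le]) (fun _ _ _ _ _ h61 H41 => ?_) H40
  refine mulK_s he h61 h47 (fun _ _ _ _ _ h62 H42 => ?_) H41
  refine addcK_s he h62 (v' := (3983/4000:ℝ)) (by norm_num [SS, BB, abs_le]) (fun _ _ _ _ _ h63 H43 => ?_) H42
  refine mulK_s he h63 h47 (fun _ _ _ _ _ h64 H44 => ?_) H43
  refine addcK_s he h64 (v' := (-4619/80000:ℝ)) (by norm_num [SS, BB, abs_le]) (fun _ _ _ _ _ h65 H45 => ?_) H44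
  refine addK_s he h57 h65 (fun _ _ _ _ _ h66 H46 => ?_) H45
  refine mulK_s he h66 h56 (fun _ _ _ _ _ h67 H47 => ?_) H46
  refine smulK_s he (w := (705537/100000:ℝ)) (by norm_num) (by norm_num) (by norm_num) (by norm_num) h47 (fun _ _ _ _ _ h68 H48 => ?_) H47
  refine negK_s he h68 (fun _ _ _ _ _ h69 H49 => ?_) H48
  have h70 := In_cast h69 (neg_mul_c (c := (-705537/100000:ℝ)) (by norm_num))
  refine addcK_s he h70 (v' := (-124481/40000:ℝ)) (by norm_num [SS, BB, abs_le]) (fun _ _ _ _ _ h71 H50 => ?_) H49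
  refine mulK_s he h71 h47 (fun _ _ _ _ _ h72 H51 => ?_) H50
  refine addcK_s he h72 (v' := (3983/800:ℝ)) (by norm_num [SS, BB, abs_le]) (fun _ _ _ _ _ h73 H52 => ?_) H51
  refine mulK_s he h73 h47 (fun _ _ _ _ _ h74 H53 => ?_) H52
  refine addcK_s he h74 (v' := (-13857/16000:ℝ)) (by norm_num [SS, BB, abs_le]) (fun _ _ _ _ _ h75 H54 => ?_) H53
  refine mulK_s he h75 h47 (fun _ _ _ _ _ h76 H55 => ?_) H54
  refine addcK_s he h76 (v' := (-4901/8000:ℝ)) (by norm_num [SS, BB, abs_le]) (fun _ _ _ _ _ h77 H56 => ?_) H55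
  refine mulK_s he h77 h47 (fun _ _ _ _ _ h78 H57 => ?_) H56
  refine addcK_s he h78 (v' := (14963/200000:ℝ)) (by norm_num [SS, BB, abs_le]) (fun _ _ _ _ _ h79 H58 => ?_) H57
  refine addK_s he h67 h79 (fun _ _ _ _ _ h80 H59 => ?_) H58
  refine mulK_s he h80 h56 (fun _ _ _ _ _ h81 H60 => ?_) H59
  refine smulK_s he (w := (100791/50000:ℝ)) (by norm_num) (by norm_num) (by norm_num) (by norm_num) h47 (fun _ _ _ _ _ h82 H61 => ?_) H60
  refine negK_s he h82 (fun _ _ _ _ _ h83 H62 => ?_) H61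
  have h84 := In_cast h83 (neg_mul_c (c := (-100791/50000:ℝ)) (by norm_num))
  refine addcK_s he h84 (v' := (-124481/100000:ℝ)) (by norm_num [SS, BB, abs_le]) (fun _ _ _ _ _ h85 H63 => ?_) H62
  refine mulK_s he h85 h47 (fun _ _ _ _ _ h86 H64 => ?_) H63
  refine addcK_s he h86 (v' := (11949/4000:ℝ)) (by norm_num [SS, BB, abs_le]) (fun _ _ _ _ _ h87 H65 => ?_) H64
  refine mulK_s he h87 h47 (fun _ _ _ _ _ h88 H66 => ?_) H65
  refine addcK_s he h88 (v' := (-13857/16000:ℝ)) (by norm_num [SS, BB, abs_le]) (fun _ _ _ _ _ h89 H67 => ?_) H66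
  refine mulK_s he h89 h47 (fun _ _ _ _ _ h90 H68 => ?_) H67
  refine addcK_s he h90 (v' := (-4901/4000:ℝ)) (by norm_num [SS, BB, abs_le]) (fun _ _ _ _ _ h91 H69 => ?_) H68
  refine mulK_s he h91 h47 (fun _ _ _ _ _ h92 H70 => ?_) H69
  refine addcK_s he h92 (v' := (44889/100000:ℝ)) (by norm_num [SS, BB, abs_le]) (fun _ _ _ _ _ h93 H71 => ?_) H70
  refine mulK_s he h93 h47 (fun _ _ _ _ _ h94 H72 => ?_) H71
  refine addcK_s he h94 (v' := (-59487/400000:ℝ)) (by norm_num [SS, BB, abs_le]) (fun _ _ _ _ _ h95 H73 => ?_) H72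
  refine mulK_s he h95 h47 (fun _ _ _ _ _ h96 H74 => ?_) H73
  refine addcK_s he h96 (v' := (-23631/50000:ℝ)) (by norm_num [SS, BB, abs_le]) (fun _ _ _ _ _ h97 H75 => ?_) H74
  refine addK_s he h81 h97 (fun _ _ _ _ _ h98 H76 => ?_) H75
  refine smulK_s he (w := (8829/16000:ℝ)) (by norm_num) (by norm_num) (by norm_num) (by norm_num) h47 (fun _ _ _ _ _ h99 H77 => ?_) H76
  refine negK_s he h99 (fun _ _ _ _ _ h100 H78 => ?_) H77
  have h101 := In_cast h100 (neg_mul_c (c := (-8829/16000:ℝ)) (by norm_num))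
  refine addcK_s he h101 (v' := (-10549/80000:ℝ)) (by norm_num [SS, BB, abs_le]) (fun _ _ _ _ _ h102 H79 => ?_) H78
  refine mulK_s he h102 h56 (fun _ _ _ _ _ h103 H80 => ?_) H79
  refine smulK_s he (w := (20601/4000:ℝ)) (by norm_num) (by norm_num) (by norm_num) (by norm_num) h47 (fun _ _ _ _ _ h104 H81 => ?_) H80
  refine negK_s he h104 (fun _ _ _ _ _ h105 H82 => ?_) H81
  have h106 := In_cast h105 (neg_mul_c (c := (-20601/4000:ℝ)) (by norm_num))
  refine addcK_s he h106 (v' := (-73843/20000:ℝ)) (by norm_num [SS, BB, abs_le]) (fun _ _ _ _ _ h107 H83 => ?_) H82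
  refine mulK_s he h107 h47 (fun _ _ _ _ _ h108 H84 => ?_) H83
  refine addcK_s he h108 (v' := (-25823/25000:ℝ)) (by norm_num [SS, BB, abs_le]) (fun _ _ _ _ _ h109 H85 => ?_) H84
  refine mulK_s he h109 h47 (fun _ _ _ _ _ h110 H86 => ?_) H85
  refine addcK_s he h110 (v' := (79079/400000:ℝ)) (by norm_num [SS, BB, abs_le]) (fun _ _ _ _ _ h111 H87 => ?_) H86
  refine addK_s he h103 h111 (fun _ _ _ _ _ h112 H88 => ?_) H87
  refine mulK_s he h112 h56 (fun _ _ _ _ _ h113 H89 => ?_) H88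
  refine smulK_s he (w := (61803/8000:ℝ)) (by norm_num) (by norm_num) (by norm_num) (by norm_num) h47 (fun _ _ _ _ _ h114 H90 => ?_) H89
  refine negK_s he h114 (fun _ _ _ _ _ h115 H91 => ?_) H90
  have h116 := In_cast h115 (neg_mul_c (c := (-61803/8000:ℝ)) (by norm_num))
  refine addcK_s he h116 (v' := (-73843/8000:ℝ)) (by norm_num [SS, BB, abs_le]) (fun _ _ _ _ _ h117 H92 => ?_) H91
  refine mulK_s he h117 h47 (fun _ _ _ _ _ h118 H93 => ?_) H92
  refine addcK_s he h118 (v' := (-25823/5000:ℝ)) (by norm_num [SS, BB, abs_le]) (fun _ _ _ _ _ h119 H94 => ?_) H93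
  refine mulK_s he h119 h47 (fun _ _ _ _ _ h120 H95 => ?_) H94
  refine addcK_s he h120 (v' := (237237/80000:ℝ)) (by norm_num [SS, BB, abs_le]) (fun _ _ _ _ _ h121 H96 => ?_) H95
  refine mulK_s he h121 h47 (fun _ _ _ _ _ h122 H97 => ?_) H96
  refine addcK_s he h122 (v' := (20251/40000:ℝ)) (by norm_num [SS, BB, abs_le]) (fun _ _ _ _ _ h123 H98 => ?_) H97
  refine mulK_s he h123 h47 (fun _ _ _ _ _ h124 H99 => ?_) H98
  refine addcK_s he h124 (v' := (-28381/100000:ℝ)) (by norm_num [SS, BB, abs_le]) (fun _ _ _ _ _ h125 H100 => ?_) H99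
  refine addK_s he h113 h125 (fun _ _ _ _ _ h126 H101 => ?_) H100
  refine mulK_s he h126 h56 (fun _ _ _ _ _ h127 H102 => ?_) H101
  refine smulK_s he (w := (8829/4000:ℝ)) (by norm_num) (by norm_num) (by norm_num) (by norm_num) h47 (fun _ _ _ _ _ h128 H103 => ?_) H102
  refine negK_s he h128 (fun _ _ _ _ _ h129 H104 => ?_) H103
  have h130 := In_cast h129 (neg_mul_c (c := (-8829/4000:ℝ)) (by norm_num))
  refine addcK_s he h130 (v' := (-73843/20000:ℝ)) (by norm_num [SS, BB, abs_le]) (fun _ _ _ _ _ h131 H105 => ?_) H104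
  refine mulK_s he h131 h47 (fun _ _ _ _ _ h132 H106 => ?_) H105
  refine addcK_s he h132 (v' := (-77469/25000:ℝ)) (by norm_num [SS, BB, abs_le]) (fun _ _ _ _ _ h133 H107 => ?_) H106
  refine mulK_s he h133 h47 (fun _ _ _ _ _ h134 H108 => ?_) H107
  refine addcK_s he h134 (v' := (237237/80000:ℝ)) (by norm_num [SS, BB, abs_le]) (fun _ _ _ _ _ h135 H109 => ?_) H108
  refine mulK_s he h135 h47 (fun _ _ _ _ _ h136 H110 => ?_) H109
  refine addcK_s he h136 (v' := (20251/20000:ℝ)) (by norm_num [SS, BB, abs_le]) (fun _ _ _ _ _ h137 H111 => ?_) H110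
  refine mulK_s he h137 h47 (fun _ _ _ _ _ h138 H112 => ?_) H111
  refine addcK_s he h138 (v' := (-85143/50000:ℝ)) (by norm_num [SS, BB, abs_le]) (fun _ _ _ _ _ h139 H113 => ?_) H112
  refine mulK_s he h139 h47 (fun _ _ _ _ _ h140 H114 => ?_) H113
  refine addcK_s he h140 (v' := (-110181/400000:ℝ)) (by norm_num [SS, BB, abs_le]) (fun _ _ _ _ _ h141 H115 => ?_) H114
  refine mulK_s he h141 h47 (fun _ _ _ _ _ h142 H116 => ?_) H115
  refine addcK_s he h142 (v' := (8719/40000:ℝ)) (by norm_num [SS, BB, abs_le]) (fun _ _ _ _ _ h143 H117 => ?_) H116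
  refine addK_s he h127 h143 (fun _ _ _ _ _ h144 H118 => ?_) H117
  refine mulK_s he h27 h144 (fun _ _ _ _ _ h145 H119 => ?_) H118
  refine addK_s he h98 h145 (fun _ _ _ _ _ h146 H120 => ?_) H119
  have h147 := In_cast (w := (Eev ze a e l)) h146 rfl
  refine mulK_s he h43 h147 (fun _ _ _ _ _ h148 H121 => ?_) H120
  refine smulK_s he (w := (1/50:ℝ)) (by norm_num) (by norm_num) (by norm_num) (by norm_num) hx1 (fun _ _ _ _ _ h149 H122 => ?_) H121
  refine mulK_s he h149 h19 (fun _ _ _ _ _ h150 H123 => ?_) H122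
  refine subK_s he h21 h150 (fun _ _ _ _ _ h151 H124 => ?_) H123
  refine smulK_s he (w := (11199/50000:ℝ)) (by norm_num) (by norm_num) (by norm_num) (by norm_num) h47 (fun _ _ _ _ _ h152 H125 => ?_) H124
  refine addcK_s he h152 (v' := (17783/100000:ℝ)) (by norm_num [SS, BB, abs_le]) (fun _ _ _ _ _ h153 H126 => ?_) H125
  refine mulK_s he h153 h47 (fun _ _ _ _ _ h154 H127 => ?_) H126
  refine addcK_s he h154 (v' := (-17251/50000:ℝ)) (by norm_num [SS, BB, abs_le]) (fun _ _ _ _ _ h155 H128 => ?_) H127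
  refine mulK_s he h155 h47 (fun _ _ _ _ _ h156 H129 => ?_) H128
  refine addcK_s he h156 (v' := (20439/50000:ℝ)) (by norm_num [SS, BB, abs_le]) (fun _ _ _ _ _ h157 H130 => ?_) H129
  refine mulK_s he h157 h47 (fun _ _ _ _ _ h158 H131 => ?_) H130
  refine addcK_s he h158 (v' := (3627/25000:ℝ)) (by norm_num [SS, BB, abs_le]) (fun _ _ _ _ _ h159 H132 => ?_) H131
  refine mulK_s he h159 h47 (fun _ _ _ _ _ h160 H133 => ?_) H132
  refine addcK_s he h160 (v' := (1369/12500:ℝ)) (by norm_num [SS, BB, abs_le]) (fun _ _ _ _ _ h161 H134 => ?_) H133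
  refine mulK_s he h161 h47 (fun _ _ _ _ _ h162 H135 => ?_) H134
  refine addcK_s he h162 (v' := (34337/100000:ℝ)) (by norm_num [SS, BB, abs_le]) (fun _ _ _ _ _ h163 H136 => ?_) H135
  refine mulK_s he h163 h47 (fun _ _ _ _ _ h164 H137 => ?_) H136
  refine addcK_s he h164 (v' := (2:ℝ)) (by norm_num [SS, BB, abs_le]) (fun _ _ _ _ _ h165 H138 => ?_) H137
  refine smulK_s he (w := (981/4000:ℝ)) (by norm_num) (by norm_num) (by norm_num) (by norm_num) h47 (fun _ _ _ _ _ h166 H139 => ?_) H138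
  refine addcK_s he h166 (v' := (10549/20000:ℝ)) (by norm_num [SS, BB, abs_le]) (fun _ _ _ _ _ h167 H140 => ?_) H139
  refine mulK_s he h167 h47 (fun _ _ _ _ _ h168 H141 => ?_) H140
  refine addcK_s he h168 (v' := (83549/100000:ℝ)) (by norm_num [SS, BB, abs_le]) (fun _ _ _ _ _ h169 H142 => ?_) H141
  refine mulK_s he h169 h47 (fun _ _ _ _ _ h170 H143 => ?_) H142
  refine addcK_s he h170 (v' := (-13167/50000:ℝ)) (by norm_num [SS, BB, abs_le]) (fun _ _ _ _ _ h171 H144 => ?_) H143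
  refine mulK_s he h171 h47 (fun _ _ _ _ _ h172 H145 => ?_) H144
  refine addcK_s he h172 (v' := (43047/100000:ℝ)) (by norm_num [SS, BB, abs_le]) (fun _ _ _ _ _ h173 H146 => ?_) H145
  refine mulK_s he h173 h47 (fun _ _ _ _ _ h174 H147 => ?_) H146
  refine addcK_s he h174 (v' := (8719/10000:ℝ)) (by norm_num [SS, BB, abs_le]) (fun _ _ _ _ _ h175 H148 => ?_) H147
  refine mulK_s he h175 h47 (fun _ _ _ _ _ h176 H149 => ?_) H148
  refine addcK_s he h176 (v' := (39887/50000:ℝ)) (by norm_num [SS, BB, abs_le]) (fun _ _ _ _ _ h177 H150 => ?_) H149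
  refine mulK_s he h177 h47 (fun _ _ _ _ _ h178 H151 => ?_) H150
  refine mulK_s he h27 h178 (fun _ _ _ _ _ h179 H152 => ?_) H151
  refine addK_s he h165 h179 (fun _ _ _ _ _ h180 H153 => ?_) H152
  have h181 := In_cast (w := (pv ze a e l)) h180 rfl
  refine mulK_s he h53 hx3 (fun _ _ _ _ _ h182 H154 => ?_) H153
  refine mulK_s he h182 h147 (fun _ _ _ _ _ h183 H155 => ?_) H154
  refine addK_s he h181 h183 (fun _ _ _ _ _ h184 H156 => ?_) H155
  refine mulK_s he h151 h184 (fun _ _ _ _ _ h185 H157 => ?_) H156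
  refine subK_s he h148 h185 (fun _ _ _ _ _ h186 H158 => ?_) H157
  refine smulK_s he (w := (6/25:ℝ)) (by norm_num) (by norm_num) (by norm_num) (by norm_num) hx1 (fun _ _ _ _ _ h187 H159 => ?_) H158
  refine mulK_s he h187 h27 (fun _ _ _ _ _ h188 H160 => ?_) H159
  refine smulK_s he (w := (29/50:ℝ)) (by norm_num) (by norm_num) (by norm_num) (by norm_num) h27 (fun _ _ _ _ _ h189 H161 => ?_) H160
  refine mulK_s he h189 h19 (fun _ _ _ _ _ h190 H162 => ?_) H161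
  refine addK_s he h188 h190 (fun _ _ _ _ _ h191 H163 => ?_) H162
  refine smulK_s he (w := (1/2:ℝ)) (by norm_num) (by norm_num) (by norm_num) (by norm_num) h27 (fun _ _ _ _ _ h192 H164 => ?_) H163
  have h193 := In_cast h192 (div_c (c := (2:ℝ)) (by norm_num))
  refine negK_s he h193 (fun _ _ _ _ _ h194 H165 => ?_) H164
  refine addcK_s he h194 (v' := (1:ℝ)) (by norm_num [SS, BB, abs_le]) (fun _ _ _ _ _ h195 H166 => ?_) H165
  have h196 := In_cast h195 (neg_add_eq_sub _ _)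
  refine mulK_s he h196 hx3 (fun _ _ _ _ _ h197 H167 => ?_) H166
  refine mulK_s he h197 h21 (fun _ _ _ _ _ h198 H168 => ?_) H167
  refine addK_s he h191 h198 (fun _ _ _ _ _ h199 H169 => ?_) H168
  refine smulK_s he (w := (11199/200000:ℝ)) (by norm_num) (by norm_num) (by norm_num) (by norm_num) h56 (fun _ _ _ _ _ h200 H170 => ?_) H169
  refine negK_s he h200 (fun _ _ _ _ _ h201 H171 => ?_) H170
  have h202 := In_cast h201 (neg_mul_c (c := (-11199/200000:ℝ)) (by norm_num))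
  refine addcK_s he h84 (v' := (-17783/50000:ℝ)) (by norm_num [SS, BB, abs_le]) (fun _ _ _ _ _ h203 H172 => ?_) H171
  refine mulK_s he h203 h47 (fun _ _ _ _ _ h204 H173 => ?_) H172
  refine addcK_s he h204 (v' := (569/4000:ℝ)) (by norm_num [SS, BB, abs_le]) (fun _ _ _ _ _ h205 H174 => ?_) H173
  refine addK_s he h202 h205 (fun _ _ _ _ _ h206 H175 => ?_) H174
  refine mulK_s he h206 h56 (fun _ _ _ _ _ h207 H176 => ?_) H175
  refine addcK_s he h70 (v' := (-124481/50000:ℝ)) (by norm_num [SS, BB, abs_le]) (fun _ _ _ _ _ h208 H177 => ?_) H176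
  refine mulK_s he h208 h47 (fun _ _ _ _ _ h209 H178 => ?_) H177
  refine addcK_s he h209 (v' := (11949/4000:ℝ)) (by norm_num [SS, BB, abs_le]) (fun _ _ _ _ _ h210 H179 => ?_) H178
  refine mulK_s he h210 h47 (fun _ _ _ _ _ h211 H180 => ?_) H179
  refine addcK_s he h211 (v' := (-13857/40000:ℝ)) (by norm_num [SS, BB, abs_le]) (fun _ _ _ _ _ h212 H181 => ?_) H180
  refine mulK_s he h212 h47 (fun _ _ _ _ _ h213 H182 => ?_) H181
  refine addcK_s he h213 (v' := (-4901/40000:ℝ)) (by norm_num [SS, BB, abs_le]) (fun _ _ _ _ _ h214 H183 => ?_) H182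
  refine addK_s he h207 h214 (fun _ _ _ _ _ h215 H184 => ?_) H183
  refine mulK_s he h215 h56 (fun _ _ _ _ _ h216 H185 => ?_) H184
  refine addcK_s he h60 (v' := (-124481/50000:ℝ)) (by norm_num [SS, BB, abs_le]) (fun _ _ _ _ _ h217 H186 => ?_) H185
  refine mulK_s he h217 h47 (fun _ _ _ _ _ h218 H187 => ?_) H186
  refine addcK_s he h218 (v' := (3983/800:ℝ)) (by norm_num [SS, BB, abs_le]) (fun _ _ _ _ _ h219 H188 => ?_) H187
  refine mulK_s he h219 h47 (fun _ _ _ _ _ h220 H189 => ?_) H188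
  refine addcK_s he h220 (v' := (-4619/4000:ℝ)) (by norm_num [SS, BB, abs_le]) (fun _ _ _ _ _ h221 H190 => ?_) H189
  refine mulK_s he h221 h47 (fun _ _ _ _ _ h222 H191 => ?_) H190
  refine addcK_s he h222 (v' := (-4901/4000:ℝ)) (by norm_num [SS, BB, abs_le]) (fun _ _ _ _ _ h223 H192 => ?_) H191
  refine mulK_s he h223 h47 (fun _ _ _ _ _ h224 H193 => ?_) H192
  refine addcK_s he h224 (v' := (14963/50000:ℝ)) (by norm_num [SS, BB, abs_le]) (fun _ _ _ _ _ h225 H194 => ?_) H193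
  refine mulK_s he h225 h47 (fun _ _ _ _ _ h226 H195 => ?_) H194
  refine addcK_s he h226 (v' := (-19829/400000:ℝ)) (by norm_num [SS, BB, abs_le]) (fun _ _ _ _ _ h227 H196 => ?_) H195
  refine addK_s he h216 h227 (fun _ _ _ _ _ h228 H197 => ?_) H196
  refine mulK_s he h228 h56 (fun _ _ _ _ _ h229 H198 => ?_) H197
  refine addcK_s he h50 (v' := (-17783/50000:ℝ)) (by norm_num [SS, BB, abs_le]) (fun _ _ _ _ _ h230 H199 => ?_) H198
  refine mulK_s he h230 h47 (fun _ _ _ _ _ h231 H200 => ?_) H199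
  refine addcK_s he h231 (v' := (3983/4000:ℝ)) (by norm_num [SS, BB, abs_le]) (fun _ _ _ _ _ h232 H201 => ?_) H200
  refine mulK_s he h232 h47 (fun _ _ _ _ _ h233 H202 => ?_) H201
  refine addcK_s he h233 (v' := (-13857/40000:ℝ)) (by norm_num [SS, BB, abs_le]) (fun _ _ _ _ _ h234 H203 => ?_) H202
  refine mulK_s he h234 h47 (fun _ _ _ _ _ h235 H204 => ?_) H203
  refine addcK_s he h235 (v' := (-4901/8000:ℝ)) (by norm_num [SS, BB, abs_le]) (fun _ _ _ _ _ h236 H205 => ?_) H204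
  refine mulK_s he h236 h47 (fun _ _ _ _ _ h237 H206 => ?_) H205
  refine addcK_s he h237 (v' := (14963/50000:ℝ)) (by norm_num [SS, BB, abs_le]) (fun _ _ _ _ _ h238 H207 => ?_) H206
  refine mulK_s he h238 h47 (fun _ _ _ _ _ h239 H208 => ?_) H207
  refine addcK_s he h239 (v' := (-59487/400000:ℝ)) (by norm_num [SS, BB, abs_le]) (fun _ _ _ _ _ h240 H209 => ?_) H208
  refine mulK_s he h240 h47 (fun _ _ _ _ _ h241 H210 => ?_) H209
  refine addcK_s he h241 (v' := (-23631/25000:ℝ)) (by norm_num [SS, BB, abs_le]) (fun _ _ _ _ _ h242 H211 => ?_) H210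
  refine mulK_s he h242 h47 (fun _ _ _ _ _ h243 H212 => ?_) H211
  refine addcK_s he h243 (v' := (34337/400000:ℝ)) (by norm_num [SS, BB, abs_le]) (fun _ _ _ _ _ h244 H213 => ?_) H212
  refine addK_s he h229 h244 (fun _ _ _ _ _ h245 H214 => ?_) H213
  refine smulK_s he (w := (981/16000:ℝ)) (by norm_num) (by norm_num) (by norm_num) (by norm_num) h56 (fun _ _ _ _ _ h246 H215 => ?_) H214
  refine negK_s he h246 (fun _ _ _ _ _ h247 H216 => ?_) H215
  have h248 := In_cast h247 (neg_mul_c (c := (-981/16000:ℝ)) (by norm_num))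
  refine addcK_s he h130 (v' := (-10549/10000:ℝ)) (by norm_num [SS, BB, abs_le]) (fun _ _ _ _ _ h249 H217 => ?_) H216
  refine mulK_s he h249 h47 (fun _ _ _ _ _ h250 H218 => ?_) H217
  refine addcK_s he h250 (v' := (-3689/25000:ℝ)) (by norm_num [SS, BB, abs_le]) (fun _ _ _ _ _ h251 H219 => ?_) H218
  refine addK_s he h248 h251 (fun _ _ _ _ _ h252 H220 => ?_) H219
  refine mulK_s he h252 h56 (fun _ _ _ _ _ h253 H221 => ?_) H220
  refine addcK_s he h116 (v' := (-73843/10000:ℝ)) (by norm_num [SS, BB, abs_le]) (fun _ _ _ _ _ h254 H222 => ?_) H221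
  refine mulK_s he h254 h47 (fun _ _ _ _ _ h255 H223 => ?_) H222
  refine addcK_s he h255 (v' := (-77469/25000:ℝ)) (by norm_num [SS, BB, abs_le]) (fun _ _ _ _ _ h256 H224 => ?_) H223
  refine mulK_s he h256 h47 (fun _ _ _ _ _ h257 H225 => ?_) H224
  refine addcK_s he h257 (v' := (237237/200000:ℝ)) (by norm_num [SS, BB, abs_le]) (fun _ _ _ _ _ h258 H226 => ?_) H225
  refine mulK_s he h258 h47 (fun _ _ _ _ _ h259 H227 => ?_) H226
  refine addcK_s he h259 (v' := (20251/200000:ℝ)) (by norm_num [SS, BB, abs_le]) (fun _ _ _ _ _ h260 H228 => ?_) H227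
  refine addK_s he h253 h260 (fun _ _ _ _ _ h261 H229 => ?_) H228
  refine mulK_s he h261 h56 (fun _ _ _ _ _ h262 H230 => ?_) H229
  refine addcK_s he h106 (v' := (-73843/10000:ℝ)) (by norm_num [SS, BB, abs_le]) (fun _ _ _ _ _ h263 H231 => ?_) H230
  refine mulK_s he h263 h47 (fun _ _ _ _ _ h264 H232 => ?_) H231
  refine addcK_s he h264 (v' := (-25823/5000:ℝ)) (by norm_num [SS, BB, abs_le]) (fun _ _ _ _ _ h265 H233 => ?_) H232
  refine mulK_s he h265 h47 (fun _ _ _ _ _ h266 H234 => ?_) H233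
  refine addcK_s he h266 (v' := (79079/20000:ℝ)) (by norm_num [SS, BB, abs_le]) (fun _ _ _ _ _ h267 H235 => ?_) H234
  refine mulK_s he h267 h47 (fun _ _ _ _ _ h268 H236 => ?_) H235
  refine addcK_s he h268 (v' := (20251/20000:ℝ)) (by norm_num [SS, BB, abs_le]) (fun _ _ _ _ _ h269 H237 => ?_) H236
  refine mulK_s he h269 h47 (fun _ _ _ _ _ h270 H238 => ?_) H237
  refine addcK_s he h270 (v' := (-28381/25000:ℝ)) (by norm_num [SS, BB, abs_le]) (fun _ _ _ _ _ h271 H239 => ?_) H238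
  refine mulK_s he h271 h47 (fun _ _ _ _ _ h272 H240 => ?_) H239
  refine addcK_s he h272 (v' := (-36727/400000:ℝ)) (by norm_num [SS, BB, abs_le]) (fun _ _ _ _ _ h273 H241 => ?_) H240
  refine addK_s he h262 h273 (fun _ _ _ _ _ h274 H242 => ?_) H241
  refine mulK_s he h274 h56 (fun _ _ _ _ _ h275 H243 => ?_) H242
  refine addcK_s he h101 (v' := (-10549/10000:ℝ)) (by norm_num [SS, BB, abs_le]) (fun _ _ _ _ _ h276 H244 => ?_) H243
  refine mulK_s he h276 h47 (fun _ _ _ _ _ h277 H245 => ?_) H244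
  refine addcK_s he h277 (v' := (-25823/25000:ℝ)) (by norm_num [SS, BB, abs_le]) (fun _ _ _ _ _ h278 H246 => ?_) H245
  refine mulK_s he h278 h47 (fun _ _ _ _ _ h279 H247 => ?_) H246
  refine addcK_s he h279 (v' := (237237/200000:ℝ)) (by norm_num [SS, BB, abs_le]) (fun _ _ _ _ _ h280 H248 => ?_) H247
  refine mulK_s he h280 h47 (fun _ _ _ _ _ h281 H249 => ?_) H248
  refine addcK_s he h281 (v' := (20251/40000:ℝ)) (by norm_num [SS, BB, abs_le]) (fun _ _ _ _ _ h282 H250 => ?_) H249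
  refine mulK_s he h282 h47 (fun _ _ _ _ _ h283 H251 => ?_) H250
  refine addcK_s he h283 (v' := (-28381/25000:ℝ)) (by norm_num [SS, BB, abs_le]) (fun _ _ _ _ _ h284 H252 => ?_) H251
  refine mulK_s he h284 h47 (fun _ _ _ _ _ h285 H253 => ?_) H252
  refine addcK_s he h285 (v' := (-110181/400000:ℝ)) (by norm_num [SS, BB, abs_le]) (fun _ _ _ _ _ h286 H254 => ?_) H253
  refine mulK_s he h286 h47 (fun _ _ _ _ _ h287 H255 => ?_) H254
  refine addcK_s he h287 (v' := (8719/20000:ℝ)) (by norm_num [SS, BB, abs_le]) (fun _ _ _ _ _ h288 H256 => ?_) H255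
  refine mulK_s he h288 h47 (fun _ _ _ _ _ h289 H257 => ?_) H256
  refine addcK_s he h289 (v' := (39887/200000:ℝ)) (by norm_num [SS, BB, abs_le]) (fun _ _ _ _ _ h290 H258 => ?_) H257
  refine addK_s he h275 h290 (fun _ _ _ _ _ h291 H259 => ?_) H258
  refine mulK_s he h27 h291 (fun _ _ _ _ _ h292 H260 => ?_) H259
  refine addK_s he h245 h292 (fun _ _ _ _ _ h293 H261 => ?_) H260
  have h294 := In_cast (w := (Ov ze a e l)) h293 rfl
  refine mulK_s he h199 h294 (fun _ _ _ _ _ h295 H262 => ?_) H261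
  refine subK_s he h186 h295 (fun _ _ _ _ _ h296 H263 => ?_) H262
  refine smulK_s he (w := (3/500:ℝ)) (by norm_num) (by norm_num) (by norm_num) (by norm_num) h27 (fun _ _ _ _ _ h297 H264 => ?_) H263
  refine negK_s he h297 (fun _ _ _ _ _ h298 H265 => ?_) H264
  refine addcK_s he h298 (v' := (499/500:ℝ)) (by norm_num [SS, BB, abs_le]) (fun _ _ _ _ _ h299 H266 => ?_) H265
  have h300 := In_cast h299 (neg_add_eq_sub _ _)
  refine mulK_s he h300 h19 (fun _ _ _ _ _ h301 H267 => ?_) H266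
  refine addK_s he h296 h301 (fun _ _ _ _ _ h302 H268 => ?_) H267
  exact ⟨p0, p1, pos_s he h302 H268⟩

attribute [irreducible] alt0

noncomputable def leaf (j u z1 w1 z2 w2 z3 w3 : ℕ) : Bool :=
  fB (Nat.add (Nat.land (Nat.shiftRight u 0) 65535) 1) fun n1 =>
  fB (Nat.add (Nat.mul n1 16777216) 1152921504606846977) fun p1 =>
  alt0 p1 z1 w1 z2 w2 z3 w3

theorem snd : Snd Q leaf := by
  intro j u z1 w1 z2 w2 z3 w3 e1 e2 e3 he H
  unfold leaf at H
  unfold Q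
  replace H := frc H
  obtain ⟨n1, hn1, H⟩ := H
  replace H := frc H
  obtain ⟨p1, hp1, H⟩ := H
  obtain ⟨hp1, ha, hb⟩ := par (e1 := e1) (e2 := e2) (e3 := e3) hn1 hp1
  refine ⟨_, ha, hb, ?_⟩
  exact alt0_s he hp1 (var1 z1 w1) (var2 z2 w2) (var3 z3 w3) H

end Crest.Agent.R307.HK2
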