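import Crest.Agent.R307.HK2
set_option autoImplicit false
set_option maxRecDepth 100000
namespace Crest.Agent.R307.HK2
open Crest.Agent.R307.IA Crest.Agent.R307.IA3

theorem k0 : Cov Q 1152921504606846976 1152921779484754037 1152921504606846976 1152921538966587569 1152921504606846976 1152922868001265419 :=
  cov_of snd 16 65535 3 _ _ _ _ _ _ 0x3a4c33a4c30371831 (by decide +kernel)

theorem k1 : Cov Q 1152921779484754037 1152922054362660864 1152921504606846976 1152921538966587569 1152921504606846976 1152922186304056694 :=
  cov_of snd 16 65535 2 _ _ _ _ _ _ 0x4d9534d9530 (by decide +kernel)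

theorem k2 : Cov Q 1152921779484754037 1152921916923707585 1152921504606846976 1152921538966587569 1152922186304056694 1152922868001265419 :=
  cov_of snd 16 65535 2 _ _ _ _ _ _ 0x43543435430 (by decide +kernel)

theorem k3 : Cov Q 1152921916923707585 1152921985643184368 1152921504606846976 1152921538966587569 1152922186304056694 1152922868001265419 :=
  cov_of snd 16 65535 2 _ _ _ _ _ _ 0x45d2345d231 (by decide +kernel)

end Crest.Agent.R307.HK2
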