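import Crest.Agent.R307.HK2
set_option autoImplicit false
set_option maxRecDepth 100000
namespace Crest.Agent.R307.HK2
open Crest.Agent.R307.IA Crest.Agent.R307.IA3

theorem k4 : Cov Q 1152921985643184368 1152922020002924811 1152921504606846976 1152921538966587569 1152922186304056694 1152922868001265419 :=
  cov_of snd 16 65535 3 _ _ _ _ _ _ 0x67d2367d23147aa347aa300 (by decide +kernel)

theorem k5 : Cov Q 1152922020002924811 1152922024297896940 1152921504606846976 1152921538966587569 1152922186304056694 1152922868001265419 :=
  cov_of snd 16 65535 13 _ _ _ _ _ _ 0x68763687631687636876316876368763168763687631687636876310687436874310000687436874310687236872310687036870310686c3686c310686636866310485a3485a310 (by decide +kernel)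

theorem k6 : Cov Q 1152922024297896940 1152922026445383389 1152921504606846976 1152921538966587569 1152922186304056694 1152922868001265419 :=
  cov_of snd 16 65535 18 _ _ _ _ _ _ 0x689a3689a31689a3689a31689a3689a31006898368983106898368983168983689831006896368963168963689631689636896316896368963100006894368943168943689431689436894316894368943168943689431689436894316894368943168943689431689436894316894368943168943689431068923689231689236892310000689236892310000000068923689231689236892316892368923168923689231689236892310068903689031000006890368903168903689031689036890316890368903100688e3688e3100688e3688e31688e3688e310688c3688c3100688c3688c31688c3688c31688c3688c3100688a3688a310688a3688a31688a3688a31688a3688a31688a3688a31688a3688a31688a3688a31688a3688a310688a3688a31688a3688a31688a3688a31688836888310068883688831688836888310688836888316888368883100006888368883100000006888368883100006888368883168883688831688836888316888368883100688636886310068863688631068863688631688636886316886368863100688436884310688436884316884368843100068823688231688236882316882368823168823688231000688036880316880368803168803688031688036880316880368803168803688031688036880310687e3687e3100000000687e3687e31687e3687e31687e3687e31687e3687e31687e3687e31687e3687e31000687c3687c31000687c3687c31687c3687c31687c3687c31687c3687c3100687a3687a31000687a3687a31687a3687a310687836878310687836878316878368783168783687831006876368763100000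 (by decide +kernel)

theorem k7 : Cov Q 1152922026445383389 1152922027519126805 1152921504606846976 1152921538966587569 1152922186304056694 1152922868001265419 :=
  cov_of snd 16 65535 17 _ _ _ _ _ _ 0x68aa368aa3168aa368aa3168aa368aa3168aa368aa3100068a8368a83168a8368a83168a8368a83168a8368a83168a8368a83168a8368a831068a8368a83168a8368a83168a8368a83168a8368a83168a8368a83100068a6368a63168a6368a631068a6368a63168a6368a6310068a6368a63168a6368a631068a6368a63168a6368a63100068a6368a63168a6368a631068a6368a63168a6368a6310068a6368a63168a6368a631068a6368a6310000068a6368a631000000068a6368a63168a6368a63168a6368a63168a6368a63168a6368a63168a6368a63100068a4368a43100068a4368a43168a4368a43168a4368a43168a4368a4310068a2368a231000068a2368a23168a2368a231068a0368a031068a0368a03168a0368a03168a0368a03100689e3689e3100689e3689e31689e3689e31689e3689e31689e3689e31689e3689e31689e3689e31689e3689e31689e3689e310689e3689e31689c3689c31689c3689c3100689c3689c31689c3689c310689c3689c31689c3689c3100000689c3689c31000000689c3689c310689c3689c31689c3689c31689c3689c31689c3689c3100689a3689a3100689a3689a310000 (by decide +kernel)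

end Crest.Agent.R307.HK2
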