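import Crest.Agent.R307.HK2
set_option autoImplicit false
set_option maxRecDepth 100000
namespace Crest.Agent.R307.HK2
open Crest.Agent.R307.IA Crest.Agent.R307.IA3

theorem k56 : Cov Q 1152921504606846976 1152922054362660864 1152921538966587569 1152921573326323899 1152921504606846976 1152922868001265419 :=
  cov_of snd 16 65535 6 _ _ _ _ _ _ 0x533c34b3c30528034a80301493634936310557f3557f302469634696303e6c320 (by decide +kernel)

theorem k57 : Cov Q 1152921504606846976 1152922054362660864 1152921573326323899 1152921642045800643 1152921504606846976 1152922868001265419 :=
  cov_of snd 16 65535 7 _ _ _ _ _ _ 0x5050351b8351b83016b9a3246ee3051b6351b6304fc834fc8301523a324da834da83001534e3585a3585a3012 (by decide +kernel)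

theorem k58 : Cov Q 1152921504606846976 1152922054362660864 1152921642045800643 1152921779484754113 1152921504606846976 1152922868001265419 :=
  cov_of snd 16 65535 7 _ _ _ _ _ _ 0x5932357c0357c030153aa328a1b3254e0355fa355fa3014fd032542035420314fce324be8301605c321 (by decide +kernel)

theorem k59 : Cov Q 1152921504606846976 1152922054362660864 1152921779484754113 1152922054362661017 1152921504606846976 1152922868001265419 :=
  cov_of snd 16 65535 10 _ _ _ _ _ _ 0x6ff036ff0306e623172b4372b4302731a3731a31783c3783c3078e432741637416301077723788637886300758837588301206d523701837018300652a3652a3016dbe36dbe30726c3726c300217662379943799430788831079ac37af837af83102748237482306efa3212638e3638e315f16326384363843006775325ff635ff6305dca31586a324ea83211 (by decide +kernel)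

end Crest.Agent.R307.HK2
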