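import Crest.Agent.R307.HK2C0
import Crest.Agent.R307.HK2C1
import Crest.Agent.R307.HK2C2
import Crest.Agent.R307.HK2C3
import Crest.Agent.R307.HK2C4
import Crest.Agent.R307.HK2C5
import Crest.Agent.R307.HK2C6
import Crest.Agent.R307.HK2C7
import Crest.Agent.R307.HK2C8
import Crest.Agent.R307.HK2C9
import Crest.Agent.R307.HK2C10
import Crest.Agent.R307.HK2C11
import Crest.Agent.R307.HK2C12
import Crest.Agent.R307.HK2C13
import Crest.Agent.R307.HK2C14
import Crest.Agent.R307.HK2C15
set_option autoImplicit false
set_option maxRecDepth 100000
namespace Crest.Agent.R307.HK2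
open Crest.Agent.R307.IA Crest.Agent.R307.IA3

theorem cov : Cov Q 1152921504606846976 1152922054362660864 1152921504606846976 1152922604118474752 1152921504606846976 1152922868001265419 :=
  (join2 1152922054362661017 (join2 1152921779484754113 (join2 1152921642045800643 (join2 1152921573326323899 (join2 1152921538966587569 (join1 1152921779484754037 k0 (join3 1152922186304056694 k1 (join1 1152921916923707585 k2 (join1 1152921985643184368 k3 (join1 1152922020002924811 k4 (join1 1152922037182794011 (join1 1152922028592863142 (join1 1152922024297896940 k5 (join1 1152922026445383389 k6 (join1 1152922027519126805 k7 k8))) (join1 1152922032887828983 (join1 1152922030740346085 k9 (join1 1152922031814087749 k10 (join1 1152922032350958677 k11 k12))) (join1 1152922035035312287 (join1 1152922033961571234 k13 k14) (join1 1152922036109054131 k15 k16)))) (join1 1152922045772730147 (join1 1152922041477764021 (join1 1152922039330280574 (join1 1152922038256538658 (join1 1152922037719667604 k17 k18) (join1 1152922038793411079 k19 k20)) (join1 1152922040404024048 (join1 1152922039867153966 k21 (join1 1152922040135590710 k22 k23)) (join1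 1152922040940895881 (join1 1152922040672461763 k24 k25) k26))) (join1 1152922043625249411 (join1 1152922042551508851 (join1 1152922042014638475 k27 (join1 1152922042283075751 k28 k29)) k30) (join1 1152922044698992298 (join1 1152922044162123277 (join1 1152922043893688720 k31 k32) k33) (join1 1152922045235863837 k34 k35)))) (join1 1152922050067698983 (join1 1152922047920217660 (join1 1152922046846476806 k36 (join1 1152922047383350233 k37 k38)) (join1 1152922048993961608 (join1 1152922048457092826 k39 k40) (join1 1152922049530833678 k41 k42))) (join1 1152922052215183785 (join1 1152922051141445055 (join1 1152922050604575594 k43 (join1 1152922050873013948 k44 k45)) (join1 1152922051678318187 k46 (join1 1152922051946754802 k47 k48))) (join1 1152922053288926378 (join1 1152922052752059040 (join1 1152922052483625324 (join1 1152922052349408442 k49 k50) k51) k52) (join1 1152922053825793678 (join1 1152922053557360038 k53 k54) k55))))))))))) k56) k57) k58) k59) (join2 1152922329240568073 k60 (join2 1152922466679521619 k61 k62)))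

theorem main (ze a e : ℝ) (l0 : (0:ℝ) ≤ ze) (u0 : ze ≤ (1/2:ℝ)) (l1 : (0:ℝ) ≤ a) (u1 : a ≤ (1:ℝ)) (l2 : (0:ℝ) ≤ e) (u2 : e ≤ (31/25:ℝ)) : Q ze a e :=
  cov ze a e (le_trans (by norm_num [val, SS, BB]) l0) (le_trans u0 (by norm_num [val, SS, BB])) (le_trans (by norm_num [val, SS, BB]) l1) (le_trans u1 (by norm_num [val, SS, BB])) (le_trans (by norm_num [val, SS, BB]) l2) (le_trans u2 (by norm_num [val, SS, BB]))

end Crest.Agent.R307.HK2
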