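import Crest.Agent.R307.HK3C0
set_option autoImplicit false
set_option maxRecDepth 100000
namespace Crest.Agent.R307.HK3
open Crest.Agent.R307.IA Crest.Agent.R307.IA3

theorem cov : Cov Q 1152921504606846976 1152922186304056198 1152921504606846976 1152922604118474752 1152922868001265418 1152924143434753639 :=
  (join2 1152922054362661017 k0 (join2 1152922329240568073 k1 (join2 1152922466679521619 k2 k3)))

theorem main (s a e : ℝ) (l0 : (0:ℝ) ≤ s) (u0 : s ≤ (31/50:ℝ)) (l1 : (0:ℝ) ≤ a) (u1 : a ≤ (1:ℝ)) (l2 : (31/25:ℝ) ≤ e) (u2 : e ≤ (12/5:ℝ)) : Q s a e :=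
  cov s a e (le_trans (by norm_num [val, SS, BB]) l0) (le_trans u0 (by norm_num [val, SS, BB])) (le_trans (by norm_num [val, SS, BB]) l1) (le_trans u1 (by norm_num [val, SS, BB])) (le_trans (by norm_num [val, SS, BB]) l2) (le_trans u2 (by norm_num [val, SS, BB]))

end Crest.Agent.R307.HK3
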