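import Crest.Agent.R307.IA2
import Crest.Agent.R307.IAx
set_option autoImplicit false
set_option linter.unusedVariables false
set_option maxRecDepth 20000
namespace Crest.Agent.R307.HK4
open Crest.Agent.R307.IA Crest.Agent.R307.IA2

theorem In_cast {e1 e2 : ℝ} {x y1 y2 r : ℕ} {v w : ℝ}
    (h : In e1 e2 x y1 y2 r v) (e : v = w) : In e1 e2 x y1 y2 r w := e ▸ h

noncomputable def M (s m : ℝ) : ℝ := (m * m)

def Q (s m : ℝ) : Prop :=
  (
  (0 < ((s * ((((((((-17783/200000:ℝ) * (M s m)) + (-4619/40000:ℝ)) * (M s m)) + (14963/100000:ℝ)) * (M s m)) + (-23631/25000:ℝ)) + (s * (((((((-10549/40000:ℝ) * (M s m)) + (79079/200000:ℝ)) * (M s m)) + (-28381/50000:ℝ)) * (M s m)) + (8719/20000:ℝ))))) + ((1:ℝ) / ((1:ℝ) + (√((1:ℝ) - (M s m))))))))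

noncomputable def alt0 (z1 w1 z2 w2 : ℕ) : Bool :=
  sqK z2 1152921504606846976 (Nat.add w2 1152921504606846976) 0 fun c1 a1_1 a1_2 q1 =>
  smulK 17783 200000 230584300921369395400000 20502403116423559774208 c1 a1_1 a1_2 q1 fun c4 a4_1 a4_2 q4 =>
  negK c4 a4_1 a4_2 q4 fun c5 a5_1 a5_2 q5 =>
  addcK c5 a5_1 a5_2 q5 1152921377640741759 1 fun c7 a7_1 a7_2 q7 =>
  mulK c7 a7_1 a7_2 q7 c1 a1_1 a1_2 q1 fun c8 a8_1 a8_2 q8 =>
  addcK c8 a8_1 a8_2 q8 1152921669126771840 1 fun c9 a9_1 a9_2 q9 =>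
  mulK c9 a9_1 a9_2 q9 c1 a1_1 a1_2 q1 fun c10 a10_1 a10_2 q10 =>
  addcK c10 a10_1 a10_2 q10 1152920465304475937 1 fun c11 a11_1 a11_2 q11 =>
  smulK 10549 40000 46116860184273879080000 12162168952097628749824 c1 a1_1 a1_2 q1 fun c12 a12_1 a12_2 q12 =>
  negK c12 a12_1 a12_2 q12 fun c13 a13_1 a13_2 q13 =>
  addcK c13 a13_1 a13_2 q13 1152921939348247040 1 fun c15 a15_1 a15_2 q15 =>
  mulK c15 a15_1 a15_2 q15 c1 a1_1 a1_2 q1 fun c16 a16_1 a16_2 q16 =>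
  addcK c16 a16_1 a16_2 q16 1152920880502056818 1 fun c17 a17_1 a17_2 q17 =>
  mulK c17 a17_1 a17_2 q17 c1 a1_1 a1_2 q1 fun c18 a18_1 a18_2 q18 =>
  addcK c18 a18_1 a18_2 q18 1152921983938941105 1 fun c19 a19_1 a19_2 q19 =>
  mulK z1 (Nat.add w1 1152921504606846976) 1152921504606846976 0 c19 a19_1 a19_2 q19 fun c20 a20_1 a20_2 q20 =>
  addK c11 a11_1 a11_2 q11 c20 a20_1 a20_2 q20 fun c21 a21_1 a21_2 q21 =>
  mulK z1 (Nat.add w1 1152921504606846976) 1152921504606846976 0 c21 a21_1 a21_2 q21 fun c22 a22_1 a22_2 q22 =>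
  negK c1 a1_1 a1_2 q1 fun c23 a23_1 a23_2 q23 =>
  addcK c23 a23_1 a23_2 q23 1152922604118474752 0 fun c24 a24_1 a24_2 q24 =>
  sqrtK c24 a24_1 a24_2 q24 fun c26 a26_1 a26_2 q26 =>
  addcK c26 a26_1 a26_2 q26 1152922604118474752 0 fun c27 a27_1 a27_2 q27 =>
  invK c27 a27_1 a27_2 q27 fun c29 a29_1 a29_2 q29 =>
  addK c22 a22_1 a22_2 q22 c29 a29_1 a29_2 q29 fun c31 a31_1 a31_2 q31 =>
  pos c31 a31_1 a31_2 q31

theorem alt0_s {z1 w1 z2 w2 : ℕ} {e1 e2 s m : ℝ} (he : Ev e1 e2)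
    (hx1 : In e1 e2 z1 (Nat.add w1 1152921504606846976) 1152921504606846976 0 s)
    (hx2 : In e1 e2 z2 1152921504606846976 (Nat.add w2 1152921504606846976) 0 m)
    (H0 : alt0 z1 w1 z2 w2 = true) : 0 < ((s * ((((((((-17783/200000:ℝ) * (M s m)) + (-4619/40000:ℝ)) * (M s m)) + (14963/100000:ℝ)) * (M s m)) + (-23631/25000:ℝ)) + (s * (((((((-10549/40000:ℝ) * (M s m)) + (79079/200000:ℝ)) * (M s m)) + (-28381/50000:ℝ)) * (M s m)) + (8719/20000:ℝ))))) + ((1:ℝ) / ((1:ℝ) + (√((1:ℝ) - (M s m)))))) := by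
  unfold alt0 at H0
  refine sqK_s he hx2 (fun _ _ _ _ h1 H1 => ?_) H0
  have h2 := In_cast h1 (sq _)
  have h3 := In_cast (w := (M s m)) h2 rfl
  refine smulK_s he (w := (17783/200000:ℝ)) (by norm_num) (by norm_num) (by norm_num) (by norm_num) h3 (fun _ _ _ _ h4 H2 => ?_) H1
  refine negK_s he h4 (fun _ _ _ _ h5 H3 => ?_) H2
  have h6 := In_cast h5 (neg_mul_c (c := (-17783/200000:ℝ)) (by norm_num))
  refine addcK_s he h6 (v' := (-4619/40000:ℝ)) (by norm_num [SS, BB, abs_le]) (fun _ _ _ _ h7 H4 => ?_) H3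
  refine mulK_s he h7 h3 (fun _ _ _ _ h8 H5 => ?_) H4
  refine addcK_s he h8 (v' := (14963/100000:ℝ)) (by norm_num [SS, BB, abs_le]) (fun _ _ _ _ h9 H6 => ?_) H5
  refine mulK_s he h9 h3 (fun _ _ _ _ h10 H7 => ?_) H6
  refine addcK_s he h10 (v' := (-23631/25000:ℝ)) (by norm_num [SS, BB, abs_le]) (fun _ _ _ _ h11 H8 => ?_) H7
  refine smulK_s he (w := (10549/40000:ℝ)) (by norm_num) (by norm_num) (by norm_num) (by norm_num) h3 (fun _ _ _ _ h12 H9 => ?_) H8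
  refine negK_s he h12 (fun _ _ _ _ h13 H10 => ?_) H9
  have h14 := In_cast h13 (neg_mul_c (c := (-10549/40000:ℝ)) (by norm_num))
  refine addcK_s he h14 (v' := (79079/200000:ℝ)) (by norm_num [SS, BB, abs_le]) (fun _ _ _ _ h15 H11 => ?_) H10
  refine mulK_s he h15 h3 (fun _ _ _ _ h16 H12 => ?_) H11
  refine addcK_s he h16 (v' := (-28381/50000:ℝ)) (by norm_num [SS, BB, abs_le]) (fun _ _ _ _ h17 H13 => ?_) H12
  refine mulK_s he h17 h3 (fun _ _ _ _ h18 H14 => ?_) H13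
  refine addcK_s he h18 (v' := (8719/20000:ℝ)) (by norm_num [SS, BB, abs_le]) (fun _ _ _ _ h19 H15 => ?_) H14
  refine mulK_s he hx1 h19 (fun _ _ _ _ h20 H16 => ?_) H15
  refine addK_s he h11 h20 (fun _ _ _ _ h21 H17 => ?_) H16
  refine mulK_s he hx1 h21 (fun _ _ _ _ h22 H18 => ?_) H17
  refine negK_s he h3 (fun _ _ _ _ h23 H19 => ?_) H18
  refine addcK_s he h23 (v' := (1:ℝ)) (by norm_num [SS, BB, abs_le]) (fun _ _ _ _ h24 H20 => ?_) H19
  have h25 := In_cast h24 (neg_add_eq_sub _ _)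
  refine sqrtK_s he h25 (fun _ _ _ _ h26 H21 => ?_) H20
  refine addcK_s he h26 (v' := (1:ℝ)) (by norm_num [SS, BB, abs_le]) (fun _ _ _ _ h27 H22 => ?_) H21
  have h28 := In_cast h27 (add_comm _ _)
  refine invK_s he h28 (fun _ _ _ _ h29 H23 => ?_) H22
  have h30 := In_cast h29 (inv_eq_one_div _)
  refine addK_s he h22 h30 (fun _ _ _ _ h31 H24 => ?_) H23
  exact pos_s he h31 H24

attribute [irreducible] alt0

noncomputable def leaf (j u z1 w1 z2 w2 : ℕ) : Bool :=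
  alt0 z1 w1 z2 w2

theorem snd : Snd Q leaf := by
  intro j u z1 w1 z2 w2 e1 e2 he H
  unfold leaf at H
  unfold Q
  exact alt0_s he (var1 z1 w1) (var2 z2 w2) H

end Crest.Agent.R307.HK4
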