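import Crest.Agent.R307.HK5
set_option autoImplicit false
set_option maxRecDepth 100000
namespace Crest.Agent.R307.HK5
open Crest.Agent.R307.IA Crest.Agent.R307.IA3

theorem k0 : Cov Q 1152921504606846976 1152922186304056198 1152921779484753920 1152921779484753920 1152924436637854378 1152924436637854379 :=
  cov_of snd 16 65535 1 _ _ _ _ _ _ 0x48003 (by decide +kernel)

end Crest.Agent.R307.HK5
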