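import Crest.Agent.R307.HP
import Crest.Agent.R307.UMaM

/-!
# R307/UM: `Uex - Mf` is concave
-/

set_option autoImplicit false

namespace Crest.Agent.R307

open Set

noncomputable def Mf (p : ℝ) : ℝ :=
  2 * √(1 - p) - 4958 / 10000 * √(1 - p) ^ 3 + 2782 / 10000 * (1 - p) ^ 2 - 657 / 10000 * (1 - p) ^ 3
    + 384 / 10000 * (1 - p) ^ 4 - √p ^ 3 / 2

theorem um_key {r t : ℝ} (hr : 0 ≤ r) (ht : 0 ≤ t) (e : t ^ 2 + r ^ 2 = 1) :
    2 + 4 * r + 6 * r ^ 2 + 3 * r ^ 3 ≤
      (4 + 3 * r - 8 * (1 + r) ^ 2 * (37185 / 100000 - 5564 / 10000 * r + 3942 / 10000 * r ^ 3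
        - 4608 / 10000 * r ^ 5)) * (1 + t) := by
  have h1 : 0 < 1 + t := by linarith
  have r1 : r ≤ 1 := by nlinarith
  have hu0 : 0 ≤ r / (1 + t) := by positivity
  have hu1 : r / (1 + t) ≤ 1 := by rw [div_le_one h1]; linarith
  have k := UMa.main (r / (1 + t)) hu0 hu1
  have d : 1 + (r / (1 + t)) ^ 2 = 2 / (1 + t) := by
    field_simp
    linear_combination e
  have er : UMa.r (r / (1 + t)) = r := by
    unfold UMa.r
    rw [d]
    field_simp
  have et : UMa.t (r / (1 + t)) = t := by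
    unfold UMa.t
    rw [d]
    field_simp
    linear_combination (-1 : ℝ) * e
  unfold UMa.Q at k
  rw [er, et] at k
  linarith

theorem um_conc : ConcaveOn ℝ (Icc 0 1) (fun p => Uex p - Mf p) := by
  have da : ∀ p : ℝ, 0 < p → HasDerivAt (fun p => √p) (1 / (2 * √p)) p := fun p hp => Real.hasDerivAt_sqrt hp.ne'
  have db : ∀ p : ℝ, p < 1 → HasDerivAt (fun p => √(1 - p)) (-1 / (2 * √(1 - p))) p := fun p hp => by
    have := ((hasDerivAt_id p).const_sub 1).sqrt (by simp; linarith)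
    simpa using this
  have dq : ∀ p : ℝ, HasDerivAt (fun p : ℝ => 1 - p) (-1) p := fun p => (hasDerivAt_id' p).const_sub 1
  refine concaveOn_of_hasDerivWithinAt2_nonpos (convex_Icc 0 1)
    (f' := fun p => √(1 - p) / (2 * √p) - √p / (2 * √(1 - p)) - 1 / (2 * √(1 - p)) - 1 / (2 * √p) + 2
      + 2 / (2 * √(1 - p)) - 7437 / 10000 * √(1 - p) + 5564 / 10000 * (1 - p) - 1971 / 10000 * (1 - p) ^ 2
      + 1536 / 10000 * (1 - p) ^ 3 + 3 / 4 * √p)
    (f'' := fun p => -(1 / (4 * √p ^ 3 * √(1 - p))) - 1 / (4 * √p * √(1 - p) ^ 3) - 1 / (4 * √(1 - p) ^ 3) +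
      1 / (4 * √p ^ 3) + 1 / (2 * √(1 - p) ^ 3) + 37185 / 100000 / √(1 - p) - 5564 / 10000
      + 3942 / 10000 * (1 - p) - 4608 / 10000 * (1 - p) ^ 2 + 3 / (8 * √p))
    (by unfold Uex Mf; fun_prop) ?_ ?_ ?_
  · intro p hp
    rw [interior_Icc] at hp
    have a0 := Real.sqrt_pos.2 hp.1
    have b0 := Real.sqrt_pos.2 (sub_pos.2 hp.2)
    have h1 := (((((da p hp.1).fun_mul (db p hp.2)).fun_add (db p hp.2)).fun_sub (da p hp.1)).fun_add
      ((hasDerivAt_id' p).const_mul 2)).sub_const 1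
    have h2 := ((((((db p hp.2).const_mul 2).fun_sub (((db p hp.2).fun_pow 3).const_mul (4958 / 10000))).fun_add
      (((dq p).fun_pow 2).const_mul (2782 / 10000))).fun_sub (((dq p).fun_pow 3).const_mul (657 / 10000))).fun_add
      (((dq p).fun_pow 4).const_mul (384 / 10000))).fun_sub (((da p hp.1).fun_pow 3).div_const 2)
    refine ((h1.fun_sub h2).congr_deriv ?_).hasDerivWithinAt
    norm_num
    field_simp
    ring
  · intro p hp
    rw [interior_Icc] at hp
    have a0 := Real.sqrt_pos.2 hp.1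
    have b0 := Real.sqrt_pos.2 (sub_pos.2 hp.2)
    have a2 := Real.sq_sqrt hp.1.le
    have b2 := Real.sq_sqrt (sub_pos.2 hp.2).le
    have A := (da p hp.1).const_mul 2
    have B := (db p hp.2).const_mul 2
    have h1 := (((((db p hp.2).fun_div A (by positivity)).fun_sub ((da p hp.1).fun_div B (by positivity))).fun_sub
      ((hasDerivAt_const p (1:ℝ)).fun_div B (by positivity))).fun_sub
      ((hasDerivAt_const p (1:ℝ)).fun_div A (by positivity))).add_const 2
    have h2 := (((((h1.fun_add ((hasDerivAt_const p (2:ℝ)).fun_div B (by positivity))).fun_sub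
      ((db p hp.2).const_mul (7437 / 10000))).fun_add ((dq p).const_mul (5564 / 10000))).fun_sub
      (((dq p).fun_pow 2).const_mul (1971 / 10000))).fun_add (((dq p).fun_pow 3).const_mul (1536 / 10000))).fun_add
      ((da p hp.1).const_mul (3 / 4))
    refine (h2.congr_deriv ?_).hasDerivWithinAt
    have e : √p ^ 2 + √(1 - p) ^ 2 = 1 := by linarith
    have u : (-1 / (2 * √(1 - p)) * (2 * √p) - √(1 - p) * (2 * (1 / (2 * √p)))) / (2 * √p) ^ 2 -
        (1 / (2 * √p) * (2 * √(1 - p)) - √p * (2 * (-1 / (2 * √(1 - p))))) / (2 * √(1 - p)) ^ 2 =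
        -(1 / (4 * √p ^ 3 * √(1 - p))) - 1 / (4 * √p * √(1 - p) ^ 3) := by
      generalize √p = a at *
      generalize √(1 - p) = b at *
      field_simp
      linear_combination (-4 * (a ^ 2 + b ^ 2)) * e
    rw [u]
    norm_num
    field_simp
    ring
  · intro p hp
    rw [interior_Icc] at hp
    have a0 := Real.sqrt_pos.2 hp.1
    have b0 := Real.sqrt_pos.2 (sub_pos.2 hp.2)
    have a2 := Real.sq_sqrt hp.1.le
    have b2 := Real.sq_sqrt (sub_pos.2 hp.2).le
    have e : √p ^ 2 + √(1 - p) ^ 2 = 1 := by linarith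
    have k := um_key b0.le a0.le e
    generalize √p = t at *
    generalize √(1 - p) = r at *
    rw [← b2]
    have h1 : 0 < 1 + t := by linarith
    have id : -(1 / (4 * t ^ 3 * r)) - 1 / (4 * t * r ^ 3) - 1 / (4 * r ^ 3) + 1 / (4 * t ^ 3) + 1 / (2 * r ^ 3)
        + 3 / (8 * t) = -((4 + 3 * r) * (1 + t) - (2 + 4 * r + 6 * r ^ 2 + 3 * r ^ 3)) /
          (8 * (1 + r) ^ 2 * (1 + t) * r) := by
      have m : (-(1 / (4 * t ^ 3 * r)) - 1 / (4 * t * r ^ 3) - 1 / (4 * r ^ 3) + 1 / (4 * t ^ 3) + 1 / (2 * r ^ 3)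
          + 3 / (8 * t)) = (-2 * r ^ 2 - 2 * t ^ 2 + 2 * t ^ 3 + 2 * r ^ 3 + 3 * t ^ 2 * r ^ 3) / (8 * t ^ 3 * r ^ 3) := by
        field_simp
        ring
      rw [m, div_eq_div_iff (by positivity) (by positivity)]
      linear_combination (8 * r * (2 * r ^ 2 + 2 * r ^ 3 + 2 * t * r ^ 2 + 2 * t * r ^ 3 + 2 * t ^ 2 + 4 * t ^ 2 * r
        + 6 * t ^ 2 * r ^ 2 + 3 * t ^ 2 * r ^ 3)) * e
    have fin : 37185 / 100000 / r - 5564 / 10000 + 3942 / 10000 * r ^ 2 - 4608 / 10000 * (r ^ 2) ^ 2 ≤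
        ((4 + 3 * r) * (1 + t) - (2 + 4 * r + 6 * r ^ 2 + 3 * r ^ 3)) / (8 * (1 + r) ^ 2 * (1 + t) * r) := by
      rw [le_div_iff₀ (by positivity)]
      have : (37185 / 100000 / r - 5564 / 10000 + 3942 / 10000 * r ^ 2 - 4608 / 10000 * (r ^ 2) ^ 2) *
          (8 * (1 + r) ^ 2 * (1 + t) * r) = 8 * (1 + r) ^ 2 * (37185 / 100000 - 5564 / 10000 * r
            + 3942 / 10000 * r ^ 3 - 4608 / 10000 * r ^ 5) * (1 + t) := by
        field_simp
      rw [this]
      linarith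
    rw [neg_div] at id
    linarith

end Crest.Agent.R307
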