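import Crest.Agent.R307.UH
import Crest.Agent.R307.UM
import Crest.Agent.R307.UAPM
import Crest.Agent.R307.UAQM

/-!
# R307/UA: the step family (A) for the exact split potential
-/

set_option autoImplicit false
set_option maxHeartbeats 1000000
set_option linter.unusedVariables false

namespace Crest.Agent.R307

open Set

/-- Reduction of a pointwise step to the two charts. -/
theorem step_charts {F : ℝ → ℝ → Prop} (h00 : F 0 0) (h11 : F 1 1)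
    (hP : ∀ T c : ℝ, 0 < T → T ≤ 18 / 25 → 0 ≤ c → c ≤ 1 → F ((c * T) ^ 2) (T ^ 2))
    (hQ : ∀ u R t0 ta t1 : ℝ, 0 ≤ u → u ≤ 1 → 2 * (1 / (1 + u * u)) - 1 = R → 2 * u * (1 / (1 + u * u)) = t0 →
      0 < R → 0 ≤ t0 → R ^ 2 + t0 ^ 2 = 1 → 0 ≤ ta → ta ≤ 1 → R * ta ≤ 7 / 10 → 0 < t1 → (R * ta) ^ 2 + t1 ^ 2 = 1 →
      F (t0 ^ 2) (t1 ^ 2)) (p0 p1 : ℝ) (h0 : 0 ≤ p0) (h01 : p0 ≤ p1) (h1 : p1 ≤ 1) : F p0 p1 := by
  have s0 := Real.sq_sqrt h0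
  have s1 := Real.sq_sqrt (h0.trans h01)
  have n0 := Real.sqrt_nonneg p0
  have n1 := Real.sqrt_nonneg p1
  rcases le_total p1 (51 / 100) with h | h
  · rcases eq_or_lt_of_le n1 with e | e
    · have : p1 = 0 := by rw [← s1, ← e]; ring
      have : p0 = 0 := by linarith
      subst_vars
      exact h00
    · have := hP √p1 (√p0 / √p1) e (by nlinarith) (by positivity)
        ((div_le_one e).2 (Real.sqrt_le_sqrt h01))
      rwa [div_mul_cancel₀ _ e.ne', s0, s1] at this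
  · have q0 := Real.sq_sqrt (show 0 ≤ 1 - p0 by linarith)
    have q1 := Real.sq_sqrt (show 0 ≤ 1 - p1 by linarith)
    have m0 := Real.sqrt_nonneg (1 - p0)
    have m1 := Real.sqrt_nonneg (1 - p1)
    rcases eq_or_lt_of_le m0 with e | e
    · have : p0 = 1 := by
        have : 1 - p0 = 0 := by rw [← q0, ← e]; ring
        linarith
      have : p1 = 1 := by linarith
      subst_vars
      exact h11
    · obtain ⟨u, u0, u1, e1, e2⟩ := circ_par m0 n0 (by linarith)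
      have k : √(1 - p0) * (√(1 - p1) / √(1 - p0)) = √(1 - p1) := mul_div_cancel₀ _ e.ne'
      have := hQ u _ _ (√(1 - p1) / √(1 - p0)) √p1 u0 u1 e1 e2 e n0 (by linarith) (by positivity)
        ((div_le_one e).2 (Real.sqrt_le_sqrt (by linarith))) (by rw [k]; nlinarith)
        (Real.sqrt_pos.2 (by linarith)) (by rw [k]; linarith)
      rwa [s0, s1] at this

theorem uex_dd {r0 r1 t0 t1 : ℝ} (r00 : 0 ≤ r0) (r10 : 0 ≤ r1) (t00 : 0 ≤ t0) (t10 : 0 ≤ t1)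
    (e0 : r0 ^ 2 + t0 ^ 2 = 1) (e1 : r1 ^ 2 + t1 ^ 2 = 1) (d1 : 0 < r0 * t0 + r1 * t1) (d2 : 0 < r0 + r1)
    (d3 : 0 < t0 + t1) : Uex (t0 ^ 2) - Uex (t1 ^ 2) = (t1 ^ 2 - t0 ^ 2) *
      ((t0 ^ 2 + t1 ^ 2 - 1) / (r0 * t0 + r1 * t1) + 1 / (r0 + r1) + 1 / (t0 + t1) - 2) := by
  unfold Uex
  rw [show 1 - t0 ^ 2 = r0 ^ 2 by linarith, show 1 - t1 ^ 2 = r1 ^ 2 by linarith, Real.sqrt_sq r00, Real.sqrt_sq r10,
    Real.sqrt_sq t00, Real.sqrt_sq t10]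
  have a : (t1 ^ 2 - t0 ^ 2) * ((t0 ^ 2 + t1 ^ 2 - 1) / (r0 * t0 + r1 * t1)) = r0 * t0 - r1 * t1 := by
    rw [← mul_div_assoc, div_eq_iff d1.ne']
    linear_combination (-t0 ^ 2) * e0 + t1 ^ 2 * e1
  have b : (t1 ^ 2 - t0 ^ 2) * (1 / (r0 + r1)) = r0 - r1 := by
    rw [← mul_div_assoc, div_eq_iff d2.ne']
    linear_combination e1 - e0
  have c : (t1 ^ 2 - t0 ^ 2) * (1 / (t0 + t1)) = t1 - t0 := by
    rw [← mul_div_assoc, div_eq_iff d3.ne']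
    ring
  linear_combination -a - b - c

theorem quadA {G L X x : ℝ} (x0 : 0 ≤ x) (x1 : x ≤ 3 / 4) (L0 : 0 ≤ L)
    (h : (0 < L ∧ 0 ≤ 4 * G * L - X * X) ∨ (0 < X - 3 / 2 * L ∧ 0 ≤ G - 3 / 4 * X + 9 / 16 * L)) :
    0 ≤ G - x * X + x ^ 2 * L := by
  rcases h with ⟨a, b⟩ | ⟨a, b⟩
  · have : 0 ≤ L * (G - x * X + x ^ 2 * L) := by nlinarith [sq_nonneg (2 * L * x - X)]
    exact nonneg_of_mul_nonneg_right this a |> fun h => h
  · have : 0 ≤ (3 / 4 - x) * (X - (3 / 4 + x) * L) :=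
      mul_nonneg (by linarith) (by nlinarith [mul_nonneg (sub_nonneg.2 x1) L0])
    nlinarith

theorem ua_P (hM : MConc) {ρ s x T c : ℝ} (hρ0 : 0 ≤ ρ) (hρ1 : ρ ≤ 1) (hs : s ^ 2 = 1 - ρ ^ 2) (s0 : 0 ≤ s)
    (s1 : s ≤ 13 / 20) (x0 : 0 ≤ x) (x1 : x ≤ 3 / 4) (T0 : 0 < T) (T1 : T ≤ 18 / 25) (c0 : 0 ≤ c) (c1 : c ≤ 1) :
    (1 + s ^ 2 * (2 / 3 * x - 3 / 10 * x ^ 2)) * Uex ((c * T) ^ 2) +
      (1 - s ^ 2 * (2 / 3 * x + 39 / 200 * x ^ 2)) * Uex (T ^ 2) + s ^ 2 * x * (T ^ 2 - (c * T) ^ 2) ≤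
      Tx ρ ((c * T) ^ 2) (T ^ 2) := by
  have Q := UAP.main T c s T0.le T1 c0 c1 s0 s1
  have cT : c * T ≤ T := mul_le_of_le_one_left T0.le c1
  have cT0 : 0 ≤ c * T := mul_nonneg c0 T0.le
  have a0 : 0 < 1 - UAP.c2 T c s * UAP.T2 T c s := by simp only [UAP.c2, UAP.T2]; nlinarith
  have a1 : 0 < 1 - UAP.T2 T c s := by simp only [UAP.T2]; nlinarith
  have r00 : 0 < UAP.r0 T c s := Real.sqrt_pos.2 a0
  have r10 : 0 < UAP.r1 T c s := Real.sqrt_pos.2 a1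
  have e0 : UAP.r0 T c s ^ 2 + (c * T) ^ 2 = 1 := by
    rw [UAP.r0, Real.sq_sqrt a0.le]; simp only [UAP.c2, UAP.T2]; ring
  have e1 : UAP.r1 T c s ^ 2 + T ^ 2 = 1 := by
    rw [UAP.r1, Real.sq_sqrt a1.le]; simp only [UAP.T2]; ring
  have ew : UAP.w T c s = s ^ 2 * (1 - c ^ 2) ^ 2 / 4 * T ^ 4 := by
    simp only [UAP.w, UAP.hq, UAP.hh, UAP.d, UAP.c2, UAP.T2]; ring
  have w0 : 0 ≤ UAP.w T c s := by rw [ew]; positivity
  have pi0 : 0 ≤ UAP.pi T c s := Real.sqrt_nonneg _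
  have b0 : 0 ≤ UAP.b T c s := Real.sqrt_nonneg _
  have key := ug_P hM (w := UAP.w T c s) (pi := UAP.pi T c s) (sg := UAP.sg T c s) (b := UAP.b T c s)
    (v := UAP.v T c s) (G := UAP.G T c s) hρ0 hρ1 hs T0 c0 c1 r00 r10 e0 e1 ew pi0
    (by rw [UAP.pi, Real.sq_sqrt (add_nonneg (mul_self_nonneg _) w0), UAP.pi0]; ring) (Real.sqrt_nonneg _)
    (by
      have : 0 ≤ UAP.P T c s := by simp only [UAP.P, UAP.c2, UAP.T2]; nlinarith
      rw [UAP.sg, Real.sq_sqrt (by linarith)]; simp only [UAP.P, UAP.c2, UAP.T2]; ring) b0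
    (by
      rw [UAP.b, Real.sq_sqrt (show 0 ≤ UAP.c2 T c s + UAP.hq T c s from
        add_nonneg (mul_self_nonneg _) (mul_self_nonneg _))]
      simp only [UAP.hq, UAP.hh, UAP.d, UAP.c2]; ring) (Real.sqrt_nonneg _)
    (by
      rw [UAP.v, Real.sq_sqrt (by have := mul_self_nonneg c; simp only [UAP.c2]; linarith)]
      simp only [UAP.c2]; ring)
    (by simp only [UAP.G, UAP.Gp, UAP.GW, UAP.ss, UAP.P, UAP.pi0, UAP.c2, UAP.T2]; ring)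
  have u0 := uex_t r00.le cT0 e0
  have u1 := uex_t r10.le T0.le e1
  have n0 := Uex_nonneg (sq_nonneg (c * T)) (by linarith [sq_nonneg (UAP.r0 T c s)])
  have n1 := Uex_nonneg (sq_nonneg T) (by linarith [sq_nonneg (UAP.r1 T c s)])
  have eL : T ^ 2 * UAP.L T c s = 3 / 10 * Uex ((c * T) ^ 2) + 39 / 200 * Uex (T ^ 2) := by
    rw [u0, u1]; simp only [UAP.L, UAP.V0, UAP.U0, UAP.U1, UAP.i0, UAP.i1, UAP.c2]; ring
  have eZ : T ^ 3 * (1 - c ^ 2) * UAP.Z T c s =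
      T ^ 2 - (c * T) ^ 2 + 2 / 3 * (Uex ((c * T) ^ 2) - Uex (T ^ 2)) := by
    rw [uex_dd r00.le r10.le cT0 T0.le e0 e1 (by positivity) (by positivity) (by positivity)]
    simp only [UAP.Z, UAP.i0, UAP.i1, UAP.c2]
    generalize UAP.r0 T c s = r0 at *
    generalize UAP.r1 T c s = r1 at *
    have f0 : (c * T) ^ 2 * (1 / (1 + r0)) = 1 - r0 := by
      rw [← mul_div_assoc, div_eq_iff (by positivity)]; linear_combination e0
    have f1 : T ^ 2 * (1 / (1 + r1)) = 1 - r1 := by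
      rw [← mul_div_assoc, div_eq_iff (by positivity)]; linear_combination e1
    generalize 1 / (1 + r0) = i0 at *
    generalize 1 / (1 + r1) = i1 at *
    have z1 : T * (T * (c * c * i0 + i1) / (3 * (r0 + r1))) = 2 / 3 * (1 / (r0 + r1)) - 1 / 3 := by
      rw [← mul_div_assoc, show T * (T * (c * c * i0 + i1)) = 2 - (r0 + r1) by linear_combination f0 + f1]
      field_simp
    have z2 : T * ((c * (1 + c * c * (1 - i0)) + c * c + (1 - i1)) / ((r0 * c + r1) * (1 + c))) =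
        ((c * T) ^ 2 + T ^ 2 - 1) / (r0 * (c * T) + r1 * T) + 1 / (c * T + T) := by
      have hN : T ^ 2 * (c * (1 + c * c * (1 - i0)) + c * c + (1 - i1)) =
          ((c * T) ^ 2 + T ^ 2 - 1) * (1 + c) + (r0 * c + r1) := by linear_combination (-c) * f0 - f1
      rw [show r0 * (c * T) + r1 * T = T * (r0 * c + r1) by ring, show c * T + T = T * (1 + c) by ring]
      have A0 : 0 < r0 * c + r1 := by positivity
      have B0 : 0 < 1 + c := by positivity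
      generalize c * (1 + c * c * (1 - i0)) + c * c + (1 - i1) = N at *
      generalize (c * T) ^ 2 + T ^ 2 - 1 = E at *
      generalize r0 * c + r1 = A at *
      generalize 1 + c = B at *
      field_simp
      linear_combination hN
    linear_combination T ^ 2 * (1 - c ^ 2) * (z1 + 2 / 3 * z2)
  have L0 : 0 ≤ UAP.L T c s := by
    have : 0 ≤ T ^ 2 * UAP.L T c s := by rw [eL]; positivity
    exact nonneg_of_mul_nonneg_right this (by positivity) |> fun h => h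
  have ed : UAP.d T c s = 1 - c ^ 2 := by simp only [UAP.d, UAP.c2]; ring
  unfold UAP.Q at Q
  rw [ed] at Q
  generalize UAP.L T c s = L at *
  generalize UAP.Z T c s = Z at *
  generalize UAP.G T c s = G at *
  have k := quadA (G := T * (1 - c ^ 2) ^ 2 * G / 4) (L := L) (X := T * (1 - c ^ 2) * Z) x0 x1 L0 (by
    rcases Q with ⟨a, b⟩ | ⟨a, b⟩
    · left
      refine ⟨a, ?_⟩
      have := mul_nonneg (mul_nonneg T0.le (sq_nonneg (1 - c ^ 2))) b.le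
      linarith
    · right
      exact ⟨a, by linarith⟩)
  have := mul_nonneg (mul_nonneg (sq_nonneg s) (sq_nonneg T)) k
  linear_combination key + this + s ^ 2 * x ^ 2 * eL - s ^ 2 * x * eZ

theorem ua_Q (hM : MConc) {ρ s x u R t0 ta t1 : ℝ} (hρ0 : 0 ≤ ρ) (hρ1 : ρ ≤ 1) (hs : s ^ 2 = 1 - ρ ^ 2) (s0 : 0 ≤ s)
    (s1 : s ≤ 13 / 20) (x0 : 0 ≤ x) (x1 : x ≤ 3 / 4) (u0 : 0 ≤ u) (u1 : u ≤ 1) (eR : 2 * (1 / (1 + u * u)) - 1 = R)
    (et : 2 * u * (1 / (1 + u * u)) = t0) (R0 : 0 < R) (t00 : 0 ≤ t0) (e0 : R ^ 2 + t0 ^ 2 = 1) (ta0 : 0 ≤ ta)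
    (ta1 : ta ≤ 1) (r7 : R * ta ≤ 7 / 10) (t10 : 0 < t1) (e1 : (R * ta) ^ 2 + t1 ^ 2 = 1) :
    (1 + s ^ 2 * (2 / 3 * x - 3 / 10 * x ^ 2)) * Uex (t0 ^ 2) +
      (1 - s ^ 2 * (2 / 3 * x + 39 / 200 * x ^ 2)) * Uex (t1 ^ 2) + s ^ 2 * x * (t1 ^ 2 - t0 ^ 2) ≤
      Tx ρ (t0 ^ 2) (t1 ^ 2) := by
  have Q := UAQ.main u ta s u0 u1 ta0 ta1 s0 s1
  have hR : UAQ.R u ta s = R := eR
  have ht0 : UAQ.t0 u ta s = t0 := et
  have ht1 : UAQ.t1 u ta s = t1 := by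
    rw [UAQ.t1, UAQ.r1, hR, show 1 - R * ta * (R * ta) = t1 ^ 2 by linarith, Real.sqrt_sq t10.le]
  have om0 : 0 ≤ UAQ.om u ta s := Real.sqrt_nonneg _
  have b0 : 0 ≤ UAQ.b u ta s := Real.sqrt_nonneg _
  have eq : UAQ.hq u ta s = s ^ 2 * (1 - ta ^ 2) ^ 2 / 4 := by simp only [UAQ.hq, UAQ.hh, UAQ.d]; ring
  have eom : UAQ.om u ta s ^ 2 = ta ^ 2 + s ^ 2 * (1 - ta ^ 2) ^ 2 / 4 := by
    rw [UAQ.om, eq, Real.sq_sqrt (by positivity)]; ring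
  have eP : UAQ.Pp u ta s = t0 ^ 2 + t1 ^ 2 := by simp only [UAQ.Pp, UAQ.P, UAQ.R2, UAQ.Ph, hR]; linarith
  have key := ug_Q hM (om := UAQ.om u ta s) (sg := UAQ.sg u ta s) (b := UAQ.b u ta s)
    (v := UAQ.v u ta s) (Ga := UAQ.Ga u ta s) hρ0 hρ1 hs R0 ta0 ta1 t00 t10 e0 e1 om0 eom (Real.sqrt_nonneg _)
    (by rw [UAQ.sg, UAQ.Ph, Real.sq_sqrt (by positivity)]; ring) b0
    (by
      rw [UAQ.b, eom, eq, UAQ.b0, UAQ.R4, UAQ.R2, hR, ht0, ht1, Real.sq_sqrt (by positivity)]; ring)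
    (Real.sqrt_nonneg _) (by rw [UAQ.v, eP, Real.sq_sqrt (by positivity)]; linarith)
    (by simp only [UAQ.Ga, UAQ.Gp, UAQ.GW, UAQ.ss, UAQ.Pp, UAQ.P, UAQ.R4, UAQ.R2, UAQ.Ph, UAQ.b0, UAQ.v0, hR, ht0,
      ht1]; ring)
  have r10 : 0 ≤ R * ta := mul_nonneg R0.le ta0
  have w0 : Uex (t0 ^ 2) = R * UAQ.U0 u ta s := by
    rw [uex_r R0.le t00 e0]; simp only [UAQ.U0, hR, ht0]; ring
  have w1 : Uex (t1 ^ 2) = R * UAQ.V1 u ta s := by
    rw [uex_r r10 t10.le e1]; simp only [UAQ.V1, UAQ.U1, UAQ.r1, hR, ht1]; ring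
  have n0 := Uex_nonneg (sq_nonneg t0) (by linarith [sq_nonneg R])
  have n1 := Uex_nonneg (sq_nonneg t1) (by linarith [sq_nonneg (R * ta)])
  have eL : R * UAQ.L u ta s = 3 / 10 * Uex (t0 ^ 2) + 39 / 200 * Uex (t1 ^ 2) := by
    rw [w0, w1, UAQ.L]; ring
  have ed : UAQ.d u ta s = 1 - ta ^ 2 := by simp only [UAQ.d]; ring
  have eX : R * UAQ.X u ta s = t1 ^ 2 - t0 ^ 2 + 2 / 3 * (Uex (t0 ^ 2) - Uex (t1 ^ 2)) := by
    rw [w0, w1, UAQ.X, ed, hR]; linear_combination e0 - e1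
  have L0 : 0 ≤ UAQ.L u ta s := by
    have : 0 ≤ R * UAQ.L u ta s := by rw [eL]; positivity
    exact nonneg_of_mul_nonneg_right this R0 |> fun h => h
  rcases eq_or_lt_of_le (add_nonneg om0 ta0) with z | z
  · have a : UAQ.om u ta s = 0 := by linarith
    have b : ta = 0 := by linarith
    rw [a, b] at eom
    have c : s ^ 2 = 0 := by linarith
    rw [a, b] at key
    rw [c]
    linarith
  have eZ : 0 < t0 + ta * t1 → UAQ.X u ta s = (1 - ta ^ 2) * UAQ.Z u ta s := fun h => by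
    apply mul_left_cancel₀ R0.ne'
    rw [eX, uex_dd R0.le r10 t00 t10.le e0 e1 (by linarith [mul_pos R0 h]) (by positivity) (by positivity)]
    simp only [UAQ.Z, UAQ.Hd, hR, ht0, ht1]
    rw [show t1 ^ 2 - t0 ^ 2 = R ^ 2 * (1 - ta ^ 2) by linarith, show t0 ^ 2 + t1 ^ 2 - 1 = 1 - R * R * (1 + ta * ta) by
      linarith, show R * t0 + R * ta * t1 = R * (t0 + ta * t1) by ring, show R + R * ta = R * (1 + ta) by ring]
    have : 0 < 1 + ta := by positivity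
    generalize 1 / (t0 + t1) = i
    field_simp
    ring
  have eZ0 : t0 + ta * t1 = 0 → UAQ.L u ta s = 0 := fun h => by
    have a : t0 = 0 := by linarith [mul_nonneg ta0 t10.le]
    have b : ta = 0 := by
      rcases mul_eq_zero.1 (show ta * t1 = 0 by linarith) with h | h
      · exact h
      · exact absurd h t10.ne'
    have c : t1 ^ 2 = 1 := by rw [b] at e1; linarith
    apply mul_left_cancel₀ R0.ne'
    rw [eL, a, c, Uex_one, zero_pow two_ne_zero, Uex_zero]; ring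
  unfold UAQ.Q at Q
  rw [ed, UAQ.r1, hR] at Q
  generalize UAQ.L u ta s = L at *
  generalize UAQ.Z u ta s = Z at *
  generalize UAQ.X u ta s = X at *
  generalize UAQ.Ga u ta s = G at *
  generalize UAQ.om u ta s = om at *
  have eg : (om + ta) * ((1 - ta ^ 2) ^ 2 * G / (4 * (om + ta))) = (1 - ta ^ 2) ^ 2 * G / 4 := by field_simp
  have eh : (om - ta) * G = s ^ 2 * ((1 - ta ^ 2) ^ 2 * G / (4 * (om + ta))) := by
    apply mul_left_cancel₀ z.ne'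
    linear_combination G * eom - s ^ 2 * eg
  generalize (1 - ta ^ 2) ^ 2 * G / (4 * (om + ta)) = g at *
  have k := quadA (G := g) (L := L) (X := X) x0 x1 L0 (by
    rcases Q with ⟨a, b⟩ | ⟨a, b⟩ | ⟨a, b⟩ | a
    · left
      refine ⟨a, nonneg_of_mul_nonneg_right (a := om + ta) ?_ z |> fun h => h⟩
      rcases eq_or_lt_of_le (add_nonneg t00 (mul_nonneg ta0 t10.le)) with h | h
      · exact absurd (eZ0 h.symm) a.ne'
      rw [eZ h]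
      have := mul_nonneg (sq_nonneg (1 - ta ^ 2)) b.le
      linear_combination this - 4 * L * eg
    · left
      refine ⟨a, nonneg_of_mul_nonneg_right (a := om + ta) ?_ z |> fun h => h⟩
      linear_combination b.le - 4 * L * eg
    · right
      refine ⟨a, nonneg_of_mul_nonneg_right (a := om + ta) ?_ z |> fun h => h⟩
      linear_combination (1 / 4) * b.le - eg
    · linarith)
  have := mul_nonneg (mul_nonneg (sq_nonneg s) R0.le) k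
  linear_combination key + this + s ^ 2 * x ^ 2 * eL - s ^ 2 * x * eX - R * eh

/-- Family (A). -/
theorem ustepA' (hM : MConc) {ρ s x : ℝ} (hρ0 : 0 ≤ ρ) (hρ1 : ρ ≤ 1) (hs : s ^ 2 = 1 - ρ ^ 2) (s0 : 0 ≤ s)
    (s1 : s ≤ 13 / 20) (x0 : 0 ≤ x) (x1 : x ≤ 3 / 4) :
    UStep ρ Uex (1 + s ^ 2 * (2 / 3 * x - 3 / 10 * x ^ 2)) (1 - s ^ 2 * (2 / 3 * x + 39 / 200 * x ^ 2)) (s ^ 2 * x) := by
  have a1 : 0 ≤ 2 / 3 * x - 3 / 10 * x ^ 2 := by nlinarith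
  have a2 : 2 / 3 * x + 39 / 200 * x ^ 2 ≤ 1 := by nlinarith
  have a3 : s ^ 2 ≤ 1 := by nlinarith
  refine ⟨by positivity, by nlinarith [mul_le_mul a3 a2 (by positivity) zero_le_one], ?_⟩
  refine step_charts (F := fun p0 p1 => (1 + s ^ 2 * (2 / 3 * x - 3 / 10 * x ^ 2)) * Uex p0 +
      (1 - s ^ 2 * (2 / 3 * x + 39 / 200 * x ^ 2)) * Uex p1 + s ^ 2 * x * (p1 - p0) ≤ Tx ρ p0 p1) ?_ ?_
    (fun T c a b c' d => ua_P hM hρ0 hρ1 hs s0 s1 x0 x1 a b c' d)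
    fun u R t0 ta t1 a b c d e f g h i j k l => ua_Q hM hρ0 hρ1 hs s0 s1 x0 x1 a b c d e f g h i j k l
  · simp [Tx, Uex_zero]
  · simp [Tx, Uex_one, show (1 + ρ) / 2 + (1 - ρ) / 2 = 1 by ring]

theorem mconc : MConc := um_conc

theorem ustepA65 {ρ s x : ℝ} (hρ0 : 0 ≤ ρ) (hρ1 : ρ ≤ 1) (hs : s ^ 2 = 1 - ρ ^ 2) (s0 : 0 ≤ s)
    (s1 : s ≤ 13 / 20) (x0 : 0 ≤ x) (x1 : x ≤ 3 / 4) :
    UStep ρ Uex (1 + s ^ 2 * (2 / 3 * x - 3 / 10 * x ^ 2)) (1 - s ^ 2 * (2 / 3 * x + 39 / 200 * x ^ 2)) (s ^ 2 * x) :=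
  ustepA' mconc hρ0 hρ1 hs s0 s1 x0 x1

theorem ustepA {ρ s x : ℝ} (hρ0 : 0 ≤ ρ) (hρ1 : ρ ≤ 1) (hs : s ^ 2 = 1 - ρ ^ 2) (s0 : 0 ≤ s)
    (s1 : s ≤ 11 / 20) (x0 : 0 ≤ x) (x1 : x ≤ 3 / 4) :
    UStep ρ Uex (1 + s ^ 2 * (2 / 3 * x - 3 / 10 * x ^ 2)) (1 - s ^ 2 * (2 / 3 * x + 39 / 200 * x ^ 2)) (s ^ 2 * x) :=
  ustepA65 hρ0 hρ1 hs s0 (by linarith) x0 x1

end Crest.Agent.R307
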