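import Crest.Agent.R307.UBO
set_option autoImplicit false
set_option maxRecDepth 100000
namespace Crest.Agent.R307.UBO
open Crest.Agent.R307.IA Crest.Agent.R307.IA3

theorem k4 : Cov Q 1152922054362661017 1152922604118474752 1152921504606846976 1152921966401730642 1152921504606846976 1152922054362661017 :=
  cov_of snd 0 0 9 _ _ _ _ _ _ 0x330330233216333001233031330312333003301633013301206332330631201203313303123332033013303133233010201 (by decide +kernel)

theorem k5 : Cov Q 1152921504606846976 1152921779484754113 1152921504606846976 1152921735504291539 1152922054362661017 1152922329240568073 :=
  cov_of snd 0 0 11 _ _ _ _ _ _ 0x3303302330331033033012033133133031201331331233300330133300333001203330233033023330210123303310330332013303320330332012330330233033023303302013303302330330033033002120333203331013303330203332012331331233133120331331233033013303301201331331233133120331331233033013303301201201331332033133302013313320331330330201233033023303300330330021330330233033003303300212033033033020333033020133133033020330330330101233133123313312033133123303301330330120133133123323321033133123303302330330210120120 (by decide +kernel)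

theorem k6 : Cov Q 1152921504606846976 1152921779484754113 1152921735504291539 1152921966401730642 1152922054362661017 1152922329240568073 :=
  cov_of snd 0 0 9 _ _ _ _ _ _ 0x53330233033020133033123303310330330120153303302330330201333003303310133032330330210330330233033101332330330210210330330133033010330330133233302102330330133033012332333001333003330012013303321330330103323330213303311023303302331331013330233033021033033023303302133033023303302102102 (by decide +kernel)

theorem k7 : Cov Q 1152921504606846976 1152921779484754113 1152921504606846976 1152921966401730642 1152922329240568073 1152922466679521619 :=
  cov_of snd 0 0 11 _ _ _ _ _ _ 0x330330133033012533013331015330133033101203323301333003331023303302101553303302330330201133133133120333003331012331331033233201330330233133101201331331331103313313311023323320330330233033020133033023303302330330201203313313301033133233110233033023313312033033023303301330330120133033023313312033033123303301330330120120110 (by decide +kernel)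

end Crest.Agent.R307.UBO
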