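import Crest.Agent.R307.UBO
set_option autoImplicit false
set_option maxRecDepth 100000
namespace Crest.Agent.R307.UBO
open Crest.Agent.R307.IA Crest.Agent.R307.IA3

theorem k8 : Cov Q 1152921504606846976 1152921779484754113 1152921504606846976 1152921966401730642 1152922466679521619 1152922604118474752 :=
  cov_of snd 0 0 12 _ _ _ _ _ _ 0x5332133033021533320133303201533013331012033031330333002330330210155330323330032011330313312330331033300133033012015553303233032011133030330233133101330330233033021033033013303301021053313320133032331331201553303300113323320330323303201102330313303233210331332332102330330330103313313301021330331033023303302330203330033023303302331201330330233033020330330233033020123303302330330213303301333012330331033033102103303302330330213330133123303310330331021021010 (by decide +kernel)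

theorem k9 : Cov Q 1152921779484754113 1152922054362661017 1152921504606846976 1152921966401730642 1152922054362661017 1152922604118474752 :=
  cov_of snd 0 0 10 _ _ _ _ _ _ 0x3330033031233153133010330313323311020333023330033033012013330033013303320333001253332013303320133033023313303120332330330201203303303123330033013332033012012 (by decide +kernel)

theorem k10 : Cov Q 1152922054362661017 1152922604118474752 1152921504606846976 1152921966401730642 1152922054362661017 1152922604118474752 :=
  cov_of snd 0 0 8 _ _ _ _ _ _ 0x332313323330203330010330330233013303303103313303102330333020102 (by decide +kernel)

end Crest.Agent.R307.UBO
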