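import Crest.Agent.R307.UBQ
set_option autoImplicit false
set_option maxRecDepth 100000
namespace Crest.Agent.R307.UBQ
open Crest.Agent.R307.IA Crest.Agent.R307.IA3

theorem k4 : Cov Q 1152922054362661017 1152922604118474752 1152921779484753920 1152922604118474752 1152921504606846976 1152922219289405031 :=
  cov_of snd 0 0 12 _ _ _ _ _ _ 0x444410144400444400144044401444010101044401444004433010104414404440010440440330103313330201144044104404402144402444020430440233033030211033133031233031330330120330330233033020110033133033010333103303301213303302333021332330330203303330021033133033010330330133300333021021011 (by decide +kernel)

end Crest.Agent.R307.UBQ
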