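import Crest.Agent.R307.XSm
import Crest.Agent.R307.HPc
import Crest.Agent.R307.UA
import Crest.Agent.R307.UB

/-!
# R307/HKg: single hypothesis `E Uex(T 1_A) ≥ bb s |A|`, algebraic part of the Bellman step
-/

set_option autoImplicit false

namespace Crest.Agent.R307.HK

open Crest.CubeNoise Set Crest.Agent.R307

noncomputable def pS (s m : ℝ) : ℝ := ((((((((((((((((11199/50000:ℝ) * m) + (17783/100000:ℝ)) * m) + (-17251/50000:ℝ)) * m) + (20439/50000:ℝ)) * m) + (3627/25000:ℝ)) * m) + (1369/12500:ℝ)) * m) + (34337/100000:ℝ)) * m) + (2:ℝ)) + (s * ((((((((((((((981/4000:ℝ) * m) + (10549/20000:ℝ)) * m) + (83549/100000:ℝ)) * m) + (-13167/50000:ℝ)) * m) + (43047/100000:ℝ)) * m) + (8719/10000:ℝ)) * m) + (39887/50000:ℝ)) * m)))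
noncomputable def ES (s m D : ℝ) : ℝ := ((((((((((-100791/200000:ℝ) * m) + (-17783/400000:ℝ)) * D) + (((((((-235179/50000:ℝ) * m) + (-124481/100000:ℝ)) * m) + (3983/4000:ℝ)) * m) + (-4619/80000:ℝ))) * D) + (((((((((((-705537/100000:ℝ) * m) + (-124481/40000:ℝ)) * m) + (3983/800:ℝ)) * m) + (-13857/16000:ℝ)) * m) + (-4901/8000:ℝ)) * m) + (14963/200000:ℝ))) * D) + (((((((((((((((-100791/50000:ℝ) * m) + (-124481/100000:ℝ)) * m) + (11949/4000:ℝ)) * m) + (-13857/16000:ℝ)) * m) + (-4901/4000:ℝ)) * m) + (44889/100000:ℝ)) * m) + (-59487/400000:ℝ)) * m) + (-23631/50000:ℝ))) + (s * (((((((((-8829/16000:ℝ) * m) + (-10549/80000:ℝ)) * D) + (((((((-20601/4000:ℝ) * m) + (-73843/20000:ℝ)) * m) + (-25823/25000:ℝ)) * m) + (79079/400000:ℝ))) * D) + (((((((((((-61803/8000:ℝ) * m) + (-73843/8000:ℝ)) * m) + (-25823/5000:ℝ)) * m) + (237237/80000:ℝ)) * m) + (20251/40000:ℝ)) * m) + (-28381/100000:ℝ)))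 * D) + (((((((((((((((-8829/4000:ℝ) * m) + (-73843/20000:ℝ)) * m) + (-77469/25000:ℝ)) * m) + (237237/80000:ℝ)) * m) + (20251/20000:ℝ)) * m) + (-85143/50000:ℝ)) * m) + (-110181/400000:ℝ)) * m) + (8719/40000:ℝ)))))
noncomputable def OS (s m D : ℝ) : ℝ := ((((((((((-11199/200000:ℝ) * D) + (((((-100791/50000:ℝ) * m) + (-17783/50000:ℝ)) * m) + (569/4000:ℝ))) * D) + (((((((((-705537/100000:ℝ) * m) + (-124481/50000:ℝ)) * m) + (11949/4000:ℝ)) * m) + (-13857/40000:ℝ)) * m) + (-4901/40000:ℝ))) * D) + (((((((((((((-235179/50000:ℝ) * m) + (-124481/50000:ℝ)) * m) + (3983/800:ℝ)) * m) + (-4619/4000:ℝ)) * m) + (-4901/4000:ℝ)) * m) + (14963/50000:ℝ)) * m) + (-19829/400000:ℝ))) * D) + (((((((((((((((((-100791/200000:ℝ) * m) + (-17783/50000:ℝ)) * m) + (3983/4000:ℝ)) * m) + (-13857/40000:ℝ)) * m) + (-4901/8000:ℝ)) * m) + (14963/50000:ℝ)) * m) + (-59487/400000:ℝ)) * m) + (-23631/25000:ℝ))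 * m) + (34337/400000:ℝ))) + (s * (((((((((-981/16000:ℝ) * D) + (((((-8829/4000:ℝ) * m) + (-10549/10000:ℝ)) * m) + (-3689/25000:ℝ))) * D) + (((((((((-61803/8000:ℝ) * m) + (-73843/10000:ℝ)) * m) + (-77469/25000:ℝ)) * m) + (237237/200000:ℝ)) * m) + (20251/200000:ℝ))) * D) + (((((((((((((-20601/4000:ℝ) * m) + (-73843/10000:ℝ)) * m) + (-25823/5000:ℝ)) * m) + (79079/20000:ℝ)) * m) + (20251/20000:ℝ)) * m) + (-28381/25000:ℝ)) * m) + (-36727/400000:ℝ))) * D) + (((((((((((((((((-8829/16000:ℝ) * m) + (-10549/10000:ℝ)) * m) + (-25823/25000:ℝ)) * m) + (237237/200000:ℝ)) * m) + (20251/40000:ℝ)) * m) + (-28381/25000:ℝ)) * m) + (-110181/400000:ℝ)) * m) + (8719/20000:ℝ)) * m) + (39887/200000:ℝ)))))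
noncomputable def EV (s D : ℝ) : ℝ := ((((((((-17783/200000:ℝ) * D) + (-4619/40000:ℝ)) * D) + (14963/100000:ℝ)) * D) + (-23631/25000:ℝ)) + (s * (((((((-10549/40000:ℝ) * D) + (79079/200000:ℝ)) * D) + (-28381/50000:ℝ)) * D) + (8719/20000:ℝ))))

noncomputable def bb (s a : ℝ) : ℝ := s * (a * (1 - a) * pS s (2 * a - 1))

theorem G_add (s m d : ℝ) :
    (1 - (m + d) ^ 2) / 4 * pS s (m + d) = (1 - m ^ 2) / 4 * pS s m + d * d * ES s m (d * d) + d * OS s m (d * d) := by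
  unfold pS ES OS
  ring

theorem bb_add (s a d : ℝ) : bb s (a + d / 2) =
    s * (a * (1 - a) * pS s (2 * a - 1) + d * d * ES s (2 * a - 1) (d * d) + d * OS s (2 * a - 1) (d * d)) := by
  have := G_add s (2 * a - 1) d
  rw [bb, show 2 * (a + d / 2) - 1 = 2 * a - 1 + d by ring,
    show (a + d / 2) * (1 - (a + d / 2)) = (1 - (2 * a - 1 + d) ^ 2) / 4 by ring, this]
  ring

theorem bb_sub (s a d : ℝ) : bb s (a - d / 2) =
    s * (a * (1 - a) * pS s (2 * a - 1) + d * d * ES s (2 * a - 1) (d * d) - d * OS s (2 * a - 1) (d * d)) := by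
  have := bb_add s a (-d)
  rw [show a + -d / 2 = a - d / 2 by ring, neg_mul_neg] at this
  rw [this]
  ring

theorem bb_sum (s a : ℝ) : bb s a + bb s (1 - a) = s * (1 + (2 * a - 1) ^ 2 * EV s ((2 * a - 1) ^ 2)) := by
  have h : ∀ m : ℝ, (1 - m ^ 2) / 4 * pS s m + (1 - m ^ 2) / 4 * pS s (-m) = 1 + m ^ 2 * EV s (m ^ 2) := by
    intro m
    unfold pS EV
    ring
  rw [← h, bb, bb, show 2 * (1 - a) - 1 = -(2 * a - 1) by ring]
  ring

/-- The normalised margin. -/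
noncomputable def Ph (s a e ka nu la : ℝ) : ℝ :=
  2 * (a * (1 - a)) * ES s (2 * a - 1) (a * (1 - a) * e * (a * (1 - a) * e)) -
    ka * (pS s (2 * a - 1) + a * (1 - a) * e * e * ES s (2 * a - 1) (a * (1 - a) * e * (a * (1 - a) * e))) -
    nu * OS s (2 * a - 1) (a * (1 - a) * e * (a * (1 - a) * e)) + la

theorem bat_of {ρ s a e a0 a1 K0 K1 l ka nu la : ℝ} (s0 : 0 ≤ s) (w0 : 0 ≤ a * (1 - a))
    (ha : a = (a0 + a1) / 2) (hd : a1 - a0 = a * (1 - a) * e) (h : UStep ρ Uex K0 K1 l)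
    (e1 : K0 - K1 = e * nu) (e2 : 2 - K0 - K1 = e * e * ka) (e3 : l = s * e * la) (hP : 0 < Ph s a e ka nu la) :
    BAt ρ Uex (bb s) a0 a1 := by
  refine ⟨K0, K1, l, h, ?_⟩
  have f0 : a0 = a - a * (1 - a) * e / 2 := by linarith
  have f1 : a1 = a + a * (1 - a) * e / 2 := by linarith
  have k0 : K0 = 1 + (e * nu - e * e * ka) / 2 := by linarith
  have k1 : K1 = 1 - (e * nu + e * e * ka) / 2 := by linarith
  have key : 0 ≤ s * (a * (1 - a)) * (e * e) * Ph s a e ka nu la :=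
    mul_nonneg (mul_nonneg (mul_nonneg s0 w0) (mul_self_nonneg e)) hP.le
  rw [← ha, hd]
  conv_rhs => rw [f0, f1, bb_add, bb_sub, k0, k1, e3]
  rw [← f0] at *
  unfold Ph at key
  rw [bb]
  generalize pS s (2 * a - 1) = p at *
  generalize ES s (2 * a - 1) (a * (1 - a) * e * (a * (1 - a) * e)) = E at *
  generalize OS s (2 * a - 1) (a * (1 - a) * e * (a * (1 - a) * e)) = O at *
  generalize a * (1 - a) = w at *
  linarith

theorem bat_A {ρ s a xi l a0 a1 : ℝ} (hρ0 : 0 ≤ ρ) (hρ1 : ρ ≤ 1) (hs : s ^ 2 = 1 - ρ ^ 2) (s0 : 0 ≤ s)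
    (s1 : s ≤ 31 / 50) (w0 : 0 ≤ a * (1 - a)) (ha : a = (a0 + a1) / 2) (hd : a1 - a0 = a * (1 - a) * (xi * s))
    (x0 : 0 ≤ xi) (l0 : 0 ≤ l) (h1 : 0 < 3 / 4 - xi * l)
    (h2 : 0 < Ph s a (xi * s) (99 / 200 * (l * l)) (s * l * (4 / 3 - 21 / 200 * (xi * l))) l) :
    BAt ρ Uex (bb s) a0 a1 :=
  bat_of s0 w0 ha hd (ustepA65 (x := xi * l) hρ0 hρ1 hs s0 (by linarith) (mul_nonneg x0 l0) (by linarith))
    (by ring) (by ring) (by ring) h2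

theorem bat_B {ρ s a e ze τ sg ga a0 a1 : ℝ} (hρ0 : 0 ≤ ρ) (hρ1 : ρ ≤ 1) (hs : s ^ 2 = 1 - ρ ^ 2) (s0 : 0 ≤ s)
    (s1 : s ≤ 31 / 50) (w0 : 0 ≤ a * (1 - a)) (ha : a = (a0 + a1) / 2) (hd : a1 - a0 = a * (1 - a) * e)
    (e0 : 0 ≤ e) (hz : ze * e = s) (t0 : 0 ≤ τ) (hsg : sg = 2 * τ * (1 / (1 + e * τ * (e * τ)))) (hga : ga = τ * sg)
    (h1 : 0 < τ - 3 / 10 * ze)
    (h2 : 0 < 1 - e * e * ga - 3 / 25 * (s * s) - s * (7 / 25 * (e * sg) - 1 / 4 * (e * e * ga)))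
    (h3 : 0 < Ph s a e (ga - 1 / 50 * ze * sg) (6 / 25 * ze * s + 29 / 50 * s * sg + (1 - s / 2) * e * ga)
      ((499 / 500 - 3 / 500 * s) * sg)) : BAt ρ Uex (bb s) a0 a1 := by
  have p1 : 0 < 1 + e * τ * (e * τ) := by positivity
  have q1 : (1 + (e * τ) ^ 2) * (e * sg) = 2 * (e * τ) := by
    rw [hsg]
    field_simp
  have q2 : (1 + (e * τ) ^ 2) * (e * e * ga) = 2 * (e * τ) ^ 2 := by
    rw [hga]
    linear_combination (e * τ) * q1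
  have g0 : 0 ≤ sg := by rw [hsg]; positivity
  have c2 : e * e * ga ≤ 2 := by
    by_contra hc
    push Not at hc
    nlinarith [sq_nonneg (e * τ)]
  have n0 := mul_nonneg s0 (mul_nonneg e0 g0)
  have n1 := mul_le_mul_of_nonneg_left c2 s0
  refine bat_of s0 w0 ha hd (ustepB65 (t := e * τ) (sn := e * sg) (cm := e * e * ga) hρ0 hρ1 hs s0 (by linarith)
    (by nlinarith [mul_nonneg e0 h1.le]) q1 q2 (by nlinarith [sq_nonneg s]) (by nlinarith)) ?_ ?_ (by ring) h3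
  · linear_combination (-6 / 25 * s) * hz
  · linear_combination (1 / 50 * e * sg) * hz

theorem ustep_corner {ρ s : ℝ} (hρ0 : 0 ≤ ρ) (hρ1 : ρ ≤ 1) (hs : s ^ 2 = 1 - ρ ^ 2) (s0 : 0 ≤ s) :
    UStep ρ Uex 0 0 s := by
  have k : ∀ z u v : ℝ, 0 ≤ z → z ≤ 1 → 0 ≤ u → 0 ≤ v → u + v ≤ 1 → u * Uex z ≤ Uex (u * z + v) := by
    intro z u v z0 z1 u0 v0 huv
    rcases eq_or_lt_of_le (show 0 ≤ 1 - u by linarith) with h | h
    · have e1 : u = 1 := by linarith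
      have e2 : v = 0 := by linarith
      rw [e1, e2, one_mul, one_mul, add_zero]
    · have r0 : 0 ≤ v / (1 - u) := div_nonneg v0 h.le
      have r1 : v / (1 - u) ≤ 1 := (div_le_one h).2 (by linarith)
      have := Uex_conc.2 (x := z) (y := v / (1 - u)) ⟨z0, z1⟩ ⟨r0, r1⟩ u0 h.le (by ring)
      simp only [smul_eq_mul] at this
      rw [mul_div_cancel₀ _ h.ne'] at this
      nlinarith [mul_nonneg h.le (Uex_nonneg r0 r1)]
  refine ⟨le_rfl, le_rfl, fun p0 p1 a b c => ?_⟩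
  have k1 := k ((1 + ρ) / 2) (p1 - p0) p0 (by linarith) (by linarith) (by linarith) a (by linarith)
  have k2 := k (1 - (1 + ρ) / 2) (p1 - p0) p0 (by linarith) (by linarith) (by linarith) a (by linarith)
  have k3 := Uex_split (p := (1 + ρ) / 2) (by linarith)
  rw [show (1 + ρ) / 2 * (1 - (1 + ρ) / 2) = (s / 2) ^ 2 by linarith, Real.sqrt_sq (by linarith)] at k3
  rw [show (p1 - p0) * ((1 + ρ) / 2) + p0 = (1 + ρ) / 2 * p1 + (1 - ρ) / 2 * p0 by ring] at k1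
  rw [show (p1 - p0) * (1 - (1 + ρ) / 2) + p0 = (1 + ρ) / 2 * p0 + (1 - ρ) / 2 * p1 by ring] at k2
  have : (p1 - p0) * (Uex ((1 + ρ) / 2) + Uex (1 - (1 + ρ) / 2)) = s * (p1 - p0) := by rw [k3]; ring
  linarith

theorem ustep_triv {ρ : ℝ} (hρ0 : 0 ≤ ρ) (hρ1 : ρ ≤ 1) : UStep ρ Uex 1 1 0 := by
  refine ⟨zero_le_one, zero_le_one, fun p0 p1 a b c => ?_⟩
  have := gain_nonneg hρ0 hρ1 Uex_conc a b c
  unfold gain at this
  linarith

theorem e_le {a d : ℝ} (d0 : 0 ≤ d) (h1 : d ≤ 2 * a) (h2 : d ≤ 2 * (1 - a)) (h3 : 3 * d ^ 2 ≤ 2 * a)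
    (h4 : 3 * d ^ 2 ≤ 2 * (1 - a)) : d ≤ 12 / 5 * (a * (1 - a)) := by
  have k : ∀ a : ℝ, a ≤ 1 / 2 → d ≤ 2 * a → 3 * d ^ 2 ≤ 2 * a → d ≤ 12 / 5 * (a * (1 - a)) := by
    intro a ha h1 h3
    have a0 : 0 ≤ a := by linarith
    rcases le_total a (1 / 6) with h | h
    · nlinarith
    · have q : 0 ≤ 144 / 25 * a ^ 2 - 264 / 25 * a + 4 := by nlinarith
      have q2 : 0 ≤ a * ((a - 1 / 6) * (144 / 25 * a ^ 2 - 264 / 25 * a + 4)) :=
        mul_nonneg a0 (mul_nonneg (by linarith) q)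
      refine (abs_le_of_sq_le_sq' (by nlinarith) (by nlinarith)).2
  rcases le_total a (1 / 2) with h | h
  · exact k a h h1 h3
  · have := k (1 - a) (by linarith) h2 h4
    linarith

/-- `XCore` from the single hypothesis on the restricted region. -/
theorem xcore_of_b {ρ : ℝ} (hρ0 : 0 ≤ ρ) (hρ1 : ρ ≤ 1) {b : ℝ → ℝ} (b0 : b 0 ≤ 0) (b1 : b 1 ≤ 0)
    (sb : ∀ a0 a1 : ℝ, 0 ≤ a0 → a0 ≤ a1 → a1 ≤ 1 → Sm3 a0 a1 → BAt ρ Uex b a0 a1)
    (fin : ∀ a : ℝ, 0 ≤ a → a ≤ 1 → √(1 - ρ ^ 2) - 1 + 2 * √(a * (1 - a)) ≤ b a + b (1 - a)) : XCore ρ := by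
  refine xcore_of_primal2 hρ0 hρ1 (fun a X Y => b a ≤ X ∧ b (1 - a) ≤ Y) ⟨b0, by simpa using b1⟩
    ⟨b1, by simpa using b0⟩ (fun a0 a1 X0 Y0 X1 Y1 X Y a00 a01 a11 hS R0 R1 hX hY => ⟨?_, ?_⟩)
    fun a X Y h0 h1 R => (fin a h0 h1).trans (add_le_add R.1 R.2)
  · obtain ⟨K0, K1, l, hK, hb⟩ := sb a0 a1 a00 a01 a11 hS
    have := hX K0 K1 l hK
    have := mul_le_mul_of_nonneg_left R0.1 hK.1
    have := mul_le_mul_of_nonneg_left R1.1 hK.2.1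
    linarith
  · obtain ⟨K0, K1, l, hK, hb⟩ := sb (1 - a1) (1 - a0) (by linarith) (by linarith) (by linarith) hS.symm
    have := hY K0 K1 l hK
    have := mul_le_mul_of_nonneg_left R1.2 hK.1
    have := mul_le_mul_of_nonneg_left R0.2 hK.2.1
    rw [show (1 - a1 + (1 - a0)) / 2 = 1 - (a0 + a1) / 2 by ring] at hb
    linarith

end Crest.Agent.R307.HK
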