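import Crest.Agent.R307.HKg
import Crest.Agent.R307.HK1M
import Crest.Agent.R307.HK2M
import Crest.Agent.R307.HK3M
import Crest.Agent.R307.HK4M
import Crest.Agent.R307.HK5M
import Crest.Agent.R307.HK6M

/-!
# R307/HKz: `XCore ρ` for `√(1-ρ²) ≤ 0.62` (single hypothesis, families A and B, restricted region)
-/

set_option autoImplicit false

namespace Crest.Agent.R307.HK

open Crest.CubeNoise Set Crest.Agent.R307

theorem hk_step {ρ s : ℝ} (hρ0 : 0 ≤ ρ) (hρ1 : ρ ≤ 1) (hs : s ^ 2 = 1 - ρ ^ 2) (s0 : 0 < s) (s1 : s ≤ 31 / 50)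
    (a0 a1 : ℝ) (h0 : 0 ≤ a0) (h01 : a0 ≤ a1) (h1 : a1 ≤ 1) (hS : Sm3 a0 a1) : BAt ρ Uex (bb s) a0 a1 := by
  rcases hS with ⟨c1, c2, -, -⟩ | ⟨rfl, rfl⟩ | ⟨rfl, rfl⟩ | ⟨rfl, rfl⟩
  · rcases eq_or_lt_of_le h01 with hd | hd
    · refine ⟨1, 1, 0, ustep_triv hρ0 hρ1, ?_⟩
      rw [← hd, show (a0 + a0) / 2 = a0 by ring]
      linarith
    obtain ⟨a, ha⟩ : ∃ a, a = (a0 + a1) / 2 := ⟨_, rfl⟩
    have w0 : 0 < a * (1 - a) := mul_pos (by linarith) (by linarith)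
    obtain ⟨e, he⟩ : ∃ e, e = (a1 - a0) / (a * (1 - a)) := ⟨_, rfl⟩
    have e0 : 0 < e := by rw [he]; exact div_pos (by linarith) w0
    have hde : a1 - a0 = a * (1 - a) * e := by rw [he, mul_div_cancel₀ _ w0.ne']
    have e1 : e ≤ 12 / 5 := by
      rw [he, div_le_iff₀ w0]
      exact e_le (by linarith) (by linarith) (by linarith) (by linarith) (by linarith)
    have a00 : 0 ≤ a := by linarith
    have a11 : a ≤ 1 := by linarith
    rcases le_or_gt e (2 * s) with h | h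
    · obtain ⟨xi, hxi⟩ : ∃ xi, xi = e / s := ⟨_, rfl⟩
      have x0 : 0 < xi := by rw [hxi]; positivity
      have hx : e = xi * s := by rw [hxi, div_mul_cancel₀ _ s0.ne']
      obtain ⟨l, l0, -, hQ | hQ⟩ := HK1.main s a xi s0.le s1 a00 a11 x0.le (by rw [hxi, div_le_iff₀ s0]; exact h)
      · exact bat_A hρ0 hρ1 hs s0.le s1 w0.le ha (hx ▸ hde) x0.le l0 hQ.1 hQ.2
      · exact bat_B (e := xi * s) (ze := 1 / xi) (τ := l / 2) hρ0 hρ1 hs s0.le s1 w0.le ha (hx ▸ hde)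
          (hx ▸ e0.le) (by field_simp) (by linarith) rfl rfl hQ.1 hQ.2.1 hQ.2.2
    rcases le_or_gt e (31 / 25) with h' | h'
    · obtain ⟨ze, hze⟩ : ∃ ze, ze = s / e := ⟨_, rfl⟩
      have hz : s = ze * e := by rw [hze, div_mul_cancel₀ _ e0.ne']
      obtain ⟨l, l0, -, hQ⟩ := HK2.main ze a e (by rw [hze]; positivity)
        (by rw [hze, div_le_iff₀ e0]; linarith) a00 a11 e0.le h'
      subst hz
      exact bat_B (τ := l / 2) hρ0 hρ1 hs s0.le s1 w0.le ha hde e0.le rfl (by linarith) rfl rfl hQ.1 hQ.2.1 hQ.2.2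
    · obtain ⟨l, l0, -, hQ | hQ | hQ | hQ | hQ⟩ := HK3.main s a e s0.le s1 a00 a11 h'.le e1
      · exact bat_B (ze := s / e) (τ := l / 2) hρ0 hρ1 hs s0.le s1 w0.le ha hde e0.le (by field_simp)
          (by linarith) rfl rfl hQ.1 hQ.2.1 hQ.2.2
      · exfalso
        have a0' : 0 < a := by linarith
        have : 0 < a * ((1 - a) * e - 2) := mul_pos a0' (by linarith)
        nlinarith
      · exfalso
        have a0' : 0 < 1 - a := by linarith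
        have : 0 < (1 - a) * (a * e - 2) := mul_pos a0' (by linarith)
        nlinarith
      · exfalso
        have : HK3.D s a e l = (a1 - a0) ^ 2 := by rw [hde, sq]; rfl
        rw [this] at hQ
        linarith
      · exfalso
        have : HK3.D s a e l = (a1 - a0) ^ 2 := by rw [hde, sq]; rfl
        rw [this] at hQ
        linarith
  · refine ⟨0, 0, s, ustep_corner hρ0 hρ1 hs s0.le, le_of_eq ?_⟩
    unfold bb pS
    ring
  · obtain ⟨l, l0, -, hQ⟩ := HK5.main s (1 / 4) (8 / 3) s0.le s1 le_rfl le_rfl le_rfl le_rfl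
    exact bat_B (a := 1 / 4) (e := 8 / 3) (ze := s / (8 / 3)) (τ := l / 2) hρ0 hρ1 hs s0.le s1 (by norm_num)
      (by norm_num) (by norm_num) (by norm_num) (by field_simp) (by linarith) rfl rfl hQ.1 hQ.2.1 hQ.2.2
  · obtain ⟨l, l0, -, hQ⟩ := HK6.main s (3 / 4) (8 / 3) s0.le s1 le_rfl le_rfl le_rfl le_rfl
    exact bat_B (a := 3 / 4) (e := 8 / 3) (ze := s / (8 / 3)) (τ := l / 2) hρ0 hρ1 hs s0.le s1 (by norm_num)
      (by norm_num) (by norm_num) (by norm_num) (by field_simp) (by linarith) rfl rfl hQ.1 hQ.2.1 hQ.2.2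

theorem hk_fin {s a : ℝ} (s0 : 0 ≤ s) (s1 : s ≤ 31 / 50) (a0 : 0 ≤ a) (a1 : a ≤ 1) :
    s - 1 + 2 * √(a * (1 - a)) ≤ bb s a + bb s (1 - a) := by
  have hm : |2 * a - 1| ≤ 1 := abs_le.2 ⟨by linarith, by linarith⟩
  have hQ : 0 < s * EV s (|2 * a - 1| * |2 * a - 1|) + 1 / (1 + √(1 - |2 * a - 1| * |2 * a - 1|)) :=
    HK4.main s |2 * a - 1| s0 s1 (abs_nonneg _) hm
  rw [abs_mul_abs_self, ← sq] at hQ
  have e : √(1 - (2 * a - 1) ^ 2) = 2 * √(a * (1 - a)) := by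
    rw [← xind_sqrt, sub_eq_add_neg (2 * a)]
  have e2 : (2 * √(a * (1 - a))) ^ 2 = 1 - (2 * a - 1) ^ 2 := by
    rw [mul_pow, Real.sq_sqrt (mul_nonneg a0 (by linarith))]
    ring
  rw [e] at hQ
  rw [bb_sum]
  have c0 : 0 ≤ 2 * √(a * (1 - a)) := by positivity
  generalize 2 * √(a * (1 - a)) = c at *
  generalize EV s ((2 * a - 1) ^ 2) = E at *
  have hM : (2 * a - 1) ^ 2 * (1 / (1 + c)) = 1 - c := by
    rw [show (2 * a - 1) ^ 2 = (1 - c) * (1 + c) by linarith]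
    field_simp
  have := mul_nonneg (sq_nonneg (2 * a - 1)) hQ.le
  rw [mul_add, hM] at this
  nlinarith

/-- The low-noise and bridge windows. -/
theorem hk_core {ρ : ℝ} (h0 : 157 / 200 ≤ ρ) (h1 : ρ ≤ 1) : XCore ρ := by
  have hρ0 : 0 ≤ ρ := by linarith
  have n0 : 0 ≤ 1 - ρ ^ 2 := by nlinarith
  have hs : √(1 - ρ ^ 2) ^ 2 = 1 - ρ ^ 2 := Real.sq_sqrt n0
  have s1 : √(1 - ρ ^ 2) ≤ 31 / 50 := Real.sqrt_le_iff.2 ⟨by norm_num, by nlinarith⟩
  refine xcore_of_b (b := bb √(1 - ρ ^ 2)) hρ0 h1 (by simp [bb]) (by simp [bb]) (fun a0 a1 a b c hS => ?_)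
    fun a a0 a1 => hk_fin (Real.sqrt_nonneg _) s1 a0 a1
  rcases eq_or_lt_of_le (Real.sqrt_nonneg (1 - ρ ^ 2)) with h | h
  · refine ⟨0, 0, _, ustep_corner hρ0 h1 hs (Real.sqrt_nonneg _), ?_⟩
    rw [← h]
    simp [bb]
  · exact hk_step hρ0 h1 hs h s1 a0 a1 a b c hS

end Crest.Agent.R307.HK
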