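import Crest.Agent.R307.HL1J
set_option autoImplicit false
set_option maxRecDepth 100000
namespace Crest.Agent.R307.HL1J
open Crest.Agent.R307.IA Crest.Agent.R307.IA3

theorem k4 : Cov Q 1152921504606846976 1152922054362660864 1152921724509175915 1152921944411498087 1152921504606846976 1152925902653358080 :=
  cov_of snd 32 4294967295 15 _ _ _ _ _ _ 0x800080003800080003800080003800080003180008000380008000310180008000380008000380008000318000800038000800031080008000380008000396b196b5496b196b540944b8b154944b8b154002929e801e4929e801e40700e6b8540028a0f7511485016e804086c96165486c961654000800080003988498824988498824095618c26495618c2640093e386234700e6b854002892f7672483e96feb40880862ec4880862ec4000112800080003800080003800080003128000800038000800038000800031206cd1652f46cd1652f4051fc4745466444cc3400800080003595c402a4571c3f4a4571c3f4a400444a36754444a36754053093b5e4508c39e940002071bd67bc471bd67bc4054f046dc454f046dc4005f6946b745f6946b74051073f36451073f364008000800034aef37ff44aef37ff40280008000369363d6b4262cf3716462cf371640000011096099618496099618409a0999fd49a0999fd401952d8bd14952d8bd1418e8d85b140091d97f92491d97f9240941a833f4941a833f40189606b6c489606b6c400086f37212481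2873a1407b746d9c475cd67d040006719563a46719563a4064f756b345b8147b645b8147b640005c4e472c45c4e472c40580c4b434580c4b434014cbc3c9344cbc3c9340080008000348e23723448e2372340149cd3396449cd339640476230e34476230e340128000800035e823d494159223c094280008000358d636b84151b63d3842000001903f90424903f904240948a94824948a948240191d08841491d0884141912d82b54912d82b541008e4a7b5148e4a7b514090d07e4f490d07e4f40185f165b7485f165b7400086ff6265486ff626541858d6dce40809867cf47b9b6229400076955ca947185572e406c6d51ac45c7047ef45c7047ef40005f9b46dd45f9b46dd405d1d488045d1d48804015e7046d945e7046d9405bd0485945bd0485940124e70381944e7038194004d6b316244d6b3162404b2b304244b2b30424014f95328544f9532854056e53fad454553db14014e552f8544e552f854056e53fad454553db1401224d11442744d1144274149763b37449763b37420000098099818498099818409b699b5d49b699b5d401900d87b14900d87b140092f98152492f98152408ef97db24189c06c8c489c06c8c400086f372124812873a1407b746d9c475cd67d040006cbf5fa046cbf5fa04064f756b3456614b96456614b9640005aae4a4c45aae4a4c40584c4c034584c4c03401596e49ec4596e49ec4056fc4b93456fc4b9340124abc38f344abc38f34005260421a44fbc4020404e3c44b744b8842bf4015260421a44fbc4020404e3c44b744b8842bf4012485153ad4485153ad423fd641d843fd641d842000001222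 (by decide +kernel)

end Crest.Agent.R307.HL1J
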