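import Crest.Agent.R307.HPp

/-!
# R307/HLg: generic glue between box certificates and the pure hyperbola step
-/

set_option autoImplicit false

namespace Crest.Agent.R307

open Crest.CubeNoise Set

/-- The three multiplier families for `Uex` (`s = √(1-ρ²)`). -/
structure Fam (ρ s : ℝ) : Prop where
  A : ∀ l : ℝ, 0 ≤ l → l ≤ 3 / 4 * s →
    UStep ρ Uex (1 + (2/3:ℝ) * (s * l) - (3/10:ℝ) * l ^ 2) (1 - (2/3:ℝ) * (s * l) - (39/200:ℝ) * l ^ 2) (s * l)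
  B : ∀ t : ℝ, 3 / 10 * s ≤ t → t ≤ 11 / 20 →
    UStep ρ Uex (1 + s * ((3/25:ℝ) * s + ((3/10:ℝ) * (2 * t / (1 + t ^ 2)) - t * (2 * t / (1 + t ^ 2)) / 4)))
      (1 - t * (2 * t / (1 + t ^ 2)) -
        s * ((3/25:ℝ) * s + ((7/25:ℝ) * (2 * t / (1 + t ^ 2)) - t * (2 * t / (1 + t ^ 2)) / 4)))
      (s * (((499/500:ℝ) - (3/500:ℝ) * s) * (2 * t / (1 + t ^ 2))))
  D : ∀ t : ℝ, 11 / 20 ≤ t → t ≤ 1 →
    UStep ρ Uex (1 + s * (((-1/20:ℝ) + t * ((3/5:ℝ) - (21/50:ℝ) * t)) * (1 / (1 + t ^ 2))))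
      ((1 - t) * (1 / (1 + t ^ 2)) *
        (1 + t - s * ((93/100:ℝ) * t - (17/100:ℝ) + s * ((1/10:ℝ) + (3/25:ℝ) * t))))
      (s * ((2 * t - (1/250:ℝ) * (1 - t)) * (1 / (1 + t ^ 2))))

/-- The pure hyperbola step, normalised by `s`. -/
def HS (ρ s : ℝ) (u v : ℝ → ℝ) (a0 a1 : ℝ) : Prop :=
  ∃ K0 K1 l M0 M1 m r0 r1 r : ℝ, UStep ρ Uex K0 K1 (s * l) ∧ UStep ρ Uex M0 M1 (s * m) ∧
    0 ≤ K0 * u a0 + K1 * u a1 + l * (a1 - a0) - 2 * u ((a0 + a1) / 2) ∧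
    0 ≤ M0 * u (1 - a1) + M1 * u (1 - a0) + m * (a1 - a0) - 2 * u (1 - (a0 + a1) / 2) ∧
    r0 ^ 2 ≤ K0 * M1 ∧ r1 ^ 2 ≤ K1 * M0 ∧
    r ^ 2 ≤ (K0 * u a0 + K1 * u a1 + l * (a1 - a0) - 2 * u ((a0 + a1) / 2)) *
      (M0 * u (1 - a1) + M1 * u (1 - a0) + m * (a1 - a0) - 2 * u (1 - (a0 + a1) / 2)) ∧
    2 * v ((a0 + a1) / 2) ≤ r0 * v a0 + r1 * v a1 + r

theorem HS.symm {ρ s a0 a1 : ℝ} {u v : ℝ → ℝ} (hv : ∀ a, v (1 - a) = v a) (h : HS ρ s u v (1 - a1) (1 - a0)) :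
    HS ρ s u v a0 a1 := by
  obtain ⟨K0, K1, l, M0, M1, m, r0, r1, r, hK, hM, p, q, g0, g1, g, z⟩ := h
  have e1 : (1 - a1 + (1 - a0)) / 2 = 1 - (a0 + a1) / 2 := by ring
  have e2 : 1 - a0 - (1 - a1) = a1 - a0 := by ring
  simp only [e1, e2, sub_sub_cancel, hv] at p q g z
  exact ⟨M0, M1, m, K0, K1, l, r1, r0, r, hM, hK, q, p, by linarith, by linarith, by linarith, by linarith⟩

theorem xcore_of_HS {ρ s : ℝ} (hρ0 : 0 ≤ ρ) (hρ1 : ρ ≤ 1) (hs : s = √(1 - ρ ^ 2)) {u v : ℝ → ℝ}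
    (u0 : u 0 = 0) (u1 : u 1 = 0) (v0 : v 0 = 0) (hv : ∀ a, v (1 - a) = v a)
    (vp : ∀ a, 0 ≤ a → a ≤ 1 → 0 ≤ v a)
    (st : ∀ a0 a1 : ℝ, 0 ≤ a0 → a0 ≤ a1 → a0 + a1 ≤ 1 → HS ρ s u v a0 a1)
    (fin : ∀ a : ℝ, 0 ≤ a → a ≤ 1 → s - 1 + 2 * √(a * (1 - a)) ≤ s * (u a + u (1 - a) + 2 * v a)) : XCore ρ := by
  have s0 : 0 ≤ s := hs ▸ Real.sqrt_nonneg _
  have v1 : v 1 = 0 := by rw [← v0, ← hv 0, sub_zero]
  refine xcore_of_primal hρ0 hρ1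
    (fun a X Y => s * u a ≤ X ∧ s * u (1 - a) ≤ Y ∧ (s * v a) ^ 2 ≤ (X - s * u a) * (Y - s * u (1 - a)))
    (by simp [u0, u1, v0]) (by simp [u0, u1, v1])
    (fun a0 a1 X0 Y0 X1 Y1 X Y h0 h01 h1 R0 R1 hX hY => ?_) (fun a X Y h0 h1 R => ?_)
  · have H : HS ρ s u v a0 a1 := by
      rcases le_total (a0 + a1) 1 with h | h
      · exact st a0 a1 h0 h01 h
      · exact HS.symm hv (st _ _ (by linarith) (by linarith) (by linarith))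
    obtain ⟨K0, K1, l, M0, M1, m, r0, r1, r, hK, hM, p, q, g0, g1, g, z⟩ := H
    have w := vp ((a0 + a1) / 2) (by linarith) (by linarith)
    refine hp_step (r0 := r0) (r1 := r1) (r := s * r) hK.1 hK.2.1 hM.1 hM.2.1 R0.1 R0.2.1 R0.2.2 R1.1 R1.2.1 R1.2.2
      (hX _ _ _ hK) (hY _ _ _ hM) ?_ ?_ g0 g1 ?_ (mul_nonneg s0 w) ?_
    · linarith [mul_nonneg s0 p]
    · linarith [mul_nonneg s0 q]
    · linarith [mul_le_mul_of_nonneg_left g (sq_nonneg s)]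
    · linarith [mul_le_mul_of_nonneg_left z s0]
  · obtain ⟨h2, h3, h4⟩ := R
    have : (2 * (s * v a)) ^ 2 ≤ ((X - s * u a) + (Y - s * u (1 - a))) ^ 2 := by
      nlinarith [sq_nonneg ((X - s * u a) - (Y - s * u (1 - a)))]
    have := (abs_le_of_sq_le_sq' this (by linarith)).2
    have := fin a h0 h1
    rw [← hs]
    linarith

/-- Values of `u, u(1-·), v` at `a(1-f), a, a(1+f)`. -/
structure Bs (u v : ℝ → ℝ) (a f uh u0 u1 ch c0 c1 vh v0 v1 : ℝ) : Prop where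
  e0 : u (a * (1 - f)) = a * u0
  e1 : u (a * (1 + f)) = a * u1
  em : u a = a * uh
  d0 : u (1 - a * (1 - f)) = a * c0
  d1 : u (1 - a * (1 + f)) = a * c1
  dm : u (1 - a) = a * ch
  w0 : v (a * (1 - f)) = a ^ 2 * v0
  w1 : v (a * (1 + f)) = a ^ 2 * v1
  wm : v a = a ^ 2 * vh

theorem hl_core {ρ s a f K0 K1 l M0 M1 m uh u0 u1 ch c0 c1 vh v0 v1 g0 g1 P Q Z w : ℝ} {u v : ℝ → ℝ}
    (b : Bs u v a f uh u0 u1 ch c0 c1 vh v0 v1) (ha : 0 ≤ a) (hw : 0 ≤ w)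
    (hK : UStep ρ Uex K0 K1 (s * l)) (hM : UStep ρ Uex M0 M1 (s * m))
    (h0 : g0 ^ 2 ≤ K0 * M1) (h1 : g1 ^ 2 ≤ K1 * M0)
    (hP : K0 * u0 + K1 * u1 + 2 * (f * l) - 2 * uh = w * P)
    (hQ : M0 * c1 + M1 * c0 + 2 * (f * m) - 2 * ch = w * Q)
    (hZ : g0 * v0 + g1 * v1 - 2 * vh = w * Z)
    (p : 0 < P) (q : 0 < Q) (d : 0 < P * Q - (max (-(a * Z)) 0) ^ 2) :
    HS ρ s u v (a * (1 - f)) (a * (1 + f)) := by
  have em : (a * (1 - f) + a * (1 + f)) / 2 = a := by ring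
  have aw := mul_nonneg ha hw
  have eP : K0 * u (a * (1 - f)) + K1 * u (a * (1 + f)) + l * (a * (1 + f) - a * (1 - f)) - 2 * u a = a * w * P := by
    rw [b.e0, b.e1, b.em]; linear_combination a * hP
  have eQ : M0 * u (1 - a * (1 + f)) + M1 * u (1 - a * (1 - f)) + m * (a * (1 + f) - a * (1 - f)) - 2 * u (1 - a) =
      a * w * Q := by
    rw [b.d0, b.d1, b.dm]; linear_combination a * hQ
  refine ⟨K0, K1, l, M0, M1, m, g0, g1, a * w * max (-(a * Z)) 0, hK, hM, ?_, ?_, h0, h1, ?_, ?_⟩ <;> rw [em]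
  · rw [eP]; positivity
  · rw [eQ]; positivity
  · rw [eP, eQ]
    linarith [mul_le_mul_of_nonneg_left d.le (sq_nonneg (a * w))]
  · rw [b.w0, b.w1, b.wm]
    have := mul_le_mul_of_nonneg_left (le_max_left (-(a * Z)) 0) aw
    have e : a ^ 2 * (g0 * v0 + g1 * v1 - 2 * vh) = a ^ 2 * (w * Z) := by rw [hZ]
    linarith

/-- Direct form. -/
theorem hl_dir {ρ s a f K0 K1 l M0 M1 m uh u0 u1 ch c0 c1 vh v0 v1 : ℝ} {u v : ℝ → ℝ}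
    (b : Bs u v a f uh u0 u1 ch c0 c1 vh v0 v1) (ha : 0 ≤ a)
    (hK : UStep ρ Uex K0 K1 (s * l)) (hM : UStep ρ Uex M0 M1 (s * m))
    (p : 0 < K0 * u0 + K1 * u1 + 2 * (f * l) - 2 * uh) (q : 0 < M0 * c1 + M1 * c0 + 2 * (f * m) - 2 * ch)
    (d : 0 < (K0 * u0 + K1 * u1 + 2 * (f * l) - 2 * uh) * (M0 * c1 + M1 * c0 + 2 * (f * m) - 2 * ch) -
      (max (-(a * (√(K0 * M1) * v0 + √(K1 * M0) * v1 - 2 * vh))) 0) ^ 2) :
    HS ρ s u v (a * (1 - f)) (a * (1 + f)) :=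
  hl_core (w := 1) b ha zero_le_one hK hM (Real.sq_sqrt (mul_nonneg hK.1 hM.2.1)).le
    (Real.sq_sqrt (mul_nonneg hK.2.1 hM.1)).le (one_mul _).symm (one_mul _).symm (one_mul _).symm p q d

theorem hl_sqrt {f y : ℝ} (h : 0 ≤ 1 + f * y) :
    √(1 + f * y) = 1 + f * y / 2 - f ^ 2 * (y / (1 + √(1 + f * y))) ^ 2 / 2 := by
  have e := Real.sq_sqrt h
  have p := Real.sqrt_nonneg (1 + f * y)
  generalize √(1 + f * y) = g at *
  have e2 : f * (y / (1 + g)) = g - 1 := by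
    have : 0 < 1 + g := by linarith
    field_simp
    linarith
  have : f ^ 2 * (y / (1 + g)) ^ 2 = (g - 1) ^ 2 := by rw [← mul_pow, e2]
  rw [this]
  linarith

/-- Multipliers in the form used near the diagonal. -/
def UE (ρ s f ka nu la : ℝ) : Prop :=
  UStep ρ Uex (1 + f * ((nu - f * ka) / 2)) (1 - f * ((nu + f * ka) / 2)) (s * (f * la))

/-- Desingularised form. -/
theorem hl_des {ρ s a f ka nu la kb nv lb uh uE uO ch cE cO vh vE vO um cm vm v0 v1 w0 w1 y0 y1 P Q : ℝ}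
    {u v : ℝ → ℝ}
    (b : Bs u v a f uh (um - 2 * (f * uO)) (um + 2 * (f * uO)) ch (cm - 2 * (f * cO)) (cm + 2 * (f * cO)) vh v0 v1)
    (ha : 0 ≤ a) (hK : UE ρ s f ka nu la) (hM : UE ρ s f kb nv lb)
    (hu : um = uh + 4 * (a * f ^ 2) * uE) (hc : cm = ch + 4 * (a * f ^ 2) * cE) (hv : vm = vh + 4 * (f ^ 2 * vE))
    (hv0 : v0 = vm - 2 * (f * vO)) (hv1 : v1 = vm + 2 * (f * vO))
    (hw0 : w0 = (ka + kb) / 2 + (nu - f * ka) / 2 * ((nv + f * kb) / 2))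
    (hw1 : w1 = (ka + kb) / 2 + (nu + f * ka) / 2 * ((nv - f * kb) / 2))
    (hy0 : y0 = (nu - nv) / 2 - f * w0) (hy1 : y1 = -((nu - nv) / 2) - f * w1)
    (hP : P = 8 * (a * uE) - ka * um - 2 * (nu * uO) + 2 * la)
    (hQ : Q = 8 * (a * cE) - kb * cm + 2 * (nv * cO) + 2 * lb)
    (p : 0 < P) (q : 0 < Q)
    (d : 0 < P * Q - (max (-(a * (8 * vE - 2 * ((nu - nv) / 2 * vO) -
      ((w0 + (y0 / (1 + √(1 + f * y0))) ^ 2) * v0 + (w1 + (y1 / (1 + √(1 + f * y1))) ^ 2) * v1) / 2))) 0) ^ 2) :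
    HS ρ s u v (a * (1 - f)) (a * (1 + f)) := by
  have e0 : 1 + f * y0 = (1 + f * ((nu - f * ka) / 2)) * (1 - f * ((nv + f * kb) / 2)) := by rw [hy0, hw0]; ring
  have e1 : 1 + f * y1 = (1 - f * ((nu + f * ka) / 2)) * (1 + f * ((nv - f * kb) / 2)) := by rw [hy1, hw1]; ring
  have n0 : 0 ≤ 1 + f * y0 := e0 ▸ mul_nonneg hK.1 hM.2.1
  have n1 : 0 ≤ 1 + f * y1 := e1 ▸ mul_nonneg hK.2.1 hM.1
  refine hl_core (w := f ^ 2) (g0 := √(1 + f * y0)) (g1 := √(1 + f * y1)) b ha (sq_nonneg f) hK hM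
    (by rw [Real.sq_sqrt n0, e0]) (by rw [Real.sq_sqrt n1, e1]) ?_ ?_ ?_ p q d
  · rw [hP, hu]; ring
  · rw [hQ, hc]; ring
  · have s0 := hl_sqrt n0
    have s1 := hl_sqrt n1
    generalize (y0 / (1 + √(1 + f * y0))) ^ 2 = t0 at *
    generalize (y1 / (1 + √(1 + f * y1))) ^ 2 = t1 at *
    rw [s0, s1, hy0, hy1, hv0, hv1, hv]
    ring

theorem Fam.AE {ρ s f g : ℝ} (F : Fam ρ s) (hf : 0 ≤ f) (hg : 0 ≤ g) (h : g * f ≤ 3 / 4 * s) :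
    UE ρ s f ((99/200:ℝ) * g ^ 2) ((4/3:ℝ) * (s * g) - (21/200:ℝ) * (f * g ^ 2)) g := by
  unfold UE
  convert F.A (g * f) (mul_nonneg hg hf) h using 1 <;> ring

theorem Fam.BE {ρ s f z g : ℝ} (F : Fam ρ (z * f)) (hf : 0 ≤ f) (h1 : 0 < g - (3/10:ℝ) * z)
    (h2 : 0 < (11/20:ℝ) - g * f) (hs : s = z * f) :
    UE ρ s f (g * (2 * g / (1 + (g * f) ^ 2)) - (1/50:ℝ) * (z * (2 * g / (1 + (g * f) ^ 2))))
      (f * (g * (2 * g / (1 + (g * f) ^ 2))) * (1 - s / 2) +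
        s * ((6/25:ℝ) * z + (29/50:ℝ) * (2 * g / (1 + (g * f) ^ 2))))
      (((499/500:ℝ) - (3/500:ℝ) * s) * (2 * g / (1 + (g * f) ^ 2))) := by
  subst hs
  unfold UE
  convert F.B (g * f) (by nlinarith [mul_nonneg h1.le hf]) (by linarith) using 1 <;> ring

/-- Corner form. -/
theorem hl_cor {ρ s r x e K0 kp lp M0 kq lq ua cb ub ca U1 W1 V2 va vb P Q Z : ℝ} {u v : ℝ → ℝ}
    (hr : 0 ≤ r) (hK : UStep ρ Uex K0 (r * kp) (s * (1 - r * lp))) (hM : UStep ρ Uex M0 (r * kq) (s * (1 - r * lq)))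
    (e0 : u (r * x) = r * x * ua) (e1 : u (1 - r * (1 - x)) = r * (1 - x) * cb)
    (d0 : u (1 - r * x) = r * x * ca) (d1 : u (r * (1 - x)) = r * (1 - x) * ub)
    (em : u ((1 + r * (2 * x - 1)) / 2) = (1 - e) / 2 + r * (2 * x - 1) * U1)
    (dm : u (1 - (1 + r * (2 * x - 1)) / 2) = (1 - e) / 2 + r * (2 * x - 1) * W1)
    (w0 : v (r * x) = (r * x) ^ 2 * va) (w1 : v (1 - r * (1 - x)) = (r * (1 - x)) ^ 2 * vb)
    (wm : v ((1 + r * (2 * x - 1)) / 2) = e / 2 + (r * (2 * x - 1)) ^ 2 * V2)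
    (hP : P = K0 * (x * ua) + kp * (r * (1 - x) * cb) - 1 - lp * (1 - r) - 2 * ((2 * x - 1) * U1))
    (hQ : Q = M0 * ((1 - x) * ub) + kq * (r * x * ca) - 1 - lq * (1 - r) - 2 * ((2 * x - 1) * W1))
    (hZ : Z = 2 * (r * (2 * x - 1) * (2 * x - 1) * V2) - √(K0 * (r * kq)) * (r * x * x * va) -
      √(r * kp * M0) * (r * (1 - x) * (1 - x) * vb))
    (p : 0 < e + r * P) (q : 0 < e + r * Q) (d : 0 < e * (P + Q - 2 * Z) + r * (P * Q - Z ^ 2)) :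
    HS ρ s u v (r * x) (1 - r * (1 - x)) := by
  have m : (r * x + (1 - r * (1 - x))) / 2 = (1 + r * (2 * x - 1)) / 2 := by ring
  have eP : K0 * u (r * x) + r * kp * u (1 - r * (1 - x)) + (1 - r * lp) * (1 - r * (1 - x) - r * x) -
      2 * u ((1 + r * (2 * x - 1)) / 2) = e + r * P := by
    rw [e0, e1, em, hP]; ring
  have eQ : M0 * u (1 - (1 - r * (1 - x))) + r * kq * u (1 - r * x) + (1 - r * lq) * (1 - r * (1 - x) - r * x) -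
      2 * u (1 - (1 + r * (2 * x - 1)) / 2) = e + r * Q := by
    rw [sub_sub_cancel, d0, d1, dm, hQ]; ring
  refine ⟨K0, r * kp, 1 - r * lp, M0, r * kq, 1 - r * lq, √(K0 * (r * kq)), √(r * kp * M0), e + r * Z, hK, hM,
    ?_, ?_, (Real.sq_sqrt (mul_nonneg hK.1 hM.2.1)).le, (Real.sq_sqrt (mul_nonneg hK.2.1 hM.1)).le, ?_, ?_⟩ <;> rw [m]
  · rw [eP]; exact p.le
  · rw [eQ]; exact q.le
  · rw [eP, eQ]; linarith [mul_nonneg hr d.le]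
  · rw [w0, w1, wm, hZ]; linarith

theorem Fam.DC {ρ s r g : ℝ} (F : Fam ρ s) (h0 : 0 ≤ r * g) (h1 : r * g ≤ 9 / 20) :
    UStep ρ Uex (1 + s * (((-1/20:ℝ) + (1 - r * g) * ((3/5:ℝ) - (21/50:ℝ) * (1 - r * g))) * (1 / (1 + (1 - r * g) ^ 2))))
      (r * (g * (1 / (1 + (1 - r * g) ^ 2)) * (1 + (1 - r * g) -
        s * ((93/100:ℝ) * (1 - r * g) - (17/100:ℝ) + s * ((1/10:ℝ) + (3/25:ℝ) * (1 - r * g))))))
      (s * (1 - r * (g * (r * g + (1/250:ℝ)) * (1 / (1 + (1 - r * g) ^ 2))))) := by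
  convert F.D (1 - r * g) (by linarith) (by linarith) using 1
  · ring
  · have : 0 < 1 + (1 - r * g) ^ 2 := by positivity
    field_simp
    ring

/-- Assembly of the four charts. -/
theorem hl_charts {ρ s : ℝ} {u v : ℝ → ℝ} (s0 : 0 < s)
    (cI : ∀ a xi : ℝ, 0 ≤ a → a ≤ 1 / 2 → 0 ≤ xi → xi ≤ 1 / 4 → HS ρ s u v (a * (1 - xi * s)) (a * (1 + xi * s)))
    (cJ : ∀ a f z : ℝ, 0 ≤ a → a ≤ 1 / 2 → 0 ≤ f → f ≤ 2 / 5 → 0 ≤ z → z ≤ 4 → s = z * f →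
      HS ρ s u v (a * (1 - f)) (a * (1 + f)))
    (cK : ∀ a f : ℝ, 0 ≤ a → a ≤ 1 / 2 → 2 / 5 ≤ f → f ≤ 1 → 1 / 25 ≤ 1 - 2 * (a * f) →
      HS ρ s u v (a * (1 - f)) (a * (1 + f)))
    (cC : ∀ r x : ℝ, 0 ≤ r → r ≤ 1 / 25 → 0 ≤ x → x ≤ 1 / 2 → HS ρ s u v (r * x) (1 - r * (1 - x)))
    (a0 a1 : ℝ) (h0 : 0 ≤ a0) (h01 : a0 ≤ a1) (h1 : a0 + a1 ≤ 1) : HS ρ s u v a0 a1 := by
  rcases le_total (1 - (a1 - a0)) (1 / 25) with hc | hc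
  · rcases eq_or_lt_of_le (show 0 ≤ 1 - (a1 - a0) by linarith) with e | e
    · have := cC 0 0 le_rfl (by norm_num) le_rfl (by norm_num)
      rwa [show (0:ℝ) * 0 = a0 by linarith, show 1 - (0:ℝ) * (1 - 0) = a1 by linarith] at this
    · have := cC (1 - (a1 - a0)) (a0 / (1 - (a1 - a0))) e.le hc (by positivity) (by rw [div_le_iff₀ e]; linarith)
      rwa [show (1 - (a1 - a0)) * (a0 / (1 - (a1 - a0))) = a0 by field_simp,
        show 1 - (1 - (a1 - a0)) * (1 - a0 / (1 - (a1 - a0))) = a1 by field_simp; ring] at this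
  rcases eq_or_lt_of_le (show 0 ≤ a0 + a1 by linarith) with e | e
  · have := cI 0 0 le_rfl (by norm_num) le_rfl (by norm_num)
    rwa [show (0:ℝ) * (1 - 0 * s) = a0 by linarith, show (0:ℝ) * (1 + 0 * s) = a1 by linarith] at this
  obtain ⟨f, hf⟩ : ∃ f, f = (a1 - a0) / (a0 + a1) := ⟨_, rfl⟩
  have f0 : 0 ≤ f := by rw [hf]; exact div_nonneg (by linarith) e.le
  have f1 : f ≤ 1 := by rw [hf, div_le_one e]; linarith
  have e0 : (a0 + a1) / 2 * (1 - f) = a0 := by rw [hf]; field_simp; ring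
  have e1 : (a0 + a1) / 2 * (1 + f) = a1 := by rw [hf]; field_simp; ring
  have ha : 0 ≤ (a0 + a1) / 2 := by linarith
  have hb : (a0 + a1) / 2 ≤ 1 / 2 := by linarith
  have hd : 1 / 25 ≤ 1 - 2 * ((a0 + a1) / 2 * f) := by linarith
  have H : HS ρ s u v ((a0 + a1) / 2 * (1 - f)) ((a0 + a1) / 2 * (1 + f)) := by
    rcases le_total f (2 / 5) with h | h
    · rcases le_total (4 * f) s with g | g
      · have := cI _ (f / s) ha hb (by positivity) (by rw [div_le_iff₀ s0]; linarith)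
        rwa [div_mul_cancel₀ _ s0.ne'] at this
      · have fp : 0 < f := by linarith
        exact cJ _ f (s / f) ha hb f0 h (by positivity) (by rwa [div_le_iff₀ fp]) (div_mul_cancel₀ _ fp.ne').symm
    · exact cK _ f ha hb h f1 hd
  rwa [e0, e1] at H

end Crest.Agent.R307
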