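import Crest.Agent.R307.IA3
import Crest.Agent.R307.IAx
set_option autoImplicit false
set_option linter.unusedVariables false
set_option maxRecDepth 20000
namespace Crest.Agent.R307.HL1C
open Crest.Agent.R307.IA Crest.Agent.R307.IA3

theorem In_cast {e1 e2 e3 : ℝ} {x y1 y2 y3 r : ℕ} {v w : ℝ}
    (h : In e1 e2 e3 x y1 y2 y3 r v) (e : v = w) : In e1 e2 e3 x y1 y2 y3 r w := e ▸ h

noncomputable def gp (s r x p q : ℝ) : ℝ := ((6:ℝ) * p)
noncomputable def tp (s r x p q : ℝ) : ℝ := ((1:ℝ) - (r * (gp s r x p q)))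
noncomputable def Dp (s r x p q : ℝ) : ℝ := ((1:ℝ) / ((1:ℝ) + ((tp s r x p q) ^ 2)))
noncomputable def K0Dp (s r x p q : ℝ) : ℝ := ((1:ℝ) + (s * (((-1/20:ℝ) + ((tp s r x p q) * ((3/5:ℝ) - ((21/50:ℝ) * (tp s r x p q))))) * (Dp s r x p q))))
noncomputable def ea (s r x p q : ℝ) : ℝ := (r * x)
noncomputable def ua (s r x p q : ℝ) : ℝ := (((((((((((((((-16136/125:ℝ) * (ea s r x p q)) + (12512/25:ℝ)) * (ea s r x p q)) + (-19616/25:ℝ)) * (ea s r x p q)) + (79622/125:ℝ)) * (ea s r x p q)) + (-71741/250:ℝ)) * (ea s r x p q)) + (36359/500:ℝ)) * (ea s r x p q)) + (-292/25:ℝ)) * (ea s r x p q)) + (1099/500:ℝ))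
noncomputable def BDp (s r x p q : ℝ) : ℝ := (((1:ℝ) + (tp s r x p q)) - (s * ((((93/100:ℝ) * (tp s r x p q)) - (17/100:ℝ)) + (s * ((1/10:ℝ) + ((3/25:ℝ) * (tp s r x p q)))))))
noncomputable def kp (s r x p q : ℝ) : ℝ := (((gp s r x p q) * (Dp s r x p q)) * (BDp s r x p q))
noncomputable def eb (s r x p q : ℝ) : ℝ := (r * ((1:ℝ) - x))
noncomputable def cb (s r x p q : ℝ) : ℝ := (((((((((((((((-16136/125:ℝ) * (eb s r x p q)) + (66528/125:ℝ)) * (eb s r x p q)) + (-111968/125:ℝ)) * (eb s r x p q)) + (98714/125:ℝ)) * (eb s r x p q)) + (-97761/250:ℝ)) * (eb s r x p q)) + (55153/500:ℝ)) * (eb s r x p q)) + (-9767/500:ℝ)) * (eb s r x p q)) + (396/125:ℝ))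
noncomputable def lp (s r x p q : ℝ) : ℝ := (((gp s r x p q) * ((r * (gp s r x p q)) + (1/250:ℝ))) * (Dp s r x p q))
noncomputable def k (s r x p q : ℝ) : ℝ := (((2:ℝ) * x) - (1:ℝ))
noncomputable def m (s r x p q : ℝ) : ℝ := (r * (k s r x p q))
noncomputable def U1 (s r x p q : ℝ) : ℝ := (((((((((((((((-2017/4000:ℝ) * (m s r x p q)) + (-31/250:ℝ)) * (m s r x p q)) + (991/1000:ℝ)) * (m s r x p q)) + (87/400:ℝ)) * (m s r x p q)) + (-3021/4000:ℝ)) * (m s r x p q)) + (-737/4000:ℝ)) * (m s r x p q)) + (-93/800:ℝ)) * (m s r x p q)) + (363/4000:ℝ))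
noncomputable def Pc (s r x p q : ℝ) : ℝ := ((((((K0Dp s r x p q) * (x * (ua s r x p q))) + ((kp s r x p q) * ((eb s r x p q) * (cb s r x p q)))) - (1:ℝ)) - ((lp s r x p q) * ((1:ℝ) - r))) - ((2:ℝ) * ((k s r x p q) * (U1 s r x p q))))
noncomputable def gq (s r x p q : ℝ) : ℝ := ((6:ℝ) * q)
noncomputable def tq (s r x p q : ℝ) : ℝ := ((1:ℝ) - (r * (gq s r x p q)))
noncomputable def Dq (s r x p q : ℝ) : ℝ := ((1:ℝ) / ((1:ℝ) + ((tq s r x p q) ^ 2)))
noncomputable def K0Dq (s r x p q : ℝ) : ℝ := ((1:ℝ) + (s * (((-1/20:ℝ) + ((tq s r x p q) * ((3/5:ℝ) - ((21/50:ℝ) * (tq s r x p q))))) * (Dq s r x p q))))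
noncomputable def ub (s r x p q : ℝ) : ℝ := (((((((((((((((-16136/125:ℝ) * (eb s r x p q)) + (12512/25:ℝ)) * (eb s r x p q)) + (-19616/25:ℝ)) * (eb s r x p q)) + (79622/125:ℝ)) * (eb s r x p q)) + (-71741/250:ℝ)) * (eb s r x p q)) + (36359/500:ℝ)) * (eb s r x p q)) + (-292/25:ℝ)) * (eb s r x p q)) + (1099/500:ℝ))
noncomputable def BDq (s r x p q : ℝ) : ℝ := (((1:ℝ) + (tq s r x p q)) - (s * ((((93/100:ℝ) * (tq s r x p q)) - (17/100:ℝ)) + (s * ((1/10:ℝ) + ((3/25:ℝ) * (tq s r x p q)))))))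
noncomputable def kq (s r x p q : ℝ) : ℝ := (((gq s r x p q) * (Dq s r x p q)) * (BDq s r x p q))
noncomputable def ca (s r x p q : ℝ) : ℝ := (((((((((((((((-16136/125:ℝ) * (ea s r x p q)) + (66528/125:ℝ)) * (ea s r x p q)) + (-111968/125:ℝ)) * (ea s r x p q)) + (98714/125:ℝ)) * (ea s r x p q)) + (-97761/250:ℝ)) * (ea s r x p q)) + (55153/500:ℝ)) * (ea s r x p q)) + (-9767/500:ℝ)) * (ea s r x p q)) + (396/125:ℝ))
noncomputable def lq (s r x p q : ℝ) : ℝ := (((gq s r x p q) * ((r * (gq s r x p q)) + (1/250:ℝ))) * (Dq s r x p q))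
noncomputable def Ut1 (s r x p q : ℝ) : ℝ := (((((((((((((((-2017/4000:ℝ) * (m s r x p q)) + (31/250:ℝ)) * (m s r x p q)) + (991/1000:ℝ)) * (m s r x p q)) + (-87/400:ℝ)) * (m s r x p q)) + (-3021/4000:ℝ)) * (m s r x p q)) + (737/4000:ℝ)) * (m s r x p q)) + (-93/800:ℝ)) * (m s r x p q)) + (-363/4000:ℝ))
noncomputable def Qc (s r x p q : ℝ) : ℝ := ((((((K0Dq s r x p q) * (((1:ℝ) - x) * (ub s r x p q))) + ((kq s r x p q) * ((ea s r x p q) * (ca s r x p q)))) - (1:ℝ)) - ((lq s r x p q) * ((1:ℝ) - r))) - ((2:ℝ) * ((k s r x p q) * (Ut1 s r x p q))))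
noncomputable def V2 (s r x p q : ℝ) : ℝ := (((((((((((((73/125:ℝ) * (m s r x p q)) + (0:ℝ)) * (m s r x p q)) + (-1269/1000:ℝ)) * (m s r x p q)) + (0:ℝ)) * (m s r x p q)) + (721/800:ℝ)) * (m s r x p q)) + (0:ℝ)) * (m s r x p q)) + (-663/2000:ℝ))
noncomputable def va (s r x p q : ℝ) : ℝ := (((((((((((((18688/125:ℝ) * (ea s r x p q)) + (-74752/125:ℝ)) * (ea s r x p q)) + (120664/125:ℝ)) * (ea s r x p q)) + (-20072/25:ℝ)) * (ea s r x p q)) + (18197/50:ℝ)) * (ea s r x p q)) + (-10929/125:ℝ)) * (ea s r x p q)) + (2393/250:ℝ))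
noncomputable def vb (s r x p q : ℝ) : ℝ := (((((((((((((18688/125:ℝ) * (eb s r x p q)) + (-74752/125:ℝ)) * (eb s r x p q)) + (120664/125:ℝ)) * (eb s r x p q)) + (-20072/25:ℝ)) * (eb s r x p q)) + (18197/50:ℝ)) * (eb s r x p q)) + (-10929/125:ℝ)) * (eb s r x p q)) + (2393/250:ℝ))
noncomputable def Zc (s r x p q : ℝ) : ℝ := ((((2:ℝ) * (((m s r x p q) * (k s r x p q)) * (V2 s r x p q))) - ((√((K0Dp s r x p q) * (r * (kq s r x p q)))) * (((ea s r x p q) * x) * (va s r x p q)))) - ((√((r * (kp s r x p q)) * (K0Dq s r x p q))) * (((eb s r x p q) * ((1:ℝ) - x)) * (vb s r x p q))))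

def Q (s r x : ℝ) : Prop :=
  ∃ p : ℝ, 0 ≤ p ∧ p ≤ 1 ∧ ∃ q : ℝ, 0 ≤ q ∧ q ≤ 1 ∧ (
  (0 < ((461/2000:ℝ) + (r * (Pc s r x p q))) ∧ 0 < ((461/2000:ℝ) + (r * (Qc s r x p q))) ∧ 0 < (((461/2000:ℝ) * (((Pc s r x p q) + (Qc s r x p q)) - ((2:ℝ) * (Zc s r x p q)))) + (r * (((Pc s r x p q) * (Qc s r x p q)) - ((Zc s r x p q) ^ 2))))))

noncomputable def alt0 (p1 p2 z1 w1 z2 w2 z3 w3 : ℕ) : Bool :=
  smulK 6 1 1152921504606846977 6917529027641081856 p1 1152921504606846976 1152921504606846976 1152921504606846976 0 fun c1 a1_1 a1_2 a1_3 q1 =>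
  mulK z2 1152921504606846976 (Nat.add w2 1152921504606846976) 1152921504606846976 0 c1 a1_1 a1_2 a1_3 q1 fun c3 a3_1 a3_2 a3_3 q3 =>
  negK c3 a3_1 a3_2 a3_3 q3 fun c4 a4_1 a4_2 a4_3 q4 =>
  addcK c4 a4_1 a4_2 a4_3 q4 1152922604118474752 0 fun c5 a5_1 a5_2 a5_3 q5 =>
  smulK 21 50 57646075230342348850 24211351596743786496 c5 a5_1 a5_2 a5_3 q5 fun c8 a8_1 a8_2 a8_3 q8 =>
  negK c8 a8_1 a8_2 a8_3 q8 fun c9 a9_1 a9_2 a9_3 q9 =>
  addcK c9 a9_1 a9_2 a9_3 q9 1152922164313823642 1 fun c10 a10_1 a10_2 a10_3 q10 =>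
  mulK c5 a5_1 a5_2 a5_3 q5 c10 a10_1 a10_2 a10_3 q10 fun c12 a12_1 a12_2 a12_3 q12 =>
  addcK c12 a12_1 a12_2 a12_3 q12 1152921449631265587 1 fun c13 a13_1 a13_2 a13_3 q13 =>
  sqK c5 a5_1 a5_2 a5_3 q5 fun c15 a15_1 a15_2 a15_3 q15 =>
  addcK c15 a15_1 a15_2 a15_3 q15 1152922604118474752 0 fun c16 a16_1 a16_2 a16_3 q16 =>
  invK c16 a16_1 a16_2 a16_3 q16 fun c18 a18_1 a18_2 a18_3 q18 =>
  mulK c13 a13_1 a13_2 a13_3 q13 c18 a18_1 a18_2 a18_3 q18 fun c21 a21_1 a21_2 a21_3 q21 =>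
  mulK z1 (Nat.add w1 1152921504606846976) 1152921504606846976 1152921504606846976 0 c21 a21_1 a21_2 a21_3 q21 fun c22 a22_1 a22_2 a22_3 q22 =>
  addcK c22 a22_1 a22_2 a22_3 q22 1152922604118474752 0 fun c23 a23_1 a23_2 a23_3 q23 =>
  mulK z2 1152921504606846976 (Nat.add w2 1152921504606846976) 1152921504606846976 0 z3 1152921504606846976 1152921504606846976 (Nat.add w3 1152921504606846976) 0 fun c26 a26_1 a26_2 a26_3 q26 =>
  smulK 16136 125 144115188075855872125 18603541398336082804736 c26 a26_1 a26_2 a26_3 q26 fun c28 a28_1 a28_2 a28_3 q28 =>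
  negK c28 a28_1 a28_2 a28_3 q28 fun c29 a29_1 a29_2 a29_3 q29 =>
  addcK c29 a29_1 a29_2 a29_3 q29 1153471788186316308 1 fun c31 a31_1 a31_2 a31_3 q31 =>
  mulK c31 a31_1 a31_2 a31_3 q31 c26 a26_1 a26_2 a26_3 q26 fun c32 a32_1 a32_2 a32_3 q32 =>
  addcK c32 a32_1 a32_2 a32_3 q32 1152058783803228815 1 fun c33 a33_1 a33_2 a33_3 q33 =>
  mulK c33 a33_1 a33_2 a33_3 q33 c26 a26_1 a26_2 a26_3 q26 fun c34 a34_1 a34_2 a34_3 q34 =>
  addcK c34 a34_1 a34_2 a34_3 q34 1153621867125461221 1 fun c35 a35_1 a35_2 a35_3 q35 =>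
  mulK c35 a35_1 a35_2 a35_3 q35 c26 a26_1 a26_2 a26_3 q26 fun c36 a36_1 a36_2 a36_3 q36 =>
  addcK c36 a36_1 a36_2 a36_3 q36 1152605984352093864 1 fun c37 a37_1 a37_2 a37_3 q37 =>
  mulK c37 a37_1 a37_2 a37_3 q37 c26 a26_1 a26_2 a26_3 q26 fun c38 a38_1 a38_2 a38_3 q38 =>
  addcK c38 a38_1 a38_2 a38_3 q38 1153001458893395591 1 fun c39 a39_1 a39_2 a39_3 q39 =>
  mulK c39 a39_1 a39_2 a39_3 q39 c26 a26_1 a26_2 a26_3 q26 fun c40 a40_1 a40_2 a40_3 q40 =>
  addcK c40 a40_1 a40_2 a40_3 q40 1152908662311034552 1 fun c41 a41_1 a41_2 a41_3 q41 =>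
  mulK c41 a41_1 a41_2 a41_3 q41 c26 a26_1 a26_2 a26_3 q26 fun c42 a42_1 a42_2 a42_3 q42 =>
  addcK c42 a42_1 a42_2 a42_3 q42 1152923921333404828 1 fun c43 a43_1 a43_2 a43_3 q43 =>
  mulK z3 1152921504606846976 1152921504606846976 (Nat.add w3 1152921504606846976) 0 c43 a43_1 a43_2 a43_3 q43 fun c45 a45_1 a45_2 a45_3 q45 =>
  mulK c23 a23_1 a23_2 a23_3 q23 c45 a45_1 a45_2 a45_3 q45 fun c46 a46_1 a46_2 a46_3 q46 =>
  mulK c1 a1_1 a1_2 a1_3 q1 c18 a18_1 a18_2 a18_3 q18 fun c47 a47_1 a47_2 a47_3 q47 =>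
  addcK c5 a5_1 a5_2 a5_3 q5 1152922604118474752 0 fun c48 a48_1 a48_2 a48_3 q48 =>
  smulK 93 100 115292150460684697700 107221699928436768768 c5 a5_1 a5_2 a5_3 q5 fun c50 a50_1 a50_2 a50_3 q50 =>
  addcK c50 a50_1 a50_2 a50_3 q50 1152921317689870254 1 fun c51 a51_1 a51_2 a51_3 q51 =>
  smulK 3 25 28823037615171174425 3458764513820540928 c5 a5_1 a5_2 a5_3 q5 fun c53 a53_1 a53_2 a53_3 q53 =>
  addcK c53 a53_1 a53_2 a53_3 q53 1152921614558009754 1 fun c54 a54_1 a54_2 a54_3 q54 =>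
  mulK z1 (Nat.add w1 1152921504606846976) 1152921504606846976 1152921504606846976 0 c54 a54_1 a54_2 a54_3 q54 fun c56 a56_1 a56_2 a56_3 q56 =>
  addK c51 a51_1 a51_2 a51_3 q51 c56 a56_1 a56_2 a56_3 q56 fun c57 a57_1 a57_2 a57_3 q57 =>
  mulK z1 (Nat.add w1 1152921504606846976) 1152921504606846976 1152921504606846976 0 c57 a57_1 a57_2 a57_3 q57 fun c58 a58_1 a58_2 a58_3 q58 =>
  subK c48 a48_1 a48_2 a48_3 q48 c58 a58_1 a58_2 a58_3 q58 fun c59 a59_1 a59_2 a59_3 q59 =>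
  mulK c47 a47_1 a47_2 a47_3 q47 c59 a59_1 a59_2 a59_3 q59 fun c61 a61_1 a61_2 a61_3 q61 =>
  negK z3 1152921504606846976 1152921504606846976 (Nat.add w3 1152921504606846976) 0 fun c63 a63_1 a63_2 a63_3 q63 =>
  addcK c63 a63_1 a63_2 a63_3 q63 1152922604118474752 0 fun c64 a64_1 a64_2 a64_3 q64 =>
  mulK z2 1152921504606846976 (Nat.add w2 1152921504606846976) 1152921504606846976 0 c64 a64_1 a64_2 a64_3 q64 fun c66 a66_1 a66_2 a66_3 q66 =>
  smulK 16136 125 144115188075855872125 18603541398336082804736 c66 a66_1 a66_2 a66_3 q66 fun c68 a68_1 a68_2 a68_3 q68 =>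
  negK c68 a68_1 a68_2 a68_3 q68 fun c69 a69_1 a69_2 a69_3 q69 =>
  addcK c69 a69_1 a69_2 a69_3 q69 1153506691083428430 1 fun c71 a71_1 a71_2 a71_3 q71 =>
  mulK c71 a71_1 a71_2 a71_3 q71 c66 a66_1 a66_2 a66_3 q66 fun c72 a72_1 a72_2 a72_3 q72 =>
  addcK c72 a72_1 a72_2 a72_3 q72 1151936623663336391 1 fun c73 a73_1 a73_2 a73_3 q73 =>
  mulK c73 a73_1 a73_2 a73_3 q73 c66 a66_1 a66_2 a66_3 q66 fun c74 a74_1 a74_2 a74_3 q74 =>
  addcK c74 a74_1 a74_2 a74_3 q74 1153789802133441217 1 fun c75 a75_1 a75_2 a75_3 q75 =>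
  mulK c75 a75_1 a75_2 a75_3 q75 c66 a66_1 a66_2 a66_3 q66 fun c76 a76_1 a76_2 a76_3 q76 =>
  addcK c76 a76_1 a76_2 a76_3 q76 1152491547181874938 1 fun c77 a77_1 a77_2 a77_3 q77 =>
  mulK c77 a77_1 a77_2 a77_3 q77 c66 a66_1 a66_2 a66_3 q66 fun c78 a78_1 a78_2 a78_3 q78 =>
  addcK c78 a78_1 a78_2 a78_3 q78 1153042787336460435 1 fun c79 a79_1 a79_2 a79_3 q79 =>
  mulK c79 a79_1 a79_2 a79_3 q79 c66 a66_1 a66_2 a66_3 q66 fun c80 a80_1 a80_2 a80_3 q80 =>
  addcK c80 a80_1 a80_2 a80_3 q80 1152900026746710000 1 fun c81 a81_1 a81_2 a81_3 q81 =>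
  mulK c81 a81_1 a81_2 a81_3 q81 c66 a66_1 a66_2 a66_3 q66 fun c82 a82_1 a82_2 a82_3 q82 =>
  addcK c82 a82_1 a82_2 a82_3 q82 1152924987859683770 1 fun c83 a83_1 a83_2 a83_3 q83 =>
  mulK c66 a66_1 a66_2 a66_3 q66 c83 a83_1 a83_2 a83_3 q83 fun c85 a85_1 a85_2 a85_3 q85 =>
  mulK c61 a61_1 a61_2 a61_3 q61 c85 a85_1 a85_2 a85_3 q85 fun c86 a86_1 a86_2 a86_3 q86 =>
  addK c46 a46_1 a46_2 a46_3 q46 c86 a86_1 a86_2 a86_3 q86 fun c87 a87_1 a87_2 a87_3 q87 =>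
  addcK c87 a87_1 a87_2 a87_3 q87 1152920405095219200 0 fun c88 a88_1 a88_2 a88_3 q88 =>
  addcK c3 a3_1 a3_2 a3_3 q3 1152921509004893487 1 fun c90 a90_1 a90_2 a90_3 q90 =>
  mulK c1 a1_1 a1_2 a1_3 q1 c90 a90_1 a90_2 a90_3 q90 fun c91 a91_1 a91_2 a91_3 q91 =>
  mulK c91 a91_1 a91_2 a91_3 q91 c18 a18_1 a18_2 a18_3 q18 fun c92 a92_1 a92_2 a92_3 q92 =>
  negK z2 1152921504606846976 (Nat.add w2 1152921504606846976) 1152921504606846976 0 fun c94 a94_1 a94_2 a94_3 q94 =>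
  addcK c94 a94_1 a94_2 a94_3 q94 1152922604118474752 0 fun c95 a95_1 a95_2 a95_3 q95 =>
  mulK c92 a92_1 a92_2 a92_3 q92 c95 a95_1 a95_2 a95_3 q95 fun c97 a97_1 a97_2 a97_3 q97 =>
  subK c88 a88_1 a88_2 a88_3 q88 c97 a97_1 a97_2 a97_3 q97 fun c98 a98_1 a98_2 a98_3 q98 =>
  smulK 2 1 1152921504606846977 2305843009213693952 z3 1152921504606846976 1152921504606846976 (Nat.add w3 1152921504606846976) 0 fun c99 a99_1 a99_2 a99_3 q99 =>
  addcK c99 a99_1 a99_2 a99_3 q99 1152920405095219200 0 fun c100 a100_1 a100_2 a100_3 q100 =>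
  mulK z2 1152921504606846976 (Nat.add w2 1152921504606846976) 1152921504606846976 0 c100 a100_1 a100_2 a100_3 q100 fun c103 a103_1 a103_2 a103_3 q103 =>
  smulK 2017 4000 4611686018427387908000 2325442674792010350592 c103 a103_1 a103_2 a103_3 q103 fun c105 a105_1 a105_2 a105_3 q105 =>
  negK c105 a105_1 a105_2 a105_3 q105 fun c106 a106_1 a106_2 a106_3 q106 =>
  addcK c106 a106_1 a106_2 a106_3 q106 1152921368267405132 1 fun c108 a108_1 a108_2 a108_3 q108 =>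
  mulK c108 a108_1 a108_2 a108_3 q108 c103 a103_1 a103_2 a103_3 q103 fun c109 a109_1 a109_2 a109_3 q109 =>
  addcK c109 a109_1 a109_2 a109_3 q109 1152922594222870102 1 fun c110 a110_1 a110_2 a110_3 q110 =>
  mulK c110 a110_1 a110_2 a110_3 q110 c103 a103_1 a103_2 a103_3 q103 fun c111 a111_1 a111_2 a111_3 q111 =>
  addcK c111 a111_1 a111_2 a111_3 q111 1152921743750626017 1 fun c112 a112_1 a112_2 a112_3 q112 =>
  mulK c112 a112_1 a112_2 a112_3 q112 c103 a103_1 a103_2 a103_3 q103 fun c113 a113_1 a113_2 a113_3 q113 =>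
  addcK c113 a113_1 a113_2 a113_3 q113 1152920674200690098 1 fun c114 a114_1 a114_2 a114_3 q114 =>
  mulK c114 a114_1 a114_2 a114_3 q114 c103 a103_1 a103_2 a103_3 q103 fun c115 a115_1 a115_2 a115_3 q115 =>
  addcK c115 a115_1 a115_2 a115_3 q115 1152921302021829558 1 fun c116 a116_1 a116_2 a116_3 q116 =>
  mulK c116 a116_1 a116_2 a116_3 q116 c103 a103_1 a103_2 a103_3 q103 fun c117 a117_1 a117_2 a117_3 q117 =>
  addcK c117 a117_1 a117_2 a117_3 q117 1152921376788620247 1 fun c118 a118_1 a118_2 a118_3 q118 =>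
  mulK c118 a118_1 a118_2 a118_3 q118 c103 a103_1 a103_2 a103_3 q103 fun c119 a119_1 a119_2 a119_3 q119 =>
  addcK c119 a119_1 a119_2 a119_3 q119 1152921604387527197 1 fun c120 a120_1 a120_2 a120_3 q120 =>
  mulK c100 a100_1 a100_2 a100_3 q100 c120 a120_1 a120_2 a120_3 q120 fun c122 a122_1 a122_2 a122_3 q122 =>
  smulK 2 1 1152921504606846977 2305843009213693952 c122 a122_1 a122_2 a122_3 q122 fun c123 a123_1 a123_2 a123_3 q123 =>
  subK c98 a98_1 a98_2 a98_3 q98 c123 a123_1 a123_2 a123_3 q123 fun c124 a124_1 a124_2 a124_3 q124 =>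
  mulK z2 1152921504606846976 (Nat.add w2 1152921504606846976) 1152921504606846976 0 c124 a124_1 a124_2 a124_3 q124 fun c126 a126_1 a126_2 a126_3 q126 =>
  addcK c126 a126_1 a126_2 a126_3 q126 1152921758044277178 1 fun c127 a127_1 a127_2 a127_3 q127 =>
  posK c127 a127_1 a127_2 a127_3 q127 <|
  smulK 6 1 1152921504606846977 6917529027641081856 p2 1152921504606846976 1152921504606846976 1152921504606846976 0 fun c129 a129_1 a129_2 a129_3 q129 =>
  mulK z2 1152921504606846976 (Nat.add w2 1152921504606846976) 1152921504606846976 0 c129 a129_1 a129_2 a129_3 q129 fun c131 a131_1 a131_2 a131_3 q131 =>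
  negK c131 a131_1 a131_2 a131_3 q131 fun c132 a132_1 a132_2 a132_3 q132 =>
  addcK c132 a132_1 a132_2 a132_3 q132 1152922604118474752 0 fun c133 a133_1 a133_2 a133_3 q133 =>
  smulK 21 50 57646075230342348850 24211351596743786496 c133 a133_1 a133_2 a133_3 q133 fun c136 a136_1 a136_2 a136_3 q136 =>
  negK c136 a136_1 a136_2 a136_3 q136 fun c137 a137_1 a137_2 a137_3 q137 =>
  addcK c137 a137_1 a137_2 a137_3 q137 1152922164313823642 1 fun c138 a138_1 a138_2 a138_3 q138 =>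
  mulK c133 a133_1 a133_2 a133_3 q133 c138 a138_1 a138_2 a138_3 q138 fun c140 a140_1 a140_2 a140_3 q140 =>
  addcK c140 a140_1 a140_2 a140_3 q140 1152921449631265587 1 fun c141 a141_1 a141_2 a141_3 q141 =>
  sqK c133 a133_1 a133_2 a133_3 q133 fun c143 a143_1 a143_2 a143_3 q143 =>
  addcK c143 a143_1 a143_2 a143_3 q143 1152922604118474752 0 fun c144 a144_1 a144_2 a144_3 q144 =>
  invK c144 a144_1 a144_2 a144_3 q144 fun c146 a146_1 a146_2 a146_3 q146 =>
  mulK c141 a141_1 a141_2 a141_3 q141 c146 a146_1 a146_2 a146_3 q146 fun c149 a149_1 a149_2 a149_3 q149 =>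
  mulK z1 (Nat.add w1 1152921504606846976) 1152921504606846976 1152921504606846976 0 c149 a149_1 a149_2 a149_3 q149 fun c150 a150_1 a150_2 a150_3 q150 =>
  addcK c150 a150_1 a150_2 a150_3 q150 1152922604118474752 0 fun c151 a151_1 a151_2 a151_3 q151 =>
  addcK c69 a69_1 a69_2 a69_3 q69 1153471788186316308 1 fun c154 a154_1 a154_2 a154_3 q154 =>
  mulK c154 a154_1 a154_2 a154_3 q154 c66 a66_1 a66_2 a66_3 q66 fun c155 a155_1 a155_2 a155_3 q155 =>
  addcK c155 a155_1 a155_2 a155_3 q155 1152058783803228815 1 fun c156 a156_1 a156_2 a156_3 q156 =>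
  mulK c156 a156_1 a156_2 a156_3 q156 c66 a66_1 a66_2 a66_3 q66 fun c157 a157_1 a157_2 a157_3 q157 =>
  addcK c157 a157_1 a157_2 a157_3 q157 1153621867125461221 1 fun c158 a158_1 a158_2 a158_3 q158 =>
  mulK c158 a158_1 a158_2 a158_3 q158 c66 a66_1 a66_2 a66_3 q66 fun c159 a159_1 a159_2 a159_3 q159 =>
  addcK c159 a159_1 a159_2 a159_3 q159 1152605984352093864 1 fun c160 a160_1 a160_2 a160_3 q160 =>
  mulK c160 a160_1 a160_2 a160_3 q160 c66 a66_1 a66_2 a66_3 q66 fun c161 a161_1 a161_2 a161_3 q161 =>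
  addcK c161 a161_1 a161_2 a161_3 q161 1153001458893395591 1 fun c162 a162_1 a162_2 a162_3 q162 =>
  mulK c162 a162_1 a162_2 a162_3 q162 c66 a66_1 a66_2 a66_3 q66 fun c163 a163_1 a163_2 a163_3 q163 =>
  addcK c163 a163_1 a163_2 a163_3 q163 1152908662311034552 1 fun c164 a164_1 a164_2 a164_3 q164 =>
  mulK c164 a164_1 a164_2 a164_3 q164 c66 a66_1 a66_2 a66_3 q66 fun c165 a165_1 a165_2 a165_3 q165 =>
  addcK c165 a165_1 a165_2 a165_3 q165 1152923921333404828 1 fun c166 a166_1 a166_2 a166_3 q166 =>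
  mulK c64 a64_1 a64_2 a64_3 q64 c166 a166_1 a166_2 a166_3 q166 fun c168 a168_1 a168_2 a168_3 q168 =>
  mulK c151 a151_1 a151_2 a151_3 q151 c168 a168_1 a168_2 a168_3 q168 fun c169 a169_1 a169_2 a169_3 q169 =>
  mulK c129 a129_1 a129_2 a129_3 q129 c146 a146_1 a146_2 a146_3 q146 fun c170 a170_1 a170_2 a170_3 q170 =>
  addcK c133 a133_1 a133_2 a133_3 q133 1152922604118474752 0 fun c171 a171_1 a171_2 a171_3 q171 =>
  smulK 93 100 115292150460684697700 107221699928436768768 c133 a133_1 a133_2 a133_3 q133 fun c173 a173_1 a173_2 a173_3 q173 =>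
  addcK c173 a173_1 a173_2 a173_3 q173 1152921317689870254 1 fun c174 a174_1 a174_2 a174_3 q174 =>
  smulK 3 25 28823037615171174425 3458764513820540928 c133 a133_1 a133_2 a133_3 q133 fun c176 a176_1 a176_2 a176_3 q176 =>
  addcK c176 a176_1 a176_2 a176_3 q176 1152921614558009754 1 fun c177 a177_1 a177_2 a177_3 q177 =>
  mulK z1 (Nat.add w1 1152921504606846976) 1152921504606846976 1152921504606846976 0 c177 a177_1 a177_2 a177_3 q177 fun c179 a179_1 a179_2 a179_3 q179 =>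
  addK c174 a174_1 a174_2 a174_3 q174 c179 a179_1 a179_2 a179_3 q179 fun c180 a180_1 a180_2 a180_3 q180 =>
  mulK z1 (Nat.add w1 1152921504606846976) 1152921504606846976 1152921504606846976 0 c180 a180_1 a180_2 a180_3 q180 fun c181 a181_1 a181_2 a181_3 q181 =>
  subK c171 a171_1 a171_2 a171_3 q171 c181 a181_1 a181_2 a181_3 q181 fun c182 a182_1 a182_2 a182_3 q182 =>
  mulK c170 a170_1 a170_2 a170_3 q170 c182 a182_1 a182_2 a182_3 q182 fun c184 a184_1 a184_2 a184_3 q184 =>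
  addcK c29 a29_1 a29_2 a29_3 q29 1153506691083428430 1 fun c186 a186_1 a186_2 a186_3 q186 =>
  mulK c186 a186_1 a186_2 a186_3 q186 c26 a26_1 a26_2 a26_3 q26 fun c187 a187_1 a187_2 a187_3 q187 =>
  addcK c187 a187_1 a187_2 a187_3 q187 1151936623663336391 1 fun c188 a188_1 a188_2 a188_3 q188 =>
  mulK c188 a188_1 a188_2 a188_3 q188 c26 a26_1 a26_2 a26_3 q26 fun c189 a189_1 a189_2 a189_3 q189 =>
  addcK c189 a189_1 a189_2 a189_3 q189 1153789802133441217 1 fun c190 a190_1 a190_2 a190_3 q190 =>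
  mulK c190 a190_1 a190_2 a190_3 q190 c26 a26_1 a26_2 a26_3 q26 fun c191 a191_1 a191_2 a191_3 q191 =>
  addcK c191 a191_1 a191_2 a191_3 q191 1152491547181874938 1 fun c192 a192_1 a192_2 a192_3 q192 =>
  mulK c192 a192_1 a192_2 a192_3 q192 c26 a26_1 a26_2 a26_3 q26 fun c193 a193_1 a193_2 a193_3 q193 =>
  addcK c193 a193_1 a193_2 a193_3 q193 1153042787336460435 1 fun c194 a194_1 a194_2 a194_3 q194 =>
  mulK c194 a194_1 a194_2 a194_3 q194 c26 a26_1 a26_2 a26_3 q26 fun c195 a195_1 a195_2 a195_3 q195 =>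
  addcK c195 a195_1 a195_2 a195_3 q195 1152900026746710000 1 fun c196 a196_1 a196_2 a196_3 q196 =>
  mulK c196 a196_1 a196_2 a196_3 q196 c26 a26_1 a26_2 a26_3 q26 fun c197 a197_1 a197_2 a197_3 q197 =>
  addcK c197 a197_1 a197_2 a197_3 q197 1152924987859683770 1 fun c198 a198_1 a198_2 a198_3 q198 =>
  mulK c26 a26_1 a26_2 a26_3 q26 c198 a198_1 a198_2 a198_3 q198 fun c200 a200_1 a200_2 a200_3 q200 =>
  mulK c184 a184_1 a184_2 a184_3 q184 c200 a200_1 a200_2 a200_3 q200 fun c201 a201_1 a201_2 a201_3 q201 =>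
  addK c169 a169_1 a169_2 a169_3 q169 c201 a201_1 a201_2 a201_3 q201 fun c202 a202_1 a202_2 a202_3 q202 =>
  addcK c202 a202_1 a202_2 a202_3 q202 1152920405095219200 0 fun c203 a203_1 a203_2 a203_3 q203 =>
  addcK c131 a131_1 a131_2 a131_3 q131 1152921509004893487 1 fun c205 a205_1 a205_2 a205_3 q205 =>
  mulK c129 a129_1 a129_2 a129_3 q129 c205 a205_1 a205_2 a205_3 q205 fun c206 a206_1 a206_2 a206_3 q206 =>
  mulK c206 a206_1 a206_2 a206_3 q206 c146 a146_1 a146_2 a146_3 q146 fun c207 a207_1 a207_2 a207_3 q207 =>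
  mulK c207 a207_1 a207_2 a207_3 q207 c95 a95_1 a95_2 a95_3 q95 fun c209 a209_1 a209_2 a209_3 q209 =>
  subK c203 a203_1 a203_2 a203_3 q203 c209 a209_1 a209_2 a209_3 q209 fun c210 a210_1 a210_2 a210_3 q210 =>
  addcK c106 a106_1 a106_2 a106_3 q106 1152921640946288820 1 fun c211 a211_1 a211_2 a211_3 q211 =>
  mulK c211 a211_1 a211_2 a211_3 q211 c103 a103_1 a103_2 a103_3 q103 fun c212 a212_1 a212_2 a212_3 q212 =>
  addcK c212 a212_1 a212_2 a212_3 q212 1152922594222870102 1 fun c213 a213_1 a213_2 a213_3 q213 =>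
  mulK c213 a213_1 a213_2 a213_3 q213 c103 a103_1 a103_2 a103_3 q103 fun c214 a214_1 a214_2 a214_3 q214 =>
  addcK c214 a214_1 a214_2 a214_3 q214 1152921265463067935 1 fun c215 a215_1 a215_2 a215_3 q215 =>
  mulK c215 a215_1 a215_2 a215_3 q215 c103 a103_1 a103_2 a103_3 q103 fun c216 a216_1 a216_2 a216_3 q216 =>
  addcK c216 a216_1 a216_2 a216_3 q216 1152920674200690098 1 fun c217 a217_1 a217_2 a217_3 q217 =>
  mulK c217 a217_1 a217_2 a217_3 q217 c103 a103_1 a103_2 a103_3 q103 fun c218 a218_1 a218_2 a218_3 q218 =>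
  addcK c218 a218_1 a218_2 a218_3 q218 1152921707191864394 1 fun c219 a219_1 a219_2 a219_3 q219 =>
  mulK c219 a219_1 a219_2 a219_3 q219 c103 a103_1 a103_2 a103_3 q103 fun c220 a220_1 a220_2 a220_3 q220 =>
  addcK c220 a220_1 a220_2 a220_3 q220 1152921376788620247 1 fun c221 a221_1 a221_2 a221_3 q221 =>
  mulK c221 a221_1 a221_2 a221_3 q221 c103 a103_1 a103_2 a103_3 q103 fun c222 a222_1 a222_2 a222_3 q222 =>
  addcK c222 a222_1 a222_2 a222_3 q222 1152921404826166755 1 fun c223 a223_1 a223_2 a223_3 q223 =>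
  mulK c100 a100_1 a100_2 a100_3 q100 c223 a223_1 a223_2 a223_3 q223 fun c225 a225_1 a225_2 a225_3 q225 =>
  smulK 2 1 1152921504606846977 2305843009213693952 c225 a225_1 a225_2 a225_3 q225 fun c226 a226_1 a226_2 a226_3 q226 =>
  subK c210 a210_1 a210_2 a210_3 q210 c226 a226_1 a226_2 a226_3 q226 fun c227 a227_1 a227_2 a227_3 q227 =>
  mulK z2 1152921504606846976 (Nat.add w2 1152921504606846976) 1152921504606846976 0 c227 a227_1 a227_2 a227_3 q227 fun c229 a229_1 a229_2 a229_3 q229 =>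
  addcK c229 a229_1 a229_2 a229_3 q229 1152921758044277178 1 fun c230 a230_1 a230_2 a230_3 q230 =>
  posK c230 a230_1 a230_2 a230_3 q230 <|
  addK c124 a124_1 a124_2 a124_3 q124 c227 a227_1 a227_2 a227_3 q227 fun c232 a232_1 a232_2 a232_3 q232 =>
  mulK c103 a103_1 a103_2 a103_3 q103 c100 a100_1 a100_2 a100_3 q100 fun c233 a233_1 a233_2 a233_3 q233 =>
  smulK 73 125 144115188075855872125 84163269836299829248 c103 a103_1 a103_2 a103_3 q103 fun c234 a234_1 a234_2 a234_3 q234 =>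
  addcK c234 a234_1 a234_2 a234_3 q234 1152921504606846976 0 fun c235 a235_1 a235_2 a235_3 q235 =>
  mulK c235 a235_1 a235_2 a235_3 q235 c103 a103_1 a103_2 a103_3 q103 fun c236 a236_1 a236_2 a236_3 q236 =>
  addcK c236 a236_1 a236_2 a236_3 q236 1152920109326591328 1 fun c237 a237_1 a237_2 a237_3 q237 =>
  mulK c237 a237_1 a237_2 a237_3 q237 c103 a103_1 a103_2 a103_3 q103 fun c238 a238_1 a238_2 a238_3 q238 =>
  addcK c238 a238_1 a238_2 a238_3 q238 1152921504606846976 0 fun c239 a239_1 a239_2 a239_3 q239 =>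
  mulK c239 a239_1 a239_2 a239_3 q239 c103 a103_1 a103_2 a103_3 q103 fun c240 a240_1 a240_2 a240_3 q240 =>
  addcK c240 a240_1 a240_2 a240_3 q240 1152922495541701509 1 fun c241 a241_1 a241_2 a241_3 q241 =>
  mulK c241 a241_1 a241_2 a241_3 q241 c103 a103_1 a103_2 a103_3 q103 fun c242 a242_1 a242_2 a242_3 q242 =>
  addcK c242 a242_1 a242_2 a242_3 q242 1152921504606846976 0 fun c243 a243_1 a243_2 a243_3 q243 =>
  mulK c243 a243_1 a243_2 a243_3 q243 c103 a103_1 a103_2 a103_3 q103 fun c244 a244_1 a244_2 a244_3 q244 =>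
  addcK c244 a244_1 a244_2 a244_3 q244 1152921140118742368 1 fun c245 a245_1 a245_2 a245_3 q245 =>
  mulK c233 a233_1 a233_2 a233_3 q233 c245 a245_1 a245_2 a245_3 q245 fun c247 a247_1 a247_2 a247_3 q247 =>
  smulK 2 1 1152921504606846977 2305843009213693952 c247 a247_1 a247_2 a247_3 q247 fun c248 a248_1 a248_2 a248_3 q248 =>
  mulK z2 1152921504606846976 (Nat.add w2 1152921504606846976) 1152921504606846976 0 c184 a184_1 a184_2 a184_3 q184 fun c249 a249_1 a249_2 a249_3 q249 =>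
  mulK c23 a23_1 a23_2 a23_3 q23 c249 a249_1 a249_2 a249_3 q249 fun c250 a250_1 a250_2 a250_3 q250 =>
  sqrtK c250 a250_1 a250_2 a250_3 q250 fun c251 a251_1 a251_2 a251_3 q251 =>
  mulK c26 a26_1 a26_2 a26_3 q26 z3 1152921504606846976 1152921504606846976 (Nat.add w3 1152921504606846976) 0 fun c252 a252_1 a252_2 a252_3 q252 =>
  smulK 18688 125 144115188075855872125 21545797078092756287488 c26 a26_1 a26_2 a26_3 q26 fun c253 a253_1 a253_2 a253_3 q253 =>
  addcK c253 a253_1 a253_2 a253_3 q253 1152263979061250884 1 fun c254 a254_1 a254_2 a254_3 q254 =>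
  mulK c254 a254_1 a254_2 a254_3 q254 c26 a26_1 a26_2 a26_3 q26 fun c255 a255_1 a255_2 a255_3 q255 =>
  addcK c255 a255_1 a255_2 a255_3 q255 1153982876375278682 1 fun c256 a256_1 a256_2 a256_3 q256 =>
  mulK c256 a256_1 a256_2 a256_3 q256 c26 a26_1 a26_2 a26_3 q26 fun c257 a257_1 a257_2 a257_3 q257 =>
  addcK c257 a257_1 a257_2 a257_3 q257 1152038728711138181 1 fun c258 a258_1 a258_2 a258_3 q258 =>
  mulK c258 a258_1 a258_2 a258_3 q258 c26 a26_1 a26_2 a26_3 q26 fun c259 a259_1 a259_2 a259_3 q259 =>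
  addcK c259 a259_1 a259_2 a259_3 q259 1153321660868659773 1 fun c260 a260_1 a260_2 a260_3 q260 =>
  mulK c260 a260_1 a260_2 a260_3 q260 c26 a26_1 a26_2 a26_3 q26 fun c261 a261_1 a261_2 a261_3 q261 =>
  addcK c261 a261_1 a261_2 a261_3 q261 1152825372106207265 1 fun c262 a262_1 a262_2 a262_3 q262 =>
  mulK c262 a262_1 a262_2 a262_3 q262 c26 a26_1 a26_2 a26_3 q26 fun c263 a263_1 a263_2 a263_3 q263 =>
  addcK c263 a263_1 a263_2 a263_3 q263 1152932029132148048 1 fun c264 a264_1 a264_2 a264_3 q264 =>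
  mulK c252 a252_1 a252_2 a252_3 q252 c264 a264_1 a264_2 a264_3 q264 fun c266 a266_1 a266_2 a266_3 q266 =>
  mulK c251 a251_1 a251_2 a251_3 q251 c266 a266_1 a266_2 a266_3 q266 fun c267 a267_1 a267_2 a267_3 q267 =>
  subK c248 a248_1 a248_2 a248_3 q248 c267 a267_1 a267_2 a267_3 q267 fun c268 a268_1 a268_2 a268_3 q268 =>
  mulK z2 1152921504606846976 (Nat.add w2 1152921504606846976) 1152921504606846976 0 c61 a61_1 a61_2 a61_3 q61 fun c269 a269_1 a269_2 a269_3 q269 =>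
  mulK c269 a269_1 a269_2 a269_3 q269 c151 a151_1 a151_2 a151_3 q151 fun c270 a270_1 a270_2 a270_3 q270 =>
  sqrtK c270 a270_1 a270_2 a270_3 q270 fun c271 a271_1 a271_2 a271_3 q271 =>
  mulK c66 a66_1 a66_2 a66_3 q66 c64 a64_1 a64_2 a64_3 q64 fun c272 a272_1 a272_2 a272_3 q272 =>
  smulK 18688 125 144115188075855872125 21545797078092756287488 c66 a66_1 a66_2 a66_3 q66 fun c273 a273_1 a273_2 a273_3 q273 =>
  addcK c273 a273_1 a273_2 a273_3 q273 1152263979061250884 1 fun c274 a274_1 a274_2 a274_3 q274 =>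
  mulK c274 a274_1 a274_2 a274_3 q274 c66 a66_1 a66_2 a66_3 q66 fun c275 a275_1 a275_2 a275_3 q275 =>
  addcK c275 a275_1 a275_2 a275_3 q275 1153982876375278682 1 fun c276 a276_1 a276_2 a276_3 q276 =>
  mulK c276 a276_1 a276_2 a276_3 q276 c66 a66_1 a66_2 a66_3 q66 fun c277 a277_1 a277_2 a277_3 q277 =>
  addcK c277 a277_1 a277_2 a277_3 q277 1152038728711138181 1 fun c278 a278_1 a278_2 a278_3 q278 =>
  mulK c278 a278_1 a278_2 a278_3 q278 c66 a66_1 a66_2 a66_3 q66 fun c279 a279_1 a279_2 a279_3 q279 =>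
  addcK c279 a279_1 a279_2 a279_3 q279 1153321660868659773 1 fun c280 a280_1 a280_2 a280_3 q280 =>
  mulK c280 a280_1 a280_2 a280_3 q280 c66 a66_1 a66_2 a66_3 q66 fun c281 a281_1 a281_2 a281_3 q281 =>
  addcK c281 a281_1 a281_2 a281_3 q281 1152825372106207265 1 fun c282 a282_1 a282_2 a282_3 q282 =>
  mulK c282 a282_1 a282_2 a282_3 q282 c66 a66_1 a66_2 a66_3 q66 fun c283 a283_1 a283_2 a283_3 q283 =>
  addcK c283 a283_1 a283_2 a283_3 q283 1152932029132148048 1 fun c284 a284_1 a284_2 a284_3 q284 =>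
  mulK c272 a272_1 a272_2 a272_3 q272 c284 a284_1 a284_2 a284_3 q284 fun c286 a286_1 a286_2 a286_3 q286 =>
  mulK c271 a271_1 a271_2 a271_3 q271 c286 a286_1 a286_2 a286_3 q286 fun c287 a287_1 a287_2 a287_3 q287 =>
  subK c268 a268_1 a268_2 a268_3 q268 c287 a287_1 a287_2 a287_3 q287 fun c288 a288_1 a288_2 a288_3 q288 =>
  smulK 2 1 1152921504606846977 2305843009213693952 c288 a288_1 a288_2 a288_3 q288 fun c290 a290_1 a290_2 a290_3 q290 =>
  subK c232 a232_1 a232_2 a232_3 q232 c290 a290_1 a290_2 a290_3 q290 fun c291 a291_1 a291_2 a291_3 q291 =>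
  smulK 461 2000 2305843009213693954000 531496813623756455936 c291 a291_1 a291_2 a291_3 q291 fun c292 a292_1 a292_2 a292_3 q292 =>
  mulK c124 a124_1 a124_2 a124_3 q124 c227 a227_1 a227_2 a227_3 q227 fun c293 a293_1 a293_2 a293_3 q293 =>
  sqK c288 a288_1 a288_2 a288_3 q288 fun c294 a294_1 a294_2 a294_3 q294 =>
  subK c293 a293_1 a293_2 a293_3 q293 c294 a294_1 a294_2 a294_3 q294 fun c295 a295_1 a295_2 a295_3 q295 =>
  mulK z2 1152921504606846976 (Nat.add w2 1152921504606846976) 1152921504606846976 0 c295 a295_1 a295_2 a295_3 q295 fun c296 a296_1 a296_2 a296_3 q296 =>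
  addK c292 a292_1 a292_2 a292_3 q292 c296 a296_1 a296_2 a296_3 q296 fun c297 a297_1 a297_2 a297_3 q297 =>
  pos c297 a297_1 a297_2 a297_3 q297

theorem alt0_s {p1 p2 z1 w1 z2 w2 z3 w3 : ℕ} {e1 e2 e3 s r x p q : ℝ} (he : Ev e1 e2 e3)
    (hp1 : In e1 e2 e3 p1 1152921504606846976 1152921504606846976 1152921504606846976 0 p)
    (hp2 : In e1 e2 e3 p2 1152921504606846976 1152921504606846976 1152921504606846976 0 q)
    (hx1 : In e1 e2 e3 z1 (Nat.add w1 1152921504606846976) 1152921504606846976 1152921504606846976 0 s)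
    (hx2 : In e1 e2 e3 z2 1152921504606846976 (Nat.add w2 1152921504606846976) 1152921504606846976 0 r)
    (hx3 : In e1 e2 e3 z3 1152921504606846976 1152921504606846976 (Nat.add w3 1152921504606846976) 0 x)
    (H0 : alt0 p1 p2 z1 w1 z2 w2 z3 w3 = true) : 0 < ((461/2000:ℝ) + (r * (Pc s r x p q))) ∧ 0 < ((461/2000:ℝ) + (r * (Qc s r x p q))) ∧ 0 < (((461/2000:ℝ) * (((Pc s r x p q) + (Qc s r x p q)) - ((2:ℝ) * (Zc s r x p q)))) + (r * (((Pc s r x p q) * (Qc s r x p q)) - ((Zc s r x p q) ^ 2)))) := by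
  unfold alt0 at H0
  refine smulK_s he (w := (6:ℝ)) (by norm_num) (by norm_num) (by norm_num) (by norm_num) hp1 (fun _ _ _ _ _ h1 H1 => ?_) H0
  have h2 := In_cast (w := (gp s r x p q)) h1 rfl
  refine mulK_s he hx2 h2 (fun _ _ _ _ _ h3 H2 => ?_) H1
  refine negK_s he h3 (fun _ _ _ _ _ h4 H3 => ?_) H2
  refine addcK_s he h4 (v' := (1:ℝ)) (by norm_num [SS, BB, abs_le]) (fun _ _ _ _ _ h5 H4 => ?_) H3
  have h6 := In_cast h5 (neg_add_eq_sub _ _)
  have h7 := In_cast (w := (tp s r x p q)) h6 rfl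
  refine smulK_s he (w := (21/50:ℝ)) (by norm_num) (by norm_num) (by norm_num) (by norm_num) h7 (fun _ _ _ _ _ h8 H5 => ?_) H4
  refine negK_s he h8 (fun _ _ _ _ _ h9 H6 => ?_) H5
  refine addcK_s he h9 (v' := (3/5:ℝ)) (by norm_num [SS, BB, abs_le]) (fun _ _ _ _ _ h10 H7 => ?_) H6
  have h11 := In_cast h10 (neg_add_eq_sub _ _)
  refine mulK_s he h7 h11 (fun _ _ _ _ _ h12 H8 => ?_) H7
  refine addcK_s he h12 (v' := (-1/20:ℝ)) (by norm_num [SS, BB, abs_le]) (fun _ _ _ _ _ h13 H9 => ?_) H8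
  have h14 := In_cast h13 (add_comm _ _)
  refine sqK_s he h7 (fun _ _ _ _ _ h15 H10 => ?_) H9
  refine addcK_s he h15 (v' := (1:ℝ)) (by norm_num [SS, BB, abs_le]) (fun _ _ _ _ _ h16 H11 => ?_) H10
  have h17 := In_cast h16 (add_comm _ _)
  refine invK_s he h17 (fun _ _ _ _ _ h18 H12 => ?_) H11
  have h19 := In_cast h18 (inv_eq_one_div _)
  have h20 := In_cast (w := (Dp s r x p q)) h19 rfl
  refine mulK_s he h14 h20 (fun _ _ _ _ _ h21 H13 => ?_) H12
  refine mulK_s he hx1 h21 (fun _ _ _ _ _ h22 H14 => ?_) H13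
  refine addcK_s he h22 (v' := (1:ℝ)) (by norm_num [SS, BB, abs_le]) (fun _ _ _ _ _ h23 H15 => ?_) H14
  have h24 := In_cast h23 (add_comm _ _)
  have h25 := In_cast (w := (K0Dp s r x p q)) h24 rfl
  refine mulK_s he hx2 hx3 (fun _ _ _ _ _ h26 H16 => ?_) H15
  have h27 := In_cast (w := (ea s r x p q)) h26 rfl
  refine smulK_s he (w := (16136/125:ℝ)) (by norm_num) (by norm_num) (by norm_num) (by norm_num) h27 (fun _ _ _ _ _ h28 H17 => ?_) H16
  refine negK_s he h28 (fun _ _ _ _ _ h29 H18 => ?_) H17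
  have h30 := In_cast h29 (neg_mul_c (c := (-16136/125:ℝ)) (by norm_num))
  refine addcK_s he h30 (v' := (12512/25:ℝ)) (by norm_num [SS, BB, abs_le]) (fun _ _ _ _ _ h31 H19 => ?_) H18
  refine mulK_s he h31 h27 (fun _ _ _ _ _ h32 H20 => ?_) H19
  refine addcK_s he h32 (v' := (-19616/25:ℝ)) (by norm_num [SS, BB, abs_le]) (fun _ _ _ _ _ h33 H21 => ?_) H20
  refine mulK_s he h33 h27 (fun _ _ _ _ _ h34 H22 => ?_) H21
  refine addcK_s he h34 (v' := (79622/125:ℝ)) (by norm_num [SS, BB, abs_le]) (fun _ _ _ _ _ h35 H23 => ?_) H22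
  refine mulK_s he h35 h27 (fun _ _ _ _ _ h36 H24 => ?_) H23
  refine addcK_s he h36 (v' := (-71741/250:ℝ)) (by norm_num [SS, BB, abs_le]) (fun _ _ _ _ _ h37 H25 => ?_) H24
  refine mulK_s he h37 h27 (fun _ _ _ _ _ h38 H26 => ?_) H25
  refine addcK_s he h38 (v' := (36359/500:ℝ)) (by norm_num [SS, BB, abs_le]) (fun _ _ _ _ _ h39 H27 => ?_) H26
  refine mulK_s he h39 h27 (fun _ _ _ _ _ h40 H28 => ?_) H27
  refine addcK_s he h40 (v' := (-292/25:ℝ)) (by norm_num [SS, BB, abs_le]) (fun _ _ _ _ _ h41 H29 => ?_) H28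
  refine mulK_s he h41 h27 (fun _ _ _ _ _ h42 H30 => ?_) H29
  refine addcK_s he h42 (v' := (1099/500:ℝ)) (by norm_num [SS, BB, abs_le]) (fun _ _ _ _ _ h43 H31 => ?_) H30
  have h44 := In_cast (w := (ua s r x p q)) h43 rfl
  refine mulK_s he hx3 h44 (fun _ _ _ _ _ h45 H32 => ?_) H31
  refine mulK_s he h25 h45 (fun _ _ _ _ _ h46 H33 => ?_) H32
  refine mulK_s he h2 h20 (fun _ _ _ _ _ h47 H34 => ?_) H33
  refine addcK_s he h7 (v' := (1:ℝ)) (by norm_num [SS, BB, abs_le]) (fun _ _ _ _ _ h48 H35 => ?_) H34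
  have h49 := In_cast h48 (add_comm _ _)
  refine smulK_s he (w := (93/100:ℝ)) (by norm_num) (by norm_num) (by norm_num) (by norm_num) h7 (fun _ _ _ _ _ h50 H36 => ?_) H35
  refine addcK_s he h50 (v' := (-17/100:ℝ)) (by norm_num [SS, BB, abs_le]) (fun _ _ _ _ _ h51 H37 => ?_) H36
  have h52 := In_cast h51 (sub_c (c := (17/100:ℝ)) (by norm_num))
  refine smulK_s he (w := (3/25:ℝ)) (by norm_num) (by norm_num) (by norm_num) (by norm_num) h7 (fun _ _ _ _ _ h53 H38 => ?_) H37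
  refine addcK_s he h53 (v' := (1/10:ℝ)) (by norm_num [SS, BB, abs_le]) (fun _ _ _ _ _ h54 H39 => ?_) H38
  have h55 := In_cast h54 (add_comm _ _)
  refine mulK_s he hx1 h55 (fun _ _ _ _ _ h56 H40 => ?_) H39
  refine addK_s he h52 h56 (fun _ _ _ _ _ h57 H41 => ?_) H40
  refine mulK_s he hx1 h57 (fun _ _ _ _ _ h58 H42 => ?_) H41
  refine subK_s he h49 h58 (fun _ _ _ _ _ h59 H43 => ?_) H42
  have h60 := In_cast (w := (BDp s r x p q)) h59 rfl
  refine mulK_s he h47 h60 (fun _ _ _ _ _ h61 H44 => ?_) H43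
  have h62 := In_cast (w := (kp s r x p q)) h61 rfl
  refine negK_s he hx3 (fun _ _ _ _ _ h63 H45 => ?_) H44
  refine addcK_s he h63 (v' := (1:ℝ)) (by norm_num [SS, BB, abs_le]) (fun _ _ _ _ _ h64 H46 => ?_) H45
  have h65 := In_cast h64 (neg_add_eq_sub _ _)
  refine mulK_s he hx2 h65 (fun _ _ _ _ _ h66 H47 => ?_) H46
  have h67 := In_cast (w := (eb s r x p q)) h66 rfl
  refine smulK_s he (w := (16136/125:ℝ)) (by norm_num) (by norm_num) (by norm_num) (by norm_num) h67 (fun _ _ _ _ _ h68 H48 => ?_) H47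
  refine negK_s he h68 (fun _ _ _ _ _ h69 H49 => ?_) H48
  have h70 := In_cast h69 (neg_mul_c (c := (-16136/125:ℝ)) (by norm_num))
  refine addcK_s he h70 (v' := (66528/125:ℝ)) (by norm_num [SS, BB, abs_le]) (fun _ _ _ _ _ h71 H50 => ?_) H49
  refine mulK_s he h71 h67 (fun _ _ _ _ _ h72 H51 => ?_) H50
  refine addcK_s he h72 (v' := (-111968/125:ℝ)) (by norm_num [SS, BB, abs_le]) (fun _ _ _ _ _ h73 H52 => ?_) H51
  refine mulK_s he h73 h67 (fun _ _ _ _ _ h74 H53 => ?_) H52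
  refine addcK_s he h74 (v' := (98714/125:ℝ)) (by norm_num [SS, BB, abs_le]) (fun _ _ _ _ _ h75 H54 => ?_) H53
  refine mulK_s he h75 h67 (fun _ _ _ _ _ h76 H55 => ?_) H54
  refine addcK_s he h76 (v' := (-97761/250:ℝ)) (by norm_num [SS, BB, abs_le]) (fun _ _ _ _ _ h77 H56 => ?_) H55
  refine mulK_s he h77 h67 (fun _ _ _ _ _ h78 H57 => ?_) H56
  refine addcK_s he h78 (v' := (55153/500:ℝ)) (by norm_num [SS, BB, abs_le]) (fun _ _ _ _ _ h79 H58 => ?_) H57
  refine mulK_s he h79 h67 (fun _ _ _ _ _ h80 H59 => ?_) H58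
  refine addcK_s he h80 (v' := (-9767/500:ℝ)) (by norm_num [SS, BB, abs_le]) (fun _ _ _ _ _ h81 H60 => ?_) H59
  refine mulK_s he h81 h67 (fun _ _ _ _ _ h82 H61 => ?_) H60
  refine addcK_s he h82 (v' := (396/125:ℝ)) (by norm_num [SS, BB, abs_le]) (fun _ _ _ _ _ h83 H62 => ?_) H61
  have h84 := In_cast (w := (cb s r x p q)) h83 rfl
  refine mulK_s he h67 h84 (fun _ _ _ _ _ h85 H63 => ?_) H62
  refine mulK_s he h62 h85 (fun _ _ _ _ _ h86 H64 => ?_) H63
  refine addK_s he h46 h86 (fun _ _ _ _ _ h87 H65 => ?_) H64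
  refine addcK_s he h87 (v' := (-1:ℝ)) (by norm_num [SS, BB, abs_le]) (fun _ _ _ _ _ h88 H66 => ?_) H65
  have h89 := In_cast h88 (sub_c (c := (1:ℝ)) (by norm_num))
  refine addcK_s he h3 (v' := (1/250:ℝ)) (by norm_num [SS, BB, abs_le]) (fun _ _ _ _ _ h90 H67 => ?_) H66
  refine mulK_s he h2 h90 (fun _ _ _ _ _ h91 H68 => ?_) H67
  refine mulK_s he h91 h20 (fun _ _ _ _ _ h92 H69 => ?_) H68
  have h93 := In_cast (w := (lp s r x p q)) h92 rfl
  refine negK_s he hx2 (fun _ _ _ _ _ h94 H70 => ?_) H69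
  refine addcK_s he h94 (v' := (1:ℝ)) (by norm_num [SS, BB, abs_le]) (fun _ _ _ _ _ h95 H71 => ?_) H70
  have h96 := In_cast h95 (neg_add_eq_sub _ _)
  refine mulK_s he h93 h96 (fun _ _ _ _ _ h97 H72 => ?_) H71
  refine subK_s he h89 h97 (fun _ _ _ _ _ h98 H73 => ?_) H72
  refine smulK_s he (w := (2:ℝ)) (by norm_num) (by norm_num) (by norm_num) (by norm_num) hx3 (fun _ _ _ _ _ h99 H74 => ?_) H73
  refine addcK_s he h99 (v' := (-1:ℝ)) (by norm_num [SS, BB, abs_le]) (fun _ _ _ _ _ h100 H75 => ?_) H74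
  have h101 := In_cast h100 (sub_c (c := (1:ℝ)) (by norm_num))
  have h102 := In_cast (w := (k s r x p q)) h101 rfl
  refine mulK_s he hx2 h102 (fun _ _ _ _ _ h103 H76 => ?_) H75
  have h104 := In_cast (w := (m s r x p q)) h103 rfl
  refine smulK_s he (w := (2017/4000:ℝ)) (by norm_num) (by norm_num) (by norm_num) (by norm_num) h104 (fun _ _ _ _ _ h105 H77 => ?_) H76
  refine negK_s he h105 (fun _ _ _ _ _ h106 H78 => ?_) H77
  have h107 := In_cast h106 (neg_mul_c (c := (-2017/4000:ℝ)) (by norm_num))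
  refine addcK_s he h107 (v' := (-31/250:ℝ)) (by norm_num [SS, BB, abs_le]) (fun _ _ _ _ _ h108 H79 => ?_) H78
  refine mulK_s he h108 h104 (fun _ _ _ _ _ h109 H80 => ?_) H79
  refine addcK_s he h109 (v' := (991/1000:ℝ)) (by norm_num [SS, BB, abs_le]) (fun _ _ _ _ _ h110 H81 => ?_) H80
  refine mulK_s he h110 h104 (fun _ _ _ _ _ h111 H82 => ?_) H81
  refine addcK_s he h111 (v' := (87/400:ℝ)) (by norm_num [SS, BB, abs_le]) (fun _ _ _ _ _ h112 H83 => ?_) H82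
  refine mulK_s he h112 h104 (fun _ _ _ _ _ h113 H84 => ?_) H83
  refine addcK_s he h113 (v' := (-3021/4000:ℝ)) (by norm_num [SS, BB, abs_le]) (fun _ _ _ _ _ h114 H85 => ?_) H84
  refine mulK_s he h114 h104 (fun _ _ _ _ _ h115 H86 => ?_) H85
  refine addcK_s he h115 (v' := (-737/4000:ℝ)) (by norm_num [SS, BB, abs_le]) (fun _ _ _ _ _ h116 H87 => ?_) H86
  refine mulK_s he h116 h104 (fun _ _ _ _ _ h117 H88 => ?_) H87
  refine addcK_s he h117 (v' := (-93/800:ℝ)) (by norm_num [SS, BB, abs_le]) (fun _ _ _ _ _ h118 H89 => ?_) H88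
  refine mulK_s he h118 h104 (fun _ _ _ _ _ h119 H90 => ?_) H89
  refine addcK_s he h119 (v' := (363/4000:ℝ)) (by norm_num [SS, BB, abs_le]) (fun _ _ _ _ _ h120 H91 => ?_) H90
  have h121 := In_cast (w := (U1 s r x p q)) h120 rfl
  refine mulK_s he h102 h121 (fun _ _ _ _ _ h122 H92 => ?_) H91
  refine smulK_s he (w := (2:ℝ)) (by norm_num) (by norm_num) (by norm_num) (by norm_num) h122 (fun _ _ _ _ _ h123 H93 => ?_) H92
  refine subK_s he h98 h123 (fun _ _ _ _ _ h124 H94 => ?_) H93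
  have h125 := In_cast (w := (Pc s r x p q)) h124 rfl
  refine mulK_s he hx2 h125 (fun _ _ _ _ _ h126 H95 => ?_) H94
  refine addcK_s he h126 (v' := (461/2000:ℝ)) (by norm_num [SS, BB, abs_le]) (fun _ _ _ _ _ h127 H96 => ?_) H95
  have h128 := In_cast h127 (add_comm _ _)
  refine posK_s he h128 (fun p0 H97 => ?_) H96
  refine smulK_s he (w := (6:ℝ)) (by norm_num) (by norm_num) (by norm_num) (by norm_num) hp2 (fun _ _ _ _ _ h129 H98 => ?_) H97
  have h130 := In_cast (w := (gq s r x p q)) h129 rfl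
  refine mulK_s he hx2 h130 (fun _ _ _ _ _ h131 H99 => ?_) H98
  refine negK_s he h131 (fun _ _ _ _ _ h132 H100 => ?_) H99
  refine addcK_s he h132 (v' := (1:ℝ)) (by norm_num [SS, BB, abs_le]) (fun _ _ _ _ _ h133 H101 => ?_) H100
  have h134 := In_cast h133 (neg_add_eq_sub _ _)
  have h135 := In_cast (w := (tq s r x p q)) h134 rfl
  refine smulK_s he (w := (21/50:ℝ)) (by norm_num) (by norm_num) (by norm_num) (by norm_num) h135 (fun _ _ _ _ _ h136 H102 => ?_) H101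
  refine negK_s he h136 (fun _ _ _ _ _ h137 H103 => ?_) H102
  refine addcK_s he h137 (v' := (3/5:ℝ)) (by norm_num [SS, BB, abs_le]) (fun _ _ _ _ _ h138 H104 => ?_) H103
  have h139 := In_cast h138 (neg_add_eq_sub _ _)
  refine mulK_s he h135 h139 (fun _ _ _ _ _ h140 H105 => ?_) H104
  refine addcK_s he h140 (v' := (-1/20:ℝ)) (by norm_num [SS, BB, abs_le]) (fun _ _ _ _ _ h141 H106 => ?_) H105
  have h142 := In_cast h141 (add_comm _ _)
  refine sqK_s he h135 (fun _ _ _ _ _ h143 H107 => ?_) H106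
  refine addcK_s he h143 (v' := (1:ℝ)) (by norm_num [SS, BB, abs_le]) (fun _ _ _ _ _ h144 H108 => ?_) H107
  have h145 := In_cast h144 (add_comm _ _)
  refine invK_s he h145 (fun _ _ _ _ _ h146 H109 => ?_) H108
  have h147 := In_cast h146 (inv_eq_one_div _)
  have h148 := In_cast (w := (Dq s r x p q)) h147 rfl
  refine mulK_s he h142 h148 (fun _ _ _ _ _ h149 H110 => ?_) H109
  refine mulK_s he hx1 h149 (fun _ _ _ _ _ h150 H111 => ?_) H110
  refine addcK_s he h150 (v' := (1:ℝ)) (by norm_num [SS, BB, abs_le]) (fun _ _ _ _ _ h151 H112 => ?_) H111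
  have h152 := In_cast h151 (add_comm _ _)
  have h153 := In_cast (w := (K0Dq s r x p q)) h152 rfl
  refine addcK_s he h70 (v' := (12512/25:ℝ)) (by norm_num [SS, BB, abs_le]) (fun _ _ _ _ _ h154 H113 => ?_) H112
  refine mulK_s he h154 h67 (fun _ _ _ _ _ h155 H114 => ?_) H113
  refine addcK_s he h155 (v' := (-19616/25:ℝ)) (by norm_num [SS, BB, abs_le]) (fun _ _ _ _ _ h156 H115 => ?_) H114
  refine mulK_s he h156 h67 (fun _ _ _ _ _ h157 H116 => ?_) H115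
  refine addcK_s he h157 (v' := (79622/125:ℝ)) (by norm_num [SS, BB, abs_le]) (fun _ _ _ _ _ h158 H117 => ?_) H116
  refine mulK_s he h158 h67 (fun _ _ _ _ _ h159 H118 => ?_) H117
  refine addcK_s he h159 (v' := (-71741/250:ℝ)) (by norm_num [SS, BB, abs_le]) (fun _ _ _ _ _ h160 H119 => ?_) H118
  refine mulK_s he h160 h67 (fun _ _ _ _ _ h161 H120 => ?_) H119
  refine addcK_s he h161 (v' := (36359/500:ℝ)) (by norm_num [SS, BB, abs_le]) (fun _ _ _ _ _ h162 H121 => ?_) H120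
  refine mulK_s he h162 h67 (fun _ _ _ _ _ h163 H122 => ?_) H121
  refine addcK_s he h163 (v' := (-292/25:ℝ)) (by norm_num [SS, BB, abs_le]) (fun _ _ _ _ _ h164 H123 => ?_) H122
  refine mulK_s he h164 h67 (fun _ _ _ _ _ h165 H124 => ?_) H123
  refine addcK_s he h165 (v' := (1099/500:ℝ)) (by norm_num [SS, BB, abs_le]) (fun _ _ _ _ _ h166 H125 => ?_) H124
  have h167 := In_cast (w := (ub s r x p q)) h166 rfl
  refine mulK_s he h65 h167 (fun _ _ _ _ _ h168 H126 => ?_) H125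
  refine mulK_s he h153 h168 (fun _ _ _ _ _ h169 H127 => ?_) H126
  refine mulK_s he h130 h148 (fun _ _ _ _ _ h170 H128 => ?_) H127
  refine addcK_s he h135 (v' := (1:ℝ)) (by norm_num [SS, BB, abs_le]) (fun _ _ _ _ _ h171 H129 => ?_) H128
  have h172 := In_cast h171 (add_comm _ _)
  refine smulK_s he (w := (93/100:ℝ)) (by norm_num) (by norm_num) (by norm_num) (by norm_num) h135 (fun _ _ _ _ _ h173 H130 => ?_) H129
  refine addcK_s he h173 (v' := (-17/100:ℝ)) (by norm_num [SS, BB, abs_le]) (fun _ _ _ _ _ h174 H131 => ?_) H130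
  have h175 := In_cast h174 (sub_c (c := (17/100:ℝ)) (by norm_num))
  refine smulK_s he (w := (3/25:ℝ)) (by norm_num) (by norm_num) (by norm_num) (by norm_num) h135 (fun _ _ _ _ _ h176 H132 => ?_) H131
  refine addcK_s he h176 (v' := (1/10:ℝ)) (by norm_num [SS, BB, abs_le]) (fun _ _ _ _ _ h177 H133 => ?_) H132
  have h178 := In_cast h177 (add_comm _ _)
  refine mulK_s he hx1 h178 (fun _ _ _ _ _ h179 H134 => ?_) H133
  refine addK_s he h175 h179 (fun _ _ _ _ _ h180 H135 => ?_) H134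
  refine mulK_s he hx1 h180 (fun _ _ _ _ _ h181 H136 => ?_) H135
  refine subK_s he h172 h181 (fun _ _ _ _ _ h182 H137 => ?_) H136
  have h183 := In_cast (w := (BDq s r x p q)) h182 rfl
  refine mulK_s he h170 h183 (fun _ _ _ _ _ h184 H138 => ?_) H137
  have h185 := In_cast (w := (kq s r x p q)) h184 rfl
  refine addcK_s he h30 (v' := (66528/125:ℝ)) (by norm_num [SS, BB, abs_le]) (fun _ _ _ _ _ h186 H139 => ?_) H138
  refine mulK_s he h186 h27 (fun _ _ _ _ _ h187 H140 => ?_) H139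
  refine addcK_s he h187 (v' := (-111968/125:ℝ)) (by norm_num [SS, BB, abs_le]) (fun _ _ _ _ _ h188 H141 => ?_) H140
  refine mulK_s he h188 h27 (fun _ _ _ _ _ h189 H142 => ?_) H141
  refine addcK_s he h189 (v' := (98714/125:ℝ)) (by norm_num [SS, BB, abs_le]) (fun _ _ _ _ _ h190 H143 => ?_) H142
  refine mulK_s he h190 h27 (fun _ _ _ _ _ h191 H144 => ?_) H143
  refine addcK_s he h191 (v' := (-97761/250:ℝ)) (by norm_num [SS, BB, abs_le]) (fun _ _ _ _ _ h192 H145 => ?_) H144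
  refine mulK_s he h192 h27 (fun _ _ _ _ _ h193 H146 => ?_) H145
  refine addcK_s he h193 (v' := (55153/500:ℝ)) (by norm_num [SS, BB, abs_le]) (fun _ _ _ _ _ h194 H147 => ?_) H146
  refine mulK_s he h194 h27 (fun _ _ _ _ _ h195 H148 => ?_) H147
  refine addcK_s he h195 (v' := (-9767/500:ℝ)) (by norm_num [SS, BB, abs_le]) (fun _ _ _ _ _ h196 H149 => ?_) H148
  refine mulK_s he h196 h27 (fun _ _ _ _ _ h197 H150 => ?_) H149
  refine addcK_s he h197 (v' := (396/125:ℝ)) (by norm_num [SS, BB, abs_le]) (fun _ _ _ _ _ h198 H151 => ?_) H150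
  have h199 := In_cast (w := (ca s r x p q)) h198 rfl
  refine mulK_s he h27 h199 (fun _ _ _ _ _ h200 H152 => ?_) H151
  refine mulK_s he h185 h200 (fun _ _ _ _ _ h201 H153 => ?_) H152
  refine addK_s he h169 h201 (fun _ _ _ _ _ h202 H154 => ?_) H153
  refine addcK_s he h202 (v' := (-1:ℝ)) (by norm_num [SS, BB, abs_le]) (fun _ _ _ _ _ h203 H155 => ?_) H154
  have h204 := In_cast h203 (sub_c (c := (1:ℝ)) (by norm_num))
  refine addcK_s he h131 (v' := (1/250:ℝ)) (by norm_num [SS, BB, abs_le]) (fun _ _ _ _ _ h205 H156 => ?_) H155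
  refine mulK_s he h130 h205 (fun _ _ _ _ _ h206 H157 => ?_) H156
  refine mulK_s he h206 h148 (fun _ _ _ _ _ h207 H158 => ?_) H157
  have h208 := In_cast (w := (lq s r x p q)) h207 rfl
  refine mulK_s he h208 h96 (fun _ _ _ _ _ h209 H159 => ?_) H158
  refine subK_s he h204 h209 (fun _ _ _ _ _ h210 H160 => ?_) H159
  refine addcK_s he h107 (v' := (31/250:ℝ)) (by norm_num [SS, BB, abs_le]) (fun _ _ _ _ _ h211 H161 => ?_) H160
  refine mulK_s he h211 h104 (fun _ _ _ _ _ h212 H162 => ?_) H161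
  refine addcK_s he h212 (v' := (991/1000:ℝ)) (by norm_num [SS, BB, abs_le]) (fun _ _ _ _ _ h213 H163 => ?_) H162
  refine mulK_s he h213 h104 (fun _ _ _ _ _ h214 H164 => ?_) H163
  refine addcK_s he h214 (v' := (-87/400:ℝ)) (by norm_num [SS, BB, abs_le]) (fun _ _ _ _ _ h215 H165 => ?_) H164
  refine mulK_s he h215 h104 (fun _ _ _ _ _ h216 H166 => ?_) H165
  refine addcK_s he h216 (v' := (-3021/4000:ℝ)) (by norm_num [SS, BB, abs_le]) (fun _ _ _ _ _ h217 H167 => ?_) H166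
  refine mulK_s he h217 h104 (fun _ _ _ _ _ h218 H168 => ?_) H167
  refine addcK_s he h218 (v' := (737/4000:ℝ)) (by norm_num [SS, BB, abs_le]) (fun _ _ _ _ _ h219 H169 => ?_) H168
  refine mulK_s he h219 h104 (fun _ _ _ _ _ h220 H170 => ?_) H169
  refine addcK_s he h220 (v' := (-93/800:ℝ)) (by norm_num [SS, BB, abs_le]) (fun _ _ _ _ _ h221 H171 => ?_) H170
  refine mulK_s he h221 h104 (fun _ _ _ _ _ h222 H172 => ?_) H171
  refine addcK_s he h222 (v' := (-363/4000:ℝ)) (by norm_num [SS, BB, abs_le]) (fun _ _ _ _ _ h223 H173 => ?_) H172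
  have h224 := In_cast (w := (Ut1 s r x p q)) h223 rfl
  refine mulK_s he h102 h224 (fun _ _ _ _ _ h225 H174 => ?_) H173
  refine smulK_s he (w := (2:ℝ)) (by norm_num) (by norm_num) (by norm_num) (by norm_num) h225 (fun _ _ _ _ _ h226 H175 => ?_) H174
  refine subK_s he h210 h226 (fun _ _ _ _ _ h227 H176 => ?_) H175
  have h228 := In_cast (w := (Qc s r x p q)) h227 rfl
  refine mulK_s he hx2 h228 (fun _ _ _ _ _ h229 H177 => ?_) H176
  refine addcK_s he h229 (v' := (461/2000:ℝ)) (by norm_num [SS, BB, abs_le]) (fun _ _ _ _ _ h230 H178 => ?_) H177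
  have h231 := In_cast h230 (add_comm _ _)
  refine posK_s he h231 (fun p1 H179 => ?_) H178
  refine addK_s he h125 h228 (fun _ _ _ _ _ h232 H180 => ?_) H179
  refine mulK_s he h104 h102 (fun _ _ _ _ _ h233 H181 => ?_) H180
  refine smulK_s he (w := (73/125:ℝ)) (by norm_num) (by norm_num) (by norm_num) (by norm_num) h104 (fun _ _ _ _ _ h234 H182 => ?_) H181
  refine addcK_s he h234 (v' := (0:ℝ)) (by norm_num [SS, BB, abs_le]) (fun _ _ _ _ _ h235 H183 => ?_) H182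
  refine mulK_s he h235 h104 (fun _ _ _ _ _ h236 H184 => ?_) H183
  refine addcK_s he h236 (v' := (-1269/1000:ℝ)) (by norm_num [SS, BB, abs_le]) (fun _ _ _ _ _ h237 H185 => ?_) H184
  refine mulK_s he h237 h104 (fun _ _ _ _ _ h238 H186 => ?_) H185
  refine addcK_s he h238 (v' := (0:ℝ)) (by norm_num [SS, BB, abs_le]) (fun _ _ _ _ _ h239 H187 => ?_) H186
  refine mulK_s he h239 h104 (fun _ _ _ _ _ h240 H188 => ?_) H187
  refine addcK_s he h240 (v' := (721/800:ℝ)) (by norm_num [SS, BB, abs_le]) (fun _ _ _ _ _ h241 H189 => ?_) H188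
  refine mulK_s he h241 h104 (fun _ _ _ _ _ h242 H190 => ?_) H189
  refine addcK_s he h242 (v' := (0:ℝ)) (by norm_num [SS, BB, abs_le]) (fun _ _ _ _ _ h243 H191 => ?_) H190
  refine mulK_s he h243 h104 (fun _ _ _ _ _ h244 H192 => ?_) H191
  refine addcK_s he h244 (v' := (-663/2000:ℝ)) (by norm_num [SS, BB, abs_le]) (fun _ _ _ _ _ h245 H193 => ?_) H192
  have h246 := In_cast (w := (V2 s r x p q)) h245 rfl
  refine mulK_s he h233 h246 (fun _ _ _ _ _ h247 H194 => ?_) H193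
  refine smulK_s he (w := (2:ℝ)) (by norm_num) (by norm_num) (by norm_num) (by norm_num) h247 (fun _ _ _ _ _ h248 H195 => ?_) H194
  refine mulK_s he hx2 h185 (fun _ _ _ _ _ h249 H196 => ?_) H195
  refine mulK_s he h25 h249 (fun _ _ _ _ _ h250 H197 => ?_) H196
  refine sqrtK_s he h250 (fun _ _ _ _ _ h251 H198 => ?_) H197
  refine mulK_s he h27 hx3 (fun _ _ _ _ _ h252 H199 => ?_) H198
  refine smulK_s he (w := (18688/125:ℝ)) (by norm_num) (by norm_num) (by norm_num) (by norm_num) h27 (fun _ _ _ _ _ h253 H200 => ?_) H199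
  refine addcK_s he h253 (v' := (-74752/125:ℝ)) (by norm_num [SS, BB, abs_le]) (fun _ _ _ _ _ h254 H201 => ?_) H200
  refine mulK_s he h254 h27 (fun _ _ _ _ _ h255 H202 => ?_) H201
  refine addcK_s he h255 (v' := (120664/125:ℝ)) (by norm_num [SS, BB, abs_le]) (fun _ _ _ _ _ h256 H203 => ?_) H202
  refine mulK_s he h256 h27 (fun _ _ _ _ _ h257 H204 => ?_) H203
  refine addcK_s he h257 (v' := (-20072/25:ℝ)) (by norm_num [SS, BB, abs_le]) (fun _ _ _ _ _ h258 H205 => ?_) H204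
  refine mulK_s he h258 h27 (fun _ _ _ _ _ h259 H206 => ?_) H205
  refine addcK_s he h259 (v' := (18197/50:ℝ)) (by norm_num [SS, BB, abs_le]) (fun _ _ _ _ _ h260 H207 => ?_) H206
  refine mulK_s he h260 h27 (fun _ _ _ _ _ h261 H208 => ?_) H207
  refine addcK_s he h261 (v' := (-10929/125:ℝ)) (by norm_num [SS, BB, abs_le]) (fun _ _ _ _ _ h262 H209 => ?_) H208
  refine mulK_s he h262 h27 (fun _ _ _ _ _ h263 H210 => ?_) H209
  refine addcK_s he h263 (v' := (2393/250:ℝ)) (by norm_num [SS, BB, abs_le]) (fun _ _ _ _ _ h264 H211 => ?_) H210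
  have h265 := In_cast (w := (va s r x p q)) h264 rfl
  refine mulK_s he h252 h265 (fun _ _ _ _ _ h266 H212 => ?_) H211
  refine mulK_s he h251 h266 (fun _ _ _ _ _ h267 H213 => ?_) H212
  refine subK_s he h248 h267 (fun _ _ _ _ _ h268 H214 => ?_) H213
  refine mulK_s he hx2 h62 (fun _ _ _ _ _ h269 H215 => ?_) H214
  refine mulK_s he h269 h153 (fun _ _ _ _ _ h270 H216 => ?_) H215
  refine sqrtK_s he h270 (fun _ _ _ _ _ h271 H217 => ?_) H216
  refine mulK_s he h67 h65 (fun _ _ _ _ _ h272 H218 => ?_) H217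
  refine smulK_s he (w := (18688/125:ℝ)) (by norm_num) (by norm_num) (by norm_num) (by norm_num) h67 (fun _ _ _ _ _ h273 H219 => ?_) H218
  refine addcK_s he h273 (v' := (-74752/125:ℝ)) (by norm_num [SS, BB, abs_le]) (fun _ _ _ _ _ h274 H220 => ?_) H219
  refine mulK_s he h274 h67 (fun _ _ _ _ _ h275 H221 => ?_) H220
  refine addcK_s he h275 (v' := (120664/125:ℝ)) (by norm_num [SS, BB, abs_le]) (fun _ _ _ _ _ h276 H222 => ?_) H221
  refine mulK_s he h276 h67 (fun _ _ _ _ _ h277 H223 => ?_) H222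
  refine addcK_s he h277 (v' := (-20072/25:ℝ)) (by norm_num [SS, BB, abs_le]) (fun _ _ _ _ _ h278 H224 => ?_) H223
  refine mulK_s he h278 h67 (fun _ _ _ _ _ h279 H225 => ?_) H224
  refine addcK_s he h279 (v' := (18197/50:ℝ)) (by norm_num [SS, BB, abs_le]) (fun _ _ _ _ _ h280 H226 => ?_) H225
  refine mulK_s he h280 h67 (fun _ _ _ _ _ h281 H227 => ?_) H226
  refine addcK_s he h281 (v' := (-10929/125:ℝ)) (by norm_num [SS, BB, abs_le]) (fun _ _ _ _ _ h282 H228 => ?_) H227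
  refine mulK_s he h282 h67 (fun _ _ _ _ _ h283 H229 => ?_) H228
  refine addcK_s he h283 (v' := (2393/250:ℝ)) (by norm_num [SS, BB, abs_le]) (fun _ _ _ _ _ h284 H230 => ?_) H229
  have h285 := In_cast (w := (vb s r x p q)) h284 rfl
  refine mulK_s he h272 h285 (fun _ _ _ _ _ h286 H231 => ?_) H230
  refine mulK_s he h271 h286 (fun _ _ _ _ _ h287 H232 => ?_) H231
  refine subK_s he h268 h287 (fun _ _ _ _ _ h288 H233 => ?_) H232
  have h289 := In_cast (w := (Zc s r x p q)) h288 rfl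
  refine smulK_s he (w := (2:ℝ)) (by norm_num) (by norm_num) (by norm_num) (by norm_num) h289 (fun _ _ _ _ _ h290 H234 => ?_) H233
  refine subK_s he h232 h290 (fun _ _ _ _ _ h291 H235 => ?_) H234
  refine smulK_s he (w := (461/2000:ℝ)) (by norm_num) (by norm_num) (by norm_num) (by norm_num) h291 (fun _ _ _ _ _ h292 H236 => ?_) H235
  refine mulK_s he h125 h228 (fun _ _ _ _ _ h293 H237 => ?_) H236
  refine sqK_s he h289 (fun _ _ _ _ _ h294 H238 => ?_) H237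
  refine subK_s he h293 h294 (fun _ _ _ _ _ h295 H239 => ?_) H238
  refine mulK_s he hx2 h295 (fun _ _ _ _ _ h296 H240 => ?_) H239
  refine addK_s he h292 h296 (fun _ _ _ _ _ h297 H241 => ?_) H240
  exact ⟨p0, p1, pos_s he h297 H241⟩

attribute [irreducible] alt0

noncomputable def leaf (j u z1 w1 z2 w2 z3 w3 : ℕ) : Bool :=
  fB (Nat.add (Nat.land (Nat.shiftRight u 0) 65535) 1) fun n1 =>
  fB (Nat.add (Nat.mul n1 16777216) 1152921504606846977) fun p1 =>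
  fB (Nat.add (Nat.land (Nat.shiftRight u 16) 65535) 1) fun n2 =>
  fB (Nat.add (Nat.mul n2 16777216) 1152921504606846977) fun p2 =>
  alt0 p1 p2 z1 w1 z2 w2 z3 w3

theorem snd : Snd Q leaf := by
  intro j u z1 w1 z2 w2 z3 w3 e1 e2 e3 he H
  unfold leaf at H
  unfold Q
  replace H := frc H
  obtain ⟨n1, hn1, H⟩ := H
  replace H := frc H
  obtain ⟨p1, hp1, H⟩ := H
  obtain ⟨hp1, ha, hb⟩ := par (e1 := e1) (e2 := e2) (e3 := e3) hn1 hp1
  refine ⟨_, ha, hb, ?_⟩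
  replace H := frc H
  obtain ⟨n2, hn2, H⟩ := H
  replace H := frc H
  obtain ⟨p2, hp2, H⟩ := H
  obtain ⟨hp2, ha, hb⟩ := par (e1 := e1) (e2 := e2) (e3 := e3) hn2 hp2
  refine ⟨_, ha, hb, ?_⟩
  exact alt0_s he hp1 hp2 (var1 z1 w1) (var2 z2 w2) (var3 z3 w3) H

end Crest.Agent.R307.HL1C
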