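import Crest.Agent.R307.HL1C
set_option autoImplicit false
set_option maxRecDepth 100000
namespace Crest.Agent.R307.HL1C
open Crest.Agent.R307.IA Crest.Agent.R307.IA3

theorem k0 : Cov Q 1152921504606846976 1152921691523823698 1152921504606846976 1152921548587312088 1152921504606846976 1152922054362660864 :=
  cov_of snd 32 4294967295 4 _ _ _ _ _ _ 0x2f624bae300006e56300006e5631200006b45300006b4531000039e0311 (by decide +kernel)

end Crest.Agent.R307.HL1C
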