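import Crest.Agent.R307.HL1I
set_option autoImplicit false
set_option maxRecDepth 100000
namespace Crest.Agent.R307.HL1I
open Crest.Agent.R307.IA Crest.Agent.R307.IA3

theorem k0 : Cov Q 1152921504606846976 1152922054362660864 1152921504606846976 1152921691523823698 1152921504606846976 1152921779484753920 :=
  cov_of snd 32 4294967295 8 _ _ _ _ _ _ 0xa08a9b6b3a08a9b6b309eaaa1eb308f6596c0386718ffc3007e46899137ebd7b5a30873347f737f334ff73000705c704a3705c704a304c9d4a6634c9d4a663004e444e5034e444e503045db56c9346234138346234138300040cc52f43463f22f13044ff3f71344ff3f7130425f43f13425f43f130003dfe64a133dfe64a13037214c21337214c213000000 (by decide +kernel)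

end Crest.Agent.R307.HL1I
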