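import Crest.Agent.R307.HL1IC0
set_option autoImplicit false
set_option maxRecDepth 100000
namespace Crest.Agent.R307.HL1I
open Crest.Agent.R307.IA Crest.Agent.R307.IA3

theorem cov : Cov Q 1152921504606846976 1152922054362660864 1152921504606846976 1152921691523823698 1152921504606846976 1152921779484753920 :=
  k0

theorem main (a s xi : ℝ) (l0 : (0:ℝ) ≤ a) (u0 : a ≤ (1/2:ℝ)) (l1 : (0:ℝ) ≤ s) (u1 : s ≤ (17/100:ℝ)) (l2 : (0:ℝ) ≤ xi) (u2 : xi ≤ (1/4:ℝ)) : Q a s xi :=
  cov a s xi (le_trans (by norm_num [val, SS, BB]) l0) (le_trans u0 (by norm_num [val, SS, BB])) (le_trans (by norm_num [val, SS, BB]) l1) (le_trans u1 (by norm_num [val, SS, BB])) (le_trans (by norm_num [val, SS, BB]) l2) (le_trans u2 (by norm_num [val, SS, BB]))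

end Crest.Agent.R307.HL1I
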