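import Crest.Agent.R307.HL2J
set_option autoImplicit false
set_option maxRecDepth 100000
namespace Crest.Agent.R307.HL2J
open Crest.Agent.R307.IA Crest.Agent.R307.IA3

theorem k8 : Cov Q 1152921504606846976 1152922054362660864 1152921614558013178 1152921724509175915 1152923703630102897 1152925902653358080 :=
  cov_of snd 32 4294967295 16 _ _ _ _ _ _ 0x800080003800080003800080003800080003800080003800080003a4a3a4a35a4a3a4a350800080003800080003a2f5a2f55a2f5a2f55012012800080003800080003800080003800080003a2f5a2f55a2f5a2f55012891b57e36891b57e3600120112280008000380008000380008000380008000380008000380008000377697661677697661605560431e65560431e6001280008000380008000380008000380008000358d34040653903f93653903f93600128000800038000800034b5c356a64b5c356a6080008000337084be263bef420b6010120120112208000800038000800039bb59ad559bb59cd5509bd7896279bd78aae700865d747767f2e7e8f608b1d43fc68b1d43fc60001180008000380008000375f96c52675f96c526051e03fbe651e03fbe60051553dbf651553dbf604c15363f64c15363f60045fa474265854389d65854389d600800080003579d3b766579d3b7660256ea3bf0656ea3bf060570a3a7062131aa2c4b619aa244b6000001108000800038000800038000800038000800038000800039ac39a2459ac39a2450128e7e8e1857eb87eb8600128000800038000800038000800038000800038000800037f9081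8a578b07b9f50112885d62f57885d62f57001202995792265995792265093a084cb593a084cb5008e3d808d5863a89cc50086bb838f580f585a65078db5fec672466a4660001800080003800080003800080003788177215788177215053ef41cb653ef41cb60012800080003800080003800080003800080003800080003539244f4653583ff4653583ff46001128000800038000800038000800034ed6372164ed637216080008000339e84890636d33eb9601011201202745966376745966376056f56179657a046fe657a046fe60004d2739a964f2741a9604ec0402c64ec0402c614b81353964b81353960003f634599649933a96649933a96611585338d66585338d660499341566499341566010396a33db6396a33db6056913af8656913af860254033d03654033d03605383430362140402cf4640402cf461232023546000001022 (by decide +kernel)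

theorem k9 : Cov Q 1152921504606846976 1152922054362660864 1152921724509175915 1152921944411498087 1152923703630102897 1152925902653358080 :=
  cov_of snd 32 4294967295 2 _ _ _ _ _ _ 0x8000800038000800031 (by decide +kernel)

end Crest.Agent.R307.HL2J
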