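import Crest.Agent.R307.HL2JC0
import Crest.Agent.R307.HL2JC1
import Crest.Agent.R307.HL2JC2
set_option autoImplicit false
set_option maxRecDepth 100000
namespace Crest.Agent.R307.HL2J
open Crest.Agent.R307.IA Crest.Agent.R307.IA3

theorem cov : Cov Q 1152921504606846976 1152922054362660864 1152921504606846976 1152921944411498087 1152921504606846976 1152925902653358080 :=
  (join3 1152923703630102897 (join3 1152922604118475161 (join3 1152922054362661221 k0 k1) (join2 1152921724509175915 (join2 1152921614558013178 k2 k3) k4)) (join2 1152921724509175915 (join2 1152921614558013178 (join2 1152921559582430984 k5 (join3 1152924803141731001 k6 k7)) k8) k9))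

theorem main (a f z : ℝ) (l0 : (0:ℝ) ≤ a) (u0 : a ≤ (1/2:ℝ)) (l1 : (0:ℝ) ≤ f) (u1 : f ≤ (2/5:ℝ)) (l2 : (0:ℝ) ≤ z) (u2 : z ≤ (4:ℝ)) : Q a f z :=
  cov a f z (le_trans (by norm_num [val, SS, BB]) l0) (le_trans u0 (by norm_num [val, SS, BB])) (le_trans (by norm_num [val, SS, BB]) l1) (le_trans u1 (by norm_num [val, SS, BB])) (le_trans (by norm_num [val, SS, BB]) l2) (le_trans u2 (by norm_num [val, SS, BB]))

end Crest.Agent.R307.HL2J
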