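import Crest.Agent.R307.HL2KC0
set_option autoImplicit false
set_option maxRecDepth 100000
namespace Crest.Agent.R307.HL2K
open Crest.Agent.R307.IA Crest.Agent.R307.IA3

theorem cov : Cov Q 1152921504606846976 1152922054362660864 1152921944411498086 1152922604118474752 1152921691523823697 1152921834460335309 :=
  (join1 1152921779484754037 k0 (join1 1152921916923707585 k1 (join1 1152921985643184368 k2 k3)))

theorem main (a f s : ℝ) (l0 : (0:ℝ) ≤ a) (u0 : a ≤ (1/2:ℝ)) (l1 : (2/5:ℝ) ≤ f) (u1 : f ≤ (1:ℝ)) (l2 : (17/100:ℝ) ≤ s) (u2 : s ≤ (3/10:ℝ)) : Q a f s :=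
  cov a f s (le_trans (by norm_num [val, SS, BB]) l0) (le_trans u0 (by norm_num [val, SS, BB])) (le_trans (by norm_num [val, SS, BB]) l1) (le_trans u1 (by norm_num [val, SS, BB])) (le_trans (by norm_num [val, SS, BB]) l2) (le_trans u2 (by norm_num [val, SS, BB]))

end Crest.Agent.R307.HL2K
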