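import Crest.Agent.R307.HL2IM
import Crest.Agent.R307.HL2JM
import Crest.Agent.R307.HL2KM
import Crest.Agent.R307.HL2CM
import Crest.Agent.R307.HLg

set_option autoImplicit false

namespace Crest.Agent.R307.HL2

open Crest.CubeNoise Set

noncomputable def u (a : ℝ) : ℝ := a * (1 - a) * ((797/500:ℝ) * (2 * a - 1) ^ 0 + (507/1000:ℝ) * (2 * a - 1) ^ 1 + (1167/1000:ℝ) * (2 * a - 1) ^ 2 + (-41/100:ℝ) * (2 * a - 1) ^ 3 + (-449/250:ℝ) * (2 * a - 1) ^ 4 + (729/1000:ℝ) * (2 * a - 1) ^ 5 + (987/500:ℝ) * (2 * a - 1) ^ 6)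
noncomputable def v (a : ℝ) : ℝ := (4 * (a * (1 - a))) ^ 2 * ((203/2000:ℝ) + (-113/1000:ℝ) * (2 * a - 1) ^ 2 + (119/250:ℝ) * (2 * a - 1) ^ 4)

theorem bsI (a s xi p q : ℝ) : Bs u v a (xi * s) (HL2I.uh a s xi p q)
    (HL2I.um a s xi p q - 2 * (xi * s * HL2I.uO a s xi p q)) (HL2I.um a s xi p q + 2 * (xi * s * HL2I.uO a s xi p q))
    (HL2I.ch a s xi p q) (HL2I.cm a s xi p q - 2 * (xi * s * HL2I.cO a s xi p q)) (HL2I.cm a s xi p q + 2 * (xi * s * HL2I.cO a s xi p q))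
    (HL2I.vh a s xi p q) (HL2I.v0 a s xi p q) (HL2I.v1 a s xi p q) := by
  constructor <;> simp only [u, v, HL2I.uh, HL2I.um, HL2I.uO, HL2I.uE, HL2I.ch, HL2I.cm, HL2I.cO, HL2I.cE, HL2I.vh, HL2I.v0, HL2I.v1, HL2I.vm, HL2I.vO, HL2I.vE, HL2I.af2, HL2I.dd, HL2I.x, HL2I.f] <;> ring

theorem bsJ (a f z p q : ℝ) : Bs u v a (f) (HL2J.uh a f z p q)
    (HL2J.um a f z p q - 2 * (f * HL2J.uO a f z p q)) (HL2J.um a f z p q + 2 * (f * HL2J.uO a f z p q))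
    (HL2J.ch a f z p q) (HL2J.cm a f z p q - 2 * (f * HL2J.cO a f z p q)) (HL2J.cm a f z p q + 2 * (f * HL2J.cO a f z p q))
    (HL2J.vh a f z p q) (HL2J.v0 a f z p q) (HL2J.v1 a f z p q) := by
  constructor <;> simp only [u, v, HL2J.uh, HL2J.um, HL2J.uO, HL2J.uE, HL2J.ch, HL2J.cm, HL2J.cO, HL2J.cE, HL2J.vh, HL2J.v0, HL2J.v1, HL2J.vm, HL2J.vO, HL2J.vE, HL2J.af2, HL2J.dd, HL2J.x] <;> ring

theorem bsK (a f s p q : ℝ) : Bs u v a (f) (HL2K.uh a f s p q)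
    (HL2K.um a f s p q - 2 * (f * HL2K.uO a f s p q)) (HL2K.um a f s p q + 2 * (f * HL2K.uO a f s p q))
    (HL2K.ch a f s p q) (HL2K.cm a f s p q - 2 * (f * HL2K.cO a f s p q)) (HL2K.cm a f s p q + 2 * (f * HL2K.cO a f s p q))
    (HL2K.vh a f s p q) (HL2K.v0 a f s p q) (HL2K.v1 a f s p q) := by
  constructor <;> simp only [u, v, HL2K.uh, HL2K.um, HL2K.uO, HL2K.uE, HL2K.ch, HL2K.cm, HL2K.cO, HL2K.cE, HL2K.vh, HL2K.v0, HL2K.v1, HL2K.vm, HL2K.vO, HL2K.vE, HL2K.af2, HL2K.dd, HL2K.x] <;> ring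

theorem cI {ρ s : ℝ} (F : Fam ρ s) (s0 : 0 < s) (l : (17/100:ℝ) ≤ s) (h : s ≤ (3/10:ℝ)) (a xi : ℝ) (a0 : 0 ≤ a) (a1 : a ≤ 1 / 2)
    (x0 : 0 ≤ xi) (x1 : xi ≤ 1 / 4) : HS ρ s u v (a * (1 - xi * s)) (a * (1 + xi * s)) := by
  obtain ⟨p, p0, p1, q, q0, q1, hP, hQ, hD⟩ := HL2I.main a s xi a0 a1 l h x0 x1
  have f0 : 0 ≤ xi * s := by positivity
  have k : ∀ t : ℝ, 0 ≤ t → t ≤ 1 → 3 * t * (xi * s) ≤ 3 / 4 * s := fun t t0 t1 => by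
    nlinarith [mul_nonneg (mul_nonneg x0 s0.le) (sub_nonneg.2 t1), mul_nonneg (sub_nonneg.2 x1) s0.le]
  exact hl_des (bsI a s xi p q) a0 (F.AE (g := 3 * p) f0 (by positivity) (k p p0 p1))
    (F.AE (g := 3 * q) f0 (by positivity) (k q q0 q1)) rfl rfl rfl rfl rfl rfl rfl rfl rfl rfl rfl hP hQ hD

theorem cJ {ρ s : ℝ} (F : Fam ρ s) (l : (17/100:ℝ) ≤ s) (h : s ≤ (3/10:ℝ)) (a f z : ℝ) (a0 : 0 ≤ a) (a1 : a ≤ 1 / 2)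
    (f0 : 0 ≤ f) (f1 : f ≤ 2 / 5) (z0 : 0 ≤ z) (z1 : z ≤ 4) (e : s = z * f) : HS ρ s u v (a * (1 - f)) (a * (1 + f)) := by
  subst e
  obtain ⟨p, p0, p1, q, q0, q1, H⟩ := HL2J.main a f z a0 a1 f0 f1 z0 z1
  have A : ∀ t : ℝ, 0 ≤ t → 0 < (3/4:ℝ) * z - 3 * t → _ := fun t t0 t1 =>
    F.AE (g := 3 * t) f0 (by positivity) (by nlinarith [mul_nonneg t1.le f0])
  have B : ∀ t : ℝ, 0 < (3/2:ℝ) * t - (3/10:ℝ) * z → 0 < (11/20:ℝ) - (3/2:ℝ) * t * f → _ := fun t t0 t1 =>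
    F.BE (g := (3/2:ℝ) * t) f0 t0 t1 rfl
  rcases H with H | H | ⟨h1, h2, h3, h4, hP, hQ, hD⟩ | ⟨h1, h2, hP, hQ, hD⟩ | ⟨h1, h2, h3, hP, hQ, hD⟩ | ⟨h1, h2, h3, hP, hQ, hD⟩
  · unfold HL2J.s at H; linarith
  · unfold HL2J.s at H; linarith
  · exact hl_des (bsJ a f z p q) a0 (B p h1 h2) (B q h3 h4) rfl rfl rfl rfl rfl rfl rfl rfl rfl rfl rfl hP hQ hD
  · exact hl_des (bsJ a f z p q) a0 (A p p0 h1) (A q q0 h2) rfl rfl rfl rfl rfl rfl rfl rfl rfl rfl rfl hP hQ hD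
  · exact hl_des (bsJ a f z p q) a0 (A p p0 h1) (B q h2 h3) rfl rfl rfl rfl rfl rfl rfl rfl rfl rfl rfl hP hQ hD
  · exact hl_des (bsJ a f z p q) a0 (B p h1 h2) (A q q0 h3) rfl rfl rfl rfl rfl rfl rfl rfl rfl rfl rfl hP hQ hD

theorem cK {ρ s : ℝ} (F : Fam ρ s) (l : (17/100:ℝ) ≤ s) (h : s ≤ (3/10:ℝ)) (a f : ℝ) (a0 : 0 ≤ a) (a1 : a ≤ 1 / 2)
    (f0 : 2 / 5 ≤ f) (f1 : f ≤ 1) (hd : 1 / 25 ≤ 1 - 2 * (a * f)) : HS ρ s u v (a * (1 - f)) (a * (1 + f)) := by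
  obtain ⟨p, p0, p1, q, q0, q1, H⟩ := HL2K.main a f s a0 a1 f0 f1 l h
  have A : ∀ t : ℝ, 0 ≤ t → 0 < (3/4:ℝ) * s - 3 * t * f → _ := fun t t0 t1 =>
    F.A (3 * t * f) (by positivity) (by linarith)
  have B : ∀ t : ℝ, t ≤ 1 → 0 < (11/20:ℝ) * t - (3/10:ℝ) * s → _ := fun t t0 t1 =>
    F.B ((11/20:ℝ) * t) (by linarith) (by linarith)
  have D : ∀ t : ℝ, 0 ≤ t → t ≤ 1 → _ := fun t t0 t1 =>
    F.D ((11/20:ℝ) + (9/20:ℝ) * t) (by linarith) (by linarith)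
  rcases H with H | ⟨h1, h2, hP, hQ, hD⟩ | ⟨h1, hP, hQ, hD⟩ | ⟨hP, hQ, hD⟩ | ⟨h1, hP, hQ, hD⟩ | ⟨h1, h2, hP, hQ, hD⟩ |
    ⟨h1, hP, hQ, hD⟩
  · linarith
  · exact hl_dir (bsK a f s p q) a0 (B p p1 h1) (B q q1 h2) hP hQ hD
  · exact hl_dir (bsK a f s p q) a0 (B p p1 h1) (D q q0 q1) hP hQ hD
  · exact hl_dir (bsK a f s p q) a0 (D p p0 p1) (D q q0 q1) hP hQ hD
  · exact hl_dir (bsK a f s p q) a0 (D p p0 p1) (B q q1 h1) hP hQ hD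
  · exact hl_dir (bsK a f s p q) a0 (A p p0 h1) (B q q1 h2) hP hQ hD
  · exact hl_dir (bsK a f s p q) a0 (A p p0 h1) (D q q0 q1) hP hQ hD

theorem cC {ρ s : ℝ} (F : Fam ρ s) (l : (17/100:ℝ) ≤ s) (h : s ≤ (3/10:ℝ)) (r x : ℝ) (r0 : 0 ≤ r) (r1 : r ≤ 1 / 25)
    (x0 : 0 ≤ x) (x1 : x ≤ 1 / 2) : HS ρ s u v (r * x) (1 - r * (1 - x)) := by
  obtain ⟨p, p0, p1, q, q0, q1, hP, hQ, hD⟩ := HL2C.main s r x l h r0 r1 x0 x1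
  have D : ∀ t : ℝ, 0 ≤ t → t ≤ 1 → _ := fun t t0 t1 =>
    F.DC (r := r) (g := 6 * t) (by positivity) (by nlinarith [mul_nonneg r0 (sub_nonneg.2 t1)])
  refine hl_cor (ua := HL2C.ua s r x p q) (cb := HL2C.cb s r x p q) (ub := HL2C.ub s r x p q) (ca := HL2C.ca s r x p q)
    (U1 := HL2C.U1 s r x p q) (W1 := HL2C.Ut1 s r x p q) (V2 := HL2C.V2 s r x p q) (va := HL2C.va s r x p q)
    (vb := HL2C.vb s r x p q) r0 (D p p0 p1) (D q q0 q1) ?_ ?_ ?_ ?_ ?_ ?_ ?_ ?_ ?_ rfl rfl rfl hP hQ hD <;>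
  simp only [u, v, HL2C.ua, HL2C.cb, HL2C.ub, HL2C.ca, HL2C.U1, HL2C.Ut1, HL2C.V2, HL2C.va, HL2C.vb, HL2C.ea, HL2C.eb, HL2C.m, HL2C.k] <;> ring

theorem vsym (a : ℝ) : v (1 - a) = v a := by unfold v; ring

theorem vpos (a : ℝ) : 0 ≤ v a := by
  unfold v
  refine mul_nonneg (sq_nonneg _) ?_
  nlinarith [sq_nonneg ((2 * a - 1) ^ 2 - (113/952:ℝ))]

theorem fin {s : ℝ} (s0 : 0 ≤ s) (h : s ≤ (3/10:ℝ)) (a : ℝ) (a0 : 0 ≤ a) (a1 : a ≤ 1) :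
    s - 1 + 2 * √(a * (1 - a)) ≤ s * (u a + u (1 - a) + 2 * v a) := by
  obtain ⟨t, ht⟩ : ∃ t, t = (2 * a - 1) ^ 2 := ⟨_, rfl⟩
  have t0 : 0 ≤ t := ht ▸ sq_nonneg _
  have t1 : t ≤ 1 := by rw [ht]; nlinarith
  have c : √(a * (1 - a)) ≤ (1 - t / 2) / 2 :=
    Real.sqrt_le_iff.2 ⟨by linarith, by rw [ht]; nlinarith [sq_nonneg ((2 * a - 1) ^ 2)]⟩
  have e : u a + u (1 - a) + 2 * v a = 1 - t * ((1691/2000:ℝ) * t ^ 0 + (-251/2000:ℝ) * t ^ 1 + (49/200:ℝ) * t ^ 2 + (7/200:ℝ) * t ^ 3) := by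
    rw [ht]; unfold u v; ring
  have b : (1691/2000:ℝ) * t ^ 0 + (-251/2000:ℝ) * t ^ 1 + (49/200:ℝ) * t ^ 2 + (7/200:ℝ) * t ^ 3 ≤ 3 / 2 := by
    nlinarith [mul_nonneg t0 (sub_nonneg.2 t1), mul_nonneg (mul_nonneg t0 t0) (sub_nonneg.2 t1), mul_nonneg t0 (mul_nonneg t0 t0)]
  rw [e]
  nlinarith [mul_nonneg (mul_nonneg s0 t0) (sub_nonneg.2 b), mul_nonneg t0 (sub_nonneg.2 h)]

theorem core {ρ s : ℝ} (hρ0 : 0 ≤ ρ) (hρ1 : ρ ≤ 1) (hs : s = √(1 - ρ ^ 2)) (F : Fam ρ s) (s0 : 0 < s)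
    (l : (17/100:ℝ) ≤ s) (h : s ≤ (3/10:ℝ)) : XCore ρ :=
  xcore_of_HS hρ0 hρ1 hs (by simp [u]) (by simp [u]) (by simp [v]) vsym (fun a _ _ => vpos a)
    (hl_charts s0 (cI F s0 l h) (cJ F l h) (cK F l h) (cC F l h)) (fin s0.le h)

end Crest.Agent.R307.HL2
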