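import Crest.Agent.R307.IA3
import Crest.Agent.R307.IAx
set_option autoImplicit false
set_option linter.unusedVariables false
set_option maxRecDepth 20000
namespace Crest.Agent.R307.HL2I
open Crest.Agent.R307.IA Crest.Agent.R307.IA3

theorem In_cast {e1 e2 e3 : ℝ} {x y1 y2 y3 r : ℕ} {v w : ℝ}
    (h : In e1 e2 e3 x y1 y2 y3 r v) (e : v = w) : In e1 e2 e3 x y1 y2 y3 r w := e ▸ h

noncomputable def x (a s xi p q : ℝ) : ℝ := (((2:ℝ) * a) - (1/2:ℝ))
noncomputable def f (a s xi p q : ℝ) : ℝ := (xi * s)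
noncomputable def dd (a s xi p q : ℝ) : ℝ := ((4:ℝ) * ((a * (f a s xi p q)) ^ 2))
noncomputable def uE (a s xi p q : ℝ) : ℝ := ((((((((((((((-6909/500:ℝ) * (x a s xi p q)) + (150507/4000:ℝ)) * (x a s xi p q)) + (-44979/1600:ℝ)) * (x a s xi p q)) + (-721/1600:ℝ)) * (x a s xi p q)) + (69123/16000:ℝ)) * (x a s xi p q)) + (13983/64000:ℝ)) * (x a s xi p q)) + (-56659/128000:ℝ)) + ((dd a s xi p q) * ((((((((((-6909/200:ℝ) * (x a s xi p q)) + (50169/800:ℝ)) * (x a s xi p q)) + (-44979/1600:ℝ)) * (x a s xi p q)) + (-721/3200:ℝ)) * (x a s xi p q)) + (23041/32000:ℝ)) + ((dd a s xi p q) * ((((((-6909/500:ℝ) * (x a s xi p q)) + (50169/4000:ℝ)) * (x a s xi p q)) + (-14993/8000:ℝ)) + ((-987/2000:ℝ) * (dd a s xi p q)))))))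
noncomputable def gp (a s xi p q : ℝ) : ℝ := ((3:ℝ) * p)
noncomputable def kaAp (a s xi p q : ℝ) : ℝ := ((99/200:ℝ) * ((gp a s xi p q) ^ 2))
noncomputable def uh (a s xi p q : ℝ) : ℝ := (((((((((((((((-987/1000:ℝ) * (x a s xi p q)) + (4077/1000:ℝ)) * (x a s xi p q)) + (-23147/4000:ℝ)) * (x a s xi p q)) + (11213/4000:ℝ)) * (x a s xi p q)) + (123/3200:ℝ)) * (x a s xi p q)) + (2023/16000:ℝ)) * (x a s xi p q)) + (-12141/12800:ℝ)) * (x a s xi p q)) + (75807/64000:ℝ))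
noncomputable def af2 (a s xi p q : ℝ) : ℝ := ((4:ℝ) * (a * ((f a s xi p q) ^ 2)))
noncomputable def um (a s xi p q : ℝ) : ℝ := ((uh a s xi p q) + ((af2 a s xi p q) * (uE a s xi p q)))
noncomputable def nuAp (a s xi p q : ℝ) : ℝ := (((4/3:ℝ) * (s * (gp a s xi p q))) - ((21/200:ℝ) * ((f a s xi p q) * ((gp a s xi p q) ^ 2))))
noncomputable def uO (a s xi p q : ℝ) : ℝ := ((((((((((((((((-987/250:ℝ) * (x a s xi p q)) + (50169/4000:ℝ)) * (x a s xi p q)) + (-44979/4000:ℝ)) * (x a s xi p q)) + (-721/3200:ℝ)) * (x a s xi p q)) + (23041/8000:ℝ)) * (x a s xi p q)) + (13983/64000:ℝ)) * (x a s xi p q)) + (-56659/64000:ℝ)) * (x a s xi p q)) + (90909/256000:ℝ)) + ((dd a s xi p q) * ((((((((((((-6909/250:ℝ) * (x a s xi p q)) + (50169/800:ℝ)) * (x a s xi p q)) + (-14993/400:ℝ)) * (x a s xi p q)) + (-721/1600:ℝ)) * (x a s xi p q)) + (23041/8000:ℝ)) * (x a s xi p q)) + (4661/64000:ℝ)) + ((dd a s xi p q) * ((((((((-6909/250:ℝ)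 * (x a s xi p q)) + (150507/4000:ℝ)) * (x a s xi p q)) + (-44979/4000:ℝ)) * (x a s xi p q)) + (-721/16000:ℝ)) + ((dd a s xi p q) * (((-987/250:ℝ) * (x a s xi p q)) + (7167/4000:ℝ))))))))
noncomputable def PA (a s xi p q : ℝ) : ℝ := (((((8:ℝ) * (a * (uE a s xi p q))) - ((kaAp a s xi p q) * (um a s xi p q))) - ((2:ℝ) * ((nuAp a s xi p q) * (uO a s xi p q)))) + ((2:ℝ) * (gp a s xi p q)))
noncomputable def cE (a s xi p q : ℝ) : ℝ := ((((((((((((((-6909/500:ℝ) * (x a s xi p q)) + (1449/32:ℝ)) * (x a s xi p q)) + (-75597/1600:ℝ)) * (x a s xi p q)) + (4157/320:ℝ)) * (x a s xi p q)) + (52713/16000:ℝ)) * (x a s xi p q)) + (-3651/12800:ℝ)) * (x a s xi p q)) + (-84189/128000:ℝ)) + ((dd a s xi p q) * ((((((((((-6909/200:ℝ) * (x a s xi p q)) + (2415/32:ℝ)) * (x a s xi p q)) + (-75597/1600:ℝ)) * (x a s xi p q)) + (4157/640:ℝ)) * (x a s xi p q)) + (17571/32000:ℝ)) + ((dd a s xi p q) * ((((((-6909/500:ℝ) * (x a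 s xi p q)) + (483/32:ℝ)) * (x a s xi p q)) + (-25199/8000:ℝ)) + ((-987/2000:ℝ) * (dd a s xi p q)))))))
noncomputable def gq (a s xi p q : ℝ) : ℝ := ((3:ℝ) * q)
noncomputable def kaAq (a s xi p q : ℝ) : ℝ := ((99/200:ℝ) * ((gq a s xi p q) ^ 2))
noncomputable def ch (a s xi p q : ℝ) : ℝ := (((((((((((((((-987/1000:ℝ) * (x a s xi p q)) + (2403/500:ℝ)) * (x a s xi p q)) + (-34811/4000:ℝ)) * (x a s xi p q)) + (13899/2000:ℝ)) * (x a s xi p q)) + (-1521/640:ℝ)) * (x a s xi p q)) + (1597/1600:ℝ)) * (x a s xi p q)) + (-116129/64000:ℝ)) * (x a s xi p q)) + (9741/6400:ℝ))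
noncomputable def cm (a s xi p q : ℝ) : ℝ := ((ch a s xi p q) + ((af2 a s xi p q) * (cE a s xi p q)))
noncomputable def nuAq (a s xi p q : ℝ) : ℝ := (((4/3:ℝ) * (s * (gq a s xi p q))) - ((21/200:ℝ) * ((f a s xi p q) * ((gq a s xi p q) ^ 2))))
noncomputable def cO (a s xi p q : ℝ) : ℝ := ((((((((((((((((-987/250:ℝ) * (x a s xi p q)) + (483/32:ℝ)) * (x a s xi p q)) + (-75597/4000:ℝ)) * (x a s xi p q)) + (4157/640:ℝ)) * (x a s xi p q)) + (17571/8000:ℝ)) * (x a s xi p q)) + (-3651/12800:ℝ)) * (x a s xi p q)) + (-84189/64000:ℝ)) * (x a s xi p q)) + (78691/256000:ℝ)) + ((dd a s xi p q) * ((((((((((((-6909/250:ℝ) * (x a s xi p q)) + (2415/32:ℝ)) * (x a s xi p q)) + (-25199/400:ℝ)) * (x a s xi p q)) + (4157/320:ℝ)) * (x a s xi p q)) + (17571/8000:ℝ)) * (x a s xi p q)) + (-1217/12800:ℝ)) + ((dd a s xi p q) * ((((((((-6909/250:ℝ) * (x a s xi p q)) + (1449/32:ℝ)) * (x a s xi p q)) + (-75597/4000:ℝ)) * (x a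 s xi p q)) + (4157/3200:ℝ)) + ((dd a s xi p q) * (((-987/250:ℝ) * (x a s xi p q)) + (69/32:ℝ))))))))
noncomputable def QA (a s xi p q : ℝ) : ℝ := (((((8:ℝ) * (a * (cE a s xi p q))) - ((kaAq a s xi p q) * (cm a s xi p q))) + ((2:ℝ) * ((nuAq a s xi p q) * (cO a s xi p q)))) + ((2:ℝ) * (gq a s xi p q)))
noncomputable def vE (a s xi p q : ℝ) : ℝ := ((((((((((((((1666/125:ℝ) * (x a s xi p q)) + (-4998/125:ℝ)) * (x a s xi p q)) + (6801/200:ℝ)) * (x a s xi p q)) + (-137/100:ℝ)) * (x a s xi p q)) + (-13293/2000:ℝ)) * (x a s xi p q)) + (267/400:ℝ)) * (x a s xi p q)) + (317/3200:ℝ)) + ((dd a s xi p q) * ((((((((((833/25:ℝ) * (x a s xi p q)) + (-1666/25:ℝ)) * (x a s xi p q)) + (6801/200:ℝ)) * (x a s xi p q)) + (-137/200:ℝ)) * (x a s xi p q)) + (-4431/4000:ℝ)) + ((dd a s xi p q) * ((((((1666/125:ℝ) * (x a s xi p q)) + (-1666/125:ℝ)) * (x a s xi p q)) + (2267/1000:ℝ)) + ((119/250:ℝ) * (dd a s xi p q)))))))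
noncomputable def etAA (a s xi p q : ℝ) : ℝ := (((nuAp a s xi p q) - (nuAq a s xi p q)) / (2:ℝ))
noncomputable def vO (a s xi p q : ℝ) : ℝ := ((((((((((((((952/125:ℝ) * (x a s xi p q)) + (-3808/125:ℝ)) * (x a s xi p q)) + (10609/250:ℝ)) * (x a s xi p q)) + (-5647/250:ℝ)) * (x a s xi p q)) + (304/125:ℝ)) * (x a s xi p q)) + (119/1000:ℝ)) * (x a s xi p q)) + (1347/4000:ℝ)) + ((af2 a s xi p q) * ((((((((((((3332/125:ℝ) * (x a s xi p q)) + (-1666/25:ℝ)) * (x a s xi p q)) + (2267/50:ℝ)) * (x a s xi p q)) + (-137/100:ℝ)) * (x a s xi p q)) + (-4431/1000:ℝ)) * (x a s xi p q)) + (89/400:ℝ)) + ((dd a s xi p q) * ((((((((3332/125:ℝ) * (x a s xi p q)) + (-4998/125:ℝ)) * (x a s xi p q)) + (6801/500:ℝ)) * (x a s xi p q)) + (-137/1000:ℝ)) + ((dd a s xi p q) * (((476/125:ℝ) * (x a s xi p q)) + (-238/125:ℝ))))))))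
noncomputable def muAA (a s xi p q : ℝ) : ℝ := (((kaAp a s xi p q) + (kaAq a s xi p q)) / (2:ℝ))
noncomputable def alA (a s xi p q : ℝ) : ℝ := (((nuAp a s xi p q) - ((f a s xi p q) * (kaAp a s xi p q))) / (2:ℝ))
noncomputable def bmA (a s xi p q : ℝ) : ℝ := (((nuAq a s xi p q) + ((f a s xi p q) * (kaAq a s xi p q))) / (2:ℝ))
noncomputable def w0AA (a s xi p q : ℝ) : ℝ := ((muAA a s xi p q) + ((alA a s xi p q) * (bmA a s xi p q)))
noncomputable def y0AA (a s xi p q : ℝ) : ℝ := ((etAA a s xi p q) - ((f a s xi p q) * (w0AA a s xi p q)))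
noncomputable def g0AA (a s xi p q : ℝ) : ℝ := (√((1:ℝ) + ((f a s xi p q) * (y0AA a s xi p q))))
noncomputable def vh (a s xi p q : ℝ) : ℝ := (((((((((((((238/125:ℝ) * (x a s xi p q)) + (-238/25:ℝ)) * (x a s xi p q)) + (2264/125:ℝ)) * (x a s xi p q)) + (-407/25:ℝ)) * (x a s xi p q)) + (7321/1000:ℝ)) * (x a s xi p q)) + (-2361/1000:ℝ)) * (x a s xi p q)) + (927/1000:ℝ))
noncomputable def vm (a s xi p q : ℝ) : ℝ := ((vh a s xi p q) + ((4:ℝ) * (((f a s xi p q) ^ 2) * (vE a s xi p q))))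
noncomputable def v0 (a s xi p q : ℝ) : ℝ := ((vm a s xi p q) - ((2:ℝ) * ((f a s xi p q) * (vO a s xi p q))))
noncomputable def beA (a s xi p q : ℝ) : ℝ := (((nuAp a s xi p q) + ((f a s xi p q) * (kaAp a s xi p q))) / (2:ℝ))
noncomputable def amA (a s xi p q : ℝ) : ℝ := (((nuAq a s xi p q) - ((f a s xi p q) * (kaAq a s xi p q))) / (2:ℝ))
noncomputable def w1AA (a s xi p q : ℝ) : ℝ := ((muAA a s xi p q) + ((beA a s xi p q) * (amA a s xi p q)))
noncomputable def y1AA (a s xi p q : ℝ) : ℝ := ((-(etAA a s xi p q)) - ((f a s xi p q) * (w1AA a s xi p q)))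
noncomputable def g1AA (a s xi p q : ℝ) : ℝ := (√((1:ℝ) + ((f a s xi p q) * (y1AA a s xi p q))))
noncomputable def v1 (a s xi p q : ℝ) : ℝ := ((vm a s xi p q) + ((2:ℝ) * ((f a s xi p q) * (vO a s xi p q))))
noncomputable def ZAA (a s xi p q : ℝ) : ℝ := ((((8:ℝ) * (vE a s xi p q)) - ((2:ℝ) * ((etAA a s xi p q) * (vO a s xi p q)))) - (((((w0AA a s xi p q) + (((y0AA a s xi p q) / ((1:ℝ) + (g0AA a s xi p q))) ^ 2)) * (v0 a s xi p q)) + (((w1AA a s xi p q) + (((y1AA a s xi p q) / ((1:ℝ) + (g1AA a s xi p q))) ^ 2)) * (v1 a s xi p q))) / (2:ℝ)))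

def Q (a s xi : ℝ) : Prop :=
  ∃ p : ℝ, 0 ≤ p ∧ p ≤ 1 ∧ ∃ q : ℝ, 0 ≤ q ∧ q ≤ 1 ∧ (
  (0 < (PA a s xi p q) ∧ 0 < (QA a s xi p q) ∧ 0 < (((PA a s xi p q) * (QA a s xi p q)) - ((max (-(a * (ZAA a s xi p q))) (0:ℝ)) ^ 2))))

noncomputable def alt0 (p1 p2 z1 w1 z2 w2 z3 w3 : ℕ) : Bool :=
  smulK 2 1 1152921504606846977 2305843009213693952 z1 (Nat.add w1 1152921504606846976) 1152921504606846976 1152921504606846976 0 fun c1 a1_1 a1_2 a1_3 q1 =>
  addcK c1 a1_1 a1_2 a1_3 q1 1152920954851033088 0 fun c2 a2_1 a2_2 a2_3 q2 =>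
  smulK 6909 500 576460752303423488500 7965534675328705757184 c2 a2_1 a2_2 a2_3 q2 fun c5 a5_1 a5_2 a5_3 q5 =>
  negK c5 a5_1 a5_2 a5_3 q5 fun c6 a6_1 a6_2 a6_3 q6 =>
  addcK c6 a6_1 a6_2 a6_3 q6 1152962875655987397 1 fun c8 a8_1 a8_2 a8_3 q8 =>
  mulK c8 a8_1 a8_2 a8_3 q8 c2 a2_1 a2_2 a2_3 q2 fun c9 a9_1 a9_2 a9_3 q9 =>
  addcK c9 a9_1 a9_2 a9_3 q9 1152890595273405891 1 fun c10 a10_1 a10_2 a10_3 q10 =>
  mulK c10 a10_1 a10_2 a10_3 q10 c2 a2_1 a2_2 a2_3 q2 fun c11 a11_1 a11_2 a11_3 q11 =>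
  addcK c11 a11_1 a11_2 a11_3 q11 1152921009139419709 1 fun c12 a12_1 a12_2 a12_3 q12 =>
  mulK c12 a12_1 a12_2 a12_3 q12 c2 a2_1 a2_2 a2_3 q2 fun c13 a13_1 a13_2 a13_3 q13 =>
  addcK c13 a13_1 a13_2 a13_3 q13 1152926254703237399 1 fun c14 a14_1 a14_2 a14_3 q14 =>
  mulK c14 a14_1 a14_2 a14_3 q14 c2 a2_1 a2_2 a2_3 q2 fun c15 a15_1 a15_2 a15_3 q15 =>
  addcK c15 a15_1 a15_2 a15_3 q15 1152921744832957776 1 fun c16 a16_1 a16_2 a16_3 q16 =>
  mulK c16 a16_1 a16_2 a16_3 q16 c2 a2_1 a2_2 a2_3 q2 fun c17 a17_1 a17_2 a17_3 q17 =>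
  addcK c17 a17_1 a17_2 a17_3 q17 1152921017909742928 1 fun c18 a18_1 a18_2 a18_3 q18 =>
  mulK z3 1152921504606846976 1152921504606846976 (Nat.add w3 1152921504606846976) 0 z2 1152921504606846976 (Nat.add w2 1152921504606846976) 1152921504606846976 0 fun c19 a19_1 a19_2 a19_3 q19 =>
  mulK z1 (Nat.add w1 1152921504606846976) 1152921504606846976 1152921504606846976 0 c19 a19_1 a19_2 a19_3 q19 fun c21 a21_1 a21_2 a21_3 q21 =>
  sqK c21 a21_1 a21_2 a21_3 q21 fun c22 a22_1 a22_2 a22_3 q22 =>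
  smulK 4 1 1152921504606846977 4611686018427387904 c22 a22_1 a22_2 a22_3 q22 fun c23 a23_1 a23_2 a23_3 q23 =>
  smulK 6909 200 230584300921369395400 7965534675328705757184 c2 a2_1 a2_2 a2_3 q2 fun c25 a25_1 a25_2 a25_3 q25 =>
  negK c25 a25_1 a25_2 a25_3 q25 fun c26 a26_1 a26_2 a26_3 q26 =>
  addcK c26 a26_1 a26_2 a26_3 q26 1152990456355414344 1 fun c28 a28_1 a28_2 a28_3 q28 =>
  mulK c28 a28_1 a28_2 a28_3 q28 c2 a2_1 a2_2 a2_3 q2 fun c29 a29_1 a29_2 a29_3 q29 =>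
  addcK c29 a29_1 a29_2 a29_3 q29 1152890595273405891 1 fun c30 a30_1 a30_2 a30_3 q30 =>
  mulK c30 a30_1 a30_2 a30_3 q30 c2 a2_1 a2_2 a2_3 q2 fun c31 a31_1 a31_2 a31_3 q31 =>
  addcK c31 a31_1 a31_2 a31_3 q31 1152921256873133343 1 fun c32 a32_1 a32_2 a32_3 q32 =>
  mulK c32 a32_1 a32_2 a32_3 q32 c2 a2_1 a2_2 a2_3 q2 fun c33 a33_1 a33_2 a33_3 q33 =>
  addcK c33 a33_1 a33_2 a33_3 q33 1152922296289578713 1 fun c34 a34_1 a34_2 a34_3 q34 =>
  addcK c6 a6_1 a6_2 a6_3 q6 1152935294956560450 1 fun c35 a35_1 a35_2 a35_3 q35 =>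
  mulK c35 a35_1 a35_2 a35_3 q35 c2 a2_1 a2_2 a2_3 q2 fun c36 a36_1 a36_2 a36_3 q36 =>
  addcK c36 a36_1 a36_2 a36_3 q36 1152919443984617570 1 fun c37 a37_1 a37_2 a37_3 q37 =>
  smulK 987 2000 2305843009213693954000 1137933525046957965312 c23 a23_1 a23_2 a23_3 q23 fun c38 a38_1 a38_2 a38_3 q38 =>
  negK c38 a38_1 a38_2 a38_3 q38 fun c39 a39_1 a39_2 a39_3 q39 =>
  addK c37 a37_1 a37_2 a37_3 q37 c39 a39_1 a39_2 a39_3 q39 fun c41 a41_1 a41_2 a41_3 q41 =>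
  mulK c23 a23_1 a23_2 a23_3 q23 c41 a41_1 a41_2 a41_3 q41 fun c42 a42_1 a42_2 a42_3 q42 =>
  addK c34 a34_1 a34_2 a34_3 q34 c42 a42_1 a42_2 a42_3 q42 fun c43 a43_1 a43_2 a43_3 q43 =>
  mulK c23 a23_1 a23_2 a23_3 q23 c43 a43_1 a43_2 a43_3 q43 fun c44 a44_1 a44_2 a44_3 q44 =>
  addK c18 a18_1 a18_2 a18_3 q18 c44 a44_1 a44_2 a44_3 q44 fun c45 a45_1 a45_2 a45_3 q45 =>
  mulK z1 (Nat.add w1 1152921504606846976) 1152921504606846976 1152921504606846976 0 c45 a45_1 a45_2 a45_3 q45 fun c47 a47_1 a47_2 a47_3 q47 =>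
  smulK 8 1 1152921504606846977 9223372036854775808 c47 a47_1 a47_2 a47_3 q47 fun c48 a48_1 a48_2 a48_3 q48 =>
  smulK 3 1 1152921504606846977 3458764513820540928 p1 1152921504606846976 1152921504606846976 1152921504606846976 0 fun c49 a49_1 a49_2 a49_3 q49 =>
  sqK c49 a49_1 a49_2 a49_3 q49 fun c51 a51_1 a51_2 a51_3 q51 =>
  smulK 99 200 230584300921369395400 114139228956077850624 c51 a51_1 a51_2 a51_3 q51 fun c52 a52_1 a52_2 a52_3 q52 =>
  smulK 987 1000 1152921504606846977000 1137933525046957965312 c2 a2_1 a2_2 a2_3 q2 fun c54 a54_1 a54_2 a54_3 q54 =>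
  negK c54 a54_1 a54_2 a54_3 q54 fun c55 a55_1 a55_2 a55_3 q55 =>
  addcK c55 a55_1 a55_2 a55_3 q55 1152925987315753419 1 fun c57 a57_1 a57_2 a57_3 q57 =>
  mulK c57 a57_1 a57_2 a57_3 q57 c2 a2_1 a2_2 a2_3 q2 fun c58 a58_1 a58_2 a58_3 q58 =>
  addcK c58 a58_1 a58_2 a58_3 q58 1152915142007934943 1 fun c59 a59_1 a59_2 a59_3 q59 =>
  mulK c59 a59_1 a59_2 a59_3 q59 c2 a2_1 a2_2 a2_3 q2 fun c60 a60_1 a60_2 a60_3 q60 =>
  addcK c60 a60_1 a60_2 a60_3 q60 1152924586812817539 1 fun c61 a61_1 a61_2 a61_3 q61 =>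
  mulK c61 a61_1 a61_2 a61_3 q61 c2 a2_1 a2_2 a2_3 q2 fun c62 a62_1 a62_2 a62_3 q62 =>
  addcK c62 a62_1 a62_2 a62_3 q62 1152921546869325169 1 fun c63 a63_1 a63_2 a63_3 q63 =>
  mulK c63 a63_1 a63_2 a63_3 q63 c2 a2_1 a2_2 a2_3 q2 fun c64 a64_1 a64_2 a64_3 q64 =>
  addcK c64 a64_1 a64_2 a64_3 q64 1152921643626348413 1 fun c65 a65_1 a65_2 a65_3 q65 =>
  mulK c65 a65_1 a65_2 a65_3 q65 c2 a2_1 a2_2 a2_3 q2 fun c66 a66_1 a66_2 a66_3 q66 =>
  addcK c66 a66_1 a66_2 a66_3 q66 1152920461702888161 1 fun c67 a67_1 a67_2 a67_3 q67 =>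
  mulK c67 a67_1 a67_2 a67_3 q67 c2 a2_1 a2_2 a2_3 q2 fun c68 a68_1 a68_2 a68_3 q68 =>
  addcK c68 a68_1 a68_2 a68_3 q68 1152922806961190207 1 fun c69 a69_1 a69_2 a69_3 q69 =>
  sqK c19 a19_1 a19_2 a19_3 q19 fun c71 a71_1 a71_2 a71_3 q71 =>
  mulK z1 (Nat.add w1 1152921504606846976) 1152921504606846976 1152921504606846976 0 c71 a71_1 a71_2 a71_3 q71 fun c72 a72_1 a72_2 a72_3 q72 =>
  smulK 4 1 1152921504606846977 4611686018427387904 c72 a72_1 a72_2 a72_3 q72 fun c73 a73_1 a73_2 a73_3 q73 =>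
  mulK c73 a73_1 a73_2 a73_3 q73 c45 a45_1 a45_2 a45_3 q45 fun c75 a75_1 a75_2 a75_3 q75 =>
  addK c69 a69_1 a69_2 a69_3 q69 c75 a75_1 a75_2 a75_3 q75 fun c76 a76_1 a76_2 a76_3 q76 =>
  mulK c52 a52_1 a52_2 a52_3 q52 c76 a76_1 a76_2 a76_3 q76 fun c78 a78_1 a78_2 a78_3 q78 =>
  subK c48 a48_1 a48_2 a48_3 q48 c78 a78_1 a78_2 a78_3 q78 fun c79 a79_1 a79_2 a79_3 q79 =>
  mulK z2 1152921504606846976 (Nat.add w2 1152921504606846976) 1152921504606846976 0 c49 a49_1 a49_2 a49_3 q49 fun c80 a80_1 a80_2 a80_3 q80 =>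
  smulK 4 3 3458764513820540931 4611686018427387904 c80 a80_1 a80_2 a80_3 q80 fun c81 a81_1 a81_2 a81_3 q81 =>
  mulK c19 a19_1 a19_2 a19_3 q19 c51 a51_1 a51_2 a51_3 q51 fun c82 a82_1 a82_2 a82_3 q82 =>
  smulK 21 200 230584300921369395400 24211351596743786496 c82 a82_1 a82_2 a82_3 q82 fun c83 a83_1 a83_2 a83_3 q83 =>
  subK c81 a81_1 a81_2 a81_3 q81 c83 a83_1 a83_2 a83_3 q83 fun c84 a84_1 a84_2 a84_3 q84 =>
  smulK 987 250 288230376151711744250 1137933525046957965312 c2 a2_1 a2_2 a2_3 q2 fun c86 a86_1 a86_2 a86_3 q86 =>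
  negK c86 a86_1 a86_2 a86_3 q86 fun c87 a87_1 a87_2 a87_3 q87 =>
  addcK c87 a87_1 a87_2 a87_3 q87 1152935294956560450 1 fun c89 a89_1 a89_2 a89_3 q89 =>
  mulK c89 a89_1 a89_2 a89_3 q89 c2 a2_1 a2_2 a2_3 q2 fun c90 a90_1 a90_2 a90_3 q90 =>
  addcK c90 a90_1 a90_2 a90_3 q90 1152909140873470542 1 fun c91 a91_1 a91_2 a91_3 q91 =>
  mulK c91 a91_1 a91_2 a91_3 q91 c2 a2_1 a2_2 a2_3 q2 fun c92 a92_1 a92_2 a92_3 q92 =>
  addcK c92 a92_1 a92_2 a92_3 q92 1152921256873133343 1 fun c93 a93_1 a93_2 a93_3 q93 =>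
  mulK c93 a93_1 a93_2 a93_3 q93 c2 a2_1 a2_2 a2_3 q2 fun c94 a94_1 a94_2 a94_3 q94 =>
  addcK c94 a94_1 a94_2 a94_3 q94 1152924671337773924 1 fun c95 a95_1 a95_2 a95_3 q95 =>
  mulK c95 a95_1 a95_2 a95_3 q95 c2 a2_1 a2_2 a2_3 q2 fun c96 a96_1 a96_2 a96_3 q96 =>
  addcK c96 a96_1 a96_2 a96_3 q96 1152921744832957776 1 fun c97 a97_1 a97_2 a97_3 q97 =>
  mulK c97 a97_1 a97_2 a97_3 q97 c2 a2_1 a2_2 a2_3 q2 fun c98 a98_1 a98_2 a98_3 q98 =>
  addcK c98 a98_1 a98_2 a98_3 q98 1152920531212638880 1 fun c99 a99_1 a99_2 a99_3 q99 =>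
  mulK c99 a99_1 a99_2 a99_3 q99 c2 a2_1 a2_2 a2_3 q2 fun c100 a100_1 a100_2 a100_3 q100 =>
  addcK c100 a100_1 a100_2 a100_3 q100 1152921895058028888 1 fun c101 a101_1 a101_2 a101_3 q101 =>
  smulK 6909 250 288230376151711744250 7965534675328705757184 c2 a2_1 a2_2 a2_3 q2 fun c102 a102_1 a102_2 a102_3 q102 =>
  negK c102 a102_1 a102_2 a102_3 q102 fun c103 a103_1 a103_2 a103_3 q103 =>
  addcK c103 a103_1 a103_2 a103_3 q103 1152990456355414344 1 fun c105 a105_1 a105_2 a105_3 q105 =>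
  mulK c105 a105_1 a105_2 a105_3 q105 c2 a2_1 a2_2 a2_3 q2 fun c106 a106_1 a106_2 a106_3 q106 =>
  addcK c106 a106_1 a106_2 a106_3 q106 1152880292162258862 1 fun c107 a107_1 a107_2 a107_3 q107 =>
  mulK c107 a107_1 a107_2 a107_3 q107 c2 a2_1 a2_2 a2_3 q2 fun c108 a108_1 a108_2 a108_3 q108 =>
  addcK c108 a108_1 a108_2 a108_3 q108 1152921009139419709 1 fun c109 a109_1 a109_2 a109_3 q109 =>
  mulK c109 a109_1 a109_2 a109_3 q109 c2 a2_1 a2_2 a2_3 q2 fun c110 a110_1 a110_2 a110_3 q110 =>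
  addcK c110 a110_1 a110_2 a110_3 q110 1152924671337773924 1 fun c111 a111_1 a111_2 a111_3 q111 =>
  mulK c111 a111_1 a111_2 a111_3 q111 c2 a2_1 a2_2 a2_3 q2 fun c112 a112_1 a112_2 a112_3 q112 =>
  addcK c112 a112_1 a112_2 a112_3 q112 1152921584682217243 1 fun c113 a113_1 a113_2 a113_3 q113 =>
  addcK c103 a103_1 a103_2 a103_3 q103 1152962875655987397 1 fun c114 a114_1 a114_2 a114_3 q114 =>
  mulK c114 a114_1 a114_2 a114_3 q114 c2 a2_1 a2_2 a2_3 q2 fun c115 a115_1 a115_2 a115_3 q115 =>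
  addcK c115 a115_1 a115_2 a115_3 q115 1152909140873470542 1 fun c116 a116_1 a116_2 a116_3 q116 =>
  mulK c116 a116_1 a116_2 a116_3 q116 c2 a2_1 a2_2 a2_3 q2 fun c117 a117_1 a117_2 a117_3 q117 =>
  addcK c117 a117_1 a117_2 a117_3 q117 1152921455060104249 1 fun c118 a118_1 a118_2 a118_3 q118 =>
  addcK c87 a87_1 a87_2 a87_3 q87 1152923474656806044 1 fun c119 a119_1 a119_2 a119_3 q119 =>
  mulK c23 a23_1 a23_2 a23_3 q23 c119 a119_1 a119_2 a119_3 q119 fun c120 a120_1 a120_2 a120_3 q120 =>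
  addK c118 a118_1 a118_2 a118_3 q118 c120 a120_1 a120_2 a120_3 q120 fun c121 a121_1 a121_2 a121_3 q121 =>
  mulK c23 a23_1 a23_2 a23_3 q23 c121 a121_1 a121_2 a121_3 q121 fun c122 a122_1 a122_2 a122_3 q122 =>
  addK c113 a113_1 a113_2 a113_3 q113 c122 a122_1 a122_2 a122_3 q122 fun c123 a123_1 a123_2 a123_3 q123 =>
  mulK c23 a23_1 a23_2 a23_3 q23 c123 a123_1 a123_2 a123_3 q123 fun c124 a124_1 a124_2 a124_3 q124 =>
  addK c101 a101_1 a101_2 a101_3 q101 c124 a124_1 a124_2 a124_3 q124 fun c125 a125_1 a125_2 a125_3 q125 =>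
  mulK c84 a84_1 a84_2 a84_3 q84 c125 a125_1 a125_2 a125_3 q125 fun c127 a127_1 a127_2 a127_3 q127 =>
  smulK 2 1 1152921504606846977 2305843009213693952 c127 a127_1 a127_2 a127_3 q127 fun c128 a128_1 a128_2 a128_3 q128 =>
  subK c79 a79_1 a79_2 a79_3 q79 c128 a128_1 a128_2 a128_3 q128 fun c129 a129_1 a129_2 a129_3 q129 =>
  smulK 2 1 1152921504606846977 2305843009213693952 c49 a49_1 a49_2 a49_3 q49 fun c130 a130_1 a130_2 a130_3 q130 =>
  addK c129 a129_1 a129_2 a129_3 q129 c130 a130_1 a130_2 a130_3 q130 fun c131 a131_1 a131_2 a131_3 q131 =>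
  posK c131 a131_1 a131_2 a131_3 q131 <|
  addcK c6 a6_1 a6_2 a6_3 q6 1152971291867742208 0 fun c133 a133_1 a133_2 a133_3 q133 =>
  mulK c133 a133_1 a133_2 a133_3 q133 c2 a2_1 a2_2 a2_3 q2 fun c134 a134_1 a134_2 a134_3 q134 =>
  addcK c134 a134_1 a134_2 a134_3 q134 1152869554744018862 1 fun c135 a135_1 a135_2 a135_3 q135 =>
  mulK c135 a135_1 a135_2 a135_3 q135 c2 a2_1 a2_2 a2_3 q2 fun c136 a136_1 a136_2 a136_3 q136 =>
  addcK c136 a136_1 a136_2 a136_3 q136 1152935787950086554 1 fun c137 a137_1 a137_2 a137_3 q137 =>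
  mulK c137 a137_1 a137_2 a137_3 q137 c2 a2_1 a2_2 a2_3 q2 fun c138 a138_1 a138_2 a138_3 q138 =>
  addcK c138 a138_1 a138_2 a138_3 q138 1152925127016624161 1 fun c139 a139_1 a139_2 a139_3 q139 =>
  mulK c139 a139_1 a139_2 a139_3 q139 c2 a2_1 a2_2 a2_3 q2 fun c140 a140_1 a140_2 a140_3 q140 =>
  addcK c140 a140_1 a140_2 a140_3 q140 1152921190988335022 1 fun c141 a141_1 a141_2 a141_3 q141 =>
  mulK c141 a141_1 a141_2 a141_3 q141 c2 a2_1 a2_2 a2_3 q2 fun c142 a142_1 a142_2 a142_3 q142 =>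
  addcK c142 a142_1 a142_2 a142_3 q142 1152920781428843610 1 fun c143 a143_1 a143_2 a143_3 q143 =>
  addcK c26 a26_1 a26_2 a26_3 q26 1153004483375005696 0 fun c144 a144_1 a144_2 a144_3 q144 =>
  mulK c144 a144_1 a144_2 a144_3 q144 c2 a2_1 a2_2 a2_3 q2 fun c145 a145_1 a145_2 a145_3 q145 =>
  addcK c145 a145_1 a145_2 a145_3 q145 1152869554744018862 1 fun c146 a146_1 a146_2 a146_3 q146 =>
  mulK c146 a146_1 a146_2 a146_3 q146 c2 a2_1 a2_2 a2_3 q2 fun c147 a147_1 a147_2 a147_3 q147 =>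
  addcK c147 a147_1 a147_2 a147_3 q147 1152928646278466765 1 fun c148 a148_1 a148_2 a148_3 q148 =>
  mulK c148 a148_1 a148_2 a148_3 q148 c2 a2_1 a2_2 a2_3 q2 fun c149 a149_1 a149_2 a149_3 q149 =>
  addcK c149 a149_1 a149_2 a149_3 q149 1152922108341809840 1 fun c150 a150_1 a150_2 a150_3 q150 =>
  addcK c6 a6_1 a6_2 a6_3 q6 1152938100360478720 0 fun c151 a151_1 a151_2 a151_3 q151 =>
  mulK c151 a151_1 a151_2 a151_3 q151 c2 a2_1 a2_2 a2_3 q2 fun c152 a152_1 a152_2 a152_3 q152 =>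
  addcK c152 a152_1 a152_2 a152_3 q152 1152918041282658435 1 fun c153 a153_1 a153_2 a153_3 q153 =>
  addK c153 a153_1 a153_2 a153_3 q153 c39 a39_1 a39_2 a39_3 q39 fun c154 a154_1 a154_2 a154_3 q154 =>
  mulK c23 a23_1 a23_2 a23_3 q23 c154 a154_1 a154_2 a154_3 q154 fun c155 a155_1 a155_2 a155_3 q155 =>
  addK c150 a150_1 a150_2 a150_3 q150 c155 a155_1 a155_2 a155_3 q155 fun c156 a156_1 a156_2 a156_3 q156 =>
  mulK c23 a23_1 a23_2 a23_3 q23 c156 a156_1 a156_2 a156_3 q156 fun c157 a157_1 a157_2 a157_3 q157 =>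
  addK c143 a143_1 a143_2 a143_3 q143 c157 a157_1 a157_2 a157_3 q157 fun c158 a158_1 a158_2 a158_3 q158 =>
  mulK z1 (Nat.add w1 1152921504606846976) 1152921504606846976 1152921504606846976 0 c158 a158_1 a158_2 a158_3 q158 fun c160 a160_1 a160_2 a160_3 q160 =>
  smulK 8 1 1152921504606846977 9223372036854775808 c160 a160_1 a160_2 a160_3 q160 fun c161 a161_1 a161_2 a161_3 q161 =>
  smulK 3 1 1152921504606846977 3458764513820540928 p2 1152921504606846976 1152921504606846976 1152921504606846976 0 fun c162 a162_1 a162_2 a162_3 q162 =>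
  sqK c162 a162_1 a162_2 a162_3 q162 fun c164 a164_1 a164_2 a164_3 q164 =>
  smulK 99 200 230584300921369395400 114139228956077850624 c164 a164_1 a164_2 a164_3 q164 fun c165 a165_1 a165_2 a165_3 q165 =>
  addcK c55 a55_1 a55_2 a55_3 q55 1152926788859730067 1 fun c167 a167_1 a167_2 a167_3 q167 =>
  mulK c167 a167_1 a167_2 a167_3 q167 c2 a2_1 a2_2 a2_3 q2 fun c168 a168_1 a168_2 a168_3 q168 =>
  addcK c168 a168_1 a168_2 a168_3 q168 1152911935832028348 1 fun c169 a169_1 a169_2 a169_3 q169 =>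
  mulK c169 a169_1 a169_2 a169_3 q169 c2 a2_1 a2_2 a2_3 q2 fun c170 a170_1 a170_2 a170_3 q170 =>
  addcK c170 a170_1 a170_2 a170_3 q170 1152929145662904205 1 fun c171 a171_1 a171_2 a171_3 q171 =>
  mulK c171 a171_1 a171_2 a171_3 q171 c2 a2_1 a2_2 a2_3 q2 fun c172 a172_1 a172_2 a172_3 q172 =>
  addcK c172 a172_1 a172_2 a172_3 q172 1152918891548744090 1 fun c173 a173_1 a173_2 a173_3 q173 =>
  mulK c173 a173_1 a173_2 a173_3 q173 c2 a2_1 a2_2 a2_3 q2 fun c174 a174_1 a174_2 a174_3 q174 =>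
  addcK c174 a174_1 a174_2 a174_3 q174 1152922602056890450 1 fun c175 a175_1 a175_2 a175_3 q175 =>
  mulK c175 a175_1 a175_2 a175_3 q175 c2 a2_1 a2_2 a2_3 q2 fun c176 a176_1 a176_2 a176_3 q176 =>
  addcK c176 a176_1 a176_2 a176_3 q176 1152919509525818507 1 fun c177 a177_1 a177_2 a177_3 q177 =>
  mulK c177 a177_1 a177_2 a177_3 q177 c2 a2_1 a2_2 a2_3 q2 fun c178 a178_1 a178_2 a178_3 q178 =>
  addcK c178 a178_1 a178_2 a178_3 q178 1152923178097904189 1 fun c179 a179_1 a179_2 a179_3 q179 =>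
  mulK c73 a73_1 a73_2 a73_3 q73 c158 a158_1 a158_2 a158_3 q158 fun c181 a181_1 a181_2 a181_3 q181 =>
  addK c179 a179_1 a179_2 a179_3 q179 c181 a181_1 a181_2 a181_3 q181 fun c182 a182_1 a182_2 a182_3 q182 =>
  mulK c165 a165_1 a165_2 a165_3 q165 c182 a182_1 a182_2 a182_3 q182 fun c184 a184_1 a184_2 a184_3 q184 =>
  subK c161 a161_1 a161_2 a161_3 q161 c184 a184_1 a184_2 a184_3 q184 fun c185 a185_1 a185_2 a185_3 q185 =>
  mulK z2 1152921504606846976 (Nat.add w2 1152921504606846976) 1152921504606846976 0 c162 a162_1 a162_2 a162_3 q162 fun c186 a186_1 a186_2 a186_3 q186 =>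
  smulK 4 3 3458764513820540931 4611686018427387904 c186 a186_1 a186_2 a186_3 q186 fun c187 a187_1 a187_2 a187_3 q187 =>
  mulK c19 a19_1 a19_2 a19_3 q19 c164 a164_1 a164_2 a164_3 q164 fun c188 a188_1 a188_2 a188_3 q188 =>
  smulK 21 200 230584300921369395400 24211351596743786496 c188 a188_1 a188_2 a188_3 q188 fun c189 a189_1 a189_2 a189_3 q189 =>
  subK c187 a187_1 a187_2 a187_3 q187 c189 a189_1 a189_2 a189_3 q189 fun c190 a190_1 a190_2 a190_3 q190 =>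
  addcK c87 a87_1 a87_2 a87_3 q87 1152938100360478720 0 fun c192 a192_1 a192_2 a192_3 q192 =>
  mulK c192 a192_1 a192_2 a192_3 q192 c2 a2_1 a2_2 a2_3 q2 fun c193 a193_1 a193_2 a193_3 q193 =>
  addcK c193 a193_1 a193_2 a193_3 q193 1152900724661715730 1 fun c194 a194_1 a194_2 a194_3 q194 =>
  mulK c194 a194_1 a194_2 a194_3 q194 c2 a2_1 a2_2 a2_3 q2 fun c195 a195_1 a195_2 a195_3 q195 =>
  addcK c195 a195_1 a195_2 a195_3 q195 1152928646278466765 1 fun c196 a196_1 a196_2 a196_3 q196 =>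
  mulK c196 a196_1 a196_2 a196_3 q196 c2 a2_1 a2_2 a2_3 q2 fun c197 a197_1 a197_2 a197_3 q197 =>
  addcK c197 a197_1 a197_2 a197_3 q197 1152923919546698433 1 fun c198 a198_1 a198_2 a198_3 q198 =>
  mulK c198 a198_1 a198_2 a198_3 q198 c2 a2_1 a2_2 a2_3 q2 fun c199 a199_1 a199_2 a199_3 q199 =>
  addcK c199 a199_1 a199_2 a199_3 q199 1152921190988335022 1 fun c200 a200_1 a200_2 a200_3 q200 =>
  mulK c200 a200_1 a200_2 a200_3 q200 c2 a2_1 a2_2 a2_3 q2 fun c201 a201_1 a201_2 a201_3 q201 =>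
  addcK c201 a201_1 a201_2 a201_3 q201 1152920058250840244 1 fun c202 a202_1 a202_2 a202_3 q202 =>
  mulK c202 a202_1 a202_2 a202_3 q202 c2 a2_1 a2_2 a2_3 q2 fun c203 a203_1 a203_2 a203_3 q203 =>
  addcK c203 a203_1 a203_2 a203_3 q203 1152921842582118466 1 fun c204 a204_1 a204_2 a204_3 q204 =>
  addcK c103 a103_1 a103_2 a103_3 q103 1153004483375005696 0 fun c205 a205_1 a205_2 a205_3 q205 =>
  mulK c205 a205_1 a205_2 a205_3 q205 c2 a2_1 a2_2 a2_3 q2 fun c206 a206_1 a206_2 a206_3 q206 =>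
  addcK c206 a206_1 a206_2 a206_3 q206 1152852238123076157 1 fun c207 a207_1 a207_2 a207_3 q207 =>
  mulK c207 a207_1 a207_2 a207_3 q207 c2 a2_1 a2_2 a2_3 q2 fun c208 a208_1 a208_2 a208_3 q208 =>
  addcK c208 a208_1 a208_2 a208_3 q208 1152935787950086554 1 fun c209 a209_1 a209_2 a209_3 q209 =>
  mulK c209 a209_1 a209_2 a209_3 q209 c2 a2_1 a2_2 a2_3 q2 fun c210 a210_1 a210_2 a210_3 q210 =>
  addcK c210 a210_1 a210_2 a210_3 q210 1152923919546698433 1 fun c211 a211_1 a211_2 a211_3 q211 =>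
  mulK c211 a211_1 a211_2 a211_3 q211 c2 a2_1 a2_2 a2_3 q2 fun c212 a212_1 a212_2 a212_3 q212 =>
  addcK c212 a212_1 a212_2 a212_3 q212 1152921400067342991 1 fun c213 a213_1 a213_2 a213_3 q213 =>
  addcK c103 a103_1 a103_2 a103_3 q103 1152971291867742208 0 fun c214 a214_1 a214_2 a214_3 q214 =>
  mulK c214 a214_1 a214_2 a214_3 q214 c2 a2_1 a2_2 a2_3 q2 fun c215 a215_1 a215_2 a215_3 q215 =>
  addcK c215 a215_1 a215_2 a215_3 q215 1152900724661715730 1 fun c216 a216_1 a216_2 a216_3 q216 =>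
  mulK c216 a216_1 a216_2 a216_3 q216 c2 a2_1 a2_2 a2_3 q2 fun c217 a217_1 a217_2 a217_3 q217 =>
  addcK c217 a217_1 a217_2 a217_3 q217 1152922932941170934 1 fun c218 a218_1 a218_2 a218_3 q218 =>
  addcK c87 a87_1 a87_2 a87_3 q87 1152923875428794368 0 fun c219 a219_1 a219_2 a219_3 q219 =>
  mulK c23 a23_1 a23_2 a23_3 q23 c219 a219_1 a219_2 a219_3 q219 fun c220 a220_1 a220_2 a220_3 q220 =>
  addK c218 a218_1 a218_2 a218_3 q218 c220 a220_1 a220_2 a220_3 q220 fun c221 a221_1 a221_2 a221_3 q221 =>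
  mulK c23 a23_1 a23_2 a23_3 q23 c221 a221_1 a221_2 a221_3 q221 fun c222 a222_1 a222_2 a222_3 q222 =>
  addK c213 a213_1 a213_2 a213_3 q213 c222 a222_1 a222_2 a222_3 q222 fun c223 a223_1 a223_2 a223_3 q223 =>
  mulK c23 a23_1 a23_2 a23_3 q23 c223 a223_1 a223_2 a223_3 q223 fun c224 a224_1 a224_2 a224_3 q224 =>
  addK c204 a204_1 a204_2 a204_3 q204 c224 a224_1 a224_2 a224_3 q224 fun c225 a225_1 a225_2 a225_3 q225 =>
  mulK c190 a190_1 a190_2 a190_3 q190 c225 a225_1 a225_2 a225_3 q225 fun c227 a227_1 a227_2 a227_3 q227 =>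
  smulK 2 1 1152921504606846977 2305843009213693952 c227 a227_1 a227_2 a227_3 q227 fun c228 a228_1 a228_2 a228_3 q228 =>
  addK c185 a185_1 a185_2 a185_3 q185 c228 a228_1 a228_2 a228_3 q228 fun c229 a229_1 a229_2 a229_3 q229 =>
  smulK 2 1 1152921504606846977 2305843009213693952 c162 a162_1 a162_2 a162_3 q162 fun c230 a230_1 a230_2 a230_3 q230 =>
  addK c229 a229_1 a229_2 a229_3 q229 c230 a230_1 a230_2 a230_3 q230 fun c231 a231_1 a231_2 a231_3 q231 =>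
  posK c231 a231_1 a231_2 a231_3 q231 <|
  mulK c131 a131_1 a131_2 a131_3 q131 c231 a231_1 a231_2 a231_3 q231 fun c233 a233_1 a233_2 a233_3 q233 =>
  smulK 1666 125 144115188075855872125 1920767226675007062016 c2 a2_1 a2_2 a2_3 q2 fun c234 a234_1 a234_2 a234_3 q234 =>
  addcK c234 a234_1 a234_2 a234_3 q234 1152877541733921980 1 fun c235 a235_1 a235_2 a235_3 q235 =>
  mulK c235 a235_1 a235_2 a235_3 q235 c2 a2_1 a2_2 a2_3 q2 fun c236 a236_1 a236_2 a236_3 q236 =>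
  addcK c236 a236_1 a236_2 a236_3 q236 1152958893499749499 1 fun c237 a237_1 a237_2 a237_3 q237 =>
  mulK c237 a237_1 a237_2 a237_3 q237 c2 a2_1 a2_2 a2_3 q2 fun c238 a238_1 a238_2 a238_3 q238 =>
  addcK c238 a238_1 a238_2 a238_3 q238 1152919998275916923 1 fun c239 a239_1 a239_2 a239_3 q239 =>
  mulK c239 a239_1 a239_2 a239_3 q239 c2 a2_1 a2_2 a2_3 q2 fun c240 a240_1 a240_2 a240_3 q240 =>
  addcK c240 a240_1 a240_2 a240_3 q240 1152914196702812963 1 fun c241 a241_1 a241_2 a241_3 q241 =>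
  mulK c241 a241_1 a241_2 a241_3 q241 c2 a2_1 a2_2 a2_3 q2 fun c242 a242_1 a242_2 a242_3 q242 =>
  addcK c242 a242_1 a242_2 a242_3 q242 1152922238530858516 1 fun c243 a243_1 a243_2 a243_3 q243 =>
  mulK c243 a243_1 a243_2 a243_3 q243 c2 a2_1 a2_2 a2_3 q2 fun c244 a244_1 a244_2 a244_3 q244 =>
  addcK c244 a244_1 a244_2 a244_3 q244 1152921613527217603 1 fun c245 a245_1 a245_2 a245_3 q245 =>
  smulK 833 25 28823037615171174425 960383613337503531008 c2 a2_1 a2_2 a2_3 q2 fun c246 a246_1 a246_2 a246_3 q246 =>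
  addcK c246 a246_1 a246_2 a246_3 q246 1152848233151971983 1 fun c247 a247_1 a247_2 a247_3 q247 =>
  mulK c247 a247_1 a247_2 a247_3 q247 c2 a2_1 a2_2 a2_3 q2 fun c248 a248_1 a248_2 a248_3 q248 =>
  addcK c248 a248_1 a248_2 a248_3 q248 1152958893499749499 1 fun c249 a249_1 a249_2 a249_3 q249 =>
  mulK c249 a249_1 a249_2 a249_3 q249 c2 a2_1 a2_2 a2_3 q2 fun c250 a250_1 a250_2 a250_3 q250 =>
  addcK c250 a250_1 a250_2 a250_3 q250 1152920751441381949 1 fun c251 a251_1 a251_2 a251_3 q251 =>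
  mulK c251 a251_1 a251_2 a251_3 q251 c2 a2_1 a2_2 a2_3 q2 fun c252 a252_1 a252_2 a252_3 q252 =>
  addcK c252 a252_1 a252_2 a252_3 q252 1152920286622841307 1 fun c253 a253_1 a253_2 a253_3 q253 =>
  addcK c234 a234_1 a234_2 a234_3 q234 1152906850315871977 1 fun c254 a254_1 a254_2 a254_3 q254 =>
  mulK c254 a254_1 a254_2 a254_3 q254 c2 a2_1 a2_2 a2_3 q2 fun c255 a255_1 a255_2 a255_3 q255 =>
  addcK c255 a255_1 a255_2 a255_3 q255 1152923997199707144 1 fun c256 a256_1 a256_2 a256_3 q256 =>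
  smulK 119 250 288230376151711744250 137197659048214790144 c23 a23_1 a23_2 a23_3 q23 fun c257 a257_1 a257_2 a257_3 q257 =>
  addK c256 a256_1 a256_2 a256_3 q256 c257 a257_1 a257_2 a257_3 q257 fun c258 a258_1 a258_2 a258_3 q258 =>
  mulK c23 a23_1 a23_2 a23_3 q23 c258 a258_1 a258_2 a258_3 q258 fun c259 a259_1 a259_2 a259_3 q259 =>
  addK c253 a253_1 a253_2 a253_3 q253 c259 a259_1 a259_2 a259_3 q259 fun c260 a260_1 a260_2 a260_3 q260 =>
  mulK c23 a23_1 a23_2 a23_3 q23 c260 a260_1 a260_2 a260_3 q260 fun c261 a261_1 a261_2 a261_3 q261 =>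
  addK c245 a245_1 a245_2 a245_3 q245 c261 a261_1 a261_2 a261_3 q261 fun c262 a262_1 a262_2 a262_3 q262 =>
  smulK 8 1 1152921504606846977 9223372036854775808 c262 a262_1 a262_2 a262_3 q262 fun c264 a264_1 a264_2 a264_3 q264 =>
  subK c84 a84_1 a84_2 a84_3 q84 c190 a190_1 a190_2 a190_3 q190 fun c265 a265_1 a265_2 a265_3 q265 =>
  smulK 1 2 2305843009213693954 1152921504606846976 c265 a265_1 a265_2 a265_3 q265 fun c266 a266_1 a266_2 a266_3 q266 =>
  smulK 952 125 144115188075855872125 1097581272385718321152 c2 a2_1 a2_2 a2_3 q2 fun c269 a269_1 a269_2 a269_3 q269 =>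
  addcK c269 a269_1 a269_2 a269_3 q269 1152888009084618408 1 fun c270 a270_1 a270_2 a270_3 q270 =>
  mulK c270 a270_1 a270_2 a270_3 q270 c2 a2_1 a2_2 a2_3 q2 fun c271 a271_1 a271_2 a271_3 q271 =>
  addcK c271 a271_1 a271_2 a271_3 q271 1152968163482283278 1 fun c272 a272_1 a272_2 a272_3 q272 =>
  mulK c272 a272_1 a272_2 a272_3 q272 c2 a2_1 a2_2 a2_3 q2 fun c273 a273_1 a273_2 a273_3 q273 =>
  addcK c273 a273_1 a273_2 a273_3 q273 1152896668838198772 1 fun c274 a274_1 a274_2 a274_3 q274 =>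
  mulK c274 a274_1 a274_2 a274_3 q274 c2 a2_1 a2_2 a2_3 q2 fun c275 a275_1 a275_2 a275_3 q275 =>
  addcK c275 a275_1 a275_2 a275_3 q275 1152924178619125727 1 fun c276 a276_1 a276_2 a276_3 q276 =>
  mulK c276 a276_1 a276_2 a276_3 q276 c2 a2_1 a2_2 a2_3 q2 fun c277 a277_1 a277_2 a277_3 q277 =>
  addcK c277 a277_1 a277_2 a277_3 q277 1152921635448730681 1 fun c278 a278_1 a278_2 a278_3 q278 =>
  mulK c278 a278_1 a278_2 a278_3 q278 c2 a2_1 a2_2 a2_3 q2 fun c279 a279_1 a279_2 a279_3 q279 =>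
  addcK c279 a279_1 a279_2 a279_3 q279 1152921874867387630 1 fun c280 a280_1 a280_2 a280_3 q280 =>
  smulK 3332 125 144115188075855872125 3841534453350014124032 c2 a2_1 a2_2 a2_3 q2 fun c281 a281_1 a281_2 a281_3 q281 =>
  addcK c281 a281_1 a281_2 a281_3 q281 1152848233151971983 1 fun c282 a282_1 a282_2 a282_3 q282 =>
  mulK c282 a282_1 a282_2 a282_3 q282 c2 a2_1 a2_2 a2_3 q2 fun c283 a283_1 a283_2 a283_3 q283 =>
  addcK c283 a283_1 a283_2 a283_3 q283 1152971356464050340 1 fun c284 a284_1 a284_2 a284_3 q284 =>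
  mulK c284 a284_1 a284_2 a284_3 q284 c2 a2_1 a2_2 a2_3 q2 fun c285 a285_1 a285_2 a285_3 q285 =>
  addcK c285 a285_1 a285_2 a285_3 q285 1152919998275916923 1 fun c286 a286_1 a286_2 a286_3 q286 =>
  mulK c286 a286_1 a286_2 a286_3 q286 c2 a2_1 a2_2 a2_3 q2 fun c287 a287_1 a287_2 a287_3 q287 =>
  addcK c287 a287_1 a287_2 a287_3 q287 1152916632670824301 1 fun c288 a288_1 a288_2 a288_3 q288 =>
  mulK c288 a288_1 a288_2 a288_3 q288 c2 a2_1 a2_2 a2_3 q2 fun c289 a289_1 a289_2 a289_3 q289 =>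
  addcK c289 a289_1 a289_2 a289_3 q289 1152921749248184156 1 fun c290 a290_1 a290_2 a290_3 q290 =>
  addcK c281 a281_1 a281_2 a281_3 q281 1152877541733921980 1 fun c291 a291_1 a291_2 a291_3 q291 =>
  mulK c291 a291_1 a291_2 a291_3 q291 c2 a2_1 a2_2 a2_3 q2 fun c292 a292_1 a292_2 a292_3 q292 =>
  addcK c292 a292_1 a292_2 a292_3 q292 1152936460164007985 1 fun c293 a293_1 a293_2 a293_3 q293 =>
  mulK c293 a293_1 a293_2 a293_3 q293 c2 a2_1 a2_2 a2_3 q2 fun c294 a294_1 a294_2 a294_3 q294 =>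
  addcK c294 a294_1 a294_2 a294_3 q294 1152921353973753971 1 fun c295 a295_1 a295_2 a295_3 q295 =>
  smulK 476 125 144115188075855872125 548790636192859160576 c2 a2_1 a2_2 a2_3 q2 fun c296 a296_1 a296_2 a296_3 q296 =>
  addcK c296 a296_1 a296_2 a296_3 q296 1152919411136707690 1 fun c297 a297_1 a297_2 a297_3 q297 =>
  mulK c23 a23_1 a23_2 a23_3 q23 c297 a297_1 a297_2 a297_3 q297 fun c298 a298_1 a298_2 a298_3 q298 =>
  addK c295 a295_1 a295_2 a295_3 q295 c298 a298_1 a298_2 a298_3 q298 fun c299 a299_1 a299_2 a299_3 q299 =>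
  mulK c23 a23_1 a23_2 a23_3 q23 c299 a299_1 a299_2 a299_3 q299 fun c300 a300_1 a300_2 a300_3 q300 =>
  addK c290 a290_1 a290_2 a290_3 q290 c300 a300_1 a300_2 a300_3 q300 fun c301 a301_1 a301_2 a301_3 q301 =>
  mulK c73 a73_1 a73_2 a73_3 q73 c301 a301_1 a301_2 a301_3 q301 fun c302 a302_1 a302_2 a302_3 q302 =>
  addK c280 a280_1 a280_2 a280_3 q280 c302 a302_1 a302_2 a302_3 q302 fun c303 a303_1 a303_2 a303_3 q303 =>
  mulK c266 a266_1 a266_2 a266_3 q266 c303 a303_1 a303_2 a303_3 q303 fun c305 a305_1 a305_2 a305_3 q305 =>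
  smulK 2 1 1152921504606846977 2305843009213693952 c305 a305_1 a305_2 a305_3 q305 fun c306 a306_1 a306_2 a306_3 q306 =>
  subK c264 a264_1 a264_2 a264_3 q264 c306 a306_1 a306_2 a306_3 q306 fun c307 a307_1 a307_2 a307_3 q307 =>
  addK c52 a52_1 a52_2 a52_3 q52 c165 a165_1 a165_2 a165_3 q165 fun c308 a308_1 a308_2 a308_3 q308 =>
  smulK 1 2 2305843009213693954 1152921504606846976 c308 a308_1 a308_2 a308_3 q308 fun c309 a309_1 a309_2 a309_3 q309 =>
  mulK c19 a19_1 a19_2 a19_3 q19 c52 a52_1 a52_2 a52_3 q52 fun c312 a312_1 a312_2 a312_3 q312 =>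
  subK c84 a84_1 a84_2 a84_3 q84 c312 a312_1 a312_2 a312_3 q312 fun c313 a313_1 a313_2 a313_3 q313 =>
  smulK 1 2 2305843009213693954 1152921504606846976 c313 a313_1 a313_2 a313_3 q313 fun c314 a314_1 a314_2 a314_3 q314 =>
  mulK c19 a19_1 a19_2 a19_3 q19 c165 a165_1 a165_2 a165_3 q165 fun c317 a317_1 a317_2 a317_3 q317 =>
  addK c190 a190_1 a190_2 a190_3 q190 c317 a317_1 a317_2 a317_3 q317 fun c318 a318_1 a318_2 a318_3 q318 =>
  smulK 1 2 2305843009213693954 1152921504606846976 c318 a318_1 a318_2 a318_3 q318 fun c319 a319_1 a319_2 a319_3 q319 =>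
  mulK c314 a314_1 a314_2 a314_3 q314 c319 a319_1 a319_2 a319_3 q319 fun c322 a322_1 a322_2 a322_3 q322 =>
  addK c309 a309_1 a309_2 a309_3 q309 c322 a322_1 a322_2 a322_3 q322 fun c323 a323_1 a323_2 a323_3 q323 =>
  mulK c19 a19_1 a19_2 a19_3 q19 c323 a323_1 a323_2 a323_3 q323 fun c325 a325_1 a325_2 a325_3 q325 =>
  subK c266 a266_1 a266_2 a266_3 q266 c325 a325_1 a325_2 a325_3 q325 fun c326 a326_1 a326_2 a326_3 q326 =>
  mulK c19 a19_1 a19_2 a19_3 q19 c326 a326_1 a326_2 a326_3 q326 fun c328 a328_1 a328_2 a328_3 q328 =>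
  addcK c328 a328_1 a328_2 a328_3 q328 1152922604118474752 0 fun c329 a329_1 a329_2 a329_3 q329 =>
  sqrtK c329 a329_1 a329_2 a329_3 q329 fun c331 a331_1 a331_2 a331_3 q331 =>
  addcK c331 a331_1 a331_2 a331_3 q331 1152922604118474752 0 fun c333 a333_1 a333_2 a333_3 q333 =>
  invK c333 a333_1 a333_2 a333_3 q333 fun c335 a335_1 a335_2 a335_3 q335 =>
  mulK c326 a326_1 a326_2 a326_3 q326 c335 a335_1 a335_2 a335_3 q335 fun c336 a336_1 a336_2 a336_3 q336 =>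
  sqK c336 a336_1 a336_2 a336_3 q336 fun c338 a338_1 a338_2 a338_3 q338 =>
  addK c323 a323_1 a323_2 a323_3 q323 c338 a338_1 a338_2 a338_3 q338 fun c339 a339_1 a339_2 a339_3 q339 =>
  smulK 238 125 144115188075855872125 274395318096429580288 c2 a2_1 a2_2 a2_3 q2 fun c340 a340_1 a340_2 a340_3 q340 =>
  addcK c340 a340_1 a340_2 a340_3 q340 1152911037256150548 1 fun c341 a341_1 a341_2 a341_3 q341 =>
  mulK c341 a341_1 a341_2 a341_3 q341 c2 a2_1 a2_2 a2_3 q2 fun c342 a342_1 a342_2 a342_3 q342 =>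
  addcK c342 a342_1 a342_2 a342_3 q342 1152941418961449255 1 fun c343 a343_1 a343_2 a343_3 q343 =>
  mulK c343 a343_1 a343_2 a343_3 q343 c2 a2_1 a2_2 a2_3 q2 fun c344 a344_1 a344_2 a344_3 q344 =>
  addcK c344 a344_1 a344_2 a344_3 q344 1152903604557546783 1 fun c345 a345_1 a345_2 a345_3 q345 =>
  mulK c345 a345_1 a345_2 a345_3 q345 c2 a2_1 a2_2 a2_3 q2 fun c346 a346_1 a346_2 a346_3 q346 =>
  addcK c346 a346_1 a346_2 a346_3 q346 1152929554131473924 1 fun c347 a347_1 a347_2 a347_3 q347 =>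
  mulK c347 a347_1 a347_2 a347_3 q347 c2 a2_1 a2_2 a2_3 q2 fun c348 a348_1 a348_2 a348_3 q348 =>
  addcK c348 a348_1 a348_2 a348_3 q348 1152918908659893797 1 fun c349 a349_1 a349_2 a349_3 q349 =>
  mulK c349 a349_1 a349_2 a349_3 q349 c2 a2_1 a2_2 a2_3 q2 fun c350 a350_1 a350_2 a350_3 q350 =>
  addcK c350 a350_1 a350_2 a350_3 q350 1152922523854125924 1 fun c351 a351_1 a351_2 a351_3 q351 =>
  mulK c71 a71_1 a71_2 a71_3 q71 c262 a262_1 a262_2 a262_3 q262 fun c353 a353_1 a353_2 a353_3 q353 =>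
  smulK 4 1 1152921504606846977 4611686018427387904 c353 a353_1 a353_2 a353_3 q353 fun c354 a354_1 a354_2 a354_3 q354 =>
  addK c351 a351_1 a351_2 a351_3 q351 c354 a354_1 a354_2 a354_3 q354 fun c355 a355_1 a355_2 a355_3 q355 =>
  mulK c19 a19_1 a19_2 a19_3 q19 c303 a303_1 a303_2 a303_3 q303 fun c357 a357_1 a357_2 a357_3 q357 =>
  smulK 2 1 1152921504606846977 2305843009213693952 c357 a357_1 a357_2 a357_3 q357 fun c358 a358_1 a358_2 a358_3 q358 =>
  subK c355 a355_1 a355_2 a355_3 q355 c358 a358_1 a358_2 a358_3 q358 fun c359 a359_1 a359_2 a359_3 q359 =>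
  mulK c339 a339_1 a339_2 a339_3 q339 c359 a359_1 a359_2 a359_3 q359 fun c361 a361_1 a361_2 a361_3 q361 =>
  addK c84 a84_1 a84_2 a84_3 q84 c312 a312_1 a312_2 a312_3 q312 fun c362 a362_1 a362_2 a362_3 q362 =>
  smulK 1 2 2305843009213693954 1152921504606846976 c362 a362_1 a362_2 a362_3 q362 fun c363 a363_1 a363_2 a363_3 q363 =>
  subK c190 a190_1 a190_2 a190_3 q190 c317 a317_1 a317_2 a317_3 q317 fun c366 a366_1 a366_2 a366_3 q366 =>
  smulK 1 2 2305843009213693954 1152921504606846976 c366 a366_1 a366_2 a366_3 q366 fun c367 a367_1 a367_2 a367_3 q367 =>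
  mulK c363 a363_1 a363_2 a363_3 q363 c367 a367_1 a367_2 a367_3 q367 fun c370 a370_1 a370_2 a370_3 q370 =>
  addK c309 a309_1 a309_2 a309_3 q309 c370 a370_1 a370_2 a370_3 q370 fun c371 a371_1 a371_2 a371_3 q371 =>
  negK c266 a266_1 a266_2 a266_3 q266 fun c373 a373_1 a373_2 a373_3 q373 =>
  mulK c19 a19_1 a19_2 a19_3 q19 c371 a371_1 a371_2 a371_3 q371 fun c374 a374_1 a374_2 a374_3 q374 =>
  subK c373 a373_1 a373_2 a373_3 q373 c374 a374_1 a374_2 a374_3 q374 fun c375 a375_1 a375_2 a375_3 q375 =>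
  mulK c19 a19_1 a19_2 a19_3 q19 c375 a375_1 a375_2 a375_3 q375 fun c377 a377_1 a377_2 a377_3 q377 =>
  addcK c377 a377_1 a377_2 a377_3 q377 1152922604118474752 0 fun c378 a378_1 a378_2 a378_3 q378 =>
  sqrtK c378 a378_1 a378_2 a378_3 q378 fun c380 a380_1 a380_2 a380_3 q380 =>
  addcK c380 a380_1 a380_2 a380_3 q380 1152922604118474752 0 fun c382 a382_1 a382_2 a382_3 q382 =>
  invK c382 a382_1 a382_2 a382_3 q382 fun c384 a384_1 a384_2 a384_3 q384 =>
  mulK c375 a375_1 a375_2 a375_3 q375 c384 a384_1 a384_2 a384_3 q384 fun c385 a385_1 a385_2 a385_3 q385 =>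
  sqK c385 a385_1 a385_2 a385_3 q385 fun c387 a387_1 a387_2 a387_3 q387 =>
  addK c371 a371_1 a371_2 a371_3 q371 c387 a387_1 a387_2 a387_3 q387 fun c388 a388_1 a388_2 a388_3 q388 =>
  addK c355 a355_1 a355_2 a355_3 q355 c358 a358_1 a358_2 a358_3 q358 fun c389 a389_1 a389_2 a389_3 q389 =>
  mulK c388 a388_1 a388_2 a388_3 q388 c389 a389_1 a389_2 a389_3 q389 fun c391 a391_1 a391_2 a391_3 q391 =>
  addK c361 a361_1 a361_2 a361_3 q361 c391 a391_1 a391_2 a391_3 q391 fun c392 a392_1 a392_2 a392_3 q392 =>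
  smulK 1 2 2305843009213693954 1152921504606846976 c392 a392_1 a392_2 a392_3 q392 fun c393 a393_1 a393_2 a393_3 q393 =>
  subK c307 a307_1 a307_2 a307_3 q307 c393 a393_1 a393_2 a393_3 q393 fun c395 a395_1 a395_2 a395_3 q395 =>
  mulK z1 (Nat.add w1 1152921504606846976) 1152921504606846976 1152921504606846976 0 c395 a395_1 a395_2 a395_3 q395 fun c397 a397_1 a397_2 a397_3 q397 =>
  negK c397 a397_1 a397_2 a397_3 q397 fun c398 a398_1 a398_2 a398_3 q398 =>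
  reluK c398 a398_1 a398_2 a398_3 q398 fun c399 a399_1 a399_2 a399_3 q399 =>
  sqK c399 a399_1 a399_2 a399_3 q399 fun c400 a400_1 a400_2 a400_3 q400 =>
  subK c233 a233_1 a233_2 a233_3 q233 c400 a400_1 a400_2 a400_3 q400 fun c401 a401_1 a401_2 a401_3 q401 =>
  pos c401 a401_1 a401_2 a401_3 q401

theorem alt0_s {p1 p2 z1 w1 z2 w2 z3 w3 : ℕ} {e1 e2 e3 a s xi p q : ℝ} (he : Ev e1 e2 e3)
    (hp1 : In e1 e2 e3 p1 1152921504606846976 1152921504606846976 1152921504606846976 0 p)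
    (hp2 : In e1 e2 e3 p2 1152921504606846976 1152921504606846976 1152921504606846976 0 q)
    (hx1 : In e1 e2 e3 z1 (Nat.add w1 1152921504606846976) 1152921504606846976 1152921504606846976 0 a)
    (hx2 : In e1 e2 e3 z2 1152921504606846976 (Nat.add w2 1152921504606846976) 1152921504606846976 0 s)
    (hx3 : In e1 e2 e3 z3 1152921504606846976 1152921504606846976 (Nat.add w3 1152921504606846976) 0 xi)
    (H0 : alt0 p1 p2 z1 w1 z2 w2 z3 w3 = true) : 0 < (PA a s xi p q) ∧ 0 < (QA a s xi p q) ∧ 0 < (((PA a s xi p q) * (QA a s xi p q)) - ((max (-(a * (ZAA a s xi p q))) (0:ℝ)) ^ 2)) := by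
  unfold alt0 at H0
  refine smulK_s he (w := (2:ℝ)) (by norm_num) (by norm_num) (by norm_num) (by norm_num) hx1 (fun _ _ _ _ _ h1 H1 => ?_) H0
  refine addcK_s he h1 (v' := (-1/2:ℝ)) (by norm_num [SS, BB, abs_le]) (fun _ _ _ _ _ h2 H2 => ?_) H1
  have h3 := In_cast h2 (sub_c (c := (1/2:ℝ)) (by norm_num))
  have h4 := In_cast (w := (x a s xi p q)) h3 rfl
  refine smulK_s he (w := (6909/500:ℝ)) (by norm_num) (by norm_num) (by norm_num) (by norm_num) h4 (fun _ _ _ _ _ h5 H3 => ?_) H2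
  refine negK_s he h5 (fun _ _ _ _ _ h6 H4 => ?_) H3
  have h7 := In_cast h6 (neg_mul_c (c := (-6909/500:ℝ)) (by norm_num))
  refine addcK_s he h7 (v' := (150507/4000:ℝ)) (by norm_num [SS, BB, abs_le]) (fun _ _ _ _ _ h8 H5 => ?_) H4
  refine mulK_s he h8 h4 (fun _ _ _ _ _ h9 H6 => ?_) H5
  refine addcK_s he h9 (v' := (-44979/1600:ℝ)) (by norm_num [SS, BB, abs_le]) (fun _ _ _ _ _ h10 H7 => ?_) H6
  refine mulK_s he h10 h4 (fun _ _ _ _ _ h11 H8 => ?_) H7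
  refine addcK_s he h11 (v' := (-721/1600:ℝ)) (by norm_num [SS, BB, abs_le]) (fun _ _ _ _ _ h12 H9 => ?_) H8
  refine mulK_s he h12 h4 (fun _ _ _ _ _ h13 H10 => ?_) H9
  refine addcK_s he h13 (v' := (69123/16000:ℝ)) (by norm_num [SS, BB, abs_le]) (fun _ _ _ _ _ h14 H11 => ?_) H10
  refine mulK_s he h14 h4 (fun _ _ _ _ _ h15 H12 => ?_) H11
  refine addcK_s he h15 (v' := (13983/64000:ℝ)) (by norm_num [SS, BB, abs_le]) (fun _ _ _ _ _ h16 H13 => ?_) H12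
  refine mulK_s he h16 h4 (fun _ _ _ _ _ h17 H14 => ?_) H13
  refine addcK_s he h17 (v' := (-56659/128000:ℝ)) (by norm_num [SS, BB, abs_le]) (fun _ _ _ _ _ h18 H15 => ?_) H14
  refine mulK_s he hx3 hx2 (fun _ _ _ _ _ h19 H16 => ?_) H15
  have h20 := In_cast (w := (f a s xi p q)) h19 rfl
  refine mulK_s he hx1 h20 (fun _ _ _ _ _ h21 H17 => ?_) H16
  refine sqK_s he h21 (fun _ _ _ _ _ h22 H18 => ?_) H17
  refine smulK_s he (w := (4:ℝ)) (by norm_num) (by norm_num) (by norm_num) (by norm_num) h22 (fun _ _ _ _ _ h23 H19 => ?_) H18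
  have h24 := In_cast (w := (dd a s xi p q)) h23 rfl
  refine smulK_s he (w := (6909/200:ℝ)) (by norm_num) (by norm_num) (by norm_num) (by norm_num) h4 (fun _ _ _ _ _ h25 H20 => ?_) H19
  refine negK_s he h25 (fun _ _ _ _ _ h26 H21 => ?_) H20
  have h27 := In_cast h26 (neg_mul_c (c := (-6909/200:ℝ)) (by norm_num))
  refine addcK_s he h27 (v' := (50169/800:ℝ)) (by norm_num [SS, BB, abs_le]) (fun _ _ _ _ _ h28 H22 => ?_) H21
  refine mulK_s he h28 h4 (fun _ _ _ _ _ h29 H23 => ?_) H22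
  refine addcK_s he h29 (v' := (-44979/1600:ℝ)) (by norm_num [SS, BB, abs_le]) (fun _ _ _ _ _ h30 H24 => ?_) H23
  refine mulK_s he h30 h4 (fun _ _ _ _ _ h31 H25 => ?_) H24
  refine addcK_s he h31 (v' := (-721/3200:ℝ)) (by norm_num [SS, BB, abs_le]) (fun _ _ _ _ _ h32 H26 => ?_) H25
  refine mulK_s he h32 h4 (fun _ _ _ _ _ h33 H27 => ?_) H26
  refine addcK_s he h33 (v' := (23041/32000:ℝ)) (by norm_num [SS, BB, abs_le]) (fun _ _ _ _ _ h34 H28 => ?_) H27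
  refine addcK_s he h7 (v' := (50169/4000:ℝ)) (by norm_num [SS, BB, abs_le]) (fun _ _ _ _ _ h35 H29 => ?_) H28
  refine mulK_s he h35 h4 (fun _ _ _ _ _ h36 H30 => ?_) H29
  refine addcK_s he h36 (v' := (-14993/8000:ℝ)) (by norm_num [SS, BB, abs_le]) (fun _ _ _ _ _ h37 H31 => ?_) H30
  refine smulK_s he (w := (987/2000:ℝ)) (by norm_num) (by norm_num) (by norm_num) (by norm_num) h24 (fun _ _ _ _ _ h38 H32 => ?_) H31
  refine negK_s he h38 (fun _ _ _ _ _ h39 H33 => ?_) H32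
  have h40 := In_cast h39 (neg_mul_c (c := (-987/2000:ℝ)) (by norm_num))
  refine addK_s he h37 h40 (fun _ _ _ _ _ h41 H34 => ?_) H33
  refine mulK_s he h24 h41 (fun _ _ _ _ _ h42 H35 => ?_) H34
  refine addK_s he h34 h42 (fun _ _ _ _ _ h43 H36 => ?_) H35
  refine mulK_s he h24 h43 (fun _ _ _ _ _ h44 H37 => ?_) H36
  refine addK_s he h18 h44 (fun _ _ _ _ _ h45 H38 => ?_) H37
  have h46 := In_cast (w := (uE a s xi p q)) h45 rfl
  refine mulK_s he hx1 h46 (fun _ _ _ _ _ h47 H39 => ?_) H38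
  refine smulK_s he (w := (8:ℝ)) (by norm_num) (by norm_num) (by norm_num) (by norm_num) h47 (fun _ _ _ _ _ h48 H40 => ?_) H39
  refine smulK_s he (w := (3:ℝ)) (by norm_num) (by norm_num) (by norm_num) (by norm_num) hp1 (fun _ _ _ _ _ h49 H41 => ?_) H40
  have h50 := In_cast (w := (gp a s xi p q)) h49 rfl
  refine sqK_s he h50 (fun _ _ _ _ _ h51 H42 => ?_) H41
  refine smulK_s he (w := (99/200:ℝ)) (by norm_num) (by norm_num) (by norm_num) (by norm_num) h51 (fun _ _ _ _ _ h52 H43 => ?_) H42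
  have h53 := In_cast (w := (kaAp a s xi p q)) h52 rfl
  refine smulK_s he (w := (987/1000:ℝ)) (by norm_num) (by norm_num) (by norm_num) (by norm_num) h4 (fun _ _ _ _ _ h54 H44 => ?_) H43
  refine negK_s he h54 (fun _ _ _ _ _ h55 H45 => ?_) H44
  have h56 := In_cast h55 (neg_mul_c (c := (-987/1000:ℝ)) (by norm_num))
  refine addcK_s he h56 (v' := (4077/1000:ℝ)) (by norm_num [SS, BB, abs_le]) (fun _ _ _ _ _ h57 H46 => ?_) H45
  refine mulK_s he h57 h4 (fun _ _ _ _ _ h58 H47 => ?_) H46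
  refine addcK_s he h58 (v' := (-23147/4000:ℝ)) (by norm_num [SS, BB, abs_le]) (fun _ _ _ _ _ h59 H48 => ?_) H47
  refine mulK_s he h59 h4 (fun _ _ _ _ _ h60 H49 => ?_) H48
  refine addcK_s he h60 (v' := (11213/4000:ℝ)) (by norm_num [SS, BB, abs_le]) (fun _ _ _ _ _ h61 H50 => ?_) H49
  refine mulK_s he h61 h4 (fun _ _ _ _ _ h62 H51 => ?_) H50
  refine addcK_s he h62 (v' := (123/3200:ℝ)) (by norm_num [SS, BB, abs_le]) (fun _ _ _ _ _ h63 H52 => ?_) H51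
  refine mulK_s he h63 h4 (fun _ _ _ _ _ h64 H53 => ?_) H52
  refine addcK_s he h64 (v' := (2023/16000:ℝ)) (by norm_num [SS, BB, abs_le]) (fun _ _ _ _ _ h65 H54 => ?_) H53
  refine mulK_s he h65 h4 (fun _ _ _ _ _ h66 H55 => ?_) H54
  refine addcK_s he h66 (v' := (-12141/12800:ℝ)) (by norm_num [SS, BB, abs_le]) (fun _ _ _ _ _ h67 H56 => ?_) H55
  refine mulK_s he h67 h4 (fun _ _ _ _ _ h68 H57 => ?_) H56
  refine addcK_s he h68 (v' := (75807/64000:ℝ)) (by norm_num [SS, BB, abs_le]) (fun _ _ _ _ _ h69 H58 => ?_) H57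
  have h70 := In_cast (w := (uh a s xi p q)) h69 rfl
  refine sqK_s he h20 (fun _ _ _ _ _ h71 H59 => ?_) H58
  refine mulK_s he hx1 h71 (fun _ _ _ _ _ h72 H60 => ?_) H59
  refine smulK_s he (w := (4:ℝ)) (by norm_num) (by norm_num) (by norm_num) (by norm_num) h72 (fun _ _ _ _ _ h73 H61 => ?_) H60
  have h74 := In_cast (w := (af2 a s xi p q)) h73 rfl
  refine mulK_s he h74 h46 (fun _ _ _ _ _ h75 H62 => ?_) H61
  refine addK_s he h70 h75 (fun _ _ _ _ _ h76 H63 => ?_) H62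
  have h77 := In_cast (w := (um a s xi p q)) h76 rfl
  refine mulK_s he h53 h77 (fun _ _ _ _ _ h78 H64 => ?_) H63
  refine subK_s he h48 h78 (fun _ _ _ _ _ h79 H65 => ?_) H64
  refine mulK_s he hx2 h50 (fun _ _ _ _ _ h80 H66 => ?_) H65
  refine smulK_s he (w := (4/3:ℝ)) (by norm_num) (by norm_num) (by norm_num) (by norm_num) h80 (fun _ _ _ _ _ h81 H67 => ?_) H66
  refine mulK_s he h20 h51 (fun _ _ _ _ _ h82 H68 => ?_) H67
  refine smulK_s he (w := (21/200:ℝ)) (by norm_num) (by norm_num) (by norm_num) (by norm_num) h82 (fun _ _ _ _ _ h83 H69 => ?_) H68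
  refine subK_s he h81 h83 (fun _ _ _ _ _ h84 H70 => ?_) H69
  have h85 := In_cast (w := (nuAp a s xi p q)) h84 rfl
  refine smulK_s he (w := (987/250:ℝ)) (by norm_num) (by norm_num) (by norm_num) (by norm_num) h4 (fun _ _ _ _ _ h86 H71 => ?_) H70
  refine negK_s he h86 (fun _ _ _ _ _ h87 H72 => ?_) H71
  have h88 := In_cast h87 (neg_mul_c (c := (-987/250:ℝ)) (by norm_num))
  refine addcK_s he h88 (v' := (50169/4000:ℝ)) (by norm_num [SS, BB, abs_le]) (fun _ _ _ _ _ h89 H73 => ?_) H72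
  refine mulK_s he h89 h4 (fun _ _ _ _ _ h90 H74 => ?_) H73
  refine addcK_s he h90 (v' := (-44979/4000:ℝ)) (by norm_num [SS, BB, abs_le]) (fun _ _ _ _ _ h91 H75 => ?_) H74
  refine mulK_s he h91 h4 (fun _ _ _ _ _ h92 H76 => ?_) H75
  refine addcK_s he h92 (v' := (-721/3200:ℝ)) (by norm_num [SS, BB, abs_le]) (fun _ _ _ _ _ h93 H77 => ?_) H76
  refine mulK_s he h93 h4 (fun _ _ _ _ _ h94 H78 => ?_) H77
  refine addcK_s he h94 (v' := (23041/8000:ℝ)) (by norm_num [SS, BB, abs_le]) (fun _ _ _ _ _ h95 H79 => ?_) H78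
  refine mulK_s he h95 h4 (fun _ _ _ _ _ h96 H80 => ?_) H79
  refine addcK_s he h96 (v' := (13983/64000:ℝ)) (by norm_num [SS, BB, abs_le]) (fun _ _ _ _ _ h97 H81 => ?_) H80
  refine mulK_s he h97 h4 (fun _ _ _ _ _ h98 H82 => ?_) H81
  refine addcK_s he h98 (v' := (-56659/64000:ℝ)) (by norm_num [SS, BB, abs_le]) (fun _ _ _ _ _ h99 H83 => ?_) H82
  refine mulK_s he h99 h4 (fun _ _ _ _ _ h100 H84 => ?_) H83
  refine addcK_s he h100 (v' := (90909/256000:ℝ)) (by norm_num [SS, BB, abs_le]) (fun _ _ _ _ _ h101 H85 => ?_) H84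
  refine smulK_s he (w := (6909/250:ℝ)) (by norm_num) (by norm_num) (by norm_num) (by norm_num) h4 (fun _ _ _ _ _ h102 H86 => ?_) H85
  refine negK_s he h102 (fun _ _ _ _ _ h103 H87 => ?_) H86
  have h104 := In_cast h103 (neg_mul_c (c := (-6909/250:ℝ)) (by norm_num))
  refine addcK_s he h104 (v' := (50169/800:ℝ)) (by norm_num [SS, BB, abs_le]) (fun _ _ _ _ _ h105 H88 => ?_) H87
  refine mulK_s he h105 h4 (fun _ _ _ _ _ h106 H89 => ?_) H88
  refine addcK_s he h106 (v' := (-14993/400:ℝ)) (by norm_num [SS, BB, abs_le]) (fun _ _ _ _ _ h107 H90 => ?_) H89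
  refine mulK_s he h107 h4 (fun _ _ _ _ _ h108 H91 => ?_) H90
  refine addcK_s he h108 (v' := (-721/1600:ℝ)) (by norm_num [SS, BB, abs_le]) (fun _ _ _ _ _ h109 H92 => ?_) H91
  refine mulK_s he h109 h4 (fun _ _ _ _ _ h110 H93 => ?_) H92
  refine addcK_s he h110 (v' := (23041/8000:ℝ)) (by norm_num [SS, BB, abs_le]) (fun _ _ _ _ _ h111 H94 => ?_) H93
  refine mulK_s he h111 h4 (fun _ _ _ _ _ h112 H95 => ?_) H94
  refine addcK_s he h112 (v' := (4661/64000:ℝ)) (by norm_num [SS, BB, abs_le]) (fun _ _ _ _ _ h113 H96 => ?_) H95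
  refine addcK_s he h104 (v' := (150507/4000:ℝ)) (by norm_num [SS, BB, abs_le]) (fun _ _ _ _ _ h114 H97 => ?_) H96
  refine mulK_s he h114 h4 (fun _ _ _ _ _ h115 H98 => ?_) H97
  refine addcK_s he h115 (v' := (-44979/4000:ℝ)) (by norm_num [SS, BB, abs_le]) (fun _ _ _ _ _ h116 H99 => ?_) H98
  refine mulK_s he h116 h4 (fun _ _ _ _ _ h117 H100 => ?_) H99
  refine addcK_s he h117 (v' := (-721/16000:ℝ)) (by norm_num [SS, BB, abs_le]) (fun _ _ _ _ _ h118 H101 => ?_) H100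
  refine addcK_s he h88 (v' := (7167/4000:ℝ)) (by norm_num [SS, BB, abs_le]) (fun _ _ _ _ _ h119 H102 => ?_) H101
  refine mulK_s he h24 h119 (fun _ _ _ _ _ h120 H103 => ?_) H102
  refine addK_s he h118 h120 (fun _ _ _ _ _ h121 H104 => ?_) H103
  refine mulK_s he h24 h121 (fun _ _ _ _ _ h122 H105 => ?_) H104
  refine addK_s he h113 h122 (fun _ _ _ _ _ h123 H106 => ?_) H105
  refine mulK_s he h24 h123 (fun _ _ _ _ _ h124 H107 => ?_) H106
  refine addK_s he h101 h124 (fun _ _ _ _ _ h125 H108 => ?_) H107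
  have h126 := In_cast (w := (uO a s xi p q)) h125 rfl
  refine mulK_s he h85 h126 (fun _ _ _ _ _ h127 H109 => ?_) H108
  refine smulK_s he (w := (2:ℝ)) (by norm_num) (by norm_num) (by norm_num) (by norm_num) h127 (fun _ _ _ _ _ h128 H110 => ?_) H109
  refine subK_s he h79 h128 (fun _ _ _ _ _ h129 H111 => ?_) H110
  refine smulK_s he (w := (2:ℝ)) (by norm_num) (by norm_num) (by norm_num) (by norm_num) h50 (fun _ _ _ _ _ h130 H112 => ?_) H111
  refine addK_s he h129 h130 (fun _ _ _ _ _ h131 H113 => ?_) H112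
  have h132 := In_cast (w := (PA a s xi p q)) h131 rfl
  refine posK_s he h132 (fun p0 H114 => ?_) H113
  refine addcK_s he h7 (v' := (1449/32:ℝ)) (by norm_num [SS, BB, abs_le]) (fun _ _ _ _ _ h133 H115 => ?_) H114
  refine mulK_s he h133 h4 (fun _ _ _ _ _ h134 H116 => ?_) H115
  refine addcK_s he h134 (v' := (-75597/1600:ℝ)) (by norm_num [SS, BB, abs_le]) (fun _ _ _ _ _ h135 H117 => ?_) H116
  refine mulK_s he h135 h4 (fun _ _ _ _ _ h136 H118 => ?_) H117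
  refine addcK_s he h136 (v' := (4157/320:ℝ)) (by norm_num [SS, BB, abs_le]) (fun _ _ _ _ _ h137 H119 => ?_) H118
  refine mulK_s he h137 h4 (fun _ _ _ _ _ h138 H120 => ?_) H119
  refine addcK_s he h138 (v' := (52713/16000:ℝ)) (by norm_num [SS, BB, abs_le]) (fun _ _ _ _ _ h139 H121 => ?_) H120
  refine mulK_s he h139 h4 (fun _ _ _ _ _ h140 H122 => ?_) H121
  refine addcK_s he h140 (v' := (-3651/12800:ℝ)) (by norm_num [SS, BB, abs_le]) (fun _ _ _ _ _ h141 H123 => ?_) H122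
  refine mulK_s he h141 h4 (fun _ _ _ _ _ h142 H124 => ?_) H123
  refine addcK_s he h142 (v' := (-84189/128000:ℝ)) (by norm_num [SS, BB, abs_le]) (fun _ _ _ _ _ h143 H125 => ?_) H124
  refine addcK_s he h27 (v' := (2415/32:ℝ)) (by norm_num [SS, BB, abs_le]) (fun _ _ _ _ _ h144 H126 => ?_) H125
  refine mulK_s he h144 h4 (fun _ _ _ _ _ h145 H127 => ?_) H126
  refine addcK_s he h145 (v' := (-75597/1600:ℝ)) (by norm_num [SS, BB, abs_le]) (fun _ _ _ _ _ h146 H128 => ?_) H127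
  refine mulK_s he h146 h4 (fun _ _ _ _ _ h147 H129 => ?_) H128
  refine addcK_s he h147 (v' := (4157/640:ℝ)) (by norm_num [SS, BB, abs_le]) (fun _ _ _ _ _ h148 H130 => ?_) H129
  refine mulK_s he h148 h4 (fun _ _ _ _ _ h149 H131 => ?_) H130
  refine addcK_s he h149 (v' := (17571/32000:ℝ)) (by norm_num [SS, BB, abs_le]) (fun _ _ _ _ _ h150 H132 => ?_) H131
  refine addcK_s he h7 (v' := (483/32:ℝ)) (by norm_num [SS, BB, abs_le]) (fun _ _ _ _ _ h151 H133 => ?_) H132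
  refine mulK_s he h151 h4 (fun _ _ _ _ _ h152 H134 => ?_) H133
  refine addcK_s he h152 (v' := (-25199/8000:ℝ)) (by norm_num [SS, BB, abs_le]) (fun _ _ _ _ _ h153 H135 => ?_) H134
  refine addK_s he h153 h40 (fun _ _ _ _ _ h154 H136 => ?_) H135
  refine mulK_s he h24 h154 (fun _ _ _ _ _ h155 H137 => ?_) H136
  refine addK_s he h150 h155 (fun _ _ _ _ _ h156 H138 => ?_) H137
  refine mulK_s he h24 h156 (fun _ _ _ _ _ h157 H139 => ?_) H138
  refine addK_s he h143 h157 (fun _ _ _ _ _ h158 H140 => ?_) H139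
  have h159 := In_cast (w := (cE a s xi p q)) h158 rfl
  refine mulK_s he hx1 h159 (fun _ _ _ _ _ h160 H141 => ?_) H140
  refine smulK_s he (w := (8:ℝ)) (by norm_num) (by norm_num) (by norm_num) (by norm_num) h160 (fun _ _ _ _ _ h161 H142 => ?_) H141
  refine smulK_s he (w := (3:ℝ)) (by norm_num) (by norm_num) (by norm_num) (by norm_num) hp2 (fun _ _ _ _ _ h162 H143 => ?_) H142
  have h163 := In_cast (w := (gq a s xi p q)) h162 rfl
  refine sqK_s he h163 (fun _ _ _ _ _ h164 H144 => ?_) H143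
  refine smulK_s he (w := (99/200:ℝ)) (by norm_num) (by norm_num) (by norm_num) (by norm_num) h164 (fun _ _ _ _ _ h165 H145 => ?_) H144
  have h166 := In_cast (w := (kaAq a s xi p q)) h165 rfl
  refine addcK_s he h56 (v' := (2403/500:ℝ)) (by norm_num [SS, BB, abs_le]) (fun _ _ _ _ _ h167 H146 => ?_) H145
  refine mulK_s he h167 h4 (fun _ _ _ _ _ h168 H147 => ?_) H146
  refine addcK_s he h168 (v' := (-34811/4000:ℝ)) (by norm_num [SS, BB, abs_le]) (fun _ _ _ _ _ h169 H148 => ?_) H147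
  refine mulK_s he h169 h4 (fun _ _ _ _ _ h170 H149 => ?_) H148
  refine addcK_s he h170 (v' := (13899/2000:ℝ)) (by norm_num [SS, BB, abs_le]) (fun _ _ _ _ _ h171 H150 => ?_) H149
  refine mulK_s he h171 h4 (fun _ _ _ _ _ h172 H151 => ?_) H150
  refine addcK_s he h172 (v' := (-1521/640:ℝ)) (by norm_num [SS, BB, abs_le]) (fun _ _ _ _ _ h173 H152 => ?_) H151
  refine mulK_s he h173 h4 (fun _ _ _ _ _ h174 H153 => ?_) H152
  refine addcK_s he h174 (v' := (1597/1600:ℝ)) (by norm_num [SS, BB, abs_le]) (fun _ _ _ _ _ h175 H154 => ?_) H153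
  refine mulK_s he h175 h4 (fun _ _ _ _ _ h176 H155 => ?_) H154
  refine addcK_s he h176 (v' := (-116129/64000:ℝ)) (by norm_num [SS, BB, abs_le]) (fun _ _ _ _ _ h177 H156 => ?_) H155
  refine mulK_s he h177 h4 (fun _ _ _ _ _ h178 H157 => ?_) H156
  refine addcK_s he h178 (v' := (9741/6400:ℝ)) (by norm_num [SS, BB, abs_le]) (fun _ _ _ _ _ h179 H158 => ?_) H157
  have h180 := In_cast (w := (ch a s xi p q)) h179 rfl
  refine mulK_s he h74 h159 (fun _ _ _ _ _ h181 H159 => ?_) H158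
  refine addK_s he h180 h181 (fun _ _ _ _ _ h182 H160 => ?_) H159
  have h183 := In_cast (w := (cm a s xi p q)) h182 rfl
  refine mulK_s he h166 h183 (fun _ _ _ _ _ h184 H161 => ?_) H160
  refine subK_s he h161 h184 (fun _ _ _ _ _ h185 H162 => ?_) H161
  refine mulK_s he hx2 h163 (fun _ _ _ _ _ h186 H163 => ?_) H162
  refine smulK_s he (w := (4/3:ℝ)) (by norm_num) (by norm_num) (by norm_num) (by norm_num) h186 (fun _ _ _ _ _ h187 H164 => ?_) H163
  refine mulK_s he h20 h164 (fun _ _ _ _ _ h188 H165 => ?_) H164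
  refine smulK_s he (w := (21/200:ℝ)) (by norm_num) (by norm_num) (by norm_num) (by norm_num) h188 (fun _ _ _ _ _ h189 H166 => ?_) H165
  refine subK_s he h187 h189 (fun _ _ _ _ _ h190 H167 => ?_) H166
  have h191 := In_cast (w := (nuAq a s xi p q)) h190 rfl
  refine addcK_s he h88 (v' := (483/32:ℝ)) (by norm_num [SS, BB, abs_le]) (fun _ _ _ _ _ h192 H168 => ?_) H167
  refine mulK_s he h192 h4 (fun _ _ _ _ _ h193 H169 => ?_) H168
  refine addcK_s he h193 (v' := (-75597/4000:ℝ)) (by norm_num [SS, BB, abs_le]) (fun _ _ _ _ _ h194 H170 => ?_) H169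
  refine mulK_s he h194 h4 (fun _ _ _ _ _ h195 H171 => ?_) H170
  refine addcK_s he h195 (v' := (4157/640:ℝ)) (by norm_num [SS, BB, abs_le]) (fun _ _ _ _ _ h196 H172 => ?_) H171
  refine mulK_s he h196 h4 (fun _ _ _ _ _ h197 H173 => ?_) H172
  refine addcK_s he h197 (v' := (17571/8000:ℝ)) (by norm_num [SS, BB, abs_le]) (fun _ _ _ _ _ h198 H174 => ?_) H173
  refine mulK_s he h198 h4 (fun _ _ _ _ _ h199 H175 => ?_) H174
  refine addcK_s he h199 (v' := (-3651/12800:ℝ)) (by norm_num [SS, BB, abs_le]) (fun _ _ _ _ _ h200 H176 => ?_) H175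
  refine mulK_s he h200 h4 (fun _ _ _ _ _ h201 H177 => ?_) H176
  refine addcK_s he h201 (v' := (-84189/64000:ℝ)) (by norm_num [SS, BB, abs_le]) (fun _ _ _ _ _ h202 H178 => ?_) H177
  refine mulK_s he h202 h4 (fun _ _ _ _ _ h203 H179 => ?_) H178
  refine addcK_s he h203 (v' := (78691/256000:ℝ)) (by norm_num [SS, BB, abs_le]) (fun _ _ _ _ _ h204 H180 => ?_) H179
  refine addcK_s he h104 (v' := (2415/32:ℝ)) (by norm_num [SS, BB, abs_le]) (fun _ _ _ _ _ h205 H181 => ?_) H180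
  refine mulK_s he h205 h4 (fun _ _ _ _ _ h206 H182 => ?_) H181
  refine addcK_s he h206 (v' := (-25199/400:ℝ)) (by norm_num [SS, BB, abs_le]) (fun _ _ _ _ _ h207 H183 => ?_) H182
  refine mulK_s he h207 h4 (fun _ _ _ _ _ h208 H184 => ?_) H183
  refine addcK_s he h208 (v' := (4157/320:ℝ)) (by norm_num [SS, BB, abs_le]) (fun _ _ _ _ _ h209 H185 => ?_) H184
  refine mulK_s he h209 h4 (fun _ _ _ _ _ h210 H186 => ?_) H185
  refine addcK_s he h210 (v' := (17571/8000:ℝ)) (by norm_num [SS, BB, abs_le]) (fun _ _ _ _ _ h211 H187 => ?_) H186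
  refine mulK_s he h211 h4 (fun _ _ _ _ _ h212 H188 => ?_) H187
  refine addcK_s he h212 (v' := (-1217/12800:ℝ)) (by norm_num [SS, BB, abs_le]) (fun _ _ _ _ _ h213 H189 => ?_) H188
  refine addcK_s he h104 (v' := (1449/32:ℝ)) (by norm_num [SS, BB, abs_le]) (fun _ _ _ _ _ h214 H190 => ?_) H189
  refine mulK_s he h214 h4 (fun _ _ _ _ _ h215 H191 => ?_) H190
  refine addcK_s he h215 (v' := (-75597/4000:ℝ)) (by norm_num [SS, BB, abs_le]) (fun _ _ _ _ _ h216 H192 => ?_) H191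
  refine mulK_s he h216 h4 (fun _ _ _ _ _ h217 H193 => ?_) H192
  refine addcK_s he h217 (v' := (4157/3200:ℝ)) (by norm_num [SS, BB, abs_le]) (fun _ _ _ _ _ h218 H194 => ?_) H193
  refine addcK_s he h88 (v' := (69/32:ℝ)) (by norm_num [SS, BB, abs_le]) (fun _ _ _ _ _ h219 H195 => ?_) H194
  refine mulK_s he h24 h219 (fun _ _ _ _ _ h220 H196 => ?_) H195
  refine addK_s he h218 h220 (fun _ _ _ _ _ h221 H197 => ?_) H196
  refine mulK_s he h24 h221 (fun _ _ _ _ _ h222 H198 => ?_) H197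
  refine addK_s he h213 h222 (fun _ _ _ _ _ h223 H199 => ?_) H198
  refine mulK_s he h24 h223 (fun _ _ _ _ _ h224 H200 => ?_) H199
  refine addK_s he h204 h224 (fun _ _ _ _ _ h225 H201 => ?_) H200
  have h226 := In_cast (w := (cO a s xi p q)) h225 rfl
  refine mulK_s he h191 h226 (fun _ _ _ _ _ h227 H202 => ?_) H201
  refine smulK_s he (w := (2:ℝ)) (by norm_num) (by norm_num) (by norm_num) (by norm_num) h227 (fun _ _ _ _ _ h228 H203 => ?_) H202
  refine addK_s he h185 h228 (fun _ _ _ _ _ h229 H204 => ?_) H203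
  refine smulK_s he (w := (2:ℝ)) (by norm_num) (by norm_num) (by norm_num) (by norm_num) h163 (fun _ _ _ _ _ h230 H205 => ?_) H204
  refine addK_s he h229 h230 (fun _ _ _ _ _ h231 H206 => ?_) H205
  have h232 := In_cast (w := (QA a s xi p q)) h231 rfl
  refine posK_s he h232 (fun p1 H207 => ?_) H206
  refine mulK_s he h132 h232 (fun _ _ _ _ _ h233 H208 => ?_) H207
  refine smulK_s he (w := (1666/125:ℝ)) (by norm_num) (by norm_num) (by norm_num) (by norm_num) h4 (fun _ _ _ _ _ h234 H209 => ?_) H208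
  refine addcK_s he h234 (v' := (-4998/125:ℝ)) (by norm_num [SS, BB, abs_le]) (fun _ _ _ _ _ h235 H210 => ?_) H209
  refine mulK_s he h235 h4 (fun _ _ _ _ _ h236 H211 => ?_) H210
  refine addcK_s he h236 (v' := (6801/200:ℝ)) (by norm_num [SS, BB, abs_le]) (fun _ _ _ _ _ h237 H212 => ?_) H211
  refine mulK_s he h237 h4 (fun _ _ _ _ _ h238 H213 => ?_) H212
  refine addcK_s he h238 (v' := (-137/100:ℝ)) (by norm_num [SS, BB, abs_le]) (fun _ _ _ _ _ h239 H214 => ?_) H213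
  refine mulK_s he h239 h4 (fun _ _ _ _ _ h240 H215 => ?_) H214
  refine addcK_s he h240 (v' := (-13293/2000:ℝ)) (by norm_num [SS, BB, abs_le]) (fun _ _ _ _ _ h241 H216 => ?_) H215
  refine mulK_s he h241 h4 (fun _ _ _ _ _ h242 H217 => ?_) H216
  refine addcK_s he h242 (v' := (267/400:ℝ)) (by norm_num [SS, BB, abs_le]) (fun _ _ _ _ _ h243 H218 => ?_) H217
  refine mulK_s he h243 h4 (fun _ _ _ _ _ h244 H219 => ?_) H218
  refine addcK_s he h244 (v' := (317/3200:ℝ)) (by norm_num [SS, BB, abs_le]) (fun _ _ _ _ _ h245 H220 => ?_) H219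
  refine smulK_s he (w := (833/25:ℝ)) (by norm_num) (by norm_num) (by norm_num) (by norm_num) h4 (fun _ _ _ _ _ h246 H221 => ?_) H220
  refine addcK_s he h246 (v' := (-1666/25:ℝ)) (by norm_num [SS, BB, abs_le]) (fun _ _ _ _ _ h247 H222 => ?_) H221
  refine mulK_s he h247 h4 (fun _ _ _ _ _ h248 H223 => ?_) H222
  refine addcK_s he h248 (v' := (6801/200:ℝ)) (by norm_num [SS, BB, abs_le]) (fun _ _ _ _ _ h249 H224 => ?_) H223
  refine mulK_s he h249 h4 (fun _ _ _ _ _ h250 H225 => ?_) H224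
  refine addcK_s he h250 (v' := (-137/200:ℝ)) (by norm_num [SS, BB, abs_le]) (fun _ _ _ _ _ h251 H226 => ?_) H225
  refine mulK_s he h251 h4 (fun _ _ _ _ _ h252 H227 => ?_) H226
  refine addcK_s he h252 (v' := (-4431/4000:ℝ)) (by norm_num [SS, BB, abs_le]) (fun _ _ _ _ _ h253 H228 => ?_) H227
  refine addcK_s he h234 (v' := (-1666/125:ℝ)) (by norm_num [SS, BB, abs_le]) (fun _ _ _ _ _ h254 H229 => ?_) H228
  refine mulK_s he h254 h4 (fun _ _ _ _ _ h255 H230 => ?_) H229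
  refine addcK_s he h255 (v' := (2267/1000:ℝ)) (by norm_num [SS, BB, abs_le]) (fun _ _ _ _ _ h256 H231 => ?_) H230
  refine smulK_s he (w := (119/250:ℝ)) (by norm_num) (by norm_num) (by norm_num) (by norm_num) h24 (fun _ _ _ _ _ h257 H232 => ?_) H231
  refine addK_s he h256 h257 (fun _ _ _ _ _ h258 H233 => ?_) H232
  refine mulK_s he h24 h258 (fun _ _ _ _ _ h259 H234 => ?_) H233
  refine addK_s he h253 h259 (fun _ _ _ _ _ h260 H235 => ?_) H234
  refine mulK_s he h24 h260 (fun _ _ _ _ _ h261 H236 => ?_) H235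
  refine addK_s he h245 h261 (fun _ _ _ _ _ h262 H237 => ?_) H236
  have h263 := In_cast (w := (vE a s xi p q)) h262 rfl
  refine smulK_s he (w := (8:ℝ)) (by norm_num) (by norm_num) (by norm_num) (by norm_num) h263 (fun _ _ _ _ _ h264 H238 => ?_) H237
  refine subK_s he h85 h191 (fun _ _ _ _ _ h265 H239 => ?_) H238
  refine smulK_s he (w := (1/2:ℝ)) (by norm_num) (by norm_num) (by norm_num) (by norm_num) h265 (fun _ _ _ _ _ h266 H240 => ?_) H239
  have h267 := In_cast h266 (div_c (c := (2:ℝ)) (by norm_num))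
  have h268 := In_cast (w := (etAA a s xi p q)) h267 rfl
  refine smulK_s he (w := (952/125:ℝ)) (by norm_num) (by norm_num) (by norm_num) (by norm_num) h4 (fun _ _ _ _ _ h269 H241 => ?_) H240
  refine addcK_s he h269 (v' := (-3808/125:ℝ)) (by norm_num [SS, BB, abs_le]) (fun _ _ _ _ _ h270 H242 => ?_) H241
  refine mulK_s he h270 h4 (fun _ _ _ _ _ h271 H243 => ?_) H242
  refine addcK_s he h271 (v' := (10609/250:ℝ)) (by norm_num [SS, BB, abs_le]) (fun _ _ _ _ _ h272 H244 => ?_) H243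
  refine mulK_s he h272 h4 (fun _ _ _ _ _ h273 H245 => ?_) H244
  refine addcK_s he h273 (v' := (-5647/250:ℝ)) (by norm_num [SS, BB, abs_le]) (fun _ _ _ _ _ h274 H246 => ?_) H245
  refine mulK_s he h274 h4 (fun _ _ _ _ _ h275 H247 => ?_) H246
  refine addcK_s he h275 (v' := (304/125:ℝ)) (by norm_num [SS, BB, abs_le]) (fun _ _ _ _ _ h276 H248 => ?_) H247
  refine mulK_s he h276 h4 (fun _ _ _ _ _ h277 H249 => ?_) H248
  refine addcK_s he h277 (v' := (119/1000:ℝ)) (by norm_num [SS, BB, abs_le]) (fun _ _ _ _ _ h278 H250 => ?_) H249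
  refine mulK_s he h278 h4 (fun _ _ _ _ _ h279 H251 => ?_) H250
  refine addcK_s he h279 (v' := (1347/4000:ℝ)) (by norm_num [SS, BB, abs_le]) (fun _ _ _ _ _ h280 H252 => ?_) H251
  refine smulK_s he (w := (3332/125:ℝ)) (by norm_num) (by norm_num) (by norm_num) (by norm_num) h4 (fun _ _ _ _ _ h281 H253 => ?_) H252
  refine addcK_s he h281 (v' := (-1666/25:ℝ)) (by norm_num [SS, BB, abs_le]) (fun _ _ _ _ _ h282 H254 => ?_) H253
  refine mulK_s he h282 h4 (fun _ _ _ _ _ h283 H255 => ?_) H254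
  refine addcK_s he h283 (v' := (2267/50:ℝ)) (by norm_num [SS, BB, abs_le]) (fun _ _ _ _ _ h284 H256 => ?_) H255
  refine mulK_s he h284 h4 (fun _ _ _ _ _ h285 H257 => ?_) H256
  refine addcK_s he h285 (v' := (-137/100:ℝ)) (by norm_num [SS, BB, abs_le]) (fun _ _ _ _ _ h286 H258 => ?_) H257
  refine mulK_s he h286 h4 (fun _ _ _ _ _ h287 H259 => ?_) H258
  refine addcK_s he h287 (v' := (-4431/1000:ℝ)) (by norm_num [SS, BB, abs_le]) (fun _ _ _ _ _ h288 H260 => ?_) H259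
  refine mulK_s he h288 h4 (fun _ _ _ _ _ h289 H261 => ?_) H260
  refine addcK_s he h289 (v' := (89/400:ℝ)) (by norm_num [SS, BB, abs_le]) (fun _ _ _ _ _ h290 H262 => ?_) H261
  refine addcK_s he h281 (v' := (-4998/125:ℝ)) (by norm_num [SS, BB, abs_le]) (fun _ _ _ _ _ h291 H263 => ?_) H262
  refine mulK_s he h291 h4 (fun _ _ _ _ _ h292 H264 => ?_) H263
  refine addcK_s he h292 (v' := (6801/500:ℝ)) (by norm_num [SS, BB, abs_le]) (fun _ _ _ _ _ h293 H265 => ?_) H264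
  refine mulK_s he h293 h4 (fun _ _ _ _ _ h294 H266 => ?_) H265
  refine addcK_s he h294 (v' := (-137/1000:ℝ)) (by norm_num [SS, BB, abs_le]) (fun _ _ _ _ _ h295 H267 => ?_) H266
  refine smulK_s he (w := (476/125:ℝ)) (by norm_num) (by norm_num) (by norm_num) (by norm_num) h4 (fun _ _ _ _ _ h296 H268 => ?_) H267
  refine addcK_s he h296 (v' := (-238/125:ℝ)) (by norm_num [SS, BB, abs_le]) (fun _ _ _ _ _ h297 H269 => ?_) H268
  refine mulK_s he h24 h297 (fun _ _ _ _ _ h298 H270 => ?_) H269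
  refine addK_s he h295 h298 (fun _ _ _ _ _ h299 H271 => ?_) H270
  refine mulK_s he h24 h299 (fun _ _ _ _ _ h300 H272 => ?_) H271
  refine addK_s he h290 h300 (fun _ _ _ _ _ h301 H273 => ?_) H272
  refine mulK_s he h74 h301 (fun _ _ _ _ _ h302 H274 => ?_) H273
  refine addK_s he h280 h302 (fun _ _ _ _ _ h303 H275 => ?_) H274
  have h304 := In_cast (w := (vO a s xi p q)) h303 rfl
  refine mulK_s he h268 h304 (fun _ _ _ _ _ h305 H276 => ?_) H275
  refine smulK_s he (w := (2:ℝ)) (by norm_num) (by norm_num) (by norm_num) (by norm_num) h305 (fun _ _ _ _ _ h306 H277 => ?_) H276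
  refine subK_s he h264 h306 (fun _ _ _ _ _ h307 H278 => ?_) H277
  refine addK_s he h53 h166 (fun _ _ _ _ _ h308 H279 => ?_) H278
  refine smulK_s he (w := (1/2:ℝ)) (by norm_num) (by norm_num) (by norm_num) (by norm_num) h308 (fun _ _ _ _ _ h309 H280 => ?_) H279
  have h310 := In_cast h309 (div_c (c := (2:ℝ)) (by norm_num))
  have h311 := In_cast (w := (muAA a s xi p q)) h310 rfl
  refine mulK_s he h20 h53 (fun _ _ _ _ _ h312 H281 => ?_) H280
  refine subK_s he h85 h312 (fun _ _ _ _ _ h313 H282 => ?_) H281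
  refine smulK_s he (w := (1/2:ℝ)) (by norm_num) (by norm_num) (by norm_num) (by norm_num) h313 (fun _ _ _ _ _ h314 H283 => ?_) H282
  have h315 := In_cast h314 (div_c (c := (2:ℝ)) (by norm_num))
  have h316 := In_cast (w := (alA a s xi p q)) h315 rfl
  refine mulK_s he h20 h166 (fun _ _ _ _ _ h317 H284 => ?_) H283
  refine addK_s he h191 h317 (fun _ _ _ _ _ h318 H285 => ?_) H284
  refine smulK_s he (w := (1/2:ℝ)) (by norm_num) (by norm_num) (by norm_num) (by norm_num) h318 (fun _ _ _ _ _ h319 H286 => ?_) H285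
  have h320 := In_cast h319 (div_c (c := (2:ℝ)) (by norm_num))
  have h321 := In_cast (w := (bmA a s xi p q)) h320 rfl
  refine mulK_s he h316 h321 (fun _ _ _ _ _ h322 H287 => ?_) H286
  refine addK_s he h311 h322 (fun _ _ _ _ _ h323 H288 => ?_) H287
  have h324 := In_cast (w := (w0AA a s xi p q)) h323 rfl
  refine mulK_s he h20 h324 (fun _ _ _ _ _ h325 H289 => ?_) H288
  refine subK_s he h268 h325 (fun _ _ _ _ _ h326 H290 => ?_) H289
  have h327 := In_cast (w := (y0AA a s xi p q)) h326 rfl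
  refine mulK_s he h20 h327 (fun _ _ _ _ _ h328 H291 => ?_) H290
  refine addcK_s he h328 (v' := (1:ℝ)) (by norm_num [SS, BB, abs_le]) (fun _ _ _ _ _ h329 H292 => ?_) H291
  have h330 := In_cast h329 (add_comm _ _)
  refine sqrtK_s he h330 (fun _ _ _ _ _ h331 H293 => ?_) H292
  have h332 := In_cast (w := (g0AA a s xi p q)) h331 rfl
  refine addcK_s he h332 (v' := (1:ℝ)) (by norm_num [SS, BB, abs_le]) (fun _ _ _ _ _ h333 H294 => ?_) H293
  have h334 := In_cast h333 (add_comm _ _)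
  refine invK_s he h334 (fun _ _ _ _ _ h335 H295 => ?_) H294
  refine mulK_s he h327 h335 (fun _ _ _ _ _ h336 H296 => ?_) H295
  have h337 := In_cast h336 ((div_eq_mul_inv _ _).symm)
  refine sqK_s he h337 (fun _ _ _ _ _ h338 H297 => ?_) H296
  refine addK_s he h324 h338 (fun _ _ _ _ _ h339 H298 => ?_) H297
  refine smulK_s he (w := (238/125:ℝ)) (by norm_num) (by norm_num) (by norm_num) (by norm_num) h4 (fun _ _ _ _ _ h340 H299 => ?_) H298
  refine addcK_s he h340 (v' := (-238/25:ℝ)) (by norm_num [SS, BB, abs_le]) (fun _ _ _ _ _ h341 H300 => ?_) H299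
  refine mulK_s he h341 h4 (fun _ _ _ _ _ h342 H301 => ?_) H300
  refine addcK_s he h342 (v' := (2264/125:ℝ)) (by norm_num [SS, BB, abs_le]) (fun _ _ _ _ _ h343 H302 => ?_) H301
  refine mulK_s he h343 h4 (fun _ _ _ _ _ h344 H303 => ?_) H302
  refine addcK_s he h344 (v' := (-407/25:ℝ)) (by norm_num [SS, BB, abs_le]) (fun _ _ _ _ _ h345 H304 => ?_) H303
  refine mulK_s he h345 h4 (fun _ _ _ _ _ h346 H305 => ?_) H304
  refine addcK_s he h346 (v' := (7321/1000:ℝ)) (by norm_num [SS, BB, abs_le]) (fun _ _ _ _ _ h347 H306 => ?_) H305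
  refine mulK_s he h347 h4 (fun _ _ _ _ _ h348 H307 => ?_) H306
  refine addcK_s he h348 (v' := (-2361/1000:ℝ)) (by norm_num [SS, BB, abs_le]) (fun _ _ _ _ _ h349 H308 => ?_) H307
  refine mulK_s he h349 h4 (fun _ _ _ _ _ h350 H309 => ?_) H308
  refine addcK_s he h350 (v' := (927/1000:ℝ)) (by norm_num [SS, BB, abs_le]) (fun _ _ _ _ _ h351 H310 => ?_) H309
  have h352 := In_cast (w := (vh a s xi p q)) h351 rfl
  refine mulK_s he h71 h263 (fun _ _ _ _ _ h353 H311 => ?_) H310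
  refine smulK_s he (w := (4:ℝ)) (by norm_num) (by norm_num) (by norm_num) (by norm_num) h353 (fun _ _ _ _ _ h354 H312 => ?_) H311
  refine addK_s he h352 h354 (fun _ _ _ _ _ h355 H313 => ?_) H312
  have h356 := In_cast (w := (vm a s xi p q)) h355 rfl
  refine mulK_s he h20 h304 (fun _ _ _ _ _ h357 H314 => ?_) H313
  refine smulK_s he (w := (2:ℝ)) (by norm_num) (by norm_num) (by norm_num) (by norm_num) h357 (fun _ _ _ _ _ h358 H315 => ?_) H314
  refine subK_s he h356 h358 (fun _ _ _ _ _ h359 H316 => ?_) H315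
  have h360 := In_cast (w := (v0 a s xi p q)) h359 rfl
  refine mulK_s he h339 h360 (fun _ _ _ _ _ h361 H317 => ?_) H316
  refine addK_s he h85 h312 (fun _ _ _ _ _ h362 H318 => ?_) H317
  refine smulK_s he (w := (1/2:ℝ)) (by norm_num) (by norm_num) (by norm_num) (by norm_num) h362 (fun _ _ _ _ _ h363 H319 => ?_) H318
  have h364 := In_cast h363 (div_c (c := (2:ℝ)) (by norm_num))
  have h365 := In_cast (w := (beA a s xi p q)) h364 rfl
  refine subK_s he h191 h317 (fun _ _ _ _ _ h366 H320 => ?_) H319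
  refine smulK_s he (w := (1/2:ℝ)) (by norm_num) (by norm_num) (by norm_num) (by norm_num) h366 (fun _ _ _ _ _ h367 H321 => ?_) H320
  have h368 := In_cast h367 (div_c (c := (2:ℝ)) (by norm_num))
  have h369 := In_cast (w := (amA a s xi p q)) h368 rfl
  refine mulK_s he h365 h369 (fun _ _ _ _ _ h370 H322 => ?_) H321
  refine addK_s he h311 h370 (fun _ _ _ _ _ h371 H323 => ?_) H322
  have h372 := In_cast (w := (w1AA a s xi p q)) h371 rfl
  refine negK_s he h268 (fun _ _ _ _ _ h373 H324 => ?_) H323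
  refine mulK_s he h20 h372 (fun _ _ _ _ _ h374 H325 => ?_) H324
  refine subK_s he h373 h374 (fun _ _ _ _ _ h375 H326 => ?_) H325
  have h376 := In_cast (w := (y1AA a s xi p q)) h375 rfl
  refine mulK_s he h20 h376 (fun _ _ _ _ _ h377 H327 => ?_) H326
  refine addcK_s he h377 (v' := (1:ℝ)) (by norm_num [SS, BB, abs_le]) (fun _ _ _ _ _ h378 H328 => ?_) H327
  have h379 := In_cast h378 (add_comm _ _)
  refine sqrtK_s he h379 (fun _ _ _ _ _ h380 H329 => ?_) H328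
  have h381 := In_cast (w := (g1AA a s xi p q)) h380 rfl
  refine addcK_s he h381 (v' := (1:ℝ)) (by norm_num [SS, BB, abs_le]) (fun _ _ _ _ _ h382 H330 => ?_) H329
  have h383 := In_cast h382 (add_comm _ _)
  refine invK_s he h383 (fun _ _ _ _ _ h384 H331 => ?_) H330
  refine mulK_s he h376 h384 (fun _ _ _ _ _ h385 H332 => ?_) H331
  have h386 := In_cast h385 ((div_eq_mul_inv _ _).symm)
  refine sqK_s he h386 (fun _ _ _ _ _ h387 H333 => ?_) H332
  refine addK_s he h372 h387 (fun _ _ _ _ _ h388 H334 => ?_) H333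
  refine addK_s he h356 h358 (fun _ _ _ _ _ h389 H335 => ?_) H334
  have h390 := In_cast (w := (v1 a s xi p q)) h389 rfl
  refine mulK_s he h388 h390 (fun _ _ _ _ _ h391 H336 => ?_) H335
  refine addK_s he h361 h391 (fun _ _ _ _ _ h392 H337 => ?_) H336
  refine smulK_s he (w := (1/2:ℝ)) (by norm_num) (by norm_num) (by norm_num) (by norm_num) h392 (fun _ _ _ _ _ h393 H338 => ?_) H337
  have h394 := In_cast h393 (div_c (c := (2:ℝ)) (by norm_num))
  refine subK_s he h307 h394 (fun _ _ _ _ _ h395 H339 => ?_) H338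
  have h396 := In_cast (w := (ZAA a s xi p q)) h395 rfl
  refine mulK_s he hx1 h396 (fun _ _ _ _ _ h397 H340 => ?_) H339
  refine negK_s he h397 (fun _ _ _ _ _ h398 H341 => ?_) H340
  refine reluK_s he h398 (fun _ _ _ _ _ h399 H342 => ?_) H341
  refine sqK_s he h399 (fun _ _ _ _ _ h400 H343 => ?_) H342
  refine subK_s he h233 h400 (fun _ _ _ _ _ h401 H344 => ?_) H343
  exact ⟨p0, p1, pos_s he h401 H344⟩

attribute [irreducible] alt0

noncomputable def leaf (j u z1 w1 z2 w2 z3 w3 : ℕ) : Bool :=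
  fB (Nat.add (Nat.land (Nat.shiftRight u 0) 65535) 1) fun n1 =>
  fB (Nat.add (Nat.mul n1 16777216) 1152921504606846977) fun p1 =>
  fB (Nat.add (Nat.land (Nat.shiftRight u 16) 65535) 1) fun n2 =>
  fB (Nat.add (Nat.mul n2 16777216) 1152921504606846977) fun p2 =>
  alt0 p1 p2 z1 w1 z2 w2 z3 w3

theorem snd : Snd Q leaf := by
  intro j u z1 w1 z2 w2 z3 w3 e1 e2 e3 he H
  unfold leaf at H
  unfold Q
  replace H := frc H
  obtain ⟨n1, hn1, H⟩ := H
  replace H := frc H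
  obtain ⟨p1, hp1, H⟩ := H
  obtain ⟨hp1, ha, hb⟩ := par (e1 := e1) (e2 := e2) (e3 := e3) hn1 hp1
  refine ⟨_, ha, hb, ?_⟩
  replace H := frc H
  obtain ⟨n2, hn2, H⟩ := H
  replace H := frc H
  obtain ⟨p2, hp2, H⟩ := H
  obtain ⟨hp2, ha, hb⟩ := par (e1 := e1) (e2 := e2) (e3 := e3) hn2 hp2
  refine ⟨_, ha, hb, ?_⟩
  exact alt0_s he hp1 hp2 (var1 z1 w1) (var2 z2 w2) (var3 z3 w3) H

end Crest.Agent.R307.HL2I
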