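import Crest.Agent.R307.HL2I
set_option autoImplicit false
set_option maxRecDepth 100000
namespace Crest.Agent.R307.HL2I
open Crest.Agent.R307.IA Crest.Agent.R307.IA3

theorem k0 : Cov Q 1152921504606846976 1152922054362660864 1152921691523823697 1152921834460335309 1152921504606846976 1152921779484753920 :=
  cov_of snd 32 4294967295 7 _ _ _ _ _ _ 0x972b91183972b911830922681b13922681b13008dd074bb38dd074bb308a50681e38a50681e300087bc6070387bc60703082b05592382b055923008565640d38565640d300074006e7f374006e7f30520f419c3520f419c3004c48366a34c48466a304cbb3cc734cbb3cc7304b9b338734b9b3387300045dd270e345dd270e30489d3c2e3489d3c2e30049773a67349773a67304e26327734e2632773000000 (by decide +kernel)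

end Crest.Agent.R307.HL2I
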