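import Crest.Agent.R307.IA3
import Crest.Agent.R307.IAx
set_option autoImplicit false
set_option linter.unusedVariables false
set_option maxRecDepth 20000
namespace Crest.Agent.R307.HL2J
open Crest.Agent.R307.IA Crest.Agent.R307.IA3

theorem In_cast {e1 e2 e3 : ℝ} {x y1 y2 y3 r : ℕ} {v w : ℝ}
    (h : In e1 e2 e3 x y1 y2 y3 r v) (e : v = w) : In e1 e2 e3 x y1 y2 y3 r w := e ▸ h

noncomputable def s (a f z p q : ℝ) : ℝ := (z * f)
noncomputable def hp (a f z p q : ℝ) : ℝ := ((3/2:ℝ) * p)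
noncomputable def tBp (a f z p q : ℝ) : ℝ := ((hp a f z p q) * f)
noncomputable def hq (a f z p q : ℝ) : ℝ := ((3/2:ℝ) * q)
noncomputable def tBq (a f z p q : ℝ) : ℝ := ((hq a f z p q) * f)
noncomputable def x (a f z p q : ℝ) : ℝ := (((2:ℝ) * a) - (1/2:ℝ))
noncomputable def dd (a f z p q : ℝ) : ℝ := ((4:ℝ) * ((a * f) ^ 2))
noncomputable def uE (a f z p q : ℝ) : ℝ := ((((((((((((((-6909/500:ℝ) * (x a f z p q)) + (150507/4000:ℝ)) * (x a f z p q)) + (-44979/1600:ℝ)) * (x a f z p q)) + (-721/1600:ℝ)) * (x a f z p q)) + (69123/16000:ℝ)) * (x a f z p q)) + (13983/64000:ℝ)) * (x a f z p q)) + (-56659/128000:ℝ)) + ((dd a f z p q) * ((((((((((-6909/200:ℝ) * (x a f z p q)) + (50169/800:ℝ)) * (x a f z p q)) + (-44979/1600:ℝ)) * (x a f z p q)) + (-721/3200:ℝ)) * (x a f z p q)) + (23041/32000:ℝ)) + ((dd a f z p q) * ((((((-6909/500:ℝ) * (x a f z p q)) + (50169/4000:ℝ)) * (x a f z p q)) + (-14993/8000:ℝ)) + ((-987/2000:ℝ)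 * (dd a f z p q)))))))
noncomputable def Sp (a f z p q : ℝ) : ℝ := (((2:ℝ) * (hp a f z p q)) / ((1:ℝ) + ((tBp a f z p q) ^ 2)))
noncomputable def Cp (a f z p q : ℝ) : ℝ := ((hp a f z p q) * (Sp a f z p q))
noncomputable def kaBp (a f z p q : ℝ) : ℝ := ((Cp a f z p q) - ((1/50:ℝ) * (z * (Sp a f z p q))))
noncomputable def uh (a f z p q : ℝ) : ℝ := (((((((((((((((-987/1000:ℝ) * (x a f z p q)) + (4077/1000:ℝ)) * (x a f z p q)) + (-23147/4000:ℝ)) * (x a f z p q)) + (11213/4000:ℝ)) * (x a f z p q)) + (123/3200:ℝ)) * (x a f z p q)) + (2023/16000:ℝ)) * (x a f z p q)) + (-12141/12800:ℝ)) * (x a f z p q)) + (75807/64000:ℝ))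
noncomputable def af2 (a f z p q : ℝ) : ℝ := ((4:ℝ) * (a * (f ^ 2)))
noncomputable def um (a f z p q : ℝ) : ℝ := ((uh a f z p q) + ((af2 a f z p q) * (uE a f z p q)))
noncomputable def nuBp (a f z p q : ℝ) : ℝ := (((f * (Cp a f z p q)) * ((1:ℝ) - ((s a f z p q) / (2:ℝ)))) + ((s a f z p q) * (((6/25:ℝ) * z) + ((29/50:ℝ) * (Sp a f z p q)))))
noncomputable def uO (a f z p q : ℝ) : ℝ := ((((((((((((((((-987/250:ℝ) * (x a f z p q)) + (50169/4000:ℝ)) * (x a f z p q)) + (-44979/4000:ℝ)) * (x a f z p q)) + (-721/3200:ℝ)) * (x a f z p q)) + (23041/8000:ℝ)) * (x a f z p q)) + (13983/64000:ℝ)) * (x a f z p q)) + (-56659/64000:ℝ)) * (x a f z p q)) + (90909/256000:ℝ)) + ((dd a f z p q) * ((((((((((((-6909/250:ℝ) * (x a f z p q)) + (50169/800:ℝ)) * (x a f z p q)) + (-14993/400:ℝ)) * (x a f z p q)) + (-721/1600:ℝ)) * (x a f z p q)) + (23041/8000:ℝ)) * (x a f z p q)) + (4661/64000:ℝ)) + ((dd a f z p q) * ((((((((-6909/250:ℝ)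 * (x a f z p q)) + (150507/4000:ℝ)) * (x a f z p q)) + (-44979/4000:ℝ)) * (x a f z p q)) + (-721/16000:ℝ)) + ((dd a f z p q) * (((-987/250:ℝ) * (x a f z p q)) + (7167/4000:ℝ))))))))
noncomputable def laBp (a f z p q : ℝ) : ℝ := (((499/500:ℝ) - ((3/500:ℝ) * (s a f z p q))) * (Sp a f z p q))
noncomputable def PB (a f z p q : ℝ) : ℝ := (((((8:ℝ) * (a * (uE a f z p q))) - ((kaBp a f z p q) * (um a f z p q))) - ((2:ℝ) * ((nuBp a f z p q) * (uO a f z p q)))) + ((2:ℝ) * (laBp a f z p q)))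
noncomputable def cE (a f z p q : ℝ) : ℝ := ((((((((((((((-6909/500:ℝ) * (x a f z p q)) + (1449/32:ℝ)) * (x a f z p q)) + (-75597/1600:ℝ)) * (x a f z p q)) + (4157/320:ℝ)) * (x a f z p q)) + (52713/16000:ℝ)) * (x a f z p q)) + (-3651/12800:ℝ)) * (x a f z p q)) + (-84189/128000:ℝ)) + ((dd a f z p q) * ((((((((((-6909/200:ℝ) * (x a f z p q)) + (2415/32:ℝ)) * (x a f z p q)) + (-75597/1600:ℝ)) * (x a f z p q)) + (4157/640:ℝ)) * (x a f z p q)) + (17571/32000:ℝ)) + ((dd a f z p q) * ((((((-6909/500:ℝ) * (x a f z p q)) + (483/32:ℝ)) * (x a f z p q)) + (-25199/8000:ℝ)) + ((-987/2000:ℝ) * (dd a f z p q)))))))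
noncomputable def Sq (a f z p q : ℝ) : ℝ := (((2:ℝ) * (hq a f z p q)) / ((1:ℝ) + ((tBq a f z p q) ^ 2)))
noncomputable def Cq (a f z p q : ℝ) : ℝ := ((hq a f z p q) * (Sq a f z p q))
noncomputable def kaBq (a f z p q : ℝ) : ℝ := ((Cq a f z p q) - ((1/50:ℝ) * (z * (Sq a f z p q))))
noncomputable def ch (a f z p q : ℝ) : ℝ := (((((((((((((((-987/1000:ℝ) * (x a f z p q)) + (2403/500:ℝ)) * (x a f z p q)) + (-34811/4000:ℝ)) * (x a f z p q)) + (13899/2000:ℝ)) * (x a f z p q)) + (-1521/640:ℝ)) * (x a f z p q)) + (1597/1600:ℝ)) * (x a f z p q)) + (-116129/64000:ℝ)) * (x a f z p q)) + (9741/6400:ℝ))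
noncomputable def cm (a f z p q : ℝ) : ℝ := ((ch a f z p q) + ((af2 a f z p q) * (cE a f z p q)))
noncomputable def nuBq (a f z p q : ℝ) : ℝ := (((f * (Cq a f z p q)) * ((1:ℝ) - ((s a f z p q) / (2:ℝ)))) + ((s a f z p q) * (((6/25:ℝ) * z) + ((29/50:ℝ) * (Sq a f z p q)))))
noncomputable def cO (a f z p q : ℝ) : ℝ := ((((((((((((((((-987/250:ℝ) * (x a f z p q)) + (483/32:ℝ)) * (x a f z p q)) + (-75597/4000:ℝ)) * (x a f z p q)) + (4157/640:ℝ)) * (x a f z p q)) + (17571/8000:ℝ)) * (x a f z p q)) + (-3651/12800:ℝ)) * (x a f z p q)) + (-84189/64000:ℝ)) * (x a f z p q)) + (78691/256000:ℝ)) + ((dd a f z p q) * ((((((((((((-6909/250:ℝ) * (x a f z p q)) + (2415/32:ℝ)) * (x a f z p q)) + (-25199/400:ℝ)) * (x a f z p q)) + (4157/320:ℝ)) * (x a f z p q)) + (17571/8000:ℝ)) * (x a f z p q)) + (-1217/12800:ℝ)) + ((dd a f z p q) * ((((((((-6909/250:ℝ) * (x a f z p q)) + (1449/32:ℝ)) * (x a f z p q)) + (-75597/4000:ℝ)) * (x a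 f z p q)) + (4157/3200:ℝ)) + ((dd a f z p q) * (((-987/250:ℝ) * (x a f z p q)) + (69/32:ℝ))))))))
noncomputable def laBq (a f z p q : ℝ) : ℝ := (((499/500:ℝ) - ((3/500:ℝ) * (s a f z p q))) * (Sq a f z p q))
noncomputable def QB (a f z p q : ℝ) : ℝ := (((((8:ℝ) * (a * (cE a f z p q))) - ((kaBq a f z p q) * (cm a f z p q))) + ((2:ℝ) * ((nuBq a f z p q) * (cO a f z p q)))) + ((2:ℝ) * (laBq a f z p q)))
noncomputable def vE (a f z p q : ℝ) : ℝ := ((((((((((((((1666/125:ℝ) * (x a f z p q)) + (-4998/125:ℝ)) * (x a f z p q)) + (6801/200:ℝ)) * (x a f z p q)) + (-137/100:ℝ)) * (x a f z p q)) + (-13293/2000:ℝ)) * (x a f z p q)) + (267/400:ℝ)) * (x a f z p q)) + (317/3200:ℝ)) + ((dd a f z p q) * ((((((((((833/25:ℝ) * (x a f z p q)) + (-1666/25:ℝ)) * (x a f z p q)) + (6801/200:ℝ)) * (x a f z p q)) + (-137/200:ℝ)) * (x a f z p q)) + (-4431/4000:ℝ)) + ((dd a f z p q) * ((((((1666/125:ℝ) * (x a f z p q)) + (-1666/125:ℝ)) *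 (x a f z p q)) + (2267/1000:ℝ)) + ((119/250:ℝ) * (dd a f z p q)))))))
noncomputable def etBB (a f z p q : ℝ) : ℝ := (((nuBp a f z p q) - (nuBq a f z p q)) / (2:ℝ))
noncomputable def vO (a f z p q : ℝ) : ℝ := ((((((((((((((952/125:ℝ) * (x a f z p q)) + (-3808/125:ℝ)) * (x a f z p q)) + (10609/250:ℝ)) * (x a f z p q)) + (-5647/250:ℝ)) * (x a f z p q)) + (304/125:ℝ)) * (x a f z p q)) + (119/1000:ℝ)) * (x a f z p q)) + (1347/4000:ℝ)) + ((af2 a f z p q) * ((((((((((((3332/125:ℝ) * (x a f z p q)) + (-1666/25:ℝ)) * (x a f z p q)) + (2267/50:ℝ)) * (x a f z p q)) + (-137/100:ℝ)) * (x a f z p q)) + (-4431/1000:ℝ)) * (x a f z p q)) + (89/400:ℝ)) + ((dd a f z p q) * ((((((((3332/125:ℝ) * (x a f z p q)) + (-4998/125:ℝ)) * (x a f z p q)) + (6801/500:ℝ)) * (x a f z p q)) + (-137/1000:ℝ)) + ((dd a f z p q) * (((476/125:ℝ) * (x a f z p q)) + (-238/125:ℝ))))))))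
noncomputable def muBB (a f z p q : ℝ) : ℝ := (((kaBp a f z p q) + (kaBq a f z p q)) / (2:ℝ))
noncomputable def alB (a f z p q : ℝ) : ℝ := (((nuBp a f z p q) - (f * (kaBp a f z p q))) / (2:ℝ))
noncomputable def bmB (a f z p q : ℝ) : ℝ := (((nuBq a f z p q) + (f * (kaBq a f z p q))) / (2:ℝ))
noncomputable def w0BB (a f z p q : ℝ) : ℝ := ((muBB a f z p q) + ((alB a f z p q) * (bmB a f z p q)))
noncomputable def y0BB (a f z p q : ℝ) : ℝ := ((etBB a f z p q) - (f * (w0BB a f z p q)))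
noncomputable def g0BB (a f z p q : ℝ) : ℝ := (√((1:ℝ) + (f * (y0BB a f z p q))))
noncomputable def vh (a f z p q : ℝ) : ℝ := (((((((((((((238/125:ℝ) * (x a f z p q)) + (-238/25:ℝ)) * (x a f z p q)) + (2264/125:ℝ)) * (x a f z p q)) + (-407/25:ℝ)) * (x a f z p q)) + (7321/1000:ℝ)) * (x a f z p q)) + (-2361/1000:ℝ)) * (x a f z p q)) + (927/1000:ℝ))
noncomputable def vm (a f z p q : ℝ) : ℝ := ((vh a f z p q) + ((4:ℝ) * ((f ^ 2) * (vE a f z p q))))
noncomputable def v0 (a f z p q : ℝ) : ℝ := ((vm a f z p q) - ((2:ℝ) * (f * (vO a f z p q))))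
noncomputable def beB (a f z p q : ℝ) : ℝ := (((nuBp a f z p q) + (f * (kaBp a f z p q))) / (2:ℝ))
noncomputable def amB (a f z p q : ℝ) : ℝ := (((nuBq a f z p q) - (f * (kaBq a f z p q))) / (2:ℝ))
noncomputable def w1BB (a f z p q : ℝ) : ℝ := ((muBB a f z p q) + ((beB a f z p q) * (amB a f z p q)))
noncomputable def y1BB (a f z p q : ℝ) : ℝ := ((-(etBB a f z p q)) - (f * (w1BB a f z p q)))
noncomputable def g1BB (a f z p q : ℝ) : ℝ := (√((1:ℝ) + (f * (y1BB a f z p q))))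
noncomputable def v1 (a f z p q : ℝ) : ℝ := ((vm a f z p q) + ((2:ℝ) * (f * (vO a f z p q))))
noncomputable def ZBB (a f z p q : ℝ) : ℝ := ((((8:ℝ) * (vE a f z p q)) - ((2:ℝ) * ((etBB a f z p q) * (vO a f z p q)))) - (((((w0BB a f z p q) + (((y0BB a f z p q) / ((1:ℝ) + (g0BB a f z p q))) ^ 2)) * (v0 a f z p q)) + (((w1BB a f z p q) + (((y1BB a f z p q) / ((1:ℝ) + (g1BB a f z p q))) ^ 2)) * (v1 a f z p q))) / (2:ℝ)))
noncomputable def gp (a f z p q : ℝ) : ℝ := ((3:ℝ) * p)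
noncomputable def gq (a f z p q : ℝ) : ℝ := ((3:ℝ) * q)
noncomputable def kaAp (a f z p q : ℝ) : ℝ := ((99/200:ℝ) * ((gp a f z p q) ^ 2))
noncomputable def nuAp (a f z p q : ℝ) : ℝ := (((4/3:ℝ) * ((s a f z p q) * (gp a f z p q))) - ((21/200:ℝ) * (f * ((gp a f z p q) ^ 2))))
noncomputable def PA (a f z p q : ℝ) : ℝ := (((((8:ℝ) * (a * (uE a f z p q))) - ((kaAp a f z p q) * (um a f z p q))) - ((2:ℝ) * ((nuAp a f z p q) * (uO a f z p q)))) + ((2:ℝ) * (gp a f z p q)))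
noncomputable def kaAq (a f z p q : ℝ) : ℝ := ((99/200:ℝ) * ((gq a f z p q) ^ 2))
noncomputable def nuAq (a f z p q : ℝ) : ℝ := (((4/3:ℝ) * ((s a f z p q) * (gq a f z p q))) - ((21/200:ℝ) * (f * ((gq a f z p q) ^ 2))))
noncomputable def QA (a f z p q : ℝ) : ℝ := (((((8:ℝ) * (a * (cE a f z p q))) - ((kaAq a f z p q) * (cm a f z p q))) + ((2:ℝ) * ((nuAq a f z p q) * (cO a f z p q)))) + ((2:ℝ) * (gq a f z p q)))
noncomputable def etAA (a f z p q : ℝ) : ℝ := (((nuAp a f z p q) - (nuAq a f z p q)) / (2:ℝ))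
noncomputable def muAA (a f z p q : ℝ) : ℝ := (((kaAp a f z p q) + (kaAq a f z p q)) / (2:ℝ))
noncomputable def alA (a f z p q : ℝ) : ℝ := (((nuAp a f z p q) - (f * (kaAp a f z p q))) / (2:ℝ))
noncomputable def bmA (a f z p q : ℝ) : ℝ := (((nuAq a f z p q) + (f * (kaAq a f z p q))) / (2:ℝ))
noncomputable def w0AA (a f z p q : ℝ) : ℝ := ((muAA a f z p q) + ((alA a f z p q) * (bmA a f z p q)))
noncomputable def y0AA (a f z p q : ℝ) : ℝ := ((etAA a f z p q) - (f * (w0AA a f z p q)))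
noncomputable def g0AA (a f z p q : ℝ) : ℝ := (√((1:ℝ) + (f * (y0AA a f z p q))))
noncomputable def beA (a f z p q : ℝ) : ℝ := (((nuAp a f z p q) + (f * (kaAp a f z p q))) / (2:ℝ))
noncomputable def amA (a f z p q : ℝ) : ℝ := (((nuAq a f z p q) - (f * (kaAq a f z p q))) / (2:ℝ))
noncomputable def w1AA (a f z p q : ℝ) : ℝ := ((muAA a f z p q) + ((beA a f z p q) * (amA a f z p q)))
noncomputable def y1AA (a f z p q : ℝ) : ℝ := ((-(etAA a f z p q)) - (f * (w1AA a f z p q)))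
noncomputable def g1AA (a f z p q : ℝ) : ℝ := (√((1:ℝ) + (f * (y1AA a f z p q))))
noncomputable def ZAA (a f z p q : ℝ) : ℝ := ((((8:ℝ) * (vE a f z p q)) - ((2:ℝ) * ((etAA a f z p q) * (vO a f z p q)))) - (((((w0AA a f z p q) + (((y0AA a f z p q) / ((1:ℝ) + (g0AA a f z p q))) ^ 2)) * (v0 a f z p q)) + (((w1AA a f z p q) + (((y1AA a f z p q) / ((1:ℝ) + (g1AA a f z p q))) ^ 2)) * (v1 a f z p q))) / (2:ℝ)))
noncomputable def etAB (a f z p q : ℝ) : ℝ := (((nuAp a f z p q) - (nuBq a f z p q)) / (2:ℝ))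
noncomputable def muAB (a f z p q : ℝ) : ℝ := (((kaAp a f z p q) + (kaBq a f z p q)) / (2:ℝ))
noncomputable def w0AB (a f z p q : ℝ) : ℝ := ((muAB a f z p q) + ((alA a f z p q) * (bmB a f z p q)))
noncomputable def y0AB (a f z p q : ℝ) : ℝ := ((etAB a f z p q) - (f * (w0AB a f z p q)))
noncomputable def g0AB (a f z p q : ℝ) : ℝ := (√((1:ℝ) + (f * (y0AB a f z p q))))
noncomputable def w1AB (a f z p q : ℝ) : ℝ := ((muAB a f z p q) + ((beA a f z p q) * (amB a f z p q)))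
noncomputable def y1AB (a f z p q : ℝ) : ℝ := ((-(etAB a f z p q)) - (f * (w1AB a f z p q)))
noncomputable def g1AB (a f z p q : ℝ) : ℝ := (√((1:ℝ) + (f * (y1AB a f z p q))))
noncomputable def ZAB (a f z p q : ℝ) : ℝ := ((((8:ℝ) * (vE a f z p q)) - ((2:ℝ) * ((etAB a f z p q) * (vO a f z p q)))) - (((((w0AB a f z p q) + (((y0AB a f z p q) / ((1:ℝ) + (g0AB a f z p q))) ^ 2)) * (v0 a f z p q)) + (((w1AB a f z p q) + (((y1AB a f z p q) / ((1:ℝ) + (g1AB a f z p q))) ^ 2)) * (v1 a f z p q))) / (2:ℝ)))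
noncomputable def etBA (a f z p q : ℝ) : ℝ := (((nuBp a f z p q) - (nuAq a f z p q)) / (2:ℝ))
noncomputable def muBA (a f z p q : ℝ) : ℝ := (((kaBp a f z p q) + (kaAq a f z p q)) / (2:ℝ))
noncomputable def w0BA (a f z p q : ℝ) : ℝ := ((muBA a f z p q) + ((alB a f z p q) * (bmA a f z p q)))
noncomputable def y0BA (a f z p q : ℝ) : ℝ := ((etBA a f z p q) - (f * (w0BA a f z p q)))
noncomputable def g0BA (a f z p q : ℝ) : ℝ := (√((1:ℝ) + (f * (y0BA a f z p q))))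
noncomputable def w1BA (a f z p q : ℝ) : ℝ := ((muBA a f z p q) + ((beB a f z p q) * (amA a f z p q)))
noncomputable def y1BA (a f z p q : ℝ) : ℝ := ((-(etBA a f z p q)) - (f * (w1BA a f z p q)))
noncomputable def g1BA (a f z p q : ℝ) : ℝ := (√((1:ℝ) + (f * (y1BA a f z p q))))
noncomputable def ZBA (a f z p q : ℝ) : ℝ := ((((8:ℝ) * (vE a f z p q)) - ((2:ℝ) * ((etBA a f z p q) * (vO a f z p q)))) - (((((w0BA a f z p q) + (((y0BA a f z p q) / ((1:ℝ) + (g0BA a f z p q))) ^ 2)) * (v0 a f z p q)) + (((w1BA a f z p q) + (((y1BA a f z p q) / ((1:ℝ) + (g1BA a f z p q))) ^ 2)) * (v1 a f z p q))) / (2:ℝ)))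

def Q (a f z : ℝ) : Prop :=
  ∃ p : ℝ, 0 ≤ p ∧ p ≤ 1 ∧ ∃ q : ℝ, 0 ≤ q ∧ q ≤ 1 ∧ (
  (0 < ((100:ℝ) * ((s a f z p q) - (3/10:ℝ)))) ∨
  (0 < ((100:ℝ) * ((17/100:ℝ) - (s a f z p q)))) ∨
  (0 < ((hp a f z p q) - ((3/10:ℝ) * z)) ∧ 0 < ((11/20:ℝ) - (tBp a f z p q)) ∧ 0 < ((hq a f z p q) - ((3/10:ℝ) * z)) ∧ 0 < ((11/20:ℝ) - (tBq a f z p q)) ∧ 0 < (PB a f z p q) ∧ 0 < (QB a f z p q) ∧ 0 < (((PB a f z p q) * (QB a f z p q)) - ((max (-(a * (ZBB a f z p q))) (0:ℝ)) ^ 2))) ∨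
  (0 < (((3/4:ℝ) * z) - (gp a f z p q)) ∧ 0 < (((3/4:ℝ) * z) - (gq a f z p q)) ∧ 0 < (PA a f z p q) ∧ 0 < (QA a f z p q) ∧ 0 < (((PA a f z p q) * (QA a f z p q)) - ((max (-(a * (ZAA a f z p q))) (0:ℝ)) ^ 2))) ∨
  (0 < (((3/4:ℝ) * z) - (gp a f z p q)) ∧ 0 < ((hq a f z p q) - ((3/10:ℝ) * z)) ∧ 0 < ((11/20:ℝ) - (tBq a f z p q)) ∧ 0 < (PA a f z p q) ∧ 0 < (QB a f z p q) ∧ 0 < (((PA a f z p q) * (QB a f z p q)) - ((max (-(a * (ZAB a f z p q))) (0:ℝ)) ^ 2))) ∨
  (0 < ((hp a f z p q) - ((3/10:ℝ) * z)) ∧ 0 < ((11/20:ℝ) - (tBp a f z p q)) ∧ 0 < (((3/4:ℝ) * z) - (gq a f z p q)) ∧ 0 < (PB a f z p q) ∧ 0 < (QA a f z p q) ∧ 0 < (((PB a f z p q) * (QA a f z p q)) - ((max (-(a * (ZBA a f z p q))) (0:ℝ)) ^ 2))))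

noncomputable def alt0 (p1 p2 z1 w1 z2 w2 z3 w3 : ℕ) : Bool :=
  mulK z3 1152921504606846976 1152921504606846976 (Nat.add w3 1152921504606846976) 0 z2 1152921504606846976 (Nat.add w2 1152921504606846976) 1152921504606846976 0 fun c1 a1_1 a1_2 a1_3 q1 =>
  addcK c1 a1_1 a1_2 a1_3 q1 1152921174753358643 1 fun c3 a3_1 a3_2 a3_3 q3 =>
  smulK 100 1 1152921504606846977 115292150460684697600 c3 a3_1 a3_2 a3_3 q3 fun c5 a5_1 a5_2 a5_3 q5 =>
  pos c5 a5_1 a5_2 a5_3 q5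

theorem alt0_s {p1 p2 z1 w1 z2 w2 z3 w3 : ℕ} {e1 e2 e3 a f z p q : ℝ} (he : Ev e1 e2 e3)
    (hp1 : In e1 e2 e3 p1 1152921504606846976 1152921504606846976 1152921504606846976 0 p)
    (hp2 : In e1 e2 e3 p2 1152921504606846976 1152921504606846976 1152921504606846976 0 q)
    (hx1 : In e1 e2 e3 z1 (Nat.add w1 1152921504606846976) 1152921504606846976 1152921504606846976 0 a)
    (hx2 : In e1 e2 e3 z2 1152921504606846976 (Nat.add w2 1152921504606846976) 1152921504606846976 0 f)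
    (hx3 : In e1 e2 e3 z3 1152921504606846976 1152921504606846976 (Nat.add w3 1152921504606846976) 0 z)
    (H0 : alt0 p1 p2 z1 w1 z2 w2 z3 w3 = true) : 0 < ((100:ℝ) * ((s a f z p q) - (3/10:ℝ))) := by
  unfold alt0 at H0
  refine mulK_s he hx3 hx2 (fun _ _ _ _ _ h1 H1 => ?_) H0
  have h2 := In_cast (w := (s a f z p q)) h1 rfl
  refine addcK_s he h2 (v' := (-3/10:ℝ)) (by norm_num [SS, BB, abs_le]) (fun _ _ _ _ _ h3 H2 => ?_) H1
  have h4 := In_cast h3 (sub_c (c := (3/10:ℝ)) (by norm_num))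
  refine smulK_s he (w := (100:ℝ)) (by norm_num) (by norm_num) (by norm_num) (by norm_num) h4 (fun _ _ _ _ _ h5 H3 => ?_) H2
  exact pos_s he h5 H3

noncomputable def alt1 (p1 p2 z1 w1 z2 w2 z3 w3 : ℕ) : Bool :=
  mulK z3 1152921504606846976 1152921504606846976 (Nat.add w3 1152921504606846976) 0 z2 1152921504606846976 (Nat.add w2 1152921504606846976) 1152921504606846976 0 fun c1 a1_1 a1_2 a1_3 q1 =>
  negK c1 a1_1 a1_2 a1_3 q1 fun c3 a3_1 a3_2 a3_3 q3 =>
  addcK c3 a3_1 a3_2 a3_3 q3 1152921691523823698 1 fun c4 a4_1 a4_2 a4_3 q4 =>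
  smulK 100 1 1152921504606846977 115292150460684697600 c4 a4_1 a4_2 a4_3 q4 fun c6 a6_1 a6_2 a6_3 q6 =>
  pos c6 a6_1 a6_2 a6_3 q6

theorem alt1_s {p1 p2 z1 w1 z2 w2 z3 w3 : ℕ} {e1 e2 e3 a f z p q : ℝ} (he : Ev e1 e2 e3)
    (hp1 : In e1 e2 e3 p1 1152921504606846976 1152921504606846976 1152921504606846976 0 p)
    (hp2 : In e1 e2 e3 p2 1152921504606846976 1152921504606846976 1152921504606846976 0 q)
    (hx1 : In e1 e2 e3 z1 (Nat.add w1 1152921504606846976) 1152921504606846976 1152921504606846976 0 a)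
    (hx2 : In e1 e2 e3 z2 1152921504606846976 (Nat.add w2 1152921504606846976) 1152921504606846976 0 f)
    (hx3 : In e1 e2 e3 z3 1152921504606846976 1152921504606846976 (Nat.add w3 1152921504606846976) 0 z)
    (H0 : alt1 p1 p2 z1 w1 z2 w2 z3 w3 = true) : 0 < ((100:ℝ) * ((17/100:ℝ) - (s a f z p q))) := by
  unfold alt1 at H0
  refine mulK_s he hx3 hx2 (fun _ _ _ _ _ h1 H1 => ?_) H0
  have h2 := In_cast (w := (s a f z p q)) h1 rfl
  refine negK_s he h2 (fun _ _ _ _ _ h3 H2 => ?_) H1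
  refine addcK_s he h3 (v' := (17/100:ℝ)) (by norm_num [SS, BB, abs_le]) (fun _ _ _ _ _ h4 H3 => ?_) H2
  have h5 := In_cast h4 (neg_add_eq_sub _ _)
  refine smulK_s he (w := (100:ℝ)) (by norm_num) (by norm_num) (by norm_num) (by norm_num) h5 (fun _ _ _ _ _ h6 H4 => ?_) H3
  exact pos_s he h6 H4

noncomputable def alt2 (p1 p2 z1 w1 z2 w2 z3 w3 : ℕ) : Bool :=
  smulK 3 2 2305843009213693954 3458764513820540928 p1 1152921504606846976 1152921504606846976 1152921504606846976 0 fun c1 a1_1 a1_2 a1_3 q1 =>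
  smulK 3 10 11529215046068469770 3458764513820540928 z3 1152921504606846976 1152921504606846976 (Nat.add w3 1152921504606846976) 0 fun c3 a3_1 a3_2 a3_3 q3 =>
  subK c1 a1_1 a1_2 a1_3 q1 c3 a3_1 a3_2 a3_3 q3 fun c4 a4_1 a4_2 a4_3 q4 =>
  posK c4 a4_1 a4_2 a4_3 q4 <|
  mulK c1 a1_1 a1_2 a1_3 q1 z2 1152921504606846976 (Nat.add w2 1152921504606846976) 1152921504606846976 0 fun c5 a5_1 a5_2 a5_3 q5 =>
  negK c5 a5_1 a5_2 a5_3 q5 fun c7 a7_1 a7_2 a7_3 q7 =>
  addcK c7 a7_1 a7_2 a7_3 q7 1152922109338242253 1 fun c8 a8_1 a8_2 a8_3 q8 =>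
  posK c8 a8_1 a8_2 a8_3 q8 <|
  smulK 3 2 2305843009213693954 3458764513820540928 p2 1152921504606846976 1152921504606846976 1152921504606846976 0 fun c10 a10_1 a10_2 a10_3 q10 =>
  subK c10 a10_1 a10_2 a10_3 q10 c3 a3_1 a3_2 a3_3 q3 fun c12 a12_1 a12_2 a12_3 q12 =>
  posK c12 a12_1 a12_2 a12_3 q12 <|
  mulK c10 a10_1 a10_2 a10_3 q10 z2 1152921504606846976 (Nat.add w2 1152921504606846976) 1152921504606846976 0 fun c13 a13_1 a13_2 a13_3 q13 =>
  negK c13 a13_1 a13_2 a13_3 q13 fun c15 a15_1 a15_2 a15_3 q15 =>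
  addcK c15 a15_1 a15_2 a15_3 q15 1152922109338242253 1 fun c16 a16_1 a16_2 a16_3 q16 =>
  posK c16 a16_1 a16_2 a16_3 q16 <|
  smulK 2 1 1152921504606846977 2305843009213693952 z1 (Nat.add w1 1152921504606846976) 1152921504606846976 1152921504606846976 0 fun c18 a18_1 a18_2 a18_3 q18 =>
  addcK c18 a18_1 a18_2 a18_3 q18 1152920954851033088 0 fun c19 a19_1 a19_2 a19_3 q19 =>
  smulK 6909 500 576460752303423488500 7965534675328705757184 c19 a19_1 a19_2 a19_3 q19 fun c22 a22_1 a22_2 a22_3 q22 =>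
  negK c22 a22_1 a22_2 a22_3 q22 fun c23 a23_1 a23_2 a23_3 q23 =>
  addcK c23 a23_1 a23_2 a23_3 q23 1152962875655987397 1 fun c25 a25_1 a25_2 a25_3 q25 =>
  mulK c25 a25_1 a25_2 a25_3 q25 c19 a19_1 a19_2 a19_3 q19 fun c26 a26_1 a26_2 a26_3 q26 =>
  addcK c26 a26_1 a26_2 a26_3 q26 1152890595273405891 1 fun c27 a27_1 a27_2 a27_3 q27 =>
  mulK c27 a27_1 a27_2 a27_3 q27 c19 a19_1 a19_2 a19_3 q19 fun c28 a28_1 a28_2 a28_3 q28 =>
  addcK c28 a28_1 a28_2 a28_3 q28 1152921009139419709 1 fun c29 a29_1 a29_2 a29_3 q29 =>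
  mulK c29 a29_1 a29_2 a29_3 q29 c19 a19_1 a19_2 a19_3 q19 fun c30 a30_1 a30_2 a30_3 q30 =>
  addcK c30 a30_1 a30_2 a30_3 q30 1152926254703237399 1 fun c31 a31_1 a31_2 a31_3 q31 =>
  mulK c31 a31_1 a31_2 a31_3 q31 c19 a19_1 a19_2 a19_3 q19 fun c32 a32_1 a32_2 a32_3 q32 =>
  addcK c32 a32_1 a32_2 a32_3 q32 1152921744832957776 1 fun c33 a33_1 a33_2 a33_3 q33 =>
  mulK c33 a33_1 a33_2 a33_3 q33 c19 a19_1 a19_2 a19_3 q19 fun c34 a34_1 a34_2 a34_3 q34 =>
  addcK c34 a34_1 a34_2 a34_3 q34 1152921017909742928 1 fun c35 a35_1 a35_2 a35_3 q35 =>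
  mulK z1 (Nat.add w1 1152921504606846976) 1152921504606846976 1152921504606846976 0 z2 1152921504606846976 (Nat.add w2 1152921504606846976) 1152921504606846976 0 fun c36 a36_1 a36_2 a36_3 q36 =>
  sqK c36 a36_1 a36_2 a36_3 q36 fun c37 a37_1 a37_2 a37_3 q37 =>
  smulK 4 1 1152921504606846977 4611686018427387904 c37 a37_1 a37_2 a37_3 q37 fun c38 a38_1 a38_2 a38_3 q38 =>
  smulK 6909 200 230584300921369395400 7965534675328705757184 c19 a19_1 a19_2 a19_3 q19 fun c40 a40_1 a40_2 a40_3 q40 =>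
  negK c40 a40_1 a40_2 a40_3 q40 fun c41 a41_1 a41_2 a41_3 q41 =>
  addcK c41 a41_1 a41_2 a41_3 q41 1152990456355414344 1 fun c43 a43_1 a43_2 a43_3 q43 =>
  mulK c43 a43_1 a43_2 a43_3 q43 c19 a19_1 a19_2 a19_3 q19 fun c44 a44_1 a44_2 a44_3 q44 =>
  addcK c44 a44_1 a44_2 a44_3 q44 1152890595273405891 1 fun c45 a45_1 a45_2 a45_3 q45 =>
  mulK c45 a45_1 a45_2 a45_3 q45 c19 a19_1 a19_2 a19_3 q19 fun c46 a46_1 a46_2 a46_3 q46 =>
  addcK c46 a46_1 a46_2 a46_3 q46 1152921256873133343 1 fun c47 a47_1 a47_2 a47_3 q47 =>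
  mulK c47 a47_1 a47_2 a47_3 q47 c19 a19_1 a19_2 a19_3 q19 fun c48 a48_1 a48_2 a48_3 q48 =>
  addcK c48 a48_1 a48_2 a48_3 q48 1152922296289578713 1 fun c49 a49_1 a49_2 a49_3 q49 =>
  addcK c23 a23_1 a23_2 a23_3 q23 1152935294956560450 1 fun c50 a50_1 a50_2 a50_3 q50 =>
  mulK c50 a50_1 a50_2 a50_3 q50 c19 a19_1 a19_2 a19_3 q19 fun c51 a51_1 a51_2 a51_3 q51 =>
  addcK c51 a51_1 a51_2 a51_3 q51 1152919443984617570 1 fun c52 a52_1 a52_2 a52_3 q52 =>
  smulK 987 2000 2305843009213693954000 1137933525046957965312 c38 a38_1 a38_2 a38_3 q38 fun c53 a53_1 a53_2 a53_3 q53 =>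
  negK c53 a53_1 a53_2 a53_3 q53 fun c54 a54_1 a54_2 a54_3 q54 =>
  addK c52 a52_1 a52_2 a52_3 q52 c54 a54_1 a54_2 a54_3 q54 fun c56 a56_1 a56_2 a56_3 q56 =>
  mulK c38 a38_1 a38_2 a38_3 q38 c56 a56_1 a56_2 a56_3 q56 fun c57 a57_1 a57_2 a57_3 q57 =>
  addK c49 a49_1 a49_2 a49_3 q49 c57 a57_1 a57_2 a57_3 q57 fun c58 a58_1 a58_2 a58_3 q58 =>
  mulK c38 a38_1 a38_2 a38_3 q38 c58 a58_1 a58_2 a58_3 q58 fun c59 a59_1 a59_2 a59_3 q59 =>
  addK c35 a35_1 a35_2 a35_3 q35 c59 a59_1 a59_2 a59_3 q59 fun c60 a60_1 a60_2 a60_3 q60 =>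
  mulK z1 (Nat.add w1 1152921504606846976) 1152921504606846976 1152921504606846976 0 c60 a60_1 a60_2 a60_3 q60 fun c62 a62_1 a62_2 a62_3 q62 =>
  smulK 8 1 1152921504606846977 9223372036854775808 c62 a62_1 a62_2 a62_3 q62 fun c63 a63_1 a63_2 a63_3 q63 =>
  sqK c5 a5_1 a5_2 a5_3 q5 fun c64 a64_1 a64_2 a64_3 q64 =>
  addcK c64 a64_1 a64_2 a64_3 q64 1152922604118474752 0 fun c65 a65_1 a65_2 a65_3 q65 =>
  invK c65 a65_1 a65_2 a65_3 q65 fun c67 a67_1 a67_2 a67_3 q67 =>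
  smulK 2 1 1152921504606846977 2305843009213693952 c1 a1_1 a1_2 a1_3 q1 fun c68 a68_1 a68_2 a68_3 q68 =>
  mulK c68 a68_1 a68_2 a68_3 q68 c67 a67_1 a67_2 a67_3 q67 fun c69 a69_1 a69_2 a69_3 q69 =>
  mulK c1 a1_1 a1_2 a1_3 q1 c69 a69_1 a69_2 a69_3 q69 fun c72 a72_1 a72_2 a72_3 q72 =>
  mulK z3 1152921504606846976 1152921504606846976 (Nat.add w3 1152921504606846976) 0 c69 a69_1 a69_2 a69_3 q69 fun c74 a74_1 a74_2 a74_3 q74 =>
  smulK 1 50 57646075230342348850 1152921504606846976 c74 a74_1 a74_2 a74_3 q74 fun c75 a75_1 a75_2 a75_3 q75 =>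
  subK c72 a72_1 a72_2 a72_3 q72 c75 a75_1 a75_2 a75_3 q75 fun c76 a76_1 a76_2 a76_3 q76 =>
  smulK 987 1000 1152921504606846977000 1137933525046957965312 c19 a19_1 a19_2 a19_3 q19 fun c78 a78_1 a78_2 a78_3 q78 =>
  negK c78 a78_1 a78_2 a78_3 q78 fun c79 a79_1 a79_2 a79_3 q79 =>
  addcK c79 a79_1 a79_2 a79_3 q79 1152925987315753419 1 fun c81 a81_1 a81_2 a81_3 q81 =>
  mulK c81 a81_1 a81_2 a81_3 q81 c19 a19_1 a19_2 a19_3 q19 fun c82 a82_1 a82_2 a82_3 q82 =>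
  addcK c82 a82_1 a82_2 a82_3 q82 1152915142007934943 1 fun c83 a83_1 a83_2 a83_3 q83 =>
  mulK c83 a83_1 a83_2 a83_3 q83 c19 a19_1 a19_2 a19_3 q19 fun c84 a84_1 a84_2 a84_3 q84 =>
  addcK c84 a84_1 a84_2 a84_3 q84 1152924586812817539 1 fun c85 a85_1 a85_2 a85_3 q85 =>
  mulK c85 a85_1 a85_2 a85_3 q85 c19 a19_1 a19_2 a19_3 q19 fun c86 a86_1 a86_2 a86_3 q86 =>
  addcK c86 a86_1 a86_2 a86_3 q86 1152921546869325169 1 fun c87 a87_1 a87_2 a87_3 q87 =>
  mulK c87 a87_1 a87_2 a87_3 q87 c19 a19_1 a19_2 a19_3 q19 fun c88 a88_1 a88_2 a88_3 q88 =>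
  addcK c88 a88_1 a88_2 a88_3 q88 1152921643626348413 1 fun c89 a89_1 a89_2 a89_3 q89 =>
  mulK c89 a89_1 a89_2 a89_3 q89 c19 a19_1 a19_2 a19_3 q19 fun c90 a90_1 a90_2 a90_3 q90 =>
  addcK c90 a90_1 a90_2 a90_3 q90 1152920461702888161 1 fun c91 a91_1 a91_2 a91_3 q91 =>
  mulK c91 a91_1 a91_2 a91_3 q91 c19 a19_1 a19_2 a19_3 q19 fun c92 a92_1 a92_2 a92_3 q92 =>
  addcK c92 a92_1 a92_2 a92_3 q92 1152922806961190207 1 fun c93 a93_1 a93_2 a93_3 q93 =>
  sqK z2 1152921504606846976 (Nat.add w2 1152921504606846976) 1152921504606846976 0 fun c95 a95_1 a95_2 a95_3 q95 =>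
  mulK z1 (Nat.add w1 1152921504606846976) 1152921504606846976 1152921504606846976 0 c95 a95_1 a95_2 a95_3 q95 fun c96 a96_1 a96_2 a96_3 q96 =>
  smulK 4 1 1152921504606846977 4611686018427387904 c96 a96_1 a96_2 a96_3 q96 fun c97 a97_1 a97_2 a97_3 q97 =>
  mulK c97 a97_1 a97_2 a97_3 q97 c60 a60_1 a60_2 a60_3 q60 fun c99 a99_1 a99_2 a99_3 q99 =>
  addK c93 a93_1 a93_2 a93_3 q93 c99 a99_1 a99_2 a99_3 q99 fun c100 a100_1 a100_2 a100_3 q100 =>
  mulK c76 a76_1 a76_2 a76_3 q76 c100 a100_1 a100_2 a100_3 q100 fun c102 a102_1 a102_2 a102_3 q102 =>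
  subK c63 a63_1 a63_2 a63_3 q63 c102 a102_1 a102_2 a102_3 q102 fun c103 a103_1 a103_2 a103_3 q103 =>
  mulK z2 1152921504606846976 (Nat.add w2 1152921504606846976) 1152921504606846976 0 c72 a72_1 a72_2 a72_3 q72 fun c104 a104_1 a104_2 a104_3 q104 =>
  mulK z3 1152921504606846976 1152921504606846976 (Nat.add w3 1152921504606846976) 0 z2 1152921504606846976 (Nat.add w2 1152921504606846976) 1152921504606846976 0 fun c105 a105_1 a105_2 a105_3 q105 =>
  smulK 1 2 2305843009213693954 1152921504606846976 c105 a105_1 a105_2 a105_3 q105 fun c107 a107_1 a107_2 a107_3 q107 =>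
  negK c107 a107_1 a107_2 a107_3 q107 fun c109 a109_1 a109_2 a109_3 q109 =>
  addcK c109 a109_1 a109_2 a109_3 q109 1152922604118474752 0 fun c110 a110_1 a110_2 a110_3 q110 =>
  mulK c104 a104_1 a104_2 a104_3 q104 c110 a110_1 a110_2 a110_3 q110 fun c112 a112_1 a112_2 a112_3 q112 =>
  smulK 6 25 28823037615171174425 6917529027641081856 z3 1152921504606846976 1152921504606846976 (Nat.add w3 1152921504606846976) 0 fun c113 a113_1 a113_2 a113_3 q113 =>
  smulK 29 50 57646075230342348850 33434723633598562304 c69 a69_1 a69_2 a69_3 q69 fun c114 a114_1 a114_2 a114_3 q114 =>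
  addK c113 a113_1 a113_2 a113_3 q113 c114 a114_1 a114_2 a114_3 q114 fun c115 a115_1 a115_2 a115_3 q115 =>
  mulK c105 a105_1 a105_2 a105_3 q105 c115 a115_1 a115_2 a115_3 q115 fun c116 a116_1 a116_2 a116_3 q116 =>
  addK c112 a112_1 a112_2 a112_3 q112 c116 a116_1 a116_2 a116_3 q116 fun c117 a117_1 a117_2 a117_3 q117 =>
  smulK 987 250 288230376151711744250 1137933525046957965312 c19 a19_1 a19_2 a19_3 q19 fun c119 a119_1 a119_2 a119_3 q119 =>
  negK c119 a119_1 a119_2 a119_3 q119 fun c120 a120_1 a120_2 a120_3 q120 =>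
  addcK c120 a120_1 a120_2 a120_3 q120 1152935294956560450 1 fun c122 a122_1 a122_2 a122_3 q122 =>
  mulK c122 a122_1 a122_2 a122_3 q122 c19 a19_1 a19_2 a19_3 q19 fun c123 a123_1 a123_2 a123_3 q123 =>
  addcK c123 a123_1 a123_2 a123_3 q123 1152909140873470542 1 fun c124 a124_1 a124_2 a124_3 q124 =>
  mulK c124 a124_1 a124_2 a124_3 q124 c19 a19_1 a19_2 a19_3 q19 fun c125 a125_1 a125_2 a125_3 q125 =>
  addcK c125 a125_1 a125_2 a125_3 q125 1152921256873133343 1 fun c126 a126_1 a126_2 a126_3 q126 =>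
  mulK c126 a126_1 a126_2 a126_3 q126 c19 a19_1 a19_2 a19_3 q19 fun c127 a127_1 a127_2 a127_3 q127 =>
  addcK c127 a127_1 a127_2 a127_3 q127 1152924671337773924 1 fun c128 a128_1 a128_2 a128_3 q128 =>
  mulK c128 a128_1 a128_2 a128_3 q128 c19 a19_1 a19_2 a19_3 q19 fun c129 a129_1 a129_2 a129_3 q129 =>
  addcK c129 a129_1 a129_2 a129_3 q129 1152921744832957776 1 fun c130 a130_1 a130_2 a130_3 q130 =>
  mulK c130 a130_1 a130_2 a130_3 q130 c19 a19_1 a19_2 a19_3 q19 fun c131 a131_1 a131_2 a131_3 q131 =>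
  addcK c131 a131_1 a131_2 a131_3 q131 1152920531212638880 1 fun c132 a132_1 a132_2 a132_3 q132 =>
  mulK c132 a132_1 a132_2 a132_3 q132 c19 a19_1 a19_2 a19_3 q19 fun c133 a133_1 a133_2 a133_3 q133 =>
  addcK c133 a133_1 a133_2 a133_3 q133 1152921895058028888 1 fun c134 a134_1 a134_2 a134_3 q134 =>
  smulK 6909 250 288230376151711744250 7965534675328705757184 c19 a19_1 a19_2 a19_3 q19 fun c135 a135_1 a135_2 a135_3 q135 =>
  negK c135 a135_1 a135_2 a135_3 q135 fun c136 a136_1 a136_2 a136_3 q136 =>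
  addcK c136 a136_1 a136_2 a136_3 q136 1152990456355414344 1 fun c138 a138_1 a138_2 a138_3 q138 =>
  mulK c138 a138_1 a138_2 a138_3 q138 c19 a19_1 a19_2 a19_3 q19 fun c139 a139_1 a139_2 a139_3 q139 =>
  addcK c139 a139_1 a139_2 a139_3 q139 1152880292162258862 1 fun c140 a140_1 a140_2 a140_3 q140 =>
  mulK c140 a140_1 a140_2 a140_3 q140 c19 a19_1 a19_2 a19_3 q19 fun c141 a141_1 a141_2 a141_3 q141 =>
  addcK c141 a141_1 a141_2 a141_3 q141 1152921009139419709 1 fun c142 a142_1 a142_2 a142_3 q142 =>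
  mulK c142 a142_1 a142_2 a142_3 q142 c19 a19_1 a19_2 a19_3 q19 fun c143 a143_1 a143_2 a143_3 q143 =>
  addcK c143 a143_1 a143_2 a143_3 q143 1152924671337773924 1 fun c144 a144_1 a144_2 a144_3 q144 =>
  mulK c144 a144_1 a144_2 a144_3 q144 c19 a19_1 a19_2 a19_3 q19 fun c145 a145_1 a145_2 a145_3 q145 =>
  addcK c145 a145_1 a145_2 a145_3 q145 1152921584682217243 1 fun c146 a146_1 a146_2 a146_3 q146 =>
  addcK c136 a136_1 a136_2 a136_3 q136 1152962875655987397 1 fun c147 a147_1 a147_2 a147_3 q147 =>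
  mulK c147 a147_1 a147_2 a147_3 q147 c19 a19_1 a19_2 a19_3 q19 fun c148 a148_1 a148_2 a148_3 q148 =>
  addcK c148 a148_1 a148_2 a148_3 q148 1152909140873470542 1 fun c149 a149_1 a149_2 a149_3 q149 =>
  mulK c149 a149_1 a149_2 a149_3 q149 c19 a19_1 a19_2 a19_3 q19 fun c150 a150_1 a150_2 a150_3 q150 =>
  addcK c150 a150_1 a150_2 a150_3 q150 1152921455060104249 1 fun c151 a151_1 a151_2 a151_3 q151 =>
  addcK c120 a120_1 a120_2 a120_3 q120 1152923474656806044 1 fun c152 a152_1 a152_2 a152_3 q152 =>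
  mulK c38 a38_1 a38_2 a38_3 q38 c152 a152_1 a152_2 a152_3 q152 fun c153 a153_1 a153_2 a153_3 q153 =>
  addK c151 a151_1 a151_2 a151_3 q151 c153 a153_1 a153_2 a153_3 q153 fun c154 a154_1 a154_2 a154_3 q154 =>
  mulK c38 a38_1 a38_2 a38_3 q38 c154 a154_1 a154_2 a154_3 q154 fun c155 a155_1 a155_2 a155_3 q155 =>
  addK c146 a146_1 a146_2 a146_3 q146 c155 a155_1 a155_2 a155_3 q155 fun c156 a156_1 a156_2 a156_3 q156 =>
  mulK c38 a38_1 a38_2 a38_3 q38 c156 a156_1 a156_2 a156_3 q156 fun c157 a157_1 a157_2 a157_3 q157 =>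
  addK c134 a134_1 a134_2 a134_3 q134 c157 a157_1 a157_2 a157_3 q157 fun c158 a158_1 a158_2 a158_3 q158 =>
  mulK c117 a117_1 a117_2 a117_3 q117 c158 a158_1 a158_2 a158_3 q158 fun c160 a160_1 a160_2 a160_3 q160 =>
  smulK 2 1 1152921504606846977 2305843009213693952 c160 a160_1 a160_2 a160_3 q160 fun c161 a161_1 a161_2 a161_3 q161 =>
  subK c103 a103_1 a103_2 a103_3 q103 c161 a161_1 a161_2 a161_3 q161 fun c162 a162_1 a162_2 a162_3 q162 =>
  smulK 3 500 576460752303423488500 3458764513820540928 c105 a105_1 a105_2 a105_3 q105 fun c163 a163_1 a163_2 a163_3 q163 =>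
  negK c163 a163_1 a163_2 a163_3 q163 fun c164 a164_1 a164_2 a164_3 q164 =>
  addcK c164 a164_1 a164_2 a164_3 q164 1152922601919451496 1 fun c165 a165_1 a165_2 a165_3 q165 =>
  mulK c165 a165_1 a165_2 a165_3 q165 c69 a69_1 a69_2 a69_3 q69 fun c167 a167_1 a167_2 a167_3 q167 =>
  smulK 2 1 1152921504606846977 2305843009213693952 c167 a167_1 a167_2 a167_3 q167 fun c169 a169_1 a169_2 a169_3 q169 =>
  addK c162 a162_1 a162_2 a162_3 q162 c169 a169_1 a169_2 a169_3 q169 fun c170 a170_1 a170_2 a170_3 q170 =>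
  posK c170 a170_1 a170_2 a170_3 q170 <|
  addcK c23 a23_1 a23_2 a23_3 q23 1152971291867742208 0 fun c172 a172_1 a172_2 a172_3 q172 =>
  mulK c172 a172_1 a172_2 a172_3 q172 c19 a19_1 a19_2 a19_3 q19 fun c173 a173_1 a173_2 a173_3 q173 =>
  addcK c173 a173_1 a173_2 a173_3 q173 1152869554744018862 1 fun c174 a174_1 a174_2 a174_3 q174 =>
  mulK c174 a174_1 a174_2 a174_3 q174 c19 a19_1 a19_2 a19_3 q19 fun c175 a175_1 a175_2 a175_3 q175 =>
  addcK c175 a175_1 a175_2 a175_3 q175 1152935787950086554 1 fun c176 a176_1 a176_2 a176_3 q176 =>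
  mulK c176 a176_1 a176_2 a176_3 q176 c19 a19_1 a19_2 a19_3 q19 fun c177 a177_1 a177_2 a177_3 q177 =>
  addcK c177 a177_1 a177_2 a177_3 q177 1152925127016624161 1 fun c178 a178_1 a178_2 a178_3 q178 =>
  mulK c178 a178_1 a178_2 a178_3 q178 c19 a19_1 a19_2 a19_3 q19 fun c179 a179_1 a179_2 a179_3 q179 =>
  addcK c179 a179_1 a179_2 a179_3 q179 1152921190988335022 1 fun c180 a180_1 a180_2 a180_3 q180 =>
  mulK c180 a180_1 a180_2 a180_3 q180 c19 a19_1 a19_2 a19_3 q19 fun c181 a181_1 a181_2 a181_3 q181 =>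
  addcK c181 a181_1 a181_2 a181_3 q181 1152920781428843610 1 fun c182 a182_1 a182_2 a182_3 q182 =>
  addcK c41 a41_1 a41_2 a41_3 q41 1153004483375005696 0 fun c183 a183_1 a183_2 a183_3 q183 =>
  mulK c183 a183_1 a183_2 a183_3 q183 c19 a19_1 a19_2 a19_3 q19 fun c184 a184_1 a184_2 a184_3 q184 =>
  addcK c184 a184_1 a184_2 a184_3 q184 1152869554744018862 1 fun c185 a185_1 a185_2 a185_3 q185 =>
  mulK c185 a185_1 a185_2 a185_3 q185 c19 a19_1 a19_2 a19_3 q19 fun c186 a186_1 a186_2 a186_3 q186 =>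
  addcK c186 a186_1 a186_2 a186_3 q186 1152928646278466765 1 fun c187 a187_1 a187_2 a187_3 q187 =>
  mulK c187 a187_1 a187_2 a187_3 q187 c19 a19_1 a19_2 a19_3 q19 fun c188 a188_1 a188_2 a188_3 q188 =>
  addcK c188 a188_1 a188_2 a188_3 q188 1152922108341809840 1 fun c189 a189_1 a189_2 a189_3 q189 =>
  addcK c23 a23_1 a23_2 a23_3 q23 1152938100360478720 0 fun c190 a190_1 a190_2 a190_3 q190 =>
  mulK c190 a190_1 a190_2 a190_3 q190 c19 a19_1 a19_2 a19_3 q19 fun c191 a191_1 a191_2 a191_3 q191 =>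
  addcK c191 a191_1 a191_2 a191_3 q191 1152918041282658435 1 fun c192 a192_1 a192_2 a192_3 q192 =>
  addK c192 a192_1 a192_2 a192_3 q192 c54 a54_1 a54_2 a54_3 q54 fun c193 a193_1 a193_2 a193_3 q193 =>
  mulK c38 a38_1 a38_2 a38_3 q38 c193 a193_1 a193_2 a193_3 q193 fun c194 a194_1 a194_2 a194_3 q194 =>
  addK c189 a189_1 a189_2 a189_3 q189 c194 a194_1 a194_2 a194_3 q194 fun c195 a195_1 a195_2 a195_3 q195 =>
  mulK c38 a38_1 a38_2 a38_3 q38 c195 a195_1 a195_2 a195_3 q195 fun c196 a196_1 a196_2 a196_3 q196 =>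
  addK c182 a182_1 a182_2 a182_3 q182 c196 a196_1 a196_2 a196_3 q196 fun c197 a197_1 a197_2 a197_3 q197 =>
  mulK z1 (Nat.add w1 1152921504606846976) 1152921504606846976 1152921504606846976 0 c197 a197_1 a197_2 a197_3 q197 fun c199 a199_1 a199_2 a199_3 q199 =>
  smulK 8 1 1152921504606846977 9223372036854775808 c199 a199_1 a199_2 a199_3 q199 fun c200 a200_1 a200_2 a200_3 q200 =>
  sqK c13 a13_1 a13_2 a13_3 q13 fun c201 a201_1 a201_2 a201_3 q201 =>
  addcK c201 a201_1 a201_2 a201_3 q201 1152922604118474752 0 fun c202 a202_1 a202_2 a202_3 q202 =>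
  invK c202 a202_1 a202_2 a202_3 q202 fun c204 a204_1 a204_2 a204_3 q204 =>
  smulK 2 1 1152921504606846977 2305843009213693952 c10 a10_1 a10_2 a10_3 q10 fun c205 a205_1 a205_2 a205_3 q205 =>
  mulK c205 a205_1 a205_2 a205_3 q205 c204 a204_1 a204_2 a204_3 q204 fun c206 a206_1 a206_2 a206_3 q206 =>
  mulK c10 a10_1 a10_2 a10_3 q10 c206 a206_1 a206_2 a206_3 q206 fun c209 a209_1 a209_2 a209_3 q209 =>
  mulK z3 1152921504606846976 1152921504606846976 (Nat.add w3 1152921504606846976) 0 c206 a206_1 a206_2 a206_3 q206 fun c211 a211_1 a211_2 a211_3 q211 =>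
  smulK 1 50 57646075230342348850 1152921504606846976 c211 a211_1 a211_2 a211_3 q211 fun c212 a212_1 a212_2 a212_3 q212 =>
  subK c209 a209_1 a209_2 a209_3 q209 c212 a212_1 a212_2 a212_3 q212 fun c213 a213_1 a213_2 a213_3 q213 =>
  addcK c79 a79_1 a79_2 a79_3 q79 1152926788859730067 1 fun c215 a215_1 a215_2 a215_3 q215 =>
  mulK c215 a215_1 a215_2 a215_3 q215 c19 a19_1 a19_2 a19_3 q19 fun c216 a216_1 a216_2 a216_3 q216 =>
  addcK c216 a216_1 a216_2 a216_3 q216 1152911935832028348 1 fun c217 a217_1 a217_2 a217_3 q217 =>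
  mulK c217 a217_1 a217_2 a217_3 q217 c19 a19_1 a19_2 a19_3 q19 fun c218 a218_1 a218_2 a218_3 q218 =>
  addcK c218 a218_1 a218_2 a218_3 q218 1152929145662904205 1 fun c219 a219_1 a219_2 a219_3 q219 =>
  mulK c219 a219_1 a219_2 a219_3 q219 c19 a19_1 a19_2 a19_3 q19 fun c220 a220_1 a220_2 a220_3 q220 =>
  addcK c220 a220_1 a220_2 a220_3 q220 1152918891548744090 1 fun c221 a221_1 a221_2 a221_3 q221 =>
  mulK c221 a221_1 a221_2 a221_3 q221 c19 a19_1 a19_2 a19_3 q19 fun c222 a222_1 a222_2 a222_3 q222 =>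
  addcK c222 a222_1 a222_2 a222_3 q222 1152922602056890450 1 fun c223 a223_1 a223_2 a223_3 q223 =>
  mulK c223 a223_1 a223_2 a223_3 q223 c19 a19_1 a19_2 a19_3 q19 fun c224 a224_1 a224_2 a224_3 q224 =>
  addcK c224 a224_1 a224_2 a224_3 q224 1152919509525818507 1 fun c225 a225_1 a225_2 a225_3 q225 =>
  mulK c225 a225_1 a225_2 a225_3 q225 c19 a19_1 a19_2 a19_3 q19 fun c226 a226_1 a226_2 a226_3 q226 =>
  addcK c226 a226_1 a226_2 a226_3 q226 1152923178097904189 1 fun c227 a227_1 a227_2 a227_3 q227 =>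
  mulK c97 a97_1 a97_2 a97_3 q97 c197 a197_1 a197_2 a197_3 q197 fun c229 a229_1 a229_2 a229_3 q229 =>
  addK c227 a227_1 a227_2 a227_3 q227 c229 a229_1 a229_2 a229_3 q229 fun c230 a230_1 a230_2 a230_3 q230 =>
  mulK c213 a213_1 a213_2 a213_3 q213 c230 a230_1 a230_2 a230_3 q230 fun c232 a232_1 a232_2 a232_3 q232 =>
  subK c200 a200_1 a200_2 a200_3 q200 c232 a232_1 a232_2 a232_3 q232 fun c233 a233_1 a233_2 a233_3 q233 =>
  mulK z2 1152921504606846976 (Nat.add w2 1152921504606846976) 1152921504606846976 0 c209 a209_1 a209_2 a209_3 q209 fun c234 a234_1 a234_2 a234_3 q234 =>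
  mulK c234 a234_1 a234_2 a234_3 q234 c110 a110_1 a110_2 a110_3 q110 fun c235 a235_1 a235_2 a235_3 q235 =>
  smulK 29 50 57646075230342348850 33434723633598562304 c206 a206_1 a206_2 a206_3 q206 fun c236 a236_1 a236_2 a236_3 q236 =>
  addK c113 a113_1 a113_2 a113_3 q113 c236 a236_1 a236_2 a236_3 q236 fun c237 a237_1 a237_2 a237_3 q237 =>
  mulK c105 a105_1 a105_2 a105_3 q105 c237 a237_1 a237_2 a237_3 q237 fun c238 a238_1 a238_2 a238_3 q238 =>
  addK c235 a235_1 a235_2 a235_3 q235 c238 a238_1 a238_2 a238_3 q238 fun c239 a239_1 a239_2 a239_3 q239 =>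
  addcK c120 a120_1 a120_2 a120_3 q120 1152938100360478720 0 fun c241 a241_1 a241_2 a241_3 q241 =>
  mulK c241 a241_1 a241_2 a241_3 q241 c19 a19_1 a19_2 a19_3 q19 fun c242 a242_1 a242_2 a242_3 q242 =>
  addcK c242 a242_1 a242_2 a242_3 q242 1152900724661715730 1 fun c243 a243_1 a243_2 a243_3 q243 =>
  mulK c243 a243_1 a243_2 a243_3 q243 c19 a19_1 a19_2 a19_3 q19 fun c244 a244_1 a244_2 a244_3 q244 =>
  addcK c244 a244_1 a244_2 a244_3 q244 1152928646278466765 1 fun c245 a245_1 a245_2 a245_3 q245 =>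
  mulK c245 a245_1 a245_2 a245_3 q245 c19 a19_1 a19_2 a19_3 q19 fun c246 a246_1 a246_2 a246_3 q246 =>
  addcK c246 a246_1 a246_2 a246_3 q246 1152923919546698433 1 fun c247 a247_1 a247_2 a247_3 q247 =>
  mulK c247 a247_1 a247_2 a247_3 q247 c19 a19_1 a19_2 a19_3 q19 fun c248 a248_1 a248_2 a248_3 q248 =>
  addcK c248 a248_1 a248_2 a248_3 q248 1152921190988335022 1 fun c249 a249_1 a249_2 a249_3 q249 =>
  mulK c249 a249_1 a249_2 a249_3 q249 c19 a19_1 a19_2 a19_3 q19 fun c250 a250_1 a250_2 a250_3 q250 =>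
  addcK c250 a250_1 a250_2 a250_3 q250 1152920058250840244 1 fun c251 a251_1 a251_2 a251_3 q251 =>
  mulK c251 a251_1 a251_2 a251_3 q251 c19 a19_1 a19_2 a19_3 q19 fun c252 a252_1 a252_2 a252_3 q252 =>
  addcK c252 a252_1 a252_2 a252_3 q252 1152921842582118466 1 fun c253 a253_1 a253_2 a253_3 q253 =>
  addcK c136 a136_1 a136_2 a136_3 q136 1153004483375005696 0 fun c254 a254_1 a254_2 a254_3 q254 =>
  mulK c254 a254_1 a254_2 a254_3 q254 c19 a19_1 a19_2 a19_3 q19 fun c255 a255_1 a255_2 a255_3 q255 =>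
  addcK c255 a255_1 a255_2 a255_3 q255 1152852238123076157 1 fun c256 a256_1 a256_2 a256_3 q256 =>
  mulK c256 a256_1 a256_2 a256_3 q256 c19 a19_1 a19_2 a19_3 q19 fun c257 a257_1 a257_2 a257_3 q257 =>
  addcK c257 a257_1 a257_2 a257_3 q257 1152935787950086554 1 fun c258 a258_1 a258_2 a258_3 q258 =>
  mulK c258 a258_1 a258_2 a258_3 q258 c19 a19_1 a19_2 a19_3 q19 fun c259 a259_1 a259_2 a259_3 q259 =>
  addcK c259 a259_1 a259_2 a259_3 q259 1152923919546698433 1 fun c260 a260_1 a260_2 a260_3 q260 =>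
  mulK c260 a260_1 a260_2 a260_3 q260 c19 a19_1 a19_2 a19_3 q19 fun c261 a261_1 a261_2 a261_3 q261 =>
  addcK c261 a261_1 a261_2 a261_3 q261 1152921400067342991 1 fun c262 a262_1 a262_2 a262_3 q262 =>
  addcK c136 a136_1 a136_2 a136_3 q136 1152971291867742208 0 fun c263 a263_1 a263_2 a263_3 q263 =>
  mulK c263 a263_1 a263_2 a263_3 q263 c19 a19_1 a19_2 a19_3 q19 fun c264 a264_1 a264_2 a264_3 q264 =>
  addcK c264 a264_1 a264_2 a264_3 q264 1152900724661715730 1 fun c265 a265_1 a265_2 a265_3 q265 =>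
  mulK c265 a265_1 a265_2 a265_3 q265 c19 a19_1 a19_2 a19_3 q19 fun c266 a266_1 a266_2 a266_3 q266 =>
  addcK c266 a266_1 a266_2 a266_3 q266 1152922932941170934 1 fun c267 a267_1 a267_2 a267_3 q267 =>
  addcK c120 a120_1 a120_2 a120_3 q120 1152923875428794368 0 fun c268 a268_1 a268_2 a268_3 q268 =>
  mulK c38 a38_1 a38_2 a38_3 q38 c268 a268_1 a268_2 a268_3 q268 fun c269 a269_1 a269_2 a269_3 q269 =>
  addK c267 a267_1 a267_2 a267_3 q267 c269 a269_1 a269_2 a269_3 q269 fun c270 a270_1 a270_2 a270_3 q270 =>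
  mulK c38 a38_1 a38_2 a38_3 q38 c270 a270_1 a270_2 a270_3 q270 fun c271 a271_1 a271_2 a271_3 q271 =>
  addK c262 a262_1 a262_2 a262_3 q262 c271 a271_1 a271_2 a271_3 q271 fun c272 a272_1 a272_2 a272_3 q272 =>
  mulK c38 a38_1 a38_2 a38_3 q38 c272 a272_1 a272_2 a272_3 q272 fun c273 a273_1 a273_2 a273_3 q273 =>
  addK c253 a253_1 a253_2 a253_3 q253 c273 a273_1 a273_2 a273_3 q273 fun c274 a274_1 a274_2 a274_3 q274 =>
  mulK c239 a239_1 a239_2 a239_3 q239 c274 a274_1 a274_2 a274_3 q274 fun c276 a276_1 a276_2 a276_3 q276 =>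
  smulK 2 1 1152921504606846977 2305843009213693952 c276 a276_1 a276_2 a276_3 q276 fun c277 a277_1 a277_2 a277_3 q277 =>
  addK c233 a233_1 a233_2 a233_3 q233 c277 a277_1 a277_2 a277_3 q277 fun c278 a278_1 a278_2 a278_3 q278 =>
  mulK c165 a165_1 a165_2 a165_3 q165 c206 a206_1 a206_2 a206_3 q206 fun c279 a279_1 a279_2 a279_3 q279 =>
  smulK 2 1 1152921504606846977 2305843009213693952 c279 a279_1 a279_2 a279_3 q279 fun c281 a281_1 a281_2 a281_3 q281 =>
  addK c278 a278_1 a278_2 a278_3 q278 c281 a281_1 a281_2 a281_3 q281 fun c282 a282_1 a282_2 a282_3 q282 =>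
  posK c282 a282_1 a282_2 a282_3 q282 <|
  mulK c170 a170_1 a170_2 a170_3 q170 c282 a282_1 a282_2 a282_3 q282 fun c284 a284_1 a284_2 a284_3 q284 =>
  smulK 1666 125 144115188075855872125 1920767226675007062016 c19 a19_1 a19_2 a19_3 q19 fun c285 a285_1 a285_2 a285_3 q285 =>
  addcK c285 a285_1 a285_2 a285_3 q285 1152877541733921980 1 fun c286 a286_1 a286_2 a286_3 q286 =>
  mulK c286 a286_1 a286_2 a286_3 q286 c19 a19_1 a19_2 a19_3 q19 fun c287 a287_1 a287_2 a287_3 q287 =>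
  addcK c287 a287_1 a287_2 a287_3 q287 1152958893499749499 1 fun c288 a288_1 a288_2 a288_3 q288 =>
  mulK c288 a288_1 a288_2 a288_3 q288 c19 a19_1 a19_2 a19_3 q19 fun c289 a289_1 a289_2 a289_3 q289 =>
  addcK c289 a289_1 a289_2 a289_3 q289 1152919998275916923 1 fun c290 a290_1 a290_2 a290_3 q290 =>
  mulK c290 a290_1 a290_2 a290_3 q290 c19 a19_1 a19_2 a19_3 q19 fun c291 a291_1 a291_2 a291_3 q291 =>
  addcK c291 a291_1 a291_2 a291_3 q291 1152914196702812963 1 fun c292 a292_1 a292_2 a292_3 q292 =>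
  mulK c292 a292_1 a292_2 a292_3 q292 c19 a19_1 a19_2 a19_3 q19 fun c293 a293_1 a293_2 a293_3 q293 =>
  addcK c293 a293_1 a293_2 a293_3 q293 1152922238530858516 1 fun c294 a294_1 a294_2 a294_3 q294 =>
  mulK c294 a294_1 a294_2 a294_3 q294 c19 a19_1 a19_2 a19_3 q19 fun c295 a295_1 a295_2 a295_3 q295 =>
  addcK c295 a295_1 a295_2 a295_3 q295 1152921613527217603 1 fun c296 a296_1 a296_2 a296_3 q296 =>
  smulK 833 25 28823037615171174425 960383613337503531008 c19 a19_1 a19_2 a19_3 q19 fun c297 a297_1 a297_2 a297_3 q297 =>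
  addcK c297 a297_1 a297_2 a297_3 q297 1152848233151971983 1 fun c298 a298_1 a298_2 a298_3 q298 =>
  mulK c298 a298_1 a298_2 a298_3 q298 c19 a19_1 a19_2 a19_3 q19 fun c299 a299_1 a299_2 a299_3 q299 =>
  addcK c299 a299_1 a299_2 a299_3 q299 1152958893499749499 1 fun c300 a300_1 a300_2 a300_3 q300 =>
  mulK c300 a300_1 a300_2 a300_3 q300 c19 a19_1 a19_2 a19_3 q19 fun c301 a301_1 a301_2 a301_3 q301 =>
  addcK c301 a301_1 a301_2 a301_3 q301 1152920751441381949 1 fun c302 a302_1 a302_2 a302_3 q302 =>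
  mulK c302 a302_1 a302_2 a302_3 q302 c19 a19_1 a19_2 a19_3 q19 fun c303 a303_1 a303_2 a303_3 q303 =>
  addcK c303 a303_1 a303_2 a303_3 q303 1152920286622841307 1 fun c304 a304_1 a304_2 a304_3 q304 =>
  addcK c285 a285_1 a285_2 a285_3 q285 1152906850315871977 1 fun c305 a305_1 a305_2 a305_3 q305 =>
  mulK c305 a305_1 a305_2 a305_3 q305 c19 a19_1 a19_2 a19_3 q19 fun c306 a306_1 a306_2 a306_3 q306 =>
  addcK c306 a306_1 a306_2 a306_3 q306 1152923997199707144 1 fun c307 a307_1 a307_2 a307_3 q307 =>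
  smulK 119 250 288230376151711744250 137197659048214790144 c38 a38_1 a38_2 a38_3 q38 fun c308 a308_1 a308_2 a308_3 q308 =>
  addK c307 a307_1 a307_2 a307_3 q307 c308 a308_1 a308_2 a308_3 q308 fun c309 a309_1 a309_2 a309_3 q309 =>
  mulK c38 a38_1 a38_2 a38_3 q38 c309 a309_1 a309_2 a309_3 q309 fun c310 a310_1 a310_2 a310_3 q310 =>
  addK c304 a304_1 a304_2 a304_3 q304 c310 a310_1 a310_2 a310_3 q310 fun c311 a311_1 a311_2 a311_3 q311 =>
  mulK c38 a38_1 a38_2 a38_3 q38 c311 a311_1 a311_2 a311_3 q311 fun c312 a312_1 a312_2 a312_3 q312 =>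
  addK c296 a296_1 a296_2 a296_3 q296 c312 a312_1 a312_2 a312_3 q312 fun c313 a313_1 a313_2 a313_3 q313 =>
  smulK 8 1 1152921504606846977 9223372036854775808 c313 a313_1 a313_2 a313_3 q313 fun c315 a315_1 a315_2 a315_3 q315 =>
  subK c117 a117_1 a117_2 a117_3 q117 c239 a239_1 a239_2 a239_3 q239 fun c316 a316_1 a316_2 a316_3 q316 =>
  smulK 1 2 2305843009213693954 1152921504606846976 c316 a316_1 a316_2 a316_3 q316 fun c317 a317_1 a317_2 a317_3 q317 =>
  smulK 952 125 144115188075855872125 1097581272385718321152 c19 a19_1 a19_2 a19_3 q19 fun c320 a320_1 a320_2 a320_3 q320 =>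
  addcK c320 a320_1 a320_2 a320_3 q320 1152888009084618408 1 fun c321 a321_1 a321_2 a321_3 q321 =>
  mulK c321 a321_1 a321_2 a321_3 q321 c19 a19_1 a19_2 a19_3 q19 fun c322 a322_1 a322_2 a322_3 q322 =>
  addcK c322 a322_1 a322_2 a322_3 q322 1152968163482283278 1 fun c323 a323_1 a323_2 a323_3 q323 =>
  mulK c323 a323_1 a323_2 a323_3 q323 c19 a19_1 a19_2 a19_3 q19 fun c324 a324_1 a324_2 a324_3 q324 =>
  addcK c324 a324_1 a324_2 a324_3 q324 1152896668838198772 1 fun c325 a325_1 a325_2 a325_3 q325 =>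
  mulK c325 a325_1 a325_2 a325_3 q325 c19 a19_1 a19_2 a19_3 q19 fun c326 a326_1 a326_2 a326_3 q326 =>
  addcK c326 a326_1 a326_2 a326_3 q326 1152924178619125727 1 fun c327 a327_1 a327_2 a327_3 q327 =>
  mulK c327 a327_1 a327_2 a327_3 q327 c19 a19_1 a19_2 a19_3 q19 fun c328 a328_1 a328_2 a328_3 q328 =>
  addcK c328 a328_1 a328_2 a328_3 q328 1152921635448730681 1 fun c329 a329_1 a329_2 a329_3 q329 =>
  mulK c329 a329_1 a329_2 a329_3 q329 c19 a19_1 a19_2 a19_3 q19 fun c330 a330_1 a330_2 a330_3 q330 =>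
  addcK c330 a330_1 a330_2 a330_3 q330 1152921874867387630 1 fun c331 a331_1 a331_2 a331_3 q331 =>
  smulK 3332 125 144115188075855872125 3841534453350014124032 c19 a19_1 a19_2 a19_3 q19 fun c332 a332_1 a332_2 a332_3 q332 =>
  addcK c332 a332_1 a332_2 a332_3 q332 1152848233151971983 1 fun c333 a333_1 a333_2 a333_3 q333 =>
  mulK c333 a333_1 a333_2 a333_3 q333 c19 a19_1 a19_2 a19_3 q19 fun c334 a334_1 a334_2 a334_3 q334 =>
  addcK c334 a334_1 a334_2 a334_3 q334 1152971356464050340 1 fun c335 a335_1 a335_2 a335_3 q335 =>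
  mulK c335 a335_1 a335_2 a335_3 q335 c19 a19_1 a19_2 a19_3 q19 fun c336 a336_1 a336_2 a336_3 q336 =>
  addcK c336 a336_1 a336_2 a336_3 q336 1152919998275916923 1 fun c337 a337_1 a337_2 a337_3 q337 =>
  mulK c337 a337_1 a337_2 a337_3 q337 c19 a19_1 a19_2 a19_3 q19 fun c338 a338_1 a338_2 a338_3 q338 =>
  addcK c338 a338_1 a338_2 a338_3 q338 1152916632670824301 1 fun c339 a339_1 a339_2 a339_3 q339 =>
  mulK c339 a339_1 a339_2 a339_3 q339 c19 a19_1 a19_2 a19_3 q19 fun c340 a340_1 a340_2 a340_3 q340 =>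
  addcK c340 a340_1 a340_2 a340_3 q340 1152921749248184156 1 fun c341 a341_1 a341_2 a341_3 q341 =>
  addcK c332 a332_1 a332_2 a332_3 q332 1152877541733921980 1 fun c342 a342_1 a342_2 a342_3 q342 =>
  mulK c342 a342_1 a342_2 a342_3 q342 c19 a19_1 a19_2 a19_3 q19 fun c343 a343_1 a343_2 a343_3 q343 =>
  addcK c343 a343_1 a343_2 a343_3 q343 1152936460164007985 1 fun c344 a344_1 a344_2 a344_3 q344 =>
  mulK c344 a344_1 a344_2 a344_3 q344 c19 a19_1 a19_2 a19_3 q19 fun c345 a345_1 a345_2 a345_3 q345 =>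
  addcK c345 a345_1 a345_2 a345_3 q345 1152921353973753971 1 fun c346 a346_1 a346_2 a346_3 q346 =>
  smulK 476 125 144115188075855872125 548790636192859160576 c19 a19_1 a19_2 a19_3 q19 fun c347 a347_1 a347_2 a347_3 q347 =>
  addcK c347 a347_1 a347_2 a347_3 q347 1152919411136707690 1 fun c348 a348_1 a348_2 a348_3 q348 =>
  mulK c38 a38_1 a38_2 a38_3 q38 c348 a348_1 a348_2 a348_3 q348 fun c349 a349_1 a349_2 a349_3 q349 =>
  addK c346 a346_1 a346_2 a346_3 q346 c349 a349_1 a349_2 a349_3 q349 fun c350 a350_1 a350_2 a350_3 q350 =>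
  mulK c38 a38_1 a38_2 a38_3 q38 c350 a350_1 a350_2 a350_3 q350 fun c351 a351_1 a351_2 a351_3 q351 =>
  addK c341 a341_1 a341_2 a341_3 q341 c351 a351_1 a351_2 a351_3 q351 fun c352 a352_1 a352_2 a352_3 q352 =>
  mulK c97 a97_1 a97_2 a97_3 q97 c352 a352_1 a352_2 a352_3 q352 fun c353 a353_1 a353_2 a353_3 q353 =>
  addK c331 a331_1 a331_2 a331_3 q331 c353 a353_1 a353_2 a353_3 q353 fun c354 a354_1 a354_2 a354_3 q354 =>
  mulK c317 a317_1 a317_2 a317_3 q317 c354 a354_1 a354_2 a354_3 q354 fun c356 a356_1 a356_2 a356_3 q356 =>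
  smulK 2 1 1152921504606846977 2305843009213693952 c356 a356_1 a356_2 a356_3 q356 fun c357 a357_1 a357_2 a357_3 q357 =>
  subK c315 a315_1 a315_2 a315_3 q315 c357 a357_1 a357_2 a357_3 q357 fun c358 a358_1 a358_2 a358_3 q358 =>
  addK c76 a76_1 a76_2 a76_3 q76 c213 a213_1 a213_2 a213_3 q213 fun c359 a359_1 a359_2 a359_3 q359 =>
  smulK 1 2 2305843009213693954 1152921504606846976 c359 a359_1 a359_2 a359_3 q359 fun c360 a360_1 a360_2 a360_3 q360 =>
  mulK z2 1152921504606846976 (Nat.add w2 1152921504606846976) 1152921504606846976 0 c76 a76_1 a76_2 a76_3 q76 fun c363 a363_1 a363_2 a363_3 q363 =>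
  subK c117 a117_1 a117_2 a117_3 q117 c363 a363_1 a363_2 a363_3 q363 fun c364 a364_1 a364_2 a364_3 q364 =>
  smulK 1 2 2305843009213693954 1152921504606846976 c364 a364_1 a364_2 a364_3 q364 fun c365 a365_1 a365_2 a365_3 q365 =>
  mulK z2 1152921504606846976 (Nat.add w2 1152921504606846976) 1152921504606846976 0 c213 a213_1 a213_2 a213_3 q213 fun c368 a368_1 a368_2 a368_3 q368 =>
  addK c239 a239_1 a239_2 a239_3 q239 c368 a368_1 a368_2 a368_3 q368 fun c369 a369_1 a369_2 a369_3 q369 =>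
  smulK 1 2 2305843009213693954 1152921504606846976 c369 a369_1 a369_2 a369_3 q369 fun c370 a370_1 a370_2 a370_3 q370 =>
  mulK c365 a365_1 a365_2 a365_3 q365 c370 a370_1 a370_2 a370_3 q370 fun c373 a373_1 a373_2 a373_3 q373 =>
  addK c360 a360_1 a360_2 a360_3 q360 c373 a373_1 a373_2 a373_3 q373 fun c374 a374_1 a374_2 a374_3 q374 =>
  mulK z2 1152921504606846976 (Nat.add w2 1152921504606846976) 1152921504606846976 0 c374 a374_1 a374_2 a374_3 q374 fun c376 a376_1 a376_2 a376_3 q376 =>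
  subK c317 a317_1 a317_2 a317_3 q317 c376 a376_1 a376_2 a376_3 q376 fun c377 a377_1 a377_2 a377_3 q377 =>
  mulK z2 1152921504606846976 (Nat.add w2 1152921504606846976) 1152921504606846976 0 c377 a377_1 a377_2 a377_3 q377 fun c379 a379_1 a379_2 a379_3 q379 =>
  addcK c379 a379_1 a379_2 a379_3 q379 1152922604118474752 0 fun c380 a380_1 a380_2 a380_3 q380 =>
  sqrtK c380 a380_1 a380_2 a380_3 q380 fun c382 a382_1 a382_2 a382_3 q382 =>
  addcK c382 a382_1 a382_2 a382_3 q382 1152922604118474752 0 fun c384 a384_1 a384_2 a384_3 q384 =>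
  invK c384 a384_1 a384_2 a384_3 q384 fun c386 a386_1 a386_2 a386_3 q386 =>
  mulK c377 a377_1 a377_2 a377_3 q377 c386 a386_1 a386_2 a386_3 q386 fun c387 a387_1 a387_2 a387_3 q387 =>
  sqK c387 a387_1 a387_2 a387_3 q387 fun c389 a389_1 a389_2 a389_3 q389 =>
  addK c374 a374_1 a374_2 a374_3 q374 c389 a389_1 a389_2 a389_3 q389 fun c390 a390_1 a390_2 a390_3 q390 =>
  smulK 238 125 144115188075855872125 274395318096429580288 c19 a19_1 a19_2 a19_3 q19 fun c391 a391_1 a391_2 a391_3 q391 =>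
  addcK c391 a391_1 a391_2 a391_3 q391 1152911037256150548 1 fun c392 a392_1 a392_2 a392_3 q392 =>
  mulK c392 a392_1 a392_2 a392_3 q392 c19 a19_1 a19_2 a19_3 q19 fun c393 a393_1 a393_2 a393_3 q393 =>
  addcK c393 a393_1 a393_2 a393_3 q393 1152941418961449255 1 fun c394 a394_1 a394_2 a394_3 q394 =>
  mulK c394 a394_1 a394_2 a394_3 q394 c19 a19_1 a19_2 a19_3 q19 fun c395 a395_1 a395_2 a395_3 q395 =>
  addcK c395 a395_1 a395_2 a395_3 q395 1152903604557546783 1 fun c396 a396_1 a396_2 a396_3 q396 =>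
  mulK c396 a396_1 a396_2 a396_3 q396 c19 a19_1 a19_2 a19_3 q19 fun c397 a397_1 a397_2 a397_3 q397 =>
  addcK c397 a397_1 a397_2 a397_3 q397 1152929554131473924 1 fun c398 a398_1 a398_2 a398_3 q398 =>
  mulK c398 a398_1 a398_2 a398_3 q398 c19 a19_1 a19_2 a19_3 q19 fun c399 a399_1 a399_2 a399_3 q399 =>
  addcK c399 a399_1 a399_2 a399_3 q399 1152918908659893797 1 fun c400 a400_1 a400_2 a400_3 q400 =>
  mulK c400 a400_1 a400_2 a400_3 q400 c19 a19_1 a19_2 a19_3 q19 fun c401 a401_1 a401_2 a401_3 q401 =>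
  addcK c401 a401_1 a401_2 a401_3 q401 1152922523854125924 1 fun c402 a402_1 a402_2 a402_3 q402 =>
  mulK c95 a95_1 a95_2 a95_3 q95 c313 a313_1 a313_2 a313_3 q313 fun c404 a404_1 a404_2 a404_3 q404 =>
  smulK 4 1 1152921504606846977 4611686018427387904 c404 a404_1 a404_2 a404_3 q404 fun c405 a405_1 a405_2 a405_3 q405 =>
  addK c402 a402_1 a402_2 a402_3 q402 c405 a405_1 a405_2 a405_3 q405 fun c406 a406_1 a406_2 a406_3 q406 =>
  mulK z2 1152921504606846976 (Nat.add w2 1152921504606846976) 1152921504606846976 0 c354 a354_1 a354_2 a354_3 q354 fun c408 a408_1 a408_2 a408_3 q408 =>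
  smulK 2 1 1152921504606846977 2305843009213693952 c408 a408_1 a408_2 a408_3 q408 fun c409 a409_1 a409_2 a409_3 q409 =>
  subK c406 a406_1 a406_2 a406_3 q406 c409 a409_1 a409_2 a409_3 q409 fun c410 a410_1 a410_2 a410_3 q410 =>
  mulK c390 a390_1 a390_2 a390_3 q390 c410 a410_1 a410_2 a410_3 q410 fun c412 a412_1 a412_2 a412_3 q412 =>
  addK c117 a117_1 a117_2 a117_3 q117 c363 a363_1 a363_2 a363_3 q363 fun c413 a413_1 a413_2 a413_3 q413 =>
  smulK 1 2 2305843009213693954 1152921504606846976 c413 a413_1 a413_2 a413_3 q413 fun c414 a414_1 a414_2 a414_3 q414 =>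
  subK c239 a239_1 a239_2 a239_3 q239 c368 a368_1 a368_2 a368_3 q368 fun c417 a417_1 a417_2 a417_3 q417 =>
  smulK 1 2 2305843009213693954 1152921504606846976 c417 a417_1 a417_2 a417_3 q417 fun c418 a418_1 a418_2 a418_3 q418 =>
  mulK c414 a414_1 a414_2 a414_3 q414 c418 a418_1 a418_2 a418_3 q418 fun c421 a421_1 a421_2 a421_3 q421 =>
  addK c360 a360_1 a360_2 a360_3 q360 c421 a421_1 a421_2 a421_3 q421 fun c422 a422_1 a422_2 a422_3 q422 =>
  negK c317 a317_1 a317_2 a317_3 q317 fun c424 a424_1 a424_2 a424_3 q424 =>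
  mulK z2 1152921504606846976 (Nat.add w2 1152921504606846976) 1152921504606846976 0 c422 a422_1 a422_2 a422_3 q422 fun c425 a425_1 a425_2 a425_3 q425 =>
  subK c424 a424_1 a424_2 a424_3 q424 c425 a425_1 a425_2 a425_3 q425 fun c426 a426_1 a426_2 a426_3 q426 =>
  mulK z2 1152921504606846976 (Nat.add w2 1152921504606846976) 1152921504606846976 0 c426 a426_1 a426_2 a426_3 q426 fun c428 a428_1 a428_2 a428_3 q428 =>
  addcK c428 a428_1 a428_2 a428_3 q428 1152922604118474752 0 fun c429 a429_1 a429_2 a429_3 q429 =>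
  sqrtK c429 a429_1 a429_2 a429_3 q429 fun c431 a431_1 a431_2 a431_3 q431 =>
  addcK c431 a431_1 a431_2 a431_3 q431 1152922604118474752 0 fun c433 a433_1 a433_2 a433_3 q433 =>
  invK c433 a433_1 a433_2 a433_3 q433 fun c435 a435_1 a435_2 a435_3 q435 =>
  mulK c426 a426_1 a426_2 a426_3 q426 c435 a435_1 a435_2 a435_3 q435 fun c436 a436_1 a436_2 a436_3 q436 =>
  sqK c436 a436_1 a436_2 a436_3 q436 fun c438 a438_1 a438_2 a438_3 q438 =>
  addK c422 a422_1 a422_2 a422_3 q422 c438 a438_1 a438_2 a438_3 q438 fun c439 a439_1 a439_2 a439_3 q439 =>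
  addK c406 a406_1 a406_2 a406_3 q406 c409 a409_1 a409_2 a409_3 q409 fun c440 a440_1 a440_2 a440_3 q440 =>
  mulK c439 a439_1 a439_2 a439_3 q439 c440 a440_1 a440_2 a440_3 q440 fun c442 a442_1 a442_2 a442_3 q442 =>
  addK c412 a412_1 a412_2 a412_3 q412 c442 a442_1 a442_2 a442_3 q442 fun c443 a443_1 a443_2 a443_3 q443 =>
  smulK 1 2 2305843009213693954 1152921504606846976 c443 a443_1 a443_2 a443_3 q443 fun c444 a444_1 a444_2 a444_3 q444 =>
  subK c358 a358_1 a358_2 a358_3 q358 c444 a444_1 a444_2 a444_3 q444 fun c446 a446_1 a446_2 a446_3 q446 =>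
  mulK z1 (Nat.add w1 1152921504606846976) 1152921504606846976 1152921504606846976 0 c446 a446_1 a446_2 a446_3 q446 fun c448 a448_1 a448_2 a448_3 q448 =>
  negK c448 a448_1 a448_2 a448_3 q448 fun c449 a449_1 a449_2 a449_3 q449 =>
  reluK c449 a449_1 a449_2 a449_3 q449 fun c450 a450_1 a450_2 a450_3 q450 =>
  sqK c450 a450_1 a450_2 a450_3 q450 fun c451 a451_1 a451_2 a451_3 q451 =>
  subK c284 a284_1 a284_2 a284_3 q284 c451 a451_1 a451_2 a451_3 q451 fun c452 a452_1 a452_2 a452_3 q452 =>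
  pos c452 a452_1 a452_2 a452_3 q452

theorem alt2_s {p1 p2 z1 w1 z2 w2 z3 w3 : ℕ} {e1 e2 e3 a f z p q : ℝ} (he : Ev e1 e2 e3)
    (hp1 : In e1 e2 e3 p1 1152921504606846976 1152921504606846976 1152921504606846976 0 p)
    (hp2 : In e1 e2 e3 p2 1152921504606846976 1152921504606846976 1152921504606846976 0 q)
    (hx1 : In e1 e2 e3 z1 (Nat.add w1 1152921504606846976) 1152921504606846976 1152921504606846976 0 a)
    (hx2 : In e1 e2 e3 z2 1152921504606846976 (Nat.add w2 1152921504606846976) 1152921504606846976 0 f)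
    (hx3 : In e1 e2 e3 z3 1152921504606846976 1152921504606846976 (Nat.add w3 1152921504606846976) 0 z)
    (H0 : alt2 p1 p2 z1 w1 z2 w2 z3 w3 = true) : 0 < ((hp a f z p q) - ((3/10:ℝ) * z)) ∧ 0 < ((11/20:ℝ) - (tBp a f z p q)) ∧ 0 < ((hq a f z p q) - ((3/10:ℝ) * z)) ∧ 0 < ((11/20:ℝ) - (tBq a f z p q)) ∧ 0 < (PB a f z p q) ∧ 0 < (QB a f z p q) ∧ 0 < (((PB a f z p q) * (QB a f z p q)) - ((max (-(a * (ZBB a f z p q))) (0:ℝ)) ^ 2)) := by
  unfold alt2 at H0
  refine smulK_s he (w := (3/2:ℝ)) (by norm_num) (by norm_num) (by norm_num) (by norm_num) hp1 (fun _ _ _ _ _ h1 H1 => ?_) H0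
  have h2 := In_cast (w := (hp a f z p q)) h1 rfl
  refine smulK_s he (w := (3/10:ℝ)) (by norm_num) (by norm_num) (by norm_num) (by norm_num) hx3 (fun _ _ _ _ _ h3 H2 => ?_) H1
  refine subK_s he h2 h3 (fun _ _ _ _ _ h4 H3 => ?_) H2
  refine posK_s he h4 (fun p0 H4 => ?_) H3
  refine mulK_s he h2 hx2 (fun _ _ _ _ _ h5 H5 => ?_) H4
  have h6 := In_cast (w := (tBp a f z p q)) h5 rfl
  refine negK_s he h6 (fun _ _ _ _ _ h7 H6 => ?_) H5
  refine addcK_s he h7 (v' := (11/20:ℝ)) (by norm_num [SS, BB, abs_le]) (fun _ _ _ _ _ h8 H7 => ?_) H6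
  have h9 := In_cast h8 (neg_add_eq_sub _ _)
  refine posK_s he h9 (fun p1 H8 => ?_) H7
  refine smulK_s he (w := (3/2:ℝ)) (by norm_num) (by norm_num) (by norm_num) (by norm_num) hp2 (fun _ _ _ _ _ h10 H9 => ?_) H8
  have h11 := In_cast (w := (hq a f z p q)) h10 rfl
  refine subK_s he h11 h3 (fun _ _ _ _ _ h12 H10 => ?_) H9
  refine posK_s he h12 (fun p2 H11 => ?_) H10
  refine mulK_s he h11 hx2 (fun _ _ _ _ _ h13 H12 => ?_) H11
  have h14 := In_cast (w := (tBq a f z p q)) h13 rfl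
  refine negK_s he h14 (fun _ _ _ _ _ h15 H13 => ?_) H12
  refine addcK_s he h15 (v' := (11/20:ℝ)) (by norm_num [SS, BB, abs_le]) (fun _ _ _ _ _ h16 H14 => ?_) H13
  have h17 := In_cast h16 (neg_add_eq_sub _ _)
  refine posK_s he h17 (fun p3 H15 => ?_) H14
  refine smulK_s he (w := (2:ℝ)) (by norm_num) (by norm_num) (by norm_num) (by norm_num) hx1 (fun _ _ _ _ _ h18 H16 => ?_) H15
  refine addcK_s he h18 (v' := (-1/2:ℝ)) (by norm_num [SS, BB, abs_le]) (fun _ _ _ _ _ h19 H17 => ?_) H16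
  have h20 := In_cast h19 (sub_c (c := (1/2:ℝ)) (by norm_num))
  have h21 := In_cast (w := (x a f z p q)) h20 rfl
  refine smulK_s he (w := (6909/500:ℝ)) (by norm_num) (by norm_num) (by norm_num) (by norm_num) h21 (fun _ _ _ _ _ h22 H18 => ?_) H17
  refine negK_s he h22 (fun _ _ _ _ _ h23 H19 => ?_) H18
  have h24 := In_cast h23 (neg_mul_c (c := (-6909/500:ℝ)) (by norm_num))
  refine addcK_s he h24 (v' := (150507/4000:ℝ)) (by norm_num [SS, BB, abs_le]) (fun _ _ _ _ _ h25 H20 => ?_) H19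
  refine mulK_s he h25 h21 (fun _ _ _ _ _ h26 H21 => ?_) H20
  refine addcK_s he h26 (v' := (-44979/1600:ℝ)) (by norm_num [SS, BB, abs_le]) (fun _ _ _ _ _ h27 H22 => ?_) H21
  refine mulK_s he h27 h21 (fun _ _ _ _ _ h28 H23 => ?_) H22
  refine addcK_s he h28 (v' := (-721/1600:ℝ)) (by norm_num [SS, BB, abs_le]) (fun _ _ _ _ _ h29 H24 => ?_) H23
  refine mulK_s he h29 h21 (fun _ _ _ _ _ h30 H25 => ?_) H24
  refine addcK_s he h30 (v' := (69123/16000:ℝ)) (by norm_num [SS, BB, abs_le]) (fun _ _ _ _ _ h31 H26 => ?_) H25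
  refine mulK_s he h31 h21 (fun _ _ _ _ _ h32 H27 => ?_) H26
  refine addcK_s he h32 (v' := (13983/64000:ℝ)) (by norm_num [SS, BB, abs_le]) (fun _ _ _ _ _ h33 H28 => ?_) H27
  refine mulK_s he h33 h21 (fun _ _ _ _ _ h34 H29 => ?_) H28
  refine addcK_s he h34 (v' := (-56659/128000:ℝ)) (by norm_num [SS, BB, abs_le]) (fun _ _ _ _ _ h35 H30 => ?_) H29
  refine mulK_s he hx1 hx2 (fun _ _ _ _ _ h36 H31 => ?_) H30
  refine sqK_s he h36 (fun _ _ _ _ _ h37 H32 => ?_) H31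
  refine smulK_s he (w := (4:ℝ)) (by norm_num) (by norm_num) (by norm_num) (by norm_num) h37 (fun _ _ _ _ _ h38 H33 => ?_) H32
  have h39 := In_cast (w := (dd a f z p q)) h38 rfl
  refine smulK_s he (w := (6909/200:ℝ)) (by norm_num) (by norm_num) (by norm_num) (by norm_num) h21 (fun _ _ _ _ _ h40 H34 => ?_) H33
  refine negK_s he h40 (fun _ _ _ _ _ h41 H35 => ?_) H34
  have h42 := In_cast h41 (neg_mul_c (c := (-6909/200:ℝ)) (by norm_num))
  refine addcK_s he h42 (v' := (50169/800:ℝ)) (by norm_num [SS, BB, abs_le]) (fun _ _ _ _ _ h43 H36 => ?_) H35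
  refine mulK_s he h43 h21 (fun _ _ _ _ _ h44 H37 => ?_) H36
  refine addcK_s he h44 (v' := (-44979/1600:ℝ)) (by norm_num [SS, BB, abs_le]) (fun _ _ _ _ _ h45 H38 => ?_) H37
  refine mulK_s he h45 h21 (fun _ _ _ _ _ h46 H39 => ?_) H38
  refine addcK_s he h46 (v' := (-721/3200:ℝ)) (by norm_num [SS, BB, abs_le]) (fun _ _ _ _ _ h47 H40 => ?_) H39
  refine mulK_s he h47 h21 (fun _ _ _ _ _ h48 H41 => ?_) H40
  refine addcK_s he h48 (v' := (23041/32000:ℝ)) (by norm_num [SS, BB, abs_le]) (fun _ _ _ _ _ h49 H42 => ?_) H41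
  refine addcK_s he h24 (v' := (50169/4000:ℝ)) (by norm_num [SS, BB, abs_le]) (fun _ _ _ _ _ h50 H43 => ?_) H42
  refine mulK_s he h50 h21 (fun _ _ _ _ _ h51 H44 => ?_) H43
  refine addcK_s he h51 (v' := (-14993/8000:ℝ)) (by norm_num [SS, BB, abs_le]) (fun _ _ _ _ _ h52 H45 => ?_) H44
  refine smulK_s he (w := (987/2000:ℝ)) (by norm_num) (by norm_num) (by norm_num) (by norm_num) h39 (fun _ _ _ _ _ h53 H46 => ?_) H45
  refine negK_s he h53 (fun _ _ _ _ _ h54 H47 => ?_) H46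
  have h55 := In_cast h54 (neg_mul_c (c := (-987/2000:ℝ)) (by norm_num))
  refine addK_s he h52 h55 (fun _ _ _ _ _ h56 H48 => ?_) H47
  refine mulK_s he h39 h56 (fun _ _ _ _ _ h57 H49 => ?_) H48
  refine addK_s he h49 h57 (fun _ _ _ _ _ h58 H50 => ?_) H49
  refine mulK_s he h39 h58 (fun _ _ _ _ _ h59 H51 => ?_) H50
  refine addK_s he h35 h59 (fun _ _ _ _ _ h60 H52 => ?_) H51
  have h61 := In_cast (w := (uE a f z p q)) h60 rfl
  refine mulK_s he hx1 h61 (fun _ _ _ _ _ h62 H53 => ?_) H52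
  refine smulK_s he (w := (8:ℝ)) (by norm_num) (by norm_num) (by norm_num) (by norm_num) h62 (fun _ _ _ _ _ h63 H54 => ?_) H53
  refine sqK_s he h6 (fun _ _ _ _ _ h64 H55 => ?_) H54
  refine addcK_s he h64 (v' := (1:ℝ)) (by norm_num [SS, BB, abs_le]) (fun _ _ _ _ _ h65 H56 => ?_) H55
  have h66 := In_cast h65 (add_comm _ _)
  refine invK_s he h66 (fun _ _ _ _ _ h67 H57 => ?_) H56
  refine smulK_s he (w := (2:ℝ)) (by norm_num) (by norm_num) (by norm_num) (by norm_num) h2 (fun _ _ _ _ _ h68 H58 => ?_) H57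
  refine mulK_s he h68 h67 (fun _ _ _ _ _ h69 H59 => ?_) H58
  have h70 := In_cast h69 ((div_eq_mul_inv _ _).symm)
  have h71 := In_cast (w := (Sp a f z p q)) h70 rfl
  refine mulK_s he h2 h71 (fun _ _ _ _ _ h72 H60 => ?_) H59
  have h73 := In_cast (w := (Cp a f z p q)) h72 rfl
  refine mulK_s he hx3 h71 (fun _ _ _ _ _ h74 H61 => ?_) H60
  refine smulK_s he (w := (1/50:ℝ)) (by norm_num) (by norm_num) (by norm_num) (by norm_num) h74 (fun _ _ _ _ _ h75 H62 => ?_) H61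
  refine subK_s he h73 h75 (fun _ _ _ _ _ h76 H63 => ?_) H62
  have h77 := In_cast (w := (kaBp a f z p q)) h76 rfl
  refine smulK_s he (w := (987/1000:ℝ)) (by norm_num) (by norm_num) (by norm_num) (by norm_num) h21 (fun _ _ _ _ _ h78 H64 => ?_) H63
  refine negK_s he h78 (fun _ _ _ _ _ h79 H65 => ?_) H64
  have h80 := In_cast h79 (neg_mul_c (c := (-987/1000:ℝ)) (by norm_num))
  refine addcK_s he h80 (v' := (4077/1000:ℝ)) (by norm_num [SS, BB, abs_le]) (fun _ _ _ _ _ h81 H66 => ?_) H65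
  refine mulK_s he h81 h21 (fun _ _ _ _ _ h82 H67 => ?_) H66
  refine addcK_s he h82 (v' := (-23147/4000:ℝ)) (by norm_num [SS, BB, abs_le]) (fun _ _ _ _ _ h83 H68 => ?_) H67
  refine mulK_s he h83 h21 (fun _ _ _ _ _ h84 H69 => ?_) H68
  refine addcK_s he h84 (v' := (11213/4000:ℝ)) (by norm_num [SS, BB, abs_le]) (fun _ _ _ _ _ h85 H70 => ?_) H69
  refine mulK_s he h85 h21 (fun _ _ _ _ _ h86 H71 => ?_) H70
  refine addcK_s he h86 (v' := (123/3200:ℝ)) (by norm_num [SS, BB, abs_le]) (fun _ _ _ _ _ h87 H72 => ?_) H71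
  refine mulK_s he h87 h21 (fun _ _ _ _ _ h88 H73 => ?_) H72
  refine addcK_s he h88 (v' := (2023/16000:ℝ)) (by norm_num [SS, BB, abs_le]) (fun _ _ _ _ _ h89 H74 => ?_) H73
  refine mulK_s he h89 h21 (fun _ _ _ _ _ h90 H75 => ?_) H74
  refine addcK_s he h90 (v' := (-12141/12800:ℝ)) (by norm_num [SS, BB, abs_le]) (fun _ _ _ _ _ h91 H76 => ?_) H75
  refine mulK_s he h91 h21 (fun _ _ _ _ _ h92 H77 => ?_) H76
  refine addcK_s he h92 (v' := (75807/64000:ℝ)) (by norm_num [SS, BB, abs_le]) (fun _ _ _ _ _ h93 H78 => ?_) H77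
  have h94 := In_cast (w := (uh a f z p q)) h93 rfl
  refine sqK_s he hx2 (fun _ _ _ _ _ h95 H79 => ?_) H78
  refine mulK_s he hx1 h95 (fun _ _ _ _ _ h96 H80 => ?_) H79
  refine smulK_s he (w := (4:ℝ)) (by norm_num) (by norm_num) (by norm_num) (by norm_num) h96 (fun _ _ _ _ _ h97 H81 => ?_) H80
  have h98 := In_cast (w := (af2 a f z p q)) h97 rfl
  refine mulK_s he h98 h61 (fun _ _ _ _ _ h99 H82 => ?_) H81
  refine addK_s he h94 h99 (fun _ _ _ _ _ h100 H83 => ?_) H82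
  have h101 := In_cast (w := (um a f z p q)) h100 rfl
  refine mulK_s he h77 h101 (fun _ _ _ _ _ h102 H84 => ?_) H83
  refine subK_s he h63 h102 (fun _ _ _ _ _ h103 H85 => ?_) H84
  refine mulK_s he hx2 h73 (fun _ _ _ _ _ h104 H86 => ?_) H85
  refine mulK_s he hx3 hx2 (fun _ _ _ _ _ h105 H87 => ?_) H86
  have h106 := In_cast (w := (s a f z p q)) h105 rfl
  refine smulK_s he (w := (1/2:ℝ)) (by norm_num) (by norm_num) (by norm_num) (by norm_num) h106 (fun _ _ _ _ _ h107 H88 => ?_) H87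
  have h108 := In_cast h107 (div_c (c := (2:ℝ)) (by norm_num))
  refine negK_s he h108 (fun _ _ _ _ _ h109 H89 => ?_) H88
  refine addcK_s he h109 (v' := (1:ℝ)) (by norm_num [SS, BB, abs_le]) (fun _ _ _ _ _ h110 H90 => ?_) H89
  have h111 := In_cast h110 (neg_add_eq_sub _ _)
  refine mulK_s he h104 h111 (fun _ _ _ _ _ h112 H91 => ?_) H90
  refine smulK_s he (w := (6/25:ℝ)) (by norm_num) (by norm_num) (by norm_num) (by norm_num) hx3 (fun _ _ _ _ _ h113 H92 => ?_) H91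
  refine smulK_s he (w := (29/50:ℝ)) (by norm_num) (by norm_num) (by norm_num) (by norm_num) h71 (fun _ _ _ _ _ h114 H93 => ?_) H92
  refine addK_s he h113 h114 (fun _ _ _ _ _ h115 H94 => ?_) H93
  refine mulK_s he h106 h115 (fun _ _ _ _ _ h116 H95 => ?_) H94
  refine addK_s he h112 h116 (fun _ _ _ _ _ h117 H96 => ?_) H95
  have h118 := In_cast (w := (nuBp a f z p q)) h117 rfl
  refine smulK_s he (w := (987/250:ℝ)) (by norm_num) (by norm_num) (by norm_num) (by norm_num) h21 (fun _ _ _ _ _ h119 H97 => ?_) H96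
  refine negK_s he h119 (fun _ _ _ _ _ h120 H98 => ?_) H97
  have h121 := In_cast h120 (neg_mul_c (c := (-987/250:ℝ)) (by norm_num))
  refine addcK_s he h121 (v' := (50169/4000:ℝ)) (by norm_num [SS, BB, abs_le]) (fun _ _ _ _ _ h122 H99 => ?_) H98
  refine mulK_s he h122 h21 (fun _ _ _ _ _ h123 H100 => ?_) H99
  refine addcK_s he h123 (v' := (-44979/4000:ℝ)) (by norm_num [SS, BB, abs_le]) (fun _ _ _ _ _ h124 H101 => ?_) H100
  refine mulK_s he h124 h21 (fun _ _ _ _ _ h125 H102 => ?_) H101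
  refine addcK_s he h125 (v' := (-721/3200:ℝ)) (by norm_num [SS, BB, abs_le]) (fun _ _ _ _ _ h126 H103 => ?_) H102
  refine mulK_s he h126 h21 (fun _ _ _ _ _ h127 H104 => ?_) H103
  refine addcK_s he h127 (v' := (23041/8000:ℝ)) (by norm_num [SS, BB, abs_le]) (fun _ _ _ _ _ h128 H105 => ?_) H104
  refine mulK_s he h128 h21 (fun _ _ _ _ _ h129 H106 => ?_) H105
  refine addcK_s he h129 (v' := (13983/64000:ℝ)) (by norm_num [SS, BB, abs_le]) (fun _ _ _ _ _ h130 H107 => ?_) H106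
  refine mulK_s he h130 h21 (fun _ _ _ _ _ h131 H108 => ?_) H107
  refine addcK_s he h131 (v' := (-56659/64000:ℝ)) (by norm_num [SS, BB, abs_le]) (fun _ _ _ _ _ h132 H109 => ?_) H108
  refine mulK_s he h132 h21 (fun _ _ _ _ _ h133 H110 => ?_) H109
  refine addcK_s he h133 (v' := (90909/256000:ℝ)) (by norm_num [SS, BB, abs_le]) (fun _ _ _ _ _ h134 H111 => ?_) H110
  refine smulK_s he (w := (6909/250:ℝ)) (by norm_num) (by norm_num) (by norm_num) (by norm_num) h21 (fun _ _ _ _ _ h135 H112 => ?_) H111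
  refine negK_s he h135 (fun _ _ _ _ _ h136 H113 => ?_) H112
  have h137 := In_cast h136 (neg_mul_c (c := (-6909/250:ℝ)) (by norm_num))
  refine addcK_s he h137 (v' := (50169/800:ℝ)) (by norm_num [SS, BB, abs_le]) (fun _ _ _ _ _ h138 H114 => ?_) H113
  refine mulK_s he h138 h21 (fun _ _ _ _ _ h139 H115 => ?_) H114
  refine addcK_s he h139 (v' := (-14993/400:ℝ)) (by norm_num [SS, BB, abs_le]) (fun _ _ _ _ _ h140 H116 => ?_) H115
  refine mulK_s he h140 h21 (fun _ _ _ _ _ h141 H117 => ?_) H116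
  refine addcK_s he h141 (v' := (-721/1600:ℝ)) (by norm_num [SS, BB, abs_le]) (fun _ _ _ _ _ h142 H118 => ?_) H117
  refine mulK_s he h142 h21 (fun _ _ _ _ _ h143 H119 => ?_) H118
  refine addcK_s he h143 (v' := (23041/8000:ℝ)) (by norm_num [SS, BB, abs_le]) (fun _ _ _ _ _ h144 H120 => ?_) H119
  refine mulK_s he h144 h21 (fun _ _ _ _ _ h145 H121 => ?_) H120
  refine addcK_s he h145 (v' := (4661/64000:ℝ)) (by norm_num [SS, BB, abs_le]) (fun _ _ _ _ _ h146 H122 => ?_) H121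
  refine addcK_s he h137 (v' := (150507/4000:ℝ)) (by norm_num [SS, BB, abs_le]) (fun _ _ _ _ _ h147 H123 => ?_) H122
  refine mulK_s he h147 h21 (fun _ _ _ _ _ h148 H124 => ?_) H123
  refine addcK_s he h148 (v' := (-44979/4000:ℝ)) (by norm_num [SS, BB, abs_le]) (fun _ _ _ _ _ h149 H125 => ?_) H124
  refine mulK_s he h149 h21 (fun _ _ _ _ _ h150 H126 => ?_) H125
  refine addcK_s he h150 (v' := (-721/16000:ℝ)) (by norm_num [SS, BB, abs_le]) (fun _ _ _ _ _ h151 H127 => ?_) H126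
  refine addcK_s he h121 (v' := (7167/4000:ℝ)) (by norm_num [SS, BB, abs_le]) (fun _ _ _ _ _ h152 H128 => ?_) H127
  refine mulK_s he h39 h152 (fun _ _ _ _ _ h153 H129 => ?_) H128
  refine addK_s he h151 h153 (fun _ _ _ _ _ h154 H130 => ?_) H129
  refine mulK_s he h39 h154 (fun _ _ _ _ _ h155 H131 => ?_) H130
  refine addK_s he h146 h155 (fun _ _ _ _ _ h156 H132 => ?_) H131
  refine mulK_s he h39 h156 (fun _ _ _ _ _ h157 H133 => ?_) H132
  refine addK_s he h134 h157 (fun _ _ _ _ _ h158 H134 => ?_) H133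
  have h159 := In_cast (w := (uO a f z p q)) h158 rfl
  refine mulK_s he h118 h159 (fun _ _ _ _ _ h160 H135 => ?_) H134
  refine smulK_s he (w := (2:ℝ)) (by norm_num) (by norm_num) (by norm_num) (by norm_num) h160 (fun _ _ _ _ _ h161 H136 => ?_) H135
  refine subK_s he h103 h161 (fun _ _ _ _ _ h162 H137 => ?_) H136
  refine smulK_s he (w := (3/500:ℝ)) (by norm_num) (by norm_num) (by norm_num) (by norm_num) h106 (fun _ _ _ _ _ h163 H138 => ?_) H137
  refine negK_s he h163 (fun _ _ _ _ _ h164 H139 => ?_) H138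
  refine addcK_s he h164 (v' := (499/500:ℝ)) (by norm_num [SS, BB, abs_le]) (fun _ _ _ _ _ h165 H140 => ?_) H139
  have h166 := In_cast h165 (neg_add_eq_sub _ _)
  refine mulK_s he h166 h71 (fun _ _ _ _ _ h167 H141 => ?_) H140
  have h168 := In_cast (w := (laBp a f z p q)) h167 rfl
  refine smulK_s he (w := (2:ℝ)) (by norm_num) (by norm_num) (by norm_num) (by norm_num) h168 (fun _ _ _ _ _ h169 H142 => ?_) H141
  refine addK_s he h162 h169 (fun _ _ _ _ _ h170 H143 => ?_) H142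
  have h171 := In_cast (w := (PB a f z p q)) h170 rfl
  refine posK_s he h171 (fun p4 H144 => ?_) H143
  refine addcK_s he h24 (v' := (1449/32:ℝ)) (by norm_num [SS, BB, abs_le]) (fun _ _ _ _ _ h172 H145 => ?_) H144
  refine mulK_s he h172 h21 (fun _ _ _ _ _ h173 H146 => ?_) H145
  refine addcK_s he h173 (v' := (-75597/1600:ℝ)) (by norm_num [SS, BB, abs_le]) (fun _ _ _ _ _ h174 H147 => ?_) H146
  refine mulK_s he h174 h21 (fun _ _ _ _ _ h175 H148 => ?_) H147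
  refine addcK_s he h175 (v' := (4157/320:ℝ)) (by norm_num [SS, BB, abs_le]) (fun _ _ _ _ _ h176 H149 => ?_) H148
  refine mulK_s he h176 h21 (fun _ _ _ _ _ h177 H150 => ?_) H149
  refine addcK_s he h177 (v' := (52713/16000:ℝ)) (by norm_num [SS, BB, abs_le]) (fun _ _ _ _ _ h178 H151 => ?_) H150
  refine mulK_s he h178 h21 (fun _ _ _ _ _ h179 H152 => ?_) H151
  refine addcK_s he h179 (v' := (-3651/12800:ℝ)) (by norm_num [SS, BB, abs_le]) (fun _ _ _ _ _ h180 H153 => ?_) H152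
  refine mulK_s he h180 h21 (fun _ _ _ _ _ h181 H154 => ?_) H153
  refine addcK_s he h181 (v' := (-84189/128000:ℝ)) (by norm_num [SS, BB, abs_le]) (fun _ _ _ _ _ h182 H155 => ?_) H154
  refine addcK_s he h42 (v' := (2415/32:ℝ)) (by norm_num [SS, BB, abs_le]) (fun _ _ _ _ _ h183 H156 => ?_) H155
  refine mulK_s he h183 h21 (fun _ _ _ _ _ h184 H157 => ?_) H156
  refine addcK_s he h184 (v' := (-75597/1600:ℝ)) (by norm_num [SS, BB, abs_le]) (fun _ _ _ _ _ h185 H158 => ?_) H157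
  refine mulK_s he h185 h21 (fun _ _ _ _ _ h186 H159 => ?_) H158
  refine addcK_s he h186 (v' := (4157/640:ℝ)) (by norm_num [SS, BB, abs_le]) (fun _ _ _ _ _ h187 H160 => ?_) H159
  refine mulK_s he h187 h21 (fun _ _ _ _ _ h188 H161 => ?_) H160
  refine addcK_s he h188 (v' := (17571/32000:ℝ)) (by norm_num [SS, BB, abs_le]) (fun _ _ _ _ _ h189 H162 => ?_) H161
  refine addcK_s he h24 (v' := (483/32:ℝ)) (by norm_num [SS, BB, abs_le]) (fun _ _ _ _ _ h190 H163 => ?_) H162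
  refine mulK_s he h190 h21 (fun _ _ _ _ _ h191 H164 => ?_) H163
  refine addcK_s he h191 (v' := (-25199/8000:ℝ)) (by norm_num [SS, BB, abs_le]) (fun _ _ _ _ _ h192 H165 => ?_) H164
  refine addK_s he h192 h55 (fun _ _ _ _ _ h193 H166 => ?_) H165
  refine mulK_s he h39 h193 (fun _ _ _ _ _ h194 H167 => ?_) H166
  refine addK_s he h189 h194 (fun _ _ _ _ _ h195 H168 => ?_) H167
  refine mulK_s he h39 h195 (fun _ _ _ _ _ h196 H169 => ?_) H168
  refine addK_s he h182 h196 (fun _ _ _ _ _ h197 H170 => ?_) H169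
  have h198 := In_cast (w := (cE a f z p q)) h197 rfl
  refine mulK_s he hx1 h198 (fun _ _ _ _ _ h199 H171 => ?_) H170
  refine smulK_s he (w := (8:ℝ)) (by norm_num) (by norm_num) (by norm_num) (by norm_num) h199 (fun _ _ _ _ _ h200 H172 => ?_) H171
  refine sqK_s he h14 (fun _ _ _ _ _ h201 H173 => ?_) H172
  refine addcK_s he h201 (v' := (1:ℝ)) (by norm_num [SS, BB, abs_le]) (fun _ _ _ _ _ h202 H174 => ?_) H173
  have h203 := In_cast h202 (add_comm _ _)
  refine invK_s he h203 (fun _ _ _ _ _ h204 H175 => ?_) H174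
  refine smulK_s he (w := (2:ℝ)) (by norm_num) (by norm_num) (by norm_num) (by norm_num) h11 (fun _ _ _ _ _ h205 H176 => ?_) H175
  refine mulK_s he h205 h204 (fun _ _ _ _ _ h206 H177 => ?_) H176
  have h207 := In_cast h206 ((div_eq_mul_inv _ _).symm)
  have h208 := In_cast (w := (Sq a f z p q)) h207 rfl
  refine mulK_s he h11 h208 (fun _ _ _ _ _ h209 H178 => ?_) H177
  have h210 := In_cast (w := (Cq a f z p q)) h209 rfl
  refine mulK_s he hx3 h208 (fun _ _ _ _ _ h211 H179 => ?_) H178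
  refine smulK_s he (w := (1/50:ℝ)) (by norm_num) (by norm_num) (by norm_num) (by norm_num) h211 (fun _ _ _ _ _ h212 H180 => ?_) H179
  refine subK_s he h210 h212 (fun _ _ _ _ _ h213 H181 => ?_) H180
  have h214 := In_cast (w := (kaBq a f z p q)) h213 rfl
  refine addcK_s he h80 (v' := (2403/500:ℝ)) (by norm_num [SS, BB, abs_le]) (fun _ _ _ _ _ h215 H182 => ?_) H181
  refine mulK_s he h215 h21 (fun _ _ _ _ _ h216 H183 => ?_) H182
  refine addcK_s he h216 (v' := (-34811/4000:ℝ)) (by norm_num [SS, BB, abs_le]) (fun _ _ _ _ _ h217 H184 => ?_) H183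
  refine mulK_s he h217 h21 (fun _ _ _ _ _ h218 H185 => ?_) H184
  refine addcK_s he h218 (v' := (13899/2000:ℝ)) (by norm_num [SS, BB, abs_le]) (fun _ _ _ _ _ h219 H186 => ?_) H185
  refine mulK_s he h219 h21 (fun _ _ _ _ _ h220 H187 => ?_) H186
  refine addcK_s he h220 (v' := (-1521/640:ℝ)) (by norm_num [SS, BB, abs_le]) (fun _ _ _ _ _ h221 H188 => ?_) H187
  refine mulK_s he h221 h21 (fun _ _ _ _ _ h222 H189 => ?_) H188
  refine addcK_s he h222 (v' := (1597/1600:ℝ)) (by norm_num [SS, BB, abs_le]) (fun _ _ _ _ _ h223 H190 => ?_) H189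
  refine mulK_s he h223 h21 (fun _ _ _ _ _ h224 H191 => ?_) H190
  refine addcK_s he h224 (v' := (-116129/64000:ℝ)) (by norm_num [SS, BB, abs_le]) (fun _ _ _ _ _ h225 H192 => ?_) H191
  refine mulK_s he h225 h21 (fun _ _ _ _ _ h226 H193 => ?_) H192
  refine addcK_s he h226 (v' := (9741/6400:ℝ)) (by norm_num [SS, BB, abs_le]) (fun _ _ _ _ _ h227 H194 => ?_) H193
  have h228 := In_cast (w := (ch a f z p q)) h227 rfl
  refine mulK_s he h98 h198 (fun _ _ _ _ _ h229 H195 => ?_) H194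
  refine addK_s he h228 h229 (fun _ _ _ _ _ h230 H196 => ?_) H195
  have h231 := In_cast (w := (cm a f z p q)) h230 rfl
  refine mulK_s he h214 h231 (fun _ _ _ _ _ h232 H197 => ?_) H196
  refine subK_s he h200 h232 (fun _ _ _ _ _ h233 H198 => ?_) H197
  refine mulK_s he hx2 h210 (fun _ _ _ _ _ h234 H199 => ?_) H198
  refine mulK_s he h234 h111 (fun _ _ _ _ _ h235 H200 => ?_) H199
  refine smulK_s he (w := (29/50:ℝ)) (by norm_num) (by norm_num) (by norm_num) (by norm_num) h208 (fun _ _ _ _ _ h236 H201 => ?_) H200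
  refine addK_s he h113 h236 (fun _ _ _ _ _ h237 H202 => ?_) H201
  refine mulK_s he h106 h237 (fun _ _ _ _ _ h238 H203 => ?_) H202
  refine addK_s he h235 h238 (fun _ _ _ _ _ h239 H204 => ?_) H203
  have h240 := In_cast (w := (nuBq a f z p q)) h239 rfl
  refine addcK_s he h121 (v' := (483/32:ℝ)) (by norm_num [SS, BB, abs_le]) (fun _ _ _ _ _ h241 H205 => ?_) H204
  refine mulK_s he h241 h21 (fun _ _ _ _ _ h242 H206 => ?_) H205
  refine addcK_s he h242 (v' := (-75597/4000:ℝ)) (by norm_num [SS, BB, abs_le]) (fun _ _ _ _ _ h243 H207 => ?_) H206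
  refine mulK_s he h243 h21 (fun _ _ _ _ _ h244 H208 => ?_) H207
  refine addcK_s he h244 (v' := (4157/640:ℝ)) (by norm_num [SS, BB, abs_le]) (fun _ _ _ _ _ h245 H209 => ?_) H208
  refine mulK_s he h245 h21 (fun _ _ _ _ _ h246 H210 => ?_) H209
  refine addcK_s he h246 (v' := (17571/8000:ℝ)) (by norm_num [SS, BB, abs_le]) (fun _ _ _ _ _ h247 H211 => ?_) H210
  refine mulK_s he h247 h21 (fun _ _ _ _ _ h248 H212 => ?_) H211
  refine addcK_s he h248 (v' := (-3651/12800:ℝ)) (by norm_num [SS, BB, abs_le]) (fun _ _ _ _ _ h249 H213 => ?_) H212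
  refine mulK_s he h249 h21 (fun _ _ _ _ _ h250 H214 => ?_) H213
  refine addcK_s he h250 (v' := (-84189/64000:ℝ)) (by norm_num [SS, BB, abs_le]) (fun _ _ _ _ _ h251 H215 => ?_) H214
  refine mulK_s he h251 h21 (fun _ _ _ _ _ h252 H216 => ?_) H215
  refine addcK_s he h252 (v' := (78691/256000:ℝ)) (by norm_num [SS, BB, abs_le]) (fun _ _ _ _ _ h253 H217 => ?_) H216
  refine addcK_s he h137 (v' := (2415/32:ℝ)) (by norm_num [SS, BB, abs_le]) (fun _ _ _ _ _ h254 H218 => ?_) H217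
  refine mulK_s he h254 h21 (fun _ _ _ _ _ h255 H219 => ?_) H218
  refine addcK_s he h255 (v' := (-25199/400:ℝ)) (by norm_num [SS, BB, abs_le]) (fun _ _ _ _ _ h256 H220 => ?_) H219
  refine mulK_s he h256 h21 (fun _ _ _ _ _ h257 H221 => ?_) H220
  refine addcK_s he h257 (v' := (4157/320:ℝ)) (by norm_num [SS, BB, abs_le]) (fun _ _ _ _ _ h258 H222 => ?_) H221
  refine mulK_s he h258 h21 (fun _ _ _ _ _ h259 H223 => ?_) H222
  refine addcK_s he h259 (v' := (17571/8000:ℝ)) (by norm_num [SS, BB, abs_le]) (fun _ _ _ _ _ h260 H224 => ?_) H223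
  refine mulK_s he h260 h21 (fun _ _ _ _ _ h261 H225 => ?_) H224
  refine addcK_s he h261 (v' := (-1217/12800:ℝ)) (by norm_num [SS, BB, abs_le]) (fun _ _ _ _ _ h262 H226 => ?_) H225
  refine addcK_s he h137 (v' := (1449/32:ℝ)) (by norm_num [SS, BB, abs_le]) (fun _ _ _ _ _ h263 H227 => ?_) H226
  refine mulK_s he h263 h21 (fun _ _ _ _ _ h264 H228 => ?_) H227
  refine addcK_s he h264 (v' := (-75597/4000:ℝ)) (by norm_num [SS, BB, abs_le]) (fun _ _ _ _ _ h265 H229 => ?_) H228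
  refine mulK_s he h265 h21 (fun _ _ _ _ _ h266 H230 => ?_) H229
  refine addcK_s he h266 (v' := (4157/3200:ℝ)) (by norm_num [SS, BB, abs_le]) (fun _ _ _ _ _ h267 H231 => ?_) H230
  refine addcK_s he h121 (v' := (69/32:ℝ)) (by norm_num [SS, BB, abs_le]) (fun _ _ _ _ _ h268 H232 => ?_) H231
  refine mulK_s he h39 h268 (fun _ _ _ _ _ h269 H233 => ?_) H232
  refine addK_s he h267 h269 (fun _ _ _ _ _ h270 H234 => ?_) H233
  refine mulK_s he h39 h270 (fun _ _ _ _ _ h271 H235 => ?_) H234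
  refine addK_s he h262 h271 (fun _ _ _ _ _ h272 H236 => ?_) H235
  refine mulK_s he h39 h272 (fun _ _ _ _ _ h273 H237 => ?_) H236
  refine addK_s he h253 h273 (fun _ _ _ _ _ h274 H238 => ?_) H237
  have h275 := In_cast (w := (cO a f z p q)) h274 rfl
  refine mulK_s he h240 h275 (fun _ _ _ _ _ h276 H239 => ?_) H238
  refine smulK_s he (w := (2:ℝ)) (by norm_num) (by norm_num) (by norm_num) (by norm_num) h276 (fun _ _ _ _ _ h277 H240 => ?_) H239
  refine addK_s he h233 h277 (fun _ _ _ _ _ h278 H241 => ?_) H240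
  refine mulK_s he h166 h208 (fun _ _ _ _ _ h279 H242 => ?_) H241
  have h280 := In_cast (w := (laBq a f z p q)) h279 rfl
  refine smulK_s he (w := (2:ℝ)) (by norm_num) (by norm_num) (by norm_num) (by norm_num) h280 (fun _ _ _ _ _ h281 H243 => ?_) H242
  refine addK_s he h278 h281 (fun _ _ _ _ _ h282 H244 => ?_) H243
  have h283 := In_cast (w := (QB a f z p q)) h282 rfl
  refine posK_s he h283 (fun p5 H245 => ?_) H244
  refine mulK_s he h171 h283 (fun _ _ _ _ _ h284 H246 => ?_) H245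
  refine smulK_s he (w := (1666/125:ℝ)) (by norm_num) (by norm_num) (by norm_num) (by norm_num) h21 (fun _ _ _ _ _ h285 H247 => ?_) H246
  refine addcK_s he h285 (v' := (-4998/125:ℝ)) (by norm_num [SS, BB, abs_le]) (fun _ _ _ _ _ h286 H248 => ?_) H247
  refine mulK_s he h286 h21 (fun _ _ _ _ _ h287 H249 => ?_) H248
  refine addcK_s he h287 (v' := (6801/200:ℝ)) (by norm_num [SS, BB, abs_le]) (fun _ _ _ _ _ h288 H250 => ?_) H249
  refine mulK_s he h288 h21 (fun _ _ _ _ _ h289 H251 => ?_) H250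
  refine addcK_s he h289 (v' := (-137/100:ℝ)) (by norm_num [SS, BB, abs_le]) (fun _ _ _ _ _ h290 H252 => ?_) H251
  refine mulK_s he h290 h21 (fun _ _ _ _ _ h291 H253 => ?_) H252
  refine addcK_s he h291 (v' := (-13293/2000:ℝ)) (by norm_num [SS, BB, abs_le]) (fun _ _ _ _ _ h292 H254 => ?_) H253
  refine mulK_s he h292 h21 (fun _ _ _ _ _ h293 H255 => ?_) H254
  refine addcK_s he h293 (v' := (267/400:ℝ)) (by norm_num [SS, BB, abs_le]) (fun _ _ _ _ _ h294 H256 => ?_) H255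
  refine mulK_s he h294 h21 (fun _ _ _ _ _ h295 H257 => ?_) H256
  refine addcK_s he h295 (v' := (317/3200:ℝ)) (by norm_num [SS, BB, abs_le]) (fun _ _ _ _ _ h296 H258 => ?_) H257
  refine smulK_s he (w := (833/25:ℝ)) (by norm_num) (by norm_num) (by norm_num) (by norm_num) h21 (fun _ _ _ _ _ h297 H259 => ?_) H258
  refine addcK_s he h297 (v' := (-1666/25:ℝ)) (by norm_num [SS, BB, abs_le]) (fun _ _ _ _ _ h298 H260 => ?_) H259
  refine mulK_s he h298 h21 (fun _ _ _ _ _ h299 H261 => ?_) H260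
  refine addcK_s he h299 (v' := (6801/200:ℝ)) (by norm_num [SS, BB, abs_le]) (fun _ _ _ _ _ h300 H262 => ?_) H261
  refine mulK_s he h300 h21 (fun _ _ _ _ _ h301 H263 => ?_) H262
  refine addcK_s he h301 (v' := (-137/200:ℝ)) (by norm_num [SS, BB, abs_le]) (fun _ _ _ _ _ h302 H264 => ?_) H263
  refine mulK_s he h302 h21 (fun _ _ _ _ _ h303 H265 => ?_) H264
  refine addcK_s he h303 (v' := (-4431/4000:ℝ)) (by norm_num [SS, BB, abs_le]) (fun _ _ _ _ _ h304 H266 => ?_) H265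
  refine addcK_s he h285 (v' := (-1666/125:ℝ)) (by norm_num [SS, BB, abs_le]) (fun _ _ _ _ _ h305 H267 => ?_) H266
  refine mulK_s he h305 h21 (fun _ _ _ _ _ h306 H268 => ?_) H267
  refine addcK_s he h306 (v' := (2267/1000:ℝ)) (by norm_num [SS, BB, abs_le]) (fun _ _ _ _ _ h307 H269 => ?_) H268
  refine smulK_s he (w := (119/250:ℝ)) (by norm_num) (by norm_num) (by norm_num) (by norm_num) h39 (fun _ _ _ _ _ h308 H270 => ?_) H269
  refine addK_s he h307 h308 (fun _ _ _ _ _ h309 H271 => ?_) H270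
  refine mulK_s he h39 h309 (fun _ _ _ _ _ h310 H272 => ?_) H271
  refine addK_s he h304 h310 (fun _ _ _ _ _ h311 H273 => ?_) H272
  refine mulK_s he h39 h311 (fun _ _ _ _ _ h312 H274 => ?_) H273
  refine addK_s he h296 h312 (fun _ _ _ _ _ h313 H275 => ?_) H274
  have h314 := In_cast (w := (vE a f z p q)) h313 rfl
  refine smulK_s he (w := (8:ℝ)) (by norm_num) (by norm_num) (by norm_num) (by norm_num) h314 (fun _ _ _ _ _ h315 H276 => ?_) H275
  refine subK_s he h118 h240 (fun _ _ _ _ _ h316 H277 => ?_) H276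
  refine smulK_s he (w := (1/2:ℝ)) (by norm_num) (by norm_num) (by norm_num) (by norm_num) h316 (fun _ _ _ _ _ h317 H278 => ?_) H277
  have h318 := In_cast h317 (div_c (c := (2:ℝ)) (by norm_num))
  have h319 := In_cast (w := (etBB a f z p q)) h318 rfl
  refine smulK_s he (w := (952/125:ℝ)) (by norm_num) (by norm_num) (by norm_num) (by norm_num) h21 (fun _ _ _ _ _ h320 H279 => ?_) H278
  refine addcK_s he h320 (v' := (-3808/125:ℝ)) (by norm_num [SS, BB, abs_le]) (fun _ _ _ _ _ h321 H280 => ?_) H279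
  refine mulK_s he h321 h21 (fun _ _ _ _ _ h322 H281 => ?_) H280
  refine addcK_s he h322 (v' := (10609/250:ℝ)) (by norm_num [SS, BB, abs_le]) (fun _ _ _ _ _ h323 H282 => ?_) H281
  refine mulK_s he h323 h21 (fun _ _ _ _ _ h324 H283 => ?_) H282
  refine addcK_s he h324 (v' := (-5647/250:ℝ)) (by norm_num [SS, BB, abs_le]) (fun _ _ _ _ _ h325 H284 => ?_) H283
  refine mulK_s he h325 h21 (fun _ _ _ _ _ h326 H285 => ?_) H284
  refine addcK_s he h326 (v' := (304/125:ℝ)) (by norm_num [SS, BB, abs_le]) (fun _ _ _ _ _ h327 H286 => ?_) H285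
  refine mulK_s he h327 h21 (fun _ _ _ _ _ h328 H287 => ?_) H286
  refine addcK_s he h328 (v' := (119/1000:ℝ)) (by norm_num [SS, BB, abs_le]) (fun _ _ _ _ _ h329 H288 => ?_) H287
  refine mulK_s he h329 h21 (fun _ _ _ _ _ h330 H289 => ?_) H288
  refine addcK_s he h330 (v' := (1347/4000:ℝ)) (by norm_num [SS, BB, abs_le]) (fun _ _ _ _ _ h331 H290 => ?_) H289
  refine smulK_s he (w := (3332/125:ℝ)) (by norm_num) (by norm_num) (by norm_num) (by norm_num) h21 (fun _ _ _ _ _ h332 H291 => ?_) H290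
  refine addcK_s he h332 (v' := (-1666/25:ℝ)) (by norm_num [SS, BB, abs_le]) (fun _ _ _ _ _ h333 H292 => ?_) H291
  refine mulK_s he h333 h21 (fun _ _ _ _ _ h334 H293 => ?_) H292
  refine addcK_s he h334 (v' := (2267/50:ℝ)) (by norm_num [SS, BB, abs_le]) (fun _ _ _ _ _ h335 H294 => ?_) H293
  refine mulK_s he h335 h21 (fun _ _ _ _ _ h336 H295 => ?_) H294
  refine addcK_s he h336 (v' := (-137/100:ℝ)) (by norm_num [SS, BB, abs_le]) (fun _ _ _ _ _ h337 H296 => ?_) H295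
  refine mulK_s he h337 h21 (fun _ _ _ _ _ h338 H297 => ?_) H296
  refine addcK_s he h338 (v' := (-4431/1000:ℝ)) (by norm_num [SS, BB, abs_le]) (fun _ _ _ _ _ h339 H298 => ?_) H297
  refine mulK_s he h339 h21 (fun _ _ _ _ _ h340 H299 => ?_) H298
  refine addcK_s he h340 (v' := (89/400:ℝ)) (by norm_num [SS, BB, abs_le]) (fun _ _ _ _ _ h341 H300 => ?_) H299
  refine addcK_s he h332 (v' := (-4998/125:ℝ)) (by norm_num [SS, BB, abs_le]) (fun _ _ _ _ _ h342 H301 => ?_) H300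
  refine mulK_s he h342 h21 (fun _ _ _ _ _ h343 H302 => ?_) H301
  refine addcK_s he h343 (v' := (6801/500:ℝ)) (by norm_num [SS, BB, abs_le]) (fun _ _ _ _ _ h344 H303 => ?_) H302
  refine mulK_s he h344 h21 (fun _ _ _ _ _ h345 H304 => ?_) H303
  refine addcK_s he h345 (v' := (-137/1000:ℝ)) (by norm_num [SS, BB, abs_le]) (fun _ _ _ _ _ h346 H305 => ?_) H304
  refine smulK_s he (w := (476/125:ℝ)) (by norm_num) (by norm_num) (by norm_num) (by norm_num) h21 (fun _ _ _ _ _ h347 H306 => ?_) H305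
  refine addcK_s he h347 (v' := (-238/125:ℝ)) (by norm_num [SS, BB, abs_le]) (fun _ _ _ _ _ h348 H307 => ?_) H306
  refine mulK_s he h39 h348 (fun _ _ _ _ _ h349 H308 => ?_) H307
  refine addK_s he h346 h349 (fun _ _ _ _ _ h350 H309 => ?_) H308
  refine mulK_s he h39 h350 (fun _ _ _ _ _ h351 H310 => ?_) H309
  refine addK_s he h341 h351 (fun _ _ _ _ _ h352 H311 => ?_) H310
  refine mulK_s he h98 h352 (fun _ _ _ _ _ h353 H312 => ?_) H311
  refine addK_s he h331 h353 (fun _ _ _ _ _ h354 H313 => ?_) H312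
  have h355 := In_cast (w := (vO a f z p q)) h354 rfl
  refine mulK_s he h319 h355 (fun _ _ _ _ _ h356 H314 => ?_) H313
  refine smulK_s he (w := (2:ℝ)) (by norm_num) (by norm_num) (by norm_num) (by norm_num) h356 (fun _ _ _ _ _ h357 H315 => ?_) H314
  refine subK_s he h315 h357 (fun _ _ _ _ _ h358 H316 => ?_) H315
  refine addK_s he h77 h214 (fun _ _ _ _ _ h359 H317 => ?_) H316
  refine smulK_s he (w := (1/2:ℝ)) (by norm_num) (by norm_num) (by norm_num) (by norm_num) h359 (fun _ _ _ _ _ h360 H318 => ?_) H317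
  have h361 := In_cast h360 (div_c (c := (2:ℝ)) (by norm_num))
  have h362 := In_cast (w := (muBB a f z p q)) h361 rfl
  refine mulK_s he hx2 h77 (fun _ _ _ _ _ h363 H319 => ?_) H318
  refine subK_s he h118 h363 (fun _ _ _ _ _ h364 H320 => ?_) H319
  refine smulK_s he (w := (1/2:ℝ)) (by norm_num) (by norm_num) (by norm_num) (by norm_num) h364 (fun _ _ _ _ _ h365 H321 => ?_) H320
  have h366 := In_cast h365 (div_c (c := (2:ℝ)) (by norm_num))
  have h367 := In_cast (w := (alB a f z p q)) h366 rfl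
  refine mulK_s he hx2 h214 (fun _ _ _ _ _ h368 H322 => ?_) H321
  refine addK_s he h240 h368 (fun _ _ _ _ _ h369 H323 => ?_) H322
  refine smulK_s he (w := (1/2:ℝ)) (by norm_num) (by norm_num) (by norm_num) (by norm_num) h369 (fun _ _ _ _ _ h370 H324 => ?_) H323
  have h371 := In_cast h370 (div_c (c := (2:ℝ)) (by norm_num))
  have h372 := In_cast (w := (bmB a f z p q)) h371 rfl
  refine mulK_s he h367 h372 (fun _ _ _ _ _ h373 H325 => ?_) H324
  refine addK_s he h362 h373 (fun _ _ _ _ _ h374 H326 => ?_) H325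
  have h375 := In_cast (w := (w0BB a f z p q)) h374 rfl
  refine mulK_s he hx2 h375 (fun _ _ _ _ _ h376 H327 => ?_) H326
  refine subK_s he h319 h376 (fun _ _ _ _ _ h377 H328 => ?_) H327
  have h378 := In_cast (w := (y0BB a f z p q)) h377 rfl
  refine mulK_s he hx2 h378 (fun _ _ _ _ _ h379 H329 => ?_) H328
  refine addcK_s he h379 (v' := (1:ℝ)) (by norm_num [SS, BB, abs_le]) (fun _ _ _ _ _ h380 H330 => ?_) H329
  have h381 := In_cast h380 (add_comm _ _)
  refine sqrtK_s he h381 (fun _ _ _ _ _ h382 H331 => ?_) H330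
  have h383 := In_cast (w := (g0BB a f z p q)) h382 rfl
  refine addcK_s he h383 (v' := (1:ℝ)) (by norm_num [SS, BB, abs_le]) (fun _ _ _ _ _ h384 H332 => ?_) H331
  have h385 := In_cast h384 (add_comm _ _)
  refine invK_s he h385 (fun _ _ _ _ _ h386 H333 => ?_) H332
  refine mulK_s he h378 h386 (fun _ _ _ _ _ h387 H334 => ?_) H333
  have h388 := In_cast h387 ((div_eq_mul_inv _ _).symm)
  refine sqK_s he h388 (fun _ _ _ _ _ h389 H335 => ?_) H334
  refine addK_s he h375 h389 (fun _ _ _ _ _ h390 H336 => ?_) H335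
  refine smulK_s he (w := (238/125:ℝ)) (by norm_num) (by norm_num) (by norm_num) (by norm_num) h21 (fun _ _ _ _ _ h391 H337 => ?_) H336
  refine addcK_s he h391 (v' := (-238/25:ℝ)) (by norm_num [SS, BB, abs_le]) (fun _ _ _ _ _ h392 H338 => ?_) H337
  refine mulK_s he h392 h21 (fun _ _ _ _ _ h393 H339 => ?_) H338
  refine addcK_s he h393 (v' := (2264/125:ℝ)) (by norm_num [SS, BB, abs_le]) (fun _ _ _ _ _ h394 H340 => ?_) H339
  refine mulK_s he h394 h21 (fun _ _ _ _ _ h395 H341 => ?_) H340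
  refine addcK_s he h395 (v' := (-407/25:ℝ)) (by norm_num [SS, BB, abs_le]) (fun _ _ _ _ _ h396 H342 => ?_) H341
  refine mulK_s he h396 h21 (fun _ _ _ _ _ h397 H343 => ?_) H342
  refine addcK_s he h397 (v' := (7321/1000:ℝ)) (by norm_num [SS, BB, abs_le]) (fun _ _ _ _ _ h398 H344 => ?_) H343
  refine mulK_s he h398 h21 (fun _ _ _ _ _ h399 H345 => ?_) H344
  refine addcK_s he h399 (v' := (-2361/1000:ℝ)) (by norm_num [SS, BB, abs_le]) (fun _ _ _ _ _ h400 H346 => ?_) H345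
  refine mulK_s he h400 h21 (fun _ _ _ _ _ h401 H347 => ?_) H346
  refine addcK_s he h401 (v' := (927/1000:ℝ)) (by norm_num [SS, BB, abs_le]) (fun _ _ _ _ _ h402 H348 => ?_) H347
  have h403 := In_cast (w := (vh a f z p q)) h402 rfl
  refine mulK_s he h95 h314 (fun _ _ _ _ _ h404 H349 => ?_) H348
  refine smulK_s he (w := (4:ℝ)) (by norm_num) (by norm_num) (by norm_num) (by norm_num) h404 (fun _ _ _ _ _ h405 H350 => ?_) H349
  refine addK_s he h403 h405 (fun _ _ _ _ _ h406 H351 => ?_) H350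
  have h407 := In_cast (w := (vm a f z p q)) h406 rfl
  refine mulK_s he hx2 h355 (fun _ _ _ _ _ h408 H352 => ?_) H351
  refine smulK_s he (w := (2:ℝ)) (by norm_num) (by norm_num) (by norm_num) (by norm_num) h408 (fun _ _ _ _ _ h409 H353 => ?_) H352
  refine subK_s he h407 h409 (fun _ _ _ _ _ h410 H354 => ?_) H353
  have h411 := In_cast (w := (v0 a f z p q)) h410 rfl
  refine mulK_s he h390 h411 (fun _ _ _ _ _ h412 H355 => ?_) H354
  refine addK_s he h118 h363 (fun _ _ _ _ _ h413 H356 => ?_) H355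
  refine smulK_s he (w := (1/2:ℝ)) (by norm_num) (by norm_num) (by norm_num) (by norm_num) h413 (fun _ _ _ _ _ h414 H357 => ?_) H356
  have h415 := In_cast h414 (div_c (c := (2:ℝ)) (by norm_num))
  have h416 := In_cast (w := (beB a f z p q)) h415 rfl
  refine subK_s he h240 h368 (fun _ _ _ _ _ h417 H358 => ?_) H357
  refine smulK_s he (w := (1/2:ℝ)) (by norm_num) (by norm_num) (by norm_num) (by norm_num) h417 (fun _ _ _ _ _ h418 H359 => ?_) H358
  have h419 := In_cast h418 (div_c (c := (2:ℝ)) (by norm_num))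
  have h420 := In_cast (w := (amB a f z p q)) h419 rfl
  refine mulK_s he h416 h420 (fun _ _ _ _ _ h421 H360 => ?_) H359
  refine addK_s he h362 h421 (fun _ _ _ _ _ h422 H361 => ?_) H360
  have h423 := In_cast (w := (w1BB a f z p q)) h422 rfl
  refine negK_s he h319 (fun _ _ _ _ _ h424 H362 => ?_) H361
  refine mulK_s he hx2 h423 (fun _ _ _ _ _ h425 H363 => ?_) H362
  refine subK_s he h424 h425 (fun _ _ _ _ _ h426 H364 => ?_) H363
  have h427 := In_cast (w := (y1BB a f z p q)) h426 rfl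
  refine mulK_s he hx2 h427 (fun _ _ _ _ _ h428 H365 => ?_) H364
  refine addcK_s he h428 (v' := (1:ℝ)) (by norm_num [SS, BB, abs_le]) (fun _ _ _ _ _ h429 H366 => ?_) H365
  have h430 := In_cast h429 (add_comm _ _)
  refine sqrtK_s he h430 (fun _ _ _ _ _ h431 H367 => ?_) H366
  have h432 := In_cast (w := (g1BB a f z p q)) h431 rfl
  refine addcK_s he h432 (v' := (1:ℝ)) (by norm_num [SS, BB, abs_le]) (fun _ _ _ _ _ h433 H368 => ?_) H367
  have h434 := In_cast h433 (add_comm _ _)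
  refine invK_s he h434 (fun _ _ _ _ _ h435 H369 => ?_) H368
  refine mulK_s he h427 h435 (fun _ _ _ _ _ h436 H370 => ?_) H369
  have h437 := In_cast h436 ((div_eq_mul_inv _ _).symm)
  refine sqK_s he h437 (fun _ _ _ _ _ h438 H371 => ?_) H370
  refine addK_s he h423 h438 (fun _ _ _ _ _ h439 H372 => ?_) H371
  refine addK_s he h407 h409 (fun _ _ _ _ _ h440 H373 => ?_) H372
  have h441 := In_cast (w := (v1 a f z p q)) h440 rfl
  refine mulK_s he h439 h441 (fun _ _ _ _ _ h442 H374 => ?_) H373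
  refine addK_s he h412 h442 (fun _ _ _ _ _ h443 H375 => ?_) H374
  refine smulK_s he (w := (1/2:ℝ)) (by norm_num) (by norm_num) (by norm_num) (by norm_num) h443 (fun _ _ _ _ _ h444 H376 => ?_) H375
  have h445 := In_cast h444 (div_c (c := (2:ℝ)) (by norm_num))
  refine subK_s he h358 h445 (fun _ _ _ _ _ h446 H377 => ?_) H376
  have h447 := In_cast (w := (ZBB a f z p q)) h446 rfl
  refine mulK_s he hx1 h447 (fun _ _ _ _ _ h448 H378 => ?_) H377
  refine negK_s he h448 (fun _ _ _ _ _ h449 H379 => ?_) H378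
  refine reluK_s he h449 (fun _ _ _ _ _ h450 H380 => ?_) H379
  refine sqK_s he h450 (fun _ _ _ _ _ h451 H381 => ?_) H380
  refine subK_s he h284 h451 (fun _ _ _ _ _ h452 H382 => ?_) H381
  exact ⟨p0, p1, p2, p3, p4, p5, pos_s he h452 H382⟩

noncomputable def alt3 (p1 p2 z1 w1 z2 w2 z3 w3 : ℕ) : Bool :=
  smulK 3 4 4611686018427387908 3458764513820540928 z3 1152921504606846976 1152921504606846976 (Nat.add w3 1152921504606846976) 0 fun c1 a1_1 a1_2 a1_3 q1 =>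
  smulK 3 1 1152921504606846977 3458764513820540928 p1 1152921504606846976 1152921504606846976 1152921504606846976 0 fun c2 a2_1 a2_2 a2_3 q2 =>
  subK c1 a1_1 a1_2 a1_3 q1 c2 a2_1 a2_2 a2_3 q2 fun c4 a4_1 a4_2 a4_3 q4 =>
  posK c4 a4_1 a4_2 a4_3 q4 <|
  smulK 3 1 1152921504606846977 3458764513820540928 p2 1152921504606846976 1152921504606846976 1152921504606846976 0 fun c5 a5_1 a5_2 a5_3 q5 =>
  subK c1 a1_1 a1_2 a1_3 q1 c5 a5_1 a5_2 a5_3 q5 fun c7 a7_1 a7_2 a7_3 q7 =>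
  posK c7 a7_1 a7_2 a7_3 q7 <|
  smulK 2 1 1152921504606846977 2305843009213693952 z1 (Nat.add w1 1152921504606846976) 1152921504606846976 1152921504606846976 0 fun c8 a8_1 a8_2 a8_3 q8 =>
  addcK c8 a8_1 a8_2 a8_3 q8 1152920954851033088 0 fun c9 a9_1 a9_2 a9_3 q9 =>
  smulK 6909 500 576460752303423488500 7965534675328705757184 c9 a9_1 a9_2 a9_3 q9 fun c12 a12_1 a12_2 a12_3 q12 =>
  negK c12 a12_1 a12_2 a12_3 q12 fun c13 a13_1 a13_2 a13_3 q13 =>
  addcK c13 a13_1 a13_2 a13_3 q13 1152962875655987397 1 fun c15 a15_1 a15_2 a15_3 q15 =>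
  mulK c15 a15_1 a15_2 a15_3 q15 c9 a9_1 a9_2 a9_3 q9 fun c16 a16_1 a16_2 a16_3 q16 =>
  addcK c16 a16_1 a16_2 a16_3 q16 1152890595273405891 1 fun c17 a17_1 a17_2 a17_3 q17 =>
  mulK c17 a17_1 a17_2 a17_3 q17 c9 a9_1 a9_2 a9_3 q9 fun c18 a18_1 a18_2 a18_3 q18 =>
  addcK c18 a18_1 a18_2 a18_3 q18 1152921009139419709 1 fun c19 a19_1 a19_2 a19_3 q19 =>
  mulK c19 a19_1 a19_2 a19_3 q19 c9 a9_1 a9_2 a9_3 q9 fun c20 a20_1 a20_2 a20_3 q20 =>
  addcK c20 a20_1 a20_2 a20_3 q20 1152926254703237399 1 fun c21 a21_1 a21_2 a21_3 q21 =>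
  mulK c21 a21_1 a21_2 a21_3 q21 c9 a9_1 a9_2 a9_3 q9 fun c22 a22_1 a22_2 a22_3 q22 =>
  addcK c22 a22_1 a22_2 a22_3 q22 1152921744832957776 1 fun c23 a23_1 a23_2 a23_3 q23 =>
  mulK c23 a23_1 a23_2 a23_3 q23 c9 a9_1 a9_2 a9_3 q9 fun c24 a24_1 a24_2 a24_3 q24 =>
  addcK c24 a24_1 a24_2 a24_3 q24 1152921017909742928 1 fun c25 a25_1 a25_2 a25_3 q25 =>
  mulK z1 (Nat.add w1 1152921504606846976) 1152921504606846976 1152921504606846976 0 z2 1152921504606846976 (Nat.add w2 1152921504606846976) 1152921504606846976 0 fun c26 a26_1 a26_2 a26_3 q26 =>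
  sqK c26 a26_1 a26_2 a26_3 q26 fun c27 a27_1 a27_2 a27_3 q27 =>
  smulK 4 1 1152921504606846977 4611686018427387904 c27 a27_1 a27_2 a27_3 q27 fun c28 a28_1 a28_2 a28_3 q28 =>
  smulK 6909 200 230584300921369395400 7965534675328705757184 c9 a9_1 a9_2 a9_3 q9 fun c30 a30_1 a30_2 a30_3 q30 =>
  negK c30 a30_1 a30_2 a30_3 q30 fun c31 a31_1 a31_2 a31_3 q31 =>
  addcK c31 a31_1 a31_2 a31_3 q31 1152990456355414344 1 fun c33 a33_1 a33_2 a33_3 q33 =>
  mulK c33 a33_1 a33_2 a33_3 q33 c9 a9_1 a9_2 a9_3 q9 fun c34 a34_1 a34_2 a34_3 q34 =>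
  addcK c34 a34_1 a34_2 a34_3 q34 1152890595273405891 1 fun c35 a35_1 a35_2 a35_3 q35 =>
  mulK c35 a35_1 a35_2 a35_3 q35 c9 a9_1 a9_2 a9_3 q9 fun c36 a36_1 a36_2 a36_3 q36 =>
  addcK c36 a36_1 a36_2 a36_3 q36 1152921256873133343 1 fun c37 a37_1 a37_2 a37_3 q37 =>
  mulK c37 a37_1 a37_2 a37_3 q37 c9 a9_1 a9_2 a9_3 q9 fun c38 a38_1 a38_2 a38_3 q38 =>
  addcK c38 a38_1 a38_2 a38_3 q38 1152922296289578713 1 fun c39 a39_1 a39_2 a39_3 q39 =>
  addcK c13 a13_1 a13_2 a13_3 q13 1152935294956560450 1 fun c40 a40_1 a40_2 a40_3 q40 =>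
  mulK c40 a40_1 a40_2 a40_3 q40 c9 a9_1 a9_2 a9_3 q9 fun c41 a41_1 a41_2 a41_3 q41 =>
  addcK c41 a41_1 a41_2 a41_3 q41 1152919443984617570 1 fun c42 a42_1 a42_2 a42_3 q42 =>
  smulK 987 2000 2305843009213693954000 1137933525046957965312 c28 a28_1 a28_2 a28_3 q28 fun c43 a43_1 a43_2 a43_3 q43 =>
  negK c43 a43_1 a43_2 a43_3 q43 fun c44 a44_1 a44_2 a44_3 q44 =>
  addK c42 a42_1 a42_2 a42_3 q42 c44 a44_1 a44_2 a44_3 q44 fun c46 a46_1 a46_2 a46_3 q46 =>
  mulK c28 a28_1 a28_2 a28_3 q28 c46 a46_1 a46_2 a46_3 q46 fun c47 a47_1 a47_2 a47_3 q47 =>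
  addK c39 a39_1 a39_2 a39_3 q39 c47 a47_1 a47_2 a47_3 q47 fun c48 a48_1 a48_2 a48_3 q48 =>
  mulK c28 a28_1 a28_2 a28_3 q28 c48 a48_1 a48_2 a48_3 q48 fun c49 a49_1 a49_2 a49_3 q49 =>
  addK c25 a25_1 a25_2 a25_3 q25 c49 a49_1 a49_2 a49_3 q49 fun c50 a50_1 a50_2 a50_3 q50 =>
  mulK z1 (Nat.add w1 1152921504606846976) 1152921504606846976 1152921504606846976 0 c50 a50_1 a50_2 a50_3 q50 fun c52 a52_1 a52_2 a52_3 q52 =>
  smulK 8 1 1152921504606846977 9223372036854775808 c52 a52_1 a52_2 a52_3 q52 fun c53 a53_1 a53_2 a53_3 q53 =>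
  sqK c2 a2_1 a2_2 a2_3 q2 fun c54 a54_1 a54_2 a54_3 q54 =>
  smulK 99 200 230584300921369395400 114139228956077850624 c54 a54_1 a54_2 a54_3 q54 fun c55 a55_1 a55_2 a55_3 q55 =>
  smulK 987 1000 1152921504606846977000 1137933525046957965312 c9 a9_1 a9_2 a9_3 q9 fun c57 a57_1 a57_2 a57_3 q57 =>
  negK c57 a57_1 a57_2 a57_3 q57 fun c58 a58_1 a58_2 a58_3 q58 =>
  addcK c58 a58_1 a58_2 a58_3 q58 1152925987315753419 1 fun c60 a60_1 a60_2 a60_3 q60 =>
  mulK c60 a60_1 a60_2 a60_3 q60 c9 a9_1 a9_2 a9_3 q9 fun c61 a61_1 a61_2 a61_3 q61 =>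
  addcK c61 a61_1 a61_2 a61_3 q61 1152915142007934943 1 fun c62 a62_1 a62_2 a62_3 q62 =>
  mulK c62 a62_1 a62_2 a62_3 q62 c9 a9_1 a9_2 a9_3 q9 fun c63 a63_1 a63_2 a63_3 q63 =>
  addcK c63 a63_1 a63_2 a63_3 q63 1152924586812817539 1 fun c64 a64_1 a64_2 a64_3 q64 =>
  mulK c64 a64_1 a64_2 a64_3 q64 c9 a9_1 a9_2 a9_3 q9 fun c65 a65_1 a65_2 a65_3 q65 =>
  addcK c65 a65_1 a65_2 a65_3 q65 1152921546869325169 1 fun c66 a66_1 a66_2 a66_3 q66 =>
  mulK c66 a66_1 a66_2 a66_3 q66 c9 a9_1 a9_2 a9_3 q9 fun c67 a67_1 a67_2 a67_3 q67 =>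
  addcK c67 a67_1 a67_2 a67_3 q67 1152921643626348413 1 fun c68 a68_1 a68_2 a68_3 q68 =>
  mulK c68 a68_1 a68_2 a68_3 q68 c9 a9_1 a9_2 a9_3 q9 fun c69 a69_1 a69_2 a69_3 q69 =>
  addcK c69 a69_1 a69_2 a69_3 q69 1152920461702888161 1 fun c70 a70_1 a70_2 a70_3 q70 =>
  mulK c70 a70_1 a70_2 a70_3 q70 c9 a9_1 a9_2 a9_3 q9 fun c71 a71_1 a71_2 a71_3 q71 =>
  addcK c71 a71_1 a71_2 a71_3 q71 1152922806961190207 1 fun c72 a72_1 a72_2 a72_3 q72 =>
  sqK z2 1152921504606846976 (Nat.add w2 1152921504606846976) 1152921504606846976 0 fun c74 a74_1 a74_2 a74_3 q74 =>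
  mulK z1 (Nat.add w1 1152921504606846976) 1152921504606846976 1152921504606846976 0 c74 a74_1 a74_2 a74_3 q74 fun c75 a75_1 a75_2 a75_3 q75 =>
  smulK 4 1 1152921504606846977 4611686018427387904 c75 a75_1 a75_2 a75_3 q75 fun c76 a76_1 a76_2 a76_3 q76 =>
  mulK c76 a76_1 a76_2 a76_3 q76 c50 a50_1 a50_2 a50_3 q50 fun c78 a78_1 a78_2 a78_3 q78 =>
  addK c72 a72_1 a72_2 a72_3 q72 c78 a78_1 a78_2 a78_3 q78 fun c79 a79_1 a79_2 a79_3 q79 =>
  mulK c55 a55_1 a55_2 a55_3 q55 c79 a79_1 a79_2 a79_3 q79 fun c81 a81_1 a81_2 a81_3 q81 =>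
  subK c53 a53_1 a53_2 a53_3 q53 c81 a81_1 a81_2 a81_3 q81 fun c82 a82_1 a82_2 a82_3 q82 =>
  mulK z3 1152921504606846976 1152921504606846976 (Nat.add w3 1152921504606846976) 0 z2 1152921504606846976 (Nat.add w2 1152921504606846976) 1152921504606846976 0 fun c83 a83_1 a83_2 a83_3 q83 =>
  mulK c83 a83_1 a83_2 a83_3 q83 c2 a2_1 a2_2 a2_3 q2 fun c85 a85_1 a85_2 a85_3 q85 =>
  smulK 4 3 3458764513820540931 4611686018427387904 c85 a85_1 a85_2 a85_3 q85 fun c86 a86_1 a86_2 a86_3 q86 =>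
  mulK z2 1152921504606846976 (Nat.add w2 1152921504606846976) 1152921504606846976 0 c54 a54_1 a54_2 a54_3 q54 fun c87 a87_1 a87_2 a87_3 q87 =>
  smulK 21 200 230584300921369395400 24211351596743786496 c87 a87_1 a87_2 a87_3 q87 fun c88 a88_1 a88_2 a88_3 q88 =>
  subK c86 a86_1 a86_2 a86_3 q86 c88 a88_1 a88_2 a88_3 q88 fun c89 a89_1 a89_2 a89_3 q89 =>
  smulK 987 250 288230376151711744250 1137933525046957965312 c9 a9_1 a9_2 a9_3 q9 fun c91 a91_1 a91_2 a91_3 q91 =>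
  negK c91 a91_1 a91_2 a91_3 q91 fun c92 a92_1 a92_2 a92_3 q92 =>
  addcK c92 a92_1 a92_2 a92_3 q92 1152935294956560450 1 fun c94 a94_1 a94_2 a94_3 q94 =>
  mulK c94 a94_1 a94_2 a94_3 q94 c9 a9_1 a9_2 a9_3 q9 fun c95 a95_1 a95_2 a95_3 q95 =>
  addcK c95 a95_1 a95_2 a95_3 q95 1152909140873470542 1 fun c96 a96_1 a96_2 a96_3 q96 =>
  mulK c96 a96_1 a96_2 a96_3 q96 c9 a9_1 a9_2 a9_3 q9 fun c97 a97_1 a97_2 a97_3 q97 =>
  addcK c97 a97_1 a97_2 a97_3 q97 1152921256873133343 1 fun c98 a98_1 a98_2 a98_3 q98 =>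
  mulK c98 a98_1 a98_2 a98_3 q98 c9 a9_1 a9_2 a9_3 q9 fun c99 a99_1 a99_2 a99_3 q99 =>
  addcK c99 a99_1 a99_2 a99_3 q99 1152924671337773924 1 fun c100 a100_1 a100_2 a100_3 q100 =>
  mulK c100 a100_1 a100_2 a100_3 q100 c9 a9_1 a9_2 a9_3 q9 fun c101 a101_1 a101_2 a101_3 q101 =>
  addcK c101 a101_1 a101_2 a101_3 q101 1152921744832957776 1 fun c102 a102_1 a102_2 a102_3 q102 =>
  mulK c102 a102_1 a102_2 a102_3 q102 c9 a9_1 a9_2 a9_3 q9 fun c103 a103_1 a103_2 a103_3 q103 =>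
  addcK c103 a103_1 a103_2 a103_3 q103 1152920531212638880 1 fun c104 a104_1 a104_2 a104_3 q104 =>
  mulK c104 a104_1 a104_2 a104_3 q104 c9 a9_1 a9_2 a9_3 q9 fun c105 a105_1 a105_2 a105_3 q105 =>
  addcK c105 a105_1 a105_2 a105_3 q105 1152921895058028888 1 fun c106 a106_1 a106_2 a106_3 q106 =>
  smulK 6909 250 288230376151711744250 7965534675328705757184 c9 a9_1 a9_2 a9_3 q9 fun c107 a107_1 a107_2 a107_3 q107 =>
  negK c107 a107_1 a107_2 a107_3 q107 fun c108 a108_1 a108_2 a108_3 q108 =>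
  addcK c108 a108_1 a108_2 a108_3 q108 1152990456355414344 1 fun c110 a110_1 a110_2 a110_3 q110 =>
  mulK c110 a110_1 a110_2 a110_3 q110 c9 a9_1 a9_2 a9_3 q9 fun c111 a111_1 a111_2 a111_3 q111 =>
  addcK c111 a111_1 a111_2 a111_3 q111 1152880292162258862 1 fun c112 a112_1 a112_2 a112_3 q112 =>
  mulK c112 a112_1 a112_2 a112_3 q112 c9 a9_1 a9_2 a9_3 q9 fun c113 a113_1 a113_2 a113_3 q113 =>
  addcK c113 a113_1 a113_2 a113_3 q113 1152921009139419709 1 fun c114 a114_1 a114_2 a114_3 q114 =>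
  mulK c114 a114_1 a114_2 a114_3 q114 c9 a9_1 a9_2 a9_3 q9 fun c115 a115_1 a115_2 a115_3 q115 =>
  addcK c115 a115_1 a115_2 a115_3 q115 1152924671337773924 1 fun c116 a116_1 a116_2 a116_3 q116 =>
  mulK c116 a116_1 a116_2 a116_3 q116 c9 a9_1 a9_2 a9_3 q9 fun c117 a117_1 a117_2 a117_3 q117 =>
  addcK c117 a117_1 a117_2 a117_3 q117 1152921584682217243 1 fun c118 a118_1 a118_2 a118_3 q118 =>
  addcK c108 a108_1 a108_2 a108_3 q108 1152962875655987397 1 fun c119 a119_1 a119_2 a119_3 q119 =>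
  mulK c119 a119_1 a119_2 a119_3 q119 c9 a9_1 a9_2 a9_3 q9 fun c120 a120_1 a120_2 a120_3 q120 =>
  addcK c120 a120_1 a120_2 a120_3 q120 1152909140873470542 1 fun c121 a121_1 a121_2 a121_3 q121 =>
  mulK c121 a121_1 a121_2 a121_3 q121 c9 a9_1 a9_2 a9_3 q9 fun c122 a122_1 a122_2 a122_3 q122 =>
  addcK c122 a122_1 a122_2 a122_3 q122 1152921455060104249 1 fun c123 a123_1 a123_2 a123_3 q123 =>
  addcK c92 a92_1 a92_2 a92_3 q92 1152923474656806044 1 fun c124 a124_1 a124_2 a124_3 q124 =>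
  mulK c28 a28_1 a28_2 a28_3 q28 c124 a124_1 a124_2 a124_3 q124 fun c125 a125_1 a125_2 a125_3 q125 =>
  addK c123 a123_1 a123_2 a123_3 q123 c125 a125_1 a125_2 a125_3 q125 fun c126 a126_1 a126_2 a126_3 q126 =>
  mulK c28 a28_1 a28_2 a28_3 q28 c126 a126_1 a126_2 a126_3 q126 fun c127 a127_1 a127_2 a127_3 q127 =>
  addK c118 a118_1 a118_2 a118_3 q118 c127 a127_1 a127_2 a127_3 q127 fun c128 a128_1 a128_2 a128_3 q128 =>
  mulK c28 a28_1 a28_2 a28_3 q28 c128 a128_1 a128_2 a128_3 q128 fun c129 a129_1 a129_2 a129_3 q129 =>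
  addK c106 a106_1 a106_2 a106_3 q106 c129 a129_1 a129_2 a129_3 q129 fun c130 a130_1 a130_2 a130_3 q130 =>
  mulK c89 a89_1 a89_2 a89_3 q89 c130 a130_1 a130_2 a130_3 q130 fun c132 a132_1 a132_2 a132_3 q132 =>
  smulK 2 1 1152921504606846977 2305843009213693952 c132 a132_1 a132_2 a132_3 q132 fun c133 a133_1 a133_2 a133_3 q133 =>
  subK c82 a82_1 a82_2 a82_3 q82 c133 a133_1 a133_2 a133_3 q133 fun c134 a134_1 a134_2 a134_3 q134 =>
  smulK 2 1 1152921504606846977 2305843009213693952 c2 a2_1 a2_2 a2_3 q2 fun c135 a135_1 a135_2 a135_3 q135 =>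
  addK c134 a134_1 a134_2 a134_3 q134 c135 a135_1 a135_2 a135_3 q135 fun c136 a136_1 a136_2 a136_3 q136 =>
  posK c136 a136_1 a136_2 a136_3 q136 <|
  addcK c13 a13_1 a13_2 a13_3 q13 1152971291867742208 0 fun c138 a138_1 a138_2 a138_3 q138 =>
  mulK c138 a138_1 a138_2 a138_3 q138 c9 a9_1 a9_2 a9_3 q9 fun c139 a139_1 a139_2 a139_3 q139 =>
  addcK c139 a139_1 a139_2 a139_3 q139 1152869554744018862 1 fun c140 a140_1 a140_2 a140_3 q140 =>
  mulK c140 a140_1 a140_2 a140_3 q140 c9 a9_1 a9_2 a9_3 q9 fun c141 a141_1 a141_2 a141_3 q141 =>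
  addcK c141 a141_1 a141_2 a141_3 q141 1152935787950086554 1 fun c142 a142_1 a142_2 a142_3 q142 =>
  mulK c142 a142_1 a142_2 a142_3 q142 c9 a9_1 a9_2 a9_3 q9 fun c143 a143_1 a143_2 a143_3 q143 =>
  addcK c143 a143_1 a143_2 a143_3 q143 1152925127016624161 1 fun c144 a144_1 a144_2 a144_3 q144 =>
  mulK c144 a144_1 a144_2 a144_3 q144 c9 a9_1 a9_2 a9_3 q9 fun c145 a145_1 a145_2 a145_3 q145 =>
  addcK c145 a145_1 a145_2 a145_3 q145 1152921190988335022 1 fun c146 a146_1 a146_2 a146_3 q146 =>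
  mulK c146 a146_1 a146_2 a146_3 q146 c9 a9_1 a9_2 a9_3 q9 fun c147 a147_1 a147_2 a147_3 q147 =>
  addcK c147 a147_1 a147_2 a147_3 q147 1152920781428843610 1 fun c148 a148_1 a148_2 a148_3 q148 =>
  addcK c31 a31_1 a31_2 a31_3 q31 1153004483375005696 0 fun c149 a149_1 a149_2 a149_3 q149 =>
  mulK c149 a149_1 a149_2 a149_3 q149 c9 a9_1 a9_2 a9_3 q9 fun c150 a150_1 a150_2 a150_3 q150 =>
  addcK c150 a150_1 a150_2 a150_3 q150 1152869554744018862 1 fun c151 a151_1 a151_2 a151_3 q151 =>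
  mulK c151 a151_1 a151_2 a151_3 q151 c9 a9_1 a9_2 a9_3 q9 fun c152 a152_1 a152_2 a152_3 q152 =>
  addcK c152 a152_1 a152_2 a152_3 q152 1152928646278466765 1 fun c153 a153_1 a153_2 a153_3 q153 =>
  mulK c153 a153_1 a153_2 a153_3 q153 c9 a9_1 a9_2 a9_3 q9 fun c154 a154_1 a154_2 a154_3 q154 =>
  addcK c154 a154_1 a154_2 a154_3 q154 1152922108341809840 1 fun c155 a155_1 a155_2 a155_3 q155 =>
  addcK c13 a13_1 a13_2 a13_3 q13 1152938100360478720 0 fun c156 a156_1 a156_2 a156_3 q156 =>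
  mulK c156 a156_1 a156_2 a156_3 q156 c9 a9_1 a9_2 a9_3 q9 fun c157 a157_1 a157_2 a157_3 q157 =>
  addcK c157 a157_1 a157_2 a157_3 q157 1152918041282658435 1 fun c158 a158_1 a158_2 a158_3 q158 =>
  addK c158 a158_1 a158_2 a158_3 q158 c44 a44_1 a44_2 a44_3 q44 fun c159 a159_1 a159_2 a159_3 q159 =>
  mulK c28 a28_1 a28_2 a28_3 q28 c159 a159_1 a159_2 a159_3 q159 fun c160 a160_1 a160_2 a160_3 q160 =>
  addK c155 a155_1 a155_2 a155_3 q155 c160 a160_1 a160_2 a160_3 q160 fun c161 a161_1 a161_2 a161_3 q161 =>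
  mulK c28 a28_1 a28_2 a28_3 q28 c161 a161_1 a161_2 a161_3 q161 fun c162 a162_1 a162_2 a162_3 q162 =>
  addK c148 a148_1 a148_2 a148_3 q148 c162 a162_1 a162_2 a162_3 q162 fun c163 a163_1 a163_2 a163_3 q163 =>
  mulK z1 (Nat.add w1 1152921504606846976) 1152921504606846976 1152921504606846976 0 c163 a163_1 a163_2 a163_3 q163 fun c165 a165_1 a165_2 a165_3 q165 =>
  smulK 8 1 1152921504606846977 9223372036854775808 c165 a165_1 a165_2 a165_3 q165 fun c166 a166_1 a166_2 a166_3 q166 =>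
  sqK c5 a5_1 a5_2 a5_3 q5 fun c167 a167_1 a167_2 a167_3 q167 =>
  smulK 99 200 230584300921369395400 114139228956077850624 c167 a167_1 a167_2 a167_3 q167 fun c168 a168_1 a168_2 a168_3 q168 =>
  addcK c58 a58_1 a58_2 a58_3 q58 1152926788859730067 1 fun c170 a170_1 a170_2 a170_3 q170 =>
  mulK c170 a170_1 a170_2 a170_3 q170 c9 a9_1 a9_2 a9_3 q9 fun c171 a171_1 a171_2 a171_3 q171 =>
  addcK c171 a171_1 a171_2 a171_3 q171 1152911935832028348 1 fun c172 a172_1 a172_2 a172_3 q172 =>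
  mulK c172 a172_1 a172_2 a172_3 q172 c9 a9_1 a9_2 a9_3 q9 fun c173 a173_1 a173_2 a173_3 q173 =>
  addcK c173 a173_1 a173_2 a173_3 q173 1152929145662904205 1 fun c174 a174_1 a174_2 a174_3 q174 =>
  mulK c174 a174_1 a174_2 a174_3 q174 c9 a9_1 a9_2 a9_3 q9 fun c175 a175_1 a175_2 a175_3 q175 =>
  addcK c175 a175_1 a175_2 a175_3 q175 1152918891548744090 1 fun c176 a176_1 a176_2 a176_3 q176 =>
  mulK c176 a176_1 a176_2 a176_3 q176 c9 a9_1 a9_2 a9_3 q9 fun c177 a177_1 a177_2 a177_3 q177 =>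
  addcK c177 a177_1 a177_2 a177_3 q177 1152922602056890450 1 fun c178 a178_1 a178_2 a178_3 q178 =>
  mulK c178 a178_1 a178_2 a178_3 q178 c9 a9_1 a9_2 a9_3 q9 fun c179 a179_1 a179_2 a179_3 q179 =>
  addcK c179 a179_1 a179_2 a179_3 q179 1152919509525818507 1 fun c180 a180_1 a180_2 a180_3 q180 =>
  mulK c180 a180_1 a180_2 a180_3 q180 c9 a9_1 a9_2 a9_3 q9 fun c181 a181_1 a181_2 a181_3 q181 =>
  addcK c181 a181_1 a181_2 a181_3 q181 1152923178097904189 1 fun c182 a182_1 a182_2 a182_3 q182 =>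
  mulK c76 a76_1 a76_2 a76_3 q76 c163 a163_1 a163_2 a163_3 q163 fun c184 a184_1 a184_2 a184_3 q184 =>
  addK c182 a182_1 a182_2 a182_3 q182 c184 a184_1 a184_2 a184_3 q184 fun c185 a185_1 a185_2 a185_3 q185 =>
  mulK c168 a168_1 a168_2 a168_3 q168 c185 a185_1 a185_2 a185_3 q185 fun c187 a187_1 a187_2 a187_3 q187 =>
  subK c166 a166_1 a166_2 a166_3 q166 c187 a187_1 a187_2 a187_3 q187 fun c188 a188_1 a188_2 a188_3 q188 =>
  mulK c83 a83_1 a83_2 a83_3 q83 c5 a5_1 a5_2 a5_3 q5 fun c189 a189_1 a189_2 a189_3 q189 =>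
  smulK 4 3 3458764513820540931 4611686018427387904 c189 a189_1 a189_2 a189_3 q189 fun c190 a190_1 a190_2 a190_3 q190 =>
  mulK z2 1152921504606846976 (Nat.add w2 1152921504606846976) 1152921504606846976 0 c167 a167_1 a167_2 a167_3 q167 fun c191 a191_1 a191_2 a191_3 q191 =>
  smulK 21 200 230584300921369395400 24211351596743786496 c191 a191_1 a191_2 a191_3 q191 fun c192 a192_1 a192_2 a192_3 q192 =>
  subK c190 a190_1 a190_2 a190_3 q190 c192 a192_1 a192_2 a192_3 q192 fun c193 a193_1 a193_2 a193_3 q193 =>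
  addcK c92 a92_1 a92_2 a92_3 q92 1152938100360478720 0 fun c195 a195_1 a195_2 a195_3 q195 =>
  mulK c195 a195_1 a195_2 a195_3 q195 c9 a9_1 a9_2 a9_3 q9 fun c196 a196_1 a196_2 a196_3 q196 =>
  addcK c196 a196_1 a196_2 a196_3 q196 1152900724661715730 1 fun c197 a197_1 a197_2 a197_3 q197 =>
  mulK c197 a197_1 a197_2 a197_3 q197 c9 a9_1 a9_2 a9_3 q9 fun c198 a198_1 a198_2 a198_3 q198 =>
  addcK c198 a198_1 a198_2 a198_3 q198 1152928646278466765 1 fun c199 a199_1 a199_2 a199_3 q199 =>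
  mulK c199 a199_1 a199_2 a199_3 q199 c9 a9_1 a9_2 a9_3 q9 fun c200 a200_1 a200_2 a200_3 q200 =>
  addcK c200 a200_1 a200_2 a200_3 q200 1152923919546698433 1 fun c201 a201_1 a201_2 a201_3 q201 =>
  mulK c201 a201_1 a201_2 a201_3 q201 c9 a9_1 a9_2 a9_3 q9 fun c202 a202_1 a202_2 a202_3 q202 =>
  addcK c202 a202_1 a202_2 a202_3 q202 1152921190988335022 1 fun c203 a203_1 a203_2 a203_3 q203 =>
  mulK c203 a203_1 a203_2 a203_3 q203 c9 a9_1 a9_2 a9_3 q9 fun c204 a204_1 a204_2 a204_3 q204 =>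
  addcK c204 a204_1 a204_2 a204_3 q204 1152920058250840244 1 fun c205 a205_1 a205_2 a205_3 q205 =>
  mulK c205 a205_1 a205_2 a205_3 q205 c9 a9_1 a9_2 a9_3 q9 fun c206 a206_1 a206_2 a206_3 q206 =>
  addcK c206 a206_1 a206_2 a206_3 q206 1152921842582118466 1 fun c207 a207_1 a207_2 a207_3 q207 =>
  addcK c108 a108_1 a108_2 a108_3 q108 1153004483375005696 0 fun c208 a208_1 a208_2 a208_3 q208 =>
  mulK c208 a208_1 a208_2 a208_3 q208 c9 a9_1 a9_2 a9_3 q9 fun c209 a209_1 a209_2 a209_3 q209 =>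
  addcK c209 a209_1 a209_2 a209_3 q209 1152852238123076157 1 fun c210 a210_1 a210_2 a210_3 q210 =>
  mulK c210 a210_1 a210_2 a210_3 q210 c9 a9_1 a9_2 a9_3 q9 fun c211 a211_1 a211_2 a211_3 q211 =>
  addcK c211 a211_1 a211_2 a211_3 q211 1152935787950086554 1 fun c212 a212_1 a212_2 a212_3 q212 =>
  mulK c212 a212_1 a212_2 a212_3 q212 c9 a9_1 a9_2 a9_3 q9 fun c213 a213_1 a213_2 a213_3 q213 =>
  addcK c213 a213_1 a213_2 a213_3 q213 1152923919546698433 1 fun c214 a214_1 a214_2 a214_3 q214 =>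
  mulK c214 a214_1 a214_2 a214_3 q214 c9 a9_1 a9_2 a9_3 q9 fun c215 a215_1 a215_2 a215_3 q215 =>
  addcK c215 a215_1 a215_2 a215_3 q215 1152921400067342991 1 fun c216 a216_1 a216_2 a216_3 q216 =>
  addcK c108 a108_1 a108_2 a108_3 q108 1152971291867742208 0 fun c217 a217_1 a217_2 a217_3 q217 =>
  mulK c217 a217_1 a217_2 a217_3 q217 c9 a9_1 a9_2 a9_3 q9 fun c218 a218_1 a218_2 a218_3 q218 =>
  addcK c218 a218_1 a218_2 a218_3 q218 1152900724661715730 1 fun c219 a219_1 a219_2 a219_3 q219 =>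
  mulK c219 a219_1 a219_2 a219_3 q219 c9 a9_1 a9_2 a9_3 q9 fun c220 a220_1 a220_2 a220_3 q220 =>
  addcK c220 a220_1 a220_2 a220_3 q220 1152922932941170934 1 fun c221 a221_1 a221_2 a221_3 q221 =>
  addcK c92 a92_1 a92_2 a92_3 q92 1152923875428794368 0 fun c222 a222_1 a222_2 a222_3 q222 =>
  mulK c28 a28_1 a28_2 a28_3 q28 c222 a222_1 a222_2 a222_3 q222 fun c223 a223_1 a223_2 a223_3 q223 =>
  addK c221 a221_1 a221_2 a221_3 q221 c223 a223_1 a223_2 a223_3 q223 fun c224 a224_1 a224_2 a224_3 q224 =>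
  mulK c28 a28_1 a28_2 a28_3 q28 c224 a224_1 a224_2 a224_3 q224 fun c225 a225_1 a225_2 a225_3 q225 =>
  addK c216 a216_1 a216_2 a216_3 q216 c225 a225_1 a225_2 a225_3 q225 fun c226 a226_1 a226_2 a226_3 q226 =>
  mulK c28 a28_1 a28_2 a28_3 q28 c226 a226_1 a226_2 a226_3 q226 fun c227 a227_1 a227_2 a227_3 q227 =>
  addK c207 a207_1 a207_2 a207_3 q207 c227 a227_1 a227_2 a227_3 q227 fun c228 a228_1 a228_2 a228_3 q228 =>
  mulK c193 a193_1 a193_2 a193_3 q193 c228 a228_1 a228_2 a228_3 q228 fun c230 a230_1 a230_2 a230_3 q230 =>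
  smulK 2 1 1152921504606846977 2305843009213693952 c230 a230_1 a230_2 a230_3 q230 fun c231 a231_1 a231_2 a231_3 q231 =>
  addK c188 a188_1 a188_2 a188_3 q188 c231 a231_1 a231_2 a231_3 q231 fun c232 a232_1 a232_2 a232_3 q232 =>
  smulK 2 1 1152921504606846977 2305843009213693952 c5 a5_1 a5_2 a5_3 q5 fun c233 a233_1 a233_2 a233_3 q233 =>
  addK c232 a232_1 a232_2 a232_3 q232 c233 a233_1 a233_2 a233_3 q233 fun c234 a234_1 a234_2 a234_3 q234 =>
  posK c234 a234_1 a234_2 a234_3 q234 <|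
  mulK c136 a136_1 a136_2 a136_3 q136 c234 a234_1 a234_2 a234_3 q234 fun c236 a236_1 a236_2 a236_3 q236 =>
  smulK 1666 125 144115188075855872125 1920767226675007062016 c9 a9_1 a9_2 a9_3 q9 fun c237 a237_1 a237_2 a237_3 q237 =>
  addcK c237 a237_1 a237_2 a237_3 q237 1152877541733921980 1 fun c238 a238_1 a238_2 a238_3 q238 =>
  mulK c238 a238_1 a238_2 a238_3 q238 c9 a9_1 a9_2 a9_3 q9 fun c239 a239_1 a239_2 a239_3 q239 =>
  addcK c239 a239_1 a239_2 a239_3 q239 1152958893499749499 1 fun c240 a240_1 a240_2 a240_3 q240 =>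
  mulK c240 a240_1 a240_2 a240_3 q240 c9 a9_1 a9_2 a9_3 q9 fun c241 a241_1 a241_2 a241_3 q241 =>
  addcK c241 a241_1 a241_2 a241_3 q241 1152919998275916923 1 fun c242 a242_1 a242_2 a242_3 q242 =>
  mulK c242 a242_1 a242_2 a242_3 q242 c9 a9_1 a9_2 a9_3 q9 fun c243 a243_1 a243_2 a243_3 q243 =>
  addcK c243 a243_1 a243_2 a243_3 q243 1152914196702812963 1 fun c244 a244_1 a244_2 a244_3 q244 =>
  mulK c244 a244_1 a244_2 a244_3 q244 c9 a9_1 a9_2 a9_3 q9 fun c245 a245_1 a245_2 a245_3 q245 =>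
  addcK c245 a245_1 a245_2 a245_3 q245 1152922238530858516 1 fun c246 a246_1 a246_2 a246_3 q246 =>
  mulK c246 a246_1 a246_2 a246_3 q246 c9 a9_1 a9_2 a9_3 q9 fun c247 a247_1 a247_2 a247_3 q247 =>
  addcK c247 a247_1 a247_2 a247_3 q247 1152921613527217603 1 fun c248 a248_1 a248_2 a248_3 q248 =>
  smulK 833 25 28823037615171174425 960383613337503531008 c9 a9_1 a9_2 a9_3 q9 fun c249 a249_1 a249_2 a249_3 q249 =>
  addcK c249 a249_1 a249_2 a249_3 q249 1152848233151971983 1 fun c250 a250_1 a250_2 a250_3 q250 =>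
  mulK c250 a250_1 a250_2 a250_3 q250 c9 a9_1 a9_2 a9_3 q9 fun c251 a251_1 a251_2 a251_3 q251 =>
  addcK c251 a251_1 a251_2 a251_3 q251 1152958893499749499 1 fun c252 a252_1 a252_2 a252_3 q252 =>
  mulK c252 a252_1 a252_2 a252_3 q252 c9 a9_1 a9_2 a9_3 q9 fun c253 a253_1 a253_2 a253_3 q253 =>
  addcK c253 a253_1 a253_2 a253_3 q253 1152920751441381949 1 fun c254 a254_1 a254_2 a254_3 q254 =>
  mulK c254 a254_1 a254_2 a254_3 q254 c9 a9_1 a9_2 a9_3 q9 fun c255 a255_1 a255_2 a255_3 q255 =>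
  addcK c255 a255_1 a255_2 a255_3 q255 1152920286622841307 1 fun c256 a256_1 a256_2 a256_3 q256 =>
  addcK c237 a237_1 a237_2 a237_3 q237 1152906850315871977 1 fun c257 a257_1 a257_2 a257_3 q257 =>
  mulK c257 a257_1 a257_2 a257_3 q257 c9 a9_1 a9_2 a9_3 q9 fun c258 a258_1 a258_2 a258_3 q258 =>
  addcK c258 a258_1 a258_2 a258_3 q258 1152923997199707144 1 fun c259 a259_1 a259_2 a259_3 q259 =>
  smulK 119 250 288230376151711744250 137197659048214790144 c28 a28_1 a28_2 a28_3 q28 fun c260 a260_1 a260_2 a260_3 q260 =>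
  addK c259 a259_1 a259_2 a259_3 q259 c260 a260_1 a260_2 a260_3 q260 fun c261 a261_1 a261_2 a261_3 q261 =>
  mulK c28 a28_1 a28_2 a28_3 q28 c261 a261_1 a261_2 a261_3 q261 fun c262 a262_1 a262_2 a262_3 q262 =>
  addK c256 a256_1 a256_2 a256_3 q256 c262 a262_1 a262_2 a262_3 q262 fun c263 a263_1 a263_2 a263_3 q263 =>
  mulK c28 a28_1 a28_2 a28_3 q28 c263 a263_1 a263_2 a263_3 q263 fun c264 a264_1 a264_2 a264_3 q264 =>
  addK c248 a248_1 a248_2 a248_3 q248 c264 a264_1 a264_2 a264_3 q264 fun c265 a265_1 a265_2 a265_3 q265 =>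
  smulK 8 1 1152921504606846977 9223372036854775808 c265 a265_1 a265_2 a265_3 q265 fun c267 a267_1 a267_2 a267_3 q267 =>
  subK c89 a89_1 a89_2 a89_3 q89 c193 a193_1 a193_2 a193_3 q193 fun c268 a268_1 a268_2 a268_3 q268 =>
  smulK 1 2 2305843009213693954 1152921504606846976 c268 a268_1 a268_2 a268_3 q268 fun c269 a269_1 a269_2 a269_3 q269 =>
  smulK 952 125 144115188075855872125 1097581272385718321152 c9 a9_1 a9_2 a9_3 q9 fun c272 a272_1 a272_2 a272_3 q272 =>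
  addcK c272 a272_1 a272_2 a272_3 q272 1152888009084618408 1 fun c273 a273_1 a273_2 a273_3 q273 =>
  mulK c273 a273_1 a273_2 a273_3 q273 c9 a9_1 a9_2 a9_3 q9 fun c274 a274_1 a274_2 a274_3 q274 =>
  addcK c274 a274_1 a274_2 a274_3 q274 1152968163482283278 1 fun c275 a275_1 a275_2 a275_3 q275 =>
  mulK c275 a275_1 a275_2 a275_3 q275 c9 a9_1 a9_2 a9_3 q9 fun c276 a276_1 a276_2 a276_3 q276 =>
  addcK c276 a276_1 a276_2 a276_3 q276 1152896668838198772 1 fun c277 a277_1 a277_2 a277_3 q277 =>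
  mulK c277 a277_1 a277_2 a277_3 q277 c9 a9_1 a9_2 a9_3 q9 fun c278 a278_1 a278_2 a278_3 q278 =>
  addcK c278 a278_1 a278_2 a278_3 q278 1152924178619125727 1 fun c279 a279_1 a279_2 a279_3 q279 =>
  mulK c279 a279_1 a279_2 a279_3 q279 c9 a9_1 a9_2 a9_3 q9 fun c280 a280_1 a280_2 a280_3 q280 =>
  addcK c280 a280_1 a280_2 a280_3 q280 1152921635448730681 1 fun c281 a281_1 a281_2 a281_3 q281 =>
  mulK c281 a281_1 a281_2 a281_3 q281 c9 a9_1 a9_2 a9_3 q9 fun c282 a282_1 a282_2 a282_3 q282 =>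
  addcK c282 a282_1 a282_2 a282_3 q282 1152921874867387630 1 fun c283 a283_1 a283_2 a283_3 q283 =>
  smulK 3332 125 144115188075855872125 3841534453350014124032 c9 a9_1 a9_2 a9_3 q9 fun c284 a284_1 a284_2 a284_3 q284 =>
  addcK c284 a284_1 a284_2 a284_3 q284 1152848233151971983 1 fun c285 a285_1 a285_2 a285_3 q285 =>
  mulK c285 a285_1 a285_2 a285_3 q285 c9 a9_1 a9_2 a9_3 q9 fun c286 a286_1 a286_2 a286_3 q286 =>
  addcK c286 a286_1 a286_2 a286_3 q286 1152971356464050340 1 fun c287 a287_1 a287_2 a287_3 q287 =>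
  mulK c287 a287_1 a287_2 a287_3 q287 c9 a9_1 a9_2 a9_3 q9 fun c288 a288_1 a288_2 a288_3 q288 =>
  addcK c288 a288_1 a288_2 a288_3 q288 1152919998275916923 1 fun c289 a289_1 a289_2 a289_3 q289 =>
  mulK c289 a289_1 a289_2 a289_3 q289 c9 a9_1 a9_2 a9_3 q9 fun c290 a290_1 a290_2 a290_3 q290 =>
  addcK c290 a290_1 a290_2 a290_3 q290 1152916632670824301 1 fun c291 a291_1 a291_2 a291_3 q291 =>
  mulK c291 a291_1 a291_2 a291_3 q291 c9 a9_1 a9_2 a9_3 q9 fun c292 a292_1 a292_2 a292_3 q292 =>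
  addcK c292 a292_1 a292_2 a292_3 q292 1152921749248184156 1 fun c293 a293_1 a293_2 a293_3 q293 =>
  addcK c284 a284_1 a284_2 a284_3 q284 1152877541733921980 1 fun c294 a294_1 a294_2 a294_3 q294 =>
  mulK c294 a294_1 a294_2 a294_3 q294 c9 a9_1 a9_2 a9_3 q9 fun c295 a295_1 a295_2 a295_3 q295 =>
  addcK c295 a295_1 a295_2 a295_3 q295 1152936460164007985 1 fun c296 a296_1 a296_2 a296_3 q296 =>
  mulK c296 a296_1 a296_2 a296_3 q296 c9 a9_1 a9_2 a9_3 q9 fun c297 a297_1 a297_2 a297_3 q297 =>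
  addcK c297 a297_1 a297_2 a297_3 q297 1152921353973753971 1 fun c298 a298_1 a298_2 a298_3 q298 =>
  smulK 476 125 144115188075855872125 548790636192859160576 c9 a9_1 a9_2 a9_3 q9 fun c299 a299_1 a299_2 a299_3 q299 =>
  addcK c299 a299_1 a299_2 a299_3 q299 1152919411136707690 1 fun c300 a300_1 a300_2 a300_3 q300 =>
  mulK c28 a28_1 a28_2 a28_3 q28 c300 a300_1 a300_2 a300_3 q300 fun c301 a301_1 a301_2 a301_3 q301 =>
  addK c298 a298_1 a298_2 a298_3 q298 c301 a301_1 a301_2 a301_3 q301 fun c302 a302_1 a302_2 a302_3 q302 =>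
  mulK c28 a28_1 a28_2 a28_3 q28 c302 a302_1 a302_2 a302_3 q302 fun c303 a303_1 a303_2 a303_3 q303 =>
  addK c293 a293_1 a293_2 a293_3 q293 c303 a303_1 a303_2 a303_3 q303 fun c304 a304_1 a304_2 a304_3 q304 =>
  mulK c76 a76_1 a76_2 a76_3 q76 c304 a304_1 a304_2 a304_3 q304 fun c305 a305_1 a305_2 a305_3 q305 =>
  addK c283 a283_1 a283_2 a283_3 q283 c305 a305_1 a305_2 a305_3 q305 fun c306 a306_1 a306_2 a306_3 q306 =>
  mulK c269 a269_1 a269_2 a269_3 q269 c306 a306_1 a306_2 a306_3 q306 fun c308 a308_1 a308_2 a308_3 q308 =>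
  smulK 2 1 1152921504606846977 2305843009213693952 c308 a308_1 a308_2 a308_3 q308 fun c309 a309_1 a309_2 a309_3 q309 =>
  subK c267 a267_1 a267_2 a267_3 q267 c309 a309_1 a309_2 a309_3 q309 fun c310 a310_1 a310_2 a310_3 q310 =>
  addK c55 a55_1 a55_2 a55_3 q55 c168 a168_1 a168_2 a168_3 q168 fun c311 a311_1 a311_2 a311_3 q311 =>
  smulK 1 2 2305843009213693954 1152921504606846976 c311 a311_1 a311_2 a311_3 q311 fun c312 a312_1 a312_2 a312_3 q312 =>
  mulK z2 1152921504606846976 (Nat.add w2 1152921504606846976) 1152921504606846976 0 c55 a55_1 a55_2 a55_3 q55 fun c315 a315_1 a315_2 a315_3 q315 =>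
  subK c89 a89_1 a89_2 a89_3 q89 c315 a315_1 a315_2 a315_3 q315 fun c316 a316_1 a316_2 a316_3 q316 =>
  smulK 1 2 2305843009213693954 1152921504606846976 c316 a316_1 a316_2 a316_3 q316 fun c317 a317_1 a317_2 a317_3 q317 =>
  mulK z2 1152921504606846976 (Nat.add w2 1152921504606846976) 1152921504606846976 0 c168 a168_1 a168_2 a168_3 q168 fun c320 a320_1 a320_2 a320_3 q320 =>
  addK c193 a193_1 a193_2 a193_3 q193 c320 a320_1 a320_2 a320_3 q320 fun c321 a321_1 a321_2 a321_3 q321 =>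
  smulK 1 2 2305843009213693954 1152921504606846976 c321 a321_1 a321_2 a321_3 q321 fun c322 a322_1 a322_2 a322_3 q322 =>
  mulK c317 a317_1 a317_2 a317_3 q317 c322 a322_1 a322_2 a322_3 q322 fun c325 a325_1 a325_2 a325_3 q325 =>
  addK c312 a312_1 a312_2 a312_3 q312 c325 a325_1 a325_2 a325_3 q325 fun c326 a326_1 a326_2 a326_3 q326 =>
  mulK z2 1152921504606846976 (Nat.add w2 1152921504606846976) 1152921504606846976 0 c326 a326_1 a326_2 a326_3 q326 fun c328 a328_1 a328_2 a328_3 q328 =>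
  subK c269 a269_1 a269_2 a269_3 q269 c328 a328_1 a328_2 a328_3 q328 fun c329 a329_1 a329_2 a329_3 q329 =>
  mulK z2 1152921504606846976 (Nat.add w2 1152921504606846976) 1152921504606846976 0 c329 a329_1 a329_2 a329_3 q329 fun c331 a331_1 a331_2 a331_3 q331 =>
  addcK c331 a331_1 a331_2 a331_3 q331 1152922604118474752 0 fun c332 a332_1 a332_2 a332_3 q332 =>
  sqrtK c332 a332_1 a332_2 a332_3 q332 fun c334 a334_1 a334_2 a334_3 q334 =>
  addcK c334 a334_1 a334_2 a334_3 q334 1152922604118474752 0 fun c336 a336_1 a336_2 a336_3 q336 =>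
  invK c336 a336_1 a336_2 a336_3 q336 fun c338 a338_1 a338_2 a338_3 q338 =>
  mulK c329 a329_1 a329_2 a329_3 q329 c338 a338_1 a338_2 a338_3 q338 fun c339 a339_1 a339_2 a339_3 q339 =>
  sqK c339 a339_1 a339_2 a339_3 q339 fun c341 a341_1 a341_2 a341_3 q341 =>
  addK c326 a326_1 a326_2 a326_3 q326 c341 a341_1 a341_2 a341_3 q341 fun c342 a342_1 a342_2 a342_3 q342 =>
  smulK 238 125 144115188075855872125 274395318096429580288 c9 a9_1 a9_2 a9_3 q9 fun c343 a343_1 a343_2 a343_3 q343 =>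
  addcK c343 a343_1 a343_2 a343_3 q343 1152911037256150548 1 fun c344 a344_1 a344_2 a344_3 q344 =>
  mulK c344 a344_1 a344_2 a344_3 q344 c9 a9_1 a9_2 a9_3 q9 fun c345 a345_1 a345_2 a345_3 q345 =>
  addcK c345 a345_1 a345_2 a345_3 q345 1152941418961449255 1 fun c346 a346_1 a346_2 a346_3 q346 =>
  mulK c346 a346_1 a346_2 a346_3 q346 c9 a9_1 a9_2 a9_3 q9 fun c347 a347_1 a347_2 a347_3 q347 =>
  addcK c347 a347_1 a347_2 a347_3 q347 1152903604557546783 1 fun c348 a348_1 a348_2 a348_3 q348 =>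
  mulK c348 a348_1 a348_2 a348_3 q348 c9 a9_1 a9_2 a9_3 q9 fun c349 a349_1 a349_2 a349_3 q349 =>
  addcK c349 a349_1 a349_2 a349_3 q349 1152929554131473924 1 fun c350 a350_1 a350_2 a350_3 q350 =>
  mulK c350 a350_1 a350_2 a350_3 q350 c9 a9_1 a9_2 a9_3 q9 fun c351 a351_1 a351_2 a351_3 q351 =>
  addcK c351 a351_1 a351_2 a351_3 q351 1152918908659893797 1 fun c352 a352_1 a352_2 a352_3 q352 =>
  mulK c352 a352_1 a352_2 a352_3 q352 c9 a9_1 a9_2 a9_3 q9 fun c353 a353_1 a353_2 a353_3 q353 =>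
  addcK c353 a353_1 a353_2 a353_3 q353 1152922523854125924 1 fun c354 a354_1 a354_2 a354_3 q354 =>
  mulK c74 a74_1 a74_2 a74_3 q74 c265 a265_1 a265_2 a265_3 q265 fun c356 a356_1 a356_2 a356_3 q356 =>
  smulK 4 1 1152921504606846977 4611686018427387904 c356 a356_1 a356_2 a356_3 q356 fun c357 a357_1 a357_2 a357_3 q357 =>
  addK c354 a354_1 a354_2 a354_3 q354 c357 a357_1 a357_2 a357_3 q357 fun c358 a358_1 a358_2 a358_3 q358 =>
  mulK z2 1152921504606846976 (Nat.add w2 1152921504606846976) 1152921504606846976 0 c306 a306_1 a306_2 a306_3 q306 fun c360 a360_1 a360_2 a360_3 q360 =>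
  smulK 2 1 1152921504606846977 2305843009213693952 c360 a360_1 a360_2 a360_3 q360 fun c361 a361_1 a361_2 a361_3 q361 =>
  subK c358 a358_1 a358_2 a358_3 q358 c361 a361_1 a361_2 a361_3 q361 fun c362 a362_1 a362_2 a362_3 q362 =>
  mulK c342 a342_1 a342_2 a342_3 q342 c362 a362_1 a362_2 a362_3 q362 fun c364 a364_1 a364_2 a364_3 q364 =>
  addK c89 a89_1 a89_2 a89_3 q89 c315 a315_1 a315_2 a315_3 q315 fun c365 a365_1 a365_2 a365_3 q365 =>
  smulK 1 2 2305843009213693954 1152921504606846976 c365 a365_1 a365_2 a365_3 q365 fun c366 a366_1 a366_2 a366_3 q366 =>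
  subK c193 a193_1 a193_2 a193_3 q193 c320 a320_1 a320_2 a320_3 q320 fun c369 a369_1 a369_2 a369_3 q369 =>
  smulK 1 2 2305843009213693954 1152921504606846976 c369 a369_1 a369_2 a369_3 q369 fun c370 a370_1 a370_2 a370_3 q370 =>
  mulK c366 a366_1 a366_2 a366_3 q366 c370 a370_1 a370_2 a370_3 q370 fun c373 a373_1 a373_2 a373_3 q373 =>
  addK c312 a312_1 a312_2 a312_3 q312 c373 a373_1 a373_2 a373_3 q373 fun c374 a374_1 a374_2 a374_3 q374 =>
  negK c269 a269_1 a269_2 a269_3 q269 fun c376 a376_1 a376_2 a376_3 q376 =>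
  mulK z2 1152921504606846976 (Nat.add w2 1152921504606846976) 1152921504606846976 0 c374 a374_1 a374_2 a374_3 q374 fun c377 a377_1 a377_2 a377_3 q377 =>
  subK c376 a376_1 a376_2 a376_3 q376 c377 a377_1 a377_2 a377_3 q377 fun c378 a378_1 a378_2 a378_3 q378 =>
  mulK z2 1152921504606846976 (Nat.add w2 1152921504606846976) 1152921504606846976 0 c378 a378_1 a378_2 a378_3 q378 fun c380 a380_1 a380_2 a380_3 q380 =>
  addcK c380 a380_1 a380_2 a380_3 q380 1152922604118474752 0 fun c381 a381_1 a381_2 a381_3 q381 =>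
  sqrtK c381 a381_1 a381_2 a381_3 q381 fun c383 a383_1 a383_2 a383_3 q383 =>
  addcK c383 a383_1 a383_2 a383_3 q383 1152922604118474752 0 fun c385 a385_1 a385_2 a385_3 q385 =>
  invK c385 a385_1 a385_2 a385_3 q385 fun c387 a387_1 a387_2 a387_3 q387 =>
  mulK c378 a378_1 a378_2 a378_3 q378 c387 a387_1 a387_2 a387_3 q387 fun c388 a388_1 a388_2 a388_3 q388 =>
  sqK c388 a388_1 a388_2 a388_3 q388 fun c390 a390_1 a390_2 a390_3 q390 =>
  addK c374 a374_1 a374_2 a374_3 q374 c390 a390_1 a390_2 a390_3 q390 fun c391 a391_1 a391_2 a391_3 q391 =>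
  addK c358 a358_1 a358_2 a358_3 q358 c361 a361_1 a361_2 a361_3 q361 fun c392 a392_1 a392_2 a392_3 q392 =>
  mulK c391 a391_1 a391_2 a391_3 q391 c392 a392_1 a392_2 a392_3 q392 fun c394 a394_1 a394_2 a394_3 q394 =>
  addK c364 a364_1 a364_2 a364_3 q364 c394 a394_1 a394_2 a394_3 q394 fun c395 a395_1 a395_2 a395_3 q395 =>
  smulK 1 2 2305843009213693954 1152921504606846976 c395 a395_1 a395_2 a395_3 q395 fun c396 a396_1 a396_2 a396_3 q396 =>
  subK c310 a310_1 a310_2 a310_3 q310 c396 a396_1 a396_2 a396_3 q396 fun c398 a398_1 a398_2 a398_3 q398 =>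
  mulK z1 (Nat.add w1 1152921504606846976) 1152921504606846976 1152921504606846976 0 c398 a398_1 a398_2 a398_3 q398 fun c400 a400_1 a400_2 a400_3 q400 =>
  negK c400 a400_1 a400_2 a400_3 q400 fun c401 a401_1 a401_2 a401_3 q401 =>
  reluK c401 a401_1 a401_2 a401_3 q401 fun c402 a402_1 a402_2 a402_3 q402 =>
  sqK c402 a402_1 a402_2 a402_3 q402 fun c403 a403_1 a403_2 a403_3 q403 =>
  subK c236 a236_1 a236_2 a236_3 q236 c403 a403_1 a403_2 a403_3 q403 fun c404 a404_1 a404_2 a404_3 q404 =>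
  pos c404 a404_1 a404_2 a404_3 q404

theorem alt3_s {p1 p2 z1 w1 z2 w2 z3 w3 : ℕ} {e1 e2 e3 a f z p q : ℝ} (he : Ev e1 e2 e3)
    (hp1 : In e1 e2 e3 p1 1152921504606846976 1152921504606846976 1152921504606846976 0 p)
    (hp2 : In e1 e2 e3 p2 1152921504606846976 1152921504606846976 1152921504606846976 0 q)
    (hx1 : In e1 e2 e3 z1 (Nat.add w1 1152921504606846976) 1152921504606846976 1152921504606846976 0 a)
    (hx2 : In e1 e2 e3 z2 1152921504606846976 (Nat.add w2 1152921504606846976) 1152921504606846976 0 f)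
    (hx3 : In e1 e2 e3 z3 1152921504606846976 1152921504606846976 (Nat.add w3 1152921504606846976) 0 z)
    (H0 : alt3 p1 p2 z1 w1 z2 w2 z3 w3 = true) : 0 < (((3/4:ℝ) * z) - (gp a f z p q)) ∧ 0 < (((3/4:ℝ) * z) - (gq a f z p q)) ∧ 0 < (PA a f z p q) ∧ 0 < (QA a f z p q) ∧ 0 < (((PA a f z p q) * (QA a f z p q)) - ((max (-(a * (ZAA a f z p q))) (0:ℝ)) ^ 2)) := by
  unfold alt3 at H0
  refine smulK_s he (w := (3/4:ℝ)) (by norm_num) (by norm_num) (by norm_num) (by norm_num) hx3 (fun _ _ _ _ _ h1 H1 => ?_) H0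
  refine smulK_s he (w := (3:ℝ)) (by norm_num) (by norm_num) (by norm_num) (by norm_num) hp1 (fun _ _ _ _ _ h2 H2 => ?_) H1
  have h3 := In_cast (w := (gp a f z p q)) h2 rfl
  refine subK_s he h1 h3 (fun _ _ _ _ _ h4 H3 => ?_) H2
  refine posK_s he h4 (fun p0 H4 => ?_) H3
  refine smulK_s he (w := (3:ℝ)) (by norm_num) (by norm_num) (by norm_num) (by norm_num) hp2 (fun _ _ _ _ _ h5 H5 => ?_) H4
  have h6 := In_cast (w := (gq a f z p q)) h5 rfl
  refine subK_s he h1 h6 (fun _ _ _ _ _ h7 H6 => ?_) H5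
  refine posK_s he h7 (fun p1 H7 => ?_) H6
  refine smulK_s he (w := (2:ℝ)) (by norm_num) (by norm_num) (by norm_num) (by norm_num) hx1 (fun _ _ _ _ _ h8 H8 => ?_) H7
  refine addcK_s he h8 (v' := (-1/2:ℝ)) (by norm_num [SS, BB, abs_le]) (fun _ _ _ _ _ h9 H9 => ?_) H8
  have h10 := In_cast h9 (sub_c (c := (1/2:ℝ)) (by norm_num))
  have h11 := In_cast (w := (x a f z p q)) h10 rfl
  refine smulK_s he (w := (6909/500:ℝ)) (by norm_num) (by norm_num) (by norm_num) (by norm_num) h11 (fun _ _ _ _ _ h12 H10 => ?_) H9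
  refine negK_s he h12 (fun _ _ _ _ _ h13 H11 => ?_) H10
  have h14 := In_cast h13 (neg_mul_c (c := (-6909/500:ℝ)) (by norm_num))
  refine addcK_s he h14 (v' := (150507/4000:ℝ)) (by norm_num [SS, BB, abs_le]) (fun _ _ _ _ _ h15 H12 => ?_) H11
  refine mulK_s he h15 h11 (fun _ _ _ _ _ h16 H13 => ?_) H12
  refine addcK_s he h16 (v' := (-44979/1600:ℝ)) (by norm_num [SS, BB, abs_le]) (fun _ _ _ _ _ h17 H14 => ?_) H13
  refine mulK_s he h17 h11 (fun _ _ _ _ _ h18 H15 => ?_) H14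
  refine addcK_s he h18 (v' := (-721/1600:ℝ)) (by norm_num [SS, BB, abs_le]) (fun _ _ _ _ _ h19 H16 => ?_) H15
  refine mulK_s he h19 h11 (fun _ _ _ _ _ h20 H17 => ?_) H16
  refine addcK_s he h20 (v' := (69123/16000:ℝ)) (by norm_num [SS, BB, abs_le]) (fun _ _ _ _ _ h21 H18 => ?_) H17
  refine mulK_s he h21 h11 (fun _ _ _ _ _ h22 H19 => ?_) H18
  refine addcK_s he h22 (v' := (13983/64000:ℝ)) (by norm_num [SS, BB, abs_le]) (fun _ _ _ _ _ h23 H20 => ?_) H19
  refine mulK_s he h23 h11 (fun _ _ _ _ _ h24 H21 => ?_) H20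
  refine addcK_s he h24 (v' := (-56659/128000:ℝ)) (by norm_num [SS, BB, abs_le]) (fun _ _ _ _ _ h25 H22 => ?_) H21
  refine mulK_s he hx1 hx2 (fun _ _ _ _ _ h26 H23 => ?_) H22
  refine sqK_s he h26 (fun _ _ _ _ _ h27 H24 => ?_) H23
  refine smulK_s he (w := (4:ℝ)) (by norm_num) (by norm_num) (by norm_num) (by norm_num) h27 (fun _ _ _ _ _ h28 H25 => ?_) H24
  have h29 := In_cast (w := (dd a f z p q)) h28 rfl
  refine smulK_s he (w := (6909/200:ℝ)) (by norm_num) (by norm_num) (by norm_num) (by norm_num) h11 (fun _ _ _ _ _ h30 H26 => ?_) H25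
  refine negK_s he h30 (fun _ _ _ _ _ h31 H27 => ?_) H26
  have h32 := In_cast h31 (neg_mul_c (c := (-6909/200:ℝ)) (by norm_num))
  refine addcK_s he h32 (v' := (50169/800:ℝ)) (by norm_num [SS, BB, abs_le]) (fun _ _ _ _ _ h33 H28 => ?_) H27
  refine mulK_s he h33 h11 (fun _ _ _ _ _ h34 H29 => ?_) H28
  refine addcK_s he h34 (v' := (-44979/1600:ℝ)) (by norm_num [SS, BB, abs_le]) (fun _ _ _ _ _ h35 H30 => ?_) H29
  refine mulK_s he h35 h11 (fun _ _ _ _ _ h36 H31 => ?_) H30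
  refine addcK_s he h36 (v' := (-721/3200:ℝ)) (by norm_num [SS, BB, abs_le]) (fun _ _ _ _ _ h37 H32 => ?_) H31
  refine mulK_s he h37 h11 (fun _ _ _ _ _ h38 H33 => ?_) H32
  refine addcK_s he h38 (v' := (23041/32000:ℝ)) (by norm_num [SS, BB, abs_le]) (fun _ _ _ _ _ h39 H34 => ?_) H33
  refine addcK_s he h14 (v' := (50169/4000:ℝ)) (by norm_num [SS, BB, abs_le]) (fun _ _ _ _ _ h40 H35 => ?_) H34
  refine mulK_s he h40 h11 (fun _ _ _ _ _ h41 H36 => ?_) H35
  refine addcK_s he h41 (v' := (-14993/8000:ℝ)) (by norm_num [SS, BB, abs_le]) (fun _ _ _ _ _ h42 H37 => ?_) H36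
  refine smulK_s he (w := (987/2000:ℝ)) (by norm_num) (by norm_num) (by norm_num) (by norm_num) h29 (fun _ _ _ _ _ h43 H38 => ?_) H37
  refine negK_s he h43 (fun _ _ _ _ _ h44 H39 => ?_) H38
  have h45 := In_cast h44 (neg_mul_c (c := (-987/2000:ℝ)) (by norm_num))
  refine addK_s he h42 h45 (fun _ _ _ _ _ h46 H40 => ?_) H39
  refine mulK_s he h29 h46 (fun _ _ _ _ _ h47 H41 => ?_) H40
  refine addK_s he h39 h47 (fun _ _ _ _ _ h48 H42 => ?_) H41
  refine mulK_s he h29 h48 (fun _ _ _ _ _ h49 H43 => ?_) H42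
  refine addK_s he h25 h49 (fun _ _ _ _ _ h50 H44 => ?_) H43
  have h51 := In_cast (w := (uE a f z p q)) h50 rfl
  refine mulK_s he hx1 h51 (fun _ _ _ _ _ h52 H45 => ?_) H44
  refine smulK_s he (w := (8:ℝ)) (by norm_num) (by norm_num) (by norm_num) (by norm_num) h52 (fun _ _ _ _ _ h53 H46 => ?_) H45
  refine sqK_s he h3 (fun _ _ _ _ _ h54 H47 => ?_) H46
  refine smulK_s he (w := (99/200:ℝ)) (by norm_num) (by norm_num) (by norm_num) (by norm_num) h54 (fun _ _ _ _ _ h55 H48 => ?_) H47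
  have h56 := In_cast (w := (kaAp a f z p q)) h55 rfl
  refine smulK_s he (w := (987/1000:ℝ)) (by norm_num) (by norm_num) (by norm_num) (by norm_num) h11 (fun _ _ _ _ _ h57 H49 => ?_) H48
  refine negK_s he h57 (fun _ _ _ _ _ h58 H50 => ?_) H49
  have h59 := In_cast h58 (neg_mul_c (c := (-987/1000:ℝ)) (by norm_num))
  refine addcK_s he h59 (v' := (4077/1000:ℝ)) (by norm_num [SS, BB, abs_le]) (fun _ _ _ _ _ h60 H51 => ?_) H50
  refine mulK_s he h60 h11 (fun _ _ _ _ _ h61 H52 => ?_) H51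
  refine addcK_s he h61 (v' := (-23147/4000:ℝ)) (by norm_num [SS, BB, abs_le]) (fun _ _ _ _ _ h62 H53 => ?_) H52
  refine mulK_s he h62 h11 (fun _ _ _ _ _ h63 H54 => ?_) H53
  refine addcK_s he h63 (v' := (11213/4000:ℝ)) (by norm_num [SS, BB, abs_le]) (fun _ _ _ _ _ h64 H55 => ?_) H54
  refine mulK_s he h64 h11 (fun _ _ _ _ _ h65 H56 => ?_) H55
  refine addcK_s he h65 (v' := (123/3200:ℝ)) (by norm_num [SS, BB, abs_le]) (fun _ _ _ _ _ h66 H57 => ?_) H56
  refine mulK_s he h66 h11 (fun _ _ _ _ _ h67 H58 => ?_) H57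
  refine addcK_s he h67 (v' := (2023/16000:ℝ)) (by norm_num [SS, BB, abs_le]) (fun _ _ _ _ _ h68 H59 => ?_) H58
  refine mulK_s he h68 h11 (fun _ _ _ _ _ h69 H60 => ?_) H59
  refine addcK_s he h69 (v' := (-12141/12800:ℝ)) (by norm_num [SS, BB, abs_le]) (fun _ _ _ _ _ h70 H61 => ?_) H60
  refine mulK_s he h70 h11 (fun _ _ _ _ _ h71 H62 => ?_) H61
  refine addcK_s he h71 (v' := (75807/64000:ℝ)) (by norm_num [SS, BB, abs_le]) (fun _ _ _ _ _ h72 H63 => ?_) H62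
  have h73 := In_cast (w := (uh a f z p q)) h72 rfl
  refine sqK_s he hx2 (fun _ _ _ _ _ h74 H64 => ?_) H63
  refine mulK_s he hx1 h74 (fun _ _ _ _ _ h75 H65 => ?_) H64
  refine smulK_s he (w := (4:ℝ)) (by norm_num) (by norm_num) (by norm_num) (by norm_num) h75 (fun _ _ _ _ _ h76 H66 => ?_) H65
  have h77 := In_cast (w := (af2 a f z p q)) h76 rfl
  refine mulK_s he h77 h51 (fun _ _ _ _ _ h78 H67 => ?_) H66
  refine addK_s he h73 h78 (fun _ _ _ _ _ h79 H68 => ?_) H67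
  have h80 := In_cast (w := (um a f z p q)) h79 rfl
  refine mulK_s he h56 h80 (fun _ _ _ _ _ h81 H69 => ?_) H68
  refine subK_s he h53 h81 (fun _ _ _ _ _ h82 H70 => ?_) H69
  refine mulK_s he hx3 hx2 (fun _ _ _ _ _ h83 H71 => ?_) H70
  have h84 := In_cast (w := (s a f z p q)) h83 rfl
  refine mulK_s he h84 h3 (fun _ _ _ _ _ h85 H72 => ?_) H71
  refine smulK_s he (w := (4/3:ℝ)) (by norm_num) (by norm_num) (by norm_num) (by norm_num) h85 (fun _ _ _ _ _ h86 H73 => ?_) H72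
  refine mulK_s he hx2 h54 (fun _ _ _ _ _ h87 H74 => ?_) H73
  refine smulK_s he (w := (21/200:ℝ)) (by norm_num) (by norm_num) (by norm_num) (by norm_num) h87 (fun _ _ _ _ _ h88 H75 => ?_) H74
  refine subK_s he h86 h88 (fun _ _ _ _ _ h89 H76 => ?_) H75
  have h90 := In_cast (w := (nuAp a f z p q)) h89 rfl
  refine smulK_s he (w := (987/250:ℝ)) (by norm_num) (by norm_num) (by norm_num) (by norm_num) h11 (fun _ _ _ _ _ h91 H77 => ?_) H76
  refine negK_s he h91 (fun _ _ _ _ _ h92 H78 => ?_) H77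
  have h93 := In_cast h92 (neg_mul_c (c := (-987/250:ℝ)) (by norm_num))
  refine addcK_s he h93 (v' := (50169/4000:ℝ)) (by norm_num [SS, BB, abs_le]) (fun _ _ _ _ _ h94 H79 => ?_) H78
  refine mulK_s he h94 h11 (fun _ _ _ _ _ h95 H80 => ?_) H79
  refine addcK_s he h95 (v' := (-44979/4000:ℝ)) (by norm_num [SS, BB, abs_le]) (fun _ _ _ _ _ h96 H81 => ?_) H80
  refine mulK_s he h96 h11 (fun _ _ _ _ _ h97 H82 => ?_) H81
  refine addcK_s he h97 (v' := (-721/3200:ℝ)) (by norm_num [SS, BB, abs_le]) (fun _ _ _ _ _ h98 H83 => ?_) H82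
  refine mulK_s he h98 h11 (fun _ _ _ _ _ h99 H84 => ?_) H83
  refine addcK_s he h99 (v' := (23041/8000:ℝ)) (by norm_num [SS, BB, abs_le]) (fun _ _ _ _ _ h100 H85 => ?_) H84
  refine mulK_s he h100 h11 (fun _ _ _ _ _ h101 H86 => ?_) H85
  refine addcK_s he h101 (v' := (13983/64000:ℝ)) (by norm_num [SS, BB, abs_le]) (fun _ _ _ _ _ h102 H87 => ?_) H86
  refine mulK_s he h102 h11 (fun _ _ _ _ _ h103 H88 => ?_) H87
  refine addcK_s he h103 (v' := (-56659/64000:ℝ)) (by norm_num [SS, BB, abs_le]) (fun _ _ _ _ _ h104 H89 => ?_) H88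
  refine mulK_s he h104 h11 (fun _ _ _ _ _ h105 H90 => ?_) H89
  refine addcK_s he h105 (v' := (90909/256000:ℝ)) (by norm_num [SS, BB, abs_le]) (fun _ _ _ _ _ h106 H91 => ?_) H90
  refine smulK_s he (w := (6909/250:ℝ)) (by norm_num) (by norm_num) (by norm_num) (by norm_num) h11 (fun _ _ _ _ _ h107 H92 => ?_) H91
  refine negK_s he h107 (fun _ _ _ _ _ h108 H93 => ?_) H92
  have h109 := In_cast h108 (neg_mul_c (c := (-6909/250:ℝ)) (by norm_num))
  refine addcK_s he h109 (v' := (50169/800:ℝ)) (by norm_num [SS, BB, abs_le]) (fun _ _ _ _ _ h110 H94 => ?_) H93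
  refine mulK_s he h110 h11 (fun _ _ _ _ _ h111 H95 => ?_) H94
  refine addcK_s he h111 (v' := (-14993/400:ℝ)) (by norm_num [SS, BB, abs_le]) (fun _ _ _ _ _ h112 H96 => ?_) H95
  refine mulK_s he h112 h11 (fun _ _ _ _ _ h113 H97 => ?_) H96
  refine addcK_s he h113 (v' := (-721/1600:ℝ)) (by norm_num [SS, BB, abs_le]) (fun _ _ _ _ _ h114 H98 => ?_) H97
  refine mulK_s he h114 h11 (fun _ _ _ _ _ h115 H99 => ?_) H98
  refine addcK_s he h115 (v' := (23041/8000:ℝ)) (by norm_num [SS, BB, abs_le]) (fun _ _ _ _ _ h116 H100 => ?_) H99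
  refine mulK_s he h116 h11 (fun _ _ _ _ _ h117 H101 => ?_) H100
  refine addcK_s he h117 (v' := (4661/64000:ℝ)) (by norm_num [SS, BB, abs_le]) (fun _ _ _ _ _ h118 H102 => ?_) H101
  refine addcK_s he h109 (v' := (150507/4000:ℝ)) (by norm_num [SS, BB, abs_le]) (fun _ _ _ _ _ h119 H103 => ?_) H102
  refine mulK_s he h119 h11 (fun _ _ _ _ _ h120 H104 => ?_) H103
  refine addcK_s he h120 (v' := (-44979/4000:ℝ)) (by norm_num [SS, BB, abs_le]) (fun _ _ _ _ _ h121 H105 => ?_) H104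
  refine mulK_s he h121 h11 (fun _ _ _ _ _ h122 H106 => ?_) H105
  refine addcK_s he h122 (v' := (-721/16000:ℝ)) (by norm_num [SS, BB, abs_le]) (fun _ _ _ _ _ h123 H107 => ?_) H106
  refine addcK_s he h93 (v' := (7167/4000:ℝ)) (by norm_num [SS, BB, abs_le]) (fun _ _ _ _ _ h124 H108 => ?_) H107
  refine mulK_s he h29 h124 (fun _ _ _ _ _ h125 H109 => ?_) H108
  refine addK_s he h123 h125 (fun _ _ _ _ _ h126 H110 => ?_) H109
  refine mulK_s he h29 h126 (fun _ _ _ _ _ h127 H111 => ?_) H110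
  refine addK_s he h118 h127 (fun _ _ _ _ _ h128 H112 => ?_) H111
  refine mulK_s he h29 h128 (fun _ _ _ _ _ h129 H113 => ?_) H112
  refine addK_s he h106 h129 (fun _ _ _ _ _ h130 H114 => ?_) H113
  have h131 := In_cast (w := (uO a f z p q)) h130 rfl
  refine mulK_s he h90 h131 (fun _ _ _ _ _ h132 H115 => ?_) H114
  refine smulK_s he (w := (2:ℝ)) (by norm_num) (by norm_num) (by norm_num) (by norm_num) h132 (fun _ _ _ _ _ h133 H116 => ?_) H115
  refine subK_s he h82 h133 (fun _ _ _ _ _ h134 H117 => ?_) H116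
  refine smulK_s he (w := (2:ℝ)) (by norm_num) (by norm_num) (by norm_num) (by norm_num) h3 (fun _ _ _ _ _ h135 H118 => ?_) H117
  refine addK_s he h134 h135 (fun _ _ _ _ _ h136 H119 => ?_) H118
  have h137 := In_cast (w := (PA a f z p q)) h136 rfl
  refine posK_s he h137 (fun p2 H120 => ?_) H119
  refine addcK_s he h14 (v' := (1449/32:ℝ)) (by norm_num [SS, BB, abs_le]) (fun _ _ _ _ _ h138 H121 => ?_) H120
  refine mulK_s he h138 h11 (fun _ _ _ _ _ h139 H122 => ?_) H121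
  refine addcK_s he h139 (v' := (-75597/1600:ℝ)) (by norm_num [SS, BB, abs_le]) (fun _ _ _ _ _ h140 H123 => ?_) H122
  refine mulK_s he h140 h11 (fun _ _ _ _ _ h141 H124 => ?_) H123
  refine addcK_s he h141 (v' := (4157/320:ℝ)) (by norm_num [SS, BB, abs_le]) (fun _ _ _ _ _ h142 H125 => ?_) H124
  refine mulK_s he h142 h11 (fun _ _ _ _ _ h143 H126 => ?_) H125
  refine addcK_s he h143 (v' := (52713/16000:ℝ)) (by norm_num [SS, BB, abs_le]) (fun _ _ _ _ _ h144 H127 => ?_) H126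
  refine mulK_s he h144 h11 (fun _ _ _ _ _ h145 H128 => ?_) H127
  refine addcK_s he h145 (v' := (-3651/12800:ℝ)) (by norm_num [SS, BB, abs_le]) (fun _ _ _ _ _ h146 H129 => ?_) H128
  refine mulK_s he h146 h11 (fun _ _ _ _ _ h147 H130 => ?_) H129
  refine addcK_s he h147 (v' := (-84189/128000:ℝ)) (by norm_num [SS, BB, abs_le]) (fun _ _ _ _ _ h148 H131 => ?_) H130
  refine addcK_s he h32 (v' := (2415/32:ℝ)) (by norm_num [SS, BB, abs_le]) (fun _ _ _ _ _ h149 H132 => ?_) H131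
  refine mulK_s he h149 h11 (fun _ _ _ _ _ h150 H133 => ?_) H132
  refine addcK_s he h150 (v' := (-75597/1600:ℝ)) (by norm_num [SS, BB, abs_le]) (fun _ _ _ _ _ h151 H134 => ?_) H133
  refine mulK_s he h151 h11 (fun _ _ _ _ _ h152 H135 => ?_) H134
  refine addcK_s he h152 (v' := (4157/640:ℝ)) (by norm_num [SS, BB, abs_le]) (fun _ _ _ _ _ h153 H136 => ?_) H135
  refine mulK_s he h153 h11 (fun _ _ _ _ _ h154 H137 => ?_) H136
  refine addcK_s he h154 (v' := (17571/32000:ℝ)) (by norm_num [SS, BB, abs_le]) (fun _ _ _ _ _ h155 H138 => ?_) H137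
  refine addcK_s he h14 (v' := (483/32:ℝ)) (by norm_num [SS, BB, abs_le]) (fun _ _ _ _ _ h156 H139 => ?_) H138
  refine mulK_s he h156 h11 (fun _ _ _ _ _ h157 H140 => ?_) H139
  refine addcK_s he h157 (v' := (-25199/8000:ℝ)) (by norm_num [SS, BB, abs_le]) (fun _ _ _ _ _ h158 H141 => ?_) H140
  refine addK_s he h158 h45 (fun _ _ _ _ _ h159 H142 => ?_) H141
  refine mulK_s he h29 h159 (fun _ _ _ _ _ h160 H143 => ?_) H142
  refine addK_s he h155 h160 (fun _ _ _ _ _ h161 H144 => ?_) H143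
  refine mulK_s he h29 h161 (fun _ _ _ _ _ h162 H145 => ?_) H144
  refine addK_s he h148 h162 (fun _ _ _ _ _ h163 H146 => ?_) H145
  have h164 := In_cast (w := (cE a f z p q)) h163 rfl
  refine mulK_s he hx1 h164 (fun _ _ _ _ _ h165 H147 => ?_) H146
  refine smulK_s he (w := (8:ℝ)) (by norm_num) (by norm_num) (by norm_num) (by norm_num) h165 (fun _ _ _ _ _ h166 H148 => ?_) H147
  refine sqK_s he h6 (fun _ _ _ _ _ h167 H149 => ?_) H148
  refine smulK_s he (w := (99/200:ℝ)) (by norm_num) (by norm_num) (by norm_num) (by norm_num) h167 (fun _ _ _ _ _ h168 H150 => ?_) H149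
  have h169 := In_cast (w := (kaAq a f z p q)) h168 rfl
  refine addcK_s he h59 (v' := (2403/500:ℝ)) (by norm_num [SS, BB, abs_le]) (fun _ _ _ _ _ h170 H151 => ?_) H150
  refine mulK_s he h170 h11 (fun _ _ _ _ _ h171 H152 => ?_) H151
  refine addcK_s he h171 (v' := (-34811/4000:ℝ)) (by norm_num [SS, BB, abs_le]) (fun _ _ _ _ _ h172 H153 => ?_) H152
  refine mulK_s he h172 h11 (fun _ _ _ _ _ h173 H154 => ?_) H153
  refine addcK_s he h173 (v' := (13899/2000:ℝ)) (by norm_num [SS, BB, abs_le]) (fun _ _ _ _ _ h174 H155 => ?_) H154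
  refine mulK_s he h174 h11 (fun _ _ _ _ _ h175 H156 => ?_) H155
  refine addcK_s he h175 (v' := (-1521/640:ℝ)) (by norm_num [SS, BB, abs_le]) (fun _ _ _ _ _ h176 H157 => ?_) H156
  refine mulK_s he h176 h11 (fun _ _ _ _ _ h177 H158 => ?_) H157
  refine addcK_s he h177 (v' := (1597/1600:ℝ)) (by norm_num [SS, BB, abs_le]) (fun _ _ _ _ _ h178 H159 => ?_) H158
  refine mulK_s he h178 h11 (fun _ _ _ _ _ h179 H160 => ?_) H159
  refine addcK_s he h179 (v' := (-116129/64000:ℝ)) (by norm_num [SS, BB, abs_le]) (fun _ _ _ _ _ h180 H161 => ?_) H160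
  refine mulK_s he h180 h11 (fun _ _ _ _ _ h181 H162 => ?_) H161
  refine addcK_s he h181 (v' := (9741/6400:ℝ)) (by norm_num [SS, BB, abs_le]) (fun _ _ _ _ _ h182 H163 => ?_) H162
  have h183 := In_cast (w := (ch a f z p q)) h182 rfl
  refine mulK_s he h77 h164 (fun _ _ _ _ _ h184 H164 => ?_) H163
  refine addK_s he h183 h184 (fun _ _ _ _ _ h185 H165 => ?_) H164
  have h186 := In_cast (w := (cm a f z p q)) h185 rfl
  refine mulK_s he h169 h186 (fun _ _ _ _ _ h187 H166 => ?_) H165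
  refine subK_s he h166 h187 (fun _ _ _ _ _ h188 H167 => ?_) H166
  refine mulK_s he h84 h6 (fun _ _ _ _ _ h189 H168 => ?_) H167
  refine smulK_s he (w := (4/3:ℝ)) (by norm_num) (by norm_num) (by norm_num) (by norm_num) h189 (fun _ _ _ _ _ h190 H169 => ?_) H168
  refine mulK_s he hx2 h167 (fun _ _ _ _ _ h191 H170 => ?_) H169
  refine smulK_s he (w := (21/200:ℝ)) (by norm_num) (by norm_num) (by norm_num) (by norm_num) h191 (fun _ _ _ _ _ h192 H171 => ?_) H170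
  refine subK_s he h190 h192 (fun _ _ _ _ _ h193 H172 => ?_) H171
  have h194 := In_cast (w := (nuAq a f z p q)) h193 rfl
  refine addcK_s he h93 (v' := (483/32:ℝ)) (by norm_num [SS, BB, abs_le]) (fun _ _ _ _ _ h195 H173 => ?_) H172
  refine mulK_s he h195 h11 (fun _ _ _ _ _ h196 H174 => ?_) H173
  refine addcK_s he h196 (v' := (-75597/4000:ℝ)) (by norm_num [SS, BB, abs_le]) (fun _ _ _ _ _ h197 H175 => ?_) H174
  refine mulK_s he h197 h11 (fun _ _ _ _ _ h198 H176 => ?_) H175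
  refine addcK_s he h198 (v' := (4157/640:ℝ)) (by norm_num [SS, BB, abs_le]) (fun _ _ _ _ _ h199 H177 => ?_) H176
  refine mulK_s he h199 h11 (fun _ _ _ _ _ h200 H178 => ?_) H177
  refine addcK_s he h200 (v' := (17571/8000:ℝ)) (by norm_num [SS, BB, abs_le]) (fun _ _ _ _ _ h201 H179 => ?_) H178
  refine mulK_s he h201 h11 (fun _ _ _ _ _ h202 H180 => ?_) H179
  refine addcK_s he h202 (v' := (-3651/12800:ℝ)) (by norm_num [SS, BB, abs_le]) (fun _ _ _ _ _ h203 H181 => ?_) H180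
  refine mulK_s he h203 h11 (fun _ _ _ _ _ h204 H182 => ?_) H181
  refine addcK_s he h204 (v' := (-84189/64000:ℝ)) (by norm_num [SS, BB, abs_le]) (fun _ _ _ _ _ h205 H183 => ?_) H182
  refine mulK_s he h205 h11 (fun _ _ _ _ _ h206 H184 => ?_) H183
  refine addcK_s he h206 (v' := (78691/256000:ℝ)) (by norm_num [SS, BB, abs_le]) (fun _ _ _ _ _ h207 H185 => ?_) H184
  refine addcK_s he h109 (v' := (2415/32:ℝ)) (by norm_num [SS, BB, abs_le]) (fun _ _ _ _ _ h208 H186 => ?_) H185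
  refine mulK_s he h208 h11 (fun _ _ _ _ _ h209 H187 => ?_) H186
  refine addcK_s he h209 (v' := (-25199/400:ℝ)) (by norm_num [SS, BB, abs_le]) (fun _ _ _ _ _ h210 H188 => ?_) H187
  refine mulK_s he h210 h11 (fun _ _ _ _ _ h211 H189 => ?_) H188
  refine addcK_s he h211 (v' := (4157/320:ℝ)) (by norm_num [SS, BB, abs_le]) (fun _ _ _ _ _ h212 H190 => ?_) H189
  refine mulK_s he h212 h11 (fun _ _ _ _ _ h213 H191 => ?_) H190
  refine addcK_s he h213 (v' := (17571/8000:ℝ)) (by norm_num [SS, BB, abs_le]) (fun _ _ _ _ _ h214 H192 => ?_) H191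
  refine mulK_s he h214 h11 (fun _ _ _ _ _ h215 H193 => ?_) H192
  refine addcK_s he h215 (v' := (-1217/12800:ℝ)) (by norm_num [SS, BB, abs_le]) (fun _ _ _ _ _ h216 H194 => ?_) H193
  refine addcK_s he h109 (v' := (1449/32:ℝ)) (by norm_num [SS, BB, abs_le]) (fun _ _ _ _ _ h217 H195 => ?_) H194
  refine mulK_s he h217 h11 (fun _ _ _ _ _ h218 H196 => ?_) H195
  refine addcK_s he h218 (v' := (-75597/4000:ℝ)) (by norm_num [SS, BB, abs_le]) (fun _ _ _ _ _ h219 H197 => ?_) H196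
  refine mulK_s he h219 h11 (fun _ _ _ _ _ h220 H198 => ?_) H197
  refine addcK_s he h220 (v' := (4157/3200:ℝ)) (by norm_num [SS, BB, abs_le]) (fun _ _ _ _ _ h221 H199 => ?_) H198
  refine addcK_s he h93 (v' := (69/32:ℝ)) (by norm_num [SS, BB, abs_le]) (fun _ _ _ _ _ h222 H200 => ?_) H199
  refine mulK_s he h29 h222 (fun _ _ _ _ _ h223 H201 => ?_) H200
  refine addK_s he h221 h223 (fun _ _ _ _ _ h224 H202 => ?_) H201
  refine mulK_s he h29 h224 (fun _ _ _ _ _ h225 H203 => ?_) H202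
  refine addK_s he h216 h225 (fun _ _ _ _ _ h226 H204 => ?_) H203
  refine mulK_s he h29 h226 (fun _ _ _ _ _ h227 H205 => ?_) H204
  refine addK_s he h207 h227 (fun _ _ _ _ _ h228 H206 => ?_) H205
  have h229 := In_cast (w := (cO a f z p q)) h228 rfl
  refine mulK_s he h194 h229 (fun _ _ _ _ _ h230 H207 => ?_) H206
  refine smulK_s he (w := (2:ℝ)) (by norm_num) (by norm_num) (by norm_num) (by norm_num) h230 (fun _ _ _ _ _ h231 H208 => ?_) H207
  refine addK_s he h188 h231 (fun _ _ _ _ _ h232 H209 => ?_) H208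
  refine smulK_s he (w := (2:ℝ)) (by norm_num) (by norm_num) (by norm_num) (by norm_num) h6 (fun _ _ _ _ _ h233 H210 => ?_) H209
  refine addK_s he h232 h233 (fun _ _ _ _ _ h234 H211 => ?_) H210
  have h235 := In_cast (w := (QA a f z p q)) h234 rfl
  refine posK_s he h235 (fun p3 H212 => ?_) H211
  refine mulK_s he h137 h235 (fun _ _ _ _ _ h236 H213 => ?_) H212
  refine smulK_s he (w := (1666/125:ℝ)) (by norm_num) (by norm_num) (by norm_num) (by norm_num) h11 (fun _ _ _ _ _ h237 H214 => ?_) H213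
  refine addcK_s he h237 (v' := (-4998/125:ℝ)) (by norm_num [SS, BB, abs_le]) (fun _ _ _ _ _ h238 H215 => ?_) H214
  refine mulK_s he h238 h11 (fun _ _ _ _ _ h239 H216 => ?_) H215
  refine addcK_s he h239 (v' := (6801/200:ℝ)) (by norm_num [SS, BB, abs_le]) (fun _ _ _ _ _ h240 H217 => ?_) H216
  refine mulK_s he h240 h11 (fun _ _ _ _ _ h241 H218 => ?_) H217
  refine addcK_s he h241 (v' := (-137/100:ℝ)) (by norm_num [SS, BB, abs_le]) (fun _ _ _ _ _ h242 H219 => ?_) H218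
  refine mulK_s he h242 h11 (fun _ _ _ _ _ h243 H220 => ?_) H219
  refine addcK_s he h243 (v' := (-13293/2000:ℝ)) (by norm_num [SS, BB, abs_le]) (fun _ _ _ _ _ h244 H221 => ?_) H220
  refine mulK_s he h244 h11 (fun _ _ _ _ _ h245 H222 => ?_) H221
  refine addcK_s he h245 (v' := (267/400:ℝ)) (by norm_num [SS, BB, abs_le]) (fun _ _ _ _ _ h246 H223 => ?_) H222
  refine mulK_s he h246 h11 (fun _ _ _ _ _ h247 H224 => ?_) H223
  refine addcK_s he h247 (v' := (317/3200:ℝ)) (by norm_num [SS, BB, abs_le]) (fun _ _ _ _ _ h248 H225 => ?_) H224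
  refine smulK_s he (w := (833/25:ℝ)) (by norm_num) (by norm_num) (by norm_num) (by norm_num) h11 (fun _ _ _ _ _ h249 H226 => ?_) H225
  refine addcK_s he h249 (v' := (-1666/25:ℝ)) (by norm_num [SS, BB, abs_le]) (fun _ _ _ _ _ h250 H227 => ?_) H226
  refine mulK_s he h250 h11 (fun _ _ _ _ _ h251 H228 => ?_) H227
  refine addcK_s he h251 (v' := (6801/200:ℝ)) (by norm_num [SS, BB, abs_le]) (fun _ _ _ _ _ h252 H229 => ?_) H228
  refine mulK_s he h252 h11 (fun _ _ _ _ _ h253 H230 => ?_) H229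
  refine addcK_s he h253 (v' := (-137/200:ℝ)) (by norm_num [SS, BB, abs_le]) (fun _ _ _ _ _ h254 H231 => ?_) H230
  refine mulK_s he h254 h11 (fun _ _ _ _ _ h255 H232 => ?_) H231
  refine addcK_s he h255 (v' := (-4431/4000:ℝ)) (by norm_num [SS, BB, abs_le]) (fun _ _ _ _ _ h256 H233 => ?_) H232
  refine addcK_s he h237 (v' := (-1666/125:ℝ)) (by norm_num [SS, BB, abs_le]) (fun _ _ _ _ _ h257 H234 => ?_) H233
  refine mulK_s he h257 h11 (fun _ _ _ _ _ h258 H235 => ?_) H234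
  refine addcK_s he h258 (v' := (2267/1000:ℝ)) (by norm_num [SS, BB, abs_le]) (fun _ _ _ _ _ h259 H236 => ?_) H235
  refine smulK_s he (w := (119/250:ℝ)) (by norm_num) (by norm_num) (by norm_num) (by norm_num) h29 (fun _ _ _ _ _ h260 H237 => ?_) H236
  refine addK_s he h259 h260 (fun _ _ _ _ _ h261 H238 => ?_) H237
  refine mulK_s he h29 h261 (fun _ _ _ _ _ h262 H239 => ?_) H238
  refine addK_s he h256 h262 (fun _ _ _ _ _ h263 H240 => ?_) H239
  refine mulK_s he h29 h263 (fun _ _ _ _ _ h264 H241 => ?_) H240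
  refine addK_s he h248 h264 (fun _ _ _ _ _ h265 H242 => ?_) H241
  have h266 := In_cast (w := (vE a f z p q)) h265 rfl
  refine smulK_s he (w := (8:ℝ)) (by norm_num) (by norm_num) (by norm_num) (by norm_num) h266 (fun _ _ _ _ _ h267 H243 => ?_) H242
  refine subK_s he h90 h194 (fun _ _ _ _ _ h268 H244 => ?_) H243
  refine smulK_s he (w := (1/2:ℝ)) (by norm_num) (by norm_num) (by norm_num) (by norm_num) h268 (fun _ _ _ _ _ h269 H245 => ?_) H244
  have h270 := In_cast h269 (div_c (c := (2:ℝ)) (by norm_num))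
  have h271 := In_cast (w := (etAA a f z p q)) h270 rfl
  refine smulK_s he (w := (952/125:ℝ)) (by norm_num) (by norm_num) (by norm_num) (by norm_num) h11 (fun _ _ _ _ _ h272 H246 => ?_) H245
  refine addcK_s he h272 (v' := (-3808/125:ℝ)) (by norm_num [SS, BB, abs_le]) (fun _ _ _ _ _ h273 H247 => ?_) H246
  refine mulK_s he h273 h11 (fun _ _ _ _ _ h274 H248 => ?_) H247
  refine addcK_s he h274 (v' := (10609/250:ℝ)) (by norm_num [SS, BB, abs_le]) (fun _ _ _ _ _ h275 H249 => ?_) H248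
  refine mulK_s he h275 h11 (fun _ _ _ _ _ h276 H250 => ?_) H249
  refine addcK_s he h276 (v' := (-5647/250:ℝ)) (by norm_num [SS, BB, abs_le]) (fun _ _ _ _ _ h277 H251 => ?_) H250
  refine mulK_s he h277 h11 (fun _ _ _ _ _ h278 H252 => ?_) H251
  refine addcK_s he h278 (v' := (304/125:ℝ)) (by norm_num [SS, BB, abs_le]) (fun _ _ _ _ _ h279 H253 => ?_) H252
  refine mulK_s he h279 h11 (fun _ _ _ _ _ h280 H254 => ?_) H253
  refine addcK_s he h280 (v' := (119/1000:ℝ)) (by norm_num [SS, BB, abs_le]) (fun _ _ _ _ _ h281 H255 => ?_) H254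
  refine mulK_s he h281 h11 (fun _ _ _ _ _ h282 H256 => ?_) H255
  refine addcK_s he h282 (v' := (1347/4000:ℝ)) (by norm_num [SS, BB, abs_le]) (fun _ _ _ _ _ h283 H257 => ?_) H256
  refine smulK_s he (w := (3332/125:ℝ)) (by norm_num) (by norm_num) (by norm_num) (by norm_num) h11 (fun _ _ _ _ _ h284 H258 => ?_) H257
  refine addcK_s he h284 (v' := (-1666/25:ℝ)) (by norm_num [SS, BB, abs_le]) (fun _ _ _ _ _ h285 H259 => ?_) H258
  refine mulK_s he h285 h11 (fun _ _ _ _ _ h286 H260 => ?_) H259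
  refine addcK_s he h286 (v' := (2267/50:ℝ)) (by norm_num [SS, BB, abs_le]) (fun _ _ _ _ _ h287 H261 => ?_) H260
  refine mulK_s he h287 h11 (fun _ _ _ _ _ h288 H262 => ?_) H261
  refine addcK_s he h288 (v' := (-137/100:ℝ)) (by norm_num [SS, BB, abs_le]) (fun _ _ _ _ _ h289 H263 => ?_) H262
  refine mulK_s he h289 h11 (fun _ _ _ _ _ h290 H264 => ?_) H263
  refine addcK_s he h290 (v' := (-4431/1000:ℝ)) (by norm_num [SS, BB, abs_le]) (fun _ _ _ _ _ h291 H265 => ?_) H264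
  refine mulK_s he h291 h11 (fun _ _ _ _ _ h292 H266 => ?_) H265
  refine addcK_s he h292 (v' := (89/400:ℝ)) (by norm_num [SS, BB, abs_le]) (fun _ _ _ _ _ h293 H267 => ?_) H266
  refine addcK_s he h284 (v' := (-4998/125:ℝ)) (by norm_num [SS, BB, abs_le]) (fun _ _ _ _ _ h294 H268 => ?_) H267
  refine mulK_s he h294 h11 (fun _ _ _ _ _ h295 H269 => ?_) H268
  refine addcK_s he h295 (v' := (6801/500:ℝ)) (by norm_num [SS, BB, abs_le]) (fun _ _ _ _ _ h296 H270 => ?_) H269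
  refine mulK_s he h296 h11 (fun _ _ _ _ _ h297 H271 => ?_) H270
  refine addcK_s he h297 (v' := (-137/1000:ℝ)) (by norm_num [SS, BB, abs_le]) (fun _ _ _ _ _ h298 H272 => ?_) H271
  refine smulK_s he (w := (476/125:ℝ)) (by norm_num) (by norm_num) (by norm_num) (by norm_num) h11 (fun _ _ _ _ _ h299 H273 => ?_) H272
  refine addcK_s he h299 (v' := (-238/125:ℝ)) (by norm_num [SS, BB, abs_le]) (fun _ _ _ _ _ h300 H274 => ?_) H273
  refine mulK_s he h29 h300 (fun _ _ _ _ _ h301 H275 => ?_) H274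
  refine addK_s he h298 h301 (fun _ _ _ _ _ h302 H276 => ?_) H275
  refine mulK_s he h29 h302 (fun _ _ _ _ _ h303 H277 => ?_) H276
  refine addK_s he h293 h303 (fun _ _ _ _ _ h304 H278 => ?_) H277
  refine mulK_s he h77 h304 (fun _ _ _ _ _ h305 H279 => ?_) H278
  refine addK_s he h283 h305 (fun _ _ _ _ _ h306 H280 => ?_) H279
  have h307 := In_cast (w := (vO a f z p q)) h306 rfl
  refine mulK_s he h271 h307 (fun _ _ _ _ _ h308 H281 => ?_) H280
  refine smulK_s he (w := (2:ℝ)) (by norm_num) (by norm_num) (by norm_num) (by norm_num) h308 (fun _ _ _ _ _ h309 H282 => ?_) H281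
  refine subK_s he h267 h309 (fun _ _ _ _ _ h310 H283 => ?_) H282
  refine addK_s he h56 h169 (fun _ _ _ _ _ h311 H284 => ?_) H283
  refine smulK_s he (w := (1/2:ℝ)) (by norm_num) (by norm_num) (by norm_num) (by norm_num) h311 (fun _ _ _ _ _ h312 H285 => ?_) H284
  have h313 := In_cast h312 (div_c (c := (2:ℝ)) (by norm_num))
  have h314 := In_cast (w := (muAA a f z p q)) h313 rfl
  refine mulK_s he hx2 h56 (fun _ _ _ _ _ h315 H286 => ?_) H285
  refine subK_s he h90 h315 (fun _ _ _ _ _ h316 H287 => ?_) H286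
  refine smulK_s he (w := (1/2:ℝ)) (by norm_num) (by norm_num) (by norm_num) (by norm_num) h316 (fun _ _ _ _ _ h317 H288 => ?_) H287
  have h318 := In_cast h317 (div_c (c := (2:ℝ)) (by norm_num))
  have h319 := In_cast (w := (alA a f z p q)) h318 rfl
  refine mulK_s he hx2 h169 (fun _ _ _ _ _ h320 H289 => ?_) H288
  refine addK_s he h194 h320 (fun _ _ _ _ _ h321 H290 => ?_) H289
  refine smulK_s he (w := (1/2:ℝ)) (by norm_num) (by norm_num) (by norm_num) (by norm_num) h321 (fun _ _ _ _ _ h322 H291 => ?_) H290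
  have h323 := In_cast h322 (div_c (c := (2:ℝ)) (by norm_num))
  have h324 := In_cast (w := (bmA a f z p q)) h323 rfl
  refine mulK_s he h319 h324 (fun _ _ _ _ _ h325 H292 => ?_) H291
  refine addK_s he h314 h325 (fun _ _ _ _ _ h326 H293 => ?_) H292
  have h327 := In_cast (w := (w0AA a f z p q)) h326 rfl
  refine mulK_s he hx2 h327 (fun _ _ _ _ _ h328 H294 => ?_) H293
  refine subK_s he h271 h328 (fun _ _ _ _ _ h329 H295 => ?_) H294
  have h330 := In_cast (w := (y0AA a f z p q)) h329 rfl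
  refine mulK_s he hx2 h330 (fun _ _ _ _ _ h331 H296 => ?_) H295
  refine addcK_s he h331 (v' := (1:ℝ)) (by norm_num [SS, BB, abs_le]) (fun _ _ _ _ _ h332 H297 => ?_) H296
  have h333 := In_cast h332 (add_comm _ _)
  refine sqrtK_s he h333 (fun _ _ _ _ _ h334 H298 => ?_) H297
  have h335 := In_cast (w := (g0AA a f z p q)) h334 rfl
  refine addcK_s he h335 (v' := (1:ℝ)) (by norm_num [SS, BB, abs_le]) (fun _ _ _ _ _ h336 H299 => ?_) H298
  have h337 := In_cast h336 (add_comm _ _)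
  refine invK_s he h337 (fun _ _ _ _ _ h338 H300 => ?_) H299
  refine mulK_s he h330 h338 (fun _ _ _ _ _ h339 H301 => ?_) H300
  have h340 := In_cast h339 ((div_eq_mul_inv _ _).symm)
  refine sqK_s he h340 (fun _ _ _ _ _ h341 H302 => ?_) H301
  refine addK_s he h327 h341 (fun _ _ _ _ _ h342 H303 => ?_) H302
  refine smulK_s he (w := (238/125:ℝ)) (by norm_num) (by norm_num) (by norm_num) (by norm_num) h11 (fun _ _ _ _ _ h343 H304 => ?_) H303
  refine addcK_s he h343 (v' := (-238/25:ℝ)) (by norm_num [SS, BB, abs_le]) (fun _ _ _ _ _ h344 H305 => ?_) H304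
  refine mulK_s he h344 h11 (fun _ _ _ _ _ h345 H306 => ?_) H305
  refine addcK_s he h345 (v' := (2264/125:ℝ)) (by norm_num [SS, BB, abs_le]) (fun _ _ _ _ _ h346 H307 => ?_) H306
  refine mulK_s he h346 h11 (fun _ _ _ _ _ h347 H308 => ?_) H307
  refine addcK_s he h347 (v' := (-407/25:ℝ)) (by norm_num [SS, BB, abs_le]) (fun _ _ _ _ _ h348 H309 => ?_) H308
  refine mulK_s he h348 h11 (fun _ _ _ _ _ h349 H310 => ?_) H309
  refine addcK_s he h349 (v' := (7321/1000:ℝ)) (by norm_num [SS, BB, abs_le]) (fun _ _ _ _ _ h350 H311 => ?_) H310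
  refine mulK_s he h350 h11 (fun _ _ _ _ _ h351 H312 => ?_) H311
  refine addcK_s he h351 (v' := (-2361/1000:ℝ)) (by norm_num [SS, BB, abs_le]) (fun _ _ _ _ _ h352 H313 => ?_) H312
  refine mulK_s he h352 h11 (fun _ _ _ _ _ h353 H314 => ?_) H313
  refine addcK_s he h353 (v' := (927/1000:ℝ)) (by norm_num [SS, BB, abs_le]) (fun _ _ _ _ _ h354 H315 => ?_) H314
  have h355 := In_cast (w := (vh a f z p q)) h354 rfl
  refine mulK_s he h74 h266 (fun _ _ _ _ _ h356 H316 => ?_) H315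
  refine smulK_s he (w := (4:ℝ)) (by norm_num) (by norm_num) (by norm_num) (by norm_num) h356 (fun _ _ _ _ _ h357 H317 => ?_) H316
  refine addK_s he h355 h357 (fun _ _ _ _ _ h358 H318 => ?_) H317
  have h359 := In_cast (w := (vm a f z p q)) h358 rfl
  refine mulK_s he hx2 h307 (fun _ _ _ _ _ h360 H319 => ?_) H318
  refine smulK_s he (w := (2:ℝ)) (by norm_num) (by norm_num) (by norm_num) (by norm_num) h360 (fun _ _ _ _ _ h361 H320 => ?_) H319
  refine subK_s he h359 h361 (fun _ _ _ _ _ h362 H321 => ?_) H320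
  have h363 := In_cast (w := (v0 a f z p q)) h362 rfl
  refine mulK_s he h342 h363 (fun _ _ _ _ _ h364 H322 => ?_) H321
  refine addK_s he h90 h315 (fun _ _ _ _ _ h365 H323 => ?_) H322
  refine smulK_s he (w := (1/2:ℝ)) (by norm_num) (by norm_num) (by norm_num) (by norm_num) h365 (fun _ _ _ _ _ h366 H324 => ?_) H323
  have h367 := In_cast h366 (div_c (c := (2:ℝ)) (by norm_num))
  have h368 := In_cast (w := (beA a f z p q)) h367 rfl
  refine subK_s he h194 h320 (fun _ _ _ _ _ h369 H325 => ?_) H324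
  refine smulK_s he (w := (1/2:ℝ)) (by norm_num) (by norm_num) (by norm_num) (by norm_num) h369 (fun _ _ _ _ _ h370 H326 => ?_) H325
  have h371 := In_cast h370 (div_c (c := (2:ℝ)) (by norm_num))
  have h372 := In_cast (w := (amA a f z p q)) h371 rfl
  refine mulK_s he h368 h372 (fun _ _ _ _ _ h373 H327 => ?_) H326
  refine addK_s he h314 h373 (fun _ _ _ _ _ h374 H328 => ?_) H327
  have h375 := In_cast (w := (w1AA a f z p q)) h374 rfl
  refine negK_s he h271 (fun _ _ _ _ _ h376 H329 => ?_) H328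
  refine mulK_s he hx2 h375 (fun _ _ _ _ _ h377 H330 => ?_) H329
  refine subK_s he h376 h377 (fun _ _ _ _ _ h378 H331 => ?_) H330
  have h379 := In_cast (w := (y1AA a f z p q)) h378 rfl
  refine mulK_s he hx2 h379 (fun _ _ _ _ _ h380 H332 => ?_) H331
  refine addcK_s he h380 (v' := (1:ℝ)) (by norm_num [SS, BB, abs_le]) (fun _ _ _ _ _ h381 H333 => ?_) H332
  have h382 := In_cast h381 (add_comm _ _)
  refine sqrtK_s he h382 (fun _ _ _ _ _ h383 H334 => ?_) H333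
  have h384 := In_cast (w := (g1AA a f z p q)) h383 rfl
  refine addcK_s he h384 (v' := (1:ℝ)) (by norm_num [SS, BB, abs_le]) (fun _ _ _ _ _ h385 H335 => ?_) H334
  have h386 := In_cast h385 (add_comm _ _)
  refine invK_s he h386 (fun _ _ _ _ _ h387 H336 => ?_) H335
  refine mulK_s he h379 h387 (fun _ _ _ _ _ h388 H337 => ?_) H336
  have h389 := In_cast h388 ((div_eq_mul_inv _ _).symm)
  refine sqK_s he h389 (fun _ _ _ _ _ h390 H338 => ?_) H337
  refine addK_s he h375 h390 (fun _ _ _ _ _ h391 H339 => ?_) H338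
  refine addK_s he h359 h361 (fun _ _ _ _ _ h392 H340 => ?_) H339
  have h393 := In_cast (w := (v1 a f z p q)) h392 rfl
  refine mulK_s he h391 h393 (fun _ _ _ _ _ h394 H341 => ?_) H340
  refine addK_s he h364 h394 (fun _ _ _ _ _ h395 H342 => ?_) H341
  refine smulK_s he (w := (1/2:ℝ)) (by norm_num) (by norm_num) (by norm_num) (by norm_num) h395 (fun _ _ _ _ _ h396 H343 => ?_) H342
  have h397 := In_cast h396 (div_c (c := (2:ℝ)) (by norm_num))
  refine subK_s he h310 h397 (fun _ _ _ _ _ h398 H344 => ?_) H343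
  have h399 := In_cast (w := (ZAA a f z p q)) h398 rfl
  refine mulK_s he hx1 h399 (fun _ _ _ _ _ h400 H345 => ?_) H344
  refine negK_s he h400 (fun _ _ _ _ _ h401 H346 => ?_) H345
  refine reluK_s he h401 (fun _ _ _ _ _ h402 H347 => ?_) H346
  refine sqK_s he h402 (fun _ _ _ _ _ h403 H348 => ?_) H347
  refine subK_s he h236 h403 (fun _ _ _ _ _ h404 H349 => ?_) H348
  exact ⟨p0, p1, p2, p3, pos_s he h404 H349⟩

noncomputable def alt4 (p1 p2 z1 w1 z2 w2 z3 w3 : ℕ) : Bool :=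
  smulK 3 4 4611686018427387908 3458764513820540928 z3 1152921504606846976 1152921504606846976 (Nat.add w3 1152921504606846976) 0 fun c1 a1_1 a1_2 a1_3 q1 =>
  smulK 3 1 1152921504606846977 3458764513820540928 p1 1152921504606846976 1152921504606846976 1152921504606846976 0 fun c2 a2_1 a2_2 a2_3 q2 =>
  subK c1 a1_1 a1_2 a1_3 q1 c2 a2_1 a2_2 a2_3 q2 fun c4 a4_1 a4_2 a4_3 q4 =>
  posK c4 a4_1 a4_2 a4_3 q4 <|
  smulK 3 2 2305843009213693954 3458764513820540928 p2 1152921504606846976 1152921504606846976 1152921504606846976 0 fun c5 a5_1 a5_2 a5_3 q5 =>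
  smulK 3 10 11529215046068469770 3458764513820540928 z3 1152921504606846976 1152921504606846976 (Nat.add w3 1152921504606846976) 0 fun c7 a7_1 a7_2 a7_3 q7 =>
  subK c5 a5_1 a5_2 a5_3 q5 c7 a7_1 a7_2 a7_3 q7 fun c8 a8_1 a8_2 a8_3 q8 =>
  posK c8 a8_1 a8_2 a8_3 q8 <|
  mulK c5 a5_1 a5_2 a5_3 q5 z2 1152921504606846976 (Nat.add w2 1152921504606846976) 1152921504606846976 0 fun c9 a9_1 a9_2 a9_3 q9 =>
  negK c9 a9_1 a9_2 a9_3 q9 fun c11 a11_1 a11_2 a11_3 q11 =>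
  addcK c11 a11_1 a11_2 a11_3 q11 1152922109338242253 1 fun c12 a12_1 a12_2 a12_3 q12 =>
  posK c12 a12_1 a12_2 a12_3 q12 <|
  smulK 2 1 1152921504606846977 2305843009213693952 z1 (Nat.add w1 1152921504606846976) 1152921504606846976 1152921504606846976 0 fun c14 a14_1 a14_2 a14_3 q14 =>
  addcK c14 a14_1 a14_2 a14_3 q14 1152920954851033088 0 fun c15 a15_1 a15_2 a15_3 q15 =>
  smulK 6909 500 576460752303423488500 7965534675328705757184 c15 a15_1 a15_2 a15_3 q15 fun c18 a18_1 a18_2 a18_3 q18 =>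
  negK c18 a18_1 a18_2 a18_3 q18 fun c19 a19_1 a19_2 a19_3 q19 =>
  addcK c19 a19_1 a19_2 a19_3 q19 1152962875655987397 1 fun c21 a21_1 a21_2 a21_3 q21 =>
  mulK c21 a21_1 a21_2 a21_3 q21 c15 a15_1 a15_2 a15_3 q15 fun c22 a22_1 a22_2 a22_3 q22 =>
  addcK c22 a22_1 a22_2 a22_3 q22 1152890595273405891 1 fun c23 a23_1 a23_2 a23_3 q23 =>
  mulK c23 a23_1 a23_2 a23_3 q23 c15 a15_1 a15_2 a15_3 q15 fun c24 a24_1 a24_2 a24_3 q24 =>
  addcK c24 a24_1 a24_2 a24_3 q24 1152921009139419709 1 fun c25 a25_1 a25_2 a25_3 q25 =>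
  mulK c25 a25_1 a25_2 a25_3 q25 c15 a15_1 a15_2 a15_3 q15 fun c26 a26_1 a26_2 a26_3 q26 =>
  addcK c26 a26_1 a26_2 a26_3 q26 1152926254703237399 1 fun c27 a27_1 a27_2 a27_3 q27 =>
  mulK c27 a27_1 a27_2 a27_3 q27 c15 a15_1 a15_2 a15_3 q15 fun c28 a28_1 a28_2 a28_3 q28 =>
  addcK c28 a28_1 a28_2 a28_3 q28 1152921744832957776 1 fun c29 a29_1 a29_2 a29_3 q29 =>
  mulK c29 a29_1 a29_2 a29_3 q29 c15 a15_1 a15_2 a15_3 q15 fun c30 a30_1 a30_2 a30_3 q30 =>
  addcK c30 a30_1 a30_2 a30_3 q30 1152921017909742928 1 fun c31 a31_1 a31_2 a31_3 q31 =>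
  mulK z1 (Nat.add w1 1152921504606846976) 1152921504606846976 1152921504606846976 0 z2 1152921504606846976 (Nat.add w2 1152921504606846976) 1152921504606846976 0 fun c32 a32_1 a32_2 a32_3 q32 =>
  sqK c32 a32_1 a32_2 a32_3 q32 fun c33 a33_1 a33_2 a33_3 q33 =>
  smulK 4 1 1152921504606846977 4611686018427387904 c33 a33_1 a33_2 a33_3 q33 fun c34 a34_1 a34_2 a34_3 q34 =>
  smulK 6909 200 230584300921369395400 7965534675328705757184 c15 a15_1 a15_2 a15_3 q15 fun c36 a36_1 a36_2 a36_3 q36 =>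
  negK c36 a36_1 a36_2 a36_3 q36 fun c37 a37_1 a37_2 a37_3 q37 =>
  addcK c37 a37_1 a37_2 a37_3 q37 1152990456355414344 1 fun c39 a39_1 a39_2 a39_3 q39 =>
  mulK c39 a39_1 a39_2 a39_3 q39 c15 a15_1 a15_2 a15_3 q15 fun c40 a40_1 a40_2 a40_3 q40 =>
  addcK c40 a40_1 a40_2 a40_3 q40 1152890595273405891 1 fun c41 a41_1 a41_2 a41_3 q41 =>
  mulK c41 a41_1 a41_2 a41_3 q41 c15 a15_1 a15_2 a15_3 q15 fun c42 a42_1 a42_2 a42_3 q42 =>
  addcK c42 a42_1 a42_2 a42_3 q42 1152921256873133343 1 fun c43 a43_1 a43_2 a43_3 q43 =>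
  mulK c43 a43_1 a43_2 a43_3 q43 c15 a15_1 a15_2 a15_3 q15 fun c44 a44_1 a44_2 a44_3 q44 =>
  addcK c44 a44_1 a44_2 a44_3 q44 1152922296289578713 1 fun c45 a45_1 a45_2 a45_3 q45 =>
  addcK c19 a19_1 a19_2 a19_3 q19 1152935294956560450 1 fun c46 a46_1 a46_2 a46_3 q46 =>
  mulK c46 a46_1 a46_2 a46_3 q46 c15 a15_1 a15_2 a15_3 q15 fun c47 a47_1 a47_2 a47_3 q47 =>
  addcK c47 a47_1 a47_2 a47_3 q47 1152919443984617570 1 fun c48 a48_1 a48_2 a48_3 q48 =>
  smulK 987 2000 2305843009213693954000 1137933525046957965312 c34 a34_1 a34_2 a34_3 q34 fun c49 a49_1 a49_2 a49_3 q49 =>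
  negK c49 a49_1 a49_2 a49_3 q49 fun c50 a50_1 a50_2 a50_3 q50 =>
  addK c48 a48_1 a48_2 a48_3 q48 c50 a50_1 a50_2 a50_3 q50 fun c52 a52_1 a52_2 a52_3 q52 =>
  mulK c34 a34_1 a34_2 a34_3 q34 c52 a52_1 a52_2 a52_3 q52 fun c53 a53_1 a53_2 a53_3 q53 =>
  addK c45 a45_1 a45_2 a45_3 q45 c53 a53_1 a53_2 a53_3 q53 fun c54 a54_1 a54_2 a54_3 q54 =>
  mulK c34 a34_1 a34_2 a34_3 q34 c54 a54_1 a54_2 a54_3 q54 fun c55 a55_1 a55_2 a55_3 q55 =>
  addK c31 a31_1 a31_2 a31_3 q31 c55 a55_1 a55_2 a55_3 q55 fun c56 a56_1 a56_2 a56_3 q56 =>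
  mulK z1 (Nat.add w1 1152921504606846976) 1152921504606846976 1152921504606846976 0 c56 a56_1 a56_2 a56_3 q56 fun c58 a58_1 a58_2 a58_3 q58 =>
  smulK 8 1 1152921504606846977 9223372036854775808 c58 a58_1 a58_2 a58_3 q58 fun c59 a59_1 a59_2 a59_3 q59 =>
  sqK c2 a2_1 a2_2 a2_3 q2 fun c60 a60_1 a60_2 a60_3 q60 =>
  smulK 99 200 230584300921369395400 114139228956077850624 c60 a60_1 a60_2 a60_3 q60 fun c61 a61_1 a61_2 a61_3 q61 =>
  smulK 987 1000 1152921504606846977000 1137933525046957965312 c15 a15_1 a15_2 a15_3 q15 fun c63 a63_1 a63_2 a63_3 q63 =>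
  negK c63 a63_1 a63_2 a63_3 q63 fun c64 a64_1 a64_2 a64_3 q64 =>
  addcK c64 a64_1 a64_2 a64_3 q64 1152925987315753419 1 fun c66 a66_1 a66_2 a66_3 q66 =>
  mulK c66 a66_1 a66_2 a66_3 q66 c15 a15_1 a15_2 a15_3 q15 fun c67 a67_1 a67_2 a67_3 q67 =>
  addcK c67 a67_1 a67_2 a67_3 q67 1152915142007934943 1 fun c68 a68_1 a68_2 a68_3 q68 =>
  mulK c68 a68_1 a68_2 a68_3 q68 c15 a15_1 a15_2 a15_3 q15 fun c69 a69_1 a69_2 a69_3 q69 =>
  addcK c69 a69_1 a69_2 a69_3 q69 1152924586812817539 1 fun c70 a70_1 a70_2 a70_3 q70 =>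
  mulK c70 a70_1 a70_2 a70_3 q70 c15 a15_1 a15_2 a15_3 q15 fun c71 a71_1 a71_2 a71_3 q71 =>
  addcK c71 a71_1 a71_2 a71_3 q71 1152921546869325169 1 fun c72 a72_1 a72_2 a72_3 q72 =>
  mulK c72 a72_1 a72_2 a72_3 q72 c15 a15_1 a15_2 a15_3 q15 fun c73 a73_1 a73_2 a73_3 q73 =>
  addcK c73 a73_1 a73_2 a73_3 q73 1152921643626348413 1 fun c74 a74_1 a74_2 a74_3 q74 =>
  mulK c74 a74_1 a74_2 a74_3 q74 c15 a15_1 a15_2 a15_3 q15 fun c75 a75_1 a75_2 a75_3 q75 =>
  addcK c75 a75_1 a75_2 a75_3 q75 1152920461702888161 1 fun c76 a76_1 a76_2 a76_3 q76 =>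
  mulK c76 a76_1 a76_2 a76_3 q76 c15 a15_1 a15_2 a15_3 q15 fun c77 a77_1 a77_2 a77_3 q77 =>
  addcK c77 a77_1 a77_2 a77_3 q77 1152922806961190207 1 fun c78 a78_1 a78_2 a78_3 q78 =>
  sqK z2 1152921504606846976 (Nat.add w2 1152921504606846976) 1152921504606846976 0 fun c80 a80_1 a80_2 a80_3 q80 =>
  mulK z1 (Nat.add w1 1152921504606846976) 1152921504606846976 1152921504606846976 0 c80 a80_1 a80_2 a80_3 q80 fun c81 a81_1 a81_2 a81_3 q81 =>
  smulK 4 1 1152921504606846977 4611686018427387904 c81 a81_1 a81_2 a81_3 q81 fun c82 a82_1 a82_2 a82_3 q82 =>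
  mulK c82 a82_1 a82_2 a82_3 q82 c56 a56_1 a56_2 a56_3 q56 fun c84 a84_1 a84_2 a84_3 q84 =>
  addK c78 a78_1 a78_2 a78_3 q78 c84 a84_1 a84_2 a84_3 q84 fun c85 a85_1 a85_2 a85_3 q85 =>
  mulK c61 a61_1 a61_2 a61_3 q61 c85 a85_1 a85_2 a85_3 q85 fun c87 a87_1 a87_2 a87_3 q87 =>
  subK c59 a59_1 a59_2 a59_3 q59 c87 a87_1 a87_2 a87_3 q87 fun c88 a88_1 a88_2 a88_3 q88 =>
  mulK z3 1152921504606846976 1152921504606846976 (Nat.add w3 1152921504606846976) 0 z2 1152921504606846976 (Nat.add w2 1152921504606846976) 1152921504606846976 0 fun c89 a89_1 a89_2 a89_3 q89 =>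
  mulK c89 a89_1 a89_2 a89_3 q89 c2 a2_1 a2_2 a2_3 q2 fun c91 a91_1 a91_2 a91_3 q91 =>
  smulK 4 3 3458764513820540931 4611686018427387904 c91 a91_1 a91_2 a91_3 q91 fun c92 a92_1 a92_2 a92_3 q92 =>
  mulK z2 1152921504606846976 (Nat.add w2 1152921504606846976) 1152921504606846976 0 c60 a60_1 a60_2 a60_3 q60 fun c93 a93_1 a93_2 a93_3 q93 =>
  smulK 21 200 230584300921369395400 24211351596743786496 c93 a93_1 a93_2 a93_3 q93 fun c94 a94_1 a94_2 a94_3 q94 =>
  subK c92 a92_1 a92_2 a92_3 q92 c94 a94_1 a94_2 a94_3 q94 fun c95 a95_1 a95_2 a95_3 q95 =>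
  smulK 987 250 288230376151711744250 1137933525046957965312 c15 a15_1 a15_2 a15_3 q15 fun c97 a97_1 a97_2 a97_3 q97 =>
  negK c97 a97_1 a97_2 a97_3 q97 fun c98 a98_1 a98_2 a98_3 q98 =>
  addcK c98 a98_1 a98_2 a98_3 q98 1152935294956560450 1 fun c100 a100_1 a100_2 a100_3 q100 =>
  mulK c100 a100_1 a100_2 a100_3 q100 c15 a15_1 a15_2 a15_3 q15 fun c101 a101_1 a101_2 a101_3 q101 =>
  addcK c101 a101_1 a101_2 a101_3 q101 1152909140873470542 1 fun c102 a102_1 a102_2 a102_3 q102 =>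
  mulK c102 a102_1 a102_2 a102_3 q102 c15 a15_1 a15_2 a15_3 q15 fun c103 a103_1 a103_2 a103_3 q103 =>
  addcK c103 a103_1 a103_2 a103_3 q103 1152921256873133343 1 fun c104 a104_1 a104_2 a104_3 q104 =>
  mulK c104 a104_1 a104_2 a104_3 q104 c15 a15_1 a15_2 a15_3 q15 fun c105 a105_1 a105_2 a105_3 q105 =>
  addcK c105 a105_1 a105_2 a105_3 q105 1152924671337773924 1 fun c106 a106_1 a106_2 a106_3 q106 =>
  mulK c106 a106_1 a106_2 a106_3 q106 c15 a15_1 a15_2 a15_3 q15 fun c107 a107_1 a107_2 a107_3 q107 =>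
  addcK c107 a107_1 a107_2 a107_3 q107 1152921744832957776 1 fun c108 a108_1 a108_2 a108_3 q108 =>
  mulK c108 a108_1 a108_2 a108_3 q108 c15 a15_1 a15_2 a15_3 q15 fun c109 a109_1 a109_2 a109_3 q109 =>
  addcK c109 a109_1 a109_2 a109_3 q109 1152920531212638880 1 fun c110 a110_1 a110_2 a110_3 q110 =>
  mulK c110 a110_1 a110_2 a110_3 q110 c15 a15_1 a15_2 a15_3 q15 fun c111 a111_1 a111_2 a111_3 q111 =>
  addcK c111 a111_1 a111_2 a111_3 q111 1152921895058028888 1 fun c112 a112_1 a112_2 a112_3 q112 =>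
  smulK 6909 250 288230376151711744250 7965534675328705757184 c15 a15_1 a15_2 a15_3 q15 fun c113 a113_1 a113_2 a113_3 q113 =>
  negK c113 a113_1 a113_2 a113_3 q113 fun c114 a114_1 a114_2 a114_3 q114 =>
  addcK c114 a114_1 a114_2 a114_3 q114 1152990456355414344 1 fun c116 a116_1 a116_2 a116_3 q116 =>
  mulK c116 a116_1 a116_2 a116_3 q116 c15 a15_1 a15_2 a15_3 q15 fun c117 a117_1 a117_2 a117_3 q117 =>
  addcK c117 a117_1 a117_2 a117_3 q117 1152880292162258862 1 fun c118 a118_1 a118_2 a118_3 q118 =>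
  mulK c118 a118_1 a118_2 a118_3 q118 c15 a15_1 a15_2 a15_3 q15 fun c119 a119_1 a119_2 a119_3 q119 =>
  addcK c119 a119_1 a119_2 a119_3 q119 1152921009139419709 1 fun c120 a120_1 a120_2 a120_3 q120 =>
  mulK c120 a120_1 a120_2 a120_3 q120 c15 a15_1 a15_2 a15_3 q15 fun c121 a121_1 a121_2 a121_3 q121 =>
  addcK c121 a121_1 a121_2 a121_3 q121 1152924671337773924 1 fun c122 a122_1 a122_2 a122_3 q122 =>
  mulK c122 a122_1 a122_2 a122_3 q122 c15 a15_1 a15_2 a15_3 q15 fun c123 a123_1 a123_2 a123_3 q123 =>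
  addcK c123 a123_1 a123_2 a123_3 q123 1152921584682217243 1 fun c124 a124_1 a124_2 a124_3 q124 =>
  addcK c114 a114_1 a114_2 a114_3 q114 1152962875655987397 1 fun c125 a125_1 a125_2 a125_3 q125 =>
  mulK c125 a125_1 a125_2 a125_3 q125 c15 a15_1 a15_2 a15_3 q15 fun c126 a126_1 a126_2 a126_3 q126 =>
  addcK c126 a126_1 a126_2 a126_3 q126 1152909140873470542 1 fun c127 a127_1 a127_2 a127_3 q127 =>
  mulK c127 a127_1 a127_2 a127_3 q127 c15 a15_1 a15_2 a15_3 q15 fun c128 a128_1 a128_2 a128_3 q128 =>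
  addcK c128 a128_1 a128_2 a128_3 q128 1152921455060104249 1 fun c129 a129_1 a129_2 a129_3 q129 =>
  addcK c98 a98_1 a98_2 a98_3 q98 1152923474656806044 1 fun c130 a130_1 a130_2 a130_3 q130 =>
  mulK c34 a34_1 a34_2 a34_3 q34 c130 a130_1 a130_2 a130_3 q130 fun c131 a131_1 a131_2 a131_3 q131 =>
  addK c129 a129_1 a129_2 a129_3 q129 c131 a131_1 a131_2 a131_3 q131 fun c132 a132_1 a132_2 a132_3 q132 =>
  mulK c34 a34_1 a34_2 a34_3 q34 c132 a132_1 a132_2 a132_3 q132 fun c133 a133_1 a133_2 a133_3 q133 =>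
  addK c124 a124_1 a124_2 a124_3 q124 c133 a133_1 a133_2 a133_3 q133 fun c134 a134_1 a134_2 a134_3 q134 =>
  mulK c34 a34_1 a34_2 a34_3 q34 c134 a134_1 a134_2 a134_3 q134 fun c135 a135_1 a135_2 a135_3 q135 =>
  addK c112 a112_1 a112_2 a112_3 q112 c135 a135_1 a135_2 a135_3 q135 fun c136 a136_1 a136_2 a136_3 q136 =>
  mulK c95 a95_1 a95_2 a95_3 q95 c136 a136_1 a136_2 a136_3 q136 fun c138 a138_1 a138_2 a138_3 q138 =>
  smulK 2 1 1152921504606846977 2305843009213693952 c138 a138_1 a138_2 a138_3 q138 fun c139 a139_1 a139_2 a139_3 q139 =>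
  subK c88 a88_1 a88_2 a88_3 q88 c139 a139_1 a139_2 a139_3 q139 fun c140 a140_1 a140_2 a140_3 q140 =>
  smulK 2 1 1152921504606846977 2305843009213693952 c2 a2_1 a2_2 a2_3 q2 fun c141 a141_1 a141_2 a141_3 q141 =>
  addK c140 a140_1 a140_2 a140_3 q140 c141 a141_1 a141_2 a141_3 q141 fun c142 a142_1 a142_2 a142_3 q142 =>
  posK c142 a142_1 a142_2 a142_3 q142 <|
  addcK c19 a19_1 a19_2 a19_3 q19 1152971291867742208 0 fun c144 a144_1 a144_2 a144_3 q144 =>
  mulK c144 a144_1 a144_2 a144_3 q144 c15 a15_1 a15_2 a15_3 q15 fun c145 a145_1 a145_2 a145_3 q145 =>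
  addcK c145 a145_1 a145_2 a145_3 q145 1152869554744018862 1 fun c146 a146_1 a146_2 a146_3 q146 =>
  mulK c146 a146_1 a146_2 a146_3 q146 c15 a15_1 a15_2 a15_3 q15 fun c147 a147_1 a147_2 a147_3 q147 =>
  addcK c147 a147_1 a147_2 a147_3 q147 1152935787950086554 1 fun c148 a148_1 a148_2 a148_3 q148 =>
  mulK c148 a148_1 a148_2 a148_3 q148 c15 a15_1 a15_2 a15_3 q15 fun c149 a149_1 a149_2 a149_3 q149 =>
  addcK c149 a149_1 a149_2 a149_3 q149 1152925127016624161 1 fun c150 a150_1 a150_2 a150_3 q150 =>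
  mulK c150 a150_1 a150_2 a150_3 q150 c15 a15_1 a15_2 a15_3 q15 fun c151 a151_1 a151_2 a151_3 q151 =>
  addcK c151 a151_1 a151_2 a151_3 q151 1152921190988335022 1 fun c152 a152_1 a152_2 a152_3 q152 =>
  mulK c152 a152_1 a152_2 a152_3 q152 c15 a15_1 a15_2 a15_3 q15 fun c153 a153_1 a153_2 a153_3 q153 =>
  addcK c153 a153_1 a153_2 a153_3 q153 1152920781428843610 1 fun c154 a154_1 a154_2 a154_3 q154 =>
  addcK c37 a37_1 a37_2 a37_3 q37 1153004483375005696 0 fun c155 a155_1 a155_2 a155_3 q155 =>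
  mulK c155 a155_1 a155_2 a155_3 q155 c15 a15_1 a15_2 a15_3 q15 fun c156 a156_1 a156_2 a156_3 q156 =>
  addcK c156 a156_1 a156_2 a156_3 q156 1152869554744018862 1 fun c157 a157_1 a157_2 a157_3 q157 =>
  mulK c157 a157_1 a157_2 a157_3 q157 c15 a15_1 a15_2 a15_3 q15 fun c158 a158_1 a158_2 a158_3 q158 =>
  addcK c158 a158_1 a158_2 a158_3 q158 1152928646278466765 1 fun c159 a159_1 a159_2 a159_3 q159 =>
  mulK c159 a159_1 a159_2 a159_3 q159 c15 a15_1 a15_2 a15_3 q15 fun c160 a160_1 a160_2 a160_3 q160 =>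
  addcK c160 a160_1 a160_2 a160_3 q160 1152922108341809840 1 fun c161 a161_1 a161_2 a161_3 q161 =>
  addcK c19 a19_1 a19_2 a19_3 q19 1152938100360478720 0 fun c162 a162_1 a162_2 a162_3 q162 =>
  mulK c162 a162_1 a162_2 a162_3 q162 c15 a15_1 a15_2 a15_3 q15 fun c163 a163_1 a163_2 a163_3 q163 =>
  addcK c163 a163_1 a163_2 a163_3 q163 1152918041282658435 1 fun c164 a164_1 a164_2 a164_3 q164 =>
  addK c164 a164_1 a164_2 a164_3 q164 c50 a50_1 a50_2 a50_3 q50 fun c165 a165_1 a165_2 a165_3 q165 =>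
  mulK c34 a34_1 a34_2 a34_3 q34 c165 a165_1 a165_2 a165_3 q165 fun c166 a166_1 a166_2 a166_3 q166 =>
  addK c161 a161_1 a161_2 a161_3 q161 c166 a166_1 a166_2 a166_3 q166 fun c167 a167_1 a167_2 a167_3 q167 =>
  mulK c34 a34_1 a34_2 a34_3 q34 c167 a167_1 a167_2 a167_3 q167 fun c168 a168_1 a168_2 a168_3 q168 =>
  addK c154 a154_1 a154_2 a154_3 q154 c168 a168_1 a168_2 a168_3 q168 fun c169 a169_1 a169_2 a169_3 q169 =>
  mulK z1 (Nat.add w1 1152921504606846976) 1152921504606846976 1152921504606846976 0 c169 a169_1 a169_2 a169_3 q169 fun c171 a171_1 a171_2 a171_3 q171 =>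
  smulK 8 1 1152921504606846977 9223372036854775808 c171 a171_1 a171_2 a171_3 q171 fun c172 a172_1 a172_2 a172_3 q172 =>
  sqK c9 a9_1 a9_2 a9_3 q9 fun c173 a173_1 a173_2 a173_3 q173 =>
  addcK c173 a173_1 a173_2 a173_3 q173 1152922604118474752 0 fun c174 a174_1 a174_2 a174_3 q174 =>
  invK c174 a174_1 a174_2 a174_3 q174 fun c176 a176_1 a176_2 a176_3 q176 =>
  smulK 2 1 1152921504606846977 2305843009213693952 c5 a5_1 a5_2 a5_3 q5 fun c177 a177_1 a177_2 a177_3 q177 =>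
  mulK c177 a177_1 a177_2 a177_3 q177 c176 a176_1 a176_2 a176_3 q176 fun c178 a178_1 a178_2 a178_3 q178 =>
  mulK c5 a5_1 a5_2 a5_3 q5 c178 a178_1 a178_2 a178_3 q178 fun c181 a181_1 a181_2 a181_3 q181 =>
  mulK z3 1152921504606846976 1152921504606846976 (Nat.add w3 1152921504606846976) 0 c178 a178_1 a178_2 a178_3 q178 fun c183 a183_1 a183_2 a183_3 q183 =>
  smulK 1 50 57646075230342348850 1152921504606846976 c183 a183_1 a183_2 a183_3 q183 fun c184 a184_1 a184_2 a184_3 q184 =>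
  subK c181 a181_1 a181_2 a181_3 q181 c184 a184_1 a184_2 a184_3 q184 fun c185 a185_1 a185_2 a185_3 q185 =>
  addcK c64 a64_1 a64_2 a64_3 q64 1152926788859730067 1 fun c187 a187_1 a187_2 a187_3 q187 =>
  mulK c187 a187_1 a187_2 a187_3 q187 c15 a15_1 a15_2 a15_3 q15 fun c188 a188_1 a188_2 a188_3 q188 =>
  addcK c188 a188_1 a188_2 a188_3 q188 1152911935832028348 1 fun c189 a189_1 a189_2 a189_3 q189 =>
  mulK c189 a189_1 a189_2 a189_3 q189 c15 a15_1 a15_2 a15_3 q15 fun c190 a190_1 a190_2 a190_3 q190 =>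
  addcK c190 a190_1 a190_2 a190_3 q190 1152929145662904205 1 fun c191 a191_1 a191_2 a191_3 q191 =>
  mulK c191 a191_1 a191_2 a191_3 q191 c15 a15_1 a15_2 a15_3 q15 fun c192 a192_1 a192_2 a192_3 q192 =>
  addcK c192 a192_1 a192_2 a192_3 q192 1152918891548744090 1 fun c193 a193_1 a193_2 a193_3 q193 =>
  mulK c193 a193_1 a193_2 a193_3 q193 c15 a15_1 a15_2 a15_3 q15 fun c194 a194_1 a194_2 a194_3 q194 =>
  addcK c194 a194_1 a194_2 a194_3 q194 1152922602056890450 1 fun c195 a195_1 a195_2 a195_3 q195 =>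
  mulK c195 a195_1 a195_2 a195_3 q195 c15 a15_1 a15_2 a15_3 q15 fun c196 a196_1 a196_2 a196_3 q196 =>
  addcK c196 a196_1 a196_2 a196_3 q196 1152919509525818507 1 fun c197 a197_1 a197_2 a197_3 q197 =>
  mulK c197 a197_1 a197_2 a197_3 q197 c15 a15_1 a15_2 a15_3 q15 fun c198 a198_1 a198_2 a198_3 q198 =>
  addcK c198 a198_1 a198_2 a198_3 q198 1152923178097904189 1 fun c199 a199_1 a199_2 a199_3 q199 =>
  mulK c82 a82_1 a82_2 a82_3 q82 c169 a169_1 a169_2 a169_3 q169 fun c201 a201_1 a201_2 a201_3 q201 =>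
  addK c199 a199_1 a199_2 a199_3 q199 c201 a201_1 a201_2 a201_3 q201 fun c202 a202_1 a202_2 a202_3 q202 =>
  mulK c185 a185_1 a185_2 a185_3 q185 c202 a202_1 a202_2 a202_3 q202 fun c204 a204_1 a204_2 a204_3 q204 =>
  subK c172 a172_1 a172_2 a172_3 q172 c204 a204_1 a204_2 a204_3 q204 fun c205 a205_1 a205_2 a205_3 q205 =>
  mulK z2 1152921504606846976 (Nat.add w2 1152921504606846976) 1152921504606846976 0 c181 a181_1 a181_2 a181_3 q181 fun c206 a206_1 a206_2 a206_3 q206 =>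
  smulK 1 2 2305843009213693954 1152921504606846976 c89 a89_1 a89_2 a89_3 q89 fun c207 a207_1 a207_2 a207_3 q207 =>
  negK c207 a207_1 a207_2 a207_3 q207 fun c209 a209_1 a209_2 a209_3 q209 =>
  addcK c209 a209_1 a209_2 a209_3 q209 1152922604118474752 0 fun c210 a210_1 a210_2 a210_3 q210 =>
  mulK c206 a206_1 a206_2 a206_3 q206 c210 a210_1 a210_2 a210_3 q210 fun c212 a212_1 a212_2 a212_3 q212 =>
  smulK 6 25 28823037615171174425 6917529027641081856 z3 1152921504606846976 1152921504606846976 (Nat.add w3 1152921504606846976) 0 fun c213 a213_1 a213_2 a213_3 q213 =>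
  smulK 29 50 57646075230342348850 33434723633598562304 c178 a178_1 a178_2 a178_3 q178 fun c214 a214_1 a214_2 a214_3 q214 =>
  addK c213 a213_1 a213_2 a213_3 q213 c214 a214_1 a214_2 a214_3 q214 fun c215 a215_1 a215_2 a215_3 q215 =>
  mulK c89 a89_1 a89_2 a89_3 q89 c215 a215_1 a215_2 a215_3 q215 fun c216 a216_1 a216_2 a216_3 q216 =>
  addK c212 a212_1 a212_2 a212_3 q212 c216 a216_1 a216_2 a216_3 q216 fun c217 a217_1 a217_2 a217_3 q217 =>
  addcK c98 a98_1 a98_2 a98_3 q98 1152938100360478720 0 fun c219 a219_1 a219_2 a219_3 q219 =>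
  mulK c219 a219_1 a219_2 a219_3 q219 c15 a15_1 a15_2 a15_3 q15 fun c220 a220_1 a220_2 a220_3 q220 =>
  addcK c220 a220_1 a220_2 a220_3 q220 1152900724661715730 1 fun c221 a221_1 a221_2 a221_3 q221 =>
  mulK c221 a221_1 a221_2 a221_3 q221 c15 a15_1 a15_2 a15_3 q15 fun c222 a222_1 a222_2 a222_3 q222 =>
  addcK c222 a222_1 a222_2 a222_3 q222 1152928646278466765 1 fun c223 a223_1 a223_2 a223_3 q223 =>
  mulK c223 a223_1 a223_2 a223_3 q223 c15 a15_1 a15_2 a15_3 q15 fun c224 a224_1 a224_2 a224_3 q224 =>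
  addcK c224 a224_1 a224_2 a224_3 q224 1152923919546698433 1 fun c225 a225_1 a225_2 a225_3 q225 =>
  mulK c225 a225_1 a225_2 a225_3 q225 c15 a15_1 a15_2 a15_3 q15 fun c226 a226_1 a226_2 a226_3 q226 =>
  addcK c226 a226_1 a226_2 a226_3 q226 1152921190988335022 1 fun c227 a227_1 a227_2 a227_3 q227 =>
  mulK c227 a227_1 a227_2 a227_3 q227 c15 a15_1 a15_2 a15_3 q15 fun c228 a228_1 a228_2 a228_3 q228 =>
  addcK c228 a228_1 a228_2 a228_3 q228 1152920058250840244 1 fun c229 a229_1 a229_2 a229_3 q229 =>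
  mulK c229 a229_1 a229_2 a229_3 q229 c15 a15_1 a15_2 a15_3 q15 fun c230 a230_1 a230_2 a230_3 q230 =>
  addcK c230 a230_1 a230_2 a230_3 q230 1152921842582118466 1 fun c231 a231_1 a231_2 a231_3 q231 =>
  addcK c114 a114_1 a114_2 a114_3 q114 1153004483375005696 0 fun c232 a232_1 a232_2 a232_3 q232 =>
  mulK c232 a232_1 a232_2 a232_3 q232 c15 a15_1 a15_2 a15_3 q15 fun c233 a233_1 a233_2 a233_3 q233 =>
  addcK c233 a233_1 a233_2 a233_3 q233 1152852238123076157 1 fun c234 a234_1 a234_2 a234_3 q234 =>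
  mulK c234 a234_1 a234_2 a234_3 q234 c15 a15_1 a15_2 a15_3 q15 fun c235 a235_1 a235_2 a235_3 q235 =>
  addcK c235 a235_1 a235_2 a235_3 q235 1152935787950086554 1 fun c236 a236_1 a236_2 a236_3 q236 =>
  mulK c236 a236_1 a236_2 a236_3 q236 c15 a15_1 a15_2 a15_3 q15 fun c237 a237_1 a237_2 a237_3 q237 =>
  addcK c237 a237_1 a237_2 a237_3 q237 1152923919546698433 1 fun c238 a238_1 a238_2 a238_3 q238 =>
  mulK c238 a238_1 a238_2 a238_3 q238 c15 a15_1 a15_2 a15_3 q15 fun c239 a239_1 a239_2 a239_3 q239 =>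
  addcK c239 a239_1 a239_2 a239_3 q239 1152921400067342991 1 fun c240 a240_1 a240_2 a240_3 q240 =>
  addcK c114 a114_1 a114_2 a114_3 q114 1152971291867742208 0 fun c241 a241_1 a241_2 a241_3 q241 =>
  mulK c241 a241_1 a241_2 a241_3 q241 c15 a15_1 a15_2 a15_3 q15 fun c242 a242_1 a242_2 a242_3 q242 =>
  addcK c242 a242_1 a242_2 a242_3 q242 1152900724661715730 1 fun c243 a243_1 a243_2 a243_3 q243 =>
  mulK c243 a243_1 a243_2 a243_3 q243 c15 a15_1 a15_2 a15_3 q15 fun c244 a244_1 a244_2 a244_3 q244 =>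
  addcK c244 a244_1 a244_2 a244_3 q244 1152922932941170934 1 fun c245 a245_1 a245_2 a245_3 q245 =>
  addcK c98 a98_1 a98_2 a98_3 q98 1152923875428794368 0 fun c246 a246_1 a246_2 a246_3 q246 =>
  mulK c34 a34_1 a34_2 a34_3 q34 c246 a246_1 a246_2 a246_3 q246 fun c247 a247_1 a247_2 a247_3 q247 =>
  addK c245 a245_1 a245_2 a245_3 q245 c247 a247_1 a247_2 a247_3 q247 fun c248 a248_1 a248_2 a248_3 q248 =>
  mulK c34 a34_1 a34_2 a34_3 q34 c248 a248_1 a248_2 a248_3 q248 fun c249 a249_1 a249_2 a249_3 q249 =>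
  addK c240 a240_1 a240_2 a240_3 q240 c249 a249_1 a249_2 a249_3 q249 fun c250 a250_1 a250_2 a250_3 q250 =>
  mulK c34 a34_1 a34_2 a34_3 q34 c250 a250_1 a250_2 a250_3 q250 fun c251 a251_1 a251_2 a251_3 q251 =>
  addK c231 a231_1 a231_2 a231_3 q231 c251 a251_1 a251_2 a251_3 q251 fun c252 a252_1 a252_2 a252_3 q252 =>
  mulK c217 a217_1 a217_2 a217_3 q217 c252 a252_1 a252_2 a252_3 q252 fun c254 a254_1 a254_2 a254_3 q254 =>
  smulK 2 1 1152921504606846977 2305843009213693952 c254 a254_1 a254_2 a254_3 q254 fun c255 a255_1 a255_2 a255_3 q255 =>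
  addK c205 a205_1 a205_2 a205_3 q205 c255 a255_1 a255_2 a255_3 q255 fun c256 a256_1 a256_2 a256_3 q256 =>
  smulK 3 500 576460752303423488500 3458764513820540928 c89 a89_1 a89_2 a89_3 q89 fun c257 a257_1 a257_2 a257_3 q257 =>
  negK c257 a257_1 a257_2 a257_3 q257 fun c258 a258_1 a258_2 a258_3 q258 =>
  addcK c258 a258_1 a258_2 a258_3 q258 1152922601919451496 1 fun c259 a259_1 a259_2 a259_3 q259 =>
  mulK c259 a259_1 a259_2 a259_3 q259 c178 a178_1 a178_2 a178_3 q178 fun c261 a261_1 a261_2 a261_3 q261 =>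
  smulK 2 1 1152921504606846977 2305843009213693952 c261 a261_1 a261_2 a261_3 q261 fun c263 a263_1 a263_2 a263_3 q263 =>
  addK c256 a256_1 a256_2 a256_3 q256 c263 a263_1 a263_2 a263_3 q263 fun c264 a264_1 a264_2 a264_3 q264 =>
  posK c264 a264_1 a264_2 a264_3 q264 <|
  mulK c142 a142_1 a142_2 a142_3 q142 c264 a264_1 a264_2 a264_3 q264 fun c266 a266_1 a266_2 a266_3 q266 =>
  smulK 1666 125 144115188075855872125 1920767226675007062016 c15 a15_1 a15_2 a15_3 q15 fun c267 a267_1 a267_2 a267_3 q267 =>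
  addcK c267 a267_1 a267_2 a267_3 q267 1152877541733921980 1 fun c268 a268_1 a268_2 a268_3 q268 =>
  mulK c268 a268_1 a268_2 a268_3 q268 c15 a15_1 a15_2 a15_3 q15 fun c269 a269_1 a269_2 a269_3 q269 =>
  addcK c269 a269_1 a269_2 a269_3 q269 1152958893499749499 1 fun c270 a270_1 a270_2 a270_3 q270 =>
  mulK c270 a270_1 a270_2 a270_3 q270 c15 a15_1 a15_2 a15_3 q15 fun c271 a271_1 a271_2 a271_3 q271 =>
  addcK c271 a271_1 a271_2 a271_3 q271 1152919998275916923 1 fun c272 a272_1 a272_2 a272_3 q272 =>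
  mulK c272 a272_1 a272_2 a272_3 q272 c15 a15_1 a15_2 a15_3 q15 fun c273 a273_1 a273_2 a273_3 q273 =>
  addcK c273 a273_1 a273_2 a273_3 q273 1152914196702812963 1 fun c274 a274_1 a274_2 a274_3 q274 =>
  mulK c274 a274_1 a274_2 a274_3 q274 c15 a15_1 a15_2 a15_3 q15 fun c275 a275_1 a275_2 a275_3 q275 =>
  addcK c275 a275_1 a275_2 a275_3 q275 1152922238530858516 1 fun c276 a276_1 a276_2 a276_3 q276 =>
  mulK c276 a276_1 a276_2 a276_3 q276 c15 a15_1 a15_2 a15_3 q15 fun c277 a277_1 a277_2 a277_3 q277 =>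
  addcK c277 a277_1 a277_2 a277_3 q277 1152921613527217603 1 fun c278 a278_1 a278_2 a278_3 q278 =>
  smulK 833 25 28823037615171174425 960383613337503531008 c15 a15_1 a15_2 a15_3 q15 fun c279 a279_1 a279_2 a279_3 q279 =>
  addcK c279 a279_1 a279_2 a279_3 q279 1152848233151971983 1 fun c280 a280_1 a280_2 a280_3 q280 =>
  mulK c280 a280_1 a280_2 a280_3 q280 c15 a15_1 a15_2 a15_3 q15 fun c281 a281_1 a281_2 a281_3 q281 =>
  addcK c281 a281_1 a281_2 a281_3 q281 1152958893499749499 1 fun c282 a282_1 a282_2 a282_3 q282 =>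
  mulK c282 a282_1 a282_2 a282_3 q282 c15 a15_1 a15_2 a15_3 q15 fun c283 a283_1 a283_2 a283_3 q283 =>
  addcK c283 a283_1 a283_2 a283_3 q283 1152920751441381949 1 fun c284 a284_1 a284_2 a284_3 q284 =>
  mulK c284 a284_1 a284_2 a284_3 q284 c15 a15_1 a15_2 a15_3 q15 fun c285 a285_1 a285_2 a285_3 q285 =>
  addcK c285 a285_1 a285_2 a285_3 q285 1152920286622841307 1 fun c286 a286_1 a286_2 a286_3 q286 =>
  addcK c267 a267_1 a267_2 a267_3 q267 1152906850315871977 1 fun c287 a287_1 a287_2 a287_3 q287 =>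
  mulK c287 a287_1 a287_2 a287_3 q287 c15 a15_1 a15_2 a15_3 q15 fun c288 a288_1 a288_2 a288_3 q288 =>
  addcK c288 a288_1 a288_2 a288_3 q288 1152923997199707144 1 fun c289 a289_1 a289_2 a289_3 q289 =>
  smulK 119 250 288230376151711744250 137197659048214790144 c34 a34_1 a34_2 a34_3 q34 fun c290 a290_1 a290_2 a290_3 q290 =>
  addK c289 a289_1 a289_2 a289_3 q289 c290 a290_1 a290_2 a290_3 q290 fun c291 a291_1 a291_2 a291_3 q291 =>
  mulK c34 a34_1 a34_2 a34_3 q34 c291 a291_1 a291_2 a291_3 q291 fun c292 a292_1 a292_2 a292_3 q292 =>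
  addK c286 a286_1 a286_2 a286_3 q286 c292 a292_1 a292_2 a292_3 q292 fun c293 a293_1 a293_2 a293_3 q293 =>
  mulK c34 a34_1 a34_2 a34_3 q34 c293 a293_1 a293_2 a293_3 q293 fun c294 a294_1 a294_2 a294_3 q294 =>
  addK c278 a278_1 a278_2 a278_3 q278 c294 a294_1 a294_2 a294_3 q294 fun c295 a295_1 a295_2 a295_3 q295 =>
  smulK 8 1 1152921504606846977 9223372036854775808 c295 a295_1 a295_2 a295_3 q295 fun c297 a297_1 a297_2 a297_3 q297 =>
  subK c95 a95_1 a95_2 a95_3 q95 c217 a217_1 a217_2 a217_3 q217 fun c298 a298_1 a298_2 a298_3 q298 =>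
  smulK 1 2 2305843009213693954 1152921504606846976 c298 a298_1 a298_2 a298_3 q298 fun c299 a299_1 a299_2 a299_3 q299 =>
  smulK 952 125 144115188075855872125 1097581272385718321152 c15 a15_1 a15_2 a15_3 q15 fun c302 a302_1 a302_2 a302_3 q302 =>
  addcK c302 a302_1 a302_2 a302_3 q302 1152888009084618408 1 fun c303 a303_1 a303_2 a303_3 q303 =>
  mulK c303 a303_1 a303_2 a303_3 q303 c15 a15_1 a15_2 a15_3 q15 fun c304 a304_1 a304_2 a304_3 q304 =>
  addcK c304 a304_1 a304_2 a304_3 q304 1152968163482283278 1 fun c305 a305_1 a305_2 a305_3 q305 =>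
  mulK c305 a305_1 a305_2 a305_3 q305 c15 a15_1 a15_2 a15_3 q15 fun c306 a306_1 a306_2 a306_3 q306 =>
  addcK c306 a306_1 a306_2 a306_3 q306 1152896668838198772 1 fun c307 a307_1 a307_2 a307_3 q307 =>
  mulK c307 a307_1 a307_2 a307_3 q307 c15 a15_1 a15_2 a15_3 q15 fun c308 a308_1 a308_2 a308_3 q308 =>
  addcK c308 a308_1 a308_2 a308_3 q308 1152924178619125727 1 fun c309 a309_1 a309_2 a309_3 q309 =>
  mulK c309 a309_1 a309_2 a309_3 q309 c15 a15_1 a15_2 a15_3 q15 fun c310 a310_1 a310_2 a310_3 q310 =>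
  addcK c310 a310_1 a310_2 a310_3 q310 1152921635448730681 1 fun c311 a311_1 a311_2 a311_3 q311 =>
  mulK c311 a311_1 a311_2 a311_3 q311 c15 a15_1 a15_2 a15_3 q15 fun c312 a312_1 a312_2 a312_3 q312 =>
  addcK c312 a312_1 a312_2 a312_3 q312 1152921874867387630 1 fun c313 a313_1 a313_2 a313_3 q313 =>
  smulK 3332 125 144115188075855872125 3841534453350014124032 c15 a15_1 a15_2 a15_3 q15 fun c314 a314_1 a314_2 a314_3 q314 =>
  addcK c314 a314_1 a314_2 a314_3 q314 1152848233151971983 1 fun c315 a315_1 a315_2 a315_3 q315 =>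
  mulK c315 a315_1 a315_2 a315_3 q315 c15 a15_1 a15_2 a15_3 q15 fun c316 a316_1 a316_2 a316_3 q316 =>
  addcK c316 a316_1 a316_2 a316_3 q316 1152971356464050340 1 fun c317 a317_1 a317_2 a317_3 q317 =>
  mulK c317 a317_1 a317_2 a317_3 q317 c15 a15_1 a15_2 a15_3 q15 fun c318 a318_1 a318_2 a318_3 q318 =>
  addcK c318 a318_1 a318_2 a318_3 q318 1152919998275916923 1 fun c319 a319_1 a319_2 a319_3 q319 =>
  mulK c319 a319_1 a319_2 a319_3 q319 c15 a15_1 a15_2 a15_3 q15 fun c320 a320_1 a320_2 a320_3 q320 =>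
  addcK c320 a320_1 a320_2 a320_3 q320 1152916632670824301 1 fun c321 a321_1 a321_2 a321_3 q321 =>
  mulK c321 a321_1 a321_2 a321_3 q321 c15 a15_1 a15_2 a15_3 q15 fun c322 a322_1 a322_2 a322_3 q322 =>
  addcK c322 a322_1 a322_2 a322_3 q322 1152921749248184156 1 fun c323 a323_1 a323_2 a323_3 q323 =>
  addcK c314 a314_1 a314_2 a314_3 q314 1152877541733921980 1 fun c324 a324_1 a324_2 a324_3 q324 =>
  mulK c324 a324_1 a324_2 a324_3 q324 c15 a15_1 a15_2 a15_3 q15 fun c325 a325_1 a325_2 a325_3 q325 =>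
  addcK c325 a325_1 a325_2 a325_3 q325 1152936460164007985 1 fun c326 a326_1 a326_2 a326_3 q326 =>
  mulK c326 a326_1 a326_2 a326_3 q326 c15 a15_1 a15_2 a15_3 q15 fun c327 a327_1 a327_2 a327_3 q327 =>
  addcK c327 a327_1 a327_2 a327_3 q327 1152921353973753971 1 fun c328 a328_1 a328_2 a328_3 q328 =>
  smulK 476 125 144115188075855872125 548790636192859160576 c15 a15_1 a15_2 a15_3 q15 fun c329 a329_1 a329_2 a329_3 q329 =>
  addcK c329 a329_1 a329_2 a329_3 q329 1152919411136707690 1 fun c330 a330_1 a330_2 a330_3 q330 =>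
  mulK c34 a34_1 a34_2 a34_3 q34 c330 a330_1 a330_2 a330_3 q330 fun c331 a331_1 a331_2 a331_3 q331 =>
  addK c328 a328_1 a328_2 a328_3 q328 c331 a331_1 a331_2 a331_3 q331 fun c332 a332_1 a332_2 a332_3 q332 =>
  mulK c34 a34_1 a34_2 a34_3 q34 c332 a332_1 a332_2 a332_3 q332 fun c333 a333_1 a333_2 a333_3 q333 =>
  addK c323 a323_1 a323_2 a323_3 q323 c333 a333_1 a333_2 a333_3 q333 fun c334 a334_1 a334_2 a334_3 q334 =>
  mulK c82 a82_1 a82_2 a82_3 q82 c334 a334_1 a334_2 a334_3 q334 fun c335 a335_1 a335_2 a335_3 q335 =>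
  addK c313 a313_1 a313_2 a313_3 q313 c335 a335_1 a335_2 a335_3 q335 fun c336 a336_1 a336_2 a336_3 q336 =>
  mulK c299 a299_1 a299_2 a299_3 q299 c336 a336_1 a336_2 a336_3 q336 fun c338 a338_1 a338_2 a338_3 q338 =>
  smulK 2 1 1152921504606846977 2305843009213693952 c338 a338_1 a338_2 a338_3 q338 fun c339 a339_1 a339_2 a339_3 q339 =>
  subK c297 a297_1 a297_2 a297_3 q297 c339 a339_1 a339_2 a339_3 q339 fun c340 a340_1 a340_2 a340_3 q340 =>
  addK c61 a61_1 a61_2 a61_3 q61 c185 a185_1 a185_2 a185_3 q185 fun c341 a341_1 a341_2 a341_3 q341 =>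
  smulK 1 2 2305843009213693954 1152921504606846976 c341 a341_1 a341_2 a341_3 q341 fun c342 a342_1 a342_2 a342_3 q342 =>
  mulK z2 1152921504606846976 (Nat.add w2 1152921504606846976) 1152921504606846976 0 c61 a61_1 a61_2 a61_3 q61 fun c345 a345_1 a345_2 a345_3 q345 =>
  subK c95 a95_1 a95_2 a95_3 q95 c345 a345_1 a345_2 a345_3 q345 fun c346 a346_1 a346_2 a346_3 q346 =>
  smulK 1 2 2305843009213693954 1152921504606846976 c346 a346_1 a346_2 a346_3 q346 fun c347 a347_1 a347_2 a347_3 q347 =>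
  mulK z2 1152921504606846976 (Nat.add w2 1152921504606846976) 1152921504606846976 0 c185 a185_1 a185_2 a185_3 q185 fun c350 a350_1 a350_2 a350_3 q350 =>
  addK c217 a217_1 a217_2 a217_3 q217 c350 a350_1 a350_2 a350_3 q350 fun c351 a351_1 a351_2 a351_3 q351 =>
  smulK 1 2 2305843009213693954 1152921504606846976 c351 a351_1 a351_2 a351_3 q351 fun c352 a352_1 a352_2 a352_3 q352 =>
  mulK c347 a347_1 a347_2 a347_3 q347 c352 a352_1 a352_2 a352_3 q352 fun c355 a355_1 a355_2 a355_3 q355 =>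
  addK c342 a342_1 a342_2 a342_3 q342 c355 a355_1 a355_2 a355_3 q355 fun c356 a356_1 a356_2 a356_3 q356 =>
  mulK z2 1152921504606846976 (Nat.add w2 1152921504606846976) 1152921504606846976 0 c356 a356_1 a356_2 a356_3 q356 fun c358 a358_1 a358_2 a358_3 q358 =>
  subK c299 a299_1 a299_2 a299_3 q299 c358 a358_1 a358_2 a358_3 q358 fun c359 a359_1 a359_2 a359_3 q359 =>
  mulK z2 1152921504606846976 (Nat.add w2 1152921504606846976) 1152921504606846976 0 c359 a359_1 a359_2 a359_3 q359 fun c361 a361_1 a361_2 a361_3 q361 =>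
  addcK c361 a361_1 a361_2 a361_3 q361 1152922604118474752 0 fun c362 a362_1 a362_2 a362_3 q362 =>
  sqrtK c362 a362_1 a362_2 a362_3 q362 fun c364 a364_1 a364_2 a364_3 q364 =>
  addcK c364 a364_1 a364_2 a364_3 q364 1152922604118474752 0 fun c366 a366_1 a366_2 a366_3 q366 =>
  invK c366 a366_1 a366_2 a366_3 q366 fun c368 a368_1 a368_2 a368_3 q368 =>
  mulK c359 a359_1 a359_2 a359_3 q359 c368 a368_1 a368_2 a368_3 q368 fun c369 a369_1 a369_2 a369_3 q369 =>
  sqK c369 a369_1 a369_2 a369_3 q369 fun c371 a371_1 a371_2 a371_3 q371 =>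
  addK c356 a356_1 a356_2 a356_3 q356 c371 a371_1 a371_2 a371_3 q371 fun c372 a372_1 a372_2 a372_3 q372 =>
  smulK 238 125 144115188075855872125 274395318096429580288 c15 a15_1 a15_2 a15_3 q15 fun c373 a373_1 a373_2 a373_3 q373 =>
  addcK c373 a373_1 a373_2 a373_3 q373 1152911037256150548 1 fun c374 a374_1 a374_2 a374_3 q374 =>
  mulK c374 a374_1 a374_2 a374_3 q374 c15 a15_1 a15_2 a15_3 q15 fun c375 a375_1 a375_2 a375_3 q375 =>
  addcK c375 a375_1 a375_2 a375_3 q375 1152941418961449255 1 fun c376 a376_1 a376_2 a376_3 q376 =>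
  mulK c376 a376_1 a376_2 a376_3 q376 c15 a15_1 a15_2 a15_3 q15 fun c377 a377_1 a377_2 a377_3 q377 =>
  addcK c377 a377_1 a377_2 a377_3 q377 1152903604557546783 1 fun c378 a378_1 a378_2 a378_3 q378 =>
  mulK c378 a378_1 a378_2 a378_3 q378 c15 a15_1 a15_2 a15_3 q15 fun c379 a379_1 a379_2 a379_3 q379 =>
  addcK c379 a379_1 a379_2 a379_3 q379 1152929554131473924 1 fun c380 a380_1 a380_2 a380_3 q380 =>
  mulK c380 a380_1 a380_2 a380_3 q380 c15 a15_1 a15_2 a15_3 q15 fun c381 a381_1 a381_2 a381_3 q381 =>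
  addcK c381 a381_1 a381_2 a381_3 q381 1152918908659893797 1 fun c382 a382_1 a382_2 a382_3 q382 =>
  mulK c382 a382_1 a382_2 a382_3 q382 c15 a15_1 a15_2 a15_3 q15 fun c383 a383_1 a383_2 a383_3 q383 =>
  addcK c383 a383_1 a383_2 a383_3 q383 1152922523854125924 1 fun c384 a384_1 a384_2 a384_3 q384 =>
  mulK c80 a80_1 a80_2 a80_3 q80 c295 a295_1 a295_2 a295_3 q295 fun c386 a386_1 a386_2 a386_3 q386 =>
  smulK 4 1 1152921504606846977 4611686018427387904 c386 a386_1 a386_2 a386_3 q386 fun c387 a387_1 a387_2 a387_3 q387 =>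
  addK c384 a384_1 a384_2 a384_3 q384 c387 a387_1 a387_2 a387_3 q387 fun c388 a388_1 a388_2 a388_3 q388 =>
  mulK z2 1152921504606846976 (Nat.add w2 1152921504606846976) 1152921504606846976 0 c336 a336_1 a336_2 a336_3 q336 fun c390 a390_1 a390_2 a390_3 q390 =>
  smulK 2 1 1152921504606846977 2305843009213693952 c390 a390_1 a390_2 a390_3 q390 fun c391 a391_1 a391_2 a391_3 q391 =>
  subK c388 a388_1 a388_2 a388_3 q388 c391 a391_1 a391_2 a391_3 q391 fun c392 a392_1 a392_2 a392_3 q392 =>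
  mulK c372 a372_1 a372_2 a372_3 q372 c392 a392_1 a392_2 a392_3 q392 fun c394 a394_1 a394_2 a394_3 q394 =>
  addK c95 a95_1 a95_2 a95_3 q95 c345 a345_1 a345_2 a345_3 q345 fun c395 a395_1 a395_2 a395_3 q395 =>
  smulK 1 2 2305843009213693954 1152921504606846976 c395 a395_1 a395_2 a395_3 q395 fun c396 a396_1 a396_2 a396_3 q396 =>
  subK c217 a217_1 a217_2 a217_3 q217 c350 a350_1 a350_2 a350_3 q350 fun c399 a399_1 a399_2 a399_3 q399 =>
  smulK 1 2 2305843009213693954 1152921504606846976 c399 a399_1 a399_2 a399_3 q399 fun c400 a400_1 a400_2 a400_3 q400 =>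
  mulK c396 a396_1 a396_2 a396_3 q396 c400 a400_1 a400_2 a400_3 q400 fun c403 a403_1 a403_2 a403_3 q403 =>
  addK c342 a342_1 a342_2 a342_3 q342 c403 a403_1 a403_2 a403_3 q403 fun c404 a404_1 a404_2 a404_3 q404 =>
  negK c299 a299_1 a299_2 a299_3 q299 fun c406 a406_1 a406_2 a406_3 q406 =>
  mulK z2 1152921504606846976 (Nat.add w2 1152921504606846976) 1152921504606846976 0 c404 a404_1 a404_2 a404_3 q404 fun c407 a407_1 a407_2 a407_3 q407 =>
  subK c406 a406_1 a406_2 a406_3 q406 c407 a407_1 a407_2 a407_3 q407 fun c408 a408_1 a408_2 a408_3 q408 =>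
  mulK z2 1152921504606846976 (Nat.add w2 1152921504606846976) 1152921504606846976 0 c408 a408_1 a408_2 a408_3 q408 fun c410 a410_1 a410_2 a410_3 q410 =>
  addcK c410 a410_1 a410_2 a410_3 q410 1152922604118474752 0 fun c411 a411_1 a411_2 a411_3 q411 =>
  sqrtK c411 a411_1 a411_2 a411_3 q411 fun c413 a413_1 a413_2 a413_3 q413 =>
  addcK c413 a413_1 a413_2 a413_3 q413 1152922604118474752 0 fun c415 a415_1 a415_2 a415_3 q415 =>
  invK c415 a415_1 a415_2 a415_3 q415 fun c417 a417_1 a417_2 a417_3 q417 =>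
  mulK c408 a408_1 a408_2 a408_3 q408 c417 a417_1 a417_2 a417_3 q417 fun c418 a418_1 a418_2 a418_3 q418 =>
  sqK c418 a418_1 a418_2 a418_3 q418 fun c420 a420_1 a420_2 a420_3 q420 =>
  addK c404 a404_1 a404_2 a404_3 q404 c420 a420_1 a420_2 a420_3 q420 fun c421 a421_1 a421_2 a421_3 q421 =>
  addK c388 a388_1 a388_2 a388_3 q388 c391 a391_1 a391_2 a391_3 q391 fun c422 a422_1 a422_2 a422_3 q422 =>
  mulK c421 a421_1 a421_2 a421_3 q421 c422 a422_1 a422_2 a422_3 q422 fun c424 a424_1 a424_2 a424_3 q424 =>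
  addK c394 a394_1 a394_2 a394_3 q394 c424 a424_1 a424_2 a424_3 q424 fun c425 a425_1 a425_2 a425_3 q425 =>
  smulK 1 2 2305843009213693954 1152921504606846976 c425 a425_1 a425_2 a425_3 q425 fun c426 a426_1 a426_2 a426_3 q426 =>
  subK c340 a340_1 a340_2 a340_3 q340 c426 a426_1 a426_2 a426_3 q426 fun c428 a428_1 a428_2 a428_3 q428 =>
  mulK z1 (Nat.add w1 1152921504606846976) 1152921504606846976 1152921504606846976 0 c428 a428_1 a428_2 a428_3 q428 fun c430 a430_1 a430_2 a430_3 q430 =>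
  negK c430 a430_1 a430_2 a430_3 q430 fun c431 a431_1 a431_2 a431_3 q431 =>
  reluK c431 a431_1 a431_2 a431_3 q431 fun c432 a432_1 a432_2 a432_3 q432 =>
  sqK c432 a432_1 a432_2 a432_3 q432 fun c433 a433_1 a433_2 a433_3 q433 =>
  subK c266 a266_1 a266_2 a266_3 q266 c433 a433_1 a433_2 a433_3 q433 fun c434 a434_1 a434_2 a434_3 q434 =>
  pos c434 a434_1 a434_2 a434_3 q434

theorem alt4_s {p1 p2 z1 w1 z2 w2 z3 w3 : ℕ} {e1 e2 e3 a f z p q : ℝ} (he : Ev e1 e2 e3)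
    (hp1 : In e1 e2 e3 p1 1152921504606846976 1152921504606846976 1152921504606846976 0 p)
    (hp2 : In e1 e2 e3 p2 1152921504606846976 1152921504606846976 1152921504606846976 0 q)
    (hx1 : In e1 e2 e3 z1 (Nat.add w1 1152921504606846976) 1152921504606846976 1152921504606846976 0 a)
    (hx2 : In e1 e2 e3 z2 1152921504606846976 (Nat.add w2 1152921504606846976) 1152921504606846976 0 f)
    (hx3 : In e1 e2 e3 z3 1152921504606846976 1152921504606846976 (Nat.add w3 1152921504606846976) 0 z)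
    (H0 : alt4 p1 p2 z1 w1 z2 w2 z3 w3 = true) : 0 < (((3/4:ℝ) * z) - (gp a f z p q)) ∧ 0 < ((hq a f z p q) - ((3/10:ℝ) * z)) ∧ 0 < ((11/20:ℝ) - (tBq a f z p q)) ∧ 0 < (PA a f z p q) ∧ 0 < (QB a f z p q) ∧ 0 < (((PA a f z p q) * (QB a f z p q)) - ((max (-(a * (ZAB a f z p q))) (0:ℝ)) ^ 2)) := by
  unfold alt4 at H0
  refine smulK_s he (w := (3/4:ℝ)) (by norm_num) (by norm_num) (by norm_num) (by norm_num) hx3 (fun _ _ _ _ _ h1 H1 => ?_) H0
  refine smulK_s he (w := (3:ℝ)) (by norm_num) (by norm_num) (by norm_num) (by norm_num) hp1 (fun _ _ _ _ _ h2 H2 => ?_) H1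
  have h3 := In_cast (w := (gp a f z p q)) h2 rfl
  refine subK_s he h1 h3 (fun _ _ _ _ _ h4 H3 => ?_) H2
  refine posK_s he h4 (fun p0 H4 => ?_) H3
  refine smulK_s he (w := (3/2:ℝ)) (by norm_num) (by norm_num) (by norm_num) (by norm_num) hp2 (fun _ _ _ _ _ h5 H5 => ?_) H4
  have h6 := In_cast (w := (hq a f z p q)) h5 rfl
  refine smulK_s he (w := (3/10:ℝ)) (by norm_num) (by norm_num) (by norm_num) (by norm_num) hx3 (fun _ _ _ _ _ h7 H6 => ?_) H5
  refine subK_s he h6 h7 (fun _ _ _ _ _ h8 H7 => ?_) H6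
  refine posK_s he h8 (fun p1 H8 => ?_) H7
  refine mulK_s he h6 hx2 (fun _ _ _ _ _ h9 H9 => ?_) H8
  have h10 := In_cast (w := (tBq a f z p q)) h9 rfl
  refine negK_s he h10 (fun _ _ _ _ _ h11 H10 => ?_) H9
  refine addcK_s he h11 (v' := (11/20:ℝ)) (by norm_num [SS, BB, abs_le]) (fun _ _ _ _ _ h12 H11 => ?_) H10
  have h13 := In_cast h12 (neg_add_eq_sub _ _)
  refine posK_s he h13 (fun p2 H12 => ?_) H11
  refine smulK_s he (w := (2:ℝ)) (by norm_num) (by norm_num) (by norm_num) (by norm_num) hx1 (fun _ _ _ _ _ h14 H13 => ?_) H12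
  refine addcK_s he h14 (v' := (-1/2:ℝ)) (by norm_num [SS, BB, abs_le]) (fun _ _ _ _ _ h15 H14 => ?_) H13
  have h16 := In_cast h15 (sub_c (c := (1/2:ℝ)) (by norm_num))
  have h17 := In_cast (w := (x a f z p q)) h16 rfl
  refine smulK_s he (w := (6909/500:ℝ)) (by norm_num) (by norm_num) (by norm_num) (by norm_num) h17 (fun _ _ _ _ _ h18 H15 => ?_) H14
  refine negK_s he h18 (fun _ _ _ _ _ h19 H16 => ?_) H15
  have h20 := In_cast h19 (neg_mul_c (c := (-6909/500:ℝ)) (by norm_num))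
  refine addcK_s he h20 (v' := (150507/4000:ℝ)) (by norm_num [SS, BB, abs_le]) (fun _ _ _ _ _ h21 H17 => ?_) H16
  refine mulK_s he h21 h17 (fun _ _ _ _ _ h22 H18 => ?_) H17
  refine addcK_s he h22 (v' := (-44979/1600:ℝ)) (by norm_num [SS, BB, abs_le]) (fun _ _ _ _ _ h23 H19 => ?_) H18
  refine mulK_s he h23 h17 (fun _ _ _ _ _ h24 H20 => ?_) H19
  refine addcK_s he h24 (v' := (-721/1600:ℝ)) (by norm_num [SS, BB, abs_le]) (fun _ _ _ _ _ h25 H21 => ?_) H20
  refine mulK_s he h25 h17 (fun _ _ _ _ _ h26 H22 => ?_) H21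
  refine addcK_s he h26 (v' := (69123/16000:ℝ)) (by norm_num [SS, BB, abs_le]) (fun _ _ _ _ _ h27 H23 => ?_) H22
  refine mulK_s he h27 h17 (fun _ _ _ _ _ h28 H24 => ?_) H23
  refine addcK_s he h28 (v' := (13983/64000:ℝ)) (by norm_num [SS, BB, abs_le]) (fun _ _ _ _ _ h29 H25 => ?_) H24
  refine mulK_s he h29 h17 (fun _ _ _ _ _ h30 H26 => ?_) H25
  refine addcK_s he h30 (v' := (-56659/128000:ℝ)) (by norm_num [SS, BB, abs_le]) (fun _ _ _ _ _ h31 H27 => ?_) H26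
  refine mulK_s he hx1 hx2 (fun _ _ _ _ _ h32 H28 => ?_) H27
  refine sqK_s he h32 (fun _ _ _ _ _ h33 H29 => ?_) H28
  refine smulK_s he (w := (4:ℝ)) (by norm_num) (by norm_num) (by norm_num) (by norm_num) h33 (fun _ _ _ _ _ h34 H30 => ?_) H29
  have h35 := In_cast (w := (dd a f z p q)) h34 rfl
  refine smulK_s he (w := (6909/200:ℝ)) (by norm_num) (by norm_num) (by norm_num) (by norm_num) h17 (fun _ _ _ _ _ h36 H31 => ?_) H30
  refine negK_s he h36 (fun _ _ _ _ _ h37 H32 => ?_) H31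
  have h38 := In_cast h37 (neg_mul_c (c := (-6909/200:ℝ)) (by norm_num))
  refine addcK_s he h38 (v' := (50169/800:ℝ)) (by norm_num [SS, BB, abs_le]) (fun _ _ _ _ _ h39 H33 => ?_) H32
  refine mulK_s he h39 h17 (fun _ _ _ _ _ h40 H34 => ?_) H33
  refine addcK_s he h40 (v' := (-44979/1600:ℝ)) (by norm_num [SS, BB, abs_le]) (fun _ _ _ _ _ h41 H35 => ?_) H34
  refine mulK_s he h41 h17 (fun _ _ _ _ _ h42 H36 => ?_) H35
  refine addcK_s he h42 (v' := (-721/3200:ℝ)) (by norm_num [SS, BB, abs_le]) (fun _ _ _ _ _ h43 H37 => ?_) H36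
  refine mulK_s he h43 h17 (fun _ _ _ _ _ h44 H38 => ?_) H37
  refine addcK_s he h44 (v' := (23041/32000:ℝ)) (by norm_num [SS, BB, abs_le]) (fun _ _ _ _ _ h45 H39 => ?_) H38
  refine addcK_s he h20 (v' := (50169/4000:ℝ)) (by norm_num [SS, BB, abs_le]) (fun _ _ _ _ _ h46 H40 => ?_) H39
  refine mulK_s he h46 h17 (fun _ _ _ _ _ h47 H41 => ?_) H40
  refine addcK_s he h47 (v' := (-14993/8000:ℝ)) (by norm_num [SS, BB, abs_le]) (fun _ _ _ _ _ h48 H42 => ?_) H41
  refine smulK_s he (w := (987/2000:ℝ)) (by norm_num) (by norm_num) (by norm_num) (by norm_num) h35 (fun _ _ _ _ _ h49 H43 => ?_) H42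
  refine negK_s he h49 (fun _ _ _ _ _ h50 H44 => ?_) H43
  have h51 := In_cast h50 (neg_mul_c (c := (-987/2000:ℝ)) (by norm_num))
  refine addK_s he h48 h51 (fun _ _ _ _ _ h52 H45 => ?_) H44
  refine mulK_s he h35 h52 (fun _ _ _ _ _ h53 H46 => ?_) H45
  refine addK_s he h45 h53 (fun _ _ _ _ _ h54 H47 => ?_) H46
  refine mulK_s he h35 h54 (fun _ _ _ _ _ h55 H48 => ?_) H47
  refine addK_s he h31 h55 (fun _ _ _ _ _ h56 H49 => ?_) H48
  have h57 := In_cast (w := (uE a f z p q)) h56 rfl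
  refine mulK_s he hx1 h57 (fun _ _ _ _ _ h58 H50 => ?_) H49
  refine smulK_s he (w := (8:ℝ)) (by norm_num) (by norm_num) (by norm_num) (by norm_num) h58 (fun _ _ _ _ _ h59 H51 => ?_) H50
  refine sqK_s he h3 (fun _ _ _ _ _ h60 H52 => ?_) H51
  refine smulK_s he (w := (99/200:ℝ)) (by norm_num) (by norm_num) (by norm_num) (by norm_num) h60 (fun _ _ _ _ _ h61 H53 => ?_) H52
  have h62 := In_cast (w := (kaAp a f z p q)) h61 rfl
  refine smulK_s he (w := (987/1000:ℝ)) (by norm_num) (by norm_num) (by norm_num) (by norm_num) h17 (fun _ _ _ _ _ h63 H54 => ?_) H53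
  refine negK_s he h63 (fun _ _ _ _ _ h64 H55 => ?_) H54
  have h65 := In_cast h64 (neg_mul_c (c := (-987/1000:ℝ)) (by norm_num))
  refine addcK_s he h65 (v' := (4077/1000:ℝ)) (by norm_num [SS, BB, abs_le]) (fun _ _ _ _ _ h66 H56 => ?_) H55
  refine mulK_s he h66 h17 (fun _ _ _ _ _ h67 H57 => ?_) H56
  refine addcK_s he h67 (v' := (-23147/4000:ℝ)) (by norm_num [SS, BB, abs_le]) (fun _ _ _ _ _ h68 H58 => ?_) H57
  refine mulK_s he h68 h17 (fun _ _ _ _ _ h69 H59 => ?_) H58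
  refine addcK_s he h69 (v' := (11213/4000:ℝ)) (by norm_num [SS, BB, abs_le]) (fun _ _ _ _ _ h70 H60 => ?_) H59
  refine mulK_s he h70 h17 (fun _ _ _ _ _ h71 H61 => ?_) H60
  refine addcK_s he h71 (v' := (123/3200:ℝ)) (by norm_num [SS, BB, abs_le]) (fun _ _ _ _ _ h72 H62 => ?_) H61
  refine mulK_s he h72 h17 (fun _ _ _ _ _ h73 H63 => ?_) H62
  refine addcK_s he h73 (v' := (2023/16000:ℝ)) (by norm_num [SS, BB, abs_le]) (fun _ _ _ _ _ h74 H64 => ?_) H63
  refine mulK_s he h74 h17 (fun _ _ _ _ _ h75 H65 => ?_) H64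
  refine addcK_s he h75 (v' := (-12141/12800:ℝ)) (by norm_num [SS, BB, abs_le]) (fun _ _ _ _ _ h76 H66 => ?_) H65
  refine mulK_s he h76 h17 (fun _ _ _ _ _ h77 H67 => ?_) H66
  refine addcK_s he h77 (v' := (75807/64000:ℝ)) (by norm_num [SS, BB, abs_le]) (fun _ _ _ _ _ h78 H68 => ?_) H67
  have h79 := In_cast (w := (uh a f z p q)) h78 rfl
  refine sqK_s he hx2 (fun _ _ _ _ _ h80 H69 => ?_) H68
  refine mulK_s he hx1 h80 (fun _ _ _ _ _ h81 H70 => ?_) H69
  refine smulK_s he (w := (4:ℝ)) (by norm_num) (by norm_num) (by norm_num) (by norm_num) h81 (fun _ _ _ _ _ h82 H71 => ?_) H70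
  have h83 := In_cast (w := (af2 a f z p q)) h82 rfl
  refine mulK_s he h83 h57 (fun _ _ _ _ _ h84 H72 => ?_) H71
  refine addK_s he h79 h84 (fun _ _ _ _ _ h85 H73 => ?_) H72
  have h86 := In_cast (w := (um a f z p q)) h85 rfl
  refine mulK_s he h62 h86 (fun _ _ _ _ _ h87 H74 => ?_) H73
  refine subK_s he h59 h87 (fun _ _ _ _ _ h88 H75 => ?_) H74
  refine mulK_s he hx3 hx2 (fun _ _ _ _ _ h89 H76 => ?_) H75
  have h90 := In_cast (w := (s a f z p q)) h89 rfl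
  refine mulK_s he h90 h3 (fun _ _ _ _ _ h91 H77 => ?_) H76
  refine smulK_s he (w := (4/3:ℝ)) (by norm_num) (by norm_num) (by norm_num) (by norm_num) h91 (fun _ _ _ _ _ h92 H78 => ?_) H77
  refine mulK_s he hx2 h60 (fun _ _ _ _ _ h93 H79 => ?_) H78
  refine smulK_s he (w := (21/200:ℝ)) (by norm_num) (by norm_num) (by norm_num) (by norm_num) h93 (fun _ _ _ _ _ h94 H80 => ?_) H79
  refine subK_s he h92 h94 (fun _ _ _ _ _ h95 H81 => ?_) H80
  have h96 := In_cast (w := (nuAp a f z p q)) h95 rfl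
  refine smulK_s he (w := (987/250:ℝ)) (by norm_num) (by norm_num) (by norm_num) (by norm_num) h17 (fun _ _ _ _ _ h97 H82 => ?_) H81
  refine negK_s he h97 (fun _ _ _ _ _ h98 H83 => ?_) H82
  have h99 := In_cast h98 (neg_mul_c (c := (-987/250:ℝ)) (by norm_num))
  refine addcK_s he h99 (v' := (50169/4000:ℝ)) (by norm_num [SS, BB, abs_le]) (fun _ _ _ _ _ h100 H84 => ?_) H83
  refine mulK_s he h100 h17 (fun _ _ _ _ _ h101 H85 => ?_) H84
  refine addcK_s he h101 (v' := (-44979/4000:ℝ)) (by norm_num [SS, BB, abs_le]) (fun _ _ _ _ _ h102 H86 => ?_) H85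
  refine mulK_s he h102 h17 (fun _ _ _ _ _ h103 H87 => ?_) H86
  refine addcK_s he h103 (v' := (-721/3200:ℝ)) (by norm_num [SS, BB, abs_le]) (fun _ _ _ _ _ h104 H88 => ?_) H87
  refine mulK_s he h104 h17 (fun _ _ _ _ _ h105 H89 => ?_) H88
  refine addcK_s he h105 (v' := (23041/8000:ℝ)) (by norm_num [SS, BB, abs_le]) (fun _ _ _ _ _ h106 H90 => ?_) H89
  refine mulK_s he h106 h17 (fun _ _ _ _ _ h107 H91 => ?_) H90
  refine addcK_s he h107 (v' := (13983/64000:ℝ)) (by norm_num [SS, BB, abs_le]) (fun _ _ _ _ _ h108 H92 => ?_) H91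
  refine mulK_s he h108 h17 (fun _ _ _ _ _ h109 H93 => ?_) H92
  refine addcK_s he h109 (v' := (-56659/64000:ℝ)) (by norm_num [SS, BB, abs_le]) (fun _ _ _ _ _ h110 H94 => ?_) H93
  refine mulK_s he h110 h17 (fun _ _ _ _ _ h111 H95 => ?_) H94
  refine addcK_s he h111 (v' := (90909/256000:ℝ)) (by norm_num [SS, BB, abs_le]) (fun _ _ _ _ _ h112 H96 => ?_) H95
  refine smulK_s he (w := (6909/250:ℝ)) (by norm_num) (by norm_num) (by norm_num) (by norm_num) h17 (fun _ _ _ _ _ h113 H97 => ?_) H96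
  refine negK_s he h113 (fun _ _ _ _ _ h114 H98 => ?_) H97
  have h115 := In_cast h114 (neg_mul_c (c := (-6909/250:ℝ)) (by norm_num))
  refine addcK_s he h115 (v' := (50169/800:ℝ)) (by norm_num [SS, BB, abs_le]) (fun _ _ _ _ _ h116 H99 => ?_) H98
  refine mulK_s he h116 h17 (fun _ _ _ _ _ h117 H100 => ?_) H99
  refine addcK_s he h117 (v' := (-14993/400:ℝ)) (by norm_num [SS, BB, abs_le]) (fun _ _ _ _ _ h118 H101 => ?_) H100
  refine mulK_s he h118 h17 (fun _ _ _ _ _ h119 H102 => ?_) H101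
  refine addcK_s he h119 (v' := (-721/1600:ℝ)) (by norm_num [SS, BB, abs_le]) (fun _ _ _ _ _ h120 H103 => ?_) H102
  refine mulK_s he h120 h17 (fun _ _ _ _ _ h121 H104 => ?_) H103
  refine addcK_s he h121 (v' := (23041/8000:ℝ)) (by norm_num [SS, BB, abs_le]) (fun _ _ _ _ _ h122 H105 => ?_) H104
  refine mulK_s he h122 h17 (fun _ _ _ _ _ h123 H106 => ?_) H105
  refine addcK_s he h123 (v' := (4661/64000:ℝ)) (by norm_num [SS, BB, abs_le]) (fun _ _ _ _ _ h124 H107 => ?_) H106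
  refine addcK_s he h115 (v' := (150507/4000:ℝ)) (by norm_num [SS, BB, abs_le]) (fun _ _ _ _ _ h125 H108 => ?_) H107
  refine mulK_s he h125 h17 (fun _ _ _ _ _ h126 H109 => ?_) H108
  refine addcK_s he h126 (v' := (-44979/4000:ℝ)) (by norm_num [SS, BB, abs_le]) (fun _ _ _ _ _ h127 H110 => ?_) H109
  refine mulK_s he h127 h17 (fun _ _ _ _ _ h128 H111 => ?_) H110
  refine addcK_s he h128 (v' := (-721/16000:ℝ)) (by norm_num [SS, BB, abs_le]) (fun _ _ _ _ _ h129 H112 => ?_) H111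
  refine addcK_s he h99 (v' := (7167/4000:ℝ)) (by norm_num [SS, BB, abs_le]) (fun _ _ _ _ _ h130 H113 => ?_) H112
  refine mulK_s he h35 h130 (fun _ _ _ _ _ h131 H114 => ?_) H113
  refine addK_s he h129 h131 (fun _ _ _ _ _ h132 H115 => ?_) H114
  refine mulK_s he h35 h132 (fun _ _ _ _ _ h133 H116 => ?_) H115
  refine addK_s he h124 h133 (fun _ _ _ _ _ h134 H117 => ?_) H116
  refine mulK_s he h35 h134 (fun _ _ _ _ _ h135 H118 => ?_) H117
  refine addK_s he h112 h135 (fun _ _ _ _ _ h136 H119 => ?_) H118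
  have h137 := In_cast (w := (uO a f z p q)) h136 rfl
  refine mulK_s he h96 h137 (fun _ _ _ _ _ h138 H120 => ?_) H119
  refine smulK_s he (w := (2:ℝ)) (by norm_num) (by norm_num) (by norm_num) (by norm_num) h138 (fun _ _ _ _ _ h139 H121 => ?_) H120
  refine subK_s he h88 h139 (fun _ _ _ _ _ h140 H122 => ?_) H121
  refine smulK_s he (w := (2:ℝ)) (by norm_num) (by norm_num) (by norm_num) (by norm_num) h3 (fun _ _ _ _ _ h141 H123 => ?_) H122
  refine addK_s he h140 h141 (fun _ _ _ _ _ h142 H124 => ?_) H123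
  have h143 := In_cast (w := (PA a f z p q)) h142 rfl
  refine posK_s he h143 (fun p3 H125 => ?_) H124
  refine addcK_s he h20 (v' := (1449/32:ℝ)) (by norm_num [SS, BB, abs_le]) (fun _ _ _ _ _ h144 H126 => ?_) H125
  refine mulK_s he h144 h17 (fun _ _ _ _ _ h145 H127 => ?_) H126
  refine addcK_s he h145 (v' := (-75597/1600:ℝ)) (by norm_num [SS, BB, abs_le]) (fun _ _ _ _ _ h146 H128 => ?_) H127
  refine mulK_s he h146 h17 (fun _ _ _ _ _ h147 H129 => ?_) H128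
  refine addcK_s he h147 (v' := (4157/320:ℝ)) (by norm_num [SS, BB, abs_le]) (fun _ _ _ _ _ h148 H130 => ?_) H129
  refine mulK_s he h148 h17 (fun _ _ _ _ _ h149 H131 => ?_) H130
  refine addcK_s he h149 (v' := (52713/16000:ℝ)) (by norm_num [SS, BB, abs_le]) (fun _ _ _ _ _ h150 H132 => ?_) H131
  refine mulK_s he h150 h17 (fun _ _ _ _ _ h151 H133 => ?_) H132
  refine addcK_s he h151 (v' := (-3651/12800:ℝ)) (by norm_num [SS, BB, abs_le]) (fun _ _ _ _ _ h152 H134 => ?_) H133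
  refine mulK_s he h152 h17 (fun _ _ _ _ _ h153 H135 => ?_) H134
  refine addcK_s he h153 (v' := (-84189/128000:ℝ)) (by norm_num [SS, BB, abs_le]) (fun _ _ _ _ _ h154 H136 => ?_) H135
  refine addcK_s he h38 (v' := (2415/32:ℝ)) (by norm_num [SS, BB, abs_le]) (fun _ _ _ _ _ h155 H137 => ?_) H136
  refine mulK_s he h155 h17 (fun _ _ _ _ _ h156 H138 => ?_) H137
  refine addcK_s he h156 (v' := (-75597/1600:ℝ)) (by norm_num [SS, BB, abs_le]) (fun _ _ _ _ _ h157 H139 => ?_) H138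
  refine mulK_s he h157 h17 (fun _ _ _ _ _ h158 H140 => ?_) H139
  refine addcK_s he h158 (v' := (4157/640:ℝ)) (by norm_num [SS, BB, abs_le]) (fun _ _ _ _ _ h159 H141 => ?_) H140
  refine mulK_s he h159 h17 (fun _ _ _ _ _ h160 H142 => ?_) H141
  refine addcK_s he h160 (v' := (17571/32000:ℝ)) (by norm_num [SS, BB, abs_le]) (fun _ _ _ _ _ h161 H143 => ?_) H142
  refine addcK_s he h20 (v' := (483/32:ℝ)) (by norm_num [SS, BB, abs_le]) (fun _ _ _ _ _ h162 H144 => ?_) H143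
  refine mulK_s he h162 h17 (fun _ _ _ _ _ h163 H145 => ?_) H144
  refine addcK_s he h163 (v' := (-25199/8000:ℝ)) (by norm_num [SS, BB, abs_le]) (fun _ _ _ _ _ h164 H146 => ?_) H145
  refine addK_s he h164 h51 (fun _ _ _ _ _ h165 H147 => ?_) H146
  refine mulK_s he h35 h165 (fun _ _ _ _ _ h166 H148 => ?_) H147
  refine addK_s he h161 h166 (fun _ _ _ _ _ h167 H149 => ?_) H148
  refine mulK_s he h35 h167 (fun _ _ _ _ _ h168 H150 => ?_) H149
  refine addK_s he h154 h168 (fun _ _ _ _ _ h169 H151 => ?_) H150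
  have h170 := In_cast (w := (cE a f z p q)) h169 rfl
  refine mulK_s he hx1 h170 (fun _ _ _ _ _ h171 H152 => ?_) H151
  refine smulK_s he (w := (8:ℝ)) (by norm_num) (by norm_num) (by norm_num) (by norm_num) h171 (fun _ _ _ _ _ h172 H153 => ?_) H152
  refine sqK_s he h10 (fun _ _ _ _ _ h173 H154 => ?_) H153
  refine addcK_s he h173 (v' := (1:ℝ)) (by norm_num [SS, BB, abs_le]) (fun _ _ _ _ _ h174 H155 => ?_) H154
  have h175 := In_cast h174 (add_comm _ _)
  refine invK_s he h175 (fun _ _ _ _ _ h176 H156 => ?_) H155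
  refine smulK_s he (w := (2:ℝ)) (by norm_num) (by norm_num) (by norm_num) (by norm_num) h6 (fun _ _ _ _ _ h177 H157 => ?_) H156
  refine mulK_s he h177 h176 (fun _ _ _ _ _ h178 H158 => ?_) H157
  have h179 := In_cast h178 ((div_eq_mul_inv _ _).symm)
  have h180 := In_cast (w := (Sq a f z p q)) h179 rfl
  refine mulK_s he h6 h180 (fun _ _ _ _ _ h181 H159 => ?_) H158
  have h182 := In_cast (w := (Cq a f z p q)) h181 rfl
  refine mulK_s he hx3 h180 (fun _ _ _ _ _ h183 H160 => ?_) H159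
  refine smulK_s he (w := (1/50:ℝ)) (by norm_num) (by norm_num) (by norm_num) (by norm_num) h183 (fun _ _ _ _ _ h184 H161 => ?_) H160
  refine subK_s he h182 h184 (fun _ _ _ _ _ h185 H162 => ?_) H161
  have h186 := In_cast (w := (kaBq a f z p q)) h185 rfl
  refine addcK_s he h65 (v' := (2403/500:ℝ)) (by norm_num [SS, BB, abs_le]) (fun _ _ _ _ _ h187 H163 => ?_) H162
  refine mulK_s he h187 h17 (fun _ _ _ _ _ h188 H164 => ?_) H163
  refine addcK_s he h188 (v' := (-34811/4000:ℝ)) (by norm_num [SS, BB, abs_le]) (fun _ _ _ _ _ h189 H165 => ?_) H164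
  refine mulK_s he h189 h17 (fun _ _ _ _ _ h190 H166 => ?_) H165
  refine addcK_s he h190 (v' := (13899/2000:ℝ)) (by norm_num [SS, BB, abs_le]) (fun _ _ _ _ _ h191 H167 => ?_) H166
  refine mulK_s he h191 h17 (fun _ _ _ _ _ h192 H168 => ?_) H167
  refine addcK_s he h192 (v' := (-1521/640:ℝ)) (by norm_num [SS, BB, abs_le]) (fun _ _ _ _ _ h193 H169 => ?_) H168
  refine mulK_s he h193 h17 (fun _ _ _ _ _ h194 H170 => ?_) H169
  refine addcK_s he h194 (v' := (1597/1600:ℝ)) (by norm_num [SS, BB, abs_le]) (fun _ _ _ _ _ h195 H171 => ?_) H170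
  refine mulK_s he h195 h17 (fun _ _ _ _ _ h196 H172 => ?_) H171
  refine addcK_s he h196 (v' := (-116129/64000:ℝ)) (by norm_num [SS, BB, abs_le]) (fun _ _ _ _ _ h197 H173 => ?_) H172
  refine mulK_s he h197 h17 (fun _ _ _ _ _ h198 H174 => ?_) H173
  refine addcK_s he h198 (v' := (9741/6400:ℝ)) (by norm_num [SS, BB, abs_le]) (fun _ _ _ _ _ h199 H175 => ?_) H174
  have h200 := In_cast (w := (ch a f z p q)) h199 rfl
  refine mulK_s he h83 h170 (fun _ _ _ _ _ h201 H176 => ?_) H175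
  refine addK_s he h200 h201 (fun _ _ _ _ _ h202 H177 => ?_) H176
  have h203 := In_cast (w := (cm a f z p q)) h202 rfl
  refine mulK_s he h186 h203 (fun _ _ _ _ _ h204 H178 => ?_) H177
  refine subK_s he h172 h204 (fun _ _ _ _ _ h205 H179 => ?_) H178
  refine mulK_s he hx2 h182 (fun _ _ _ _ _ h206 H180 => ?_) H179
  refine smulK_s he (w := (1/2:ℝ)) (by norm_num) (by norm_num) (by norm_num) (by norm_num) h90 (fun _ _ _ _ _ h207 H181 => ?_) H180
  have h208 := In_cast h207 (div_c (c := (2:ℝ)) (by norm_num))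
  refine negK_s he h208 (fun _ _ _ _ _ h209 H182 => ?_) H181
  refine addcK_s he h209 (v' := (1:ℝ)) (by norm_num [SS, BB, abs_le]) (fun _ _ _ _ _ h210 H183 => ?_) H182
  have h211 := In_cast h210 (neg_add_eq_sub _ _)
  refine mulK_s he h206 h211 (fun _ _ _ _ _ h212 H184 => ?_) H183
  refine smulK_s he (w := (6/25:ℝ)) (by norm_num) (by norm_num) (by norm_num) (by norm_num) hx3 (fun _ _ _ _ _ h213 H185 => ?_) H184
  refine smulK_s he (w := (29/50:ℝ)) (by norm_num) (by norm_num) (by norm_num) (by norm_num) h180 (fun _ _ _ _ _ h214 H186 => ?_) H185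
  refine addK_s he h213 h214 (fun _ _ _ _ _ h215 H187 => ?_) H186
  refine mulK_s he h90 h215 (fun _ _ _ _ _ h216 H188 => ?_) H187
  refine addK_s he h212 h216 (fun _ _ _ _ _ h217 H189 => ?_) H188
  have h218 := In_cast (w := (nuBq a f z p q)) h217 rfl
  refine addcK_s he h99 (v' := (483/32:ℝ)) (by norm_num [SS, BB, abs_le]) (fun _ _ _ _ _ h219 H190 => ?_) H189
  refine mulK_s he h219 h17 (fun _ _ _ _ _ h220 H191 => ?_) H190
  refine addcK_s he h220 (v' := (-75597/4000:ℝ)) (by norm_num [SS, BB, abs_le]) (fun _ _ _ _ _ h221 H192 => ?_) H191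
  refine mulK_s he h221 h17 (fun _ _ _ _ _ h222 H193 => ?_) H192
  refine addcK_s he h222 (v' := (4157/640:ℝ)) (by norm_num [SS, BB, abs_le]) (fun _ _ _ _ _ h223 H194 => ?_) H193
  refine mulK_s he h223 h17 (fun _ _ _ _ _ h224 H195 => ?_) H194
  refine addcK_s he h224 (v' := (17571/8000:ℝ)) (by norm_num [SS, BB, abs_le]) (fun _ _ _ _ _ h225 H196 => ?_) H195
  refine mulK_s he h225 h17 (fun _ _ _ _ _ h226 H197 => ?_) H196
  refine addcK_s he h226 (v' := (-3651/12800:ℝ)) (by norm_num [SS, BB, abs_le]) (fun _ _ _ _ _ h227 H198 => ?_) H197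
  refine mulK_s he h227 h17 (fun _ _ _ _ _ h228 H199 => ?_) H198
  refine addcK_s he h228 (v' := (-84189/64000:ℝ)) (by norm_num [SS, BB, abs_le]) (fun _ _ _ _ _ h229 H200 => ?_) H199
  refine mulK_s he h229 h17 (fun _ _ _ _ _ h230 H201 => ?_) H200
  refine addcK_s he h230 (v' := (78691/256000:ℝ)) (by norm_num [SS, BB, abs_le]) (fun _ _ _ _ _ h231 H202 => ?_) H201
  refine addcK_s he h115 (v' := (2415/32:ℝ)) (by norm_num [SS, BB, abs_le]) (fun _ _ _ _ _ h232 H203 => ?_) H202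
  refine mulK_s he h232 h17 (fun _ _ _ _ _ h233 H204 => ?_) H203
  refine addcK_s he h233 (v' := (-25199/400:ℝ)) (by norm_num [SS, BB, abs_le]) (fun _ _ _ _ _ h234 H205 => ?_) H204
  refine mulK_s he h234 h17 (fun _ _ _ _ _ h235 H206 => ?_) H205
  refine addcK_s he h235 (v' := (4157/320:ℝ)) (by norm_num [SS, BB, abs_le]) (fun _ _ _ _ _ h236 H207 => ?_) H206
  refine mulK_s he h236 h17 (fun _ _ _ _ _ h237 H208 => ?_) H207
  refine addcK_s he h237 (v' := (17571/8000:ℝ)) (by norm_num [SS, BB, abs_le]) (fun _ _ _ _ _ h238 H209 => ?_) H208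
  refine mulK_s he h238 h17 (fun _ _ _ _ _ h239 H210 => ?_) H209
  refine addcK_s he h239 (v' := (-1217/12800:ℝ)) (by norm_num [SS, BB, abs_le]) (fun _ _ _ _ _ h240 H211 => ?_) H210
  refine addcK_s he h115 (v' := (1449/32:ℝ)) (by norm_num [SS, BB, abs_le]) (fun _ _ _ _ _ h241 H212 => ?_) H211
  refine mulK_s he h241 h17 (fun _ _ _ _ _ h242 H213 => ?_) H212
  refine addcK_s he h242 (v' := (-75597/4000:ℝ)) (by norm_num [SS, BB, abs_le]) (fun _ _ _ _ _ h243 H214 => ?_) H213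
  refine mulK_s he h243 h17 (fun _ _ _ _ _ h244 H215 => ?_) H214
  refine addcK_s he h244 (v' := (4157/3200:ℝ)) (by norm_num [SS, BB, abs_le]) (fun _ _ _ _ _ h245 H216 => ?_) H215
  refine addcK_s he h99 (v' := (69/32:ℝ)) (by norm_num [SS, BB, abs_le]) (fun _ _ _ _ _ h246 H217 => ?_) H216
  refine mulK_s he h35 h246 (fun _ _ _ _ _ h247 H218 => ?_) H217
  refine addK_s he h245 h247 (fun _ _ _ _ _ h248 H219 => ?_) H218
  refine mulK_s he h35 h248 (fun _ _ _ _ _ h249 H220 => ?_) H219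
  refine addK_s he h240 h249 (fun _ _ _ _ _ h250 H221 => ?_) H220
  refine mulK_s he h35 h250 (fun _ _ _ _ _ h251 H222 => ?_) H221
  refine addK_s he h231 h251 (fun _ _ _ _ _ h252 H223 => ?_) H222
  have h253 := In_cast (w := (cO a f z p q)) h252 rfl
  refine mulK_s he h218 h253 (fun _ _ _ _ _ h254 H224 => ?_) H223
  refine smulK_s he (w := (2:ℝ)) (by norm_num) (by norm_num) (by norm_num) (by norm_num) h254 (fun _ _ _ _ _ h255 H225 => ?_) H224
  refine addK_s he h205 h255 (fun _ _ _ _ _ h256 H226 => ?_) H225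
  refine smulK_s he (w := (3/500:ℝ)) (by norm_num) (by norm_num) (by norm_num) (by norm_num) h90 (fun _ _ _ _ _ h257 H227 => ?_) H226
  refine negK_s he h257 (fun _ _ _ _ _ h258 H228 => ?_) H227
  refine addcK_s he h258 (v' := (499/500:ℝ)) (by norm_num [SS, BB, abs_le]) (fun _ _ _ _ _ h259 H229 => ?_) H228
  have h260 := In_cast h259 (neg_add_eq_sub _ _)
  refine mulK_s he h260 h180 (fun _ _ _ _ _ h261 H230 => ?_) H229
  have h262 := In_cast (w := (laBq a f z p q)) h261 rfl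
  refine smulK_s he (w := (2:ℝ)) (by norm_num) (by norm_num) (by norm_num) (by norm_num) h262 (fun _ _ _ _ _ h263 H231 => ?_) H230
  refine addK_s he h256 h263 (fun _ _ _ _ _ h264 H232 => ?_) H231
  have h265 := In_cast (w := (QB a f z p q)) h264 rfl
  refine posK_s he h265 (fun p4 H233 => ?_) H232
  refine mulK_s he h143 h265 (fun _ _ _ _ _ h266 H234 => ?_) H233
  refine smulK_s he (w := (1666/125:ℝ)) (by norm_num) (by norm_num) (by norm_num) (by norm_num) h17 (fun _ _ _ _ _ h267 H235 => ?_) H234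
  refine addcK_s he h267 (v' := (-4998/125:ℝ)) (by norm_num [SS, BB, abs_le]) (fun _ _ _ _ _ h268 H236 => ?_) H235
  refine mulK_s he h268 h17 (fun _ _ _ _ _ h269 H237 => ?_) H236
  refine addcK_s he h269 (v' := (6801/200:ℝ)) (by norm_num [SS, BB, abs_le]) (fun _ _ _ _ _ h270 H238 => ?_) H237
  refine mulK_s he h270 h17 (fun _ _ _ _ _ h271 H239 => ?_) H238
  refine addcK_s he h271 (v' := (-137/100:ℝ)) (by norm_num [SS, BB, abs_le]) (fun _ _ _ _ _ h272 H240 => ?_) H239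
  refine mulK_s he h272 h17 (fun _ _ _ _ _ h273 H241 => ?_) H240
  refine addcK_s he h273 (v' := (-13293/2000:ℝ)) (by norm_num [SS, BB, abs_le]) (fun _ _ _ _ _ h274 H242 => ?_) H241
  refine mulK_s he h274 h17 (fun _ _ _ _ _ h275 H243 => ?_) H242
  refine addcK_s he h275 (v' := (267/400:ℝ)) (by norm_num [SS, BB, abs_le]) (fun _ _ _ _ _ h276 H244 => ?_) H243
  refine mulK_s he h276 h17 (fun _ _ _ _ _ h277 H245 => ?_) H244
  refine addcK_s he h277 (v' := (317/3200:ℝ)) (by norm_num [SS, BB, abs_le]) (fun _ _ _ _ _ h278 H246 => ?_) H245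
  refine smulK_s he (w := (833/25:ℝ)) (by norm_num) (by norm_num) (by norm_num) (by norm_num) h17 (fun _ _ _ _ _ h279 H247 => ?_) H246
  refine addcK_s he h279 (v' := (-1666/25:ℝ)) (by norm_num [SS, BB, abs_le]) (fun _ _ _ _ _ h280 H248 => ?_) H247
  refine mulK_s he h280 h17 (fun _ _ _ _ _ h281 H249 => ?_) H248
  refine addcK_s he h281 (v' := (6801/200:ℝ)) (by norm_num [SS, BB, abs_le]) (fun _ _ _ _ _ h282 H250 => ?_) H249
  refine mulK_s he h282 h17 (fun _ _ _ _ _ h283 H251 => ?_) H250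
  refine addcK_s he h283 (v' := (-137/200:ℝ)) (by norm_num [SS, BB, abs_le]) (fun _ _ _ _ _ h284 H252 => ?_) H251
  refine mulK_s he h284 h17 (fun _ _ _ _ _ h285 H253 => ?_) H252
  refine addcK_s he h285 (v' := (-4431/4000:ℝ)) (by norm_num [SS, BB, abs_le]) (fun _ _ _ _ _ h286 H254 => ?_) H253
  refine addcK_s he h267 (v' := (-1666/125:ℝ)) (by norm_num [SS, BB, abs_le]) (fun _ _ _ _ _ h287 H255 => ?_) H254
  refine mulK_s he h287 h17 (fun _ _ _ _ _ h288 H256 => ?_) H255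
  refine addcK_s he h288 (v' := (2267/1000:ℝ)) (by norm_num [SS, BB, abs_le]) (fun _ _ _ _ _ h289 H257 => ?_) H256
  refine smulK_s he (w := (119/250:ℝ)) (by norm_num) (by norm_num) (by norm_num) (by norm_num) h35 (fun _ _ _ _ _ h290 H258 => ?_) H257
  refine addK_s he h289 h290 (fun _ _ _ _ _ h291 H259 => ?_) H258
  refine mulK_s he h35 h291 (fun _ _ _ _ _ h292 H260 => ?_) H259
  refine addK_s he h286 h292 (fun _ _ _ _ _ h293 H261 => ?_) H260
  refine mulK_s he h35 h293 (fun _ _ _ _ _ h294 H262 => ?_) H261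
  refine addK_s he h278 h294 (fun _ _ _ _ _ h295 H263 => ?_) H262
  have h296 := In_cast (w := (vE a f z p q)) h295 rfl
  refine smulK_s he (w := (8:ℝ)) (by norm_num) (by norm_num) (by norm_num) (by norm_num) h296 (fun _ _ _ _ _ h297 H264 => ?_) H263
  refine subK_s he h96 h218 (fun _ _ _ _ _ h298 H265 => ?_) H264
  refine smulK_s he (w := (1/2:ℝ)) (by norm_num) (by norm_num) (by norm_num) (by norm_num) h298 (fun _ _ _ _ _ h299 H266 => ?_) H265
  have h300 := In_cast h299 (div_c (c := (2:ℝ)) (by norm_num))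
  have h301 := In_cast (w := (etAB a f z p q)) h300 rfl
  refine smulK_s he (w := (952/125:ℝ)) (by norm_num) (by norm_num) (by norm_num) (by norm_num) h17 (fun _ _ _ _ _ h302 H267 => ?_) H266
  refine addcK_s he h302 (v' := (-3808/125:ℝ)) (by norm_num [SS, BB, abs_le]) (fun _ _ _ _ _ h303 H268 => ?_) H267
  refine mulK_s he h303 h17 (fun _ _ _ _ _ h304 H269 => ?_) H268
  refine addcK_s he h304 (v' := (10609/250:ℝ)) (by norm_num [SS, BB, abs_le]) (fun _ _ _ _ _ h305 H270 => ?_) H269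
  refine mulK_s he h305 h17 (fun _ _ _ _ _ h306 H271 => ?_) H270
  refine addcK_s he h306 (v' := (-5647/250:ℝ)) (by norm_num [SS, BB, abs_le]) (fun _ _ _ _ _ h307 H272 => ?_) H271
  refine mulK_s he h307 h17 (fun _ _ _ _ _ h308 H273 => ?_) H272
  refine addcK_s he h308 (v' := (304/125:ℝ)) (by norm_num [SS, BB, abs_le]) (fun _ _ _ _ _ h309 H274 => ?_) H273
  refine mulK_s he h309 h17 (fun _ _ _ _ _ h310 H275 => ?_) H274
  refine addcK_s he h310 (v' := (119/1000:ℝ)) (by norm_num [SS, BB, abs_le]) (fun _ _ _ _ _ h311 H276 => ?_) H275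
  refine mulK_s he h311 h17 (fun _ _ _ _ _ h312 H277 => ?_) H276
  refine addcK_s he h312 (v' := (1347/4000:ℝ)) (by norm_num [SS, BB, abs_le]) (fun _ _ _ _ _ h313 H278 => ?_) H277
  refine smulK_s he (w := (3332/125:ℝ)) (by norm_num) (by norm_num) (by norm_num) (by norm_num) h17 (fun _ _ _ _ _ h314 H279 => ?_) H278
  refine addcK_s he h314 (v' := (-1666/25:ℝ)) (by norm_num [SS, BB, abs_le]) (fun _ _ _ _ _ h315 H280 => ?_) H279
  refine mulK_s he h315 h17 (fun _ _ _ _ _ h316 H281 => ?_) H280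
  refine addcK_s he h316 (v' := (2267/50:ℝ)) (by norm_num [SS, BB, abs_le]) (fun _ _ _ _ _ h317 H282 => ?_) H281
  refine mulK_s he h317 h17 (fun _ _ _ _ _ h318 H283 => ?_) H282
  refine addcK_s he h318 (v' := (-137/100:ℝ)) (by norm_num [SS, BB, abs_le]) (fun _ _ _ _ _ h319 H284 => ?_) H283
  refine mulK_s he h319 h17 (fun _ _ _ _ _ h320 H285 => ?_) H284
  refine addcK_s he h320 (v' := (-4431/1000:ℝ)) (by norm_num [SS, BB, abs_le]) (fun _ _ _ _ _ h321 H286 => ?_) H285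
  refine mulK_s he h321 h17 (fun _ _ _ _ _ h322 H287 => ?_) H286
  refine addcK_s he h322 (v' := (89/400:ℝ)) (by norm_num [SS, BB, abs_le]) (fun _ _ _ _ _ h323 H288 => ?_) H287
  refine addcK_s he h314 (v' := (-4998/125:ℝ)) (by norm_num [SS, BB, abs_le]) (fun _ _ _ _ _ h324 H289 => ?_) H288
  refine mulK_s he h324 h17 (fun _ _ _ _ _ h325 H290 => ?_) H289
  refine addcK_s he h325 (v' := (6801/500:ℝ)) (by norm_num [SS, BB, abs_le]) (fun _ _ _ _ _ h326 H291 => ?_) H290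
  refine mulK_s he h326 h17 (fun _ _ _ _ _ h327 H292 => ?_) H291
  refine addcK_s he h327 (v' := (-137/1000:ℝ)) (by norm_num [SS, BB, abs_le]) (fun _ _ _ _ _ h328 H293 => ?_) H292
  refine smulK_s he (w := (476/125:ℝ)) (by norm_num) (by norm_num) (by norm_num) (by norm_num) h17 (fun _ _ _ _ _ h329 H294 => ?_) H293
  refine addcK_s he h329 (v' := (-238/125:ℝ)) (by norm_num [SS, BB, abs_le]) (fun _ _ _ _ _ h330 H295 => ?_) H294
  refine mulK_s he h35 h330 (fun _ _ _ _ _ h331 H296 => ?_) H295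
  refine addK_s he h328 h331 (fun _ _ _ _ _ h332 H297 => ?_) H296
  refine mulK_s he h35 h332 (fun _ _ _ _ _ h333 H298 => ?_) H297
  refine addK_s he h323 h333 (fun _ _ _ _ _ h334 H299 => ?_) H298
  refine mulK_s he h83 h334 (fun _ _ _ _ _ h335 H300 => ?_) H299
  refine addK_s he h313 h335 (fun _ _ _ _ _ h336 H301 => ?_) H300
  have h337 := In_cast (w := (vO a f z p q)) h336 rfl
  refine mulK_s he h301 h337 (fun _ _ _ _ _ h338 H302 => ?_) H301
  refine smulK_s he (w := (2:ℝ)) (by norm_num) (by norm_num) (by norm_num) (by norm_num) h338 (fun _ _ _ _ _ h339 H303 => ?_) H302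
  refine subK_s he h297 h339 (fun _ _ _ _ _ h340 H304 => ?_) H303
  refine addK_s he h62 h186 (fun _ _ _ _ _ h341 H305 => ?_) H304
  refine smulK_s he (w := (1/2:ℝ)) (by norm_num) (by norm_num) (by norm_num) (by norm_num) h341 (fun _ _ _ _ _ h342 H306 => ?_) H305
  have h343 := In_cast h342 (div_c (c := (2:ℝ)) (by norm_num))
  have h344 := In_cast (w := (muAB a f z p q)) h343 rfl
  refine mulK_s he hx2 h62 (fun _ _ _ _ _ h345 H307 => ?_) H306
  refine subK_s he h96 h345 (fun _ _ _ _ _ h346 H308 => ?_) H307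
  refine smulK_s he (w := (1/2:ℝ)) (by norm_num) (by norm_num) (by norm_num) (by norm_num) h346 (fun _ _ _ _ _ h347 H309 => ?_) H308
  have h348 := In_cast h347 (div_c (c := (2:ℝ)) (by norm_num))
  have h349 := In_cast (w := (alA a f z p q)) h348 rfl
  refine mulK_s he hx2 h186 (fun _ _ _ _ _ h350 H310 => ?_) H309
  refine addK_s he h218 h350 (fun _ _ _ _ _ h351 H311 => ?_) H310
  refine smulK_s he (w := (1/2:ℝ)) (by norm_num) (by norm_num) (by norm_num) (by norm_num) h351 (fun _ _ _ _ _ h352 H312 => ?_) H311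
  have h353 := In_cast h352 (div_c (c := (2:ℝ)) (by norm_num))
  have h354 := In_cast (w := (bmB a f z p q)) h353 rfl
  refine mulK_s he h349 h354 (fun _ _ _ _ _ h355 H313 => ?_) H312
  refine addK_s he h344 h355 (fun _ _ _ _ _ h356 H314 => ?_) H313
  have h357 := In_cast (w := (w0AB a f z p q)) h356 rfl
  refine mulK_s he hx2 h357 (fun _ _ _ _ _ h358 H315 => ?_) H314
  refine subK_s he h301 h358 (fun _ _ _ _ _ h359 H316 => ?_) H315
  have h360 := In_cast (w := (y0AB a f z p q)) h359 rfl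
  refine mulK_s he hx2 h360 (fun _ _ _ _ _ h361 H317 => ?_) H316
  refine addcK_s he h361 (v' := (1:ℝ)) (by norm_num [SS, BB, abs_le]) (fun _ _ _ _ _ h362 H318 => ?_) H317
  have h363 := In_cast h362 (add_comm _ _)
  refine sqrtK_s he h363 (fun _ _ _ _ _ h364 H319 => ?_) H318
  have h365 := In_cast (w := (g0AB a f z p q)) h364 rfl
  refine addcK_s he h365 (v' := (1:ℝ)) (by norm_num [SS, BB, abs_le]) (fun _ _ _ _ _ h366 H320 => ?_) H319
  have h367 := In_cast h366 (add_comm _ _)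
  refine invK_s he h367 (fun _ _ _ _ _ h368 H321 => ?_) H320
  refine mulK_s he h360 h368 (fun _ _ _ _ _ h369 H322 => ?_) H321
  have h370 := In_cast h369 ((div_eq_mul_inv _ _).symm)
  refine sqK_s he h370 (fun _ _ _ _ _ h371 H323 => ?_) H322
  refine addK_s he h357 h371 (fun _ _ _ _ _ h372 H324 => ?_) H323
  refine smulK_s he (w := (238/125:ℝ)) (by norm_num) (by norm_num) (by norm_num) (by norm_num) h17 (fun _ _ _ _ _ h373 H325 => ?_) H324
  refine addcK_s he h373 (v' := (-238/25:ℝ)) (by norm_num [SS, BB, abs_le]) (fun _ _ _ _ _ h374 H326 => ?_) H325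
  refine mulK_s he h374 h17 (fun _ _ _ _ _ h375 H327 => ?_) H326
  refine addcK_s he h375 (v' := (2264/125:ℝ)) (by norm_num [SS, BB, abs_le]) (fun _ _ _ _ _ h376 H328 => ?_) H327
  refine mulK_s he h376 h17 (fun _ _ _ _ _ h377 H329 => ?_) H328
  refine addcK_s he h377 (v' := (-407/25:ℝ)) (by norm_num [SS, BB, abs_le]) (fun _ _ _ _ _ h378 H330 => ?_) H329
  refine mulK_s he h378 h17 (fun _ _ _ _ _ h379 H331 => ?_) H330
  refine addcK_s he h379 (v' := (7321/1000:ℝ)) (by norm_num [SS, BB, abs_le]) (fun _ _ _ _ _ h380 H332 => ?_) H331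
  refine mulK_s he h380 h17 (fun _ _ _ _ _ h381 H333 => ?_) H332
  refine addcK_s he h381 (v' := (-2361/1000:ℝ)) (by norm_num [SS, BB, abs_le]) (fun _ _ _ _ _ h382 H334 => ?_) H333
  refine mulK_s he h382 h17 (fun _ _ _ _ _ h383 H335 => ?_) H334
  refine addcK_s he h383 (v' := (927/1000:ℝ)) (by norm_num [SS, BB, abs_le]) (fun _ _ _ _ _ h384 H336 => ?_) H335
  have h385 := In_cast (w := (vh a f z p q)) h384 rfl
  refine mulK_s he h80 h296 (fun _ _ _ _ _ h386 H337 => ?_) H336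
  refine smulK_s he (w := (4:ℝ)) (by norm_num) (by norm_num) (by norm_num) (by norm_num) h386 (fun _ _ _ _ _ h387 H338 => ?_) H337
  refine addK_s he h385 h387 (fun _ _ _ _ _ h388 H339 => ?_) H338
  have h389 := In_cast (w := (vm a f z p q)) h388 rfl
  refine mulK_s he hx2 h337 (fun _ _ _ _ _ h390 H340 => ?_) H339
  refine smulK_s he (w := (2:ℝ)) (by norm_num) (by norm_num) (by norm_num) (by norm_num) h390 (fun _ _ _ _ _ h391 H341 => ?_) H340
  refine subK_s he h389 h391 (fun _ _ _ _ _ h392 H342 => ?_) H341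
  have h393 := In_cast (w := (v0 a f z p q)) h392 rfl
  refine mulK_s he h372 h393 (fun _ _ _ _ _ h394 H343 => ?_) H342
  refine addK_s he h96 h345 (fun _ _ _ _ _ h395 H344 => ?_) H343
  refine smulK_s he (w := (1/2:ℝ)) (by norm_num) (by norm_num) (by norm_num) (by norm_num) h395 (fun _ _ _ _ _ h396 H345 => ?_) H344
  have h397 := In_cast h396 (div_c (c := (2:ℝ)) (by norm_num))
  have h398 := In_cast (w := (beA a f z p q)) h397 rfl
  refine subK_s he h218 h350 (fun _ _ _ _ _ h399 H346 => ?_) H345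
  refine smulK_s he (w := (1/2:ℝ)) (by norm_num) (by norm_num) (by norm_num) (by norm_num) h399 (fun _ _ _ _ _ h400 H347 => ?_) H346
  have h401 := In_cast h400 (div_c (c := (2:ℝ)) (by norm_num))
  have h402 := In_cast (w := (amB a f z p q)) h401 rfl
  refine mulK_s he h398 h402 (fun _ _ _ _ _ h403 H348 => ?_) H347
  refine addK_s he h344 h403 (fun _ _ _ _ _ h404 H349 => ?_) H348
  have h405 := In_cast (w := (w1AB a f z p q)) h404 rfl
  refine negK_s he h301 (fun _ _ _ _ _ h406 H350 => ?_) H349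
  refine mulK_s he hx2 h405 (fun _ _ _ _ _ h407 H351 => ?_) H350
  refine subK_s he h406 h407 (fun _ _ _ _ _ h408 H352 => ?_) H351
  have h409 := In_cast (w := (y1AB a f z p q)) h408 rfl
  refine mulK_s he hx2 h409 (fun _ _ _ _ _ h410 H353 => ?_) H352
  refine addcK_s he h410 (v' := (1:ℝ)) (by norm_num [SS, BB, abs_le]) (fun _ _ _ _ _ h411 H354 => ?_) H353
  have h412 := In_cast h411 (add_comm _ _)
  refine sqrtK_s he h412 (fun _ _ _ _ _ h413 H355 => ?_) H354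
  have h414 := In_cast (w := (g1AB a f z p q)) h413 rfl
  refine addcK_s he h414 (v' := (1:ℝ)) (by norm_num [SS, BB, abs_le]) (fun _ _ _ _ _ h415 H356 => ?_) H355
  have h416 := In_cast h415 (add_comm _ _)
  refine invK_s he h416 (fun _ _ _ _ _ h417 H357 => ?_) H356
  refine mulK_s he h409 h417 (fun _ _ _ _ _ h418 H358 => ?_) H357
  have h419 := In_cast h418 ((div_eq_mul_inv _ _).symm)
  refine sqK_s he h419 (fun _ _ _ _ _ h420 H359 => ?_) H358
  refine addK_s he h405 h420 (fun _ _ _ _ _ h421 H360 => ?_) H359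
  refine addK_s he h389 h391 (fun _ _ _ _ _ h422 H361 => ?_) H360
  have h423 := In_cast (w := (v1 a f z p q)) h422 rfl
  refine mulK_s he h421 h423 (fun _ _ _ _ _ h424 H362 => ?_) H361
  refine addK_s he h394 h424 (fun _ _ _ _ _ h425 H363 => ?_) H362
  refine smulK_s he (w := (1/2:ℝ)) (by norm_num) (by norm_num) (by norm_num) (by norm_num) h425 (fun _ _ _ _ _ h426 H364 => ?_) H363
  have h427 := In_cast h426 (div_c (c := (2:ℝ)) (by norm_num))
  refine subK_s he h340 h427 (fun _ _ _ _ _ h428 H365 => ?_) H364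
  have h429 := In_cast (w := (ZAB a f z p q)) h428 rfl
  refine mulK_s he hx1 h429 (fun _ _ _ _ _ h430 H366 => ?_) H365
  refine negK_s he h430 (fun _ _ _ _ _ h431 H367 => ?_) H366
  refine reluK_s he h431 (fun _ _ _ _ _ h432 H368 => ?_) H367
  refine sqK_s he h432 (fun _ _ _ _ _ h433 H369 => ?_) H368
  refine subK_s he h266 h433 (fun _ _ _ _ _ h434 H370 => ?_) H369
  exact ⟨p0, p1, p2, p3, p4, pos_s he h434 H370⟩

noncomputable def alt5 (p1 p2 z1 w1 z2 w2 z3 w3 : ℕ) : Bool :=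
  smulK 3 2 2305843009213693954 3458764513820540928 p1 1152921504606846976 1152921504606846976 1152921504606846976 0 fun c1 a1_1 a1_2 a1_3 q1 =>
  smulK 3 10 11529215046068469770 3458764513820540928 z3 1152921504606846976 1152921504606846976 (Nat.add w3 1152921504606846976) 0 fun c3 a3_1 a3_2 a3_3 q3 =>
  subK c1 a1_1 a1_2 a1_3 q1 c3 a3_1 a3_2 a3_3 q3 fun c4 a4_1 a4_2 a4_3 q4 =>
  posK c4 a4_1 a4_2 a4_3 q4 <|
  mulK c1 a1_1 a1_2 a1_3 q1 z2 1152921504606846976 (Nat.add w2 1152921504606846976) 1152921504606846976 0 fun c5 a5_1 a5_2 a5_3 q5 =>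
  negK c5 a5_1 a5_2 a5_3 q5 fun c7 a7_1 a7_2 a7_3 q7 =>
  addcK c7 a7_1 a7_2 a7_3 q7 1152922109338242253 1 fun c8 a8_1 a8_2 a8_3 q8 =>
  posK c8 a8_1 a8_2 a8_3 q8 <|
  smulK 3 4 4611686018427387908 3458764513820540928 z3 1152921504606846976 1152921504606846976 (Nat.add w3 1152921504606846976) 0 fun c10 a10_1 a10_2 a10_3 q10 =>
  smulK 3 1 1152921504606846977 3458764513820540928 p2 1152921504606846976 1152921504606846976 1152921504606846976 0 fun c11 a11_1 a11_2 a11_3 q11 =>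
  subK c10 a10_1 a10_2 a10_3 q10 c11 a11_1 a11_2 a11_3 q11 fun c13 a13_1 a13_2 a13_3 q13 =>
  posK c13 a13_1 a13_2 a13_3 q13 <|
  smulK 2 1 1152921504606846977 2305843009213693952 z1 (Nat.add w1 1152921504606846976) 1152921504606846976 1152921504606846976 0 fun c14 a14_1 a14_2 a14_3 q14 =>
  addcK c14 a14_1 a14_2 a14_3 q14 1152920954851033088 0 fun c15 a15_1 a15_2 a15_3 q15 =>
  smulK 6909 500 576460752303423488500 7965534675328705757184 c15 a15_1 a15_2 a15_3 q15 fun c18 a18_1 a18_2 a18_3 q18 =>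
  negK c18 a18_1 a18_2 a18_3 q18 fun c19 a19_1 a19_2 a19_3 q19 =>
  addcK c19 a19_1 a19_2 a19_3 q19 1152962875655987397 1 fun c21 a21_1 a21_2 a21_3 q21 =>
  mulK c21 a21_1 a21_2 a21_3 q21 c15 a15_1 a15_2 a15_3 q15 fun c22 a22_1 a22_2 a22_3 q22 =>
  addcK c22 a22_1 a22_2 a22_3 q22 1152890595273405891 1 fun c23 a23_1 a23_2 a23_3 q23 =>
  mulK c23 a23_1 a23_2 a23_3 q23 c15 a15_1 a15_2 a15_3 q15 fun c24 a24_1 a24_2 a24_3 q24 =>
  addcK c24 a24_1 a24_2 a24_3 q24 1152921009139419709 1 fun c25 a25_1 a25_2 a25_3 q25 =>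
  mulK c25 a25_1 a25_2 a25_3 q25 c15 a15_1 a15_2 a15_3 q15 fun c26 a26_1 a26_2 a26_3 q26 =>
  addcK c26 a26_1 a26_2 a26_3 q26 1152926254703237399 1 fun c27 a27_1 a27_2 a27_3 q27 =>
  mulK c27 a27_1 a27_2 a27_3 q27 c15 a15_1 a15_2 a15_3 q15 fun c28 a28_1 a28_2 a28_3 q28 =>
  addcK c28 a28_1 a28_2 a28_3 q28 1152921744832957776 1 fun c29 a29_1 a29_2 a29_3 q29 =>
  mulK c29 a29_1 a29_2 a29_3 q29 c15 a15_1 a15_2 a15_3 q15 fun c30 a30_1 a30_2 a30_3 q30 =>
  addcK c30 a30_1 a30_2 a30_3 q30 1152921017909742928 1 fun c31 a31_1 a31_2 a31_3 q31 =>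
  mulK z1 (Nat.add w1 1152921504606846976) 1152921504606846976 1152921504606846976 0 z2 1152921504606846976 (Nat.add w2 1152921504606846976) 1152921504606846976 0 fun c32 a32_1 a32_2 a32_3 q32 =>
  sqK c32 a32_1 a32_2 a32_3 q32 fun c33 a33_1 a33_2 a33_3 q33 =>
  smulK 4 1 1152921504606846977 4611686018427387904 c33 a33_1 a33_2 a33_3 q33 fun c34 a34_1 a34_2 a34_3 q34 =>
  smulK 6909 200 230584300921369395400 7965534675328705757184 c15 a15_1 a15_2 a15_3 q15 fun c36 a36_1 a36_2 a36_3 q36 =>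
  negK c36 a36_1 a36_2 a36_3 q36 fun c37 a37_1 a37_2 a37_3 q37 =>
  addcK c37 a37_1 a37_2 a37_3 q37 1152990456355414344 1 fun c39 a39_1 a39_2 a39_3 q39 =>
  mulK c39 a39_1 a39_2 a39_3 q39 c15 a15_1 a15_2 a15_3 q15 fun c40 a40_1 a40_2 a40_3 q40 =>
  addcK c40 a40_1 a40_2 a40_3 q40 1152890595273405891 1 fun c41 a41_1 a41_2 a41_3 q41 =>
  mulK c41 a41_1 a41_2 a41_3 q41 c15 a15_1 a15_2 a15_3 q15 fun c42 a42_1 a42_2 a42_3 q42 =>
  addcK c42 a42_1 a42_2 a42_3 q42 1152921256873133343 1 fun c43 a43_1 a43_2 a43_3 q43 =>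
  mulK c43 a43_1 a43_2 a43_3 q43 c15 a15_1 a15_2 a15_3 q15 fun c44 a44_1 a44_2 a44_3 q44 =>
  addcK c44 a44_1 a44_2 a44_3 q44 1152922296289578713 1 fun c45 a45_1 a45_2 a45_3 q45 =>
  addcK c19 a19_1 a19_2 a19_3 q19 1152935294956560450 1 fun c46 a46_1 a46_2 a46_3 q46 =>
  mulK c46 a46_1 a46_2 a46_3 q46 c15 a15_1 a15_2 a15_3 q15 fun c47 a47_1 a47_2 a47_3 q47 =>
  addcK c47 a47_1 a47_2 a47_3 q47 1152919443984617570 1 fun c48 a48_1 a48_2 a48_3 q48 =>
  smulK 987 2000 2305843009213693954000 1137933525046957965312 c34 a34_1 a34_2 a34_3 q34 fun c49 a49_1 a49_2 a49_3 q49 =>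
  negK c49 a49_1 a49_2 a49_3 q49 fun c50 a50_1 a50_2 a50_3 q50 =>
  addK c48 a48_1 a48_2 a48_3 q48 c50 a50_1 a50_2 a50_3 q50 fun c52 a52_1 a52_2 a52_3 q52 =>
  mulK c34 a34_1 a34_2 a34_3 q34 c52 a52_1 a52_2 a52_3 q52 fun c53 a53_1 a53_2 a53_3 q53 =>
  addK c45 a45_1 a45_2 a45_3 q45 c53 a53_1 a53_2 a53_3 q53 fun c54 a54_1 a54_2 a54_3 q54 =>
  mulK c34 a34_1 a34_2 a34_3 q34 c54 a54_1 a54_2 a54_3 q54 fun c55 a55_1 a55_2 a55_3 q55 =>
  addK c31 a31_1 a31_2 a31_3 q31 c55 a55_1 a55_2 a55_3 q55 fun c56 a56_1 a56_2 a56_3 q56 =>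
  mulK z1 (Nat.add w1 1152921504606846976) 1152921504606846976 1152921504606846976 0 c56 a56_1 a56_2 a56_3 q56 fun c58 a58_1 a58_2 a58_3 q58 =>
  smulK 8 1 1152921504606846977 9223372036854775808 c58 a58_1 a58_2 a58_3 q58 fun c59 a59_1 a59_2 a59_3 q59 =>
  sqK c5 a5_1 a5_2 a5_3 q5 fun c60 a60_1 a60_2 a60_3 q60 =>
  addcK c60 a60_1 a60_2 a60_3 q60 1152922604118474752 0 fun c61 a61_1 a61_2 a61_3 q61 =>
  invK c61 a61_1 a61_2 a61_3 q61 fun c63 a63_1 a63_2 a63_3 q63 =>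
  smulK 2 1 1152921504606846977 2305843009213693952 c1 a1_1 a1_2 a1_3 q1 fun c64 a64_1 a64_2 a64_3 q64 =>
  mulK c64 a64_1 a64_2 a64_3 q64 c63 a63_1 a63_2 a63_3 q63 fun c65 a65_1 a65_2 a65_3 q65 =>
  mulK c1 a1_1 a1_2 a1_3 q1 c65 a65_1 a65_2 a65_3 q65 fun c68 a68_1 a68_2 a68_3 q68 =>
  mulK z3 1152921504606846976 1152921504606846976 (Nat.add w3 1152921504606846976) 0 c65 a65_1 a65_2 a65_3 q65 fun c70 a70_1 a70_2 a70_3 q70 =>
  smulK 1 50 57646075230342348850 1152921504606846976 c70 a70_1 a70_2 a70_3 q70 fun c71 a71_1 a71_2 a71_3 q71 =>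
  subK c68 a68_1 a68_2 a68_3 q68 c71 a71_1 a71_2 a71_3 q71 fun c72 a72_1 a72_2 a72_3 q72 =>
  smulK 987 1000 1152921504606846977000 1137933525046957965312 c15 a15_1 a15_2 a15_3 q15 fun c74 a74_1 a74_2 a74_3 q74 =>
  negK c74 a74_1 a74_2 a74_3 q74 fun c75 a75_1 a75_2 a75_3 q75 =>
  addcK c75 a75_1 a75_2 a75_3 q75 1152925987315753419 1 fun c77 a77_1 a77_2 a77_3 q77 =>
  mulK c77 a77_1 a77_2 a77_3 q77 c15 a15_1 a15_2 a15_3 q15 fun c78 a78_1 a78_2 a78_3 q78 =>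
  addcK c78 a78_1 a78_2 a78_3 q78 1152915142007934943 1 fun c79 a79_1 a79_2 a79_3 q79 =>
  mulK c79 a79_1 a79_2 a79_3 q79 c15 a15_1 a15_2 a15_3 q15 fun c80 a80_1 a80_2 a80_3 q80 =>
  addcK c80 a80_1 a80_2 a80_3 q80 1152924586812817539 1 fun c81 a81_1 a81_2 a81_3 q81 =>
  mulK c81 a81_1 a81_2 a81_3 q81 c15 a15_1 a15_2 a15_3 q15 fun c82 a82_1 a82_2 a82_3 q82 =>
  addcK c82 a82_1 a82_2 a82_3 q82 1152921546869325169 1 fun c83 a83_1 a83_2 a83_3 q83 =>
  mulK c83 a83_1 a83_2 a83_3 q83 c15 a15_1 a15_2 a15_3 q15 fun c84 a84_1 a84_2 a84_3 q84 =>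
  addcK c84 a84_1 a84_2 a84_3 q84 1152921643626348413 1 fun c85 a85_1 a85_2 a85_3 q85 =>
  mulK c85 a85_1 a85_2 a85_3 q85 c15 a15_1 a15_2 a15_3 q15 fun c86 a86_1 a86_2 a86_3 q86 =>
  addcK c86 a86_1 a86_2 a86_3 q86 1152920461702888161 1 fun c87 a87_1 a87_2 a87_3 q87 =>
  mulK c87 a87_1 a87_2 a87_3 q87 c15 a15_1 a15_2 a15_3 q15 fun c88 a88_1 a88_2 a88_3 q88 =>
  addcK c88 a88_1 a88_2 a88_3 q88 1152922806961190207 1 fun c89 a89_1 a89_2 a89_3 q89 =>
  sqK z2 1152921504606846976 (Nat.add w2 1152921504606846976) 1152921504606846976 0 fun c91 a91_1 a91_2 a91_3 q91 =>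
  mulK z1 (Nat.add w1 1152921504606846976) 1152921504606846976 1152921504606846976 0 c91 a91_1 a91_2 a91_3 q91 fun c92 a92_1 a92_2 a92_3 q92 =>
  smulK 4 1 1152921504606846977 4611686018427387904 c92 a92_1 a92_2 a92_3 q92 fun c93 a93_1 a93_2 a93_3 q93 =>
  mulK c93 a93_1 a93_2 a93_3 q93 c56 a56_1 a56_2 a56_3 q56 fun c95 a95_1 a95_2 a95_3 q95 =>
  addK c89 a89_1 a89_2 a89_3 q89 c95 a95_1 a95_2 a95_3 q95 fun c96 a96_1 a96_2 a96_3 q96 =>
  mulK c72 a72_1 a72_2 a72_3 q72 c96 a96_1 a96_2 a96_3 q96 fun c98 a98_1 a98_2 a98_3 q98 =>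
  subK c59 a59_1 a59_2 a59_3 q59 c98 a98_1 a98_2 a98_3 q98 fun c99 a99_1 a99_2 a99_3 q99 =>
  mulK z2 1152921504606846976 (Nat.add w2 1152921504606846976) 1152921504606846976 0 c68 a68_1 a68_2 a68_3 q68 fun c100 a100_1 a100_2 a100_3 q100 =>
  mulK z3 1152921504606846976 1152921504606846976 (Nat.add w3 1152921504606846976) 0 z2 1152921504606846976 (Nat.add w2 1152921504606846976) 1152921504606846976 0 fun c101 a101_1 a101_2 a101_3 q101 =>
  smulK 1 2 2305843009213693954 1152921504606846976 c101 a101_1 a101_2 a101_3 q101 fun c103 a103_1 a103_2 a103_3 q103 =>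
  negK c103 a103_1 a103_2 a103_3 q103 fun c105 a105_1 a105_2 a105_3 q105 =>
  addcK c105 a105_1 a105_2 a105_3 q105 1152922604118474752 0 fun c106 a106_1 a106_2 a106_3 q106 =>
  mulK c100 a100_1 a100_2 a100_3 q100 c106 a106_1 a106_2 a106_3 q106 fun c108 a108_1 a108_2 a108_3 q108 =>
  smulK 6 25 28823037615171174425 6917529027641081856 z3 1152921504606846976 1152921504606846976 (Nat.add w3 1152921504606846976) 0 fun c109 a109_1 a109_2 a109_3 q109 =>
  smulK 29 50 57646075230342348850 33434723633598562304 c65 a65_1 a65_2 a65_3 q65 fun c110 a110_1 a110_2 a110_3 q110 =>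
  addK c109 a109_1 a109_2 a109_3 q109 c110 a110_1 a110_2 a110_3 q110 fun c111 a111_1 a111_2 a111_3 q111 =>
  mulK c101 a101_1 a101_2 a101_3 q101 c111 a111_1 a111_2 a111_3 q111 fun c112 a112_1 a112_2 a112_3 q112 =>
  addK c108 a108_1 a108_2 a108_3 q108 c112 a112_1 a112_2 a112_3 q112 fun c113 a113_1 a113_2 a113_3 q113 =>
  smulK 987 250 288230376151711744250 1137933525046957965312 c15 a15_1 a15_2 a15_3 q15 fun c115 a115_1 a115_2 a115_3 q115 =>
  negK c115 a115_1 a115_2 a115_3 q115 fun c116 a116_1 a116_2 a116_3 q116 =>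
  addcK c116 a116_1 a116_2 a116_3 q116 1152935294956560450 1 fun c118 a118_1 a118_2 a118_3 q118 =>
  mulK c118 a118_1 a118_2 a118_3 q118 c15 a15_1 a15_2 a15_3 q15 fun c119 a119_1 a119_2 a119_3 q119 =>
  addcK c119 a119_1 a119_2 a119_3 q119 1152909140873470542 1 fun c120 a120_1 a120_2 a120_3 q120 =>
  mulK c120 a120_1 a120_2 a120_3 q120 c15 a15_1 a15_2 a15_3 q15 fun c121 a121_1 a121_2 a121_3 q121 =>
  addcK c121 a121_1 a121_2 a121_3 q121 1152921256873133343 1 fun c122 a122_1 a122_2 a122_3 q122 =>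
  mulK c122 a122_1 a122_2 a122_3 q122 c15 a15_1 a15_2 a15_3 q15 fun c123 a123_1 a123_2 a123_3 q123 =>
  addcK c123 a123_1 a123_2 a123_3 q123 1152924671337773924 1 fun c124 a124_1 a124_2 a124_3 q124 =>
  mulK c124 a124_1 a124_2 a124_3 q124 c15 a15_1 a15_2 a15_3 q15 fun c125 a125_1 a125_2 a125_3 q125 =>
  addcK c125 a125_1 a125_2 a125_3 q125 1152921744832957776 1 fun c126 a126_1 a126_2 a126_3 q126 =>
  mulK c126 a126_1 a126_2 a126_3 q126 c15 a15_1 a15_2 a15_3 q15 fun c127 a127_1 a127_2 a127_3 q127 =>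
  addcK c127 a127_1 a127_2 a127_3 q127 1152920531212638880 1 fun c128 a128_1 a128_2 a128_3 q128 =>
  mulK c128 a128_1 a128_2 a128_3 q128 c15 a15_1 a15_2 a15_3 q15 fun c129 a129_1 a129_2 a129_3 q129 =>
  addcK c129 a129_1 a129_2 a129_3 q129 1152921895058028888 1 fun c130 a130_1 a130_2 a130_3 q130 =>
  smulK 6909 250 288230376151711744250 7965534675328705757184 c15 a15_1 a15_2 a15_3 q15 fun c131 a131_1 a131_2 a131_3 q131 =>
  negK c131 a131_1 a131_2 a131_3 q131 fun c132 a132_1 a132_2 a132_3 q132 =>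
  addcK c132 a132_1 a132_2 a132_3 q132 1152990456355414344 1 fun c134 a134_1 a134_2 a134_3 q134 =>
  mulK c134 a134_1 a134_2 a134_3 q134 c15 a15_1 a15_2 a15_3 q15 fun c135 a135_1 a135_2 a135_3 q135 =>
  addcK c135 a135_1 a135_2 a135_3 q135 1152880292162258862 1 fun c136 a136_1 a136_2 a136_3 q136 =>
  mulK c136 a136_1 a136_2 a136_3 q136 c15 a15_1 a15_2 a15_3 q15 fun c137 a137_1 a137_2 a137_3 q137 =>
  addcK c137 a137_1 a137_2 a137_3 q137 1152921009139419709 1 fun c138 a138_1 a138_2 a138_3 q138 =>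
  mulK c138 a138_1 a138_2 a138_3 q138 c15 a15_1 a15_2 a15_3 q15 fun c139 a139_1 a139_2 a139_3 q139 =>
  addcK c139 a139_1 a139_2 a139_3 q139 1152924671337773924 1 fun c140 a140_1 a140_2 a140_3 q140 =>
  mulK c140 a140_1 a140_2 a140_3 q140 c15 a15_1 a15_2 a15_3 q15 fun c141 a141_1 a141_2 a141_3 q141 =>
  addcK c141 a141_1 a141_2 a141_3 q141 1152921584682217243 1 fun c142 a142_1 a142_2 a142_3 q142 =>
  addcK c132 a132_1 a132_2 a132_3 q132 1152962875655987397 1 fun c143 a143_1 a143_2 a143_3 q143 =>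
  mulK c143 a143_1 a143_2 a143_3 q143 c15 a15_1 a15_2 a15_3 q15 fun c144 a144_1 a144_2 a144_3 q144 =>
  addcK c144 a144_1 a144_2 a144_3 q144 1152909140873470542 1 fun c145 a145_1 a145_2 a145_3 q145 =>
  mulK c145 a145_1 a145_2 a145_3 q145 c15 a15_1 a15_2 a15_3 q15 fun c146 a146_1 a146_2 a146_3 q146 =>
  addcK c146 a146_1 a146_2 a146_3 q146 1152921455060104249 1 fun c147 a147_1 a147_2 a147_3 q147 =>
  addcK c116 a116_1 a116_2 a116_3 q116 1152923474656806044 1 fun c148 a148_1 a148_2 a148_3 q148 =>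
  mulK c34 a34_1 a34_2 a34_3 q34 c148 a148_1 a148_2 a148_3 q148 fun c149 a149_1 a149_2 a149_3 q149 =>
  addK c147 a147_1 a147_2 a147_3 q147 c149 a149_1 a149_2 a149_3 q149 fun c150 a150_1 a150_2 a150_3 q150 =>
  mulK c34 a34_1 a34_2 a34_3 q34 c150 a150_1 a150_2 a150_3 q150 fun c151 a151_1 a151_2 a151_3 q151 =>
  addK c142 a142_1 a142_2 a142_3 q142 c151 a151_1 a151_2 a151_3 q151 fun c152 a152_1 a152_2 a152_3 q152 =>
  mulK c34 a34_1 a34_2 a34_3 q34 c152 a152_1 a152_2 a152_3 q152 fun c153 a153_1 a153_2 a153_3 q153 =>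
  addK c130 a130_1 a130_2 a130_3 q130 c153 a153_1 a153_2 a153_3 q153 fun c154 a154_1 a154_2 a154_3 q154 =>
  mulK c113 a113_1 a113_2 a113_3 q113 c154 a154_1 a154_2 a154_3 q154 fun c156 a156_1 a156_2 a156_3 q156 =>
  smulK 2 1 1152921504606846977 2305843009213693952 c156 a156_1 a156_2 a156_3 q156 fun c157 a157_1 a157_2 a157_3 q157 =>
  subK c99 a99_1 a99_2 a99_3 q99 c157 a157_1 a157_2 a157_3 q157 fun c158 a158_1 a158_2 a158_3 q158 =>
  smulK 3 500 576460752303423488500 3458764513820540928 c101 a101_1 a101_2 a101_3 q101 fun c159 a159_1 a159_2 a159_3 q159 =>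
  negK c159 a159_1 a159_2 a159_3 q159 fun c160 a160_1 a160_2 a160_3 q160 =>
  addcK c160 a160_1 a160_2 a160_3 q160 1152922601919451496 1 fun c161 a161_1 a161_2 a161_3 q161 =>
  mulK c161 a161_1 a161_2 a161_3 q161 c65 a65_1 a65_2 a65_3 q65 fun c163 a163_1 a163_2 a163_3 q163 =>
  smulK 2 1 1152921504606846977 2305843009213693952 c163 a163_1 a163_2 a163_3 q163 fun c165 a165_1 a165_2 a165_3 q165 =>
  addK c158 a158_1 a158_2 a158_3 q158 c165 a165_1 a165_2 a165_3 q165 fun c166 a166_1 a166_2 a166_3 q166 =>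
  posK c166 a166_1 a166_2 a166_3 q166 <|
  addcK c19 a19_1 a19_2 a19_3 q19 1152971291867742208 0 fun c168 a168_1 a168_2 a168_3 q168 =>
  mulK c168 a168_1 a168_2 a168_3 q168 c15 a15_1 a15_2 a15_3 q15 fun c169 a169_1 a169_2 a169_3 q169 =>
  addcK c169 a169_1 a169_2 a169_3 q169 1152869554744018862 1 fun c170 a170_1 a170_2 a170_3 q170 =>
  mulK c170 a170_1 a170_2 a170_3 q170 c15 a15_1 a15_2 a15_3 q15 fun c171 a171_1 a171_2 a171_3 q171 =>
  addcK c171 a171_1 a171_2 a171_3 q171 1152935787950086554 1 fun c172 a172_1 a172_2 a172_3 q172 =>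
  mulK c172 a172_1 a172_2 a172_3 q172 c15 a15_1 a15_2 a15_3 q15 fun c173 a173_1 a173_2 a173_3 q173 =>
  addcK c173 a173_1 a173_2 a173_3 q173 1152925127016624161 1 fun c174 a174_1 a174_2 a174_3 q174 =>
  mulK c174 a174_1 a174_2 a174_3 q174 c15 a15_1 a15_2 a15_3 q15 fun c175 a175_1 a175_2 a175_3 q175 =>
  addcK c175 a175_1 a175_2 a175_3 q175 1152921190988335022 1 fun c176 a176_1 a176_2 a176_3 q176 =>
  mulK c176 a176_1 a176_2 a176_3 q176 c15 a15_1 a15_2 a15_3 q15 fun c177 a177_1 a177_2 a177_3 q177 =>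
  addcK c177 a177_1 a177_2 a177_3 q177 1152920781428843610 1 fun c178 a178_1 a178_2 a178_3 q178 =>
  addcK c37 a37_1 a37_2 a37_3 q37 1153004483375005696 0 fun c179 a179_1 a179_2 a179_3 q179 =>
  mulK c179 a179_1 a179_2 a179_3 q179 c15 a15_1 a15_2 a15_3 q15 fun c180 a180_1 a180_2 a180_3 q180 =>
  addcK c180 a180_1 a180_2 a180_3 q180 1152869554744018862 1 fun c181 a181_1 a181_2 a181_3 q181 =>
  mulK c181 a181_1 a181_2 a181_3 q181 c15 a15_1 a15_2 a15_3 q15 fun c182 a182_1 a182_2 a182_3 q182 =>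
  addcK c182 a182_1 a182_2 a182_3 q182 1152928646278466765 1 fun c183 a183_1 a183_2 a183_3 q183 =>
  mulK c183 a183_1 a183_2 a183_3 q183 c15 a15_1 a15_2 a15_3 q15 fun c184 a184_1 a184_2 a184_3 q184 =>
  addcK c184 a184_1 a184_2 a184_3 q184 1152922108341809840 1 fun c185 a185_1 a185_2 a185_3 q185 =>
  addcK c19 a19_1 a19_2 a19_3 q19 1152938100360478720 0 fun c186 a186_1 a186_2 a186_3 q186 =>
  mulK c186 a186_1 a186_2 a186_3 q186 c15 a15_1 a15_2 a15_3 q15 fun c187 a187_1 a187_2 a187_3 q187 =>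
  addcK c187 a187_1 a187_2 a187_3 q187 1152918041282658435 1 fun c188 a188_1 a188_2 a188_3 q188 =>
  addK c188 a188_1 a188_2 a188_3 q188 c50 a50_1 a50_2 a50_3 q50 fun c189 a189_1 a189_2 a189_3 q189 =>
  mulK c34 a34_1 a34_2 a34_3 q34 c189 a189_1 a189_2 a189_3 q189 fun c190 a190_1 a190_2 a190_3 q190 =>
  addK c185 a185_1 a185_2 a185_3 q185 c190 a190_1 a190_2 a190_3 q190 fun c191 a191_1 a191_2 a191_3 q191 =>
  mulK c34 a34_1 a34_2 a34_3 q34 c191 a191_1 a191_2 a191_3 q191 fun c192 a192_1 a192_2 a192_3 q192 =>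
  addK c178 a178_1 a178_2 a178_3 q178 c192 a192_1 a192_2 a192_3 q192 fun c193 a193_1 a193_2 a193_3 q193 =>
  mulK z1 (Nat.add w1 1152921504606846976) 1152921504606846976 1152921504606846976 0 c193 a193_1 a193_2 a193_3 q193 fun c195 a195_1 a195_2 a195_3 q195 =>
  smulK 8 1 1152921504606846977 9223372036854775808 c195 a195_1 a195_2 a195_3 q195 fun c196 a196_1 a196_2 a196_3 q196 =>
  sqK c11 a11_1 a11_2 a11_3 q11 fun c197 a197_1 a197_2 a197_3 q197 =>
  smulK 99 200 230584300921369395400 114139228956077850624 c197 a197_1 a197_2 a197_3 q197 fun c198 a198_1 a198_2 a198_3 q198 =>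
  addcK c75 a75_1 a75_2 a75_3 q75 1152926788859730067 1 fun c200 a200_1 a200_2 a200_3 q200 =>
  mulK c200 a200_1 a200_2 a200_3 q200 c15 a15_1 a15_2 a15_3 q15 fun c201 a201_1 a201_2 a201_3 q201 =>
  addcK c201 a201_1 a201_2 a201_3 q201 1152911935832028348 1 fun c202 a202_1 a202_2 a202_3 q202 =>
  mulK c202 a202_1 a202_2 a202_3 q202 c15 a15_1 a15_2 a15_3 q15 fun c203 a203_1 a203_2 a203_3 q203 =>
  addcK c203 a203_1 a203_2 a203_3 q203 1152929145662904205 1 fun c204 a204_1 a204_2 a204_3 q204 =>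
  mulK c204 a204_1 a204_2 a204_3 q204 c15 a15_1 a15_2 a15_3 q15 fun c205 a205_1 a205_2 a205_3 q205 =>
  addcK c205 a205_1 a205_2 a205_3 q205 1152918891548744090 1 fun c206 a206_1 a206_2 a206_3 q206 =>
  mulK c206 a206_1 a206_2 a206_3 q206 c15 a15_1 a15_2 a15_3 q15 fun c207 a207_1 a207_2 a207_3 q207 =>
  addcK c207 a207_1 a207_2 a207_3 q207 1152922602056890450 1 fun c208 a208_1 a208_2 a208_3 q208 =>
  mulK c208 a208_1 a208_2 a208_3 q208 c15 a15_1 a15_2 a15_3 q15 fun c209 a209_1 a209_2 a209_3 q209 =>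
  addcK c209 a209_1 a209_2 a209_3 q209 1152919509525818507 1 fun c210 a210_1 a210_2 a210_3 q210 =>
  mulK c210 a210_1 a210_2 a210_3 q210 c15 a15_1 a15_2 a15_3 q15 fun c211 a211_1 a211_2 a211_3 q211 =>
  addcK c211 a211_1 a211_2 a211_3 q211 1152923178097904189 1 fun c212 a212_1 a212_2 a212_3 q212 =>
  mulK c93 a93_1 a93_2 a93_3 q93 c193 a193_1 a193_2 a193_3 q193 fun c214 a214_1 a214_2 a214_3 q214 =>
  addK c212 a212_1 a212_2 a212_3 q212 c214 a214_1 a214_2 a214_3 q214 fun c215 a215_1 a215_2 a215_3 q215 =>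
  mulK c198 a198_1 a198_2 a198_3 q198 c215 a215_1 a215_2 a215_3 q215 fun c217 a217_1 a217_2 a217_3 q217 =>
  subK c196 a196_1 a196_2 a196_3 q196 c217 a217_1 a217_2 a217_3 q217 fun c218 a218_1 a218_2 a218_3 q218 =>
  mulK c101 a101_1 a101_2 a101_3 q101 c11 a11_1 a11_2 a11_3 q11 fun c219 a219_1 a219_2 a219_3 q219 =>
  smulK 4 3 3458764513820540931 4611686018427387904 c219 a219_1 a219_2 a219_3 q219 fun c220 a220_1 a220_2 a220_3 q220 =>
  mulK z2 1152921504606846976 (Nat.add w2 1152921504606846976) 1152921504606846976 0 c197 a197_1 a197_2 a197_3 q197 fun c221 a221_1 a221_2 a221_3 q221 =>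
  smulK 21 200 230584300921369395400 24211351596743786496 c221 a221_1 a221_2 a221_3 q221 fun c222 a222_1 a222_2 a222_3 q222 =>
  subK c220 a220_1 a220_2 a220_3 q220 c222 a222_1 a222_2 a222_3 q222 fun c223 a223_1 a223_2 a223_3 q223 =>
  addcK c116 a116_1 a116_2 a116_3 q116 1152938100360478720 0 fun c225 a225_1 a225_2 a225_3 q225 =>
  mulK c225 a225_1 a225_2 a225_3 q225 c15 a15_1 a15_2 a15_3 q15 fun c226 a226_1 a226_2 a226_3 q226 =>
  addcK c226 a226_1 a226_2 a226_3 q226 1152900724661715730 1 fun c227 a227_1 a227_2 a227_3 q227 =>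
  mulK c227 a227_1 a227_2 a227_3 q227 c15 a15_1 a15_2 a15_3 q15 fun c228 a228_1 a228_2 a228_3 q228 =>
  addcK c228 a228_1 a228_2 a228_3 q228 1152928646278466765 1 fun c229 a229_1 a229_2 a229_3 q229 =>
  mulK c229 a229_1 a229_2 a229_3 q229 c15 a15_1 a15_2 a15_3 q15 fun c230 a230_1 a230_2 a230_3 q230 =>
  addcK c230 a230_1 a230_2 a230_3 q230 1152923919546698433 1 fun c231 a231_1 a231_2 a231_3 q231 =>
  mulK c231 a231_1 a231_2 a231_3 q231 c15 a15_1 a15_2 a15_3 q15 fun c232 a232_1 a232_2 a232_3 q232 =>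
  addcK c232 a232_1 a232_2 a232_3 q232 1152921190988335022 1 fun c233 a233_1 a233_2 a233_3 q233 =>
  mulK c233 a233_1 a233_2 a233_3 q233 c15 a15_1 a15_2 a15_3 q15 fun c234 a234_1 a234_2 a234_3 q234 =>
  addcK c234 a234_1 a234_2 a234_3 q234 1152920058250840244 1 fun c235 a235_1 a235_2 a235_3 q235 =>
  mulK c235 a235_1 a235_2 a235_3 q235 c15 a15_1 a15_2 a15_3 q15 fun c236 a236_1 a236_2 a236_3 q236 =>
  addcK c236 a236_1 a236_2 a236_3 q236 1152921842582118466 1 fun c237 a237_1 a237_2 a237_3 q237 =>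
  addcK c132 a132_1 a132_2 a132_3 q132 1153004483375005696 0 fun c238 a238_1 a238_2 a238_3 q238 =>
  mulK c238 a238_1 a238_2 a238_3 q238 c15 a15_1 a15_2 a15_3 q15 fun c239 a239_1 a239_2 a239_3 q239 =>
  addcK c239 a239_1 a239_2 a239_3 q239 1152852238123076157 1 fun c240 a240_1 a240_2 a240_3 q240 =>
  mulK c240 a240_1 a240_2 a240_3 q240 c15 a15_1 a15_2 a15_3 q15 fun c241 a241_1 a241_2 a241_3 q241 =>
  addcK c241 a241_1 a241_2 a241_3 q241 1152935787950086554 1 fun c242 a242_1 a242_2 a242_3 q242 =>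
  mulK c242 a242_1 a242_2 a242_3 q242 c15 a15_1 a15_2 a15_3 q15 fun c243 a243_1 a243_2 a243_3 q243 =>
  addcK c243 a243_1 a243_2 a243_3 q243 1152923919546698433 1 fun c244 a244_1 a244_2 a244_3 q244 =>
  mulK c244 a244_1 a244_2 a244_3 q244 c15 a15_1 a15_2 a15_3 q15 fun c245 a245_1 a245_2 a245_3 q245 =>
  addcK c245 a245_1 a245_2 a245_3 q245 1152921400067342991 1 fun c246 a246_1 a246_2 a246_3 q246 =>
  addcK c132 a132_1 a132_2 a132_3 q132 1152971291867742208 0 fun c247 a247_1 a247_2 a247_3 q247 =>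
  mulK c247 a247_1 a247_2 a247_3 q247 c15 a15_1 a15_2 a15_3 q15 fun c248 a248_1 a248_2 a248_3 q248 =>
  addcK c248 a248_1 a248_2 a248_3 q248 1152900724661715730 1 fun c249 a249_1 a249_2 a249_3 q249 =>
  mulK c249 a249_1 a249_2 a249_3 q249 c15 a15_1 a15_2 a15_3 q15 fun c250 a250_1 a250_2 a250_3 q250 =>
  addcK c250 a250_1 a250_2 a250_3 q250 1152922932941170934 1 fun c251 a251_1 a251_2 a251_3 q251 =>
  addcK c116 a116_1 a116_2 a116_3 q116 1152923875428794368 0 fun c252 a252_1 a252_2 a252_3 q252 =>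
  mulK c34 a34_1 a34_2 a34_3 q34 c252 a252_1 a252_2 a252_3 q252 fun c253 a253_1 a253_2 a253_3 q253 =>
  addK c251 a251_1 a251_2 a251_3 q251 c253 a253_1 a253_2 a253_3 q253 fun c254 a254_1 a254_2 a254_3 q254 =>
  mulK c34 a34_1 a34_2 a34_3 q34 c254 a254_1 a254_2 a254_3 q254 fun c255 a255_1 a255_2 a255_3 q255 =>
  addK c246 a246_1 a246_2 a246_3 q246 c255 a255_1 a255_2 a255_3 q255 fun c256 a256_1 a256_2 a256_3 q256 =>
  mulK c34 a34_1 a34_2 a34_3 q34 c256 a256_1 a256_2 a256_3 q256 fun c257 a257_1 a257_2 a257_3 q257 =>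
  addK c237 a237_1 a237_2 a237_3 q237 c257 a257_1 a257_2 a257_3 q257 fun c258 a258_1 a258_2 a258_3 q258 =>
  mulK c223 a223_1 a223_2 a223_3 q223 c258 a258_1 a258_2 a258_3 q258 fun c260 a260_1 a260_2 a260_3 q260 =>
  smulK 2 1 1152921504606846977 2305843009213693952 c260 a260_1 a260_2 a260_3 q260 fun c261 a261_1 a261_2 a261_3 q261 =>
  addK c218 a218_1 a218_2 a218_3 q218 c261 a261_1 a261_2 a261_3 q261 fun c262 a262_1 a262_2 a262_3 q262 =>
  smulK 2 1 1152921504606846977 2305843009213693952 c11 a11_1 a11_2 a11_3 q11 fun c263 a263_1 a263_2 a263_3 q263 =>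
  addK c262 a262_1 a262_2 a262_3 q262 c263 a263_1 a263_2 a263_3 q263 fun c264 a264_1 a264_2 a264_3 q264 =>
  posK c264 a264_1 a264_2 a264_3 q264 <|
  mulK c166 a166_1 a166_2 a166_3 q166 c264 a264_1 a264_2 a264_3 q264 fun c266 a266_1 a266_2 a266_3 q266 =>
  smulK 1666 125 144115188075855872125 1920767226675007062016 c15 a15_1 a15_2 a15_3 q15 fun c267 a267_1 a267_2 a267_3 q267 =>
  addcK c267 a267_1 a267_2 a267_3 q267 1152877541733921980 1 fun c268 a268_1 a268_2 a268_3 q268 =>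
  mulK c268 a268_1 a268_2 a268_3 q268 c15 a15_1 a15_2 a15_3 q15 fun c269 a269_1 a269_2 a269_3 q269 =>
  addcK c269 a269_1 a269_2 a269_3 q269 1152958893499749499 1 fun c270 a270_1 a270_2 a270_3 q270 =>
  mulK c270 a270_1 a270_2 a270_3 q270 c15 a15_1 a15_2 a15_3 q15 fun c271 a271_1 a271_2 a271_3 q271 =>
  addcK c271 a271_1 a271_2 a271_3 q271 1152919998275916923 1 fun c272 a272_1 a272_2 a272_3 q272 =>
  mulK c272 a272_1 a272_2 a272_3 q272 c15 a15_1 a15_2 a15_3 q15 fun c273 a273_1 a273_2 a273_3 q273 =>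
  addcK c273 a273_1 a273_2 a273_3 q273 1152914196702812963 1 fun c274 a274_1 a274_2 a274_3 q274 =>
  mulK c274 a274_1 a274_2 a274_3 q274 c15 a15_1 a15_2 a15_3 q15 fun c275 a275_1 a275_2 a275_3 q275 =>
  addcK c275 a275_1 a275_2 a275_3 q275 1152922238530858516 1 fun c276 a276_1 a276_2 a276_3 q276 =>
  mulK c276 a276_1 a276_2 a276_3 q276 c15 a15_1 a15_2 a15_3 q15 fun c277 a277_1 a277_2 a277_3 q277 =>
  addcK c277 a277_1 a277_2 a277_3 q277 1152921613527217603 1 fun c278 a278_1 a278_2 a278_3 q278 =>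
  smulK 833 25 28823037615171174425 960383613337503531008 c15 a15_1 a15_2 a15_3 q15 fun c279 a279_1 a279_2 a279_3 q279 =>
  addcK c279 a279_1 a279_2 a279_3 q279 1152848233151971983 1 fun c280 a280_1 a280_2 a280_3 q280 =>
  mulK c280 a280_1 a280_2 a280_3 q280 c15 a15_1 a15_2 a15_3 q15 fun c281 a281_1 a281_2 a281_3 q281 =>
  addcK c281 a281_1 a281_2 a281_3 q281 1152958893499749499 1 fun c282 a282_1 a282_2 a282_3 q282 =>
  mulK c282 a282_1 a282_2 a282_3 q282 c15 a15_1 a15_2 a15_3 q15 fun c283 a283_1 a283_2 a283_3 q283 =>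
  addcK c283 a283_1 a283_2 a283_3 q283 1152920751441381949 1 fun c284 a284_1 a284_2 a284_3 q284 =>
  mulK c284 a284_1 a284_2 a284_3 q284 c15 a15_1 a15_2 a15_3 q15 fun c285 a285_1 a285_2 a285_3 q285 =>
  addcK c285 a285_1 a285_2 a285_3 q285 1152920286622841307 1 fun c286 a286_1 a286_2 a286_3 q286 =>
  addcK c267 a267_1 a267_2 a267_3 q267 1152906850315871977 1 fun c287 a287_1 a287_2 a287_3 q287 =>
  mulK c287 a287_1 a287_2 a287_3 q287 c15 a15_1 a15_2 a15_3 q15 fun c288 a288_1 a288_2 a288_3 q288 =>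
  addcK c288 a288_1 a288_2 a288_3 q288 1152923997199707144 1 fun c289 a289_1 a289_2 a289_3 q289 =>
  smulK 119 250 288230376151711744250 137197659048214790144 c34 a34_1 a34_2 a34_3 q34 fun c290 a290_1 a290_2 a290_3 q290 =>
  addK c289 a289_1 a289_2 a289_3 q289 c290 a290_1 a290_2 a290_3 q290 fun c291 a291_1 a291_2 a291_3 q291 =>
  mulK c34 a34_1 a34_2 a34_3 q34 c291 a291_1 a291_2 a291_3 q291 fun c292 a292_1 a292_2 a292_3 q292 =>
  addK c286 a286_1 a286_2 a286_3 q286 c292 a292_1 a292_2 a292_3 q292 fun c293 a293_1 a293_2 a293_3 q293 =>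
  mulK c34 a34_1 a34_2 a34_3 q34 c293 a293_1 a293_2 a293_3 q293 fun c294 a294_1 a294_2 a294_3 q294 =>
  addK c278 a278_1 a278_2 a278_3 q278 c294 a294_1 a294_2 a294_3 q294 fun c295 a295_1 a295_2 a295_3 q295 =>
  smulK 8 1 1152921504606846977 9223372036854775808 c295 a295_1 a295_2 a295_3 q295 fun c297 a297_1 a297_2 a297_3 q297 =>
  subK c113 a113_1 a113_2 a113_3 q113 c223 a223_1 a223_2 a223_3 q223 fun c298 a298_1 a298_2 a298_3 q298 =>
  smulK 1 2 2305843009213693954 1152921504606846976 c298 a298_1 a298_2 a298_3 q298 fun c299 a299_1 a299_2 a299_3 q299 =>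
  smulK 952 125 144115188075855872125 1097581272385718321152 c15 a15_1 a15_2 a15_3 q15 fun c302 a302_1 a302_2 a302_3 q302 =>
  addcK c302 a302_1 a302_2 a302_3 q302 1152888009084618408 1 fun c303 a303_1 a303_2 a303_3 q303 =>
  mulK c303 a303_1 a303_2 a303_3 q303 c15 a15_1 a15_2 a15_3 q15 fun c304 a304_1 a304_2 a304_3 q304 =>
  addcK c304 a304_1 a304_2 a304_3 q304 1152968163482283278 1 fun c305 a305_1 a305_2 a305_3 q305 =>
  mulK c305 a305_1 a305_2 a305_3 q305 c15 a15_1 a15_2 a15_3 q15 fun c306 a306_1 a306_2 a306_3 q306 =>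
  addcK c306 a306_1 a306_2 a306_3 q306 1152896668838198772 1 fun c307 a307_1 a307_2 a307_3 q307 =>
  mulK c307 a307_1 a307_2 a307_3 q307 c15 a15_1 a15_2 a15_3 q15 fun c308 a308_1 a308_2 a308_3 q308 =>
  addcK c308 a308_1 a308_2 a308_3 q308 1152924178619125727 1 fun c309 a309_1 a309_2 a309_3 q309 =>
  mulK c309 a309_1 a309_2 a309_3 q309 c15 a15_1 a15_2 a15_3 q15 fun c310 a310_1 a310_2 a310_3 q310 =>
  addcK c310 a310_1 a310_2 a310_3 q310 1152921635448730681 1 fun c311 a311_1 a311_2 a311_3 q311 =>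
  mulK c311 a311_1 a311_2 a311_3 q311 c15 a15_1 a15_2 a15_3 q15 fun c312 a312_1 a312_2 a312_3 q312 =>
  addcK c312 a312_1 a312_2 a312_3 q312 1152921874867387630 1 fun c313 a313_1 a313_2 a313_3 q313 =>
  smulK 3332 125 144115188075855872125 3841534453350014124032 c15 a15_1 a15_2 a15_3 q15 fun c314 a314_1 a314_2 a314_3 q314 =>
  addcK c314 a314_1 a314_2 a314_3 q314 1152848233151971983 1 fun c315 a315_1 a315_2 a315_3 q315 =>
  mulK c315 a315_1 a315_2 a315_3 q315 c15 a15_1 a15_2 a15_3 q15 fun c316 a316_1 a316_2 a316_3 q316 =>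
  addcK c316 a316_1 a316_2 a316_3 q316 1152971356464050340 1 fun c317 a317_1 a317_2 a317_3 q317 =>
  mulK c317 a317_1 a317_2 a317_3 q317 c15 a15_1 a15_2 a15_3 q15 fun c318 a318_1 a318_2 a318_3 q318 =>
  addcK c318 a318_1 a318_2 a318_3 q318 1152919998275916923 1 fun c319 a319_1 a319_2 a319_3 q319 =>
  mulK c319 a319_1 a319_2 a319_3 q319 c15 a15_1 a15_2 a15_3 q15 fun c320 a320_1 a320_2 a320_3 q320 =>
  addcK c320 a320_1 a320_2 a320_3 q320 1152916632670824301 1 fun c321 a321_1 a321_2 a321_3 q321 =>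
  mulK c321 a321_1 a321_2 a321_3 q321 c15 a15_1 a15_2 a15_3 q15 fun c322 a322_1 a322_2 a322_3 q322 =>
  addcK c322 a322_1 a322_2 a322_3 q322 1152921749248184156 1 fun c323 a323_1 a323_2 a323_3 q323 =>
  addcK c314 a314_1 a314_2 a314_3 q314 1152877541733921980 1 fun c324 a324_1 a324_2 a324_3 q324 =>
  mulK c324 a324_1 a324_2 a324_3 q324 c15 a15_1 a15_2 a15_3 q15 fun c325 a325_1 a325_2 a325_3 q325 =>
  addcK c325 a325_1 a325_2 a325_3 q325 1152936460164007985 1 fun c326 a326_1 a326_2 a326_3 q326 =>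
  mulK c326 a326_1 a326_2 a326_3 q326 c15 a15_1 a15_2 a15_3 q15 fun c327 a327_1 a327_2 a327_3 q327 =>
  addcK c327 a327_1 a327_2 a327_3 q327 1152921353973753971 1 fun c328 a328_1 a328_2 a328_3 q328 =>
  smulK 476 125 144115188075855872125 548790636192859160576 c15 a15_1 a15_2 a15_3 q15 fun c329 a329_1 a329_2 a329_3 q329 =>
  addcK c329 a329_1 a329_2 a329_3 q329 1152919411136707690 1 fun c330 a330_1 a330_2 a330_3 q330 =>
  mulK c34 a34_1 a34_2 a34_3 q34 c330 a330_1 a330_2 a330_3 q330 fun c331 a331_1 a331_2 a331_3 q331 =>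
  addK c328 a328_1 a328_2 a328_3 q328 c331 a331_1 a331_2 a331_3 q331 fun c332 a332_1 a332_2 a332_3 q332 =>
  mulK c34 a34_1 a34_2 a34_3 q34 c332 a332_1 a332_2 a332_3 q332 fun c333 a333_1 a333_2 a333_3 q333 =>
  addK c323 a323_1 a323_2 a323_3 q323 c333 a333_1 a333_2 a333_3 q333 fun c334 a334_1 a334_2 a334_3 q334 =>
  mulK c93 a93_1 a93_2 a93_3 q93 c334 a334_1 a334_2 a334_3 q334 fun c335 a335_1 a335_2 a335_3 q335 =>
  addK c313 a313_1 a313_2 a313_3 q313 c335 a335_1 a335_2 a335_3 q335 fun c336 a336_1 a336_2 a336_3 q336 =>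
  mulK c299 a299_1 a299_2 a299_3 q299 c336 a336_1 a336_2 a336_3 q336 fun c338 a338_1 a338_2 a338_3 q338 =>
  smulK 2 1 1152921504606846977 2305843009213693952 c338 a338_1 a338_2 a338_3 q338 fun c339 a339_1 a339_2 a339_3 q339 =>
  subK c297 a297_1 a297_2 a297_3 q297 c339 a339_1 a339_2 a339_3 q339 fun c340 a340_1 a340_2 a340_3 q340 =>
  addK c72 a72_1 a72_2 a72_3 q72 c198 a198_1 a198_2 a198_3 q198 fun c341 a341_1 a341_2 a341_3 q341 =>
  smulK 1 2 2305843009213693954 1152921504606846976 c341 a341_1 a341_2 a341_3 q341 fun c342 a342_1 a342_2 a342_3 q342 =>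
  mulK z2 1152921504606846976 (Nat.add w2 1152921504606846976) 1152921504606846976 0 c72 a72_1 a72_2 a72_3 q72 fun c345 a345_1 a345_2 a345_3 q345 =>
  subK c113 a113_1 a113_2 a113_3 q113 c345 a345_1 a345_2 a345_3 q345 fun c346 a346_1 a346_2 a346_3 q346 =>
  smulK 1 2 2305843009213693954 1152921504606846976 c346 a346_1 a346_2 a346_3 q346 fun c347 a347_1 a347_2 a347_3 q347 =>
  mulK z2 1152921504606846976 (Nat.add w2 1152921504606846976) 1152921504606846976 0 c198 a198_1 a198_2 a198_3 q198 fun c350 a350_1 a350_2 a350_3 q350 =>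
  addK c223 a223_1 a223_2 a223_3 q223 c350 a350_1 a350_2 a350_3 q350 fun c351 a351_1 a351_2 a351_3 q351 =>
  smulK 1 2 2305843009213693954 1152921504606846976 c351 a351_1 a351_2 a351_3 q351 fun c352 a352_1 a352_2 a352_3 q352 =>
  mulK c347 a347_1 a347_2 a347_3 q347 c352 a352_1 a352_2 a352_3 q352 fun c355 a355_1 a355_2 a355_3 q355 =>
  addK c342 a342_1 a342_2 a342_3 q342 c355 a355_1 a355_2 a355_3 q355 fun c356 a356_1 a356_2 a356_3 q356 =>
  mulK z2 1152921504606846976 (Nat.add w2 1152921504606846976) 1152921504606846976 0 c356 a356_1 a356_2 a356_3 q356 fun c358 a358_1 a358_2 a358_3 q358 =>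
  subK c299 a299_1 a299_2 a299_3 q299 c358 a358_1 a358_2 a358_3 q358 fun c359 a359_1 a359_2 a359_3 q359 =>
  mulK z2 1152921504606846976 (Nat.add w2 1152921504606846976) 1152921504606846976 0 c359 a359_1 a359_2 a359_3 q359 fun c361 a361_1 a361_2 a361_3 q361 =>
  addcK c361 a361_1 a361_2 a361_3 q361 1152922604118474752 0 fun c362 a362_1 a362_2 a362_3 q362 =>
  sqrtK c362 a362_1 a362_2 a362_3 q362 fun c364 a364_1 a364_2 a364_3 q364 =>
  addcK c364 a364_1 a364_2 a364_3 q364 1152922604118474752 0 fun c366 a366_1 a366_2 a366_3 q366 =>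
  invK c366 a366_1 a366_2 a366_3 q366 fun c368 a368_1 a368_2 a368_3 q368 =>
  mulK c359 a359_1 a359_2 a359_3 q359 c368 a368_1 a368_2 a368_3 q368 fun c369 a369_1 a369_2 a369_3 q369 =>
  sqK c369 a369_1 a369_2 a369_3 q369 fun c371 a371_1 a371_2 a371_3 q371 =>
  addK c356 a356_1 a356_2 a356_3 q356 c371 a371_1 a371_2 a371_3 q371 fun c372 a372_1 a372_2 a372_3 q372 =>
  smulK 238 125 144115188075855872125 274395318096429580288 c15 a15_1 a15_2 a15_3 q15 fun c373 a373_1 a373_2 a373_3 q373 =>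
  addcK c373 a373_1 a373_2 a373_3 q373 1152911037256150548 1 fun c374 a374_1 a374_2 a374_3 q374 =>
  mulK c374 a374_1 a374_2 a374_3 q374 c15 a15_1 a15_2 a15_3 q15 fun c375 a375_1 a375_2 a375_3 q375 =>
  addcK c375 a375_1 a375_2 a375_3 q375 1152941418961449255 1 fun c376 a376_1 a376_2 a376_3 q376 =>
  mulK c376 a376_1 a376_2 a376_3 q376 c15 a15_1 a15_2 a15_3 q15 fun c377 a377_1 a377_2 a377_3 q377 =>
  addcK c377 a377_1 a377_2 a377_3 q377 1152903604557546783 1 fun c378 a378_1 a378_2 a378_3 q378 =>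
  mulK c378 a378_1 a378_2 a378_3 q378 c15 a15_1 a15_2 a15_3 q15 fun c379 a379_1 a379_2 a379_3 q379 =>
  addcK c379 a379_1 a379_2 a379_3 q379 1152929554131473924 1 fun c380 a380_1 a380_2 a380_3 q380 =>
  mulK c380 a380_1 a380_2 a380_3 q380 c15 a15_1 a15_2 a15_3 q15 fun c381 a381_1 a381_2 a381_3 q381 =>
  addcK c381 a381_1 a381_2 a381_3 q381 1152918908659893797 1 fun c382 a382_1 a382_2 a382_3 q382 =>
  mulK c382 a382_1 a382_2 a382_3 q382 c15 a15_1 a15_2 a15_3 q15 fun c383 a383_1 a383_2 a383_3 q383 =>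
  addcK c383 a383_1 a383_2 a383_3 q383 1152922523854125924 1 fun c384 a384_1 a384_2 a384_3 q384 =>
  mulK c91 a91_1 a91_2 a91_3 q91 c295 a295_1 a295_2 a295_3 q295 fun c386 a386_1 a386_2 a386_3 q386 =>
  smulK 4 1 1152921504606846977 4611686018427387904 c386 a386_1 a386_2 a386_3 q386 fun c387 a387_1 a387_2 a387_3 q387 =>
  addK c384 a384_1 a384_2 a384_3 q384 c387 a387_1 a387_2 a387_3 q387 fun c388 a388_1 a388_2 a388_3 q388 =>
  mulK z2 1152921504606846976 (Nat.add w2 1152921504606846976) 1152921504606846976 0 c336 a336_1 a336_2 a336_3 q336 fun c390 a390_1 a390_2 a390_3 q390 =>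
  smulK 2 1 1152921504606846977 2305843009213693952 c390 a390_1 a390_2 a390_3 q390 fun c391 a391_1 a391_2 a391_3 q391 =>
  subK c388 a388_1 a388_2 a388_3 q388 c391 a391_1 a391_2 a391_3 q391 fun c392 a392_1 a392_2 a392_3 q392 =>
  mulK c372 a372_1 a372_2 a372_3 q372 c392 a392_1 a392_2 a392_3 q392 fun c394 a394_1 a394_2 a394_3 q394 =>
  addK c113 a113_1 a113_2 a113_3 q113 c345 a345_1 a345_2 a345_3 q345 fun c395 a395_1 a395_2 a395_3 q395 =>
  smulK 1 2 2305843009213693954 1152921504606846976 c395 a395_1 a395_2 a395_3 q395 fun c396 a396_1 a396_2 a396_3 q396 =>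
  subK c223 a223_1 a223_2 a223_3 q223 c350 a350_1 a350_2 a350_3 q350 fun c399 a399_1 a399_2 a399_3 q399 =>
  smulK 1 2 2305843009213693954 1152921504606846976 c399 a399_1 a399_2 a399_3 q399 fun c400 a400_1 a400_2 a400_3 q400 =>
  mulK c396 a396_1 a396_2 a396_3 q396 c400 a400_1 a400_2 a400_3 q400 fun c403 a403_1 a403_2 a403_3 q403 =>
  addK c342 a342_1 a342_2 a342_3 q342 c403 a403_1 a403_2 a403_3 q403 fun c404 a404_1 a404_2 a404_3 q404 =>
  negK c299 a299_1 a299_2 a299_3 q299 fun c406 a406_1 a406_2 a406_3 q406 =>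
  mulK z2 1152921504606846976 (Nat.add w2 1152921504606846976) 1152921504606846976 0 c404 a404_1 a404_2 a404_3 q404 fun c407 a407_1 a407_2 a407_3 q407 =>
  subK c406 a406_1 a406_2 a406_3 q406 c407 a407_1 a407_2 a407_3 q407 fun c408 a408_1 a408_2 a408_3 q408 =>
  mulK z2 1152921504606846976 (Nat.add w2 1152921504606846976) 1152921504606846976 0 c408 a408_1 a408_2 a408_3 q408 fun c410 a410_1 a410_2 a410_3 q410 =>
  addcK c410 a410_1 a410_2 a410_3 q410 1152922604118474752 0 fun c411 a411_1 a411_2 a411_3 q411 =>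
  sqrtK c411 a411_1 a411_2 a411_3 q411 fun c413 a413_1 a413_2 a413_3 q413 =>
  addcK c413 a413_1 a413_2 a413_3 q413 1152922604118474752 0 fun c415 a415_1 a415_2 a415_3 q415 =>
  invK c415 a415_1 a415_2 a415_3 q415 fun c417 a417_1 a417_2 a417_3 q417 =>
  mulK c408 a408_1 a408_2 a408_3 q408 c417 a417_1 a417_2 a417_3 q417 fun c418 a418_1 a418_2 a418_3 q418 =>
  sqK c418 a418_1 a418_2 a418_3 q418 fun c420 a420_1 a420_2 a420_3 q420 =>
  addK c404 a404_1 a404_2 a404_3 q404 c420 a420_1 a420_2 a420_3 q420 fun c421 a421_1 a421_2 a421_3 q421 =>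
  addK c388 a388_1 a388_2 a388_3 q388 c391 a391_1 a391_2 a391_3 q391 fun c422 a422_1 a422_2 a422_3 q422 =>
  mulK c421 a421_1 a421_2 a421_3 q421 c422 a422_1 a422_2 a422_3 q422 fun c424 a424_1 a424_2 a424_3 q424 =>
  addK c394 a394_1 a394_2 a394_3 q394 c424 a424_1 a424_2 a424_3 q424 fun c425 a425_1 a425_2 a425_3 q425 =>
  smulK 1 2 2305843009213693954 1152921504606846976 c425 a425_1 a425_2 a425_3 q425 fun c426 a426_1 a426_2 a426_3 q426 =>
  subK c340 a340_1 a340_2 a340_3 q340 c426 a426_1 a426_2 a426_3 q426 fun c428 a428_1 a428_2 a428_3 q428 =>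
  mulK z1 (Nat.add w1 1152921504606846976) 1152921504606846976 1152921504606846976 0 c428 a428_1 a428_2 a428_3 q428 fun c430 a430_1 a430_2 a430_3 q430 =>
  negK c430 a430_1 a430_2 a430_3 q430 fun c431 a431_1 a431_2 a431_3 q431 =>
  reluK c431 a431_1 a431_2 a431_3 q431 fun c432 a432_1 a432_2 a432_3 q432 =>
  sqK c432 a432_1 a432_2 a432_3 q432 fun c433 a433_1 a433_2 a433_3 q433 =>
  subK c266 a266_1 a266_2 a266_3 q266 c433 a433_1 a433_2 a433_3 q433 fun c434 a434_1 a434_2 a434_3 q434 =>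
  pos c434 a434_1 a434_2 a434_3 q434

theorem alt5_s {p1 p2 z1 w1 z2 w2 z3 w3 : ℕ} {e1 e2 e3 a f z p q : ℝ} (he : Ev e1 e2 e3)
    (hp1 : In e1 e2 e3 p1 1152921504606846976 1152921504606846976 1152921504606846976 0 p)
    (hp2 : In e1 e2 e3 p2 1152921504606846976 1152921504606846976 1152921504606846976 0 q)
    (hx1 : In e1 e2 e3 z1 (Nat.add w1 1152921504606846976) 1152921504606846976 1152921504606846976 0 a)
    (hx2 : In e1 e2 e3 z2 1152921504606846976 (Nat.add w2 1152921504606846976) 1152921504606846976 0 f)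
    (hx3 : In e1 e2 e3 z3 1152921504606846976 1152921504606846976 (Nat.add w3 1152921504606846976) 0 z)
    (H0 : alt5 p1 p2 z1 w1 z2 w2 z3 w3 = true) : 0 < ((hp a f z p q) - ((3/10:ℝ) * z)) ∧ 0 < ((11/20:ℝ) - (tBp a f z p q)) ∧ 0 < (((3/4:ℝ) * z) - (gq a f z p q)) ∧ 0 < (PB a f z p q) ∧ 0 < (QA a f z p q) ∧ 0 < (((PB a f z p q) * (QA a f z p q)) - ((max (-(a * (ZBA a f z p q))) (0:ℝ)) ^ 2)) := by
  unfold alt5 at H0
  refine smulK_s he (w := (3/2:ℝ)) (by norm_num) (by norm_num) (by norm_num) (by norm_num) hp1 (fun _ _ _ _ _ h1 H1 => ?_) H0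
  have h2 := In_cast (w := (hp a f z p q)) h1 rfl
  refine smulK_s he (w := (3/10:ℝ)) (by norm_num) (by norm_num) (by norm_num) (by norm_num) hx3 (fun _ _ _ _ _ h3 H2 => ?_) H1
  refine subK_s he h2 h3 (fun _ _ _ _ _ h4 H3 => ?_) H2
  refine posK_s he h4 (fun p0 H4 => ?_) H3
  refine mulK_s he h2 hx2 (fun _ _ _ _ _ h5 H5 => ?_) H4
  have h6 := In_cast (w := (tBp a f z p q)) h5 rfl
  refine negK_s he h6 (fun _ _ _ _ _ h7 H6 => ?_) H5
  refine addcK_s he h7 (v' := (11/20:ℝ)) (by norm_num [SS, BB, abs_le]) (fun _ _ _ _ _ h8 H7 => ?_) H6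
  have h9 := In_cast h8 (neg_add_eq_sub _ _)
  refine posK_s he h9 (fun p1 H8 => ?_) H7
  refine smulK_s he (w := (3/4:ℝ)) (by norm_num) (by norm_num) (by norm_num) (by norm_num) hx3 (fun _ _ _ _ _ h10 H9 => ?_) H8
  refine smulK_s he (w := (3:ℝ)) (by norm_num) (by norm_num) (by norm_num) (by norm_num) hp2 (fun _ _ _ _ _ h11 H10 => ?_) H9
  have h12 := In_cast (w := (gq a f z p q)) h11 rfl
  refine subK_s he h10 h12 (fun _ _ _ _ _ h13 H11 => ?_) H10
  refine posK_s he h13 (fun p2 H12 => ?_) H11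
  refine smulK_s he (w := (2:ℝ)) (by norm_num) (by norm_num) (by norm_num) (by norm_num) hx1 (fun _ _ _ _ _ h14 H13 => ?_) H12
  refine addcK_s he h14 (v' := (-1/2:ℝ)) (by norm_num [SS, BB, abs_le]) (fun _ _ _ _ _ h15 H14 => ?_) H13
  have h16 := In_cast h15 (sub_c (c := (1/2:ℝ)) (by norm_num))
  have h17 := In_cast (w := (x a f z p q)) h16 rfl
  refine smulK_s he (w := (6909/500:ℝ)) (by norm_num) (by norm_num) (by norm_num) (by norm_num) h17 (fun _ _ _ _ _ h18 H15 => ?_) H14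
  refine negK_s he h18 (fun _ _ _ _ _ h19 H16 => ?_) H15
  have h20 := In_cast h19 (neg_mul_c (c := (-6909/500:ℝ)) (by norm_num))
  refine addcK_s he h20 (v' := (150507/4000:ℝ)) (by norm_num [SS, BB, abs_le]) (fun _ _ _ _ _ h21 H17 => ?_) H16
  refine mulK_s he h21 h17 (fun _ _ _ _ _ h22 H18 => ?_) H17
  refine addcK_s he h22 (v' := (-44979/1600:ℝ)) (by norm_num [SS, BB, abs_le]) (fun _ _ _ _ _ h23 H19 => ?_) H18
  refine mulK_s he h23 h17 (fun _ _ _ _ _ h24 H20 => ?_) H19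
  refine addcK_s he h24 (v' := (-721/1600:ℝ)) (by norm_num [SS, BB, abs_le]) (fun _ _ _ _ _ h25 H21 => ?_) H20
  refine mulK_s he h25 h17 (fun _ _ _ _ _ h26 H22 => ?_) H21
  refine addcK_s he h26 (v' := (69123/16000:ℝ)) (by norm_num [SS, BB, abs_le]) (fun _ _ _ _ _ h27 H23 => ?_) H22
  refine mulK_s he h27 h17 (fun _ _ _ _ _ h28 H24 => ?_) H23
  refine addcK_s he h28 (v' := (13983/64000:ℝ)) (by norm_num [SS, BB, abs_le]) (fun _ _ _ _ _ h29 H25 => ?_) H24
  refine mulK_s he h29 h17 (fun _ _ _ _ _ h30 H26 => ?_) H25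
  refine addcK_s he h30 (v' := (-56659/128000:ℝ)) (by norm_num [SS, BB, abs_le]) (fun _ _ _ _ _ h31 H27 => ?_) H26
  refine mulK_s he hx1 hx2 (fun _ _ _ _ _ h32 H28 => ?_) H27
  refine sqK_s he h32 (fun _ _ _ _ _ h33 H29 => ?_) H28
  refine smulK_s he (w := (4:ℝ)) (by norm_num) (by norm_num) (by norm_num) (by norm_num) h33 (fun _ _ _ _ _ h34 H30 => ?_) H29
  have h35 := In_cast (w := (dd a f z p q)) h34 rfl
  refine smulK_s he (w := (6909/200:ℝ)) (by norm_num) (by norm_num) (by norm_num) (by norm_num) h17 (fun _ _ _ _ _ h36 H31 => ?_) H30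
  refine negK_s he h36 (fun _ _ _ _ _ h37 H32 => ?_) H31
  have h38 := In_cast h37 (neg_mul_c (c := (-6909/200:ℝ)) (by norm_num))
  refine addcK_s he h38 (v' := (50169/800:ℝ)) (by norm_num [SS, BB, abs_le]) (fun _ _ _ _ _ h39 H33 => ?_) H32
  refine mulK_s he h39 h17 (fun _ _ _ _ _ h40 H34 => ?_) H33
  refine addcK_s he h40 (v' := (-44979/1600:ℝ)) (by norm_num [SS, BB, abs_le]) (fun _ _ _ _ _ h41 H35 => ?_) H34
  refine mulK_s he h41 h17 (fun _ _ _ _ _ h42 H36 => ?_) H35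
  refine addcK_s he h42 (v' := (-721/3200:ℝ)) (by norm_num [SS, BB, abs_le]) (fun _ _ _ _ _ h43 H37 => ?_) H36
  refine mulK_s he h43 h17 (fun _ _ _ _ _ h44 H38 => ?_) H37
  refine addcK_s he h44 (v' := (23041/32000:ℝ)) (by norm_num [SS, BB, abs_le]) (fun _ _ _ _ _ h45 H39 => ?_) H38
  refine addcK_s he h20 (v' := (50169/4000:ℝ)) (by norm_num [SS, BB, abs_le]) (fun _ _ _ _ _ h46 H40 => ?_) H39
  refine mulK_s he h46 h17 (fun _ _ _ _ _ h47 H41 => ?_) H40
  refine addcK_s he h47 (v' := (-14993/8000:ℝ)) (by norm_num [SS, BB, abs_le]) (fun _ _ _ _ _ h48 H42 => ?_) H41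
  refine smulK_s he (w := (987/2000:ℝ)) (by norm_num) (by norm_num) (by norm_num) (by norm_num) h35 (fun _ _ _ _ _ h49 H43 => ?_) H42
  refine negK_s he h49 (fun _ _ _ _ _ h50 H44 => ?_) H43
  have h51 := In_cast h50 (neg_mul_c (c := (-987/2000:ℝ)) (by norm_num))
  refine addK_s he h48 h51 (fun _ _ _ _ _ h52 H45 => ?_) H44
  refine mulK_s he h35 h52 (fun _ _ _ _ _ h53 H46 => ?_) H45
  refine addK_s he h45 h53 (fun _ _ _ _ _ h54 H47 => ?_) H46
  refine mulK_s he h35 h54 (fun _ _ _ _ _ h55 H48 => ?_) H47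
  refine addK_s he h31 h55 (fun _ _ _ _ _ h56 H49 => ?_) H48
  have h57 := In_cast (w := (uE a f z p q)) h56 rfl
  refine mulK_s he hx1 h57 (fun _ _ _ _ _ h58 H50 => ?_) H49
  refine smulK_s he (w := (8:ℝ)) (by norm_num) (by norm_num) (by norm_num) (by norm_num) h58 (fun _ _ _ _ _ h59 H51 => ?_) H50
  refine sqK_s he h6 (fun _ _ _ _ _ h60 H52 => ?_) H51
  refine addcK_s he h60 (v' := (1:ℝ)) (by norm_num [SS, BB, abs_le]) (fun _ _ _ _ _ h61 H53 => ?_) H52
  have h62 := In_cast h61 (add_comm _ _)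
  refine invK_s he h62 (fun _ _ _ _ _ h63 H54 => ?_) H53
  refine smulK_s he (w := (2:ℝ)) (by norm_num) (by norm_num) (by norm_num) (by norm_num) h2 (fun _ _ _ _ _ h64 H55 => ?_) H54
  refine mulK_s he h64 h63 (fun _ _ _ _ _ h65 H56 => ?_) H55
  have h66 := In_cast h65 ((div_eq_mul_inv _ _).symm)
  have h67 := In_cast (w := (Sp a f z p q)) h66 rfl
  refine mulK_s he h2 h67 (fun _ _ _ _ _ h68 H57 => ?_) H56
  have h69 := In_cast (w := (Cp a f z p q)) h68 rfl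
  refine mulK_s he hx3 h67 (fun _ _ _ _ _ h70 H58 => ?_) H57
  refine smulK_s he (w := (1/50:ℝ)) (by norm_num) (by norm_num) (by norm_num) (by norm_num) h70 (fun _ _ _ _ _ h71 H59 => ?_) H58
  refine subK_s he h69 h71 (fun _ _ _ _ _ h72 H60 => ?_) H59
  have h73 := In_cast (w := (kaBp a f z p q)) h72 rfl
  refine smulK_s he (w := (987/1000:ℝ)) (by norm_num) (by norm_num) (by norm_num) (by norm_num) h17 (fun _ _ _ _ _ h74 H61 => ?_) H60
  refine negK_s he h74 (fun _ _ _ _ _ h75 H62 => ?_) H61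
  have h76 := In_cast h75 (neg_mul_c (c := (-987/1000:ℝ)) (by norm_num))
  refine addcK_s he h76 (v' := (4077/1000:ℝ)) (by norm_num [SS, BB, abs_le]) (fun _ _ _ _ _ h77 H63 => ?_) H62
  refine mulK_s he h77 h17 (fun _ _ _ _ _ h78 H64 => ?_) H63
  refine addcK_s he h78 (v' := (-23147/4000:ℝ)) (by norm_num [SS, BB, abs_le]) (fun _ _ _ _ _ h79 H65 => ?_) H64
  refine mulK_s he h79 h17 (fun _ _ _ _ _ h80 H66 => ?_) H65
  refine addcK_s he h80 (v' := (11213/4000:ℝ)) (by norm_num [SS, BB, abs_le]) (fun _ _ _ _ _ h81 H67 => ?_) H66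
  refine mulK_s he h81 h17 (fun _ _ _ _ _ h82 H68 => ?_) H67
  refine addcK_s he h82 (v' := (123/3200:ℝ)) (by norm_num [SS, BB, abs_le]) (fun _ _ _ _ _ h83 H69 => ?_) H68
  refine mulK_s he h83 h17 (fun _ _ _ _ _ h84 H70 => ?_) H69
  refine addcK_s he h84 (v' := (2023/16000:ℝ)) (by norm_num [SS, BB, abs_le]) (fun _ _ _ _ _ h85 H71 => ?_) H70
  refine mulK_s he h85 h17 (fun _ _ _ _ _ h86 H72 => ?_) H71
  refine addcK_s he h86 (v' := (-12141/12800:ℝ)) (by norm_num [SS, BB, abs_le]) (fun _ _ _ _ _ h87 H73 => ?_) H72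
  refine mulK_s he h87 h17 (fun _ _ _ _ _ h88 H74 => ?_) H73
  refine addcK_s he h88 (v' := (75807/64000:ℝ)) (by norm_num [SS, BB, abs_le]) (fun _ _ _ _ _ h89 H75 => ?_) H74
  have h90 := In_cast (w := (uh a f z p q)) h89 rfl
  refine sqK_s he hx2 (fun _ _ _ _ _ h91 H76 => ?_) H75
  refine mulK_s he hx1 h91 (fun _ _ _ _ _ h92 H77 => ?_) H76
  refine smulK_s he (w := (4:ℝ)) (by norm_num) (by norm_num) (by norm_num) (by norm_num) h92 (fun _ _ _ _ _ h93 H78 => ?_) H77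
  have h94 := In_cast (w := (af2 a f z p q)) h93 rfl
  refine mulK_s he h94 h57 (fun _ _ _ _ _ h95 H79 => ?_) H78
  refine addK_s he h90 h95 (fun _ _ _ _ _ h96 H80 => ?_) H79
  have h97 := In_cast (w := (um a f z p q)) h96 rfl
  refine mulK_s he h73 h97 (fun _ _ _ _ _ h98 H81 => ?_) H80
  refine subK_s he h59 h98 (fun _ _ _ _ _ h99 H82 => ?_) H81
  refine mulK_s he hx2 h69 (fun _ _ _ _ _ h100 H83 => ?_) H82
  refine mulK_s he hx3 hx2 (fun _ _ _ _ _ h101 H84 => ?_) H83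
  have h102 := In_cast (w := (s a f z p q)) h101 rfl
  refine smulK_s he (w := (1/2:ℝ)) (by norm_num) (by norm_num) (by norm_num) (by norm_num) h102 (fun _ _ _ _ _ h103 H85 => ?_) H84
  have h104 := In_cast h103 (div_c (c := (2:ℝ)) (by norm_num))
  refine negK_s he h104 (fun _ _ _ _ _ h105 H86 => ?_) H85
  refine addcK_s he h105 (v' := (1:ℝ)) (by norm_num [SS, BB, abs_le]) (fun _ _ _ _ _ h106 H87 => ?_) H86
  have h107 := In_cast h106 (neg_add_eq_sub _ _)
  refine mulK_s he h100 h107 (fun _ _ _ _ _ h108 H88 => ?_) H87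
  refine smulK_s he (w := (6/25:ℝ)) (by norm_num) (by norm_num) (by norm_num) (by norm_num) hx3 (fun _ _ _ _ _ h109 H89 => ?_) H88
  refine smulK_s he (w := (29/50:ℝ)) (by norm_num) (by norm_num) (by norm_num) (by norm_num) h67 (fun _ _ _ _ _ h110 H90 => ?_) H89
  refine addK_s he h109 h110 (fun _ _ _ _ _ h111 H91 => ?_) H90
  refine mulK_s he h102 h111 (fun _ _ _ _ _ h112 H92 => ?_) H91
  refine addK_s he h108 h112 (fun _ _ _ _ _ h113 H93 => ?_) H92
  have h114 := In_cast (w := (nuBp a f z p q)) h113 rfl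
  refine smulK_s he (w := (987/250:ℝ)) (by norm_num) (by norm_num) (by norm_num) (by norm_num) h17 (fun _ _ _ _ _ h115 H94 => ?_) H93
  refine negK_s he h115 (fun _ _ _ _ _ h116 H95 => ?_) H94
  have h117 := In_cast h116 (neg_mul_c (c := (-987/250:ℝ)) (by norm_num))
  refine addcK_s he h117 (v' := (50169/4000:ℝ)) (by norm_num [SS, BB, abs_le]) (fun _ _ _ _ _ h118 H96 => ?_) H95
  refine mulK_s he h118 h17 (fun _ _ _ _ _ h119 H97 => ?_) H96
  refine addcK_s he h119 (v' := (-44979/4000:ℝ)) (by norm_num [SS, BB, abs_le]) (fun _ _ _ _ _ h120 H98 => ?_) H97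
  refine mulK_s he h120 h17 (fun _ _ _ _ _ h121 H99 => ?_) H98
  refine addcK_s he h121 (v' := (-721/3200:ℝ)) (by norm_num [SS, BB, abs_le]) (fun _ _ _ _ _ h122 H100 => ?_) H99
  refine mulK_s he h122 h17 (fun _ _ _ _ _ h123 H101 => ?_) H100
  refine addcK_s he h123 (v' := (23041/8000:ℝ)) (by norm_num [SS, BB, abs_le]) (fun _ _ _ _ _ h124 H102 => ?_) H101
  refine mulK_s he h124 h17 (fun _ _ _ _ _ h125 H103 => ?_) H102
  refine addcK_s he h125 (v' := (13983/64000:ℝ)) (by norm_num [SS, BB, abs_le]) (fun _ _ _ _ _ h126 H104 => ?_) H103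
  refine mulK_s he h126 h17 (fun _ _ _ _ _ h127 H105 => ?_) H104
  refine addcK_s he h127 (v' := (-56659/64000:ℝ)) (by norm_num [SS, BB, abs_le]) (fun _ _ _ _ _ h128 H106 => ?_) H105
  refine mulK_s he h128 h17 (fun _ _ _ _ _ h129 H107 => ?_) H106
  refine addcK_s he h129 (v' := (90909/256000:ℝ)) (by norm_num [SS, BB, abs_le]) (fun _ _ _ _ _ h130 H108 => ?_) H107
  refine smulK_s he (w := (6909/250:ℝ)) (by norm_num) (by norm_num) (by norm_num) (by norm_num) h17 (fun _ _ _ _ _ h131 H109 => ?_) H108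
  refine negK_s he h131 (fun _ _ _ _ _ h132 H110 => ?_) H109
  have h133 := In_cast h132 (neg_mul_c (c := (-6909/250:ℝ)) (by norm_num))
  refine addcK_s he h133 (v' := (50169/800:ℝ)) (by norm_num [SS, BB, abs_le]) (fun _ _ _ _ _ h134 H111 => ?_) H110
  refine mulK_s he h134 h17 (fun _ _ _ _ _ h135 H112 => ?_) H111
  refine addcK_s he h135 (v' := (-14993/400:ℝ)) (by norm_num [SS, BB, abs_le]) (fun _ _ _ _ _ h136 H113 => ?_) H112
  refine mulK_s he h136 h17 (fun _ _ _ _ _ h137 H114 => ?_) H113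
  refine addcK_s he h137 (v' := (-721/1600:ℝ)) (by norm_num [SS, BB, abs_le]) (fun _ _ _ _ _ h138 H115 => ?_) H114
  refine mulK_s he h138 h17 (fun _ _ _ _ _ h139 H116 => ?_) H115
  refine addcK_s he h139 (v' := (23041/8000:ℝ)) (by norm_num [SS, BB, abs_le]) (fun _ _ _ _ _ h140 H117 => ?_) H116
  refine mulK_s he h140 h17 (fun _ _ _ _ _ h141 H118 => ?_) H117
  refine addcK_s he h141 (v' := (4661/64000:ℝ)) (by norm_num [SS, BB, abs_le]) (fun _ _ _ _ _ h142 H119 => ?_) H118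
  refine addcK_s he h133 (v' := (150507/4000:ℝ)) (by norm_num [SS, BB, abs_le]) (fun _ _ _ _ _ h143 H120 => ?_) H119
  refine mulK_s he h143 h17 (fun _ _ _ _ _ h144 H121 => ?_) H120
  refine addcK_s he h144 (v' := (-44979/4000:ℝ)) (by norm_num [SS, BB, abs_le]) (fun _ _ _ _ _ h145 H122 => ?_) H121
  refine mulK_s he h145 h17 (fun _ _ _ _ _ h146 H123 => ?_) H122
  refine addcK_s he h146 (v' := (-721/16000:ℝ)) (by norm_num [SS, BB, abs_le]) (fun _ _ _ _ _ h147 H124 => ?_) H123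
  refine addcK_s he h117 (v' := (7167/4000:ℝ)) (by norm_num [SS, BB, abs_le]) (fun _ _ _ _ _ h148 H125 => ?_) H124
  refine mulK_s he h35 h148 (fun _ _ _ _ _ h149 H126 => ?_) H125
  refine addK_s he h147 h149 (fun _ _ _ _ _ h150 H127 => ?_) H126
  refine mulK_s he h35 h150 (fun _ _ _ _ _ h151 H128 => ?_) H127
  refine addK_s he h142 h151 (fun _ _ _ _ _ h152 H129 => ?_) H128
  refine mulK_s he h35 h152 (fun _ _ _ _ _ h153 H130 => ?_) H129
  refine addK_s he h130 h153 (fun _ _ _ _ _ h154 H131 => ?_) H130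
  have h155 := In_cast (w := (uO a f z p q)) h154 rfl
  refine mulK_s he h114 h155 (fun _ _ _ _ _ h156 H132 => ?_) H131
  refine smulK_s he (w := (2:ℝ)) (by norm_num) (by norm_num) (by norm_num) (by norm_num) h156 (fun _ _ _ _ _ h157 H133 => ?_) H132
  refine subK_s he h99 h157 (fun _ _ _ _ _ h158 H134 => ?_) H133
  refine smulK_s he (w := (3/500:ℝ)) (by norm_num) (by norm_num) (by norm_num) (by norm_num) h102 (fun _ _ _ _ _ h159 H135 => ?_) H134
  refine negK_s he h159 (fun _ _ _ _ _ h160 H136 => ?_) H135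
  refine addcK_s he h160 (v' := (499/500:ℝ)) (by norm_num [SS, BB, abs_le]) (fun _ _ _ _ _ h161 H137 => ?_) H136
  have h162 := In_cast h161 (neg_add_eq_sub _ _)
  refine mulK_s he h162 h67 (fun _ _ _ _ _ h163 H138 => ?_) H137
  have h164 := In_cast (w := (laBp a f z p q)) h163 rfl
  refine smulK_s he (w := (2:ℝ)) (by norm_num) (by norm_num) (by norm_num) (by norm_num) h164 (fun _ _ _ _ _ h165 H139 => ?_) H138
  refine addK_s he h158 h165 (fun _ _ _ _ _ h166 H140 => ?_) H139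
  have h167 := In_cast (w := (PB a f z p q)) h166 rfl
  refine posK_s he h167 (fun p3 H141 => ?_) H140
  refine addcK_s he h20 (v' := (1449/32:ℝ)) (by norm_num [SS, BB, abs_le]) (fun _ _ _ _ _ h168 H142 => ?_) H141
  refine mulK_s he h168 h17 (fun _ _ _ _ _ h169 H143 => ?_) H142
  refine addcK_s he h169 (v' := (-75597/1600:ℝ)) (by norm_num [SS, BB, abs_le]) (fun _ _ _ _ _ h170 H144 => ?_) H143
  refine mulK_s he h170 h17 (fun _ _ _ _ _ h171 H145 => ?_) H144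
  refine addcK_s he h171 (v' := (4157/320:ℝ)) (by norm_num [SS, BB, abs_le]) (fun _ _ _ _ _ h172 H146 => ?_) H145
  refine mulK_s he h172 h17 (fun _ _ _ _ _ h173 H147 => ?_) H146
  refine addcK_s he h173 (v' := (52713/16000:ℝ)) (by norm_num [SS, BB, abs_le]) (fun _ _ _ _ _ h174 H148 => ?_) H147
  refine mulK_s he h174 h17 (fun _ _ _ _ _ h175 H149 => ?_) H148
  refine addcK_s he h175 (v' := (-3651/12800:ℝ)) (by norm_num [SS, BB, abs_le]) (fun _ _ _ _ _ h176 H150 => ?_) H149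
  refine mulK_s he h176 h17 (fun _ _ _ _ _ h177 H151 => ?_) H150
  refine addcK_s he h177 (v' := (-84189/128000:ℝ)) (by norm_num [SS, BB, abs_le]) (fun _ _ _ _ _ h178 H152 => ?_) H151
  refine addcK_s he h38 (v' := (2415/32:ℝ)) (by norm_num [SS, BB, abs_le]) (fun _ _ _ _ _ h179 H153 => ?_) H152
  refine mulK_s he h179 h17 (fun _ _ _ _ _ h180 H154 => ?_) H153
  refine addcK_s he h180 (v' := (-75597/1600:ℝ)) (by norm_num [SS, BB, abs_le]) (fun _ _ _ _ _ h181 H155 => ?_) H154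
  refine mulK_s he h181 h17 (fun _ _ _ _ _ h182 H156 => ?_) H155
  refine addcK_s he h182 (v' := (4157/640:ℝ)) (by norm_num [SS, BB, abs_le]) (fun _ _ _ _ _ h183 H157 => ?_) H156
  refine mulK_s he h183 h17 (fun _ _ _ _ _ h184 H158 => ?_) H157
  refine addcK_s he h184 (v' := (17571/32000:ℝ)) (by norm_num [SS, BB, abs_le]) (fun _ _ _ _ _ h185 H159 => ?_) H158
  refine addcK_s he h20 (v' := (483/32:ℝ)) (by norm_num [SS, BB, abs_le]) (fun _ _ _ _ _ h186 H160 => ?_) H159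
  refine mulK_s he h186 h17 (fun _ _ _ _ _ h187 H161 => ?_) H160
  refine addcK_s he h187 (v' := (-25199/8000:ℝ)) (by norm_num [SS, BB, abs_le]) (fun _ _ _ _ _ h188 H162 => ?_) H161
  refine addK_s he h188 h51 (fun _ _ _ _ _ h189 H163 => ?_) H162
  refine mulK_s he h35 h189 (fun _ _ _ _ _ h190 H164 => ?_) H163
  refine addK_s he h185 h190 (fun _ _ _ _ _ h191 H165 => ?_) H164
  refine mulK_s he h35 h191 (fun _ _ _ _ _ h192 H166 => ?_) H165
  refine addK_s he h178 h192 (fun _ _ _ _ _ h193 H167 => ?_) H166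
  have h194 := In_cast (w := (cE a f z p q)) h193 rfl
  refine mulK_s he hx1 h194 (fun _ _ _ _ _ h195 H168 => ?_) H167
  refine smulK_s he (w := (8:ℝ)) (by norm_num) (by norm_num) (by norm_num) (by norm_num) h195 (fun _ _ _ _ _ h196 H169 => ?_) H168
  refine sqK_s he h12 (fun _ _ _ _ _ h197 H170 => ?_) H169
  refine smulK_s he (w := (99/200:ℝ)) (by norm_num) (by norm_num) (by norm_num) (by norm_num) h197 (fun _ _ _ _ _ h198 H171 => ?_) H170
  have h199 := In_cast (w := (kaAq a f z p q)) h198 rfl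
  refine addcK_s he h76 (v' := (2403/500:ℝ)) (by norm_num [SS, BB, abs_le]) (fun _ _ _ _ _ h200 H172 => ?_) H171
  refine mulK_s he h200 h17 (fun _ _ _ _ _ h201 H173 => ?_) H172
  refine addcK_s he h201 (v' := (-34811/4000:ℝ)) (by norm_num [SS, BB, abs_le]) (fun _ _ _ _ _ h202 H174 => ?_) H173
  refine mulK_s he h202 h17 (fun _ _ _ _ _ h203 H175 => ?_) H174
  refine addcK_s he h203 (v' := (13899/2000:ℝ)) (by norm_num [SS, BB, abs_le]) (fun _ _ _ _ _ h204 H176 => ?_) H175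
  refine mulK_s he h204 h17 (fun _ _ _ _ _ h205 H177 => ?_) H176
  refine addcK_s he h205 (v' := (-1521/640:ℝ)) (by norm_num [SS, BB, abs_le]) (fun _ _ _ _ _ h206 H178 => ?_) H177
  refine mulK_s he h206 h17 (fun _ _ _ _ _ h207 H179 => ?_) H178
  refine addcK_s he h207 (v' := (1597/1600:ℝ)) (by norm_num [SS, BB, abs_le]) (fun _ _ _ _ _ h208 H180 => ?_) H179
  refine mulK_s he h208 h17 (fun _ _ _ _ _ h209 H181 => ?_) H180
  refine addcK_s he h209 (v' := (-116129/64000:ℝ)) (by norm_num [SS, BB, abs_le]) (fun _ _ _ _ _ h210 H182 => ?_) H181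
  refine mulK_s he h210 h17 (fun _ _ _ _ _ h211 H183 => ?_) H182
  refine addcK_s he h211 (v' := (9741/6400:ℝ)) (by norm_num [SS, BB, abs_le]) (fun _ _ _ _ _ h212 H184 => ?_) H183
  have h213 := In_cast (w := (ch a f z p q)) h212 rfl
  refine mulK_s he h94 h194 (fun _ _ _ _ _ h214 H185 => ?_) H184
  refine addK_s he h213 h214 (fun _ _ _ _ _ h215 H186 => ?_) H185
  have h216 := In_cast (w := (cm a f z p q)) h215 rfl
  refine mulK_s he h199 h216 (fun _ _ _ _ _ h217 H187 => ?_) H186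
  refine subK_s he h196 h217 (fun _ _ _ _ _ h218 H188 => ?_) H187
  refine mulK_s he h102 h12 (fun _ _ _ _ _ h219 H189 => ?_) H188
  refine smulK_s he (w := (4/3:ℝ)) (by norm_num) (by norm_num) (by norm_num) (by norm_num) h219 (fun _ _ _ _ _ h220 H190 => ?_) H189
  refine mulK_s he hx2 h197 (fun _ _ _ _ _ h221 H191 => ?_) H190
  refine smulK_s he (w := (21/200:ℝ)) (by norm_num) (by norm_num) (by norm_num) (by norm_num) h221 (fun _ _ _ _ _ h222 H192 => ?_) H191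
  refine subK_s he h220 h222 (fun _ _ _ _ _ h223 H193 => ?_) H192
  have h224 := In_cast (w := (nuAq a f z p q)) h223 rfl
  refine addcK_s he h117 (v' := (483/32:ℝ)) (by norm_num [SS, BB, abs_le]) (fun _ _ _ _ _ h225 H194 => ?_) H193
  refine mulK_s he h225 h17 (fun _ _ _ _ _ h226 H195 => ?_) H194
  refine addcK_s he h226 (v' := (-75597/4000:ℝ)) (by norm_num [SS, BB, abs_le]) (fun _ _ _ _ _ h227 H196 => ?_) H195
  refine mulK_s he h227 h17 (fun _ _ _ _ _ h228 H197 => ?_) H196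
  refine addcK_s he h228 (v' := (4157/640:ℝ)) (by norm_num [SS, BB, abs_le]) (fun _ _ _ _ _ h229 H198 => ?_) H197
  refine mulK_s he h229 h17 (fun _ _ _ _ _ h230 H199 => ?_) H198
  refine addcK_s he h230 (v' := (17571/8000:ℝ)) (by norm_num [SS, BB, abs_le]) (fun _ _ _ _ _ h231 H200 => ?_) H199
  refine mulK_s he h231 h17 (fun _ _ _ _ _ h232 H201 => ?_) H200
  refine addcK_s he h232 (v' := (-3651/12800:ℝ)) (by norm_num [SS, BB, abs_le]) (fun _ _ _ _ _ h233 H202 => ?_) H201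
  refine mulK_s he h233 h17 (fun _ _ _ _ _ h234 H203 => ?_) H202
  refine addcK_s he h234 (v' := (-84189/64000:ℝ)) (by norm_num [SS, BB, abs_le]) (fun _ _ _ _ _ h235 H204 => ?_) H203
  refine mulK_s he h235 h17 (fun _ _ _ _ _ h236 H205 => ?_) H204
  refine addcK_s he h236 (v' := (78691/256000:ℝ)) (by norm_num [SS, BB, abs_le]) (fun _ _ _ _ _ h237 H206 => ?_) H205
  refine addcK_s he h133 (v' := (2415/32:ℝ)) (by norm_num [SS, BB, abs_le]) (fun _ _ _ _ _ h238 H207 => ?_) H206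
  refine mulK_s he h238 h17 (fun _ _ _ _ _ h239 H208 => ?_) H207
  refine addcK_s he h239 (v' := (-25199/400:ℝ)) (by norm_num [SS, BB, abs_le]) (fun _ _ _ _ _ h240 H209 => ?_) H208
  refine mulK_s he h240 h17 (fun _ _ _ _ _ h241 H210 => ?_) H209
  refine addcK_s he h241 (v' := (4157/320:ℝ)) (by norm_num [SS, BB, abs_le]) (fun _ _ _ _ _ h242 H211 => ?_) H210
  refine mulK_s he h242 h17 (fun _ _ _ _ _ h243 H212 => ?_) H211
  refine addcK_s he h243 (v' := (17571/8000:ℝ)) (by norm_num [SS, BB, abs_le]) (fun _ _ _ _ _ h244 H213 => ?_) H212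
  refine mulK_s he h244 h17 (fun _ _ _ _ _ h245 H214 => ?_) H213
  refine addcK_s he h245 (v' := (-1217/12800:ℝ)) (by norm_num [SS, BB, abs_le]) (fun _ _ _ _ _ h246 H215 => ?_) H214
  refine addcK_s he h133 (v' := (1449/32:ℝ)) (by norm_num [SS, BB, abs_le]) (fun _ _ _ _ _ h247 H216 => ?_) H215
  refine mulK_s he h247 h17 (fun _ _ _ _ _ h248 H217 => ?_) H216
  refine addcK_s he h248 (v' := (-75597/4000:ℝ)) (by norm_num [SS, BB, abs_le]) (fun _ _ _ _ _ h249 H218 => ?_) H217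
  refine mulK_s he h249 h17 (fun _ _ _ _ _ h250 H219 => ?_) H218
  refine addcK_s he h250 (v' := (4157/3200:ℝ)) (by norm_num [SS, BB, abs_le]) (fun _ _ _ _ _ h251 H220 => ?_) H219
  refine addcK_s he h117 (v' := (69/32:ℝ)) (by norm_num [SS, BB, abs_le]) (fun _ _ _ _ _ h252 H221 => ?_) H220
  refine mulK_s he h35 h252 (fun _ _ _ _ _ h253 H222 => ?_) H221
  refine addK_s he h251 h253 (fun _ _ _ _ _ h254 H223 => ?_) H222
  refine mulK_s he h35 h254 (fun _ _ _ _ _ h255 H224 => ?_) H223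
  refine addK_s he h246 h255 (fun _ _ _ _ _ h256 H225 => ?_) H224
  refine mulK_s he h35 h256 (fun _ _ _ _ _ h257 H226 => ?_) H225
  refine addK_s he h237 h257 (fun _ _ _ _ _ h258 H227 => ?_) H226
  have h259 := In_cast (w := (cO a f z p q)) h258 rfl
  refine mulK_s he h224 h259 (fun _ _ _ _ _ h260 H228 => ?_) H227
  refine smulK_s he (w := (2:ℝ)) (by norm_num) (by norm_num) (by norm_num) (by norm_num) h260 (fun _ _ _ _ _ h261 H229 => ?_) H228
  refine addK_s he h218 h261 (fun _ _ _ _ _ h262 H230 => ?_) H229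
  refine smulK_s he (w := (2:ℝ)) (by norm_num) (by norm_num) (by norm_num) (by norm_num) h12 (fun _ _ _ _ _ h263 H231 => ?_) H230
  refine addK_s he h262 h263 (fun _ _ _ _ _ h264 H232 => ?_) H231
  have h265 := In_cast (w := (QA a f z p q)) h264 rfl
  refine posK_s he h265 (fun p4 H233 => ?_) H232
  refine mulK_s he h167 h265 (fun _ _ _ _ _ h266 H234 => ?_) H233
  refine smulK_s he (w := (1666/125:ℝ)) (by norm_num) (by norm_num) (by norm_num) (by norm_num) h17 (fun _ _ _ _ _ h267 H235 => ?_) H234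
  refine addcK_s he h267 (v' := (-4998/125:ℝ)) (by norm_num [SS, BB, abs_le]) (fun _ _ _ _ _ h268 H236 => ?_) H235
  refine mulK_s he h268 h17 (fun _ _ _ _ _ h269 H237 => ?_) H236
  refine addcK_s he h269 (v' := (6801/200:ℝ)) (by norm_num [SS, BB, abs_le]) (fun _ _ _ _ _ h270 H238 => ?_) H237
  refine mulK_s he h270 h17 (fun _ _ _ _ _ h271 H239 => ?_) H238
  refine addcK_s he h271 (v' := (-137/100:ℝ)) (by norm_num [SS, BB, abs_le]) (fun _ _ _ _ _ h272 H240 => ?_) H239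
  refine mulK_s he h272 h17 (fun _ _ _ _ _ h273 H241 => ?_) H240
  refine addcK_s he h273 (v' := (-13293/2000:ℝ)) (by norm_num [SS, BB, abs_le]) (fun _ _ _ _ _ h274 H242 => ?_) H241
  refine mulK_s he h274 h17 (fun _ _ _ _ _ h275 H243 => ?_) H242
  refine addcK_s he h275 (v' := (267/400:ℝ)) (by norm_num [SS, BB, abs_le]) (fun _ _ _ _ _ h276 H244 => ?_) H243
  refine mulK_s he h276 h17 (fun _ _ _ _ _ h277 H245 => ?_) H244
  refine addcK_s he h277 (v' := (317/3200:ℝ)) (by norm_num [SS, BB, abs_le]) (fun _ _ _ _ _ h278 H246 => ?_) H245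
  refine smulK_s he (w := (833/25:ℝ)) (by norm_num) (by norm_num) (by norm_num) (by norm_num) h17 (fun _ _ _ _ _ h279 H247 => ?_) H246
  refine addcK_s he h279 (v' := (-1666/25:ℝ)) (by norm_num [SS, BB, abs_le]) (fun _ _ _ _ _ h280 H248 => ?_) H247
  refine mulK_s he h280 h17 (fun _ _ _ _ _ h281 H249 => ?_) H248
  refine addcK_s he h281 (v' := (6801/200:ℝ)) (by norm_num [SS, BB, abs_le]) (fun _ _ _ _ _ h282 H250 => ?_) H249
  refine mulK_s he h282 h17 (fun _ _ _ _ _ h283 H251 => ?_) H250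
  refine addcK_s he h283 (v' := (-137/200:ℝ)) (by norm_num [SS, BB, abs_le]) (fun _ _ _ _ _ h284 H252 => ?_) H251
  refine mulK_s he h284 h17 (fun _ _ _ _ _ h285 H253 => ?_) H252
  refine addcK_s he h285 (v' := (-4431/4000:ℝ)) (by norm_num [SS, BB, abs_le]) (fun _ _ _ _ _ h286 H254 => ?_) H253
  refine addcK_s he h267 (v' := (-1666/125:ℝ)) (by norm_num [SS, BB, abs_le]) (fun _ _ _ _ _ h287 H255 => ?_) H254
  refine mulK_s he h287 h17 (fun _ _ _ _ _ h288 H256 => ?_) H255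
  refine addcK_s he h288 (v' := (2267/1000:ℝ)) (by norm_num [SS, BB, abs_le]) (fun _ _ _ _ _ h289 H257 => ?_) H256
  refine smulK_s he (w := (119/250:ℝ)) (by norm_num) (by norm_num) (by norm_num) (by norm_num) h35 (fun _ _ _ _ _ h290 H258 => ?_) H257
  refine addK_s he h289 h290 (fun _ _ _ _ _ h291 H259 => ?_) H258
  refine mulK_s he h35 h291 (fun _ _ _ _ _ h292 H260 => ?_) H259
  refine addK_s he h286 h292 (fun _ _ _ _ _ h293 H261 => ?_) H260
  refine mulK_s he h35 h293 (fun _ _ _ _ _ h294 H262 => ?_) H261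
  refine addK_s he h278 h294 (fun _ _ _ _ _ h295 H263 => ?_) H262
  have h296 := In_cast (w := (vE a f z p q)) h295 rfl
  refine smulK_s he (w := (8:ℝ)) (by norm_num) (by norm_num) (by norm_num) (by norm_num) h296 (fun _ _ _ _ _ h297 H264 => ?_) H263
  refine subK_s he h114 h224 (fun _ _ _ _ _ h298 H265 => ?_) H264
  refine smulK_s he (w := (1/2:ℝ)) (by norm_num) (by norm_num) (by norm_num) (by norm_num) h298 (fun _ _ _ _ _ h299 H266 => ?_) H265
  have h300 := In_cast h299 (div_c (c := (2:ℝ)) (by norm_num))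
  have h301 := In_cast (w := (etBA a f z p q)) h300 rfl
  refine smulK_s he (w := (952/125:ℝ)) (by norm_num) (by norm_num) (by norm_num) (by norm_num) h17 (fun _ _ _ _ _ h302 H267 => ?_) H266
  refine addcK_s he h302 (v' := (-3808/125:ℝ)) (by norm_num [SS, BB, abs_le]) (fun _ _ _ _ _ h303 H268 => ?_) H267
  refine mulK_s he h303 h17 (fun _ _ _ _ _ h304 H269 => ?_) H268
  refine addcK_s he h304 (v' := (10609/250:ℝ)) (by norm_num [SS, BB, abs_le]) (fun _ _ _ _ _ h305 H270 => ?_) H269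
  refine mulK_s he h305 h17 (fun _ _ _ _ _ h306 H271 => ?_) H270
  refine addcK_s he h306 (v' := (-5647/250:ℝ)) (by norm_num [SS, BB, abs_le]) (fun _ _ _ _ _ h307 H272 => ?_) H271
  refine mulK_s he h307 h17 (fun _ _ _ _ _ h308 H273 => ?_) H272
  refine addcK_s he h308 (v' := (304/125:ℝ)) (by norm_num [SS, BB, abs_le]) (fun _ _ _ _ _ h309 H274 => ?_) H273
  refine mulK_s he h309 h17 (fun _ _ _ _ _ h310 H275 => ?_) H274
  refine addcK_s he h310 (v' := (119/1000:ℝ)) (by norm_num [SS, BB, abs_le]) (fun _ _ _ _ _ h311 H276 => ?_) H275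
  refine mulK_s he h311 h17 (fun _ _ _ _ _ h312 H277 => ?_) H276
  refine addcK_s he h312 (v' := (1347/4000:ℝ)) (by norm_num [SS, BB, abs_le]) (fun _ _ _ _ _ h313 H278 => ?_) H277
  refine smulK_s he (w := (3332/125:ℝ)) (by norm_num) (by norm_num) (by norm_num) (by norm_num) h17 (fun _ _ _ _ _ h314 H279 => ?_) H278
  refine addcK_s he h314 (v' := (-1666/25:ℝ)) (by norm_num [SS, BB, abs_le]) (fun _ _ _ _ _ h315 H280 => ?_) H279
  refine mulK_s he h315 h17 (fun _ _ _ _ _ h316 H281 => ?_) H280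
  refine addcK_s he h316 (v' := (2267/50:ℝ)) (by norm_num [SS, BB, abs_le]) (fun _ _ _ _ _ h317 H282 => ?_) H281
  refine mulK_s he h317 h17 (fun _ _ _ _ _ h318 H283 => ?_) H282
  refine addcK_s he h318 (v' := (-137/100:ℝ)) (by norm_num [SS, BB, abs_le]) (fun _ _ _ _ _ h319 H284 => ?_) H283
  refine mulK_s he h319 h17 (fun _ _ _ _ _ h320 H285 => ?_) H284
  refine addcK_s he h320 (v' := (-4431/1000:ℝ)) (by norm_num [SS, BB, abs_le]) (fun _ _ _ _ _ h321 H286 => ?_) H285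
  refine mulK_s he h321 h17 (fun _ _ _ _ _ h322 H287 => ?_) H286
  refine addcK_s he h322 (v' := (89/400:ℝ)) (by norm_num [SS, BB, abs_le]) (fun _ _ _ _ _ h323 H288 => ?_) H287
  refine addcK_s he h314 (v' := (-4998/125:ℝ)) (by norm_num [SS, BB, abs_le]) (fun _ _ _ _ _ h324 H289 => ?_) H288
  refine mulK_s he h324 h17 (fun _ _ _ _ _ h325 H290 => ?_) H289
  refine addcK_s he h325 (v' := (6801/500:ℝ)) (by norm_num [SS, BB, abs_le]) (fun _ _ _ _ _ h326 H291 => ?_) H290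
  refine mulK_s he h326 h17 (fun _ _ _ _ _ h327 H292 => ?_) H291
  refine addcK_s he h327 (v' := (-137/1000:ℝ)) (by norm_num [SS, BB, abs_le]) (fun _ _ _ _ _ h328 H293 => ?_) H292
  refine smulK_s he (w := (476/125:ℝ)) (by norm_num) (by norm_num) (by norm_num) (by norm_num) h17 (fun _ _ _ _ _ h329 H294 => ?_) H293
  refine addcK_s he h329 (v' := (-238/125:ℝ)) (by norm_num [SS, BB, abs_le]) (fun _ _ _ _ _ h330 H295 => ?_) H294
  refine mulK_s he h35 h330 (fun _ _ _ _ _ h331 H296 => ?_) H295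
  refine addK_s he h328 h331 (fun _ _ _ _ _ h332 H297 => ?_) H296
  refine mulK_s he h35 h332 (fun _ _ _ _ _ h333 H298 => ?_) H297
  refine addK_s he h323 h333 (fun _ _ _ _ _ h334 H299 => ?_) H298
  refine mulK_s he h94 h334 (fun _ _ _ _ _ h335 H300 => ?_) H299
  refine addK_s he h313 h335 (fun _ _ _ _ _ h336 H301 => ?_) H300
  have h337 := In_cast (w := (vO a f z p q)) h336 rfl
  refine mulK_s he h301 h337 (fun _ _ _ _ _ h338 H302 => ?_) H301
  refine smulK_s he (w := (2:ℝ)) (by norm_num) (by norm_num) (by norm_num) (by norm_num) h338 (fun _ _ _ _ _ h339 H303 => ?_) H302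
  refine subK_s he h297 h339 (fun _ _ _ _ _ h340 H304 => ?_) H303
  refine addK_s he h73 h199 (fun _ _ _ _ _ h341 H305 => ?_) H304
  refine smulK_s he (w := (1/2:ℝ)) (by norm_num) (by norm_num) (by norm_num) (by norm_num) h341 (fun _ _ _ _ _ h342 H306 => ?_) H305
  have h343 := In_cast h342 (div_c (c := (2:ℝ)) (by norm_num))
  have h344 := In_cast (w := (muBA a f z p q)) h343 rfl
  refine mulK_s he hx2 h73 (fun _ _ _ _ _ h345 H307 => ?_) H306
  refine subK_s he h114 h345 (fun _ _ _ _ _ h346 H308 => ?_) H307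
  refine smulK_s he (w := (1/2:ℝ)) (by norm_num) (by norm_num) (by norm_num) (by norm_num) h346 (fun _ _ _ _ _ h347 H309 => ?_) H308
  have h348 := In_cast h347 (div_c (c := (2:ℝ)) (by norm_num))
  have h349 := In_cast (w := (alB a f z p q)) h348 rfl
  refine mulK_s he hx2 h199 (fun _ _ _ _ _ h350 H310 => ?_) H309
  refine addK_s he h224 h350 (fun _ _ _ _ _ h351 H311 => ?_) H310
  refine smulK_s he (w := (1/2:ℝ)) (by norm_num) (by norm_num) (by norm_num) (by norm_num) h351 (fun _ _ _ _ _ h352 H312 => ?_) H311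
  have h353 := In_cast h352 (div_c (c := (2:ℝ)) (by norm_num))
  have h354 := In_cast (w := (bmA a f z p q)) h353 rfl
  refine mulK_s he h349 h354 (fun _ _ _ _ _ h355 H313 => ?_) H312
  refine addK_s he h344 h355 (fun _ _ _ _ _ h356 H314 => ?_) H313
  have h357 := In_cast (w := (w0BA a f z p q)) h356 rfl
  refine mulK_s he hx2 h357 (fun _ _ _ _ _ h358 H315 => ?_) H314
  refine subK_s he h301 h358 (fun _ _ _ _ _ h359 H316 => ?_) H315
  have h360 := In_cast (w := (y0BA a f z p q)) h359 rfl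
  refine mulK_s he hx2 h360 (fun _ _ _ _ _ h361 H317 => ?_) H316
  refine addcK_s he h361 (v' := (1:ℝ)) (by norm_num [SS, BB, abs_le]) (fun _ _ _ _ _ h362 H318 => ?_) H317
  have h363 := In_cast h362 (add_comm _ _)
  refine sqrtK_s he h363 (fun _ _ _ _ _ h364 H319 => ?_) H318
  have h365 := In_cast (w := (g0BA a f z p q)) h364 rfl
  refine addcK_s he h365 (v' := (1:ℝ)) (by norm_num [SS, BB, abs_le]) (fun _ _ _ _ _ h366 H320 => ?_) H319
  have h367 := In_cast h366 (add_comm _ _)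
  refine invK_s he h367 (fun _ _ _ _ _ h368 H321 => ?_) H320
  refine mulK_s he h360 h368 (fun _ _ _ _ _ h369 H322 => ?_) H321
  have h370 := In_cast h369 ((div_eq_mul_inv _ _).symm)
  refine sqK_s he h370 (fun _ _ _ _ _ h371 H323 => ?_) H322
  refine addK_s he h357 h371 (fun _ _ _ _ _ h372 H324 => ?_) H323
  refine smulK_s he (w := (238/125:ℝ)) (by norm_num) (by norm_num) (by norm_num) (by norm_num) h17 (fun _ _ _ _ _ h373 H325 => ?_) H324
  refine addcK_s he h373 (v' := (-238/25:ℝ)) (by norm_num [SS, BB, abs_le]) (fun _ _ _ _ _ h374 H326 => ?_) H325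
  refine mulK_s he h374 h17 (fun _ _ _ _ _ h375 H327 => ?_) H326
  refine addcK_s he h375 (v' := (2264/125:ℝ)) (by norm_num [SS, BB, abs_le]) (fun _ _ _ _ _ h376 H328 => ?_) H327
  refine mulK_s he h376 h17 (fun _ _ _ _ _ h377 H329 => ?_) H328
  refine addcK_s he h377 (v' := (-407/25:ℝ)) (by norm_num [SS, BB, abs_le]) (fun _ _ _ _ _ h378 H330 => ?_) H329
  refine mulK_s he h378 h17 (fun _ _ _ _ _ h379 H331 => ?_) H330
  refine addcK_s he h379 (v' := (7321/1000:ℝ)) (by norm_num [SS, BB, abs_le]) (fun _ _ _ _ _ h380 H332 => ?_) H331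
  refine mulK_s he h380 h17 (fun _ _ _ _ _ h381 H333 => ?_) H332
  refine addcK_s he h381 (v' := (-2361/1000:ℝ)) (by norm_num [SS, BB, abs_le]) (fun _ _ _ _ _ h382 H334 => ?_) H333
  refine mulK_s he h382 h17 (fun _ _ _ _ _ h383 H335 => ?_) H334
  refine addcK_s he h383 (v' := (927/1000:ℝ)) (by norm_num [SS, BB, abs_le]) (fun _ _ _ _ _ h384 H336 => ?_) H335
  have h385 := In_cast (w := (vh a f z p q)) h384 rfl
  refine mulK_s he h91 h296 (fun _ _ _ _ _ h386 H337 => ?_) H336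
  refine smulK_s he (w := (4:ℝ)) (by norm_num) (by norm_num) (by norm_num) (by norm_num) h386 (fun _ _ _ _ _ h387 H338 => ?_) H337
  refine addK_s he h385 h387 (fun _ _ _ _ _ h388 H339 => ?_) H338
  have h389 := In_cast (w := (vm a f z p q)) h388 rfl
  refine mulK_s he hx2 h337 (fun _ _ _ _ _ h390 H340 => ?_) H339
  refine smulK_s he (w := (2:ℝ)) (by norm_num) (by norm_num) (by norm_num) (by norm_num) h390 (fun _ _ _ _ _ h391 H341 => ?_) H340
  refine subK_s he h389 h391 (fun _ _ _ _ _ h392 H342 => ?_) H341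
  have h393 := In_cast (w := (v0 a f z p q)) h392 rfl
  refine mulK_s he h372 h393 (fun _ _ _ _ _ h394 H343 => ?_) H342
  refine addK_s he h114 h345 (fun _ _ _ _ _ h395 H344 => ?_) H343
  refine smulK_s he (w := (1/2:ℝ)) (by norm_num) (by norm_num) (by norm_num) (by norm_num) h395 (fun _ _ _ _ _ h396 H345 => ?_) H344
  have h397 := In_cast h396 (div_c (c := (2:ℝ)) (by norm_num))
  have h398 := In_cast (w := (beB a f z p q)) h397 rfl
  refine subK_s he h224 h350 (fun _ _ _ _ _ h399 H346 => ?_) H345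
  refine smulK_s he (w := (1/2:ℝ)) (by norm_num) (by norm_num) (by norm_num) (by norm_num) h399 (fun _ _ _ _ _ h400 H347 => ?_) H346
  have h401 := In_cast h400 (div_c (c := (2:ℝ)) (by norm_num))
  have h402 := In_cast (w := (amA a f z p q)) h401 rfl
  refine mulK_s he h398 h402 (fun _ _ _ _ _ h403 H348 => ?_) H347
  refine addK_s he h344 h403 (fun _ _ _ _ _ h404 H349 => ?_) H348
  have h405 := In_cast (w := (w1BA a f z p q)) h404 rfl
  refine negK_s he h301 (fun _ _ _ _ _ h406 H350 => ?_) H349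
  refine mulK_s he hx2 h405 (fun _ _ _ _ _ h407 H351 => ?_) H350
  refine subK_s he h406 h407 (fun _ _ _ _ _ h408 H352 => ?_) H351
  have h409 := In_cast (w := (y1BA a f z p q)) h408 rfl
  refine mulK_s he hx2 h409 (fun _ _ _ _ _ h410 H353 => ?_) H352
  refine addcK_s he h410 (v' := (1:ℝ)) (by norm_num [SS, BB, abs_le]) (fun _ _ _ _ _ h411 H354 => ?_) H353
  have h412 := In_cast h411 (add_comm _ _)
  refine sqrtK_s he h412 (fun _ _ _ _ _ h413 H355 => ?_) H354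
  have h414 := In_cast (w := (g1BA a f z p q)) h413 rfl
  refine addcK_s he h414 (v' := (1:ℝ)) (by norm_num [SS, BB, abs_le]) (fun _ _ _ _ _ h415 H356 => ?_) H355
  have h416 := In_cast h415 (add_comm _ _)
  refine invK_s he h416 (fun _ _ _ _ _ h417 H357 => ?_) H356
  refine mulK_s he h409 h417 (fun _ _ _ _ _ h418 H358 => ?_) H357
  have h419 := In_cast h418 ((div_eq_mul_inv _ _).symm)
  refine sqK_s he h419 (fun _ _ _ _ _ h420 H359 => ?_) H358
  refine addK_s he h405 h420 (fun _ _ _ _ _ h421 H360 => ?_) H359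
  refine addK_s he h389 h391 (fun _ _ _ _ _ h422 H361 => ?_) H360
  have h423 := In_cast (w := (v1 a f z p q)) h422 rfl
  refine mulK_s he h421 h423 (fun _ _ _ _ _ h424 H362 => ?_) H361
  refine addK_s he h394 h424 (fun _ _ _ _ _ h425 H363 => ?_) H362
  refine smulK_s he (w := (1/2:ℝ)) (by norm_num) (by norm_num) (by norm_num) (by norm_num) h425 (fun _ _ _ _ _ h426 H364 => ?_) H363
  have h427 := In_cast h426 (div_c (c := (2:ℝ)) (by norm_num))
  refine subK_s he h340 h427 (fun _ _ _ _ _ h428 H365 => ?_) H364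
  have h429 := In_cast (w := (ZBA a f z p q)) h428 rfl
  refine mulK_s he hx1 h429 (fun _ _ _ _ _ h430 H366 => ?_) H365
  refine negK_s he h430 (fun _ _ _ _ _ h431 H367 => ?_) H366
  refine reluK_s he h431 (fun _ _ _ _ _ h432 H368 => ?_) H367
  refine sqK_s he h432 (fun _ _ _ _ _ h433 H369 => ?_) H368
  refine subK_s he h266 h433 (fun _ _ _ _ _ h434 H370 => ?_) H369
  exact ⟨p0, p1, p2, p3, p4, pos_s he h434 H370⟩

attribute [irreducible] alt0 alt1 alt2 alt3 alt4 alt5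

noncomputable def leaf (j u z1 w1 z2 w2 z3 w3 : ℕ) : Bool :=
  fB (Nat.add (Nat.land (Nat.shiftRight u 0) 65535) 1) fun n1 =>
  fB (Nat.add (Nat.mul n1 16777216) 1152921504606846977) fun p1 =>
  fB (Nat.add (Nat.land (Nat.shiftRight u 16) 65535) 1) fun n2 =>
  fB (Nat.add (Nat.mul n2 16777216) 1152921504606846977) fun p2 =>
  sB j (alt0 p1 p2 z1 w1 z2 w2 z3 w3) fun j => sB j (alt1 p1 p2 z1 w1 z2 w2 z3 w3) fun j => sB j (alt2 p1 p2 z1 w1 z2 w2 z3 w3) fun j => sB j (alt3 p1 p2 z1 w1 z2 w2 z3 w3) fun j => sB j (alt4 p1 p2 z1 w1 z2 w2 z3 w3) fun j => alt5 p1 p2 z1 w1 z2 w2 z3 w3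

theorem snd : Snd Q leaf := by
  intro j u z1 w1 z2 w2 z3 w3 e1 e2 e3 he H
  unfold leaf at H
  unfold Q
  replace H := frc H
  obtain ⟨n1, hn1, H⟩ := H
  replace H := frc H
  obtain ⟨p1, hp1, H⟩ := H
  obtain ⟨hp1, ha, hb⟩ := par (e1 := e1) (e2 := e2) (e3 := e3) hn1 hp1
  refine ⟨_, ha, hb, ?_⟩
  replace H := frc H
  obtain ⟨n2, hn2, H⟩ := H
  replace H := frc H
  obtain ⟨p2, hp2, H⟩ := H
  obtain ⟨hp2, ha, hb⟩ := par (e1 := e1) (e2 := e2) (e3 := e3) hn2 hp2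
  refine ⟨_, ha, hb, ?_⟩
  replace H := sel H
  rcases H with H | ⟨j, H⟩
  · exact Or.inl (alt0_s he hp1 hp2 (var1 z1 w1) (var2 z2 w2) (var3 z3 w3) H)
  replace H := sel H
  rcases H with H | ⟨j, H⟩
  · exact Or.inr (Or.inl (alt1_s he hp1 hp2 (var1 z1 w1) (var2 z2 w2) (var3 z3 w3) H))
  replace H := sel H
  rcases H with H | ⟨j, H⟩
  · exact Or.inr (Or.inr (Or.inl (alt2_s he hp1 hp2 (var1 z1 w1) (var2 z2 w2) (var3 z3 w3) H)))
  replace H := sel H
  rcases H with H | ⟨j, H⟩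
  · exact Or.inr (Or.inr (Or.inr (Or.inl (alt3_s he hp1 hp2 (var1 z1 w1) (var2 z2 w2) (var3 z3 w3) H))))
  replace H := sel H
  rcases H with H | ⟨j, H⟩
  · exact Or.inr (Or.inr (Or.inr (Or.inr (Or.inl (alt4_s he hp1 hp2 (var1 z1 w1) (var2 z2 w2) (var3 z3 w3) H)))))
  exact Or.inr (Or.inr (Or.inr (Or.inr (Or.inr (alt5_s he hp1 hp2 (var1 z1 w1) (var2 z2 w2) (var3 z3 w3) H)))))

end Crest.Agent.R307.HL2J
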