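import Crest.Agent.R307.IA3
import Crest.Agent.R307.IAx
set_option autoImplicit false
set_option linter.unusedVariables false
set_option maxRecDepth 20000
namespace Crest.Agent.R307.HL2K
open Crest.Agent.R307.IA Crest.Agent.R307.IA3

theorem In_cast {e1 e2 e3 : ℝ} {x y1 y2 y3 r : ℕ} {v w : ℝ}
    (h : In e1 e2 e3 x y1 y2 y3 r v) (e : v = w) : In e1 e2 e3 x y1 y2 y3 r w := e ▸ h

noncomputable def tbp (a f s p q : ℝ) : ℝ := ((11/20:ℝ) * p)
noncomputable def tbq (a f s p q : ℝ) : ℝ := ((11/20:ℝ) * q)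
noncomputable def Sbp (a f s p q : ℝ) : ℝ := (((2:ℝ) * (tbp a f s p q)) / ((1:ℝ) + ((tbp a f s p q) ^ 2)))
noncomputable def Cbp (a f s p q : ℝ) : ℝ := ((tbp a f s p q) * (Sbp a f s p q))
noncomputable def K0Bp (a f s p q : ℝ) : ℝ := ((1:ℝ) + (s * (((3/25:ℝ) * s) + (((3/10:ℝ) * (Sbp a f s p q)) - ((Cbp a f s p q) / (4:ℝ))))))
noncomputable def x (a f s p q : ℝ) : ℝ := (((2:ℝ) * a) - (1/2:ℝ))
noncomputable def uh (a f s p q : ℝ) : ℝ := (((((((((((((((-987/1000:ℝ) * (x a f s p q)) + (4077/1000:ℝ)) * (x a f s p q)) + (-23147/4000:ℝ)) * (x a f s p q)) + (11213/4000:ℝ)) * (x a f s p q)) + (123/3200:ℝ)) * (x a f s p q)) + (2023/16000:ℝ)) * (x a f s p q)) + (-12141/12800:ℝ)) * (x a f s p q)) + (75807/64000:ℝ))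
noncomputable def af2 (a f s p q : ℝ) : ℝ := ((4:ℝ) * (a * (f ^ 2)))
noncomputable def dd (a f s p q : ℝ) : ℝ := ((4:ℝ) * ((a * f) ^ 2))
noncomputable def uE (a f s p q : ℝ) : ℝ := ((((((((((((((-6909/500:ℝ) * (x a f s p q)) + (150507/4000:ℝ)) * (x a f s p q)) + (-44979/1600:ℝ)) * (x a f s p q)) + (-721/1600:ℝ)) * (x a f s p q)) + (69123/16000:ℝ)) * (x a f s p q)) + (13983/64000:ℝ)) * (x a f s p q)) + (-56659/128000:ℝ)) + ((dd a f s p q) * ((((((((((-6909/200:ℝ) * (x a f s p q)) + (50169/800:ℝ)) * (x a f s p q)) + (-44979/1600:ℝ)) * (x a f s p q)) + (-721/3200:ℝ)) * (x a f s p q)) + (23041/32000:ℝ)) + ((dd a f s p q) * ((((((-6909/500:ℝ) * (x a f s p q)) + (50169/4000:ℝ)) * (x a f s p q)) + (-14993/8000:ℝ)) + ((-987/2000:ℝ) * (dd a f s p q)))))))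
noncomputable def um (a f s p q : ℝ) : ℝ := ((uh a f s p q) + ((af2 a f s p q) * (uE a f s p q)))
noncomputable def uO (a f s p q : ℝ) : ℝ := ((((((((((((((((-987/250:ℝ) * (x a f s p q)) + (50169/4000:ℝ)) * (x a f s p q)) + (-44979/4000:ℝ)) * (x a f s p q)) + (-721/3200:ℝ)) * (x a f s p q)) + (23041/8000:ℝ)) * (x a f s p q)) + (13983/64000:ℝ)) * (x a f s p q)) + (-56659/64000:ℝ)) * (x a f s p q)) + (90909/256000:ℝ)) + ((dd a f s p q) * ((((((((((((-6909/250:ℝ) * (x a f s p q)) + (50169/800:ℝ)) * (x a f s p q)) + (-14993/400:ℝ)) * (x a f s p q)) + (-721/1600:ℝ)) * (x a f s p q)) + (23041/8000:ℝ)) * (x a f s p q)) + (4661/64000:ℝ)) + ((dd a f s p q) * ((((((((-6909/250:ℝ) * (x a f s p q)) + (150507/4000:ℝ)) * (x a f s p q)) + (-44979/4000:ℝ)) * (x a f s p q)) + (-721/16000:ℝ)) + ((dd a f s p q) * (((-987/250:ℝ) * (x a f s p q)) + (7167/4000:ℝ))))))))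
noncomputable def u0 (a f s p q : ℝ) : ℝ := ((um a f s p q) - ((2:ℝ) * (f * (uO a f s p q))))
noncomputable def K1Bp (a f s p q : ℝ) : ℝ := (((1:ℝ) - (Cbp a f s p q)) - (s * (((3/25:ℝ) * s) + (((7/25:ℝ) * (Sbp a f s p q)) - ((Cbp a f s p q) / (4:ℝ))))))
noncomputable def u1 (a f s p q : ℝ) : ℝ := ((um a f s p q) + ((2:ℝ) * (f * (uO a f s p q))))
noncomputable def lBp (a f s p q : ℝ) : ℝ := (((499/500:ℝ) - ((3/500:ℝ) * s)) * (Sbp a f s p q))
noncomputable def PdB (a f s p q : ℝ) : ℝ := (((((K0Bp a f s p q) * (u0 a f s p q)) + ((K1Bp a f s p q) * (u1 a f s p q))) + ((2:ℝ) * (f * (lBp a f s p q)))) - ((2:ℝ) * (uh a f s p q)))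
noncomputable def Sbq (a f s p q : ℝ) : ℝ := (((2:ℝ) * (tbq a f s p q)) / ((1:ℝ) + ((tbq a f s p q) ^ 2)))
noncomputable def Cbq (a f s p q : ℝ) : ℝ := ((tbq a f s p q) * (Sbq a f s p q))
noncomputable def K0Bq (a f s p q : ℝ) : ℝ := ((1:ℝ) + (s * (((3/25:ℝ) * s) + (((3/10:ℝ) * (Sbq a f s p q)) - ((Cbq a f s p q) / (4:ℝ))))))
noncomputable def ch (a f s p q : ℝ) : ℝ := (((((((((((((((-987/1000:ℝ) * (x a f s p q)) + (2403/500:ℝ)) * (x a f s p q)) + (-34811/4000:ℝ)) * (x a f s p q)) + (13899/2000:ℝ)) * (x a f s p q)) + (-1521/640:ℝ)) * (x a f s p q)) + (1597/1600:ℝ)) * (x a f s p q)) + (-116129/64000:ℝ)) * (x a f s p q)) + (9741/6400:ℝ))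
noncomputable def cE (a f s p q : ℝ) : ℝ := ((((((((((((((-6909/500:ℝ) * (x a f s p q)) + (1449/32:ℝ)) * (x a f s p q)) + (-75597/1600:ℝ)) * (x a f s p q)) + (4157/320:ℝ)) * (x a f s p q)) + (52713/16000:ℝ)) * (x a f s p q)) + (-3651/12800:ℝ)) * (x a f s p q)) + (-84189/128000:ℝ)) + ((dd a f s p q) * ((((((((((-6909/200:ℝ) * (x a f s p q)) + (2415/32:ℝ)) * (x a f s p q)) + (-75597/1600:ℝ)) * (x a f s p q)) + (4157/640:ℝ)) * (x a f s p q)) + (17571/32000:ℝ)) + ((dd a f s p q) * ((((((-6909/500:ℝ) * (x a f s p q)) + (483/32:ℝ)) * (x a f s p q)) + (-25199/8000:ℝ)) + ((-987/2000:ℝ) * (dd a f s p q)))))))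
noncomputable def cm (a f s p q : ℝ) : ℝ := ((ch a f s p q) + ((af2 a f s p q) * (cE a f s p q)))
noncomputable def cO (a f s p q : ℝ) : ℝ := ((((((((((((((((-987/250:ℝ) * (x a f s p q)) + (483/32:ℝ)) * (x a f s p q)) + (-75597/4000:ℝ)) * (x a f s p q)) + (4157/640:ℝ)) * (x a f s p q)) + (17571/8000:ℝ)) * (x a f s p q)) + (-3651/12800:ℝ)) * (x a f s p q)) + (-84189/64000:ℝ)) * (x a f s p q)) + (78691/256000:ℝ)) + ((dd a f s p q) * ((((((((((((-6909/250:ℝ) * (x a f s p q)) + (2415/32:ℝ)) * (x a f s p q)) + (-25199/400:ℝ)) * (x a f s p q)) + (4157/320:ℝ)) * (x a f s p q)) + (17571/8000:ℝ)) * (x a f s p q)) + (-1217/12800:ℝ)) + ((dd a f s p q) * ((((((((-6909/250:ℝ) * (x a f s p q)) + (1449/32:ℝ)) * (x a f s p q)) + (-75597/4000:ℝ)) * (x a f s p q)) + (4157/3200:ℝ)) + ((dd a f s p q) * (((-987/250:ℝ) * (x a f s p q)) + (69/32:ℝ))))))))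
noncomputable def c1 (a f s p q : ℝ) : ℝ := ((cm a f s p q) + ((2:ℝ) * (f * (cO a f s p q))))
noncomputable def K1Bq (a f s p q : ℝ) : ℝ := (((1:ℝ) - (Cbq a f s p q)) - (s * (((3/25:ℝ) * s) + (((7/25:ℝ) * (Sbq a f s p q)) - ((Cbq a f s p q) / (4:ℝ))))))
noncomputable def c0 (a f s p q : ℝ) : ℝ := ((cm a f s p q) - ((2:ℝ) * (f * (cO a f s p q))))
noncomputable def lBq (a f s p q : ℝ) : ℝ := (((499/500:ℝ) - ((3/500:ℝ) * s)) * (Sbq a f s p q))
noncomputable def QdB (a f s p q : ℝ) : ℝ := (((((K0Bq a f s p q) * (c1 a f s p q)) + ((K1Bq a f s p q) * (c0 a f s p q))) + ((2:ℝ) * (f * (lBq a f s p q)))) - ((2:ℝ) * (ch a f s p q)))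
noncomputable def vh (a f s p q : ℝ) : ℝ := (((((((((((((238/125:ℝ) * (x a f s p q)) + (-238/25:ℝ)) * (x a f s p q)) + (2264/125:ℝ)) * (x a f s p q)) + (-407/25:ℝ)) * (x a f s p q)) + (7321/1000:ℝ)) * (x a f s p q)) + (-2361/1000:ℝ)) * (x a f s p q)) + (927/1000:ℝ))
noncomputable def vE (a f s p q : ℝ) : ℝ := ((((((((((((((1666/125:ℝ) * (x a f s p q)) + (-4998/125:ℝ)) * (x a f s p q)) + (6801/200:ℝ)) * (x a f s p q)) + (-137/100:ℝ)) * (x a f s p q)) + (-13293/2000:ℝ)) * (x a f s p q)) + (267/400:ℝ)) * (x a f s p q)) + (317/3200:ℝ)) + ((dd a f s p q) * ((((((((((833/25:ℝ) * (x a f s p q)) + (-1666/25:ℝ)) * (x a f s p q)) + (6801/200:ℝ)) * (x a f s p q)) + (-137/200:ℝ)) * (x a f s p q)) + (-4431/4000:ℝ)) + ((dd a f s p q) * ((((((1666/125:ℝ) * (x a f s p q)) + (-1666/125:ℝ)) * (x a f s p q)) + (2267/1000:ℝ)) + ((119/250:ℝ) * (dd a f s p q)))))))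
noncomputable def vm (a f s p q : ℝ) : ℝ := ((vh a f s p q) + ((4:ℝ) * ((f ^ 2) * (vE a f s p q))))
noncomputable def vO (a f s p q : ℝ) : ℝ := ((((((((((((((952/125:ℝ) * (x a f s p q)) + (-3808/125:ℝ)) * (x a f s p q)) + (10609/250:ℝ)) * (x a f s p q)) + (-5647/250:ℝ)) * (x a f s p q)) + (304/125:ℝ)) * (x a f s p q)) + (119/1000:ℝ)) * (x a f s p q)) + (1347/4000:ℝ)) + ((af2 a f s p q) * ((((((((((((3332/125:ℝ) * (x a f s p q)) + (-1666/25:ℝ)) * (x a f s p q)) + (2267/50:ℝ)) * (x a f s p q)) + (-137/100:ℝ)) * (x a f s p q)) + (-4431/1000:ℝ)) * (x a f s p q)) + (89/400:ℝ)) + ((dd a f s p q) * ((((((((3332/125:ℝ) * (x a f s p q)) + (-4998/125:ℝ)) * (x a f s p q)) + (6801/500:ℝ)) * (x a f s p q)) + (-137/1000:ℝ)) + ((dd a f s p q) * (((476/125:ℝ) * (x a f s p q)) + (-238/125:ℝ))))))))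
noncomputable def v0 (a f s p q : ℝ) : ℝ := ((vm a f s p q) - ((2:ℝ) * (f * (vO a f s p q))))
noncomputable def v1 (a f s p q : ℝ) : ℝ := ((vm a f s p q) + ((2:ℝ) * (f * (vO a f s p q))))
noncomputable def ZdBB (a f s p q : ℝ) : ℝ := ((((√((K0Bp a f s p q) * (K1Bq a f s p q))) * (v0 a f s p q)) + ((√((K1Bp a f s p q) * (K0Bq a f s p q))) * (v1 a f s p q))) - ((2:ℝ) * (vh a f s p q)))
noncomputable def tdq (a f s p q : ℝ) : ℝ := ((11/20:ℝ) + ((9/20:ℝ) * q))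
noncomputable def Dq (a f s p q : ℝ) : ℝ := ((1:ℝ) / ((1:ℝ) + ((tdq a f s p q) ^ 2)))
noncomputable def K0Dq (a f s p q : ℝ) : ℝ := ((1:ℝ) + (s * (((-1/20:ℝ) + ((tdq a f s p q) * ((3/5:ℝ) - ((21/50:ℝ) * (tdq a f s p q))))) * (Dq a f s p q))))
noncomputable def BDq (a f s p q : ℝ) : ℝ := (((1:ℝ) + (tdq a f s p q)) - (s * ((((93/100:ℝ) * (tdq a f s p q)) - (17/100:ℝ)) + (s * ((1/10:ℝ) + ((3/25:ℝ) * (tdq a f s p q)))))))
noncomputable def K1Dq (a f s p q : ℝ) : ℝ := ((((1:ℝ) - (tdq a f s p q)) * (Dq a f s p q)) * (BDq a f s p q))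
noncomputable def lDq (a f s p q : ℝ) : ℝ := ((((2:ℝ) * (tdq a f s p q)) - ((1/250:ℝ) * ((1:ℝ) - (tdq a f s p q)))) * (Dq a f s p q))
noncomputable def QdD (a f s p q : ℝ) : ℝ := (((((K0Dq a f s p q) * (c1 a f s p q)) + ((K1Dq a f s p q) * (c0 a f s p q))) + ((2:ℝ) * (f * (lDq a f s p q)))) - ((2:ℝ) * (ch a f s p q)))
noncomputable def ZdBD (a f s p q : ℝ) : ℝ := ((((√((K0Bp a f s p q) * (K1Dq a f s p q))) * (v0 a f s p q)) + ((√((K1Bp a f s p q) * (K0Dq a f s p q))) * (v1 a f s p q))) - ((2:ℝ) * (vh a f s p q)))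
noncomputable def tdp (a f s p q : ℝ) : ℝ := ((11/20:ℝ) + ((9/20:ℝ) * p))
noncomputable def Dp (a f s p q : ℝ) : ℝ := ((1:ℝ) / ((1:ℝ) + ((tdp a f s p q) ^ 2)))
noncomputable def K0Dp (a f s p q : ℝ) : ℝ := ((1:ℝ) + (s * (((-1/20:ℝ) + ((tdp a f s p q) * ((3/5:ℝ) - ((21/50:ℝ) * (tdp a f s p q))))) * (Dp a f s p q))))
noncomputable def BDp (a f s p q : ℝ) : ℝ := (((1:ℝ) + (tdp a f s p q)) - (s * ((((93/100:ℝ) * (tdp a f s p q)) - (17/100:ℝ)) + (s * ((1/10:ℝ) + ((3/25:ℝ) * (tdp a f s p q)))))))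
noncomputable def K1Dp (a f s p q : ℝ) : ℝ := ((((1:ℝ) - (tdp a f s p q)) * (Dp a f s p q)) * (BDp a f s p q))
noncomputable def lDp (a f s p q : ℝ) : ℝ := ((((2:ℝ) * (tdp a f s p q)) - ((1/250:ℝ) * ((1:ℝ) - (tdp a f s p q)))) * (Dp a f s p q))
noncomputable def PdD (a f s p q : ℝ) : ℝ := (((((K0Dp a f s p q) * (u0 a f s p q)) + ((K1Dp a f s p q) * (u1 a f s p q))) + ((2:ℝ) * (f * (lDp a f s p q)))) - ((2:ℝ) * (uh a f s p q)))
noncomputable def ZdDD (a f s p q : ℝ) : ℝ := ((((√((K0Dp a f s p q) * (K1Dq a f s p q))) * (v0 a f s p q)) + ((√((K1Dp a f s p q) * (K0Dq a f s p q))) * (v1 a f s p q))) - ((2:ℝ) * (vh a f s p q)))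
noncomputable def ZdDB (a f s p q : ℝ) : ℝ := ((((√((K0Dp a f s p q) * (K1Bq a f s p q))) * (v0 a f s p q)) + ((√((K1Dp a f s p q) * (K0Bq a f s p q))) * (v1 a f s p q))) - ((2:ℝ) * (vh a f s p q)))
noncomputable def lAp (a f s p q : ℝ) : ℝ := (((3:ℝ) * p) * f)
noncomputable def K0Ap (a f s p q : ℝ) : ℝ := (((1:ℝ) + ((2/3:ℝ) * (s * (lAp a f s p q)))) - ((3/10:ℝ) * ((lAp a f s p q) ^ 2)))
noncomputable def K1Ap (a f s p q : ℝ) : ℝ := (((1:ℝ) - ((2/3:ℝ) * (s * (lAp a f s p q)))) - ((39/200:ℝ) * ((lAp a f s p q) ^ 2)))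
noncomputable def PdA (a f s p q : ℝ) : ℝ := (((((K0Ap a f s p q) * (u0 a f s p q)) + ((K1Ap a f s p q) * (u1 a f s p q))) + ((2:ℝ) * (f * (lAp a f s p q)))) - ((2:ℝ) * (uh a f s p q)))
noncomputable def ZdAB (a f s p q : ℝ) : ℝ := ((((√((K0Ap a f s p q) * (K1Bq a f s p q))) * (v0 a f s p q)) + ((√((K1Ap a f s p q) * (K0Bq a f s p q))) * (v1 a f s p q))) - ((2:ℝ) * (vh a f s p q)))
noncomputable def ZdAD (a f s p q : ℝ) : ℝ := ((((√((K0Ap a f s p q) * (K1Dq a f s p q))) * (v0 a f s p q)) + ((√((K1Ap a f s p q) * (K0Dq a f s p q))) * (v1 a f s p q))) - ((2:ℝ) * (vh a f s p q)))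

def Q (a f s : ℝ) : Prop :=
  ∃ p : ℝ, 0 ≤ p ∧ p ≤ 1 ∧ ∃ q : ℝ, 0 ≤ q ∧ q ≤ 1 ∧ (
  (0 < ((100:ℝ) * ((1/25:ℝ) - ((1:ℝ) - ((2:ℝ) * (a * f)))))) ∨
  (0 < ((tbp a f s p q) - ((3/10:ℝ) * s)) ∧ 0 < ((tbq a f s p q) - ((3/10:ℝ) * s)) ∧ 0 < (PdB a f s p q) ∧ 0 < (QdB a f s p q) ∧ 0 < (((PdB a f s p q) * (QdB a f s p q)) - ((max (-(a * (ZdBB a f s p q))) (0:ℝ)) ^ 2))) ∨
  (0 < ((tbp a f s p q) - ((3/10:ℝ) * s)) ∧ 0 < (PdB a f s p q) ∧ 0 < (QdD a f s p q) ∧ 0 < (((PdB a f s p q) * (QdD a f s p q)) - ((max (-(a * (ZdBD a f s p q))) (0:ℝ)) ^ 2))) ∨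
  (0 < (PdD a f s p q) ∧ 0 < (QdD a f s p q) ∧ 0 < (((PdD a f s p q) * (QdD a f s p q)) - ((max (-(a * (ZdDD a f s p q))) (0:ℝ)) ^ 2))) ∨
  (0 < ((tbq a f s p q) - ((3/10:ℝ) * s)) ∧ 0 < (PdD a f s p q) ∧ 0 < (QdB a f s p q) ∧ 0 < (((PdD a f s p q) * (QdB a f s p q)) - ((max (-(a * (ZdDB a f s p q))) (0:ℝ)) ^ 2))) ∨
  (0 < (((3/4:ℝ) * s) - (lAp a f s p q)) ∧ 0 < ((tbq a f s p q) - ((3/10:ℝ) * s)) ∧ 0 < (PdA a f s p q) ∧ 0 < (QdB a f s p q) ∧ 0 < (((PdA a f s p q) * (QdB a f s p q)) - ((max (-(a * (ZdAB a f s p q))) (0:ℝ)) ^ 2))) ∨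
  (0 < (((3/4:ℝ) * s) - (lAp a f s p q)) ∧ 0 < (PdA a f s p q) ∧ 0 < (QdD a f s p q) ∧ 0 < (((PdA a f s p q) * (QdD a f s p q)) - ((max (-(a * (ZdAD a f s p q))) (0:ℝ)) ^ 2))))

noncomputable def alt0 (p1 p2 z1 w1 z2 w2 z3 w3 : ℕ) : Bool :=
  mulK z1 (Nat.add w1 1152921504606846976) 1152921504606846976 1152921504606846976 0 z2 1152921504606846976 (Nat.add w2 1152921504606846976) 1152921504606846976 0 fun c1 a1_1 a1_2 a1_3 q1 =>
  smulK 2 1 1152921504606846977 2305843009213693952 c1 a1_1 a1_2 a1_3 q1 fun c2 a2_1 a2_2 a2_3 q2 =>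
  negK c2 a2_1 a2_2 a2_3 q2 fun c3 a3_1 a3_2 a3_3 q3 =>
  addcK c3 a3_1 a3_2 a3_3 q3 1152922604118474752 0 fun c4 a4_1 a4_2 a4_3 q4 =>
  negK c4 a4_1 a4_2 a4_3 q4 fun c6 a6_1 a6_2 a6_3 q6 =>
  addcK c6 a6_1 a6_2 a6_3 q6 1152921548587312087 1 fun c7 a7_1 a7_2 a7_3 q7 =>
  smulK 100 1 1152921504606846977 115292150460684697600 c7 a7_1 a7_2 a7_3 q7 fun c9 a9_1 a9_2 a9_3 q9 =>
  pos c9 a9_1 a9_2 a9_3 q9

theorem alt0_s {p1 p2 z1 w1 z2 w2 z3 w3 : ℕ} {e1 e2 e3 a f s p q : ℝ} (he : Ev e1 e2 e3)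
    (hp1 : In e1 e2 e3 p1 1152921504606846976 1152921504606846976 1152921504606846976 0 p)
    (hp2 : In e1 e2 e3 p2 1152921504606846976 1152921504606846976 1152921504606846976 0 q)
    (hx1 : In e1 e2 e3 z1 (Nat.add w1 1152921504606846976) 1152921504606846976 1152921504606846976 0 a)
    (hx2 : In e1 e2 e3 z2 1152921504606846976 (Nat.add w2 1152921504606846976) 1152921504606846976 0 f)
    (hx3 : In e1 e2 e3 z3 1152921504606846976 1152921504606846976 (Nat.add w3 1152921504606846976) 0 s)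
    (H0 : alt0 p1 p2 z1 w1 z2 w2 z3 w3 = true) : 0 < ((100:ℝ) * ((1/25:ℝ) - ((1:ℝ) - ((2:ℝ) * (a * f))))) := by
  unfold alt0 at H0
  refine mulK_s he hx1 hx2 (fun _ _ _ _ _ h1 H1 => ?_) H0
  refine smulK_s he (w := (2:ℝ)) (by norm_num) (by norm_num) (by norm_num) (by norm_num) h1 (fun _ _ _ _ _ h2 H2 => ?_) H1
  refine negK_s he h2 (fun _ _ _ _ _ h3 H3 => ?_) H2
  refine addcK_s he h3 (v' := (1:ℝ)) (by norm_num [SS, BB, abs_le]) (fun _ _ _ _ _ h4 H4 => ?_) H3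
  have h5 := In_cast h4 (neg_add_eq_sub _ _)
  refine negK_s he h5 (fun _ _ _ _ _ h6 H5 => ?_) H4
  refine addcK_s he h6 (v' := (1/25:ℝ)) (by norm_num [SS, BB, abs_le]) (fun _ _ _ _ _ h7 H6 => ?_) H5
  have h8 := In_cast h7 (neg_add_eq_sub _ _)
  refine smulK_s he (w := (100:ℝ)) (by norm_num) (by norm_num) (by norm_num) (by norm_num) h8 (fun _ _ _ _ _ h9 H7 => ?_) H6
  exact pos_s he h9 H7

noncomputable def alt1 (p1 p2 z1 w1 z2 w2 z3 w3 : ℕ) : Bool :=
  smulK 11 20 23058430092136939540 12682136550675316736 p1 1152921504606846976 1152921504606846976 1152921504606846976 0 fun c1 a1_1 a1_2 a1_3 q1 =>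
  smulK 3 10 11529215046068469770 3458764513820540928 z3 1152921504606846976 1152921504606846976 (Nat.add w3 1152921504606846976) 0 fun c3 a3_1 a3_2 a3_3 q3 =>
  subK c1 a1_1 a1_2 a1_3 q1 c3 a3_1 a3_2 a3_3 q3 fun c4 a4_1 a4_2 a4_3 q4 =>
  posK c4 a4_1 a4_2 a4_3 q4 <|
  smulK 11 20 23058430092136939540 12682136550675316736 p2 1152921504606846976 1152921504606846976 1152921504606846976 0 fun c5 a5_1 a5_2 a5_3 q5 =>
  subK c5 a5_1 a5_2 a5_3 q5 c3 a3_1 a3_2 a3_3 q3 fun c7 a7_1 a7_2 a7_3 q7 =>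
  posK c7 a7_1 a7_2 a7_3 q7 <|
  smulK 3 25 28823037615171174425 3458764513820540928 z3 1152921504606846976 1152921504606846976 (Nat.add w3 1152921504606846976) 0 fun c8 a8_1 a8_2 a8_3 q8 =>
  sqK c1 a1_1 a1_2 a1_3 q1 fun c9 a9_1 a9_2 a9_3 q9 =>
  addcK c9 a9_1 a9_2 a9_3 q9 1152922604118474752 0 fun c10 a10_1 a10_2 a10_3 q10 =>
  invK c10 a10_1 a10_2 a10_3 q10 fun c12 a12_1 a12_2 a12_3 q12 =>
  smulK 2 1 1152921504606846977 2305843009213693952 c1 a1_1 a1_2 a1_3 q1 fun c13 a13_1 a13_2 a13_3 q13 =>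
  mulK c13 a13_1 a13_2 a13_3 q13 c12 a12_1 a12_2 a12_3 q12 fun c14 a14_1 a14_2 a14_3 q14 =>
  smulK 3 10 11529215046068469770 3458764513820540928 c14 a14_1 a14_2 a14_3 q14 fun c17 a17_1 a17_2 a17_3 q17 =>
  mulK c1 a1_1 a1_2 a1_3 q1 c14 a14_1 a14_2 a14_3 q14 fun c18 a18_1 a18_2 a18_3 q18 =>
  smulK 1 4 4611686018427387908 1152921504606846976 c18 a18_1 a18_2 a18_3 q18 fun c20 a20_1 a20_2 a20_3 q20 =>
  subK c17 a17_1 a17_2 a17_3 q17 c20 a20_1 a20_2 a20_3 q20 fun c22 a22_1 a22_2 a22_3 q22 =>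
  addK c8 a8_1 a8_2 a8_3 q8 c22 a22_1 a22_2 a22_3 q22 fun c23 a23_1 a23_2 a23_3 q23 =>
  mulK z3 1152921504606846976 1152921504606846976 (Nat.add w3 1152921504606846976) 0 c23 a23_1 a23_2 a23_3 q23 fun c24 a24_1 a24_2 a24_3 q24 =>
  addcK c24 a24_1 a24_2 a24_3 q24 1152922604118474752 0 fun c25 a25_1 a25_2 a25_3 q25 =>
  smulK 2 1 1152921504606846977 2305843009213693952 z1 (Nat.add w1 1152921504606846976) 1152921504606846976 1152921504606846976 0 fun c28 a28_1 a28_2 a28_3 q28 =>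
  addcK c28 a28_1 a28_2 a28_3 q28 1152920954851033088 0 fun c29 a29_1 a29_2 a29_3 q29 =>
  smulK 987 1000 1152921504606846977000 1137933525046957965312 c29 a29_1 a29_2 a29_3 q29 fun c32 a32_1 a32_2 a32_3 q32 =>
  negK c32 a32_1 a32_2 a32_3 q32 fun c33 a33_1 a33_2 a33_3 q33 =>
  addcK c33 a33_1 a33_2 a33_3 q33 1152925987315753419 1 fun c35 a35_1 a35_2 a35_3 q35 =>
  mulK c35 a35_1 a35_2 a35_3 q35 c29 a29_1 a29_2 a29_3 q29 fun c36 a36_1 a36_2 a36_3 q36 =>
  addcK c36 a36_1 a36_2 a36_3 q36 1152915142007934943 1 fun c37 a37_1 a37_2 a37_3 q37 =>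
  mulK c37 a37_1 a37_2 a37_3 q37 c29 a29_1 a29_2 a29_3 q29 fun c38 a38_1 a38_2 a38_3 q38 =>
  addcK c38 a38_1 a38_2 a38_3 q38 1152924586812817539 1 fun c39 a39_1 a39_2 a39_3 q39 =>
  mulK c39 a39_1 a39_2 a39_3 q39 c29 a29_1 a29_2 a29_3 q29 fun c40 a40_1 a40_2 a40_3 q40 =>
  addcK c40 a40_1 a40_2 a40_3 q40 1152921546869325169 1 fun c41 a41_1 a41_2 a41_3 q41 =>
  mulK c41 a41_1 a41_2 a41_3 q41 c29 a29_1 a29_2 a29_3 q29 fun c42 a42_1 a42_2 a42_3 q42 =>
  addcK c42 a42_1 a42_2 a42_3 q42 1152921643626348413 1 fun c43 a43_1 a43_2 a43_3 q43 =>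
  mulK c43 a43_1 a43_2 a43_3 q43 c29 a29_1 a29_2 a29_3 q29 fun c44 a44_1 a44_2 a44_3 q44 =>
  addcK c44 a44_1 a44_2 a44_3 q44 1152920461702888161 1 fun c45 a45_1 a45_2 a45_3 q45 =>
  mulK c45 a45_1 a45_2 a45_3 q45 c29 a29_1 a29_2 a29_3 q29 fun c46 a46_1 a46_2 a46_3 q46 =>
  addcK c46 a46_1 a46_2 a46_3 q46 1152922806961190207 1 fun c47 a47_1 a47_2 a47_3 q47 =>
  sqK z2 1152921504606846976 (Nat.add w2 1152921504606846976) 1152921504606846976 0 fun c49 a49_1 a49_2 a49_3 q49 =>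
  mulK z1 (Nat.add w1 1152921504606846976) 1152921504606846976 1152921504606846976 0 c49 a49_1 a49_2 a49_3 q49 fun c50 a50_1 a50_2 a50_3 q50 =>
  smulK 4 1 1152921504606846977 4611686018427387904 c50 a50_1 a50_2 a50_3 q50 fun c51 a51_1 a51_2 a51_3 q51 =>
  smulK 6909 500 576460752303423488500 7965534675328705757184 c29 a29_1 a29_2 a29_3 q29 fun c53 a53_1 a53_2 a53_3 q53 =>
  negK c53 a53_1 a53_2 a53_3 q53 fun c54 a54_1 a54_2 a54_3 q54 =>
  addcK c54 a54_1 a54_2 a54_3 q54 1152962875655987397 1 fun c56 a56_1 a56_2 a56_3 q56 =>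
  mulK c56 a56_1 a56_2 a56_3 q56 c29 a29_1 a29_2 a29_3 q29 fun c57 a57_1 a57_2 a57_3 q57 =>
  addcK c57 a57_1 a57_2 a57_3 q57 1152890595273405891 1 fun c58 a58_1 a58_2 a58_3 q58 =>
  mulK c58 a58_1 a58_2 a58_3 q58 c29 a29_1 a29_2 a29_3 q29 fun c59 a59_1 a59_2 a59_3 q59 =>
  addcK c59 a59_1 a59_2 a59_3 q59 1152921009139419709 1 fun c60 a60_1 a60_2 a60_3 q60 =>
  mulK c60 a60_1 a60_2 a60_3 q60 c29 a29_1 a29_2 a29_3 q29 fun c61 a61_1 a61_2 a61_3 q61 =>
  addcK c61 a61_1 a61_2 a61_3 q61 1152926254703237399 1 fun c62 a62_1 a62_2 a62_3 q62 =>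
  mulK c62 a62_1 a62_2 a62_3 q62 c29 a29_1 a29_2 a29_3 q29 fun c63 a63_1 a63_2 a63_3 q63 =>
  addcK c63 a63_1 a63_2 a63_3 q63 1152921744832957776 1 fun c64 a64_1 a64_2 a64_3 q64 =>
  mulK c64 a64_1 a64_2 a64_3 q64 c29 a29_1 a29_2 a29_3 q29 fun c65 a65_1 a65_2 a65_3 q65 =>
  addcK c65 a65_1 a65_2 a65_3 q65 1152921017909742928 1 fun c66 a66_1 a66_2 a66_3 q66 =>
  mulK z1 (Nat.add w1 1152921504606846976) 1152921504606846976 1152921504606846976 0 z2 1152921504606846976 (Nat.add w2 1152921504606846976) 1152921504606846976 0 fun c67 a67_1 a67_2 a67_3 q67 =>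
  sqK c67 a67_1 a67_2 a67_3 q67 fun c68 a68_1 a68_2 a68_3 q68 =>
  smulK 4 1 1152921504606846977 4611686018427387904 c68 a68_1 a68_2 a68_3 q68 fun c69 a69_1 a69_2 a69_3 q69 =>
  smulK 6909 200 230584300921369395400 7965534675328705757184 c29 a29_1 a29_2 a29_3 q29 fun c71 a71_1 a71_2 a71_3 q71 =>
  negK c71 a71_1 a71_2 a71_3 q71 fun c72 a72_1 a72_2 a72_3 q72 =>
  addcK c72 a72_1 a72_2 a72_3 q72 1152990456355414344 1 fun c74 a74_1 a74_2 a74_3 q74 =>
  mulK c74 a74_1 a74_2 a74_3 q74 c29 a29_1 a29_2 a29_3 q29 fun c75 a75_1 a75_2 a75_3 q75 =>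
  addcK c75 a75_1 a75_2 a75_3 q75 1152890595273405891 1 fun c76 a76_1 a76_2 a76_3 q76 =>
  mulK c76 a76_1 a76_2 a76_3 q76 c29 a29_1 a29_2 a29_3 q29 fun c77 a77_1 a77_2 a77_3 q77 =>
  addcK c77 a77_1 a77_2 a77_3 q77 1152921256873133343 1 fun c78 a78_1 a78_2 a78_3 q78 =>
  mulK c78 a78_1 a78_2 a78_3 q78 c29 a29_1 a29_2 a29_3 q29 fun c79 a79_1 a79_2 a79_3 q79 =>
  addcK c79 a79_1 a79_2 a79_3 q79 1152922296289578713 1 fun c80 a80_1 a80_2 a80_3 q80 =>
  addcK c54 a54_1 a54_2 a54_3 q54 1152935294956560450 1 fun c81 a81_1 a81_2 a81_3 q81 =>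
  mulK c81 a81_1 a81_2 a81_3 q81 c29 a29_1 a29_2 a29_3 q29 fun c82 a82_1 a82_2 a82_3 q82 =>
  addcK c82 a82_1 a82_2 a82_3 q82 1152919443984617570 1 fun c83 a83_1 a83_2 a83_3 q83 =>
  smulK 987 2000 2305843009213693954000 1137933525046957965312 c69 a69_1 a69_2 a69_3 q69 fun c84 a84_1 a84_2 a84_3 q84 =>
  negK c84 a84_1 a84_2 a84_3 q84 fun c85 a85_1 a85_2 a85_3 q85 =>
  addK c83 a83_1 a83_2 a83_3 q83 c85 a85_1 a85_2 a85_3 q85 fun c87 a87_1 a87_2 a87_3 q87 =>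
  mulK c69 a69_1 a69_2 a69_3 q69 c87 a87_1 a87_2 a87_3 q87 fun c88 a88_1 a88_2 a88_3 q88 =>
  addK c80 a80_1 a80_2 a80_3 q80 c88 a88_1 a88_2 a88_3 q88 fun c89 a89_1 a89_2 a89_3 q89 =>
  mulK c69 a69_1 a69_2 a69_3 q69 c89 a89_1 a89_2 a89_3 q89 fun c90 a90_1 a90_2 a90_3 q90 =>
  addK c66 a66_1 a66_2 a66_3 q66 c90 a90_1 a90_2 a90_3 q90 fun c91 a91_1 a91_2 a91_3 q91 =>
  mulK c51 a51_1 a51_2 a51_3 q51 c91 a91_1 a91_2 a91_3 q91 fun c93 a93_1 a93_2 a93_3 q93 =>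
  addK c47 a47_1 a47_2 a47_3 q47 c93 a93_1 a93_2 a93_3 q93 fun c94 a94_1 a94_2 a94_3 q94 =>
  smulK 987 250 288230376151711744250 1137933525046957965312 c29 a29_1 a29_2 a29_3 q29 fun c96 a96_1 a96_2 a96_3 q96 =>
  negK c96 a96_1 a96_2 a96_3 q96 fun c97 a97_1 a97_2 a97_3 q97 =>
  addcK c97 a97_1 a97_2 a97_3 q97 1152935294956560450 1 fun c99 a99_1 a99_2 a99_3 q99 =>
  mulK c99 a99_1 a99_2 a99_3 q99 c29 a29_1 a29_2 a29_3 q29 fun c100 a100_1 a100_2 a100_3 q100 =>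
  addcK c100 a100_1 a100_2 a100_3 q100 1152909140873470542 1 fun c101 a101_1 a101_2 a101_3 q101 =>
  mulK c101 a101_1 a101_2 a101_3 q101 c29 a29_1 a29_2 a29_3 q29 fun c102 a102_1 a102_2 a102_3 q102 =>
  addcK c102 a102_1 a102_2 a102_3 q102 1152921256873133343 1 fun c103 a103_1 a103_2 a103_3 q103 =>
  mulK c103 a103_1 a103_2 a103_3 q103 c29 a29_1 a29_2 a29_3 q29 fun c104 a104_1 a104_2 a104_3 q104 =>
  addcK c104 a104_1 a104_2 a104_3 q104 1152924671337773924 1 fun c105 a105_1 a105_2 a105_3 q105 =>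
  mulK c105 a105_1 a105_2 a105_3 q105 c29 a29_1 a29_2 a29_3 q29 fun c106 a106_1 a106_2 a106_3 q106 =>
  addcK c106 a106_1 a106_2 a106_3 q106 1152921744832957776 1 fun c107 a107_1 a107_2 a107_3 q107 =>
  mulK c107 a107_1 a107_2 a107_3 q107 c29 a29_1 a29_2 a29_3 q29 fun c108 a108_1 a108_2 a108_3 q108 =>
  addcK c108 a108_1 a108_2 a108_3 q108 1152920531212638880 1 fun c109 a109_1 a109_2 a109_3 q109 =>
  mulK c109 a109_1 a109_2 a109_3 q109 c29 a29_1 a29_2 a29_3 q29 fun c110 a110_1 a110_2 a110_3 q110 =>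
  addcK c110 a110_1 a110_2 a110_3 q110 1152921895058028888 1 fun c111 a111_1 a111_2 a111_3 q111 =>
  smulK 6909 250 288230376151711744250 7965534675328705757184 c29 a29_1 a29_2 a29_3 q29 fun c112 a112_1 a112_2 a112_3 q112 =>
  negK c112 a112_1 a112_2 a112_3 q112 fun c113 a113_1 a113_2 a113_3 q113 =>
  addcK c113 a113_1 a113_2 a113_3 q113 1152990456355414344 1 fun c115 a115_1 a115_2 a115_3 q115 =>
  mulK c115 a115_1 a115_2 a115_3 q115 c29 a29_1 a29_2 a29_3 q29 fun c116 a116_1 a116_2 a116_3 q116 =>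
  addcK c116 a116_1 a116_2 a116_3 q116 1152880292162258862 1 fun c117 a117_1 a117_2 a117_3 q117 =>
  mulK c117 a117_1 a117_2 a117_3 q117 c29 a29_1 a29_2 a29_3 q29 fun c118 a118_1 a118_2 a118_3 q118 =>
  addcK c118 a118_1 a118_2 a118_3 q118 1152921009139419709 1 fun c119 a119_1 a119_2 a119_3 q119 =>
  mulK c119 a119_1 a119_2 a119_3 q119 c29 a29_1 a29_2 a29_3 q29 fun c120 a120_1 a120_2 a120_3 q120 =>
  addcK c120 a120_1 a120_2 a120_3 q120 1152924671337773924 1 fun c121 a121_1 a121_2 a121_3 q121 =>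
  mulK c121 a121_1 a121_2 a121_3 q121 c29 a29_1 a29_2 a29_3 q29 fun c122 a122_1 a122_2 a122_3 q122 =>
  addcK c122 a122_1 a122_2 a122_3 q122 1152921584682217243 1 fun c123 a123_1 a123_2 a123_3 q123 =>
  addcK c113 a113_1 a113_2 a113_3 q113 1152962875655987397 1 fun c124 a124_1 a124_2 a124_3 q124 =>
  mulK c124 a124_1 a124_2 a124_3 q124 c29 a29_1 a29_2 a29_3 q29 fun c125 a125_1 a125_2 a125_3 q125 =>
  addcK c125 a125_1 a125_2 a125_3 q125 1152909140873470542 1 fun c126 a126_1 a126_2 a126_3 q126 =>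
  mulK c126 a126_1 a126_2 a126_3 q126 c29 a29_1 a29_2 a29_3 q29 fun c127 a127_1 a127_2 a127_3 q127 =>
  addcK c127 a127_1 a127_2 a127_3 q127 1152921455060104249 1 fun c128 a128_1 a128_2 a128_3 q128 =>
  addcK c97 a97_1 a97_2 a97_3 q97 1152923474656806044 1 fun c129 a129_1 a129_2 a129_3 q129 =>
  mulK c69 a69_1 a69_2 a69_3 q69 c129 a129_1 a129_2 a129_3 q129 fun c130 a130_1 a130_2 a130_3 q130 =>
  addK c128 a128_1 a128_2 a128_3 q128 c130 a130_1 a130_2 a130_3 q130 fun c131 a131_1 a131_2 a131_3 q131 =>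
  mulK c69 a69_1 a69_2 a69_3 q69 c131 a131_1 a131_2 a131_3 q131 fun c132 a132_1 a132_2 a132_3 q132 =>
  addK c123 a123_1 a123_2 a123_3 q123 c132 a132_1 a132_2 a132_3 q132 fun c133 a133_1 a133_2 a133_3 q133 =>
  mulK c69 a69_1 a69_2 a69_3 q69 c133 a133_1 a133_2 a133_3 q133 fun c134 a134_1 a134_2 a134_3 q134 =>
  addK c111 a111_1 a111_2 a111_3 q111 c134 a134_1 a134_2 a134_3 q134 fun c135 a135_1 a135_2 a135_3 q135 =>
  mulK z2 1152921504606846976 (Nat.add w2 1152921504606846976) 1152921504606846976 0 c135 a135_1 a135_2 a135_3 q135 fun c137 a137_1 a137_2 a137_3 q137 =>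
  smulK 2 1 1152921504606846977 2305843009213693952 c137 a137_1 a137_2 a137_3 q137 fun c138 a138_1 a138_2 a138_3 q138 =>
  subK c94 a94_1 a94_2 a94_3 q94 c138 a138_1 a138_2 a138_3 q138 fun c139 a139_1 a139_2 a139_3 q139 =>
  mulK c25 a25_1 a25_2 a25_3 q25 c139 a139_1 a139_2 a139_3 q139 fun c141 a141_1 a141_2 a141_3 q141 =>
  negK c18 a18_1 a18_2 a18_3 q18 fun c142 a142_1 a142_2 a142_3 q142 =>
  addcK c142 a142_1 a142_2 a142_3 q142 1152922604118474752 0 fun c143 a143_1 a143_2 a143_3 q143 =>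
  smulK 7 25 28823037615171174425 8070450532247928832 c14 a14_1 a14_2 a14_3 q14 fun c145 a145_1 a145_2 a145_3 q145 =>
  subK c145 a145_1 a145_2 a145_3 q145 c20 a20_1 a20_2 a20_3 q20 fun c146 a146_1 a146_2 a146_3 q146 =>
  addK c8 a8_1 a8_2 a8_3 q8 c146 a146_1 a146_2 a146_3 q146 fun c147 a147_1 a147_2 a147_3 q147 =>
  mulK z3 1152921504606846976 1152921504606846976 (Nat.add w3 1152921504606846976) 0 c147 a147_1 a147_2 a147_3 q147 fun c148 a148_1 a148_2 a148_3 q148 =>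
  subK c143 a143_1 a143_2 a143_3 q143 c148 a148_1 a148_2 a148_3 q148 fun c149 a149_1 a149_2 a149_3 q149 =>
  addK c94 a94_1 a94_2 a94_3 q94 c138 a138_1 a138_2 a138_3 q138 fun c151 a151_1 a151_2 a151_3 q151 =>
  mulK c149 a149_1 a149_2 a149_3 q149 c151 a151_1 a151_2 a151_3 q151 fun c153 a153_1 a153_2 a153_3 q153 =>
  addK c141 a141_1 a141_2 a141_3 q141 c153 a153_1 a153_2 a153_3 q153 fun c154 a154_1 a154_2 a154_3 q154 =>
  smulK 3 500 576460752303423488500 3458764513820540928 z3 1152921504606846976 1152921504606846976 (Nat.add w3 1152921504606846976) 0 fun c155 a155_1 a155_2 a155_3 q155 =>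
  negK c155 a155_1 a155_2 a155_3 q155 fun c156 a156_1 a156_2 a156_3 q156 =>
  addcK c156 a156_1 a156_2 a156_3 q156 1152922601919451496 1 fun c157 a157_1 a157_2 a157_3 q157 =>
  mulK c157 a157_1 a157_2 a157_3 q157 c14 a14_1 a14_2 a14_3 q14 fun c159 a159_1 a159_2 a159_3 q159 =>
  mulK z2 1152921504606846976 (Nat.add w2 1152921504606846976) 1152921504606846976 0 c159 a159_1 a159_2 a159_3 q159 fun c161 a161_1 a161_2 a161_3 q161 =>
  smulK 2 1 1152921504606846977 2305843009213693952 c161 a161_1 a161_2 a161_3 q161 fun c162 a162_1 a162_2 a162_3 q162 =>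
  addK c154 a154_1 a154_2 a154_3 q154 c162 a162_1 a162_2 a162_3 q162 fun c163 a163_1 a163_2 a163_3 q163 =>
  smulK 2 1 1152921504606846977 2305843009213693952 c47 a47_1 a47_2 a47_3 q47 fun c164 a164_1 a164_2 a164_3 q164 =>
  subK c163 a163_1 a163_2 a163_3 q163 c164 a164_1 a164_2 a164_3 q164 fun c165 a165_1 a165_2 a165_3 q165 =>
  posK c165 a165_1 a165_2 a165_3 q165 <|
  sqK c5 a5_1 a5_2 a5_3 q5 fun c167 a167_1 a167_2 a167_3 q167 =>
  addcK c167 a167_1 a167_2 a167_3 q167 1152922604118474752 0 fun c168 a168_1 a168_2 a168_3 q168 =>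
  invK c168 a168_1 a168_2 a168_3 q168 fun c170 a170_1 a170_2 a170_3 q170 =>
  smulK 2 1 1152921504606846977 2305843009213693952 c5 a5_1 a5_2 a5_3 q5 fun c171 a171_1 a171_2 a171_3 q171 =>
  mulK c171 a171_1 a171_2 a171_3 q171 c170 a170_1 a170_2 a170_3 q170 fun c172 a172_1 a172_2 a172_3 q172 =>
  smulK 3 10 11529215046068469770 3458764513820540928 c172 a172_1 a172_2 a172_3 q172 fun c175 a175_1 a175_2 a175_3 q175 =>
  mulK c5 a5_1 a5_2 a5_3 q5 c172 a172_1 a172_2 a172_3 q172 fun c176 a176_1 a176_2 a176_3 q176 =>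
  smulK 1 4 4611686018427387908 1152921504606846976 c176 a176_1 a176_2 a176_3 q176 fun c178 a178_1 a178_2 a178_3 q178 =>
  subK c175 a175_1 a175_2 a175_3 q175 c178 a178_1 a178_2 a178_3 q178 fun c180 a180_1 a180_2 a180_3 q180 =>
  addK c8 a8_1 a8_2 a8_3 q8 c180 a180_1 a180_2 a180_3 q180 fun c181 a181_1 a181_2 a181_3 q181 =>
  mulK z3 1152921504606846976 1152921504606846976 (Nat.add w3 1152921504606846976) 0 c181 a181_1 a181_2 a181_3 q181 fun c182 a182_1 a182_2 a182_3 q182 =>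
  addcK c182 a182_1 a182_2 a182_3 q182 1152922604118474752 0 fun c183 a183_1 a183_2 a183_3 q183 =>
  addcK c33 a33_1 a33_2 a33_3 q33 1152926788859730067 1 fun c186 a186_1 a186_2 a186_3 q186 =>
  mulK c186 a186_1 a186_2 a186_3 q186 c29 a29_1 a29_2 a29_3 q29 fun c187 a187_1 a187_2 a187_3 q187 =>
  addcK c187 a187_1 a187_2 a187_3 q187 1152911935832028348 1 fun c188 a188_1 a188_2 a188_3 q188 =>
  mulK c188 a188_1 a188_2 a188_3 q188 c29 a29_1 a29_2 a29_3 q29 fun c189 a189_1 a189_2 a189_3 q189 =>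
  addcK c189 a189_1 a189_2 a189_3 q189 1152929145662904205 1 fun c190 a190_1 a190_2 a190_3 q190 =>
  mulK c190 a190_1 a190_2 a190_3 q190 c29 a29_1 a29_2 a29_3 q29 fun c191 a191_1 a191_2 a191_3 q191 =>
  addcK c191 a191_1 a191_2 a191_3 q191 1152918891548744090 1 fun c192 a192_1 a192_2 a192_3 q192 =>
  mulK c192 a192_1 a192_2 a192_3 q192 c29 a29_1 a29_2 a29_3 q29 fun c193 a193_1 a193_2 a193_3 q193 =>
  addcK c193 a193_1 a193_2 a193_3 q193 1152922602056890450 1 fun c194 a194_1 a194_2 a194_3 q194 =>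
  mulK c194 a194_1 a194_2 a194_3 q194 c29 a29_1 a29_2 a29_3 q29 fun c195 a195_1 a195_2 a195_3 q195 =>
  addcK c195 a195_1 a195_2 a195_3 q195 1152919509525818507 1 fun c196 a196_1 a196_2 a196_3 q196 =>
  mulK c196 a196_1 a196_2 a196_3 q196 c29 a29_1 a29_2 a29_3 q29 fun c197 a197_1 a197_2 a197_3 q197 =>
  addcK c197 a197_1 a197_2 a197_3 q197 1152923178097904189 1 fun c198 a198_1 a198_2 a198_3 q198 =>
  addcK c54 a54_1 a54_2 a54_3 q54 1152971291867742208 0 fun c200 a200_1 a200_2 a200_3 q200 =>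
  mulK c200 a200_1 a200_2 a200_3 q200 c29 a29_1 a29_2 a29_3 q29 fun c201 a201_1 a201_2 a201_3 q201 =>
  addcK c201 a201_1 a201_2 a201_3 q201 1152869554744018862 1 fun c202 a202_1 a202_2 a202_3 q202 =>
  mulK c202 a202_1 a202_2 a202_3 q202 c29 a29_1 a29_2 a29_3 q29 fun c203 a203_1 a203_2 a203_3 q203 =>
  addcK c203 a203_1 a203_2 a203_3 q203 1152935787950086554 1 fun c204 a204_1 a204_2 a204_3 q204 =>
  mulK c204 a204_1 a204_2 a204_3 q204 c29 a29_1 a29_2 a29_3 q29 fun c205 a205_1 a205_2 a205_3 q205 =>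
  addcK c205 a205_1 a205_2 a205_3 q205 1152925127016624161 1 fun c206 a206_1 a206_2 a206_3 q206 =>
  mulK c206 a206_1 a206_2 a206_3 q206 c29 a29_1 a29_2 a29_3 q29 fun c207 a207_1 a207_2 a207_3 q207 =>
  addcK c207 a207_1 a207_2 a207_3 q207 1152921190988335022 1 fun c208 a208_1 a208_2 a208_3 q208 =>
  mulK c208 a208_1 a208_2 a208_3 q208 c29 a29_1 a29_2 a29_3 q29 fun c209 a209_1 a209_2 a209_3 q209 =>
  addcK c209 a209_1 a209_2 a209_3 q209 1152920781428843610 1 fun c210 a210_1 a210_2 a210_3 q210 =>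
  addcK c72 a72_1 a72_2 a72_3 q72 1153004483375005696 0 fun c211 a211_1 a211_2 a211_3 q211 =>
  mulK c211 a211_1 a211_2 a211_3 q211 c29 a29_1 a29_2 a29_3 q29 fun c212 a212_1 a212_2 a212_3 q212 =>
  addcK c212 a212_1 a212_2 a212_3 q212 1152869554744018862 1 fun c213 a213_1 a213_2 a213_3 q213 =>
  mulK c213 a213_1 a213_2 a213_3 q213 c29 a29_1 a29_2 a29_3 q29 fun c214 a214_1 a214_2 a214_3 q214 =>
  addcK c214 a214_1 a214_2 a214_3 q214 1152928646278466765 1 fun c215 a215_1 a215_2 a215_3 q215 =>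
  mulK c215 a215_1 a215_2 a215_3 q215 c29 a29_1 a29_2 a29_3 q29 fun c216 a216_1 a216_2 a216_3 q216 =>
  addcK c216 a216_1 a216_2 a216_3 q216 1152922108341809840 1 fun c217 a217_1 a217_2 a217_3 q217 =>
  addcK c54 a54_1 a54_2 a54_3 q54 1152938100360478720 0 fun c218 a218_1 a218_2 a218_3 q218 =>
  mulK c218 a218_1 a218_2 a218_3 q218 c29 a29_1 a29_2 a29_3 q29 fun c219 a219_1 a219_2 a219_3 q219 =>
  addcK c219 a219_1 a219_2 a219_3 q219 1152918041282658435 1 fun c220 a220_1 a220_2 a220_3 q220 =>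
  addK c220 a220_1 a220_2 a220_3 q220 c85 a85_1 a85_2 a85_3 q85 fun c221 a221_1 a221_2 a221_3 q221 =>
  mulK c69 a69_1 a69_2 a69_3 q69 c221 a221_1 a221_2 a221_3 q221 fun c222 a222_1 a222_2 a222_3 q222 =>
  addK c217 a217_1 a217_2 a217_3 q217 c222 a222_1 a222_2 a222_3 q222 fun c223 a223_1 a223_2 a223_3 q223 =>
  mulK c69 a69_1 a69_2 a69_3 q69 c223 a223_1 a223_2 a223_3 q223 fun c224 a224_1 a224_2 a224_3 q224 =>
  addK c210 a210_1 a210_2 a210_3 q210 c224 a224_1 a224_2 a224_3 q224 fun c225 a225_1 a225_2 a225_3 q225 =>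
  mulK c51 a51_1 a51_2 a51_3 q51 c225 a225_1 a225_2 a225_3 q225 fun c227 a227_1 a227_2 a227_3 q227 =>
  addK c198 a198_1 a198_2 a198_3 q198 c227 a227_1 a227_2 a227_3 q227 fun c228 a228_1 a228_2 a228_3 q228 =>
  addcK c97 a97_1 a97_2 a97_3 q97 1152938100360478720 0 fun c230 a230_1 a230_2 a230_3 q230 =>
  mulK c230 a230_1 a230_2 a230_3 q230 c29 a29_1 a29_2 a29_3 q29 fun c231 a231_1 a231_2 a231_3 q231 =>
  addcK c231 a231_1 a231_2 a231_3 q231 1152900724661715730 1 fun c232 a232_1 a232_2 a232_3 q232 =>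
  mulK c232 a232_1 a232_2 a232_3 q232 c29 a29_1 a29_2 a29_3 q29 fun c233 a233_1 a233_2 a233_3 q233 =>
  addcK c233 a233_1 a233_2 a233_3 q233 1152928646278466765 1 fun c234 a234_1 a234_2 a234_3 q234 =>
  mulK c234 a234_1 a234_2 a234_3 q234 c29 a29_1 a29_2 a29_3 q29 fun c235 a235_1 a235_2 a235_3 q235 =>
  addcK c235 a235_1 a235_2 a235_3 q235 1152923919546698433 1 fun c236 a236_1 a236_2 a236_3 q236 =>
  mulK c236 a236_1 a236_2 a236_3 q236 c29 a29_1 a29_2 a29_3 q29 fun c237 a237_1 a237_2 a237_3 q237 =>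
  addcK c237 a237_1 a237_2 a237_3 q237 1152921190988335022 1 fun c238 a238_1 a238_2 a238_3 q238 =>
  mulK c238 a238_1 a238_2 a238_3 q238 c29 a29_1 a29_2 a29_3 q29 fun c239 a239_1 a239_2 a239_3 q239 =>
  addcK c239 a239_1 a239_2 a239_3 q239 1152920058250840244 1 fun c240 a240_1 a240_2 a240_3 q240 =>
  mulK c240 a240_1 a240_2 a240_3 q240 c29 a29_1 a29_2 a29_3 q29 fun c241 a241_1 a241_2 a241_3 q241 =>
  addcK c241 a241_1 a241_2 a241_3 q241 1152921842582118466 1 fun c242 a242_1 a242_2 a242_3 q242 =>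
  addcK c113 a113_1 a113_2 a113_3 q113 1153004483375005696 0 fun c243 a243_1 a243_2 a243_3 q243 =>
  mulK c243 a243_1 a243_2 a243_3 q243 c29 a29_1 a29_2 a29_3 q29 fun c244 a244_1 a244_2 a244_3 q244 =>
  addcK c244 a244_1 a244_2 a244_3 q244 1152852238123076157 1 fun c245 a245_1 a245_2 a245_3 q245 =>
  mulK c245 a245_1 a245_2 a245_3 q245 c29 a29_1 a29_2 a29_3 q29 fun c246 a246_1 a246_2 a246_3 q246 =>
  addcK c246 a246_1 a246_2 a246_3 q246 1152935787950086554 1 fun c247 a247_1 a247_2 a247_3 q247 =>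
  mulK c247 a247_1 a247_2 a247_3 q247 c29 a29_1 a29_2 a29_3 q29 fun c248 a248_1 a248_2 a248_3 q248 =>
  addcK c248 a248_1 a248_2 a248_3 q248 1152923919546698433 1 fun c249 a249_1 a249_2 a249_3 q249 =>
  mulK c249 a249_1 a249_2 a249_3 q249 c29 a29_1 a29_2 a29_3 q29 fun c250 a250_1 a250_2 a250_3 q250 =>
  addcK c250 a250_1 a250_2 a250_3 q250 1152921400067342991 1 fun c251 a251_1 a251_2 a251_3 q251 =>
  addcK c113 a113_1 a113_2 a113_3 q113 1152971291867742208 0 fun c252 a252_1 a252_2 a252_3 q252 =>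
  mulK c252 a252_1 a252_2 a252_3 q252 c29 a29_1 a29_2 a29_3 q29 fun c253 a253_1 a253_2 a253_3 q253 =>
  addcK c253 a253_1 a253_2 a253_3 q253 1152900724661715730 1 fun c254 a254_1 a254_2 a254_3 q254 =>
  mulK c254 a254_1 a254_2 a254_3 q254 c29 a29_1 a29_2 a29_3 q29 fun c255 a255_1 a255_2 a255_3 q255 =>
  addcK c255 a255_1 a255_2 a255_3 q255 1152922932941170934 1 fun c256 a256_1 a256_2 a256_3 q256 =>
  addcK c97 a97_1 a97_2 a97_3 q97 1152923875428794368 0 fun c257 a257_1 a257_2 a257_3 q257 =>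
  mulK c69 a69_1 a69_2 a69_3 q69 c257 a257_1 a257_2 a257_3 q257 fun c258 a258_1 a258_2 a258_3 q258 =>
  addK c256 a256_1 a256_2 a256_3 q256 c258 a258_1 a258_2 a258_3 q258 fun c259 a259_1 a259_2 a259_3 q259 =>
  mulK c69 a69_1 a69_2 a69_3 q69 c259 a259_1 a259_2 a259_3 q259 fun c260 a260_1 a260_2 a260_3 q260 =>
  addK c251 a251_1 a251_2 a251_3 q251 c260 a260_1 a260_2 a260_3 q260 fun c261 a261_1 a261_2 a261_3 q261 =>
  mulK c69 a69_1 a69_2 a69_3 q69 c261 a261_1 a261_2 a261_3 q261 fun c262 a262_1 a262_2 a262_3 q262 =>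
  addK c242 a242_1 a242_2 a242_3 q242 c262 a262_1 a262_2 a262_3 q262 fun c263 a263_1 a263_2 a263_3 q263 =>
  mulK z2 1152921504606846976 (Nat.add w2 1152921504606846976) 1152921504606846976 0 c263 a263_1 a263_2 a263_3 q263 fun c265 a265_1 a265_2 a265_3 q265 =>
  smulK 2 1 1152921504606846977 2305843009213693952 c265 a265_1 a265_2 a265_3 q265 fun c266 a266_1 a266_2 a266_3 q266 =>
  addK c228 a228_1 a228_2 a228_3 q228 c266 a266_1 a266_2 a266_3 q266 fun c267 a267_1 a267_2 a267_3 q267 =>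
  mulK c183 a183_1 a183_2 a183_3 q183 c267 a267_1 a267_2 a267_3 q267 fun c269 a269_1 a269_2 a269_3 q269 =>
  negK c176 a176_1 a176_2 a176_3 q176 fun c270 a270_1 a270_2 a270_3 q270 =>
  addcK c270 a270_1 a270_2 a270_3 q270 1152922604118474752 0 fun c271 a271_1 a271_2 a271_3 q271 =>
  smulK 7 25 28823037615171174425 8070450532247928832 c172 a172_1 a172_2 a172_3 q172 fun c273 a273_1 a273_2 a273_3 q273 =>
  subK c273 a273_1 a273_2 a273_3 q273 c178 a178_1 a178_2 a178_3 q178 fun c274 a274_1 a274_2 a274_3 q274 =>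
  addK c8 a8_1 a8_2 a8_3 q8 c274 a274_1 a274_2 a274_3 q274 fun c275 a275_1 a275_2 a275_3 q275 =>
  mulK z3 1152921504606846976 1152921504606846976 (Nat.add w3 1152921504606846976) 0 c275 a275_1 a275_2 a275_3 q275 fun c276 a276_1 a276_2 a276_3 q276 =>
  subK c271 a271_1 a271_2 a271_3 q271 c276 a276_1 a276_2 a276_3 q276 fun c277 a277_1 a277_2 a277_3 q277 =>
  subK c228 a228_1 a228_2 a228_3 q228 c266 a266_1 a266_2 a266_3 q266 fun c279 a279_1 a279_2 a279_3 q279 =>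
  mulK c277 a277_1 a277_2 a277_3 q277 c279 a279_1 a279_2 a279_3 q279 fun c281 a281_1 a281_2 a281_3 q281 =>
  addK c269 a269_1 a269_2 a269_3 q269 c281 a281_1 a281_2 a281_3 q281 fun c282 a282_1 a282_2 a282_3 q282 =>
  mulK c157 a157_1 a157_2 a157_3 q157 c172 a172_1 a172_2 a172_3 q172 fun c283 a283_1 a283_2 a283_3 q283 =>
  mulK z2 1152921504606846976 (Nat.add w2 1152921504606846976) 1152921504606846976 0 c283 a283_1 a283_2 a283_3 q283 fun c285 a285_1 a285_2 a285_3 q285 =>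
  smulK 2 1 1152921504606846977 2305843009213693952 c285 a285_1 a285_2 a285_3 q285 fun c286 a286_1 a286_2 a286_3 q286 =>
  addK c282 a282_1 a282_2 a282_3 q282 c286 a286_1 a286_2 a286_3 q286 fun c287 a287_1 a287_2 a287_3 q287 =>
  smulK 2 1 1152921504606846977 2305843009213693952 c198 a198_1 a198_2 a198_3 q198 fun c288 a288_1 a288_2 a288_3 q288 =>
  subK c287 a287_1 a287_2 a287_3 q287 c288 a288_1 a288_2 a288_3 q288 fun c289 a289_1 a289_2 a289_3 q289 =>
  posK c289 a289_1 a289_2 a289_3 q289 <|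
  mulK c165 a165_1 a165_2 a165_3 q165 c289 a289_1 a289_2 a289_3 q289 fun c291 a291_1 a291_2 a291_3 q291 =>
  mulK c25 a25_1 a25_2 a25_3 q25 c277 a277_1 a277_2 a277_3 q277 fun c292 a292_1 a292_2 a292_3 q292 =>
  sqrtK c292 a292_1 a292_2 a292_3 q292 fun c293 a293_1 a293_2 a293_3 q293 =>
  smulK 238 125 144115188075855872125 274395318096429580288 c29 a29_1 a29_2 a29_3 q29 fun c294 a294_1 a294_2 a294_3 q294 =>
  addcK c294 a294_1 a294_2 a294_3 q294 1152911037256150548 1 fun c295 a295_1 a295_2 a295_3 q295 =>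
  mulK c295 a295_1 a295_2 a295_3 q295 c29 a29_1 a29_2 a29_3 q29 fun c296 a296_1 a296_2 a296_3 q296 =>
  addcK c296 a296_1 a296_2 a296_3 q296 1152941418961449255 1 fun c297 a297_1 a297_2 a297_3 q297 =>
  mulK c297 a297_1 a297_2 a297_3 q297 c29 a29_1 a29_2 a29_3 q29 fun c298 a298_1 a298_2 a298_3 q298 =>
  addcK c298 a298_1 a298_2 a298_3 q298 1152903604557546783 1 fun c299 a299_1 a299_2 a299_3 q299 =>
  mulK c299 a299_1 a299_2 a299_3 q299 c29 a29_1 a29_2 a29_3 q29 fun c300 a300_1 a300_2 a300_3 q300 =>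
  addcK c300 a300_1 a300_2 a300_3 q300 1152929554131473924 1 fun c301 a301_1 a301_2 a301_3 q301 =>
  mulK c301 a301_1 a301_2 a301_3 q301 c29 a29_1 a29_2 a29_3 q29 fun c302 a302_1 a302_2 a302_3 q302 =>
  addcK c302 a302_1 a302_2 a302_3 q302 1152918908659893797 1 fun c303 a303_1 a303_2 a303_3 q303 =>
  mulK c303 a303_1 a303_2 a303_3 q303 c29 a29_1 a29_2 a29_3 q29 fun c304 a304_1 a304_2 a304_3 q304 =>
  addcK c304 a304_1 a304_2 a304_3 q304 1152922523854125924 1 fun c305 a305_1 a305_2 a305_3 q305 =>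
  smulK 1666 125 144115188075855872125 1920767226675007062016 c29 a29_1 a29_2 a29_3 q29 fun c307 a307_1 a307_2 a307_3 q307 =>
  addcK c307 a307_1 a307_2 a307_3 q307 1152877541733921980 1 fun c308 a308_1 a308_2 a308_3 q308 =>
  mulK c308 a308_1 a308_2 a308_3 q308 c29 a29_1 a29_2 a29_3 q29 fun c309 a309_1 a309_2 a309_3 q309 =>
  addcK c309 a309_1 a309_2 a309_3 q309 1152958893499749499 1 fun c310 a310_1 a310_2 a310_3 q310 =>
  mulK c310 a310_1 a310_2 a310_3 q310 c29 a29_1 a29_2 a29_3 q29 fun c311 a311_1 a311_2 a311_3 q311 =>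
  addcK c311 a311_1 a311_2 a311_3 q311 1152919998275916923 1 fun c312 a312_1 a312_2 a312_3 q312 =>
  mulK c312 a312_1 a312_2 a312_3 q312 c29 a29_1 a29_2 a29_3 q29 fun c313 a313_1 a313_2 a313_3 q313 =>
  addcK c313 a313_1 a313_2 a313_3 q313 1152914196702812963 1 fun c314 a314_1 a314_2 a314_3 q314 =>
  mulK c314 a314_1 a314_2 a314_3 q314 c29 a29_1 a29_2 a29_3 q29 fun c315 a315_1 a315_2 a315_3 q315 =>
  addcK c315 a315_1 a315_2 a315_3 q315 1152922238530858516 1 fun c316 a316_1 a316_2 a316_3 q316 =>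
  mulK c316 a316_1 a316_2 a316_3 q316 c29 a29_1 a29_2 a29_3 q29 fun c317 a317_1 a317_2 a317_3 q317 =>
  addcK c317 a317_1 a317_2 a317_3 q317 1152921613527217603 1 fun c318 a318_1 a318_2 a318_3 q318 =>
  smulK 833 25 28823037615171174425 960383613337503531008 c29 a29_1 a29_2 a29_3 q29 fun c319 a319_1 a319_2 a319_3 q319 =>
  addcK c319 a319_1 a319_2 a319_3 q319 1152848233151971983 1 fun c320 a320_1 a320_2 a320_3 q320 =>
  mulK c320 a320_1 a320_2 a320_3 q320 c29 a29_1 a29_2 a29_3 q29 fun c321 a321_1 a321_2 a321_3 q321 =>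
  addcK c321 a321_1 a321_2 a321_3 q321 1152958893499749499 1 fun c322 a322_1 a322_2 a322_3 q322 =>
  mulK c322 a322_1 a322_2 a322_3 q322 c29 a29_1 a29_2 a29_3 q29 fun c323 a323_1 a323_2 a323_3 q323 =>
  addcK c323 a323_1 a323_2 a323_3 q323 1152920751441381949 1 fun c324 a324_1 a324_2 a324_3 q324 =>
  mulK c324 a324_1 a324_2 a324_3 q324 c29 a29_1 a29_2 a29_3 q29 fun c325 a325_1 a325_2 a325_3 q325 =>
  addcK c325 a325_1 a325_2 a325_3 q325 1152920286622841307 1 fun c326 a326_1 a326_2 a326_3 q326 =>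
  addcK c307 a307_1 a307_2 a307_3 q307 1152906850315871977 1 fun c327 a327_1 a327_2 a327_3 q327 =>
  mulK c327 a327_1 a327_2 a327_3 q327 c29 a29_1 a29_2 a29_3 q29 fun c328 a328_1 a328_2 a328_3 q328 =>
  addcK c328 a328_1 a328_2 a328_3 q328 1152923997199707144 1 fun c329 a329_1 a329_2 a329_3 q329 =>
  smulK 119 250 288230376151711744250 137197659048214790144 c69 a69_1 a69_2 a69_3 q69 fun c330 a330_1 a330_2 a330_3 q330 =>
  addK c329 a329_1 a329_2 a329_3 q329 c330 a330_1 a330_2 a330_3 q330 fun c331 a331_1 a331_2 a331_3 q331 =>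
  mulK c69 a69_1 a69_2 a69_3 q69 c331 a331_1 a331_2 a331_3 q331 fun c332 a332_1 a332_2 a332_3 q332 =>
  addK c326 a326_1 a326_2 a326_3 q326 c332 a332_1 a332_2 a332_3 q332 fun c333 a333_1 a333_2 a333_3 q333 =>
  mulK c69 a69_1 a69_2 a69_3 q69 c333 a333_1 a333_2 a333_3 q333 fun c334 a334_1 a334_2 a334_3 q334 =>
  addK c318 a318_1 a318_2 a318_3 q318 c334 a334_1 a334_2 a334_3 q334 fun c335 a335_1 a335_2 a335_3 q335 =>
  mulK c49 a49_1 a49_2 a49_3 q49 c335 a335_1 a335_2 a335_3 q335 fun c337 a337_1 a337_2 a337_3 q337 =>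
  smulK 4 1 1152921504606846977 4611686018427387904 c337 a337_1 a337_2 a337_3 q337 fun c338 a338_1 a338_2 a338_3 q338 =>
  addK c305 a305_1 a305_2 a305_3 q305 c338 a338_1 a338_2 a338_3 q338 fun c339 a339_1 a339_2 a339_3 q339 =>
  smulK 952 125 144115188075855872125 1097581272385718321152 c29 a29_1 a29_2 a29_3 q29 fun c341 a341_1 a341_2 a341_3 q341 =>
  addcK c341 a341_1 a341_2 a341_3 q341 1152888009084618408 1 fun c342 a342_1 a342_2 a342_3 q342 =>
  mulK c342 a342_1 a342_2 a342_3 q342 c29 a29_1 a29_2 a29_3 q29 fun c343 a343_1 a343_2 a343_3 q343 =>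
  addcK c343 a343_1 a343_2 a343_3 q343 1152968163482283278 1 fun c344 a344_1 a344_2 a344_3 q344 =>
  mulK c344 a344_1 a344_2 a344_3 q344 c29 a29_1 a29_2 a29_3 q29 fun c345 a345_1 a345_2 a345_3 q345 =>
  addcK c345 a345_1 a345_2 a345_3 q345 1152896668838198772 1 fun c346 a346_1 a346_2 a346_3 q346 =>
  mulK c346 a346_1 a346_2 a346_3 q346 c29 a29_1 a29_2 a29_3 q29 fun c347 a347_1 a347_2 a347_3 q347 =>
  addcK c347 a347_1 a347_2 a347_3 q347 1152924178619125727 1 fun c348 a348_1 a348_2 a348_3 q348 =>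
  mulK c348 a348_1 a348_2 a348_3 q348 c29 a29_1 a29_2 a29_3 q29 fun c349 a349_1 a349_2 a349_3 q349 =>
  addcK c349 a349_1 a349_2 a349_3 q349 1152921635448730681 1 fun c350 a350_1 a350_2 a350_3 q350 =>
  mulK c350 a350_1 a350_2 a350_3 q350 c29 a29_1 a29_2 a29_3 q29 fun c351 a351_1 a351_2 a351_3 q351 =>
  addcK c351 a351_1 a351_2 a351_3 q351 1152921874867387630 1 fun c352 a352_1 a352_2 a352_3 q352 =>
  smulK 3332 125 144115188075855872125 3841534453350014124032 c29 a29_1 a29_2 a29_3 q29 fun c353 a353_1 a353_2 a353_3 q353 =>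
  addcK c353 a353_1 a353_2 a353_3 q353 1152848233151971983 1 fun c354 a354_1 a354_2 a354_3 q354 =>
  mulK c354 a354_1 a354_2 a354_3 q354 c29 a29_1 a29_2 a29_3 q29 fun c355 a355_1 a355_2 a355_3 q355 =>
  addcK c355 a355_1 a355_2 a355_3 q355 1152971356464050340 1 fun c356 a356_1 a356_2 a356_3 q356 =>
  mulK c356 a356_1 a356_2 a356_3 q356 c29 a29_1 a29_2 a29_3 q29 fun c357 a357_1 a357_2 a357_3 q357 =>
  addcK c357 a357_1 a357_2 a357_3 q357 1152919998275916923 1 fun c358 a358_1 a358_2 a358_3 q358 =>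
  mulK c358 a358_1 a358_2 a358_3 q358 c29 a29_1 a29_2 a29_3 q29 fun c359 a359_1 a359_2 a359_3 q359 =>
  addcK c359 a359_1 a359_2 a359_3 q359 1152916632670824301 1 fun c360 a360_1 a360_2 a360_3 q360 =>
  mulK c360 a360_1 a360_2 a360_3 q360 c29 a29_1 a29_2 a29_3 q29 fun c361 a361_1 a361_2 a361_3 q361 =>
  addcK c361 a361_1 a361_2 a361_3 q361 1152921749248184156 1 fun c362 a362_1 a362_2 a362_3 q362 =>
  addcK c353 a353_1 a353_2 a353_3 q353 1152877541733921980 1 fun c363 a363_1 a363_2 a363_3 q363 =>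
  mulK c363 a363_1 a363_2 a363_3 q363 c29 a29_1 a29_2 a29_3 q29 fun c364 a364_1 a364_2 a364_3 q364 =>
  addcK c364 a364_1 a364_2 a364_3 q364 1152936460164007985 1 fun c365 a365_1 a365_2 a365_3 q365 =>
  mulK c365 a365_1 a365_2 a365_3 q365 c29 a29_1 a29_2 a29_3 q29 fun c366 a366_1 a366_2 a366_3 q366 =>
  addcK c366 a366_1 a366_2 a366_3 q366 1152921353973753971 1 fun c367 a367_1 a367_2 a367_3 q367 =>
  smulK 476 125 144115188075855872125 548790636192859160576 c29 a29_1 a29_2 a29_3 q29 fun c368 a368_1 a368_2 a368_3 q368 =>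
  addcK c368 a368_1 a368_2 a368_3 q368 1152919411136707690 1 fun c369 a369_1 a369_2 a369_3 q369 =>
  mulK c69 a69_1 a69_2 a69_3 q69 c369 a369_1 a369_2 a369_3 q369 fun c370 a370_1 a370_2 a370_3 q370 =>
  addK c367 a367_1 a367_2 a367_3 q367 c370 a370_1 a370_2 a370_3 q370 fun c371 a371_1 a371_2 a371_3 q371 =>
  mulK c69 a69_1 a69_2 a69_3 q69 c371 a371_1 a371_2 a371_3 q371 fun c372 a372_1 a372_2 a372_3 q372 =>
  addK c362 a362_1 a362_2 a362_3 q362 c372 a372_1 a372_2 a372_3 q372 fun c373 a373_1 a373_2 a373_3 q373 =>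
  mulK c51 a51_1 a51_2 a51_3 q51 c373 a373_1 a373_2 a373_3 q373 fun c374 a374_1 a374_2 a374_3 q374 =>
  addK c352 a352_1 a352_2 a352_3 q352 c374 a374_1 a374_2 a374_3 q374 fun c375 a375_1 a375_2 a375_3 q375 =>
  mulK z2 1152921504606846976 (Nat.add w2 1152921504606846976) 1152921504606846976 0 c375 a375_1 a375_2 a375_3 q375 fun c377 a377_1 a377_2 a377_3 q377 =>
  smulK 2 1 1152921504606846977 2305843009213693952 c377 a377_1 a377_2 a377_3 q377 fun c378 a378_1 a378_2 a378_3 q378 =>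
  subK c339 a339_1 a339_2 a339_3 q339 c378 a378_1 a378_2 a378_3 q378 fun c379 a379_1 a379_2 a379_3 q379 =>
  mulK c293 a293_1 a293_2 a293_3 q293 c379 a379_1 a379_2 a379_3 q379 fun c381 a381_1 a381_2 a381_3 q381 =>
  mulK c149 a149_1 a149_2 a149_3 q149 c183 a183_1 a183_2 a183_3 q183 fun c382 a382_1 a382_2 a382_3 q382 =>
  sqrtK c382 a382_1 a382_2 a382_3 q382 fun c383 a383_1 a383_2 a383_3 q383 =>
  addK c339 a339_1 a339_2 a339_3 q339 c378 a378_1 a378_2 a378_3 q378 fun c384 a384_1 a384_2 a384_3 q384 =>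
  mulK c383 a383_1 a383_2 a383_3 q383 c384 a384_1 a384_2 a384_3 q384 fun c386 a386_1 a386_2 a386_3 q386 =>
  addK c381 a381_1 a381_2 a381_3 q381 c386 a386_1 a386_2 a386_3 q386 fun c387 a387_1 a387_2 a387_3 q387 =>
  smulK 2 1 1152921504606846977 2305843009213693952 c305 a305_1 a305_2 a305_3 q305 fun c388 a388_1 a388_2 a388_3 q388 =>
  subK c387 a387_1 a387_2 a387_3 q387 c388 a388_1 a388_2 a388_3 q388 fun c389 a389_1 a389_2 a389_3 q389 =>
  mulK z1 (Nat.add w1 1152921504606846976) 1152921504606846976 1152921504606846976 0 c389 a389_1 a389_2 a389_3 q389 fun c391 a391_1 a391_2 a391_3 q391 =>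
  negK c391 a391_1 a391_2 a391_3 q391 fun c392 a392_1 a392_2 a392_3 q392 =>
  reluK c392 a392_1 a392_2 a392_3 q392 fun c393 a393_1 a393_2 a393_3 q393 =>
  sqK c393 a393_1 a393_2 a393_3 q393 fun c394 a394_1 a394_2 a394_3 q394 =>
  subK c291 a291_1 a291_2 a291_3 q291 c394 a394_1 a394_2 a394_3 q394 fun c395 a395_1 a395_2 a395_3 q395 =>
  pos c395 a395_1 a395_2 a395_3 q395

theorem alt1_s {p1 p2 z1 w1 z2 w2 z3 w3 : ℕ} {e1 e2 e3 a f s p q : ℝ} (he : Ev e1 e2 e3)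
    (hp1 : In e1 e2 e3 p1 1152921504606846976 1152921504606846976 1152921504606846976 0 p)
    (hp2 : In e1 e2 e3 p2 1152921504606846976 1152921504606846976 1152921504606846976 0 q)
    (hx1 : In e1 e2 e3 z1 (Nat.add w1 1152921504606846976) 1152921504606846976 1152921504606846976 0 a)
    (hx2 : In e1 e2 e3 z2 1152921504606846976 (Nat.add w2 1152921504606846976) 1152921504606846976 0 f)
    (hx3 : In e1 e2 e3 z3 1152921504606846976 1152921504606846976 (Nat.add w3 1152921504606846976) 0 s)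
    (H0 : alt1 p1 p2 z1 w1 z2 w2 z3 w3 = true) : 0 < ((tbp a f s p q) - ((3/10:ℝ) * s)) ∧ 0 < ((tbq a f s p q) - ((3/10:ℝ) * s)) ∧ 0 < (PdB a f s p q) ∧ 0 < (QdB a f s p q) ∧ 0 < (((PdB a f s p q) * (QdB a f s p q)) - ((max (-(a * (ZdBB a f s p q))) (0:ℝ)) ^ 2)) := by
  unfold alt1 at H0
  refine smulK_s he (w := (11/20:ℝ)) (by norm_num) (by norm_num) (by norm_num) (by norm_num) hp1 (fun _ _ _ _ _ h1 H1 => ?_) H0
  have h2 := In_cast (w := (tbp a f s p q)) h1 rfl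
  refine smulK_s he (w := (3/10:ℝ)) (by norm_num) (by norm_num) (by norm_num) (by norm_num) hx3 (fun _ _ _ _ _ h3 H2 => ?_) H1
  refine subK_s he h2 h3 (fun _ _ _ _ _ h4 H3 => ?_) H2
  refine posK_s he h4 (fun p0 H4 => ?_) H3
  refine smulK_s he (w := (11/20:ℝ)) (by norm_num) (by norm_num) (by norm_num) (by norm_num) hp2 (fun _ _ _ _ _ h5 H5 => ?_) H4
  have h6 := In_cast (w := (tbq a f s p q)) h5 rfl
  refine subK_s he h6 h3 (fun _ _ _ _ _ h7 H6 => ?_) H5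
  refine posK_s he h7 (fun p1 H7 => ?_) H6
  refine smulK_s he (w := (3/25:ℝ)) (by norm_num) (by norm_num) (by norm_num) (by norm_num) hx3 (fun _ _ _ _ _ h8 H8 => ?_) H7
  refine sqK_s he h2 (fun _ _ _ _ _ h9 H9 => ?_) H8
  refine addcK_s he h9 (v' := (1:ℝ)) (by norm_num [SS, BB, abs_le]) (fun _ _ _ _ _ h10 H10 => ?_) H9
  have h11 := In_cast h10 (add_comm _ _)
  refine invK_s he h11 (fun _ _ _ _ _ h12 H11 => ?_) H10
  refine smulK_s he (w := (2:ℝ)) (by norm_num) (by norm_num) (by norm_num) (by norm_num) h2 (fun _ _ _ _ _ h13 H12 => ?_) H11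
  refine mulK_s he h13 h12 (fun _ _ _ _ _ h14 H13 => ?_) H12
  have h15 := In_cast h14 ((div_eq_mul_inv _ _).symm)
  have h16 := In_cast (w := (Sbp a f s p q)) h15 rfl
  refine smulK_s he (w := (3/10:ℝ)) (by norm_num) (by norm_num) (by norm_num) (by norm_num) h16 (fun _ _ _ _ _ h17 H14 => ?_) H13
  refine mulK_s he h2 h16 (fun _ _ _ _ _ h18 H15 => ?_) H14
  have h19 := In_cast (w := (Cbp a f s p q)) h18 rfl
  refine smulK_s he (w := (1/4:ℝ)) (by norm_num) (by norm_num) (by norm_num) (by norm_num) h19 (fun _ _ _ _ _ h20 H16 => ?_) H15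
  have h21 := In_cast h20 (div_c (c := (4:ℝ)) (by norm_num))
  refine subK_s he h17 h21 (fun _ _ _ _ _ h22 H17 => ?_) H16
  refine addK_s he h8 h22 (fun _ _ _ _ _ h23 H18 => ?_) H17
  refine mulK_s he hx3 h23 (fun _ _ _ _ _ h24 H19 => ?_) H18
  refine addcK_s he h24 (v' := (1:ℝ)) (by norm_num [SS, BB, abs_le]) (fun _ _ _ _ _ h25 H20 => ?_) H19
  have h26 := In_cast h25 (add_comm _ _)
  have h27 := In_cast (w := (K0Bp a f s p q)) h26 rfl
  refine smulK_s he (w := (2:ℝ)) (by norm_num) (by norm_num) (by norm_num) (by norm_num) hx1 (fun _ _ _ _ _ h28 H21 => ?_) H20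
  refine addcK_s he h28 (v' := (-1/2:ℝ)) (by norm_num [SS, BB, abs_le]) (fun _ _ _ _ _ h29 H22 => ?_) H21
  have h30 := In_cast h29 (sub_c (c := (1/2:ℝ)) (by norm_num))
  have h31 := In_cast (w := (x a f s p q)) h30 rfl
  refine smulK_s he (w := (987/1000:ℝ)) (by norm_num) (by norm_num) (by norm_num) (by norm_num) h31 (fun _ _ _ _ _ h32 H23 => ?_) H22
  refine negK_s he h32 (fun _ _ _ _ _ h33 H24 => ?_) H23
  have h34 := In_cast h33 (neg_mul_c (c := (-987/1000:ℝ)) (by norm_num))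
  refine addcK_s he h34 (v' := (4077/1000:ℝ)) (by norm_num [SS, BB, abs_le]) (fun _ _ _ _ _ h35 H25 => ?_) H24
  refine mulK_s he h35 h31 (fun _ _ _ _ _ h36 H26 => ?_) H25
  refine addcK_s he h36 (v' := (-23147/4000:ℝ)) (by norm_num [SS, BB, abs_le]) (fun _ _ _ _ _ h37 H27 => ?_) H26
  refine mulK_s he h37 h31 (fun _ _ _ _ _ h38 H28 => ?_) H27
  refine addcK_s he h38 (v' := (11213/4000:ℝ)) (by norm_num [SS, BB, abs_le]) (fun _ _ _ _ _ h39 H29 => ?_) H28
  refine mulK_s he h39 h31 (fun _ _ _ _ _ h40 H30 => ?_) H29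
  refine addcK_s he h40 (v' := (123/3200:ℝ)) (by norm_num [SS, BB, abs_le]) (fun _ _ _ _ _ h41 H31 => ?_) H30
  refine mulK_s he h41 h31 (fun _ _ _ _ _ h42 H32 => ?_) H31
  refine addcK_s he h42 (v' := (2023/16000:ℝ)) (by norm_num [SS, BB, abs_le]) (fun _ _ _ _ _ h43 H33 => ?_) H32
  refine mulK_s he h43 h31 (fun _ _ _ _ _ h44 H34 => ?_) H33
  refine addcK_s he h44 (v' := (-12141/12800:ℝ)) (by norm_num [SS, BB, abs_le]) (fun _ _ _ _ _ h45 H35 => ?_) H34
  refine mulK_s he h45 h31 (fun _ _ _ _ _ h46 H36 => ?_) H35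
  refine addcK_s he h46 (v' := (75807/64000:ℝ)) (by norm_num [SS, BB, abs_le]) (fun _ _ _ _ _ h47 H37 => ?_) H36
  have h48 := In_cast (w := (uh a f s p q)) h47 rfl
  refine sqK_s he hx2 (fun _ _ _ _ _ h49 H38 => ?_) H37
  refine mulK_s he hx1 h49 (fun _ _ _ _ _ h50 H39 => ?_) H38
  refine smulK_s he (w := (4:ℝ)) (by norm_num) (by norm_num) (by norm_num) (by norm_num) h50 (fun _ _ _ _ _ h51 H40 => ?_) H39
  have h52 := In_cast (w := (af2 a f s p q)) h51 rfl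
  refine smulK_s he (w := (6909/500:ℝ)) (by norm_num) (by norm_num) (by norm_num) (by norm_num) h31 (fun _ _ _ _ _ h53 H41 => ?_) H40
  refine negK_s he h53 (fun _ _ _ _ _ h54 H42 => ?_) H41
  have h55 := In_cast h54 (neg_mul_c (c := (-6909/500:ℝ)) (by norm_num))
  refine addcK_s he h55 (v' := (150507/4000:ℝ)) (by norm_num [SS, BB, abs_le]) (fun _ _ _ _ _ h56 H43 => ?_) H42
  refine mulK_s he h56 h31 (fun _ _ _ _ _ h57 H44 => ?_) H43
  refine addcK_s he h57 (v' := (-44979/1600:ℝ)) (by norm_num [SS, BB, abs_le]) (fun _ _ _ _ _ h58 H45 => ?_) H44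
  refine mulK_s he h58 h31 (fun _ _ _ _ _ h59 H46 => ?_) H45
  refine addcK_s he h59 (v' := (-721/1600:ℝ)) (by norm_num [SS, BB, abs_le]) (fun _ _ _ _ _ h60 H47 => ?_) H46
  refine mulK_s he h60 h31 (fun _ _ _ _ _ h61 H48 => ?_) H47
  refine addcK_s he h61 (v' := (69123/16000:ℝ)) (by norm_num [SS, BB, abs_le]) (fun _ _ _ _ _ h62 H49 => ?_) H48
  refine mulK_s he h62 h31 (fun _ _ _ _ _ h63 H50 => ?_) H49
  refine addcK_s he h63 (v' := (13983/64000:ℝ)) (by norm_num [SS, BB, abs_le]) (fun _ _ _ _ _ h64 H51 => ?_) H50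
  refine mulK_s he h64 h31 (fun _ _ _ _ _ h65 H52 => ?_) H51
  refine addcK_s he h65 (v' := (-56659/128000:ℝ)) (by norm_num [SS, BB, abs_le]) (fun _ _ _ _ _ h66 H53 => ?_) H52
  refine mulK_s he hx1 hx2 (fun _ _ _ _ _ h67 H54 => ?_) H53
  refine sqK_s he h67 (fun _ _ _ _ _ h68 H55 => ?_) H54
  refine smulK_s he (w := (4:ℝ)) (by norm_num) (by norm_num) (by norm_num) (by norm_num) h68 (fun _ _ _ _ _ h69 H56 => ?_) H55
  have h70 := In_cast (w := (dd a f s p q)) h69 rfl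
  refine smulK_s he (w := (6909/200:ℝ)) (by norm_num) (by norm_num) (by norm_num) (by norm_num) h31 (fun _ _ _ _ _ h71 H57 => ?_) H56
  refine negK_s he h71 (fun _ _ _ _ _ h72 H58 => ?_) H57
  have h73 := In_cast h72 (neg_mul_c (c := (-6909/200:ℝ)) (by norm_num))
  refine addcK_s he h73 (v' := (50169/800:ℝ)) (by norm_num [SS, BB, abs_le]) (fun _ _ _ _ _ h74 H59 => ?_) H58
  refine mulK_s he h74 h31 (fun _ _ _ _ _ h75 H60 => ?_) H59
  refine addcK_s he h75 (v' := (-44979/1600:ℝ)) (by norm_num [SS, BB, abs_le]) (fun _ _ _ _ _ h76 H61 => ?_) H60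
  refine mulK_s he h76 h31 (fun _ _ _ _ _ h77 H62 => ?_) H61
  refine addcK_s he h77 (v' := (-721/3200:ℝ)) (by norm_num [SS, BB, abs_le]) (fun _ _ _ _ _ h78 H63 => ?_) H62
  refine mulK_s he h78 h31 (fun _ _ _ _ _ h79 H64 => ?_) H63
  refine addcK_s he h79 (v' := (23041/32000:ℝ)) (by norm_num [SS, BB, abs_le]) (fun _ _ _ _ _ h80 H65 => ?_) H64
  refine addcK_s he h55 (v' := (50169/4000:ℝ)) (by norm_num [SS, BB, abs_le]) (fun _ _ _ _ _ h81 H66 => ?_) H65
  refine mulK_s he h81 h31 (fun _ _ _ _ _ h82 H67 => ?_) H66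
  refine addcK_s he h82 (v' := (-14993/8000:ℝ)) (by norm_num [SS, BB, abs_le]) (fun _ _ _ _ _ h83 H68 => ?_) H67
  refine smulK_s he (w := (987/2000:ℝ)) (by norm_num) (by norm_num) (by norm_num) (by norm_num) h70 (fun _ _ _ _ _ h84 H69 => ?_) H68
  refine negK_s he h84 (fun _ _ _ _ _ h85 H70 => ?_) H69
  have h86 := In_cast h85 (neg_mul_c (c := (-987/2000:ℝ)) (by norm_num))
  refine addK_s he h83 h86 (fun _ _ _ _ _ h87 H71 => ?_) H70
  refine mulK_s he h70 h87 (fun _ _ _ _ _ h88 H72 => ?_) H71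
  refine addK_s he h80 h88 (fun _ _ _ _ _ h89 H73 => ?_) H72
  refine mulK_s he h70 h89 (fun _ _ _ _ _ h90 H74 => ?_) H73
  refine addK_s he h66 h90 (fun _ _ _ _ _ h91 H75 => ?_) H74
  have h92 := In_cast (w := (uE a f s p q)) h91 rfl
  refine mulK_s he h52 h92 (fun _ _ _ _ _ h93 H76 => ?_) H75
  refine addK_s he h48 h93 (fun _ _ _ _ _ h94 H77 => ?_) H76
  have h95 := In_cast (w := (um a f s p q)) h94 rfl
  refine smulK_s he (w := (987/250:ℝ)) (by norm_num) (by norm_num) (by norm_num) (by norm_num) h31 (fun _ _ _ _ _ h96 H78 => ?_) H77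
  refine negK_s he h96 (fun _ _ _ _ _ h97 H79 => ?_) H78
  have h98 := In_cast h97 (neg_mul_c (c := (-987/250:ℝ)) (by norm_num))
  refine addcK_s he h98 (v' := (50169/4000:ℝ)) (by norm_num [SS, BB, abs_le]) (fun _ _ _ _ _ h99 H80 => ?_) H79
  refine mulK_s he h99 h31 (fun _ _ _ _ _ h100 H81 => ?_) H80
  refine addcK_s he h100 (v' := (-44979/4000:ℝ)) (by norm_num [SS, BB, abs_le]) (fun _ _ _ _ _ h101 H82 => ?_) H81
  refine mulK_s he h101 h31 (fun _ _ _ _ _ h102 H83 => ?_) H82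
  refine addcK_s he h102 (v' := (-721/3200:ℝ)) (by norm_num [SS, BB, abs_le]) (fun _ _ _ _ _ h103 H84 => ?_) H83
  refine mulK_s he h103 h31 (fun _ _ _ _ _ h104 H85 => ?_) H84
  refine addcK_s he h104 (v' := (23041/8000:ℝ)) (by norm_num [SS, BB, abs_le]) (fun _ _ _ _ _ h105 H86 => ?_) H85
  refine mulK_s he h105 h31 (fun _ _ _ _ _ h106 H87 => ?_) H86
  refine addcK_s he h106 (v' := (13983/64000:ℝ)) (by norm_num [SS, BB, abs_le]) (fun _ _ _ _ _ h107 H88 => ?_) H87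
  refine mulK_s he h107 h31 (fun _ _ _ _ _ h108 H89 => ?_) H88
  refine addcK_s he h108 (v' := (-56659/64000:ℝ)) (by norm_num [SS, BB, abs_le]) (fun _ _ _ _ _ h109 H90 => ?_) H89
  refine mulK_s he h109 h31 (fun _ _ _ _ _ h110 H91 => ?_) H90
  refine addcK_s he h110 (v' := (90909/256000:ℝ)) (by norm_num [SS, BB, abs_le]) (fun _ _ _ _ _ h111 H92 => ?_) H91
  refine smulK_s he (w := (6909/250:ℝ)) (by norm_num) (by norm_num) (by norm_num) (by norm_num) h31 (fun _ _ _ _ _ h112 H93 => ?_) H92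
  refine negK_s he h112 (fun _ _ _ _ _ h113 H94 => ?_) H93
  have h114 := In_cast h113 (neg_mul_c (c := (-6909/250:ℝ)) (by norm_num))
  refine addcK_s he h114 (v' := (50169/800:ℝ)) (by norm_num [SS, BB, abs_le]) (fun _ _ _ _ _ h115 H95 => ?_) H94
  refine mulK_s he h115 h31 (fun _ _ _ _ _ h116 H96 => ?_) H95
  refine addcK_s he h116 (v' := (-14993/400:ℝ)) (by norm_num [SS, BB, abs_le]) (fun _ _ _ _ _ h117 H97 => ?_) H96
  refine mulK_s he h117 h31 (fun _ _ _ _ _ h118 H98 => ?_) H97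
  refine addcK_s he h118 (v' := (-721/1600:ℝ)) (by norm_num [SS, BB, abs_le]) (fun _ _ _ _ _ h119 H99 => ?_) H98
  refine mulK_s he h119 h31 (fun _ _ _ _ _ h120 H100 => ?_) H99
  refine addcK_s he h120 (v' := (23041/8000:ℝ)) (by norm_num [SS, BB, abs_le]) (fun _ _ _ _ _ h121 H101 => ?_) H100
  refine mulK_s he h121 h31 (fun _ _ _ _ _ h122 H102 => ?_) H101
  refine addcK_s he h122 (v' := (4661/64000:ℝ)) (by norm_num [SS, BB, abs_le]) (fun _ _ _ _ _ h123 H103 => ?_) H102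
  refine addcK_s he h114 (v' := (150507/4000:ℝ)) (by norm_num [SS, BB, abs_le]) (fun _ _ _ _ _ h124 H104 => ?_) H103
  refine mulK_s he h124 h31 (fun _ _ _ _ _ h125 H105 => ?_) H104
  refine addcK_s he h125 (v' := (-44979/4000:ℝ)) (by norm_num [SS, BB, abs_le]) (fun _ _ _ _ _ h126 H106 => ?_) H105
  refine mulK_s he h126 h31 (fun _ _ _ _ _ h127 H107 => ?_) H106
  refine addcK_s he h127 (v' := (-721/16000:ℝ)) (by norm_num [SS, BB, abs_le]) (fun _ _ _ _ _ h128 H108 => ?_) H107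
  refine addcK_s he h98 (v' := (7167/4000:ℝ)) (by norm_num [SS, BB, abs_le]) (fun _ _ _ _ _ h129 H109 => ?_) H108
  refine mulK_s he h70 h129 (fun _ _ _ _ _ h130 H110 => ?_) H109
  refine addK_s he h128 h130 (fun _ _ _ _ _ h131 H111 => ?_) H110
  refine mulK_s he h70 h131 (fun _ _ _ _ _ h132 H112 => ?_) H111
  refine addK_s he h123 h132 (fun _ _ _ _ _ h133 H113 => ?_) H112
  refine mulK_s he h70 h133 (fun _ _ _ _ _ h134 H114 => ?_) H113
  refine addK_s he h111 h134 (fun _ _ _ _ _ h135 H115 => ?_) H114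
  have h136 := In_cast (w := (uO a f s p q)) h135 rfl
  refine mulK_s he hx2 h136 (fun _ _ _ _ _ h137 H116 => ?_) H115
  refine smulK_s he (w := (2:ℝ)) (by norm_num) (by norm_num) (by norm_num) (by norm_num) h137 (fun _ _ _ _ _ h138 H117 => ?_) H116
  refine subK_s he h95 h138 (fun _ _ _ _ _ h139 H118 => ?_) H117
  have h140 := In_cast (w := (u0 a f s p q)) h139 rfl
  refine mulK_s he h27 h140 (fun _ _ _ _ _ h141 H119 => ?_) H118
  refine negK_s he h19 (fun _ _ _ _ _ h142 H120 => ?_) H119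
  refine addcK_s he h142 (v' := (1:ℝ)) (by norm_num [SS, BB, abs_le]) (fun _ _ _ _ _ h143 H121 => ?_) H120
  have h144 := In_cast h143 (neg_add_eq_sub _ _)
  refine smulK_s he (w := (7/25:ℝ)) (by norm_num) (by norm_num) (by norm_num) (by norm_num) h16 (fun _ _ _ _ _ h145 H122 => ?_) H121
  refine subK_s he h145 h21 (fun _ _ _ _ _ h146 H123 => ?_) H122
  refine addK_s he h8 h146 (fun _ _ _ _ _ h147 H124 => ?_) H123
  refine mulK_s he hx3 h147 (fun _ _ _ _ _ h148 H125 => ?_) H124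
  refine subK_s he h144 h148 (fun _ _ _ _ _ h149 H126 => ?_) H125
  have h150 := In_cast (w := (K1Bp a f s p q)) h149 rfl
  refine addK_s he h95 h138 (fun _ _ _ _ _ h151 H127 => ?_) H126
  have h152 := In_cast (w := (u1 a f s p q)) h151 rfl
  refine mulK_s he h150 h152 (fun _ _ _ _ _ h153 H128 => ?_) H127
  refine addK_s he h141 h153 (fun _ _ _ _ _ h154 H129 => ?_) H128
  refine smulK_s he (w := (3/500:ℝ)) (by norm_num) (by norm_num) (by norm_num) (by norm_num) hx3 (fun _ _ _ _ _ h155 H130 => ?_) H129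
  refine negK_s he h155 (fun _ _ _ _ _ h156 H131 => ?_) H130
  refine addcK_s he h156 (v' := (499/500:ℝ)) (by norm_num [SS, BB, abs_le]) (fun _ _ _ _ _ h157 H132 => ?_) H131
  have h158 := In_cast h157 (neg_add_eq_sub _ _)
  refine mulK_s he h158 h16 (fun _ _ _ _ _ h159 H133 => ?_) H132
  have h160 := In_cast (w := (lBp a f s p q)) h159 rfl
  refine mulK_s he hx2 h160 (fun _ _ _ _ _ h161 H134 => ?_) H133
  refine smulK_s he (w := (2:ℝ)) (by norm_num) (by norm_num) (by norm_num) (by norm_num) h161 (fun _ _ _ _ _ h162 H135 => ?_) H134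
  refine addK_s he h154 h162 (fun _ _ _ _ _ h163 H136 => ?_) H135
  refine smulK_s he (w := (2:ℝ)) (by norm_num) (by norm_num) (by norm_num) (by norm_num) h48 (fun _ _ _ _ _ h164 H137 => ?_) H136
  refine subK_s he h163 h164 (fun _ _ _ _ _ h165 H138 => ?_) H137
  have h166 := In_cast (w := (PdB a f s p q)) h165 rfl
  refine posK_s he h166 (fun p2 H139 => ?_) H138
  refine sqK_s he h6 (fun _ _ _ _ _ h167 H140 => ?_) H139
  refine addcK_s he h167 (v' := (1:ℝ)) (by norm_num [SS, BB, abs_le]) (fun _ _ _ _ _ h168 H141 => ?_) H140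
  have h169 := In_cast h168 (add_comm _ _)
  refine invK_s he h169 (fun _ _ _ _ _ h170 H142 => ?_) H141
  refine smulK_s he (w := (2:ℝ)) (by norm_num) (by norm_num) (by norm_num) (by norm_num) h6 (fun _ _ _ _ _ h171 H143 => ?_) H142
  refine mulK_s he h171 h170 (fun _ _ _ _ _ h172 H144 => ?_) H143
  have h173 := In_cast h172 ((div_eq_mul_inv _ _).symm)
  have h174 := In_cast (w := (Sbq a f s p q)) h173 rfl
  refine smulK_s he (w := (3/10:ℝ)) (by norm_num) (by norm_num) (by norm_num) (by norm_num) h174 (fun _ _ _ _ _ h175 H145 => ?_) H144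
  refine mulK_s he h6 h174 (fun _ _ _ _ _ h176 H146 => ?_) H145
  have h177 := In_cast (w := (Cbq a f s p q)) h176 rfl
  refine smulK_s he (w := (1/4:ℝ)) (by norm_num) (by norm_num) (by norm_num) (by norm_num) h177 (fun _ _ _ _ _ h178 H147 => ?_) H146
  have h179 := In_cast h178 (div_c (c := (4:ℝ)) (by norm_num))
  refine subK_s he h175 h179 (fun _ _ _ _ _ h180 H148 => ?_) H147
  refine addK_s he h8 h180 (fun _ _ _ _ _ h181 H149 => ?_) H148
  refine mulK_s he hx3 h181 (fun _ _ _ _ _ h182 H150 => ?_) H149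
  refine addcK_s he h182 (v' := (1:ℝ)) (by norm_num [SS, BB, abs_le]) (fun _ _ _ _ _ h183 H151 => ?_) H150
  have h184 := In_cast h183 (add_comm _ _)
  have h185 := In_cast (w := (K0Bq a f s p q)) h184 rfl
  refine addcK_s he h34 (v' := (2403/500:ℝ)) (by norm_num [SS, BB, abs_le]) (fun _ _ _ _ _ h186 H152 => ?_) H151
  refine mulK_s he h186 h31 (fun _ _ _ _ _ h187 H153 => ?_) H152
  refine addcK_s he h187 (v' := (-34811/4000:ℝ)) (by norm_num [SS, BB, abs_le]) (fun _ _ _ _ _ h188 H154 => ?_) H153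
  refine mulK_s he h188 h31 (fun _ _ _ _ _ h189 H155 => ?_) H154
  refine addcK_s he h189 (v' := (13899/2000:ℝ)) (by norm_num [SS, BB, abs_le]) (fun _ _ _ _ _ h190 H156 => ?_) H155
  refine mulK_s he h190 h31 (fun _ _ _ _ _ h191 H157 => ?_) H156
  refine addcK_s he h191 (v' := (-1521/640:ℝ)) (by norm_num [SS, BB, abs_le]) (fun _ _ _ _ _ h192 H158 => ?_) H157
  refine mulK_s he h192 h31 (fun _ _ _ _ _ h193 H159 => ?_) H158
  refine addcK_s he h193 (v' := (1597/1600:ℝ)) (by norm_num [SS, BB, abs_le]) (fun _ _ _ _ _ h194 H160 => ?_) H159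
  refine mulK_s he h194 h31 (fun _ _ _ _ _ h195 H161 => ?_) H160
  refine addcK_s he h195 (v' := (-116129/64000:ℝ)) (by norm_num [SS, BB, abs_le]) (fun _ _ _ _ _ h196 H162 => ?_) H161
  refine mulK_s he h196 h31 (fun _ _ _ _ _ h197 H163 => ?_) H162
  refine addcK_s he h197 (v' := (9741/6400:ℝ)) (by norm_num [SS, BB, abs_le]) (fun _ _ _ _ _ h198 H164 => ?_) H163
  have h199 := In_cast (w := (ch a f s p q)) h198 rfl
  refine addcK_s he h55 (v' := (1449/32:ℝ)) (by norm_num [SS, BB, abs_le]) (fun _ _ _ _ _ h200 H165 => ?_) H164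
  refine mulK_s he h200 h31 (fun _ _ _ _ _ h201 H166 => ?_) H165
  refine addcK_s he h201 (v' := (-75597/1600:ℝ)) (by norm_num [SS, BB, abs_le]) (fun _ _ _ _ _ h202 H167 => ?_) H166
  refine mulK_s he h202 h31 (fun _ _ _ _ _ h203 H168 => ?_) H167
  refine addcK_s he h203 (v' := (4157/320:ℝ)) (by norm_num [SS, BB, abs_le]) (fun _ _ _ _ _ h204 H169 => ?_) H168
  refine mulK_s he h204 h31 (fun _ _ _ _ _ h205 H170 => ?_) H169
  refine addcK_s he h205 (v' := (52713/16000:ℝ)) (by norm_num [SS, BB, abs_le]) (fun _ _ _ _ _ h206 H171 => ?_) H170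
  refine mulK_s he h206 h31 (fun _ _ _ _ _ h207 H172 => ?_) H171
  refine addcK_s he h207 (v' := (-3651/12800:ℝ)) (by norm_num [SS, BB, abs_le]) (fun _ _ _ _ _ h208 H173 => ?_) H172
  refine mulK_s he h208 h31 (fun _ _ _ _ _ h209 H174 => ?_) H173
  refine addcK_s he h209 (v' := (-84189/128000:ℝ)) (by norm_num [SS, BB, abs_le]) (fun _ _ _ _ _ h210 H175 => ?_) H174
  refine addcK_s he h73 (v' := (2415/32:ℝ)) (by norm_num [SS, BB, abs_le]) (fun _ _ _ _ _ h211 H176 => ?_) H175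
  refine mulK_s he h211 h31 (fun _ _ _ _ _ h212 H177 => ?_) H176
  refine addcK_s he h212 (v' := (-75597/1600:ℝ)) (by norm_num [SS, BB, abs_le]) (fun _ _ _ _ _ h213 H178 => ?_) H177
  refine mulK_s he h213 h31 (fun _ _ _ _ _ h214 H179 => ?_) H178
  refine addcK_s he h214 (v' := (4157/640:ℝ)) (by norm_num [SS, BB, abs_le]) (fun _ _ _ _ _ h215 H180 => ?_) H179
  refine mulK_s he h215 h31 (fun _ _ _ _ _ h216 H181 => ?_) H180
  refine addcK_s he h216 (v' := (17571/32000:ℝ)) (by norm_num [SS, BB, abs_le]) (fun _ _ _ _ _ h217 H182 => ?_) H181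
  refine addcK_s he h55 (v' := (483/32:ℝ)) (by norm_num [SS, BB, abs_le]) (fun _ _ _ _ _ h218 H183 => ?_) H182
  refine mulK_s he h218 h31 (fun _ _ _ _ _ h219 H184 => ?_) H183
  refine addcK_s he h219 (v' := (-25199/8000:ℝ)) (by norm_num [SS, BB, abs_le]) (fun _ _ _ _ _ h220 H185 => ?_) H184
  refine addK_s he h220 h86 (fun _ _ _ _ _ h221 H186 => ?_) H185
  refine mulK_s he h70 h221 (fun _ _ _ _ _ h222 H187 => ?_) H186
  refine addK_s he h217 h222 (fun _ _ _ _ _ h223 H188 => ?_) H187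
  refine mulK_s he h70 h223 (fun _ _ _ _ _ h224 H189 => ?_) H188
  refine addK_s he h210 h224 (fun _ _ _ _ _ h225 H190 => ?_) H189
  have h226 := In_cast (w := (cE a f s p q)) h225 rfl
  refine mulK_s he h52 h226 (fun _ _ _ _ _ h227 H191 => ?_) H190
  refine addK_s he h199 h227 (fun _ _ _ _ _ h228 H192 => ?_) H191
  have h229 := In_cast (w := (cm a f s p q)) h228 rfl
  refine addcK_s he h98 (v' := (483/32:ℝ)) (by norm_num [SS, BB, abs_le]) (fun _ _ _ _ _ h230 H193 => ?_) H192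
  refine mulK_s he h230 h31 (fun _ _ _ _ _ h231 H194 => ?_) H193
  refine addcK_s he h231 (v' := (-75597/4000:ℝ)) (by norm_num [SS, BB, abs_le]) (fun _ _ _ _ _ h232 H195 => ?_) H194
  refine mulK_s he h232 h31 (fun _ _ _ _ _ h233 H196 => ?_) H195
  refine addcK_s he h233 (v' := (4157/640:ℝ)) (by norm_num [SS, BB, abs_le]) (fun _ _ _ _ _ h234 H197 => ?_) H196
  refine mulK_s he h234 h31 (fun _ _ _ _ _ h235 H198 => ?_) H197
  refine addcK_s he h235 (v' := (17571/8000:ℝ)) (by norm_num [SS, BB, abs_le]) (fun _ _ _ _ _ h236 H199 => ?_) H198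
  refine mulK_s he h236 h31 (fun _ _ _ _ _ h237 H200 => ?_) H199
  refine addcK_s he h237 (v' := (-3651/12800:ℝ)) (by norm_num [SS, BB, abs_le]) (fun _ _ _ _ _ h238 H201 => ?_) H200
  refine mulK_s he h238 h31 (fun _ _ _ _ _ h239 H202 => ?_) H201
  refine addcK_s he h239 (v' := (-84189/64000:ℝ)) (by norm_num [SS, BB, abs_le]) (fun _ _ _ _ _ h240 H203 => ?_) H202
  refine mulK_s he h240 h31 (fun _ _ _ _ _ h241 H204 => ?_) H203
  refine addcK_s he h241 (v' := (78691/256000:ℝ)) (by norm_num [SS, BB, abs_le]) (fun _ _ _ _ _ h242 H205 => ?_) H204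
  refine addcK_s he h114 (v' := (2415/32:ℝ)) (by norm_num [SS, BB, abs_le]) (fun _ _ _ _ _ h243 H206 => ?_) H205
  refine mulK_s he h243 h31 (fun _ _ _ _ _ h244 H207 => ?_) H206
  refine addcK_s he h244 (v' := (-25199/400:ℝ)) (by norm_num [SS, BB, abs_le]) (fun _ _ _ _ _ h245 H208 => ?_) H207
  refine mulK_s he h245 h31 (fun _ _ _ _ _ h246 H209 => ?_) H208
  refine addcK_s he h246 (v' := (4157/320:ℝ)) (by norm_num [SS, BB, abs_le]) (fun _ _ _ _ _ h247 H210 => ?_) H209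
  refine mulK_s he h247 h31 (fun _ _ _ _ _ h248 H211 => ?_) H210
  refine addcK_s he h248 (v' := (17571/8000:ℝ)) (by norm_num [SS, BB, abs_le]) (fun _ _ _ _ _ h249 H212 => ?_) H211
  refine mulK_s he h249 h31 (fun _ _ _ _ _ h250 H213 => ?_) H212
  refine addcK_s he h250 (v' := (-1217/12800:ℝ)) (by norm_num [SS, BB, abs_le]) (fun _ _ _ _ _ h251 H214 => ?_) H213
  refine addcK_s he h114 (v' := (1449/32:ℝ)) (by norm_num [SS, BB, abs_le]) (fun _ _ _ _ _ h252 H215 => ?_) H214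
  refine mulK_s he h252 h31 (fun _ _ _ _ _ h253 H216 => ?_) H215
  refine addcK_s he h253 (v' := (-75597/4000:ℝ)) (by norm_num [SS, BB, abs_le]) (fun _ _ _ _ _ h254 H217 => ?_) H216
  refine mulK_s he h254 h31 (fun _ _ _ _ _ h255 H218 => ?_) H217
  refine addcK_s he h255 (v' := (4157/3200:ℝ)) (by norm_num [SS, BB, abs_le]) (fun _ _ _ _ _ h256 H219 => ?_) H218
  refine addcK_s he h98 (v' := (69/32:ℝ)) (by norm_num [SS, BB, abs_le]) (fun _ _ _ _ _ h257 H220 => ?_) H219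
  refine mulK_s he h70 h257 (fun _ _ _ _ _ h258 H221 => ?_) H220
  refine addK_s he h256 h258 (fun _ _ _ _ _ h259 H222 => ?_) H221
  refine mulK_s he h70 h259 (fun _ _ _ _ _ h260 H223 => ?_) H222
  refine addK_s he h251 h260 (fun _ _ _ _ _ h261 H224 => ?_) H223
  refine mulK_s he h70 h261 (fun _ _ _ _ _ h262 H225 => ?_) H224
  refine addK_s he h242 h262 (fun _ _ _ _ _ h263 H226 => ?_) H225
  have h264 := In_cast (w := (cO a f s p q)) h263 rfl
  refine mulK_s he hx2 h264 (fun _ _ _ _ _ h265 H227 => ?_) H226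
  refine smulK_s he (w := (2:ℝ)) (by norm_num) (by norm_num) (by norm_num) (by norm_num) h265 (fun _ _ _ _ _ h266 H228 => ?_) H227
  refine addK_s he h229 h266 (fun _ _ _ _ _ h267 H229 => ?_) H228
  have h268 := In_cast (w := (c1 a f s p q)) h267 rfl
  refine mulK_s he h185 h268 (fun _ _ _ _ _ h269 H230 => ?_) H229
  refine negK_s he h177 (fun _ _ _ _ _ h270 H231 => ?_) H230
  refine addcK_s he h270 (v' := (1:ℝ)) (by norm_num [SS, BB, abs_le]) (fun _ _ _ _ _ h271 H232 => ?_) H231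
  have h272 := In_cast h271 (neg_add_eq_sub _ _)
  refine smulK_s he (w := (7/25:ℝ)) (by norm_num) (by norm_num) (by norm_num) (by norm_num) h174 (fun _ _ _ _ _ h273 H233 => ?_) H232
  refine subK_s he h273 h179 (fun _ _ _ _ _ h274 H234 => ?_) H233
  refine addK_s he h8 h274 (fun _ _ _ _ _ h275 H235 => ?_) H234
  refine mulK_s he hx3 h275 (fun _ _ _ _ _ h276 H236 => ?_) H235
  refine subK_s he h272 h276 (fun _ _ _ _ _ h277 H237 => ?_) H236
  have h278 := In_cast (w := (K1Bq a f s p q)) h277 rfl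
  refine subK_s he h229 h266 (fun _ _ _ _ _ h279 H238 => ?_) H237
  have h280 := In_cast (w := (c0 a f s p q)) h279 rfl
  refine mulK_s he h278 h280 (fun _ _ _ _ _ h281 H239 => ?_) H238
  refine addK_s he h269 h281 (fun _ _ _ _ _ h282 H240 => ?_) H239
  refine mulK_s he h158 h174 (fun _ _ _ _ _ h283 H241 => ?_) H240
  have h284 := In_cast (w := (lBq a f s p q)) h283 rfl
  refine mulK_s he hx2 h284 (fun _ _ _ _ _ h285 H242 => ?_) H241
  refine smulK_s he (w := (2:ℝ)) (by norm_num) (by norm_num) (by norm_num) (by norm_num) h285 (fun _ _ _ _ _ h286 H243 => ?_) H242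
  refine addK_s he h282 h286 (fun _ _ _ _ _ h287 H244 => ?_) H243
  refine smulK_s he (w := (2:ℝ)) (by norm_num) (by norm_num) (by norm_num) (by norm_num) h199 (fun _ _ _ _ _ h288 H245 => ?_) H244
  refine subK_s he h287 h288 (fun _ _ _ _ _ h289 H246 => ?_) H245
  have h290 := In_cast (w := (QdB a f s p q)) h289 rfl
  refine posK_s he h290 (fun p3 H247 => ?_) H246
  refine mulK_s he h166 h290 (fun _ _ _ _ _ h291 H248 => ?_) H247
  refine mulK_s he h27 h278 (fun _ _ _ _ _ h292 H249 => ?_) H248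
  refine sqrtK_s he h292 (fun _ _ _ _ _ h293 H250 => ?_) H249
  refine smulK_s he (w := (238/125:ℝ)) (by norm_num) (by norm_num) (by norm_num) (by norm_num) h31 (fun _ _ _ _ _ h294 H251 => ?_) H250
  refine addcK_s he h294 (v' := (-238/25:ℝ)) (by norm_num [SS, BB, abs_le]) (fun _ _ _ _ _ h295 H252 => ?_) H251
  refine mulK_s he h295 h31 (fun _ _ _ _ _ h296 H253 => ?_) H252
  refine addcK_s he h296 (v' := (2264/125:ℝ)) (by norm_num [SS, BB, abs_le]) (fun _ _ _ _ _ h297 H254 => ?_) H253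
  refine mulK_s he h297 h31 (fun _ _ _ _ _ h298 H255 => ?_) H254
  refine addcK_s he h298 (v' := (-407/25:ℝ)) (by norm_num [SS, BB, abs_le]) (fun _ _ _ _ _ h299 H256 => ?_) H255
  refine mulK_s he h299 h31 (fun _ _ _ _ _ h300 H257 => ?_) H256
  refine addcK_s he h300 (v' := (7321/1000:ℝ)) (by norm_num [SS, BB, abs_le]) (fun _ _ _ _ _ h301 H258 => ?_) H257
  refine mulK_s he h301 h31 (fun _ _ _ _ _ h302 H259 => ?_) H258
  refine addcK_s he h302 (v' := (-2361/1000:ℝ)) (by norm_num [SS, BB, abs_le]) (fun _ _ _ _ _ h303 H260 => ?_) H259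
  refine mulK_s he h303 h31 (fun _ _ _ _ _ h304 H261 => ?_) H260
  refine addcK_s he h304 (v' := (927/1000:ℝ)) (by norm_num [SS, BB, abs_le]) (fun _ _ _ _ _ h305 H262 => ?_) H261
  have h306 := In_cast (w := (vh a f s p q)) h305 rfl
  refine smulK_s he (w := (1666/125:ℝ)) (by norm_num) (by norm_num) (by norm_num) (by norm_num) h31 (fun _ _ _ _ _ h307 H263 => ?_) H262
  refine addcK_s he h307 (v' := (-4998/125:ℝ)) (by norm_num [SS, BB, abs_le]) (fun _ _ _ _ _ h308 H264 => ?_) H263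
  refine mulK_s he h308 h31 (fun _ _ _ _ _ h309 H265 => ?_) H264
  refine addcK_s he h309 (v' := (6801/200:ℝ)) (by norm_num [SS, BB, abs_le]) (fun _ _ _ _ _ h310 H266 => ?_) H265
  refine mulK_s he h310 h31 (fun _ _ _ _ _ h311 H267 => ?_) H266
  refine addcK_s he h311 (v' := (-137/100:ℝ)) (by norm_num [SS, BB, abs_le]) (fun _ _ _ _ _ h312 H268 => ?_) H267
  refine mulK_s he h312 h31 (fun _ _ _ _ _ h313 H269 => ?_) H268
  refine addcK_s he h313 (v' := (-13293/2000:ℝ)) (by norm_num [SS, BB, abs_le]) (fun _ _ _ _ _ h314 H270 => ?_) H269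
  refine mulK_s he h314 h31 (fun _ _ _ _ _ h315 H271 => ?_) H270
  refine addcK_s he h315 (v' := (267/400:ℝ)) (by norm_num [SS, BB, abs_le]) (fun _ _ _ _ _ h316 H272 => ?_) H271
  refine mulK_s he h316 h31 (fun _ _ _ _ _ h317 H273 => ?_) H272
  refine addcK_s he h317 (v' := (317/3200:ℝ)) (by norm_num [SS, BB, abs_le]) (fun _ _ _ _ _ h318 H274 => ?_) H273
  refine smulK_s he (w := (833/25:ℝ)) (by norm_num) (by norm_num) (by norm_num) (by norm_num) h31 (fun _ _ _ _ _ h319 H275 => ?_) H274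
  refine addcK_s he h319 (v' := (-1666/25:ℝ)) (by norm_num [SS, BB, abs_le]) (fun _ _ _ _ _ h320 H276 => ?_) H275
  refine mulK_s he h320 h31 (fun _ _ _ _ _ h321 H277 => ?_) H276
  refine addcK_s he h321 (v' := (6801/200:ℝ)) (by norm_num [SS, BB, abs_le]) (fun _ _ _ _ _ h322 H278 => ?_) H277
  refine mulK_s he h322 h31 (fun _ _ _ _ _ h323 H279 => ?_) H278
  refine addcK_s he h323 (v' := (-137/200:ℝ)) (by norm_num [SS, BB, abs_le]) (fun _ _ _ _ _ h324 H280 => ?_) H279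
  refine mulK_s he h324 h31 (fun _ _ _ _ _ h325 H281 => ?_) H280
  refine addcK_s he h325 (v' := (-4431/4000:ℝ)) (by norm_num [SS, BB, abs_le]) (fun _ _ _ _ _ h326 H282 => ?_) H281
  refine addcK_s he h307 (v' := (-1666/125:ℝ)) (by norm_num [SS, BB, abs_le]) (fun _ _ _ _ _ h327 H283 => ?_) H282
  refine mulK_s he h327 h31 (fun _ _ _ _ _ h328 H284 => ?_) H283
  refine addcK_s he h328 (v' := (2267/1000:ℝ)) (by norm_num [SS, BB, abs_le]) (fun _ _ _ _ _ h329 H285 => ?_) H284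
  refine smulK_s he (w := (119/250:ℝ)) (by norm_num) (by norm_num) (by norm_num) (by norm_num) h70 (fun _ _ _ _ _ h330 H286 => ?_) H285
  refine addK_s he h329 h330 (fun _ _ _ _ _ h331 H287 => ?_) H286
  refine mulK_s he h70 h331 (fun _ _ _ _ _ h332 H288 => ?_) H287
  refine addK_s he h326 h332 (fun _ _ _ _ _ h333 H289 => ?_) H288
  refine mulK_s he h70 h333 (fun _ _ _ _ _ h334 H290 => ?_) H289
  refine addK_s he h318 h334 (fun _ _ _ _ _ h335 H291 => ?_) H290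
  have h336 := In_cast (w := (vE a f s p q)) h335 rfl
  refine mulK_s he h49 h336 (fun _ _ _ _ _ h337 H292 => ?_) H291
  refine smulK_s he (w := (4:ℝ)) (by norm_num) (by norm_num) (by norm_num) (by norm_num) h337 (fun _ _ _ _ _ h338 H293 => ?_) H292
  refine addK_s he h306 h338 (fun _ _ _ _ _ h339 H294 => ?_) H293
  have h340 := In_cast (w := (vm a f s p q)) h339 rfl
  refine smulK_s he (w := (952/125:ℝ)) (by norm_num) (by norm_num) (by norm_num) (by norm_num) h31 (fun _ _ _ _ _ h341 H295 => ?_) H294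
  refine addcK_s he h341 (v' := (-3808/125:ℝ)) (by norm_num [SS, BB, abs_le]) (fun _ _ _ _ _ h342 H296 => ?_) H295
  refine mulK_s he h342 h31 (fun _ _ _ _ _ h343 H297 => ?_) H296
  refine addcK_s he h343 (v' := (10609/250:ℝ)) (by norm_num [SS, BB, abs_le]) (fun _ _ _ _ _ h344 H298 => ?_) H297
  refine mulK_s he h344 h31 (fun _ _ _ _ _ h345 H299 => ?_) H298
  refine addcK_s he h345 (v' := (-5647/250:ℝ)) (by norm_num [SS, BB, abs_le]) (fun _ _ _ _ _ h346 H300 => ?_) H299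
  refine mulK_s he h346 h31 (fun _ _ _ _ _ h347 H301 => ?_) H300
  refine addcK_s he h347 (v' := (304/125:ℝ)) (by norm_num [SS, BB, abs_le]) (fun _ _ _ _ _ h348 H302 => ?_) H301
  refine mulK_s he h348 h31 (fun _ _ _ _ _ h349 H303 => ?_) H302
  refine addcK_s he h349 (v' := (119/1000:ℝ)) (by norm_num [SS, BB, abs_le]) (fun _ _ _ _ _ h350 H304 => ?_) H303
  refine mulK_s he h350 h31 (fun _ _ _ _ _ h351 H305 => ?_) H304
  refine addcK_s he h351 (v' := (1347/4000:ℝ)) (by norm_num [SS, BB, abs_le]) (fun _ _ _ _ _ h352 H306 => ?_) H305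
  refine smulK_s he (w := (3332/125:ℝ)) (by norm_num) (by norm_num) (by norm_num) (by norm_num) h31 (fun _ _ _ _ _ h353 H307 => ?_) H306
  refine addcK_s he h353 (v' := (-1666/25:ℝ)) (by norm_num [SS, BB, abs_le]) (fun _ _ _ _ _ h354 H308 => ?_) H307
  refine mulK_s he h354 h31 (fun _ _ _ _ _ h355 H309 => ?_) H308
  refine addcK_s he h355 (v' := (2267/50:ℝ)) (by norm_num [SS, BB, abs_le]) (fun _ _ _ _ _ h356 H310 => ?_) H309
  refine mulK_s he h356 h31 (fun _ _ _ _ _ h357 H311 => ?_) H310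
  refine addcK_s he h357 (v' := (-137/100:ℝ)) (by norm_num [SS, BB, abs_le]) (fun _ _ _ _ _ h358 H312 => ?_) H311
  refine mulK_s he h358 h31 (fun _ _ _ _ _ h359 H313 => ?_) H312
  refine addcK_s he h359 (v' := (-4431/1000:ℝ)) (by norm_num [SS, BB, abs_le]) (fun _ _ _ _ _ h360 H314 => ?_) H313
  refine mulK_s he h360 h31 (fun _ _ _ _ _ h361 H315 => ?_) H314
  refine addcK_s he h361 (v' := (89/400:ℝ)) (by norm_num [SS, BB, abs_le]) (fun _ _ _ _ _ h362 H316 => ?_) H315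
  refine addcK_s he h353 (v' := (-4998/125:ℝ)) (by norm_num [SS, BB, abs_le]) (fun _ _ _ _ _ h363 H317 => ?_) H316
  refine mulK_s he h363 h31 (fun _ _ _ _ _ h364 H318 => ?_) H317
  refine addcK_s he h364 (v' := (6801/500:ℝ)) (by norm_num [SS, BB, abs_le]) (fun _ _ _ _ _ h365 H319 => ?_) H318
  refine mulK_s he h365 h31 (fun _ _ _ _ _ h366 H320 => ?_) H319
  refine addcK_s he h366 (v' := (-137/1000:ℝ)) (by norm_num [SS, BB, abs_le]) (fun _ _ _ _ _ h367 H321 => ?_) H320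
  refine smulK_s he (w := (476/125:ℝ)) (by norm_num) (by norm_num) (by norm_num) (by norm_num) h31 (fun _ _ _ _ _ h368 H322 => ?_) H321
  refine addcK_s he h368 (v' := (-238/125:ℝ)) (by norm_num [SS, BB, abs_le]) (fun _ _ _ _ _ h369 H323 => ?_) H322
  refine mulK_s he h70 h369 (fun _ _ _ _ _ h370 H324 => ?_) H323
  refine addK_s he h367 h370 (fun _ _ _ _ _ h371 H325 => ?_) H324
  refine mulK_s he h70 h371 (fun _ _ _ _ _ h372 H326 => ?_) H325
  refine addK_s he h362 h372 (fun _ _ _ _ _ h373 H327 => ?_) H326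
  refine mulK_s he h52 h373 (fun _ _ _ _ _ h374 H328 => ?_) H327
  refine addK_s he h352 h374 (fun _ _ _ _ _ h375 H329 => ?_) H328
  have h376 := In_cast (w := (vO a f s p q)) h375 rfl
  refine mulK_s he hx2 h376 (fun _ _ _ _ _ h377 H330 => ?_) H329
  refine smulK_s he (w := (2:ℝ)) (by norm_num) (by norm_num) (by norm_num) (by norm_num) h377 (fun _ _ _ _ _ h378 H331 => ?_) H330
  refine subK_s he h340 h378 (fun _ _ _ _ _ h379 H332 => ?_) H331
  have h380 := In_cast (w := (v0 a f s p q)) h379 rfl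
  refine mulK_s he h293 h380 (fun _ _ _ _ _ h381 H333 => ?_) H332
  refine mulK_s he h150 h185 (fun _ _ _ _ _ h382 H334 => ?_) H333
  refine sqrtK_s he h382 (fun _ _ _ _ _ h383 H335 => ?_) H334
  refine addK_s he h340 h378 (fun _ _ _ _ _ h384 H336 => ?_) H335
  have h385 := In_cast (w := (v1 a f s p q)) h384 rfl
  refine mulK_s he h383 h385 (fun _ _ _ _ _ h386 H337 => ?_) H336
  refine addK_s he h381 h386 (fun _ _ _ _ _ h387 H338 => ?_) H337
  refine smulK_s he (w := (2:ℝ)) (by norm_num) (by norm_num) (by norm_num) (by norm_num) h306 (fun _ _ _ _ _ h388 H339 => ?_) H338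
  refine subK_s he h387 h388 (fun _ _ _ _ _ h389 H340 => ?_) H339
  have h390 := In_cast (w := (ZdBB a f s p q)) h389 rfl
  refine mulK_s he hx1 h390 (fun _ _ _ _ _ h391 H341 => ?_) H340
  refine negK_s he h391 (fun _ _ _ _ _ h392 H342 => ?_) H341
  refine reluK_s he h392 (fun _ _ _ _ _ h393 H343 => ?_) H342
  refine sqK_s he h393 (fun _ _ _ _ _ h394 H344 => ?_) H343
  refine subK_s he h291 h394 (fun _ _ _ _ _ h395 H345 => ?_) H344
  exact ⟨p0, p1, p2, p3, pos_s he h395 H345⟩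

noncomputable def alt2 (p1 p2 z1 w1 z2 w2 z3 w3 : ℕ) : Bool :=
  smulK 11 20 23058430092136939540 12682136550675316736 p1 1152921504606846976 1152921504606846976 1152921504606846976 0 fun c1 a1_1 a1_2 a1_3 q1 =>
  smulK 3 10 11529215046068469770 3458764513820540928 z3 1152921504606846976 1152921504606846976 (Nat.add w3 1152921504606846976) 0 fun c3 a3_1 a3_2 a3_3 q3 =>
  subK c1 a1_1 a1_2 a1_3 q1 c3 a3_1 a3_2 a3_3 q3 fun c4 a4_1 a4_2 a4_3 q4 =>
  posK c4 a4_1 a4_2 a4_3 q4 <|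
  smulK 3 25 28823037615171174425 3458764513820540928 z3 1152921504606846976 1152921504606846976 (Nat.add w3 1152921504606846976) 0 fun c5 a5_1 a5_2 a5_3 q5 =>
  sqK c1 a1_1 a1_2 a1_3 q1 fun c6 a6_1 a6_2 a6_3 q6 =>
  addcK c6 a6_1 a6_2 a6_3 q6 1152922604118474752 0 fun c7 a7_1 a7_2 a7_3 q7 =>
  invK c7 a7_1 a7_2 a7_3 q7 fun c9 a9_1 a9_2 a9_3 q9 =>
  smulK 2 1 1152921504606846977 2305843009213693952 c1 a1_1 a1_2 a1_3 q1 fun c10 a10_1 a10_2 a10_3 q10 =>
  mulK c10 a10_1 a10_2 a10_3 q10 c9 a9_1 a9_2 a9_3 q9 fun c11 a11_1 a11_2 a11_3 q11 =>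
  smulK 3 10 11529215046068469770 3458764513820540928 c11 a11_1 a11_2 a11_3 q11 fun c14 a14_1 a14_2 a14_3 q14 =>
  mulK c1 a1_1 a1_2 a1_3 q1 c11 a11_1 a11_2 a11_3 q11 fun c15 a15_1 a15_2 a15_3 q15 =>
  smulK 1 4 4611686018427387908 1152921504606846976 c15 a15_1 a15_2 a15_3 q15 fun c17 a17_1 a17_2 a17_3 q17 =>
  subK c14 a14_1 a14_2 a14_3 q14 c17 a17_1 a17_2 a17_3 q17 fun c19 a19_1 a19_2 a19_3 q19 =>
  addK c5 a5_1 a5_2 a5_3 q5 c19 a19_1 a19_2 a19_3 q19 fun c20 a20_1 a20_2 a20_3 q20 =>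
  mulK z3 1152921504606846976 1152921504606846976 (Nat.add w3 1152921504606846976) 0 c20 a20_1 a20_2 a20_3 q20 fun c21 a21_1 a21_2 a21_3 q21 =>
  addcK c21 a21_1 a21_2 a21_3 q21 1152922604118474752 0 fun c22 a22_1 a22_2 a22_3 q22 =>
  smulK 2 1 1152921504606846977 2305843009213693952 z1 (Nat.add w1 1152921504606846976) 1152921504606846976 1152921504606846976 0 fun c25 a25_1 a25_2 a25_3 q25 =>
  addcK c25 a25_1 a25_2 a25_3 q25 1152920954851033088 0 fun c26 a26_1 a26_2 a26_3 q26 =>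
  smulK 987 1000 1152921504606846977000 1137933525046957965312 c26 a26_1 a26_2 a26_3 q26 fun c29 a29_1 a29_2 a29_3 q29 =>
  negK c29 a29_1 a29_2 a29_3 q29 fun c30 a30_1 a30_2 a30_3 q30 =>
  addcK c30 a30_1 a30_2 a30_3 q30 1152925987315753419 1 fun c32 a32_1 a32_2 a32_3 q32 =>
  mulK c32 a32_1 a32_2 a32_3 q32 c26 a26_1 a26_2 a26_3 q26 fun c33 a33_1 a33_2 a33_3 q33 =>
  addcK c33 a33_1 a33_2 a33_3 q33 1152915142007934943 1 fun c34 a34_1 a34_2 a34_3 q34 =>
  mulK c34 a34_1 a34_2 a34_3 q34 c26 a26_1 a26_2 a26_3 q26 fun c35 a35_1 a35_2 a35_3 q35 =>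
  addcK c35 a35_1 a35_2 a35_3 q35 1152924586812817539 1 fun c36 a36_1 a36_2 a36_3 q36 =>
  mulK c36 a36_1 a36_2 a36_3 q36 c26 a26_1 a26_2 a26_3 q26 fun c37 a37_1 a37_2 a37_3 q37 =>
  addcK c37 a37_1 a37_2 a37_3 q37 1152921546869325169 1 fun c38 a38_1 a38_2 a38_3 q38 =>
  mulK c38 a38_1 a38_2 a38_3 q38 c26 a26_1 a26_2 a26_3 q26 fun c39 a39_1 a39_2 a39_3 q39 =>
  addcK c39 a39_1 a39_2 a39_3 q39 1152921643626348413 1 fun c40 a40_1 a40_2 a40_3 q40 =>
  mulK c40 a40_1 a40_2 a40_3 q40 c26 a26_1 a26_2 a26_3 q26 fun c41 a41_1 a41_2 a41_3 q41 =>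
  addcK c41 a41_1 a41_2 a41_3 q41 1152920461702888161 1 fun c42 a42_1 a42_2 a42_3 q42 =>
  mulK c42 a42_1 a42_2 a42_3 q42 c26 a26_1 a26_2 a26_3 q26 fun c43 a43_1 a43_2 a43_3 q43 =>
  addcK c43 a43_1 a43_2 a43_3 q43 1152922806961190207 1 fun c44 a44_1 a44_2 a44_3 q44 =>
  sqK z2 1152921504606846976 (Nat.add w2 1152921504606846976) 1152921504606846976 0 fun c46 a46_1 a46_2 a46_3 q46 =>
  mulK z1 (Nat.add w1 1152921504606846976) 1152921504606846976 1152921504606846976 0 c46 a46_1 a46_2 a46_3 q46 fun c47 a47_1 a47_2 a47_3 q47 =>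
  smulK 4 1 1152921504606846977 4611686018427387904 c47 a47_1 a47_2 a47_3 q47 fun c48 a48_1 a48_2 a48_3 q48 =>
  smulK 6909 500 576460752303423488500 7965534675328705757184 c26 a26_1 a26_2 a26_3 q26 fun c50 a50_1 a50_2 a50_3 q50 =>
  negK c50 a50_1 a50_2 a50_3 q50 fun c51 a51_1 a51_2 a51_3 q51 =>
  addcK c51 a51_1 a51_2 a51_3 q51 1152962875655987397 1 fun c53 a53_1 a53_2 a53_3 q53 =>
  mulK c53 a53_1 a53_2 a53_3 q53 c26 a26_1 a26_2 a26_3 q26 fun c54 a54_1 a54_2 a54_3 q54 =>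
  addcK c54 a54_1 a54_2 a54_3 q54 1152890595273405891 1 fun c55 a55_1 a55_2 a55_3 q55 =>
  mulK c55 a55_1 a55_2 a55_3 q55 c26 a26_1 a26_2 a26_3 q26 fun c56 a56_1 a56_2 a56_3 q56 =>
  addcK c56 a56_1 a56_2 a56_3 q56 1152921009139419709 1 fun c57 a57_1 a57_2 a57_3 q57 =>
  mulK c57 a57_1 a57_2 a57_3 q57 c26 a26_1 a26_2 a26_3 q26 fun c58 a58_1 a58_2 a58_3 q58 =>
  addcK c58 a58_1 a58_2 a58_3 q58 1152926254703237399 1 fun c59 a59_1 a59_2 a59_3 q59 =>
  mulK c59 a59_1 a59_2 a59_3 q59 c26 a26_1 a26_2 a26_3 q26 fun c60 a60_1 a60_2 a60_3 q60 =>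
  addcK c60 a60_1 a60_2 a60_3 q60 1152921744832957776 1 fun c61 a61_1 a61_2 a61_3 q61 =>
  mulK c61 a61_1 a61_2 a61_3 q61 c26 a26_1 a26_2 a26_3 q26 fun c62 a62_1 a62_2 a62_3 q62 =>
  addcK c62 a62_1 a62_2 a62_3 q62 1152921017909742928 1 fun c63 a63_1 a63_2 a63_3 q63 =>
  mulK z1 (Nat.add w1 1152921504606846976) 1152921504606846976 1152921504606846976 0 z2 1152921504606846976 (Nat.add w2 1152921504606846976) 1152921504606846976 0 fun c64 a64_1 a64_2 a64_3 q64 =>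
  sqK c64 a64_1 a64_2 a64_3 q64 fun c65 a65_1 a65_2 a65_3 q65 =>
  smulK 4 1 1152921504606846977 4611686018427387904 c65 a65_1 a65_2 a65_3 q65 fun c66 a66_1 a66_2 a66_3 q66 =>
  smulK 6909 200 230584300921369395400 7965534675328705757184 c26 a26_1 a26_2 a26_3 q26 fun c68 a68_1 a68_2 a68_3 q68 =>
  negK c68 a68_1 a68_2 a68_3 q68 fun c69 a69_1 a69_2 a69_3 q69 =>
  addcK c69 a69_1 a69_2 a69_3 q69 1152990456355414344 1 fun c71 a71_1 a71_2 a71_3 q71 =>
  mulK c71 a71_1 a71_2 a71_3 q71 c26 a26_1 a26_2 a26_3 q26 fun c72 a72_1 a72_2 a72_3 q72 =>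
  addcK c72 a72_1 a72_2 a72_3 q72 1152890595273405891 1 fun c73 a73_1 a73_2 a73_3 q73 =>
  mulK c73 a73_1 a73_2 a73_3 q73 c26 a26_1 a26_2 a26_3 q26 fun c74 a74_1 a74_2 a74_3 q74 =>
  addcK c74 a74_1 a74_2 a74_3 q74 1152921256873133343 1 fun c75 a75_1 a75_2 a75_3 q75 =>
  mulK c75 a75_1 a75_2 a75_3 q75 c26 a26_1 a26_2 a26_3 q26 fun c76 a76_1 a76_2 a76_3 q76 =>
  addcK c76 a76_1 a76_2 a76_3 q76 1152922296289578713 1 fun c77 a77_1 a77_2 a77_3 q77 =>
  addcK c51 a51_1 a51_2 a51_3 q51 1152935294956560450 1 fun c78 a78_1 a78_2 a78_3 q78 =>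
  mulK c78 a78_1 a78_2 a78_3 q78 c26 a26_1 a26_2 a26_3 q26 fun c79 a79_1 a79_2 a79_3 q79 =>
  addcK c79 a79_1 a79_2 a79_3 q79 1152919443984617570 1 fun c80 a80_1 a80_2 a80_3 q80 =>
  smulK 987 2000 2305843009213693954000 1137933525046957965312 c66 a66_1 a66_2 a66_3 q66 fun c81 a81_1 a81_2 a81_3 q81 =>
  negK c81 a81_1 a81_2 a81_3 q81 fun c82 a82_1 a82_2 a82_3 q82 =>
  addK c80 a80_1 a80_2 a80_3 q80 c82 a82_1 a82_2 a82_3 q82 fun c84 a84_1 a84_2 a84_3 q84 =>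
  mulK c66 a66_1 a66_2 a66_3 q66 c84 a84_1 a84_2 a84_3 q84 fun c85 a85_1 a85_2 a85_3 q85 =>
  addK c77 a77_1 a77_2 a77_3 q77 c85 a85_1 a85_2 a85_3 q85 fun c86 a86_1 a86_2 a86_3 q86 =>
  mulK c66 a66_1 a66_2 a66_3 q66 c86 a86_1 a86_2 a86_3 q86 fun c87 a87_1 a87_2 a87_3 q87 =>
  addK c63 a63_1 a63_2 a63_3 q63 c87 a87_1 a87_2 a87_3 q87 fun c88 a88_1 a88_2 a88_3 q88 =>
  mulK c48 a48_1 a48_2 a48_3 q48 c88 a88_1 a88_2 a88_3 q88 fun c90 a90_1 a90_2 a90_3 q90 =>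
  addK c44 a44_1 a44_2 a44_3 q44 c90 a90_1 a90_2 a90_3 q90 fun c91 a91_1 a91_2 a91_3 q91 =>
  smulK 987 250 288230376151711744250 1137933525046957965312 c26 a26_1 a26_2 a26_3 q26 fun c93 a93_1 a93_2 a93_3 q93 =>
  negK c93 a93_1 a93_2 a93_3 q93 fun c94 a94_1 a94_2 a94_3 q94 =>
  addcK c94 a94_1 a94_2 a94_3 q94 1152935294956560450 1 fun c96 a96_1 a96_2 a96_3 q96 =>
  mulK c96 a96_1 a96_2 a96_3 q96 c26 a26_1 a26_2 a26_3 q26 fun c97 a97_1 a97_2 a97_3 q97 =>
  addcK c97 a97_1 a97_2 a97_3 q97 1152909140873470542 1 fun c98 a98_1 a98_2 a98_3 q98 =>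
  mulK c98 a98_1 a98_2 a98_3 q98 c26 a26_1 a26_2 a26_3 q26 fun c99 a99_1 a99_2 a99_3 q99 =>
  addcK c99 a99_1 a99_2 a99_3 q99 1152921256873133343 1 fun c100 a100_1 a100_2 a100_3 q100 =>
  mulK c100 a100_1 a100_2 a100_3 q100 c26 a26_1 a26_2 a26_3 q26 fun c101 a101_1 a101_2 a101_3 q101 =>
  addcK c101 a101_1 a101_2 a101_3 q101 1152924671337773924 1 fun c102 a102_1 a102_2 a102_3 q102 =>
  mulK c102 a102_1 a102_2 a102_3 q102 c26 a26_1 a26_2 a26_3 q26 fun c103 a103_1 a103_2 a103_3 q103 =>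
  addcK c103 a103_1 a103_2 a103_3 q103 1152921744832957776 1 fun c104 a104_1 a104_2 a104_3 q104 =>
  mulK c104 a104_1 a104_2 a104_3 q104 c26 a26_1 a26_2 a26_3 q26 fun c105 a105_1 a105_2 a105_3 q105 =>
  addcK c105 a105_1 a105_2 a105_3 q105 1152920531212638880 1 fun c106 a106_1 a106_2 a106_3 q106 =>
  mulK c106 a106_1 a106_2 a106_3 q106 c26 a26_1 a26_2 a26_3 q26 fun c107 a107_1 a107_2 a107_3 q107 =>
  addcK c107 a107_1 a107_2 a107_3 q107 1152921895058028888 1 fun c108 a108_1 a108_2 a108_3 q108 =>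
  smulK 6909 250 288230376151711744250 7965534675328705757184 c26 a26_1 a26_2 a26_3 q26 fun c109 a109_1 a109_2 a109_3 q109 =>
  negK c109 a109_1 a109_2 a109_3 q109 fun c110 a110_1 a110_2 a110_3 q110 =>
  addcK c110 a110_1 a110_2 a110_3 q110 1152990456355414344 1 fun c112 a112_1 a112_2 a112_3 q112 =>
  mulK c112 a112_1 a112_2 a112_3 q112 c26 a26_1 a26_2 a26_3 q26 fun c113 a113_1 a113_2 a113_3 q113 =>
  addcK c113 a113_1 a113_2 a113_3 q113 1152880292162258862 1 fun c114 a114_1 a114_2 a114_3 q114 =>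
  mulK c114 a114_1 a114_2 a114_3 q114 c26 a26_1 a26_2 a26_3 q26 fun c115 a115_1 a115_2 a115_3 q115 =>
  addcK c115 a115_1 a115_2 a115_3 q115 1152921009139419709 1 fun c116 a116_1 a116_2 a116_3 q116 =>
  mulK c116 a116_1 a116_2 a116_3 q116 c26 a26_1 a26_2 a26_3 q26 fun c117 a117_1 a117_2 a117_3 q117 =>
  addcK c117 a117_1 a117_2 a117_3 q117 1152924671337773924 1 fun c118 a118_1 a118_2 a118_3 q118 =>
  mulK c118 a118_1 a118_2 a118_3 q118 c26 a26_1 a26_2 a26_3 q26 fun c119 a119_1 a119_2 a119_3 q119 =>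
  addcK c119 a119_1 a119_2 a119_3 q119 1152921584682217243 1 fun c120 a120_1 a120_2 a120_3 q120 =>
  addcK c110 a110_1 a110_2 a110_3 q110 1152962875655987397 1 fun c121 a121_1 a121_2 a121_3 q121 =>
  mulK c121 a121_1 a121_2 a121_3 q121 c26 a26_1 a26_2 a26_3 q26 fun c122 a122_1 a122_2 a122_3 q122 =>
  addcK c122 a122_1 a122_2 a122_3 q122 1152909140873470542 1 fun c123 a123_1 a123_2 a123_3 q123 =>
  mulK c123 a123_1 a123_2 a123_3 q123 c26 a26_1 a26_2 a26_3 q26 fun c124 a124_1 a124_2 a124_3 q124 =>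
  addcK c124 a124_1 a124_2 a124_3 q124 1152921455060104249 1 fun c125 a125_1 a125_2 a125_3 q125 =>
  addcK c94 a94_1 a94_2 a94_3 q94 1152923474656806044 1 fun c126 a126_1 a126_2 a126_3 q126 =>
  mulK c66 a66_1 a66_2 a66_3 q66 c126 a126_1 a126_2 a126_3 q126 fun c127 a127_1 a127_2 a127_3 q127 =>
  addK c125 a125_1 a125_2 a125_3 q125 c127 a127_1 a127_2 a127_3 q127 fun c128 a128_1 a128_2 a128_3 q128 =>
  mulK c66 a66_1 a66_2 a66_3 q66 c128 a128_1 a128_2 a128_3 q128 fun c129 a129_1 a129_2 a129_3 q129 =>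
  addK c120 a120_1 a120_2 a120_3 q120 c129 a129_1 a129_2 a129_3 q129 fun c130 a130_1 a130_2 a130_3 q130 =>
  mulK c66 a66_1 a66_2 a66_3 q66 c130 a130_1 a130_2 a130_3 q130 fun c131 a131_1 a131_2 a131_3 q131 =>
  addK c108 a108_1 a108_2 a108_3 q108 c131 a131_1 a131_2 a131_3 q131 fun c132 a132_1 a132_2 a132_3 q132 =>
  mulK z2 1152921504606846976 (Nat.add w2 1152921504606846976) 1152921504606846976 0 c132 a132_1 a132_2 a132_3 q132 fun c134 a134_1 a134_2 a134_3 q134 =>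
  smulK 2 1 1152921504606846977 2305843009213693952 c134 a134_1 a134_2 a134_3 q134 fun c135 a135_1 a135_2 a135_3 q135 =>
  subK c91 a91_1 a91_2 a91_3 q91 c135 a135_1 a135_2 a135_3 q135 fun c136 a136_1 a136_2 a136_3 q136 =>
  mulK c22 a22_1 a22_2 a22_3 q22 c136 a136_1 a136_2 a136_3 q136 fun c138 a138_1 a138_2 a138_3 q138 =>
  negK c15 a15_1 a15_2 a15_3 q15 fun c139 a139_1 a139_2 a139_3 q139 =>
  addcK c139 a139_1 a139_2 a139_3 q139 1152922604118474752 0 fun c140 a140_1 a140_2 a140_3 q140 =>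
  smulK 7 25 28823037615171174425 8070450532247928832 c11 a11_1 a11_2 a11_3 q11 fun c142 a142_1 a142_2 a142_3 q142 =>
  subK c142 a142_1 a142_2 a142_3 q142 c17 a17_1 a17_2 a17_3 q17 fun c143 a143_1 a143_2 a143_3 q143 =>
  addK c5 a5_1 a5_2 a5_3 q5 c143 a143_1 a143_2 a143_3 q143 fun c144 a144_1 a144_2 a144_3 q144 =>
  mulK z3 1152921504606846976 1152921504606846976 (Nat.add w3 1152921504606846976) 0 c144 a144_1 a144_2 a144_3 q144 fun c145 a145_1 a145_2 a145_3 q145 =>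
  subK c140 a140_1 a140_2 a140_3 q140 c145 a145_1 a145_2 a145_3 q145 fun c146 a146_1 a146_2 a146_3 q146 =>
  addK c91 a91_1 a91_2 a91_3 q91 c135 a135_1 a135_2 a135_3 q135 fun c148 a148_1 a148_2 a148_3 q148 =>
  mulK c146 a146_1 a146_2 a146_3 q146 c148 a148_1 a148_2 a148_3 q148 fun c150 a150_1 a150_2 a150_3 q150 =>
  addK c138 a138_1 a138_2 a138_3 q138 c150 a150_1 a150_2 a150_3 q150 fun c151 a151_1 a151_2 a151_3 q151 =>
  smulK 3 500 576460752303423488500 3458764513820540928 z3 1152921504606846976 1152921504606846976 (Nat.add w3 1152921504606846976) 0 fun c152 a152_1 a152_2 a152_3 q152 =>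
  negK c152 a152_1 a152_2 a152_3 q152 fun c153 a153_1 a153_2 a153_3 q153 =>
  addcK c153 a153_1 a153_2 a153_3 q153 1152922601919451496 1 fun c154 a154_1 a154_2 a154_3 q154 =>
  mulK c154 a154_1 a154_2 a154_3 q154 c11 a11_1 a11_2 a11_3 q11 fun c156 a156_1 a156_2 a156_3 q156 =>
  mulK z2 1152921504606846976 (Nat.add w2 1152921504606846976) 1152921504606846976 0 c156 a156_1 a156_2 a156_3 q156 fun c158 a158_1 a158_2 a158_3 q158 =>
  smulK 2 1 1152921504606846977 2305843009213693952 c158 a158_1 a158_2 a158_3 q158 fun c159 a159_1 a159_2 a159_3 q159 =>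
  addK c151 a151_1 a151_2 a151_3 q151 c159 a159_1 a159_2 a159_3 q159 fun c160 a160_1 a160_2 a160_3 q160 =>
  smulK 2 1 1152921504606846977 2305843009213693952 c44 a44_1 a44_2 a44_3 q44 fun c161 a161_1 a161_2 a161_3 q161 =>
  subK c160 a160_1 a160_2 a160_3 q160 c161 a161_1 a161_2 a161_3 q161 fun c162 a162_1 a162_2 a162_3 q162 =>
  posK c162 a162_1 a162_2 a162_3 q162 <|
  smulK 9 20 23058430092136939540 10376293541461622784 p2 1152921504606846976 1152921504606846976 1152921504606846976 0 fun c164 a164_1 a164_2 a164_3 q164 =>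
  addcK c164 a164_1 a164_2 a164_3 q164 1152922109338242253 1 fun c165 a165_1 a165_2 a165_3 q165 =>
  smulK 21 50 57646075230342348850 24211351596743786496 c165 a165_1 a165_2 a165_3 q165 fun c168 a168_1 a168_2 a168_3 q168 =>
  negK c168 a168_1 a168_2 a168_3 q168 fun c169 a169_1 a169_2 a169_3 q169 =>
  addcK c169 a169_1 a169_2 a169_3 q169 1152922164313823642 1 fun c170 a170_1 a170_2 a170_3 q170 =>
  mulK c165 a165_1 a165_2 a165_3 q165 c170 a170_1 a170_2 a170_3 q170 fun c172 a172_1 a172_2 a172_3 q172 =>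
  addcK c172 a172_1 a172_2 a172_3 q172 1152921449631265587 1 fun c173 a173_1 a173_2 a173_3 q173 =>
  sqK c165 a165_1 a165_2 a165_3 q165 fun c175 a175_1 a175_2 a175_3 q175 =>
  addcK c175 a175_1 a175_2 a175_3 q175 1152922604118474752 0 fun c176 a176_1 a176_2 a176_3 q176 =>
  invK c176 a176_1 a176_2 a176_3 q176 fun c178 a178_1 a178_2 a178_3 q178 =>
  mulK c173 a173_1 a173_2 a173_3 q173 c178 a178_1 a178_2 a178_3 q178 fun c181 a181_1 a181_2 a181_3 q181 =>
  mulK z3 1152921504606846976 1152921504606846976 (Nat.add w3 1152921504606846976) 0 c181 a181_1 a181_2 a181_3 q181 fun c182 a182_1 a182_2 a182_3 q182 =>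
  addcK c182 a182_1 a182_2 a182_3 q182 1152922604118474752 0 fun c183 a183_1 a183_2 a183_3 q183 =>
  addcK c30 a30_1 a30_2 a30_3 q30 1152926788859730067 1 fun c186 a186_1 a186_2 a186_3 q186 =>
  mulK c186 a186_1 a186_2 a186_3 q186 c26 a26_1 a26_2 a26_3 q26 fun c187 a187_1 a187_2 a187_3 q187 =>
  addcK c187 a187_1 a187_2 a187_3 q187 1152911935832028348 1 fun c188 a188_1 a188_2 a188_3 q188 =>
  mulK c188 a188_1 a188_2 a188_3 q188 c26 a26_1 a26_2 a26_3 q26 fun c189 a189_1 a189_2 a189_3 q189 =>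
  addcK c189 a189_1 a189_2 a189_3 q189 1152929145662904205 1 fun c190 a190_1 a190_2 a190_3 q190 =>
  mulK c190 a190_1 a190_2 a190_3 q190 c26 a26_1 a26_2 a26_3 q26 fun c191 a191_1 a191_2 a191_3 q191 =>
  addcK c191 a191_1 a191_2 a191_3 q191 1152918891548744090 1 fun c192 a192_1 a192_2 a192_3 q192 =>
  mulK c192 a192_1 a192_2 a192_3 q192 c26 a26_1 a26_2 a26_3 q26 fun c193 a193_1 a193_2 a193_3 q193 =>
  addcK c193 a193_1 a193_2 a193_3 q193 1152922602056890450 1 fun c194 a194_1 a194_2 a194_3 q194 =>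
  mulK c194 a194_1 a194_2 a194_3 q194 c26 a26_1 a26_2 a26_3 q26 fun c195 a195_1 a195_2 a195_3 q195 =>
  addcK c195 a195_1 a195_2 a195_3 q195 1152919509525818507 1 fun c196 a196_1 a196_2 a196_3 q196 =>
  mulK c196 a196_1 a196_2 a196_3 q196 c26 a26_1 a26_2 a26_3 q26 fun c197 a197_1 a197_2 a197_3 q197 =>
  addcK c197 a197_1 a197_2 a197_3 q197 1152923178097904189 1 fun c198 a198_1 a198_2 a198_3 q198 =>
  addcK c51 a51_1 a51_2 a51_3 q51 1152971291867742208 0 fun c200 a200_1 a200_2 a200_3 q200 =>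
  mulK c200 a200_1 a200_2 a200_3 q200 c26 a26_1 a26_2 a26_3 q26 fun c201 a201_1 a201_2 a201_3 q201 =>
  addcK c201 a201_1 a201_2 a201_3 q201 1152869554744018862 1 fun c202 a202_1 a202_2 a202_3 q202 =>
  mulK c202 a202_1 a202_2 a202_3 q202 c26 a26_1 a26_2 a26_3 q26 fun c203 a203_1 a203_2 a203_3 q203 =>
  addcK c203 a203_1 a203_2 a203_3 q203 1152935787950086554 1 fun c204 a204_1 a204_2 a204_3 q204 =>
  mulK c204 a204_1 a204_2 a204_3 q204 c26 a26_1 a26_2 a26_3 q26 fun c205 a205_1 a205_2 a205_3 q205 =>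
  addcK c205 a205_1 a205_2 a205_3 q205 1152925127016624161 1 fun c206 a206_1 a206_2 a206_3 q206 =>
  mulK c206 a206_1 a206_2 a206_3 q206 c26 a26_1 a26_2 a26_3 q26 fun c207 a207_1 a207_2 a207_3 q207 =>
  addcK c207 a207_1 a207_2 a207_3 q207 1152921190988335022 1 fun c208 a208_1 a208_2 a208_3 q208 =>
  mulK c208 a208_1 a208_2 a208_3 q208 c26 a26_1 a26_2 a26_3 q26 fun c209 a209_1 a209_2 a209_3 q209 =>
  addcK c209 a209_1 a209_2 a209_3 q209 1152920781428843610 1 fun c210 a210_1 a210_2 a210_3 q210 =>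
  addcK c69 a69_1 a69_2 a69_3 q69 1153004483375005696 0 fun c211 a211_1 a211_2 a211_3 q211 =>
  mulK c211 a211_1 a211_2 a211_3 q211 c26 a26_1 a26_2 a26_3 q26 fun c212 a212_1 a212_2 a212_3 q212 =>
  addcK c212 a212_1 a212_2 a212_3 q212 1152869554744018862 1 fun c213 a213_1 a213_2 a213_3 q213 =>
  mulK c213 a213_1 a213_2 a213_3 q213 c26 a26_1 a26_2 a26_3 q26 fun c214 a214_1 a214_2 a214_3 q214 =>
  addcK c214 a214_1 a214_2 a214_3 q214 1152928646278466765 1 fun c215 a215_1 a215_2 a215_3 q215 =>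
  mulK c215 a215_1 a215_2 a215_3 q215 c26 a26_1 a26_2 a26_3 q26 fun c216 a216_1 a216_2 a216_3 q216 =>
  addcK c216 a216_1 a216_2 a216_3 q216 1152922108341809840 1 fun c217 a217_1 a217_2 a217_3 q217 =>
  addcK c51 a51_1 a51_2 a51_3 q51 1152938100360478720 0 fun c218 a218_1 a218_2 a218_3 q218 =>
  mulK c218 a218_1 a218_2 a218_3 q218 c26 a26_1 a26_2 a26_3 q26 fun c219 a219_1 a219_2 a219_3 q219 =>
  addcK c219 a219_1 a219_2 a219_3 q219 1152918041282658435 1 fun c220 a220_1 a220_2 a220_3 q220 =>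
  addK c220 a220_1 a220_2 a220_3 q220 c82 a82_1 a82_2 a82_3 q82 fun c221 a221_1 a221_2 a221_3 q221 =>
  mulK c66 a66_1 a66_2 a66_3 q66 c221 a221_1 a221_2 a221_3 q221 fun c222 a222_1 a222_2 a222_3 q222 =>
  addK c217 a217_1 a217_2 a217_3 q217 c222 a222_1 a222_2 a222_3 q222 fun c223 a223_1 a223_2 a223_3 q223 =>
  mulK c66 a66_1 a66_2 a66_3 q66 c223 a223_1 a223_2 a223_3 q223 fun c224 a224_1 a224_2 a224_3 q224 =>
  addK c210 a210_1 a210_2 a210_3 q210 c224 a224_1 a224_2 a224_3 q224 fun c225 a225_1 a225_2 a225_3 q225 =>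
  mulK c48 a48_1 a48_2 a48_3 q48 c225 a225_1 a225_2 a225_3 q225 fun c227 a227_1 a227_2 a227_3 q227 =>
  addK c198 a198_1 a198_2 a198_3 q198 c227 a227_1 a227_2 a227_3 q227 fun c228 a228_1 a228_2 a228_3 q228 =>
  addcK c94 a94_1 a94_2 a94_3 q94 1152938100360478720 0 fun c230 a230_1 a230_2 a230_3 q230 =>
  mulK c230 a230_1 a230_2 a230_3 q230 c26 a26_1 a26_2 a26_3 q26 fun c231 a231_1 a231_2 a231_3 q231 =>
  addcK c231 a231_1 a231_2 a231_3 q231 1152900724661715730 1 fun c232 a232_1 a232_2 a232_3 q232 =>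
  mulK c232 a232_1 a232_2 a232_3 q232 c26 a26_1 a26_2 a26_3 q26 fun c233 a233_1 a233_2 a233_3 q233 =>
  addcK c233 a233_1 a233_2 a233_3 q233 1152928646278466765 1 fun c234 a234_1 a234_2 a234_3 q234 =>
  mulK c234 a234_1 a234_2 a234_3 q234 c26 a26_1 a26_2 a26_3 q26 fun c235 a235_1 a235_2 a235_3 q235 =>
  addcK c235 a235_1 a235_2 a235_3 q235 1152923919546698433 1 fun c236 a236_1 a236_2 a236_3 q236 =>
  mulK c236 a236_1 a236_2 a236_3 q236 c26 a26_1 a26_2 a26_3 q26 fun c237 a237_1 a237_2 a237_3 q237 =>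
  addcK c237 a237_1 a237_2 a237_3 q237 1152921190988335022 1 fun c238 a238_1 a238_2 a238_3 q238 =>
  mulK c238 a238_1 a238_2 a238_3 q238 c26 a26_1 a26_2 a26_3 q26 fun c239 a239_1 a239_2 a239_3 q239 =>
  addcK c239 a239_1 a239_2 a239_3 q239 1152920058250840244 1 fun c240 a240_1 a240_2 a240_3 q240 =>
  mulK c240 a240_1 a240_2 a240_3 q240 c26 a26_1 a26_2 a26_3 q26 fun c241 a241_1 a241_2 a241_3 q241 =>
  addcK c241 a241_1 a241_2 a241_3 q241 1152921842582118466 1 fun c242 a242_1 a242_2 a242_3 q242 =>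
  addcK c110 a110_1 a110_2 a110_3 q110 1153004483375005696 0 fun c243 a243_1 a243_2 a243_3 q243 =>
  mulK c243 a243_1 a243_2 a243_3 q243 c26 a26_1 a26_2 a26_3 q26 fun c244 a244_1 a244_2 a244_3 q244 =>
  addcK c244 a244_1 a244_2 a244_3 q244 1152852238123076157 1 fun c245 a245_1 a245_2 a245_3 q245 =>
  mulK c245 a245_1 a245_2 a245_3 q245 c26 a26_1 a26_2 a26_3 q26 fun c246 a246_1 a246_2 a246_3 q246 =>
  addcK c246 a246_1 a246_2 a246_3 q246 1152935787950086554 1 fun c247 a247_1 a247_2 a247_3 q247 =>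
  mulK c247 a247_1 a247_2 a247_3 q247 c26 a26_1 a26_2 a26_3 q26 fun c248 a248_1 a248_2 a248_3 q248 =>
  addcK c248 a248_1 a248_2 a248_3 q248 1152923919546698433 1 fun c249 a249_1 a249_2 a249_3 q249 =>
  mulK c249 a249_1 a249_2 a249_3 q249 c26 a26_1 a26_2 a26_3 q26 fun c250 a250_1 a250_2 a250_3 q250 =>
  addcK c250 a250_1 a250_2 a250_3 q250 1152921400067342991 1 fun c251 a251_1 a251_2 a251_3 q251 =>
  addcK c110 a110_1 a110_2 a110_3 q110 1152971291867742208 0 fun c252 a252_1 a252_2 a252_3 q252 =>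
  mulK c252 a252_1 a252_2 a252_3 q252 c26 a26_1 a26_2 a26_3 q26 fun c253 a253_1 a253_2 a253_3 q253 =>
  addcK c253 a253_1 a253_2 a253_3 q253 1152900724661715730 1 fun c254 a254_1 a254_2 a254_3 q254 =>
  mulK c254 a254_1 a254_2 a254_3 q254 c26 a26_1 a26_2 a26_3 q26 fun c255 a255_1 a255_2 a255_3 q255 =>
  addcK c255 a255_1 a255_2 a255_3 q255 1152922932941170934 1 fun c256 a256_1 a256_2 a256_3 q256 =>
  addcK c94 a94_1 a94_2 a94_3 q94 1152923875428794368 0 fun c257 a257_1 a257_2 a257_3 q257 =>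
  mulK c66 a66_1 a66_2 a66_3 q66 c257 a257_1 a257_2 a257_3 q257 fun c258 a258_1 a258_2 a258_3 q258 =>
  addK c256 a256_1 a256_2 a256_3 q256 c258 a258_1 a258_2 a258_3 q258 fun c259 a259_1 a259_2 a259_3 q259 =>
  mulK c66 a66_1 a66_2 a66_3 q66 c259 a259_1 a259_2 a259_3 q259 fun c260 a260_1 a260_2 a260_3 q260 =>
  addK c251 a251_1 a251_2 a251_3 q251 c260 a260_1 a260_2 a260_3 q260 fun c261 a261_1 a261_2 a261_3 q261 =>
  mulK c66 a66_1 a66_2 a66_3 q66 c261 a261_1 a261_2 a261_3 q261 fun c262 a262_1 a262_2 a262_3 q262 =>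
  addK c242 a242_1 a242_2 a242_3 q242 c262 a262_1 a262_2 a262_3 q262 fun c263 a263_1 a263_2 a263_3 q263 =>
  mulK z2 1152921504606846976 (Nat.add w2 1152921504606846976) 1152921504606846976 0 c263 a263_1 a263_2 a263_3 q263 fun c265 a265_1 a265_2 a265_3 q265 =>
  smulK 2 1 1152921504606846977 2305843009213693952 c265 a265_1 a265_2 a265_3 q265 fun c266 a266_1 a266_2 a266_3 q266 =>
  addK c228 a228_1 a228_2 a228_3 q228 c266 a266_1 a266_2 a266_3 q266 fun c267 a267_1 a267_2 a267_3 q267 =>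
  mulK c183 a183_1 a183_2 a183_3 q183 c267 a267_1 a267_2 a267_3 q267 fun c269 a269_1 a269_2 a269_3 q269 =>
  negK c165 a165_1 a165_2 a165_3 q165 fun c270 a270_1 a270_2 a270_3 q270 =>
  addcK c270 a270_1 a270_2 a270_3 q270 1152922604118474752 0 fun c271 a271_1 a271_2 a271_3 q271 =>
  mulK c271 a271_1 a271_2 a271_3 q271 c178 a178_1 a178_2 a178_3 q178 fun c273 a273_1 a273_2 a273_3 q273 =>
  addcK c165 a165_1 a165_2 a165_3 q165 1152922604118474752 0 fun c274 a274_1 a274_2 a274_3 q274 =>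
  smulK 93 100 115292150460684697700 107221699928436768768 c165 a165_1 a165_2 a165_3 q165 fun c276 a276_1 a276_2 a276_3 q276 =>
  addcK c276 a276_1 a276_2 a276_3 q276 1152921317689870254 1 fun c277 a277_1 a277_2 a277_3 q277 =>
  smulK 3 25 28823037615171174425 3458764513820540928 c165 a165_1 a165_2 a165_3 q165 fun c279 a279_1 a279_2 a279_3 q279 =>
  addcK c279 a279_1 a279_2 a279_3 q279 1152921614558009754 1 fun c280 a280_1 a280_2 a280_3 q280 =>
  mulK z3 1152921504606846976 1152921504606846976 (Nat.add w3 1152921504606846976) 0 c280 a280_1 a280_2 a280_3 q280 fun c282 a282_1 a282_2 a282_3 q282 =>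
  addK c277 a277_1 a277_2 a277_3 q277 c282 a282_1 a282_2 a282_3 q282 fun c283 a283_1 a283_2 a283_3 q283 =>
  mulK z3 1152921504606846976 1152921504606846976 (Nat.add w3 1152921504606846976) 0 c283 a283_1 a283_2 a283_3 q283 fun c284 a284_1 a284_2 a284_3 q284 =>
  subK c274 a274_1 a274_2 a274_3 q274 c284 a284_1 a284_2 a284_3 q284 fun c285 a285_1 a285_2 a285_3 q285 =>
  mulK c273 a273_1 a273_2 a273_3 q273 c285 a285_1 a285_2 a285_3 q285 fun c287 a287_1 a287_2 a287_3 q287 =>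
  subK c228 a228_1 a228_2 a228_3 q228 c266 a266_1 a266_2 a266_3 q266 fun c289 a289_1 a289_2 a289_3 q289 =>
  mulK c287 a287_1 a287_2 a287_3 q287 c289 a289_1 a289_2 a289_3 q289 fun c291 a291_1 a291_2 a291_3 q291 =>
  addK c269 a269_1 a269_2 a269_3 q269 c291 a291_1 a291_2 a291_3 q291 fun c292 a292_1 a292_2 a292_3 q292 =>
  smulK 2 1 1152921504606846977 2305843009213693952 c165 a165_1 a165_2 a165_3 q165 fun c293 a293_1 a293_2 a293_3 q293 =>
  smulK 1 250 288230376151711744250 1152921504606846976 c271 a271_1 a271_2 a271_3 q271 fun c294 a294_1 a294_2 a294_3 q294 =>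
  subK c293 a293_1 a293_2 a293_3 q293 c294 a294_1 a294_2 a294_3 q294 fun c295 a295_1 a295_2 a295_3 q295 =>
  mulK c295 a295_1 a295_2 a295_3 q295 c178 a178_1 a178_2 a178_3 q178 fun c296 a296_1 a296_2 a296_3 q296 =>
  mulK z2 1152921504606846976 (Nat.add w2 1152921504606846976) 1152921504606846976 0 c296 a296_1 a296_2 a296_3 q296 fun c298 a298_1 a298_2 a298_3 q298 =>
  smulK 2 1 1152921504606846977 2305843009213693952 c298 a298_1 a298_2 a298_3 q298 fun c299 a299_1 a299_2 a299_3 q299 =>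
  addK c292 a292_1 a292_2 a292_3 q292 c299 a299_1 a299_2 a299_3 q299 fun c300 a300_1 a300_2 a300_3 q300 =>
  smulK 2 1 1152921504606846977 2305843009213693952 c198 a198_1 a198_2 a198_3 q198 fun c301 a301_1 a301_2 a301_3 q301 =>
  subK c300 a300_1 a300_2 a300_3 q300 c301 a301_1 a301_2 a301_3 q301 fun c302 a302_1 a302_2 a302_3 q302 =>
  posK c302 a302_1 a302_2 a302_3 q302 <|
  mulK c162 a162_1 a162_2 a162_3 q162 c302 a302_1 a302_2 a302_3 q302 fun c304 a304_1 a304_2 a304_3 q304 =>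
  mulK c22 a22_1 a22_2 a22_3 q22 c287 a287_1 a287_2 a287_3 q287 fun c305 a305_1 a305_2 a305_3 q305 =>
  sqrtK c305 a305_1 a305_2 a305_3 q305 fun c306 a306_1 a306_2 a306_3 q306 =>
  smulK 238 125 144115188075855872125 274395318096429580288 c26 a26_1 a26_2 a26_3 q26 fun c307 a307_1 a307_2 a307_3 q307 =>
  addcK c307 a307_1 a307_2 a307_3 q307 1152911037256150548 1 fun c308 a308_1 a308_2 a308_3 q308 =>
  mulK c308 a308_1 a308_2 a308_3 q308 c26 a26_1 a26_2 a26_3 q26 fun c309 a309_1 a309_2 a309_3 q309 =>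
  addcK c309 a309_1 a309_2 a309_3 q309 1152941418961449255 1 fun c310 a310_1 a310_2 a310_3 q310 =>
  mulK c310 a310_1 a310_2 a310_3 q310 c26 a26_1 a26_2 a26_3 q26 fun c311 a311_1 a311_2 a311_3 q311 =>
  addcK c311 a311_1 a311_2 a311_3 q311 1152903604557546783 1 fun c312 a312_1 a312_2 a312_3 q312 =>
  mulK c312 a312_1 a312_2 a312_3 q312 c26 a26_1 a26_2 a26_3 q26 fun c313 a313_1 a313_2 a313_3 q313 =>
  addcK c313 a313_1 a313_2 a313_3 q313 1152929554131473924 1 fun c314 a314_1 a314_2 a314_3 q314 =>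
  mulK c314 a314_1 a314_2 a314_3 q314 c26 a26_1 a26_2 a26_3 q26 fun c315 a315_1 a315_2 a315_3 q315 =>
  addcK c315 a315_1 a315_2 a315_3 q315 1152918908659893797 1 fun c316 a316_1 a316_2 a316_3 q316 =>
  mulK c316 a316_1 a316_2 a316_3 q316 c26 a26_1 a26_2 a26_3 q26 fun c317 a317_1 a317_2 a317_3 q317 =>
  addcK c317 a317_1 a317_2 a317_3 q317 1152922523854125924 1 fun c318 a318_1 a318_2 a318_3 q318 =>
  smulK 1666 125 144115188075855872125 1920767226675007062016 c26 a26_1 a26_2 a26_3 q26 fun c320 a320_1 a320_2 a320_3 q320 =>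
  addcK c320 a320_1 a320_2 a320_3 q320 1152877541733921980 1 fun c321 a321_1 a321_2 a321_3 q321 =>
  mulK c321 a321_1 a321_2 a321_3 q321 c26 a26_1 a26_2 a26_3 q26 fun c322 a322_1 a322_2 a322_3 q322 =>
  addcK c322 a322_1 a322_2 a322_3 q322 1152958893499749499 1 fun c323 a323_1 a323_2 a323_3 q323 =>
  mulK c323 a323_1 a323_2 a323_3 q323 c26 a26_1 a26_2 a26_3 q26 fun c324 a324_1 a324_2 a324_3 q324 =>
  addcK c324 a324_1 a324_2 a324_3 q324 1152919998275916923 1 fun c325 a325_1 a325_2 a325_3 q325 =>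
  mulK c325 a325_1 a325_2 a325_3 q325 c26 a26_1 a26_2 a26_3 q26 fun c326 a326_1 a326_2 a326_3 q326 =>
  addcK c326 a326_1 a326_2 a326_3 q326 1152914196702812963 1 fun c327 a327_1 a327_2 a327_3 q327 =>
  mulK c327 a327_1 a327_2 a327_3 q327 c26 a26_1 a26_2 a26_3 q26 fun c328 a328_1 a328_2 a328_3 q328 =>
  addcK c328 a328_1 a328_2 a328_3 q328 1152922238530858516 1 fun c329 a329_1 a329_2 a329_3 q329 =>
  mulK c329 a329_1 a329_2 a329_3 q329 c26 a26_1 a26_2 a26_3 q26 fun c330 a330_1 a330_2 a330_3 q330 =>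
  addcK c330 a330_1 a330_2 a330_3 q330 1152921613527217603 1 fun c331 a331_1 a331_2 a331_3 q331 =>
  smulK 833 25 28823037615171174425 960383613337503531008 c26 a26_1 a26_2 a26_3 q26 fun c332 a332_1 a332_2 a332_3 q332 =>
  addcK c332 a332_1 a332_2 a332_3 q332 1152848233151971983 1 fun c333 a333_1 a333_2 a333_3 q333 =>
  mulK c333 a333_1 a333_2 a333_3 q333 c26 a26_1 a26_2 a26_3 q26 fun c334 a334_1 a334_2 a334_3 q334 =>
  addcK c334 a334_1 a334_2 a334_3 q334 1152958893499749499 1 fun c335 a335_1 a335_2 a335_3 q335 =>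
  mulK c335 a335_1 a335_2 a335_3 q335 c26 a26_1 a26_2 a26_3 q26 fun c336 a336_1 a336_2 a336_3 q336 =>
  addcK c336 a336_1 a336_2 a336_3 q336 1152920751441381949 1 fun c337 a337_1 a337_2 a337_3 q337 =>
  mulK c337 a337_1 a337_2 a337_3 q337 c26 a26_1 a26_2 a26_3 q26 fun c338 a338_1 a338_2 a338_3 q338 =>
  addcK c338 a338_1 a338_2 a338_3 q338 1152920286622841307 1 fun c339 a339_1 a339_2 a339_3 q339 =>
  addcK c320 a320_1 a320_2 a320_3 q320 1152906850315871977 1 fun c340 a340_1 a340_2 a340_3 q340 =>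
  mulK c340 a340_1 a340_2 a340_3 q340 c26 a26_1 a26_2 a26_3 q26 fun c341 a341_1 a341_2 a341_3 q341 =>
  addcK c341 a341_1 a341_2 a341_3 q341 1152923997199707144 1 fun c342 a342_1 a342_2 a342_3 q342 =>
  smulK 119 250 288230376151711744250 137197659048214790144 c66 a66_1 a66_2 a66_3 q66 fun c343 a343_1 a343_2 a343_3 q343 =>
  addK c342 a342_1 a342_2 a342_3 q342 c343 a343_1 a343_2 a343_3 q343 fun c344 a344_1 a344_2 a344_3 q344 =>
  mulK c66 a66_1 a66_2 a66_3 q66 c344 a344_1 a344_2 a344_3 q344 fun c345 a345_1 a345_2 a345_3 q345 =>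
  addK c339 a339_1 a339_2 a339_3 q339 c345 a345_1 a345_2 a345_3 q345 fun c346 a346_1 a346_2 a346_3 q346 =>
  mulK c66 a66_1 a66_2 a66_3 q66 c346 a346_1 a346_2 a346_3 q346 fun c347 a347_1 a347_2 a347_3 q347 =>
  addK c331 a331_1 a331_2 a331_3 q331 c347 a347_1 a347_2 a347_3 q347 fun c348 a348_1 a348_2 a348_3 q348 =>
  mulK c46 a46_1 a46_2 a46_3 q46 c348 a348_1 a348_2 a348_3 q348 fun c350 a350_1 a350_2 a350_3 q350 =>
  smulK 4 1 1152921504606846977 4611686018427387904 c350 a350_1 a350_2 a350_3 q350 fun c351 a351_1 a351_2 a351_3 q351 =>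
  addK c318 a318_1 a318_2 a318_3 q318 c351 a351_1 a351_2 a351_3 q351 fun c352 a352_1 a352_2 a352_3 q352 =>
  smulK 952 125 144115188075855872125 1097581272385718321152 c26 a26_1 a26_2 a26_3 q26 fun c354 a354_1 a354_2 a354_3 q354 =>
  addcK c354 a354_1 a354_2 a354_3 q354 1152888009084618408 1 fun c355 a355_1 a355_2 a355_3 q355 =>
  mulK c355 a355_1 a355_2 a355_3 q355 c26 a26_1 a26_2 a26_3 q26 fun c356 a356_1 a356_2 a356_3 q356 =>
  addcK c356 a356_1 a356_2 a356_3 q356 1152968163482283278 1 fun c357 a357_1 a357_2 a357_3 q357 =>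
  mulK c357 a357_1 a357_2 a357_3 q357 c26 a26_1 a26_2 a26_3 q26 fun c358 a358_1 a358_2 a358_3 q358 =>
  addcK c358 a358_1 a358_2 a358_3 q358 1152896668838198772 1 fun c359 a359_1 a359_2 a359_3 q359 =>
  mulK c359 a359_1 a359_2 a359_3 q359 c26 a26_1 a26_2 a26_3 q26 fun c360 a360_1 a360_2 a360_3 q360 =>
  addcK c360 a360_1 a360_2 a360_3 q360 1152924178619125727 1 fun c361 a361_1 a361_2 a361_3 q361 =>
  mulK c361 a361_1 a361_2 a361_3 q361 c26 a26_1 a26_2 a26_3 q26 fun c362 a362_1 a362_2 a362_3 q362 =>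
  addcK c362 a362_1 a362_2 a362_3 q362 1152921635448730681 1 fun c363 a363_1 a363_2 a363_3 q363 =>
  mulK c363 a363_1 a363_2 a363_3 q363 c26 a26_1 a26_2 a26_3 q26 fun c364 a364_1 a364_2 a364_3 q364 =>
  addcK c364 a364_1 a364_2 a364_3 q364 1152921874867387630 1 fun c365 a365_1 a365_2 a365_3 q365 =>
  smulK 3332 125 144115188075855872125 3841534453350014124032 c26 a26_1 a26_2 a26_3 q26 fun c366 a366_1 a366_2 a366_3 q366 =>
  addcK c366 a366_1 a366_2 a366_3 q366 1152848233151971983 1 fun c367 a367_1 a367_2 a367_3 q367 =>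
  mulK c367 a367_1 a367_2 a367_3 q367 c26 a26_1 a26_2 a26_3 q26 fun c368 a368_1 a368_2 a368_3 q368 =>
  addcK c368 a368_1 a368_2 a368_3 q368 1152971356464050340 1 fun c369 a369_1 a369_2 a369_3 q369 =>
  mulK c369 a369_1 a369_2 a369_3 q369 c26 a26_1 a26_2 a26_3 q26 fun c370 a370_1 a370_2 a370_3 q370 =>
  addcK c370 a370_1 a370_2 a370_3 q370 1152919998275916923 1 fun c371 a371_1 a371_2 a371_3 q371 =>
  mulK c371 a371_1 a371_2 a371_3 q371 c26 a26_1 a26_2 a26_3 q26 fun c372 a372_1 a372_2 a372_3 q372 =>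
  addcK c372 a372_1 a372_2 a372_3 q372 1152916632670824301 1 fun c373 a373_1 a373_2 a373_3 q373 =>
  mulK c373 a373_1 a373_2 a373_3 q373 c26 a26_1 a26_2 a26_3 q26 fun c374 a374_1 a374_2 a374_3 q374 =>
  addcK c374 a374_1 a374_2 a374_3 q374 1152921749248184156 1 fun c375 a375_1 a375_2 a375_3 q375 =>
  addcK c366 a366_1 a366_2 a366_3 q366 1152877541733921980 1 fun c376 a376_1 a376_2 a376_3 q376 =>
  mulK c376 a376_1 a376_2 a376_3 q376 c26 a26_1 a26_2 a26_3 q26 fun c377 a377_1 a377_2 a377_3 q377 =>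
  addcK c377 a377_1 a377_2 a377_3 q377 1152936460164007985 1 fun c378 a378_1 a378_2 a378_3 q378 =>
  mulK c378 a378_1 a378_2 a378_3 q378 c26 a26_1 a26_2 a26_3 q26 fun c379 a379_1 a379_2 a379_3 q379 =>
  addcK c379 a379_1 a379_2 a379_3 q379 1152921353973753971 1 fun c380 a380_1 a380_2 a380_3 q380 =>
  smulK 476 125 144115188075855872125 548790636192859160576 c26 a26_1 a26_2 a26_3 q26 fun c381 a381_1 a381_2 a381_3 q381 =>
  addcK c381 a381_1 a381_2 a381_3 q381 1152919411136707690 1 fun c382 a382_1 a382_2 a382_3 q382 =>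
  mulK c66 a66_1 a66_2 a66_3 q66 c382 a382_1 a382_2 a382_3 q382 fun c383 a383_1 a383_2 a383_3 q383 =>
  addK c380 a380_1 a380_2 a380_3 q380 c383 a383_1 a383_2 a383_3 q383 fun c384 a384_1 a384_2 a384_3 q384 =>
  mulK c66 a66_1 a66_2 a66_3 q66 c384 a384_1 a384_2 a384_3 q384 fun c385 a385_1 a385_2 a385_3 q385 =>
  addK c375 a375_1 a375_2 a375_3 q375 c385 a385_1 a385_2 a385_3 q385 fun c386 a386_1 a386_2 a386_3 q386 =>
  mulK c48 a48_1 a48_2 a48_3 q48 c386 a386_1 a386_2 a386_3 q386 fun c387 a387_1 a387_2 a387_3 q387 =>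
  addK c365 a365_1 a365_2 a365_3 q365 c387 a387_1 a387_2 a387_3 q387 fun c388 a388_1 a388_2 a388_3 q388 =>
  mulK z2 1152921504606846976 (Nat.add w2 1152921504606846976) 1152921504606846976 0 c388 a388_1 a388_2 a388_3 q388 fun c390 a390_1 a390_2 a390_3 q390 =>
  smulK 2 1 1152921504606846977 2305843009213693952 c390 a390_1 a390_2 a390_3 q390 fun c391 a391_1 a391_2 a391_3 q391 =>
  subK c352 a352_1 a352_2 a352_3 q352 c391 a391_1 a391_2 a391_3 q391 fun c392 a392_1 a392_2 a392_3 q392 =>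
  mulK c306 a306_1 a306_2 a306_3 q306 c392 a392_1 a392_2 a392_3 q392 fun c394 a394_1 a394_2 a394_3 q394 =>
  mulK c146 a146_1 a146_2 a146_3 q146 c183 a183_1 a183_2 a183_3 q183 fun c395 a395_1 a395_2 a395_3 q395 =>
  sqrtK c395 a395_1 a395_2 a395_3 q395 fun c396 a396_1 a396_2 a396_3 q396 =>
  addK c352 a352_1 a352_2 a352_3 q352 c391 a391_1 a391_2 a391_3 q391 fun c397 a397_1 a397_2 a397_3 q397 =>
  mulK c396 a396_1 a396_2 a396_3 q396 c397 a397_1 a397_2 a397_3 q397 fun c399 a399_1 a399_2 a399_3 q399 =>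
  addK c394 a394_1 a394_2 a394_3 q394 c399 a399_1 a399_2 a399_3 q399 fun c400 a400_1 a400_2 a400_3 q400 =>
  smulK 2 1 1152921504606846977 2305843009213693952 c318 a318_1 a318_2 a318_3 q318 fun c401 a401_1 a401_2 a401_3 q401 =>
  subK c400 a400_1 a400_2 a400_3 q400 c401 a401_1 a401_2 a401_3 q401 fun c402 a402_1 a402_2 a402_3 q402 =>
  mulK z1 (Nat.add w1 1152921504606846976) 1152921504606846976 1152921504606846976 0 c402 a402_1 a402_2 a402_3 q402 fun c404 a404_1 a404_2 a404_3 q404 =>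
  negK c404 a404_1 a404_2 a404_3 q404 fun c405 a405_1 a405_2 a405_3 q405 =>
  reluK c405 a405_1 a405_2 a405_3 q405 fun c406 a406_1 a406_2 a406_3 q406 =>
  sqK c406 a406_1 a406_2 a406_3 q406 fun c407 a407_1 a407_2 a407_3 q407 =>
  subK c304 a304_1 a304_2 a304_3 q304 c407 a407_1 a407_2 a407_3 q407 fun c408 a408_1 a408_2 a408_3 q408 =>
  pos c408 a408_1 a408_2 a408_3 q408

theorem alt2_s {p1 p2 z1 w1 z2 w2 z3 w3 : ℕ} {e1 e2 e3 a f s p q : ℝ} (he : Ev e1 e2 e3)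
    (hp1 : In e1 e2 e3 p1 1152921504606846976 1152921504606846976 1152921504606846976 0 p)
    (hp2 : In e1 e2 e3 p2 1152921504606846976 1152921504606846976 1152921504606846976 0 q)
    (hx1 : In e1 e2 e3 z1 (Nat.add w1 1152921504606846976) 1152921504606846976 1152921504606846976 0 a)
    (hx2 : In e1 e2 e3 z2 1152921504606846976 (Nat.add w2 1152921504606846976) 1152921504606846976 0 f)
    (hx3 : In e1 e2 e3 z3 1152921504606846976 1152921504606846976 (Nat.add w3 1152921504606846976) 0 s)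
    (H0 : alt2 p1 p2 z1 w1 z2 w2 z3 w3 = true) : 0 < ((tbp a f s p q) - ((3/10:ℝ) * s)) ∧ 0 < (PdB a f s p q) ∧ 0 < (QdD a f s p q) ∧ 0 < (((PdB a f s p q) * (QdD a f s p q)) - ((max (-(a * (ZdBD a f s p q))) (0:ℝ)) ^ 2)) := by
  unfold alt2 at H0
  refine smulK_s he (w := (11/20:ℝ)) (by norm_num) (by norm_num) (by norm_num) (by norm_num) hp1 (fun _ _ _ _ _ h1 H1 => ?_) H0
  have h2 := In_cast (w := (tbp a f s p q)) h1 rfl
  refine smulK_s he (w := (3/10:ℝ)) (by norm_num) (by norm_num) (by norm_num) (by norm_num) hx3 (fun _ _ _ _ _ h3 H2 => ?_) H1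
  refine subK_s he h2 h3 (fun _ _ _ _ _ h4 H3 => ?_) H2
  refine posK_s he h4 (fun p0 H4 => ?_) H3
  refine smulK_s he (w := (3/25:ℝ)) (by norm_num) (by norm_num) (by norm_num) (by norm_num) hx3 (fun _ _ _ _ _ h5 H5 => ?_) H4
  refine sqK_s he h2 (fun _ _ _ _ _ h6 H6 => ?_) H5
  refine addcK_s he h6 (v' := (1:ℝ)) (by norm_num [SS, BB, abs_le]) (fun _ _ _ _ _ h7 H7 => ?_) H6
  have h8 := In_cast h7 (add_comm _ _)
  refine invK_s he h8 (fun _ _ _ _ _ h9 H8 => ?_) H7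
  refine smulK_s he (w := (2:ℝ)) (by norm_num) (by norm_num) (by norm_num) (by norm_num) h2 (fun _ _ _ _ _ h10 H9 => ?_) H8
  refine mulK_s he h10 h9 (fun _ _ _ _ _ h11 H10 => ?_) H9
  have h12 := In_cast h11 ((div_eq_mul_inv _ _).symm)
  have h13 := In_cast (w := (Sbp a f s p q)) h12 rfl
  refine smulK_s he (w := (3/10:ℝ)) (by norm_num) (by norm_num) (by norm_num) (by norm_num) h13 (fun _ _ _ _ _ h14 H11 => ?_) H10
  refine mulK_s he h2 h13 (fun _ _ _ _ _ h15 H12 => ?_) H11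
  have h16 := In_cast (w := (Cbp a f s p q)) h15 rfl
  refine smulK_s he (w := (1/4:ℝ)) (by norm_num) (by norm_num) (by norm_num) (by norm_num) h16 (fun _ _ _ _ _ h17 H13 => ?_) H12
  have h18 := In_cast h17 (div_c (c := (4:ℝ)) (by norm_num))
  refine subK_s he h14 h18 (fun _ _ _ _ _ h19 H14 => ?_) H13
  refine addK_s he h5 h19 (fun _ _ _ _ _ h20 H15 => ?_) H14
  refine mulK_s he hx3 h20 (fun _ _ _ _ _ h21 H16 => ?_) H15
  refine addcK_s he h21 (v' := (1:ℝ)) (by norm_num [SS, BB, abs_le]) (fun _ _ _ _ _ h22 H17 => ?_) H16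
  have h23 := In_cast h22 (add_comm _ _)
  have h24 := In_cast (w := (K0Bp a f s p q)) h23 rfl
  refine smulK_s he (w := (2:ℝ)) (by norm_num) (by norm_num) (by norm_num) (by norm_num) hx1 (fun _ _ _ _ _ h25 H18 => ?_) H17
  refine addcK_s he h25 (v' := (-1/2:ℝ)) (by norm_num [SS, BB, abs_le]) (fun _ _ _ _ _ h26 H19 => ?_) H18
  have h27 := In_cast h26 (sub_c (c := (1/2:ℝ)) (by norm_num))
  have h28 := In_cast (w := (x a f s p q)) h27 rfl
  refine smulK_s he (w := (987/1000:ℝ)) (by norm_num) (by norm_num) (by norm_num) (by norm_num) h28 (fun _ _ _ _ _ h29 H20 => ?_) H19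
  refine negK_s he h29 (fun _ _ _ _ _ h30 H21 => ?_) H20
  have h31 := In_cast h30 (neg_mul_c (c := (-987/1000:ℝ)) (by norm_num))
  refine addcK_s he h31 (v' := (4077/1000:ℝ)) (by norm_num [SS, BB, abs_le]) (fun _ _ _ _ _ h32 H22 => ?_) H21
  refine mulK_s he h32 h28 (fun _ _ _ _ _ h33 H23 => ?_) H22
  refine addcK_s he h33 (v' := (-23147/4000:ℝ)) (by norm_num [SS, BB, abs_le]) (fun _ _ _ _ _ h34 H24 => ?_) H23
  refine mulK_s he h34 h28 (fun _ _ _ _ _ h35 H25 => ?_) H24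
  refine addcK_s he h35 (v' := (11213/4000:ℝ)) (by norm_num [SS, BB, abs_le]) (fun _ _ _ _ _ h36 H26 => ?_) H25
  refine mulK_s he h36 h28 (fun _ _ _ _ _ h37 H27 => ?_) H26
  refine addcK_s he h37 (v' := (123/3200:ℝ)) (by norm_num [SS, BB, abs_le]) (fun _ _ _ _ _ h38 H28 => ?_) H27
  refine mulK_s he h38 h28 (fun _ _ _ _ _ h39 H29 => ?_) H28
  refine addcK_s he h39 (v' := (2023/16000:ℝ)) (by norm_num [SS, BB, abs_le]) (fun _ _ _ _ _ h40 H30 => ?_) H29
  refine mulK_s he h40 h28 (fun _ _ _ _ _ h41 H31 => ?_) H30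
  refine addcK_s he h41 (v' := (-12141/12800:ℝ)) (by norm_num [SS, BB, abs_le]) (fun _ _ _ _ _ h42 H32 => ?_) H31
  refine mulK_s he h42 h28 (fun _ _ _ _ _ h43 H33 => ?_) H32
  refine addcK_s he h43 (v' := (75807/64000:ℝ)) (by norm_num [SS, BB, abs_le]) (fun _ _ _ _ _ h44 H34 => ?_) H33
  have h45 := In_cast (w := (uh a f s p q)) h44 rfl
  refine sqK_s he hx2 (fun _ _ _ _ _ h46 H35 => ?_) H34
  refine mulK_s he hx1 h46 (fun _ _ _ _ _ h47 H36 => ?_) H35
  refine smulK_s he (w := (4:ℝ)) (by norm_num) (by norm_num) (by norm_num) (by norm_num) h47 (fun _ _ _ _ _ h48 H37 => ?_) H36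
  have h49 := In_cast (w := (af2 a f s p q)) h48 rfl
  refine smulK_s he (w := (6909/500:ℝ)) (by norm_num) (by norm_num) (by norm_num) (by norm_num) h28 (fun _ _ _ _ _ h50 H38 => ?_) H37
  refine negK_s he h50 (fun _ _ _ _ _ h51 H39 => ?_) H38
  have h52 := In_cast h51 (neg_mul_c (c := (-6909/500:ℝ)) (by norm_num))
  refine addcK_s he h52 (v' := (150507/4000:ℝ)) (by norm_num [SS, BB, abs_le]) (fun _ _ _ _ _ h53 H40 => ?_) H39
  refine mulK_s he h53 h28 (fun _ _ _ _ _ h54 H41 => ?_) H40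
  refine addcK_s he h54 (v' := (-44979/1600:ℝ)) (by norm_num [SS, BB, abs_le]) (fun _ _ _ _ _ h55 H42 => ?_) H41
  refine mulK_s he h55 h28 (fun _ _ _ _ _ h56 H43 => ?_) H42
  refine addcK_s he h56 (v' := (-721/1600:ℝ)) (by norm_num [SS, BB, abs_le]) (fun _ _ _ _ _ h57 H44 => ?_) H43
  refine mulK_s he h57 h28 (fun _ _ _ _ _ h58 H45 => ?_) H44
  refine addcK_s he h58 (v' := (69123/16000:ℝ)) (by norm_num [SS, BB, abs_le]) (fun _ _ _ _ _ h59 H46 => ?_) H45
  refine mulK_s he h59 h28 (fun _ _ _ _ _ h60 H47 => ?_) H46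
  refine addcK_s he h60 (v' := (13983/64000:ℝ)) (by norm_num [SS, BB, abs_le]) (fun _ _ _ _ _ h61 H48 => ?_) H47
  refine mulK_s he h61 h28 (fun _ _ _ _ _ h62 H49 => ?_) H48
  refine addcK_s he h62 (v' := (-56659/128000:ℝ)) (by norm_num [SS, BB, abs_le]) (fun _ _ _ _ _ h63 H50 => ?_) H49
  refine mulK_s he hx1 hx2 (fun _ _ _ _ _ h64 H51 => ?_) H50
  refine sqK_s he h64 (fun _ _ _ _ _ h65 H52 => ?_) H51
  refine smulK_s he (w := (4:ℝ)) (by norm_num) (by norm_num) (by norm_num) (by norm_num) h65 (fun _ _ _ _ _ h66 H53 => ?_) H52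
  have h67 := In_cast (w := (dd a f s p q)) h66 rfl
  refine smulK_s he (w := (6909/200:ℝ)) (by norm_num) (by norm_num) (by norm_num) (by norm_num) h28 (fun _ _ _ _ _ h68 H54 => ?_) H53
  refine negK_s he h68 (fun _ _ _ _ _ h69 H55 => ?_) H54
  have h70 := In_cast h69 (neg_mul_c (c := (-6909/200:ℝ)) (by norm_num))
  refine addcK_s he h70 (v' := (50169/800:ℝ)) (by norm_num [SS, BB, abs_le]) (fun _ _ _ _ _ h71 H56 => ?_) H55
  refine mulK_s he h71 h28 (fun _ _ _ _ _ h72 H57 => ?_) H56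
  refine addcK_s he h72 (v' := (-44979/1600:ℝ)) (by norm_num [SS, BB, abs_le]) (fun _ _ _ _ _ h73 H58 => ?_) H57
  refine mulK_s he h73 h28 (fun _ _ _ _ _ h74 H59 => ?_) H58
  refine addcK_s he h74 (v' := (-721/3200:ℝ)) (by norm_num [SS, BB, abs_le]) (fun _ _ _ _ _ h75 H60 => ?_) H59
  refine mulK_s he h75 h28 (fun _ _ _ _ _ h76 H61 => ?_) H60
  refine addcK_s he h76 (v' := (23041/32000:ℝ)) (by norm_num [SS, BB, abs_le]) (fun _ _ _ _ _ h77 H62 => ?_) H61
  refine addcK_s he h52 (v' := (50169/4000:ℝ)) (by norm_num [SS, BB, abs_le]) (fun _ _ _ _ _ h78 H63 => ?_) H62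
  refine mulK_s he h78 h28 (fun _ _ _ _ _ h79 H64 => ?_) H63
  refine addcK_s he h79 (v' := (-14993/8000:ℝ)) (by norm_num [SS, BB, abs_le]) (fun _ _ _ _ _ h80 H65 => ?_) H64
  refine smulK_s he (w := (987/2000:ℝ)) (by norm_num) (by norm_num) (by norm_num) (by norm_num) h67 (fun _ _ _ _ _ h81 H66 => ?_) H65
  refine negK_s he h81 (fun _ _ _ _ _ h82 H67 => ?_) H66
  have h83 := In_cast h82 (neg_mul_c (c := (-987/2000:ℝ)) (by norm_num))
  refine addK_s he h80 h83 (fun _ _ _ _ _ h84 H68 => ?_) H67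
  refine mulK_s he h67 h84 (fun _ _ _ _ _ h85 H69 => ?_) H68
  refine addK_s he h77 h85 (fun _ _ _ _ _ h86 H70 => ?_) H69
  refine mulK_s he h67 h86 (fun _ _ _ _ _ h87 H71 => ?_) H70
  refine addK_s he h63 h87 (fun _ _ _ _ _ h88 H72 => ?_) H71
  have h89 := In_cast (w := (uE a f s p q)) h88 rfl
  refine mulK_s he h49 h89 (fun _ _ _ _ _ h90 H73 => ?_) H72
  refine addK_s he h45 h90 (fun _ _ _ _ _ h91 H74 => ?_) H73
  have h92 := In_cast (w := (um a f s p q)) h91 rfl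
  refine smulK_s he (w := (987/250:ℝ)) (by norm_num) (by norm_num) (by norm_num) (by norm_num) h28 (fun _ _ _ _ _ h93 H75 => ?_) H74
  refine negK_s he h93 (fun _ _ _ _ _ h94 H76 => ?_) H75
  have h95 := In_cast h94 (neg_mul_c (c := (-987/250:ℝ)) (by norm_num))
  refine addcK_s he h95 (v' := (50169/4000:ℝ)) (by norm_num [SS, BB, abs_le]) (fun _ _ _ _ _ h96 H77 => ?_) H76
  refine mulK_s he h96 h28 (fun _ _ _ _ _ h97 H78 => ?_) H77
  refine addcK_s he h97 (v' := (-44979/4000:ℝ)) (by norm_num [SS, BB, abs_le]) (fun _ _ _ _ _ h98 H79 => ?_) H78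
  refine mulK_s he h98 h28 (fun _ _ _ _ _ h99 H80 => ?_) H79
  refine addcK_s he h99 (v' := (-721/3200:ℝ)) (by norm_num [SS, BB, abs_le]) (fun _ _ _ _ _ h100 H81 => ?_) H80
  refine mulK_s he h100 h28 (fun _ _ _ _ _ h101 H82 => ?_) H81
  refine addcK_s he h101 (v' := (23041/8000:ℝ)) (by norm_num [SS, BB, abs_le]) (fun _ _ _ _ _ h102 H83 => ?_) H82
  refine mulK_s he h102 h28 (fun _ _ _ _ _ h103 H84 => ?_) H83
  refine addcK_s he h103 (v' := (13983/64000:ℝ)) (by norm_num [SS, BB, abs_le]) (fun _ _ _ _ _ h104 H85 => ?_) H84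
  refine mulK_s he h104 h28 (fun _ _ _ _ _ h105 H86 => ?_) H85
  refine addcK_s he h105 (v' := (-56659/64000:ℝ)) (by norm_num [SS, BB, abs_le]) (fun _ _ _ _ _ h106 H87 => ?_) H86
  refine mulK_s he h106 h28 (fun _ _ _ _ _ h107 H88 => ?_) H87
  refine addcK_s he h107 (v' := (90909/256000:ℝ)) (by norm_num [SS, BB, abs_le]) (fun _ _ _ _ _ h108 H89 => ?_) H88
  refine smulK_s he (w := (6909/250:ℝ)) (by norm_num) (by norm_num) (by norm_num) (by norm_num) h28 (fun _ _ _ _ _ h109 H90 => ?_) H89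
  refine negK_s he h109 (fun _ _ _ _ _ h110 H91 => ?_) H90
  have h111 := In_cast h110 (neg_mul_c (c := (-6909/250:ℝ)) (by norm_num))
  refine addcK_s he h111 (v' := (50169/800:ℝ)) (by norm_num [SS, BB, abs_le]) (fun _ _ _ _ _ h112 H92 => ?_) H91
  refine mulK_s he h112 h28 (fun _ _ _ _ _ h113 H93 => ?_) H92
  refine addcK_s he h113 (v' := (-14993/400:ℝ)) (by norm_num [SS, BB, abs_le]) (fun _ _ _ _ _ h114 H94 => ?_) H93
  refine mulK_s he h114 h28 (fun _ _ _ _ _ h115 H95 => ?_) H94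
  refine addcK_s he h115 (v' := (-721/1600:ℝ)) (by norm_num [SS, BB, abs_le]) (fun _ _ _ _ _ h116 H96 => ?_) H95
  refine mulK_s he h116 h28 (fun _ _ _ _ _ h117 H97 => ?_) H96
  refine addcK_s he h117 (v' := (23041/8000:ℝ)) (by norm_num [SS, BB, abs_le]) (fun _ _ _ _ _ h118 H98 => ?_) H97
  refine mulK_s he h118 h28 (fun _ _ _ _ _ h119 H99 => ?_) H98
  refine addcK_s he h119 (v' := (4661/64000:ℝ)) (by norm_num [SS, BB, abs_le]) (fun _ _ _ _ _ h120 H100 => ?_) H99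
  refine addcK_s he h111 (v' := (150507/4000:ℝ)) (by norm_num [SS, BB, abs_le]) (fun _ _ _ _ _ h121 H101 => ?_) H100
  refine mulK_s he h121 h28 (fun _ _ _ _ _ h122 H102 => ?_) H101
  refine addcK_s he h122 (v' := (-44979/4000:ℝ)) (by norm_num [SS, BB, abs_le]) (fun _ _ _ _ _ h123 H103 => ?_) H102
  refine mulK_s he h123 h28 (fun _ _ _ _ _ h124 H104 => ?_) H103
  refine addcK_s he h124 (v' := (-721/16000:ℝ)) (by norm_num [SS, BB, abs_le]) (fun _ _ _ _ _ h125 H105 => ?_) H104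
  refine addcK_s he h95 (v' := (7167/4000:ℝ)) (by norm_num [SS, BB, abs_le]) (fun _ _ _ _ _ h126 H106 => ?_) H105
  refine mulK_s he h67 h126 (fun _ _ _ _ _ h127 H107 => ?_) H106
  refine addK_s he h125 h127 (fun _ _ _ _ _ h128 H108 => ?_) H107
  refine mulK_s he h67 h128 (fun _ _ _ _ _ h129 H109 => ?_) H108
  refine addK_s he h120 h129 (fun _ _ _ _ _ h130 H110 => ?_) H109
  refine mulK_s he h67 h130 (fun _ _ _ _ _ h131 H111 => ?_) H110
  refine addK_s he h108 h131 (fun _ _ _ _ _ h132 H112 => ?_) H111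
  have h133 := In_cast (w := (uO a f s p q)) h132 rfl
  refine mulK_s he hx2 h133 (fun _ _ _ _ _ h134 H113 => ?_) H112
  refine smulK_s he (w := (2:ℝ)) (by norm_num) (by norm_num) (by norm_num) (by norm_num) h134 (fun _ _ _ _ _ h135 H114 => ?_) H113
  refine subK_s he h92 h135 (fun _ _ _ _ _ h136 H115 => ?_) H114
  have h137 := In_cast (w := (u0 a f s p q)) h136 rfl
  refine mulK_s he h24 h137 (fun _ _ _ _ _ h138 H116 => ?_) H115
  refine negK_s he h16 (fun _ _ _ _ _ h139 H117 => ?_) H116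
  refine addcK_s he h139 (v' := (1:ℝ)) (by norm_num [SS, BB, abs_le]) (fun _ _ _ _ _ h140 H118 => ?_) H117
  have h141 := In_cast h140 (neg_add_eq_sub _ _)
  refine smulK_s he (w := (7/25:ℝ)) (by norm_num) (by norm_num) (by norm_num) (by norm_num) h13 (fun _ _ _ _ _ h142 H119 => ?_) H118
  refine subK_s he h142 h18 (fun _ _ _ _ _ h143 H120 => ?_) H119
  refine addK_s he h5 h143 (fun _ _ _ _ _ h144 H121 => ?_) H120
  refine mulK_s he hx3 h144 (fun _ _ _ _ _ h145 H122 => ?_) H121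
  refine subK_s he h141 h145 (fun _ _ _ _ _ h146 H123 => ?_) H122
  have h147 := In_cast (w := (K1Bp a f s p q)) h146 rfl
  refine addK_s he h92 h135 (fun _ _ _ _ _ h148 H124 => ?_) H123
  have h149 := In_cast (w := (u1 a f s p q)) h148 rfl
  refine mulK_s he h147 h149 (fun _ _ _ _ _ h150 H125 => ?_) H124
  refine addK_s he h138 h150 (fun _ _ _ _ _ h151 H126 => ?_) H125
  refine smulK_s he (w := (3/500:ℝ)) (by norm_num) (by norm_num) (by norm_num) (by norm_num) hx3 (fun _ _ _ _ _ h152 H127 => ?_) H126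
  refine negK_s he h152 (fun _ _ _ _ _ h153 H128 => ?_) H127
  refine addcK_s he h153 (v' := (499/500:ℝ)) (by norm_num [SS, BB, abs_le]) (fun _ _ _ _ _ h154 H129 => ?_) H128
  have h155 := In_cast h154 (neg_add_eq_sub _ _)
  refine mulK_s he h155 h13 (fun _ _ _ _ _ h156 H130 => ?_) H129
  have h157 := In_cast (w := (lBp a f s p q)) h156 rfl
  refine mulK_s he hx2 h157 (fun _ _ _ _ _ h158 H131 => ?_) H130
  refine smulK_s he (w := (2:ℝ)) (by norm_num) (by norm_num) (by norm_num) (by norm_num) h158 (fun _ _ _ _ _ h159 H132 => ?_) H131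
  refine addK_s he h151 h159 (fun _ _ _ _ _ h160 H133 => ?_) H132
  refine smulK_s he (w := (2:ℝ)) (by norm_num) (by norm_num) (by norm_num) (by norm_num) h45 (fun _ _ _ _ _ h161 H134 => ?_) H133
  refine subK_s he h160 h161 (fun _ _ _ _ _ h162 H135 => ?_) H134
  have h163 := In_cast (w := (PdB a f s p q)) h162 rfl
  refine posK_s he h163 (fun p1 H136 => ?_) H135
  refine smulK_s he (w := (9/20:ℝ)) (by norm_num) (by norm_num) (by norm_num) (by norm_num) hp2 (fun _ _ _ _ _ h164 H137 => ?_) H136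
  refine addcK_s he h164 (v' := (11/20:ℝ)) (by norm_num [SS, BB, abs_le]) (fun _ _ _ _ _ h165 H138 => ?_) H137
  have h166 := In_cast h165 (add_comm _ _)
  have h167 := In_cast (w := (tdq a f s p q)) h166 rfl
  refine smulK_s he (w := (21/50:ℝ)) (by norm_num) (by norm_num) (by norm_num) (by norm_num) h167 (fun _ _ _ _ _ h168 H139 => ?_) H138
  refine negK_s he h168 (fun _ _ _ _ _ h169 H140 => ?_) H139
  refine addcK_s he h169 (v' := (3/5:ℝ)) (by norm_num [SS, BB, abs_le]) (fun _ _ _ _ _ h170 H141 => ?_) H140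
  have h171 := In_cast h170 (neg_add_eq_sub _ _)
  refine mulK_s he h167 h171 (fun _ _ _ _ _ h172 H142 => ?_) H141
  refine addcK_s he h172 (v' := (-1/20:ℝ)) (by norm_num [SS, BB, abs_le]) (fun _ _ _ _ _ h173 H143 => ?_) H142
  have h174 := In_cast h173 (add_comm _ _)
  refine sqK_s he h167 (fun _ _ _ _ _ h175 H144 => ?_) H143
  refine addcK_s he h175 (v' := (1:ℝ)) (by norm_num [SS, BB, abs_le]) (fun _ _ _ _ _ h176 H145 => ?_) H144
  have h177 := In_cast h176 (add_comm _ _)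
  refine invK_s he h177 (fun _ _ _ _ _ h178 H146 => ?_) H145
  have h179 := In_cast h178 (inv_eq_one_div _)
  have h180 := In_cast (w := (Dq a f s p q)) h179 rfl
  refine mulK_s he h174 h180 (fun _ _ _ _ _ h181 H147 => ?_) H146
  refine mulK_s he hx3 h181 (fun _ _ _ _ _ h182 H148 => ?_) H147
  refine addcK_s he h182 (v' := (1:ℝ)) (by norm_num [SS, BB, abs_le]) (fun _ _ _ _ _ h183 H149 => ?_) H148
  have h184 := In_cast h183 (add_comm _ _)
  have h185 := In_cast (w := (K0Dq a f s p q)) h184 rfl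
  refine addcK_s he h31 (v' := (2403/500:ℝ)) (by norm_num [SS, BB, abs_le]) (fun _ _ _ _ _ h186 H150 => ?_) H149
  refine mulK_s he h186 h28 (fun _ _ _ _ _ h187 H151 => ?_) H150
  refine addcK_s he h187 (v' := (-34811/4000:ℝ)) (by norm_num [SS, BB, abs_le]) (fun _ _ _ _ _ h188 H152 => ?_) H151
  refine mulK_s he h188 h28 (fun _ _ _ _ _ h189 H153 => ?_) H152
  refine addcK_s he h189 (v' := (13899/2000:ℝ)) (by norm_num [SS, BB, abs_le]) (fun _ _ _ _ _ h190 H154 => ?_) H153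
  refine mulK_s he h190 h28 (fun _ _ _ _ _ h191 H155 => ?_) H154
  refine addcK_s he h191 (v' := (-1521/640:ℝ)) (by norm_num [SS, BB, abs_le]) (fun _ _ _ _ _ h192 H156 => ?_) H155
  refine mulK_s he h192 h28 (fun _ _ _ _ _ h193 H157 => ?_) H156
  refine addcK_s he h193 (v' := (1597/1600:ℝ)) (by norm_num [SS, BB, abs_le]) (fun _ _ _ _ _ h194 H158 => ?_) H157
  refine mulK_s he h194 h28 (fun _ _ _ _ _ h195 H159 => ?_) H158
  refine addcK_s he h195 (v' := (-116129/64000:ℝ)) (by norm_num [SS, BB, abs_le]) (fun _ _ _ _ _ h196 H160 => ?_) H159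
  refine mulK_s he h196 h28 (fun _ _ _ _ _ h197 H161 => ?_) H160
  refine addcK_s he h197 (v' := (9741/6400:ℝ)) (by norm_num [SS, BB, abs_le]) (fun _ _ _ _ _ h198 H162 => ?_) H161
  have h199 := In_cast (w := (ch a f s p q)) h198 rfl
  refine addcK_s he h52 (v' := (1449/32:ℝ)) (by norm_num [SS, BB, abs_le]) (fun _ _ _ _ _ h200 H163 => ?_) H162
  refine mulK_s he h200 h28 (fun _ _ _ _ _ h201 H164 => ?_) H163
  refine addcK_s he h201 (v' := (-75597/1600:ℝ)) (by norm_num [SS, BB, abs_le]) (fun _ _ _ _ _ h202 H165 => ?_) H164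
  refine mulK_s he h202 h28 (fun _ _ _ _ _ h203 H166 => ?_) H165
  refine addcK_s he h203 (v' := (4157/320:ℝ)) (by norm_num [SS, BB, abs_le]) (fun _ _ _ _ _ h204 H167 => ?_) H166
  refine mulK_s he h204 h28 (fun _ _ _ _ _ h205 H168 => ?_) H167
  refine addcK_s he h205 (v' := (52713/16000:ℝ)) (by norm_num [SS, BB, abs_le]) (fun _ _ _ _ _ h206 H169 => ?_) H168
  refine mulK_s he h206 h28 (fun _ _ _ _ _ h207 H170 => ?_) H169
  refine addcK_s he h207 (v' := (-3651/12800:ℝ)) (by norm_num [SS, BB, abs_le]) (fun _ _ _ _ _ h208 H171 => ?_) H170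
  refine mulK_s he h208 h28 (fun _ _ _ _ _ h209 H172 => ?_) H171
  refine addcK_s he h209 (v' := (-84189/128000:ℝ)) (by norm_num [SS, BB, abs_le]) (fun _ _ _ _ _ h210 H173 => ?_) H172
  refine addcK_s he h70 (v' := (2415/32:ℝ)) (by norm_num [SS, BB, abs_le]) (fun _ _ _ _ _ h211 H174 => ?_) H173
  refine mulK_s he h211 h28 (fun _ _ _ _ _ h212 H175 => ?_) H174
  refine addcK_s he h212 (v' := (-75597/1600:ℝ)) (by norm_num [SS, BB, abs_le]) (fun _ _ _ _ _ h213 H176 => ?_) H175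
  refine mulK_s he h213 h28 (fun _ _ _ _ _ h214 H177 => ?_) H176
  refine addcK_s he h214 (v' := (4157/640:ℝ)) (by norm_num [SS, BB, abs_le]) (fun _ _ _ _ _ h215 H178 => ?_) H177
  refine mulK_s he h215 h28 (fun _ _ _ _ _ h216 H179 => ?_) H178
  refine addcK_s he h216 (v' := (17571/32000:ℝ)) (by norm_num [SS, BB, abs_le]) (fun _ _ _ _ _ h217 H180 => ?_) H179
  refine addcK_s he h52 (v' := (483/32:ℝ)) (by norm_num [SS, BB, abs_le]) (fun _ _ _ _ _ h218 H181 => ?_) H180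
  refine mulK_s he h218 h28 (fun _ _ _ _ _ h219 H182 => ?_) H181
  refine addcK_s he h219 (v' := (-25199/8000:ℝ)) (by norm_num [SS, BB, abs_le]) (fun _ _ _ _ _ h220 H183 => ?_) H182
  refine addK_s he h220 h83 (fun _ _ _ _ _ h221 H184 => ?_) H183
  refine mulK_s he h67 h221 (fun _ _ _ _ _ h222 H185 => ?_) H184
  refine addK_s he h217 h222 (fun _ _ _ _ _ h223 H186 => ?_) H185
  refine mulK_s he h67 h223 (fun _ _ _ _ _ h224 H187 => ?_) H186
  refine addK_s he h210 h224 (fun _ _ _ _ _ h225 H188 => ?_) H187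
  have h226 := In_cast (w := (cE a f s p q)) h225 rfl
  refine mulK_s he h49 h226 (fun _ _ _ _ _ h227 H189 => ?_) H188
  refine addK_s he h199 h227 (fun _ _ _ _ _ h228 H190 => ?_) H189
  have h229 := In_cast (w := (cm a f s p q)) h228 rfl
  refine addcK_s he h95 (v' := (483/32:ℝ)) (by norm_num [SS, BB, abs_le]) (fun _ _ _ _ _ h230 H191 => ?_) H190
  refine mulK_s he h230 h28 (fun _ _ _ _ _ h231 H192 => ?_) H191
  refine addcK_s he h231 (v' := (-75597/4000:ℝ)) (by norm_num [SS, BB, abs_le]) (fun _ _ _ _ _ h232 H193 => ?_) H192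
  refine mulK_s he h232 h28 (fun _ _ _ _ _ h233 H194 => ?_) H193
  refine addcK_s he h233 (v' := (4157/640:ℝ)) (by norm_num [SS, BB, abs_le]) (fun _ _ _ _ _ h234 H195 => ?_) H194
  refine mulK_s he h234 h28 (fun _ _ _ _ _ h235 H196 => ?_) H195
  refine addcK_s he h235 (v' := (17571/8000:ℝ)) (by norm_num [SS, BB, abs_le]) (fun _ _ _ _ _ h236 H197 => ?_) H196
  refine mulK_s he h236 h28 (fun _ _ _ _ _ h237 H198 => ?_) H197
  refine addcK_s he h237 (v' := (-3651/12800:ℝ)) (by norm_num [SS, BB, abs_le]) (fun _ _ _ _ _ h238 H199 => ?_) H198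
  refine mulK_s he h238 h28 (fun _ _ _ _ _ h239 H200 => ?_) H199
  refine addcK_s he h239 (v' := (-84189/64000:ℝ)) (by norm_num [SS, BB, abs_le]) (fun _ _ _ _ _ h240 H201 => ?_) H200
  refine mulK_s he h240 h28 (fun _ _ _ _ _ h241 H202 => ?_) H201
  refine addcK_s he h241 (v' := (78691/256000:ℝ)) (by norm_num [SS, BB, abs_le]) (fun _ _ _ _ _ h242 H203 => ?_) H202
  refine addcK_s he h111 (v' := (2415/32:ℝ)) (by norm_num [SS, BB, abs_le]) (fun _ _ _ _ _ h243 H204 => ?_) H203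
  refine mulK_s he h243 h28 (fun _ _ _ _ _ h244 H205 => ?_) H204
  refine addcK_s he h244 (v' := (-25199/400:ℝ)) (by norm_num [SS, BB, abs_le]) (fun _ _ _ _ _ h245 H206 => ?_) H205
  refine mulK_s he h245 h28 (fun _ _ _ _ _ h246 H207 => ?_) H206
  refine addcK_s he h246 (v' := (4157/320:ℝ)) (by norm_num [SS, BB, abs_le]) (fun _ _ _ _ _ h247 H208 => ?_) H207
  refine mulK_s he h247 h28 (fun _ _ _ _ _ h248 H209 => ?_) H208
  refine addcK_s he h248 (v' := (17571/8000:ℝ)) (by norm_num [SS, BB, abs_le]) (fun _ _ _ _ _ h249 H210 => ?_) H209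
  refine mulK_s he h249 h28 (fun _ _ _ _ _ h250 H211 => ?_) H210
  refine addcK_s he h250 (v' := (-1217/12800:ℝ)) (by norm_num [SS, BB, abs_le]) (fun _ _ _ _ _ h251 H212 => ?_) H211
  refine addcK_s he h111 (v' := (1449/32:ℝ)) (by norm_num [SS, BB, abs_le]) (fun _ _ _ _ _ h252 H213 => ?_) H212
  refine mulK_s he h252 h28 (fun _ _ _ _ _ h253 H214 => ?_) H213
  refine addcK_s he h253 (v' := (-75597/4000:ℝ)) (by norm_num [SS, BB, abs_le]) (fun _ _ _ _ _ h254 H215 => ?_) H214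
  refine mulK_s he h254 h28 (fun _ _ _ _ _ h255 H216 => ?_) H215
  refine addcK_s he h255 (v' := (4157/3200:ℝ)) (by norm_num [SS, BB, abs_le]) (fun _ _ _ _ _ h256 H217 => ?_) H216
  refine addcK_s he h95 (v' := (69/32:ℝ)) (by norm_num [SS, BB, abs_le]) (fun _ _ _ _ _ h257 H218 => ?_) H217
  refine mulK_s he h67 h257 (fun _ _ _ _ _ h258 H219 => ?_) H218
  refine addK_s he h256 h258 (fun _ _ _ _ _ h259 H220 => ?_) H219
  refine mulK_s he h67 h259 (fun _ _ _ _ _ h260 H221 => ?_) H220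
  refine addK_s he h251 h260 (fun _ _ _ _ _ h261 H222 => ?_) H221
  refine mulK_s he h67 h261 (fun _ _ _ _ _ h262 H223 => ?_) H222
  refine addK_s he h242 h262 (fun _ _ _ _ _ h263 H224 => ?_) H223
  have h264 := In_cast (w := (cO a f s p q)) h263 rfl
  refine mulK_s he hx2 h264 (fun _ _ _ _ _ h265 H225 => ?_) H224
  refine smulK_s he (w := (2:ℝ)) (by norm_num) (by norm_num) (by norm_num) (by norm_num) h265 (fun _ _ _ _ _ h266 H226 => ?_) H225
  refine addK_s he h229 h266 (fun _ _ _ _ _ h267 H227 => ?_) H226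
  have h268 := In_cast (w := (c1 a f s p q)) h267 rfl
  refine mulK_s he h185 h268 (fun _ _ _ _ _ h269 H228 => ?_) H227
  refine negK_s he h167 (fun _ _ _ _ _ h270 H229 => ?_) H228
  refine addcK_s he h270 (v' := (1:ℝ)) (by norm_num [SS, BB, abs_le]) (fun _ _ _ _ _ h271 H230 => ?_) H229
  have h272 := In_cast h271 (neg_add_eq_sub _ _)
  refine mulK_s he h272 h180 (fun _ _ _ _ _ h273 H231 => ?_) H230
  refine addcK_s he h167 (v' := (1:ℝ)) (by norm_num [SS, BB, abs_le]) (fun _ _ _ _ _ h274 H232 => ?_) H231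
  have h275 := In_cast h274 (add_comm _ _)
  refine smulK_s he (w := (93/100:ℝ)) (by norm_num) (by norm_num) (by norm_num) (by norm_num) h167 (fun _ _ _ _ _ h276 H233 => ?_) H232
  refine addcK_s he h276 (v' := (-17/100:ℝ)) (by norm_num [SS, BB, abs_le]) (fun _ _ _ _ _ h277 H234 => ?_) H233
  have h278 := In_cast h277 (sub_c (c := (17/100:ℝ)) (by norm_num))
  refine smulK_s he (w := (3/25:ℝ)) (by norm_num) (by norm_num) (by norm_num) (by norm_num) h167 (fun _ _ _ _ _ h279 H235 => ?_) H234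
  refine addcK_s he h279 (v' := (1/10:ℝ)) (by norm_num [SS, BB, abs_le]) (fun _ _ _ _ _ h280 H236 => ?_) H235
  have h281 := In_cast h280 (add_comm _ _)
  refine mulK_s he hx3 h281 (fun _ _ _ _ _ h282 H237 => ?_) H236
  refine addK_s he h278 h282 (fun _ _ _ _ _ h283 H238 => ?_) H237
  refine mulK_s he hx3 h283 (fun _ _ _ _ _ h284 H239 => ?_) H238
  refine subK_s he h275 h284 (fun _ _ _ _ _ h285 H240 => ?_) H239
  have h286 := In_cast (w := (BDq a f s p q)) h285 rfl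
  refine mulK_s he h273 h286 (fun _ _ _ _ _ h287 H241 => ?_) H240
  have h288 := In_cast (w := (K1Dq a f s p q)) h287 rfl
  refine subK_s he h229 h266 (fun _ _ _ _ _ h289 H242 => ?_) H241
  have h290 := In_cast (w := (c0 a f s p q)) h289 rfl
  refine mulK_s he h288 h290 (fun _ _ _ _ _ h291 H243 => ?_) H242
  refine addK_s he h269 h291 (fun _ _ _ _ _ h292 H244 => ?_) H243
  refine smulK_s he (w := (2:ℝ)) (by norm_num) (by norm_num) (by norm_num) (by norm_num) h167 (fun _ _ _ _ _ h293 H245 => ?_) H244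
  refine smulK_s he (w := (1/250:ℝ)) (by norm_num) (by norm_num) (by norm_num) (by norm_num) h272 (fun _ _ _ _ _ h294 H246 => ?_) H245
  refine subK_s he h293 h294 (fun _ _ _ _ _ h295 H247 => ?_) H246
  refine mulK_s he h295 h180 (fun _ _ _ _ _ h296 H248 => ?_) H247
  have h297 := In_cast (w := (lDq a f s p q)) h296 rfl
  refine mulK_s he hx2 h297 (fun _ _ _ _ _ h298 H249 => ?_) H248
  refine smulK_s he (w := (2:ℝ)) (by norm_num) (by norm_num) (by norm_num) (by norm_num) h298 (fun _ _ _ _ _ h299 H250 => ?_) H249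
  refine addK_s he h292 h299 (fun _ _ _ _ _ h300 H251 => ?_) H250
  refine smulK_s he (w := (2:ℝ)) (by norm_num) (by norm_num) (by norm_num) (by norm_num) h199 (fun _ _ _ _ _ h301 H252 => ?_) H251
  refine subK_s he h300 h301 (fun _ _ _ _ _ h302 H253 => ?_) H252
  have h303 := In_cast (w := (QdD a f s p q)) h302 rfl
  refine posK_s he h303 (fun p2 H254 => ?_) H253
  refine mulK_s he h163 h303 (fun _ _ _ _ _ h304 H255 => ?_) H254
  refine mulK_s he h24 h288 (fun _ _ _ _ _ h305 H256 => ?_) H255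
  refine sqrtK_s he h305 (fun _ _ _ _ _ h306 H257 => ?_) H256
  refine smulK_s he (w := (238/125:ℝ)) (by norm_num) (by norm_num) (by norm_num) (by norm_num) h28 (fun _ _ _ _ _ h307 H258 => ?_) H257
  refine addcK_s he h307 (v' := (-238/25:ℝ)) (by norm_num [SS, BB, abs_le]) (fun _ _ _ _ _ h308 H259 => ?_) H258
  refine mulK_s he h308 h28 (fun _ _ _ _ _ h309 H260 => ?_) H259
  refine addcK_s he h309 (v' := (2264/125:ℝ)) (by norm_num [SS, BB, abs_le]) (fun _ _ _ _ _ h310 H261 => ?_) H260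
  refine mulK_s he h310 h28 (fun _ _ _ _ _ h311 H262 => ?_) H261
  refine addcK_s he h311 (v' := (-407/25:ℝ)) (by norm_num [SS, BB, abs_le]) (fun _ _ _ _ _ h312 H263 => ?_) H262
  refine mulK_s he h312 h28 (fun _ _ _ _ _ h313 H264 => ?_) H263
  refine addcK_s he h313 (v' := (7321/1000:ℝ)) (by norm_num [SS, BB, abs_le]) (fun _ _ _ _ _ h314 H265 => ?_) H264
  refine mulK_s he h314 h28 (fun _ _ _ _ _ h315 H266 => ?_) H265
  refine addcK_s he h315 (v' := (-2361/1000:ℝ)) (by norm_num [SS, BB, abs_le]) (fun _ _ _ _ _ h316 H267 => ?_) H266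
  refine mulK_s he h316 h28 (fun _ _ _ _ _ h317 H268 => ?_) H267
  refine addcK_s he h317 (v' := (927/1000:ℝ)) (by norm_num [SS, BB, abs_le]) (fun _ _ _ _ _ h318 H269 => ?_) H268
  have h319 := In_cast (w := (vh a f s p q)) h318 rfl
  refine smulK_s he (w := (1666/125:ℝ)) (by norm_num) (by norm_num) (by norm_num) (by norm_num) h28 (fun _ _ _ _ _ h320 H270 => ?_) H269
  refine addcK_s he h320 (v' := (-4998/125:ℝ)) (by norm_num [SS, BB, abs_le]) (fun _ _ _ _ _ h321 H271 => ?_) H270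
  refine mulK_s he h321 h28 (fun _ _ _ _ _ h322 H272 => ?_) H271
  refine addcK_s he h322 (v' := (6801/200:ℝ)) (by norm_num [SS, BB, abs_le]) (fun _ _ _ _ _ h323 H273 => ?_) H272
  refine mulK_s he h323 h28 (fun _ _ _ _ _ h324 H274 => ?_) H273
  refine addcK_s he h324 (v' := (-137/100:ℝ)) (by norm_num [SS, BB, abs_le]) (fun _ _ _ _ _ h325 H275 => ?_) H274
  refine mulK_s he h325 h28 (fun _ _ _ _ _ h326 H276 => ?_) H275
  refine addcK_s he h326 (v' := (-13293/2000:ℝ)) (by norm_num [SS, BB, abs_le]) (fun _ _ _ _ _ h327 H277 => ?_) H276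
  refine mulK_s he h327 h28 (fun _ _ _ _ _ h328 H278 => ?_) H277
  refine addcK_s he h328 (v' := (267/400:ℝ)) (by norm_num [SS, BB, abs_le]) (fun _ _ _ _ _ h329 H279 => ?_) H278
  refine mulK_s he h329 h28 (fun _ _ _ _ _ h330 H280 => ?_) H279
  refine addcK_s he h330 (v' := (317/3200:ℝ)) (by norm_num [SS, BB, abs_le]) (fun _ _ _ _ _ h331 H281 => ?_) H280
  refine smulK_s he (w := (833/25:ℝ)) (by norm_num) (by norm_num) (by norm_num) (by norm_num) h28 (fun _ _ _ _ _ h332 H282 => ?_) H281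
  refine addcK_s he h332 (v' := (-1666/25:ℝ)) (by norm_num [SS, BB, abs_le]) (fun _ _ _ _ _ h333 H283 => ?_) H282
  refine mulK_s he h333 h28 (fun _ _ _ _ _ h334 H284 => ?_) H283
  refine addcK_s he h334 (v' := (6801/200:ℝ)) (by norm_num [SS, BB, abs_le]) (fun _ _ _ _ _ h335 H285 => ?_) H284
  refine mulK_s he h335 h28 (fun _ _ _ _ _ h336 H286 => ?_) H285
  refine addcK_s he h336 (v' := (-137/200:ℝ)) (by norm_num [SS, BB, abs_le]) (fun _ _ _ _ _ h337 H287 => ?_) H286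
  refine mulK_s he h337 h28 (fun _ _ _ _ _ h338 H288 => ?_) H287
  refine addcK_s he h338 (v' := (-4431/4000:ℝ)) (by norm_num [SS, BB, abs_le]) (fun _ _ _ _ _ h339 H289 => ?_) H288
  refine addcK_s he h320 (v' := (-1666/125:ℝ)) (by norm_num [SS, BB, abs_le]) (fun _ _ _ _ _ h340 H290 => ?_) H289
  refine mulK_s he h340 h28 (fun _ _ _ _ _ h341 H291 => ?_) H290
  refine addcK_s he h341 (v' := (2267/1000:ℝ)) (by norm_num [SS, BB, abs_le]) (fun _ _ _ _ _ h342 H292 => ?_) H291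
  refine smulK_s he (w := (119/250:ℝ)) (by norm_num) (by norm_num) (by norm_num) (by norm_num) h67 (fun _ _ _ _ _ h343 H293 => ?_) H292
  refine addK_s he h342 h343 (fun _ _ _ _ _ h344 H294 => ?_) H293
  refine mulK_s he h67 h344 (fun _ _ _ _ _ h345 H295 => ?_) H294
  refine addK_s he h339 h345 (fun _ _ _ _ _ h346 H296 => ?_) H295
  refine mulK_s he h67 h346 (fun _ _ _ _ _ h347 H297 => ?_) H296
  refine addK_s he h331 h347 (fun _ _ _ _ _ h348 H298 => ?_) H297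
  have h349 := In_cast (w := (vE a f s p q)) h348 rfl
  refine mulK_s he h46 h349 (fun _ _ _ _ _ h350 H299 => ?_) H298
  refine smulK_s he (w := (4:ℝ)) (by norm_num) (by norm_num) (by norm_num) (by norm_num) h350 (fun _ _ _ _ _ h351 H300 => ?_) H299
  refine addK_s he h319 h351 (fun _ _ _ _ _ h352 H301 => ?_) H300
  have h353 := In_cast (w := (vm a f s p q)) h352 rfl
  refine smulK_s he (w := (952/125:ℝ)) (by norm_num) (by norm_num) (by norm_num) (by norm_num) h28 (fun _ _ _ _ _ h354 H302 => ?_) H301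
  refine addcK_s he h354 (v' := (-3808/125:ℝ)) (by norm_num [SS, BB, abs_le]) (fun _ _ _ _ _ h355 H303 => ?_) H302
  refine mulK_s he h355 h28 (fun _ _ _ _ _ h356 H304 => ?_) H303
  refine addcK_s he h356 (v' := (10609/250:ℝ)) (by norm_num [SS, BB, abs_le]) (fun _ _ _ _ _ h357 H305 => ?_) H304
  refine mulK_s he h357 h28 (fun _ _ _ _ _ h358 H306 => ?_) H305
  refine addcK_s he h358 (v' := (-5647/250:ℝ)) (by norm_num [SS, BB, abs_le]) (fun _ _ _ _ _ h359 H307 => ?_) H306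
  refine mulK_s he h359 h28 (fun _ _ _ _ _ h360 H308 => ?_) H307
  refine addcK_s he h360 (v' := (304/125:ℝ)) (by norm_num [SS, BB, abs_le]) (fun _ _ _ _ _ h361 H309 => ?_) H308
  refine mulK_s he h361 h28 (fun _ _ _ _ _ h362 H310 => ?_) H309
  refine addcK_s he h362 (v' := (119/1000:ℝ)) (by norm_num [SS, BB, abs_le]) (fun _ _ _ _ _ h363 H311 => ?_) H310
  refine mulK_s he h363 h28 (fun _ _ _ _ _ h364 H312 => ?_) H311
  refine addcK_s he h364 (v' := (1347/4000:ℝ)) (by norm_num [SS, BB, abs_le]) (fun _ _ _ _ _ h365 H313 => ?_) H312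
  refine smulK_s he (w := (3332/125:ℝ)) (by norm_num) (by norm_num) (by norm_num) (by norm_num) h28 (fun _ _ _ _ _ h366 H314 => ?_) H313
  refine addcK_s he h366 (v' := (-1666/25:ℝ)) (by norm_num [SS, BB, abs_le]) (fun _ _ _ _ _ h367 H315 => ?_) H314
  refine mulK_s he h367 h28 (fun _ _ _ _ _ h368 H316 => ?_) H315
  refine addcK_s he h368 (v' := (2267/50:ℝ)) (by norm_num [SS, BB, abs_le]) (fun _ _ _ _ _ h369 H317 => ?_) H316
  refine mulK_s he h369 h28 (fun _ _ _ _ _ h370 H318 => ?_) H317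
  refine addcK_s he h370 (v' := (-137/100:ℝ)) (by norm_num [SS, BB, abs_le]) (fun _ _ _ _ _ h371 H319 => ?_) H318
  refine mulK_s he h371 h28 (fun _ _ _ _ _ h372 H320 => ?_) H319
  refine addcK_s he h372 (v' := (-4431/1000:ℝ)) (by norm_num [SS, BB, abs_le]) (fun _ _ _ _ _ h373 H321 => ?_) H320
  refine mulK_s he h373 h28 (fun _ _ _ _ _ h374 H322 => ?_) H321
  refine addcK_s he h374 (v' := (89/400:ℝ)) (by norm_num [SS, BB, abs_le]) (fun _ _ _ _ _ h375 H323 => ?_) H322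
  refine addcK_s he h366 (v' := (-4998/125:ℝ)) (by norm_num [SS, BB, abs_le]) (fun _ _ _ _ _ h376 H324 => ?_) H323
  refine mulK_s he h376 h28 (fun _ _ _ _ _ h377 H325 => ?_) H324
  refine addcK_s he h377 (v' := (6801/500:ℝ)) (by norm_num [SS, BB, abs_le]) (fun _ _ _ _ _ h378 H326 => ?_) H325
  refine mulK_s he h378 h28 (fun _ _ _ _ _ h379 H327 => ?_) H326
  refine addcK_s he h379 (v' := (-137/1000:ℝ)) (by norm_num [SS, BB, abs_le]) (fun _ _ _ _ _ h380 H328 => ?_) H327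
  refine smulK_s he (w := (476/125:ℝ)) (by norm_num) (by norm_num) (by norm_num) (by norm_num) h28 (fun _ _ _ _ _ h381 H329 => ?_) H328
  refine addcK_s he h381 (v' := (-238/125:ℝ)) (by norm_num [SS, BB, abs_le]) (fun _ _ _ _ _ h382 H330 => ?_) H329
  refine mulK_s he h67 h382 (fun _ _ _ _ _ h383 H331 => ?_) H330
  refine addK_s he h380 h383 (fun _ _ _ _ _ h384 H332 => ?_) H331
  refine mulK_s he h67 h384 (fun _ _ _ _ _ h385 H333 => ?_) H332
  refine addK_s he h375 h385 (fun _ _ _ _ _ h386 H334 => ?_) H333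
  refine mulK_s he h49 h386 (fun _ _ _ _ _ h387 H335 => ?_) H334
  refine addK_s he h365 h387 (fun _ _ _ _ _ h388 H336 => ?_) H335
  have h389 := In_cast (w := (vO a f s p q)) h388 rfl
  refine mulK_s he hx2 h389 (fun _ _ _ _ _ h390 H337 => ?_) H336
  refine smulK_s he (w := (2:ℝ)) (by norm_num) (by norm_num) (by norm_num) (by norm_num) h390 (fun _ _ _ _ _ h391 H338 => ?_) H337
  refine subK_s he h353 h391 (fun _ _ _ _ _ h392 H339 => ?_) H338
  have h393 := In_cast (w := (v0 a f s p q)) h392 rfl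
  refine mulK_s he h306 h393 (fun _ _ _ _ _ h394 H340 => ?_) H339
  refine mulK_s he h147 h185 (fun _ _ _ _ _ h395 H341 => ?_) H340
  refine sqrtK_s he h395 (fun _ _ _ _ _ h396 H342 => ?_) H341
  refine addK_s he h353 h391 (fun _ _ _ _ _ h397 H343 => ?_) H342
  have h398 := In_cast (w := (v1 a f s p q)) h397 rfl
  refine mulK_s he h396 h398 (fun _ _ _ _ _ h399 H344 => ?_) H343
  refine addK_s he h394 h399 (fun _ _ _ _ _ h400 H345 => ?_) H344
  refine smulK_s he (w := (2:ℝ)) (by norm_num) (by norm_num) (by norm_num) (by norm_num) h319 (fun _ _ _ _ _ h401 H346 => ?_) H345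
  refine subK_s he h400 h401 (fun _ _ _ _ _ h402 H347 => ?_) H346
  have h403 := In_cast (w := (ZdBD a f s p q)) h402 rfl
  refine mulK_s he hx1 h403 (fun _ _ _ _ _ h404 H348 => ?_) H347
  refine negK_s he h404 (fun _ _ _ _ _ h405 H349 => ?_) H348
  refine reluK_s he h405 (fun _ _ _ _ _ h406 H350 => ?_) H349
  refine sqK_s he h406 (fun _ _ _ _ _ h407 H351 => ?_) H350
  refine subK_s he h304 h407 (fun _ _ _ _ _ h408 H352 => ?_) H351
  exact ⟨p0, p1, p2, pos_s he h408 H352⟩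

noncomputable def alt3 (p1 p2 z1 w1 z2 w2 z3 w3 : ℕ) : Bool :=
  smulK 9 20 23058430092136939540 10376293541461622784 p1 1152921504606846976 1152921504606846976 1152921504606846976 0 fun c1 a1_1 a1_2 a1_3 q1 =>
  addcK c1 a1_1 a1_2 a1_3 q1 1152922109338242253 1 fun c2 a2_1 a2_2 a2_3 q2 =>
  smulK 21 50 57646075230342348850 24211351596743786496 c2 a2_1 a2_2 a2_3 q2 fun c5 a5_1 a5_2 a5_3 q5 =>
  negK c5 a5_1 a5_2 a5_3 q5 fun c6 a6_1 a6_2 a6_3 q6 =>
  addcK c6 a6_1 a6_2 a6_3 q6 1152922164313823642 1 fun c7 a7_1 a7_2 a7_3 q7 =>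
  mulK c2 a2_1 a2_2 a2_3 q2 c7 a7_1 a7_2 a7_3 q7 fun c9 a9_1 a9_2 a9_3 q9 =>
  addcK c9 a9_1 a9_2 a9_3 q9 1152921449631265587 1 fun c10 a10_1 a10_2 a10_3 q10 =>
  sqK c2 a2_1 a2_2 a2_3 q2 fun c12 a12_1 a12_2 a12_3 q12 =>
  addcK c12 a12_1 a12_2 a12_3 q12 1152922604118474752 0 fun c13 a13_1 a13_2 a13_3 q13 =>
  invK c13 a13_1 a13_2 a13_3 q13 fun c15 a15_1 a15_2 a15_3 q15 =>
  mulK c10 a10_1 a10_2 a10_3 q10 c15 a15_1 a15_2 a15_3 q15 fun c18 a18_1 a18_2 a18_3 q18 =>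
  mulK z3 1152921504606846976 1152921504606846976 (Nat.add w3 1152921504606846976) 0 c18 a18_1 a18_2 a18_3 q18 fun c19 a19_1 a19_2 a19_3 q19 =>
  addcK c19 a19_1 a19_2 a19_3 q19 1152922604118474752 0 fun c20 a20_1 a20_2 a20_3 q20 =>
  smulK 2 1 1152921504606846977 2305843009213693952 z1 (Nat.add w1 1152921504606846976) 1152921504606846976 1152921504606846976 0 fun c23 a23_1 a23_2 a23_3 q23 =>
  addcK c23 a23_1 a23_2 a23_3 q23 1152920954851033088 0 fun c24 a24_1 a24_2 a24_3 q24 =>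
  smulK 987 1000 1152921504606846977000 1137933525046957965312 c24 a24_1 a24_2 a24_3 q24 fun c27 a27_1 a27_2 a27_3 q27 =>
  negK c27 a27_1 a27_2 a27_3 q27 fun c28 a28_1 a28_2 a28_3 q28 =>
  addcK c28 a28_1 a28_2 a28_3 q28 1152925987315753419 1 fun c30 a30_1 a30_2 a30_3 q30 =>
  mulK c30 a30_1 a30_2 a30_3 q30 c24 a24_1 a24_2 a24_3 q24 fun c31 a31_1 a31_2 a31_3 q31 =>
  addcK c31 a31_1 a31_2 a31_3 q31 1152915142007934943 1 fun c32 a32_1 a32_2 a32_3 q32 =>
  mulK c32 a32_1 a32_2 a32_3 q32 c24 a24_1 a24_2 a24_3 q24 fun c33 a33_1 a33_2 a33_3 q33 =>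
  addcK c33 a33_1 a33_2 a33_3 q33 1152924586812817539 1 fun c34 a34_1 a34_2 a34_3 q34 =>
  mulK c34 a34_1 a34_2 a34_3 q34 c24 a24_1 a24_2 a24_3 q24 fun c35 a35_1 a35_2 a35_3 q35 =>
  addcK c35 a35_1 a35_2 a35_3 q35 1152921546869325169 1 fun c36 a36_1 a36_2 a36_3 q36 =>
  mulK c36 a36_1 a36_2 a36_3 q36 c24 a24_1 a24_2 a24_3 q24 fun c37 a37_1 a37_2 a37_3 q37 =>
  addcK c37 a37_1 a37_2 a37_3 q37 1152921643626348413 1 fun c38 a38_1 a38_2 a38_3 q38 =>
  mulK c38 a38_1 a38_2 a38_3 q38 c24 a24_1 a24_2 a24_3 q24 fun c39 a39_1 a39_2 a39_3 q39 =>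
  addcK c39 a39_1 a39_2 a39_3 q39 1152920461702888161 1 fun c40 a40_1 a40_2 a40_3 q40 =>
  mulK c40 a40_1 a40_2 a40_3 q40 c24 a24_1 a24_2 a24_3 q24 fun c41 a41_1 a41_2 a41_3 q41 =>
  addcK c41 a41_1 a41_2 a41_3 q41 1152922806961190207 1 fun c42 a42_1 a42_2 a42_3 q42 =>
  sqK z2 1152921504606846976 (Nat.add w2 1152921504606846976) 1152921504606846976 0 fun c44 a44_1 a44_2 a44_3 q44 =>
  mulK z1 (Nat.add w1 1152921504606846976) 1152921504606846976 1152921504606846976 0 c44 a44_1 a44_2 a44_3 q44 fun c45 a45_1 a45_2 a45_3 q45 =>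
  smulK 4 1 1152921504606846977 4611686018427387904 c45 a45_1 a45_2 a45_3 q45 fun c46 a46_1 a46_2 a46_3 q46 =>
  smulK 6909 500 576460752303423488500 7965534675328705757184 c24 a24_1 a24_2 a24_3 q24 fun c48 a48_1 a48_2 a48_3 q48 =>
  negK c48 a48_1 a48_2 a48_3 q48 fun c49 a49_1 a49_2 a49_3 q49 =>
  addcK c49 a49_1 a49_2 a49_3 q49 1152962875655987397 1 fun c51 a51_1 a51_2 a51_3 q51 =>
  mulK c51 a51_1 a51_2 a51_3 q51 c24 a24_1 a24_2 a24_3 q24 fun c52 a52_1 a52_2 a52_3 q52 =>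
  addcK c52 a52_1 a52_2 a52_3 q52 1152890595273405891 1 fun c53 a53_1 a53_2 a53_3 q53 =>
  mulK c53 a53_1 a53_2 a53_3 q53 c24 a24_1 a24_2 a24_3 q24 fun c54 a54_1 a54_2 a54_3 q54 =>
  addcK c54 a54_1 a54_2 a54_3 q54 1152921009139419709 1 fun c55 a55_1 a55_2 a55_3 q55 =>
  mulK c55 a55_1 a55_2 a55_3 q55 c24 a24_1 a24_2 a24_3 q24 fun c56 a56_1 a56_2 a56_3 q56 =>
  addcK c56 a56_1 a56_2 a56_3 q56 1152926254703237399 1 fun c57 a57_1 a57_2 a57_3 q57 =>
  mulK c57 a57_1 a57_2 a57_3 q57 c24 a24_1 a24_2 a24_3 q24 fun c58 a58_1 a58_2 a58_3 q58 =>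
  addcK c58 a58_1 a58_2 a58_3 q58 1152921744832957776 1 fun c59 a59_1 a59_2 a59_3 q59 =>
  mulK c59 a59_1 a59_2 a59_3 q59 c24 a24_1 a24_2 a24_3 q24 fun c60 a60_1 a60_2 a60_3 q60 =>
  addcK c60 a60_1 a60_2 a60_3 q60 1152921017909742928 1 fun c61 a61_1 a61_2 a61_3 q61 =>
  mulK z1 (Nat.add w1 1152921504606846976) 1152921504606846976 1152921504606846976 0 z2 1152921504606846976 (Nat.add w2 1152921504606846976) 1152921504606846976 0 fun c62 a62_1 a62_2 a62_3 q62 =>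
  sqK c62 a62_1 a62_2 a62_3 q62 fun c63 a63_1 a63_2 a63_3 q63 =>
  smulK 4 1 1152921504606846977 4611686018427387904 c63 a63_1 a63_2 a63_3 q63 fun c64 a64_1 a64_2 a64_3 q64 =>
  smulK 6909 200 230584300921369395400 7965534675328705757184 c24 a24_1 a24_2 a24_3 q24 fun c66 a66_1 a66_2 a66_3 q66 =>
  negK c66 a66_1 a66_2 a66_3 q66 fun c67 a67_1 a67_2 a67_3 q67 =>
  addcK c67 a67_1 a67_2 a67_3 q67 1152990456355414344 1 fun c69 a69_1 a69_2 a69_3 q69 =>
  mulK c69 a69_1 a69_2 a69_3 q69 c24 a24_1 a24_2 a24_3 q24 fun c70 a70_1 a70_2 a70_3 q70 =>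
  addcK c70 a70_1 a70_2 a70_3 q70 1152890595273405891 1 fun c71 a71_1 a71_2 a71_3 q71 =>
  mulK c71 a71_1 a71_2 a71_3 q71 c24 a24_1 a24_2 a24_3 q24 fun c72 a72_1 a72_2 a72_3 q72 =>
  addcK c72 a72_1 a72_2 a72_3 q72 1152921256873133343 1 fun c73 a73_1 a73_2 a73_3 q73 =>
  mulK c73 a73_1 a73_2 a73_3 q73 c24 a24_1 a24_2 a24_3 q24 fun c74 a74_1 a74_2 a74_3 q74 =>
  addcK c74 a74_1 a74_2 a74_3 q74 1152922296289578713 1 fun c75 a75_1 a75_2 a75_3 q75 =>
  addcK c49 a49_1 a49_2 a49_3 q49 1152935294956560450 1 fun c76 a76_1 a76_2 a76_3 q76 =>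
  mulK c76 a76_1 a76_2 a76_3 q76 c24 a24_1 a24_2 a24_3 q24 fun c77 a77_1 a77_2 a77_3 q77 =>
  addcK c77 a77_1 a77_2 a77_3 q77 1152919443984617570 1 fun c78 a78_1 a78_2 a78_3 q78 =>
  smulK 987 2000 2305843009213693954000 1137933525046957965312 c64 a64_1 a64_2 a64_3 q64 fun c79 a79_1 a79_2 a79_3 q79 =>
  negK c79 a79_1 a79_2 a79_3 q79 fun c80 a80_1 a80_2 a80_3 q80 =>
  addK c78 a78_1 a78_2 a78_3 q78 c80 a80_1 a80_2 a80_3 q80 fun c82 a82_1 a82_2 a82_3 q82 =>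
  mulK c64 a64_1 a64_2 a64_3 q64 c82 a82_1 a82_2 a82_3 q82 fun c83 a83_1 a83_2 a83_3 q83 =>
  addK c75 a75_1 a75_2 a75_3 q75 c83 a83_1 a83_2 a83_3 q83 fun c84 a84_1 a84_2 a84_3 q84 =>
  mulK c64 a64_1 a64_2 a64_3 q64 c84 a84_1 a84_2 a84_3 q84 fun c85 a85_1 a85_2 a85_3 q85 =>
  addK c61 a61_1 a61_2 a61_3 q61 c85 a85_1 a85_2 a85_3 q85 fun c86 a86_1 a86_2 a86_3 q86 =>
  mulK c46 a46_1 a46_2 a46_3 q46 c86 a86_1 a86_2 a86_3 q86 fun c88 a88_1 a88_2 a88_3 q88 =>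
  addK c42 a42_1 a42_2 a42_3 q42 c88 a88_1 a88_2 a88_3 q88 fun c89 a89_1 a89_2 a89_3 q89 =>
  smulK 987 250 288230376151711744250 1137933525046957965312 c24 a24_1 a24_2 a24_3 q24 fun c91 a91_1 a91_2 a91_3 q91 =>
  negK c91 a91_1 a91_2 a91_3 q91 fun c92 a92_1 a92_2 a92_3 q92 =>
  addcK c92 a92_1 a92_2 a92_3 q92 1152935294956560450 1 fun c94 a94_1 a94_2 a94_3 q94 =>
  mulK c94 a94_1 a94_2 a94_3 q94 c24 a24_1 a24_2 a24_3 q24 fun c95 a95_1 a95_2 a95_3 q95 =>
  addcK c95 a95_1 a95_2 a95_3 q95 1152909140873470542 1 fun c96 a96_1 a96_2 a96_3 q96 =>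
  mulK c96 a96_1 a96_2 a96_3 q96 c24 a24_1 a24_2 a24_3 q24 fun c97 a97_1 a97_2 a97_3 q97 =>
  addcK c97 a97_1 a97_2 a97_3 q97 1152921256873133343 1 fun c98 a98_1 a98_2 a98_3 q98 =>
  mulK c98 a98_1 a98_2 a98_3 q98 c24 a24_1 a24_2 a24_3 q24 fun c99 a99_1 a99_2 a99_3 q99 =>
  addcK c99 a99_1 a99_2 a99_3 q99 1152924671337773924 1 fun c100 a100_1 a100_2 a100_3 q100 =>
  mulK c100 a100_1 a100_2 a100_3 q100 c24 a24_1 a24_2 a24_3 q24 fun c101 a101_1 a101_2 a101_3 q101 =>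
  addcK c101 a101_1 a101_2 a101_3 q101 1152921744832957776 1 fun c102 a102_1 a102_2 a102_3 q102 =>
  mulK c102 a102_1 a102_2 a102_3 q102 c24 a24_1 a24_2 a24_3 q24 fun c103 a103_1 a103_2 a103_3 q103 =>
  addcK c103 a103_1 a103_2 a103_3 q103 1152920531212638880 1 fun c104 a104_1 a104_2 a104_3 q104 =>
  mulK c104 a104_1 a104_2 a104_3 q104 c24 a24_1 a24_2 a24_3 q24 fun c105 a105_1 a105_2 a105_3 q105 =>
  addcK c105 a105_1 a105_2 a105_3 q105 1152921895058028888 1 fun c106 a106_1 a106_2 a106_3 q106 =>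
  smulK 6909 250 288230376151711744250 7965534675328705757184 c24 a24_1 a24_2 a24_3 q24 fun c107 a107_1 a107_2 a107_3 q107 =>
  negK c107 a107_1 a107_2 a107_3 q107 fun c108 a108_1 a108_2 a108_3 q108 =>
  addcK c108 a108_1 a108_2 a108_3 q108 1152990456355414344 1 fun c110 a110_1 a110_2 a110_3 q110 =>
  mulK c110 a110_1 a110_2 a110_3 q110 c24 a24_1 a24_2 a24_3 q24 fun c111 a111_1 a111_2 a111_3 q111 =>
  addcK c111 a111_1 a111_2 a111_3 q111 1152880292162258862 1 fun c112 a112_1 a112_2 a112_3 q112 =>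
  mulK c112 a112_1 a112_2 a112_3 q112 c24 a24_1 a24_2 a24_3 q24 fun c113 a113_1 a113_2 a113_3 q113 =>
  addcK c113 a113_1 a113_2 a113_3 q113 1152921009139419709 1 fun c114 a114_1 a114_2 a114_3 q114 =>
  mulK c114 a114_1 a114_2 a114_3 q114 c24 a24_1 a24_2 a24_3 q24 fun c115 a115_1 a115_2 a115_3 q115 =>
  addcK c115 a115_1 a115_2 a115_3 q115 1152924671337773924 1 fun c116 a116_1 a116_2 a116_3 q116 =>
  mulK c116 a116_1 a116_2 a116_3 q116 c24 a24_1 a24_2 a24_3 q24 fun c117 a117_1 a117_2 a117_3 q117 =>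
  addcK c117 a117_1 a117_2 a117_3 q117 1152921584682217243 1 fun c118 a118_1 a118_2 a118_3 q118 =>
  addcK c108 a108_1 a108_2 a108_3 q108 1152962875655987397 1 fun c119 a119_1 a119_2 a119_3 q119 =>
  mulK c119 a119_1 a119_2 a119_3 q119 c24 a24_1 a24_2 a24_3 q24 fun c120 a120_1 a120_2 a120_3 q120 =>
  addcK c120 a120_1 a120_2 a120_3 q120 1152909140873470542 1 fun c121 a121_1 a121_2 a121_3 q121 =>
  mulK c121 a121_1 a121_2 a121_3 q121 c24 a24_1 a24_2 a24_3 q24 fun c122 a122_1 a122_2 a122_3 q122 =>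
  addcK c122 a122_1 a122_2 a122_3 q122 1152921455060104249 1 fun c123 a123_1 a123_2 a123_3 q123 =>
  addcK c92 a92_1 a92_2 a92_3 q92 1152923474656806044 1 fun c124 a124_1 a124_2 a124_3 q124 =>
  mulK c64 a64_1 a64_2 a64_3 q64 c124 a124_1 a124_2 a124_3 q124 fun c125 a125_1 a125_2 a125_3 q125 =>
  addK c123 a123_1 a123_2 a123_3 q123 c125 a125_1 a125_2 a125_3 q125 fun c126 a126_1 a126_2 a126_3 q126 =>
  mulK c64 a64_1 a64_2 a64_3 q64 c126 a126_1 a126_2 a126_3 q126 fun c127 a127_1 a127_2 a127_3 q127 =>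
  addK c118 a118_1 a118_2 a118_3 q118 c127 a127_1 a127_2 a127_3 q127 fun c128 a128_1 a128_2 a128_3 q128 =>
  mulK c64 a64_1 a64_2 a64_3 q64 c128 a128_1 a128_2 a128_3 q128 fun c129 a129_1 a129_2 a129_3 q129 =>
  addK c106 a106_1 a106_2 a106_3 q106 c129 a129_1 a129_2 a129_3 q129 fun c130 a130_1 a130_2 a130_3 q130 =>
  mulK z2 1152921504606846976 (Nat.add w2 1152921504606846976) 1152921504606846976 0 c130 a130_1 a130_2 a130_3 q130 fun c132 a132_1 a132_2 a132_3 q132 =>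
  smulK 2 1 1152921504606846977 2305843009213693952 c132 a132_1 a132_2 a132_3 q132 fun c133 a133_1 a133_2 a133_3 q133 =>
  subK c89 a89_1 a89_2 a89_3 q89 c133 a133_1 a133_2 a133_3 q133 fun c134 a134_1 a134_2 a134_3 q134 =>
  mulK c20 a20_1 a20_2 a20_3 q20 c134 a134_1 a134_2 a134_3 q134 fun c136 a136_1 a136_2 a136_3 q136 =>
  negK c2 a2_1 a2_2 a2_3 q2 fun c137 a137_1 a137_2 a137_3 q137 =>
  addcK c137 a137_1 a137_2 a137_3 q137 1152922604118474752 0 fun c138 a138_1 a138_2 a138_3 q138 =>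
  mulK c138 a138_1 a138_2 a138_3 q138 c15 a15_1 a15_2 a15_3 q15 fun c140 a140_1 a140_2 a140_3 q140 =>
  addcK c2 a2_1 a2_2 a2_3 q2 1152922604118474752 0 fun c141 a141_1 a141_2 a141_3 q141 =>
  smulK 93 100 115292150460684697700 107221699928436768768 c2 a2_1 a2_2 a2_3 q2 fun c143 a143_1 a143_2 a143_3 q143 =>
  addcK c143 a143_1 a143_2 a143_3 q143 1152921317689870254 1 fun c144 a144_1 a144_2 a144_3 q144 =>
  smulK 3 25 28823037615171174425 3458764513820540928 c2 a2_1 a2_2 a2_3 q2 fun c146 a146_1 a146_2 a146_3 q146 =>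
  addcK c146 a146_1 a146_2 a146_3 q146 1152921614558009754 1 fun c147 a147_1 a147_2 a147_3 q147 =>
  mulK z3 1152921504606846976 1152921504606846976 (Nat.add w3 1152921504606846976) 0 c147 a147_1 a147_2 a147_3 q147 fun c149 a149_1 a149_2 a149_3 q149 =>
  addK c144 a144_1 a144_2 a144_3 q144 c149 a149_1 a149_2 a149_3 q149 fun c150 a150_1 a150_2 a150_3 q150 =>
  mulK z3 1152921504606846976 1152921504606846976 (Nat.add w3 1152921504606846976) 0 c150 a150_1 a150_2 a150_3 q150 fun c151 a151_1 a151_2 a151_3 q151 =>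
  subK c141 a141_1 a141_2 a141_3 q141 c151 a151_1 a151_2 a151_3 q151 fun c152 a152_1 a152_2 a152_3 q152 =>
  mulK c140 a140_1 a140_2 a140_3 q140 c152 a152_1 a152_2 a152_3 q152 fun c154 a154_1 a154_2 a154_3 q154 =>
  addK c89 a89_1 a89_2 a89_3 q89 c133 a133_1 a133_2 a133_3 q133 fun c156 a156_1 a156_2 a156_3 q156 =>
  mulK c154 a154_1 a154_2 a154_3 q154 c156 a156_1 a156_2 a156_3 q156 fun c158 a158_1 a158_2 a158_3 q158 =>
  addK c136 a136_1 a136_2 a136_3 q136 c158 a158_1 a158_2 a158_3 q158 fun c159 a159_1 a159_2 a159_3 q159 =>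
  smulK 2 1 1152921504606846977 2305843009213693952 c2 a2_1 a2_2 a2_3 q2 fun c160 a160_1 a160_2 a160_3 q160 =>
  smulK 1 250 288230376151711744250 1152921504606846976 c138 a138_1 a138_2 a138_3 q138 fun c161 a161_1 a161_2 a161_3 q161 =>
  subK c160 a160_1 a160_2 a160_3 q160 c161 a161_1 a161_2 a161_3 q161 fun c162 a162_1 a162_2 a162_3 q162 =>
  mulK c162 a162_1 a162_2 a162_3 q162 c15 a15_1 a15_2 a15_3 q15 fun c163 a163_1 a163_2 a163_3 q163 =>
  mulK z2 1152921504606846976 (Nat.add w2 1152921504606846976) 1152921504606846976 0 c163 a163_1 a163_2 a163_3 q163 fun c165 a165_1 a165_2 a165_3 q165 =>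
  smulK 2 1 1152921504606846977 2305843009213693952 c165 a165_1 a165_2 a165_3 q165 fun c166 a166_1 a166_2 a166_3 q166 =>
  addK c159 a159_1 a159_2 a159_3 q159 c166 a166_1 a166_2 a166_3 q166 fun c167 a167_1 a167_2 a167_3 q167 =>
  smulK 2 1 1152921504606846977 2305843009213693952 c42 a42_1 a42_2 a42_3 q42 fun c168 a168_1 a168_2 a168_3 q168 =>
  subK c167 a167_1 a167_2 a167_3 q167 c168 a168_1 a168_2 a168_3 q168 fun c169 a169_1 a169_2 a169_3 q169 =>
  posK c169 a169_1 a169_2 a169_3 q169 <|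
  smulK 9 20 23058430092136939540 10376293541461622784 p2 1152921504606846976 1152921504606846976 1152921504606846976 0 fun c171 a171_1 a171_2 a171_3 q171 =>
  addcK c171 a171_1 a171_2 a171_3 q171 1152922109338242253 1 fun c172 a172_1 a172_2 a172_3 q172 =>
  smulK 21 50 57646075230342348850 24211351596743786496 c172 a172_1 a172_2 a172_3 q172 fun c175 a175_1 a175_2 a175_3 q175 =>
  negK c175 a175_1 a175_2 a175_3 q175 fun c176 a176_1 a176_2 a176_3 q176 =>
  addcK c176 a176_1 a176_2 a176_3 q176 1152922164313823642 1 fun c177 a177_1 a177_2 a177_3 q177 =>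
  mulK c172 a172_1 a172_2 a172_3 q172 c177 a177_1 a177_2 a177_3 q177 fun c179 a179_1 a179_2 a179_3 q179 =>
  addcK c179 a179_1 a179_2 a179_3 q179 1152921449631265587 1 fun c180 a180_1 a180_2 a180_3 q180 =>
  sqK c172 a172_1 a172_2 a172_3 q172 fun c182 a182_1 a182_2 a182_3 q182 =>
  addcK c182 a182_1 a182_2 a182_3 q182 1152922604118474752 0 fun c183 a183_1 a183_2 a183_3 q183 =>
  invK c183 a183_1 a183_2 a183_3 q183 fun c185 a185_1 a185_2 a185_3 q185 =>
  mulK c180 a180_1 a180_2 a180_3 q180 c185 a185_1 a185_2 a185_3 q185 fun c188 a188_1 a188_2 a188_3 q188 =>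
  mulK z3 1152921504606846976 1152921504606846976 (Nat.add w3 1152921504606846976) 0 c188 a188_1 a188_2 a188_3 q188 fun c189 a189_1 a189_2 a189_3 q189 =>
  addcK c189 a189_1 a189_2 a189_3 q189 1152922604118474752 0 fun c190 a190_1 a190_2 a190_3 q190 =>
  addcK c28 a28_1 a28_2 a28_3 q28 1152926788859730067 1 fun c193 a193_1 a193_2 a193_3 q193 =>
  mulK c193 a193_1 a193_2 a193_3 q193 c24 a24_1 a24_2 a24_3 q24 fun c194 a194_1 a194_2 a194_3 q194 =>
  addcK c194 a194_1 a194_2 a194_3 q194 1152911935832028348 1 fun c195 a195_1 a195_2 a195_3 q195 =>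
  mulK c195 a195_1 a195_2 a195_3 q195 c24 a24_1 a24_2 a24_3 q24 fun c196 a196_1 a196_2 a196_3 q196 =>
  addcK c196 a196_1 a196_2 a196_3 q196 1152929145662904205 1 fun c197 a197_1 a197_2 a197_3 q197 =>
  mulK c197 a197_1 a197_2 a197_3 q197 c24 a24_1 a24_2 a24_3 q24 fun c198 a198_1 a198_2 a198_3 q198 =>
  addcK c198 a198_1 a198_2 a198_3 q198 1152918891548744090 1 fun c199 a199_1 a199_2 a199_3 q199 =>
  mulK c199 a199_1 a199_2 a199_3 q199 c24 a24_1 a24_2 a24_3 q24 fun c200 a200_1 a200_2 a200_3 q200 =>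
  addcK c200 a200_1 a200_2 a200_3 q200 1152922602056890450 1 fun c201 a201_1 a201_2 a201_3 q201 =>
  mulK c201 a201_1 a201_2 a201_3 q201 c24 a24_1 a24_2 a24_3 q24 fun c202 a202_1 a202_2 a202_3 q202 =>
  addcK c202 a202_1 a202_2 a202_3 q202 1152919509525818507 1 fun c203 a203_1 a203_2 a203_3 q203 =>
  mulK c203 a203_1 a203_2 a203_3 q203 c24 a24_1 a24_2 a24_3 q24 fun c204 a204_1 a204_2 a204_3 q204 =>
  addcK c204 a204_1 a204_2 a204_3 q204 1152923178097904189 1 fun c205 a205_1 a205_2 a205_3 q205 =>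
  addcK c49 a49_1 a49_2 a49_3 q49 1152971291867742208 0 fun c207 a207_1 a207_2 a207_3 q207 =>
  mulK c207 a207_1 a207_2 a207_3 q207 c24 a24_1 a24_2 a24_3 q24 fun c208 a208_1 a208_2 a208_3 q208 =>
  addcK c208 a208_1 a208_2 a208_3 q208 1152869554744018862 1 fun c209 a209_1 a209_2 a209_3 q209 =>
  mulK c209 a209_1 a209_2 a209_3 q209 c24 a24_1 a24_2 a24_3 q24 fun c210 a210_1 a210_2 a210_3 q210 =>
  addcK c210 a210_1 a210_2 a210_3 q210 1152935787950086554 1 fun c211 a211_1 a211_2 a211_3 q211 =>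
  mulK c211 a211_1 a211_2 a211_3 q211 c24 a24_1 a24_2 a24_3 q24 fun c212 a212_1 a212_2 a212_3 q212 =>
  addcK c212 a212_1 a212_2 a212_3 q212 1152925127016624161 1 fun c213 a213_1 a213_2 a213_3 q213 =>
  mulK c213 a213_1 a213_2 a213_3 q213 c24 a24_1 a24_2 a24_3 q24 fun c214 a214_1 a214_2 a214_3 q214 =>
  addcK c214 a214_1 a214_2 a214_3 q214 1152921190988335022 1 fun c215 a215_1 a215_2 a215_3 q215 =>
  mulK c215 a215_1 a215_2 a215_3 q215 c24 a24_1 a24_2 a24_3 q24 fun c216 a216_1 a216_2 a216_3 q216 =>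
  addcK c216 a216_1 a216_2 a216_3 q216 1152920781428843610 1 fun c217 a217_1 a217_2 a217_3 q217 =>
  addcK c67 a67_1 a67_2 a67_3 q67 1153004483375005696 0 fun c218 a218_1 a218_2 a218_3 q218 =>
  mulK c218 a218_1 a218_2 a218_3 q218 c24 a24_1 a24_2 a24_3 q24 fun c219 a219_1 a219_2 a219_3 q219 =>
  addcK c219 a219_1 a219_2 a219_3 q219 1152869554744018862 1 fun c220 a220_1 a220_2 a220_3 q220 =>
  mulK c220 a220_1 a220_2 a220_3 q220 c24 a24_1 a24_2 a24_3 q24 fun c221 a221_1 a221_2 a221_3 q221 =>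
  addcK c221 a221_1 a221_2 a221_3 q221 1152928646278466765 1 fun c222 a222_1 a222_2 a222_3 q222 =>
  mulK c222 a222_1 a222_2 a222_3 q222 c24 a24_1 a24_2 a24_3 q24 fun c223 a223_1 a223_2 a223_3 q223 =>
  addcK c223 a223_1 a223_2 a223_3 q223 1152922108341809840 1 fun c224 a224_1 a224_2 a224_3 q224 =>
  addcK c49 a49_1 a49_2 a49_3 q49 1152938100360478720 0 fun c225 a225_1 a225_2 a225_3 q225 =>
  mulK c225 a225_1 a225_2 a225_3 q225 c24 a24_1 a24_2 a24_3 q24 fun c226 a226_1 a226_2 a226_3 q226 =>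
  addcK c226 a226_1 a226_2 a226_3 q226 1152918041282658435 1 fun c227 a227_1 a227_2 a227_3 q227 =>
  addK c227 a227_1 a227_2 a227_3 q227 c80 a80_1 a80_2 a80_3 q80 fun c228 a228_1 a228_2 a228_3 q228 =>
  mulK c64 a64_1 a64_2 a64_3 q64 c228 a228_1 a228_2 a228_3 q228 fun c229 a229_1 a229_2 a229_3 q229 =>
  addK c224 a224_1 a224_2 a224_3 q224 c229 a229_1 a229_2 a229_3 q229 fun c230 a230_1 a230_2 a230_3 q230 =>
  mulK c64 a64_1 a64_2 a64_3 q64 c230 a230_1 a230_2 a230_3 q230 fun c231 a231_1 a231_2 a231_3 q231 =>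
  addK c217 a217_1 a217_2 a217_3 q217 c231 a231_1 a231_2 a231_3 q231 fun c232 a232_1 a232_2 a232_3 q232 =>
  mulK c46 a46_1 a46_2 a46_3 q46 c232 a232_1 a232_2 a232_3 q232 fun c234 a234_1 a234_2 a234_3 q234 =>
  addK c205 a205_1 a205_2 a205_3 q205 c234 a234_1 a234_2 a234_3 q234 fun c235 a235_1 a235_2 a235_3 q235 =>
  addcK c92 a92_1 a92_2 a92_3 q92 1152938100360478720 0 fun c237 a237_1 a237_2 a237_3 q237 =>
  mulK c237 a237_1 a237_2 a237_3 q237 c24 a24_1 a24_2 a24_3 q24 fun c238 a238_1 a238_2 a238_3 q238 =>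
  addcK c238 a238_1 a238_2 a238_3 q238 1152900724661715730 1 fun c239 a239_1 a239_2 a239_3 q239 =>
  mulK c239 a239_1 a239_2 a239_3 q239 c24 a24_1 a24_2 a24_3 q24 fun c240 a240_1 a240_2 a240_3 q240 =>
  addcK c240 a240_1 a240_2 a240_3 q240 1152928646278466765 1 fun c241 a241_1 a241_2 a241_3 q241 =>
  mulK c241 a241_1 a241_2 a241_3 q241 c24 a24_1 a24_2 a24_3 q24 fun c242 a242_1 a242_2 a242_3 q242 =>
  addcK c242 a242_1 a242_2 a242_3 q242 1152923919546698433 1 fun c243 a243_1 a243_2 a243_3 q243 =>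
  mulK c243 a243_1 a243_2 a243_3 q243 c24 a24_1 a24_2 a24_3 q24 fun c244 a244_1 a244_2 a244_3 q244 =>
  addcK c244 a244_1 a244_2 a244_3 q244 1152921190988335022 1 fun c245 a245_1 a245_2 a245_3 q245 =>
  mulK c245 a245_1 a245_2 a245_3 q245 c24 a24_1 a24_2 a24_3 q24 fun c246 a246_1 a246_2 a246_3 q246 =>
  addcK c246 a246_1 a246_2 a246_3 q246 1152920058250840244 1 fun c247 a247_1 a247_2 a247_3 q247 =>
  mulK c247 a247_1 a247_2 a247_3 q247 c24 a24_1 a24_2 a24_3 q24 fun c248 a248_1 a248_2 a248_3 q248 =>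
  addcK c248 a248_1 a248_2 a248_3 q248 1152921842582118466 1 fun c249 a249_1 a249_2 a249_3 q249 =>
  addcK c108 a108_1 a108_2 a108_3 q108 1153004483375005696 0 fun c250 a250_1 a250_2 a250_3 q250 =>
  mulK c250 a250_1 a250_2 a250_3 q250 c24 a24_1 a24_2 a24_3 q24 fun c251 a251_1 a251_2 a251_3 q251 =>
  addcK c251 a251_1 a251_2 a251_3 q251 1152852238123076157 1 fun c252 a252_1 a252_2 a252_3 q252 =>
  mulK c252 a252_1 a252_2 a252_3 q252 c24 a24_1 a24_2 a24_3 q24 fun c253 a253_1 a253_2 a253_3 q253 =>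
  addcK c253 a253_1 a253_2 a253_3 q253 1152935787950086554 1 fun c254 a254_1 a254_2 a254_3 q254 =>
  mulK c254 a254_1 a254_2 a254_3 q254 c24 a24_1 a24_2 a24_3 q24 fun c255 a255_1 a255_2 a255_3 q255 =>
  addcK c255 a255_1 a255_2 a255_3 q255 1152923919546698433 1 fun c256 a256_1 a256_2 a256_3 q256 =>
  mulK c256 a256_1 a256_2 a256_3 q256 c24 a24_1 a24_2 a24_3 q24 fun c257 a257_1 a257_2 a257_3 q257 =>
  addcK c257 a257_1 a257_2 a257_3 q257 1152921400067342991 1 fun c258 a258_1 a258_2 a258_3 q258 =>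
  addcK c108 a108_1 a108_2 a108_3 q108 1152971291867742208 0 fun c259 a259_1 a259_2 a259_3 q259 =>
  mulK c259 a259_1 a259_2 a259_3 q259 c24 a24_1 a24_2 a24_3 q24 fun c260 a260_1 a260_2 a260_3 q260 =>
  addcK c260 a260_1 a260_2 a260_3 q260 1152900724661715730 1 fun c261 a261_1 a261_2 a261_3 q261 =>
  mulK c261 a261_1 a261_2 a261_3 q261 c24 a24_1 a24_2 a24_3 q24 fun c262 a262_1 a262_2 a262_3 q262 =>
  addcK c262 a262_1 a262_2 a262_3 q262 1152922932941170934 1 fun c263 a263_1 a263_2 a263_3 q263 =>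
  addcK c92 a92_1 a92_2 a92_3 q92 1152923875428794368 0 fun c264 a264_1 a264_2 a264_3 q264 =>
  mulK c64 a64_1 a64_2 a64_3 q64 c264 a264_1 a264_2 a264_3 q264 fun c265 a265_1 a265_2 a265_3 q265 =>
  addK c263 a263_1 a263_2 a263_3 q263 c265 a265_1 a265_2 a265_3 q265 fun c266 a266_1 a266_2 a266_3 q266 =>
  mulK c64 a64_1 a64_2 a64_3 q64 c266 a266_1 a266_2 a266_3 q266 fun c267 a267_1 a267_2 a267_3 q267 =>
  addK c258 a258_1 a258_2 a258_3 q258 c267 a267_1 a267_2 a267_3 q267 fun c268 a268_1 a268_2 a268_3 q268 =>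
  mulK c64 a64_1 a64_2 a64_3 q64 c268 a268_1 a268_2 a268_3 q268 fun c269 a269_1 a269_2 a269_3 q269 =>
  addK c249 a249_1 a249_2 a249_3 q249 c269 a269_1 a269_2 a269_3 q269 fun c270 a270_1 a270_2 a270_3 q270 =>
  mulK z2 1152921504606846976 (Nat.add w2 1152921504606846976) 1152921504606846976 0 c270 a270_1 a270_2 a270_3 q270 fun c272 a272_1 a272_2 a272_3 q272 =>
  smulK 2 1 1152921504606846977 2305843009213693952 c272 a272_1 a272_2 a272_3 q272 fun c273 a273_1 a273_2 a273_3 q273 =>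
  addK c235 a235_1 a235_2 a235_3 q235 c273 a273_1 a273_2 a273_3 q273 fun c274 a274_1 a274_2 a274_3 q274 =>
  mulK c190 a190_1 a190_2 a190_3 q190 c274 a274_1 a274_2 a274_3 q274 fun c276 a276_1 a276_2 a276_3 q276 =>
  negK c172 a172_1 a172_2 a172_3 q172 fun c277 a277_1 a277_2 a277_3 q277 =>
  addcK c277 a277_1 a277_2 a277_3 q277 1152922604118474752 0 fun c278 a278_1 a278_2 a278_3 q278 =>
  mulK c278 a278_1 a278_2 a278_3 q278 c185 a185_1 a185_2 a185_3 q185 fun c280 a280_1 a280_2 a280_3 q280 =>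
  addcK c172 a172_1 a172_2 a172_3 q172 1152922604118474752 0 fun c281 a281_1 a281_2 a281_3 q281 =>
  smulK 93 100 115292150460684697700 107221699928436768768 c172 a172_1 a172_2 a172_3 q172 fun c283 a283_1 a283_2 a283_3 q283 =>
  addcK c283 a283_1 a283_2 a283_3 q283 1152921317689870254 1 fun c284 a284_1 a284_2 a284_3 q284 =>
  smulK 3 25 28823037615171174425 3458764513820540928 c172 a172_1 a172_2 a172_3 q172 fun c286 a286_1 a286_2 a286_3 q286 =>
  addcK c286 a286_1 a286_2 a286_3 q286 1152921614558009754 1 fun c287 a287_1 a287_2 a287_3 q287 =>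
  mulK z3 1152921504606846976 1152921504606846976 (Nat.add w3 1152921504606846976) 0 c287 a287_1 a287_2 a287_3 q287 fun c289 a289_1 a289_2 a289_3 q289 =>
  addK c284 a284_1 a284_2 a284_3 q284 c289 a289_1 a289_2 a289_3 q289 fun c290 a290_1 a290_2 a290_3 q290 =>
  mulK z3 1152921504606846976 1152921504606846976 (Nat.add w3 1152921504606846976) 0 c290 a290_1 a290_2 a290_3 q290 fun c291 a291_1 a291_2 a291_3 q291 =>
  subK c281 a281_1 a281_2 a281_3 q281 c291 a291_1 a291_2 a291_3 q291 fun c292 a292_1 a292_2 a292_3 q292 =>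
  mulK c280 a280_1 a280_2 a280_3 q280 c292 a292_1 a292_2 a292_3 q292 fun c294 a294_1 a294_2 a294_3 q294 =>
  subK c235 a235_1 a235_2 a235_3 q235 c273 a273_1 a273_2 a273_3 q273 fun c296 a296_1 a296_2 a296_3 q296 =>
  mulK c294 a294_1 a294_2 a294_3 q294 c296 a296_1 a296_2 a296_3 q296 fun c298 a298_1 a298_2 a298_3 q298 =>
  addK c276 a276_1 a276_2 a276_3 q276 c298 a298_1 a298_2 a298_3 q298 fun c299 a299_1 a299_2 a299_3 q299 =>
  smulK 2 1 1152921504606846977 2305843009213693952 c172 a172_1 a172_2 a172_3 q172 fun c300 a300_1 a300_2 a300_3 q300 =>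
  smulK 1 250 288230376151711744250 1152921504606846976 c278 a278_1 a278_2 a278_3 q278 fun c301 a301_1 a301_2 a301_3 q301 =>
  subK c300 a300_1 a300_2 a300_3 q300 c301 a301_1 a301_2 a301_3 q301 fun c302 a302_1 a302_2 a302_3 q302 =>
  mulK c302 a302_1 a302_2 a302_3 q302 c185 a185_1 a185_2 a185_3 q185 fun c303 a303_1 a303_2 a303_3 q303 =>
  mulK z2 1152921504606846976 (Nat.add w2 1152921504606846976) 1152921504606846976 0 c303 a303_1 a303_2 a303_3 q303 fun c305 a305_1 a305_2 a305_3 q305 =>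
  smulK 2 1 1152921504606846977 2305843009213693952 c305 a305_1 a305_2 a305_3 q305 fun c306 a306_1 a306_2 a306_3 q306 =>
  addK c299 a299_1 a299_2 a299_3 q299 c306 a306_1 a306_2 a306_3 q306 fun c307 a307_1 a307_2 a307_3 q307 =>
  smulK 2 1 1152921504606846977 2305843009213693952 c205 a205_1 a205_2 a205_3 q205 fun c308 a308_1 a308_2 a308_3 q308 =>
  subK c307 a307_1 a307_2 a307_3 q307 c308 a308_1 a308_2 a308_3 q308 fun c309 a309_1 a309_2 a309_3 q309 =>
  posK c309 a309_1 a309_2 a309_3 q309 <|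
  mulK c169 a169_1 a169_2 a169_3 q169 c309 a309_1 a309_2 a309_3 q309 fun c311 a311_1 a311_2 a311_3 q311 =>
  mulK c20 a20_1 a20_2 a20_3 q20 c294 a294_1 a294_2 a294_3 q294 fun c312 a312_1 a312_2 a312_3 q312 =>
  sqrtK c312 a312_1 a312_2 a312_3 q312 fun c313 a313_1 a313_2 a313_3 q313 =>
  smulK 238 125 144115188075855872125 274395318096429580288 c24 a24_1 a24_2 a24_3 q24 fun c314 a314_1 a314_2 a314_3 q314 =>
  addcK c314 a314_1 a314_2 a314_3 q314 1152911037256150548 1 fun c315 a315_1 a315_2 a315_3 q315 =>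
  mulK c315 a315_1 a315_2 a315_3 q315 c24 a24_1 a24_2 a24_3 q24 fun c316 a316_1 a316_2 a316_3 q316 =>
  addcK c316 a316_1 a316_2 a316_3 q316 1152941418961449255 1 fun c317 a317_1 a317_2 a317_3 q317 =>
  mulK c317 a317_1 a317_2 a317_3 q317 c24 a24_1 a24_2 a24_3 q24 fun c318 a318_1 a318_2 a318_3 q318 =>
  addcK c318 a318_1 a318_2 a318_3 q318 1152903604557546783 1 fun c319 a319_1 a319_2 a319_3 q319 =>
  mulK c319 a319_1 a319_2 a319_3 q319 c24 a24_1 a24_2 a24_3 q24 fun c320 a320_1 a320_2 a320_3 q320 =>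
  addcK c320 a320_1 a320_2 a320_3 q320 1152929554131473924 1 fun c321 a321_1 a321_2 a321_3 q321 =>
  mulK c321 a321_1 a321_2 a321_3 q321 c24 a24_1 a24_2 a24_3 q24 fun c322 a322_1 a322_2 a322_3 q322 =>
  addcK c322 a322_1 a322_2 a322_3 q322 1152918908659893797 1 fun c323 a323_1 a323_2 a323_3 q323 =>
  mulK c323 a323_1 a323_2 a323_3 q323 c24 a24_1 a24_2 a24_3 q24 fun c324 a324_1 a324_2 a324_3 q324 =>
  addcK c324 a324_1 a324_2 a324_3 q324 1152922523854125924 1 fun c325 a325_1 a325_2 a325_3 q325 =>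
  smulK 1666 125 144115188075855872125 1920767226675007062016 c24 a24_1 a24_2 a24_3 q24 fun c327 a327_1 a327_2 a327_3 q327 =>
  addcK c327 a327_1 a327_2 a327_3 q327 1152877541733921980 1 fun c328 a328_1 a328_2 a328_3 q328 =>
  mulK c328 a328_1 a328_2 a328_3 q328 c24 a24_1 a24_2 a24_3 q24 fun c329 a329_1 a329_2 a329_3 q329 =>
  addcK c329 a329_1 a329_2 a329_3 q329 1152958893499749499 1 fun c330 a330_1 a330_2 a330_3 q330 =>
  mulK c330 a330_1 a330_2 a330_3 q330 c24 a24_1 a24_2 a24_3 q24 fun c331 a331_1 a331_2 a331_3 q331 =>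
  addcK c331 a331_1 a331_2 a331_3 q331 1152919998275916923 1 fun c332 a332_1 a332_2 a332_3 q332 =>
  mulK c332 a332_1 a332_2 a332_3 q332 c24 a24_1 a24_2 a24_3 q24 fun c333 a333_1 a333_2 a333_3 q333 =>
  addcK c333 a333_1 a333_2 a333_3 q333 1152914196702812963 1 fun c334 a334_1 a334_2 a334_3 q334 =>
  mulK c334 a334_1 a334_2 a334_3 q334 c24 a24_1 a24_2 a24_3 q24 fun c335 a335_1 a335_2 a335_3 q335 =>
  addcK c335 a335_1 a335_2 a335_3 q335 1152922238530858516 1 fun c336 a336_1 a336_2 a336_3 q336 =>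
  mulK c336 a336_1 a336_2 a336_3 q336 c24 a24_1 a24_2 a24_3 q24 fun c337 a337_1 a337_2 a337_3 q337 =>
  addcK c337 a337_1 a337_2 a337_3 q337 1152921613527217603 1 fun c338 a338_1 a338_2 a338_3 q338 =>
  smulK 833 25 28823037615171174425 960383613337503531008 c24 a24_1 a24_2 a24_3 q24 fun c339 a339_1 a339_2 a339_3 q339 =>
  addcK c339 a339_1 a339_2 a339_3 q339 1152848233151971983 1 fun c340 a340_1 a340_2 a340_3 q340 =>
  mulK c340 a340_1 a340_2 a340_3 q340 c24 a24_1 a24_2 a24_3 q24 fun c341 a341_1 a341_2 a341_3 q341 =>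
  addcK c341 a341_1 a341_2 a341_3 q341 1152958893499749499 1 fun c342 a342_1 a342_2 a342_3 q342 =>
  mulK c342 a342_1 a342_2 a342_3 q342 c24 a24_1 a24_2 a24_3 q24 fun c343 a343_1 a343_2 a343_3 q343 =>
  addcK c343 a343_1 a343_2 a343_3 q343 1152920751441381949 1 fun c344 a344_1 a344_2 a344_3 q344 =>
  mulK c344 a344_1 a344_2 a344_3 q344 c24 a24_1 a24_2 a24_3 q24 fun c345 a345_1 a345_2 a345_3 q345 =>
  addcK c345 a345_1 a345_2 a345_3 q345 1152920286622841307 1 fun c346 a346_1 a346_2 a346_3 q346 =>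
  addcK c327 a327_1 a327_2 a327_3 q327 1152906850315871977 1 fun c347 a347_1 a347_2 a347_3 q347 =>
  mulK c347 a347_1 a347_2 a347_3 q347 c24 a24_1 a24_2 a24_3 q24 fun c348 a348_1 a348_2 a348_3 q348 =>
  addcK c348 a348_1 a348_2 a348_3 q348 1152923997199707144 1 fun c349 a349_1 a349_2 a349_3 q349 =>
  smulK 119 250 288230376151711744250 137197659048214790144 c64 a64_1 a64_2 a64_3 q64 fun c350 a350_1 a350_2 a350_3 q350 =>
  addK c349 a349_1 a349_2 a349_3 q349 c350 a350_1 a350_2 a350_3 q350 fun c351 a351_1 a351_2 a351_3 q351 =>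
  mulK c64 a64_1 a64_2 a64_3 q64 c351 a351_1 a351_2 a351_3 q351 fun c352 a352_1 a352_2 a352_3 q352 =>
  addK c346 a346_1 a346_2 a346_3 q346 c352 a352_1 a352_2 a352_3 q352 fun c353 a353_1 a353_2 a353_3 q353 =>
  mulK c64 a64_1 a64_2 a64_3 q64 c353 a353_1 a353_2 a353_3 q353 fun c354 a354_1 a354_2 a354_3 q354 =>
  addK c338 a338_1 a338_2 a338_3 q338 c354 a354_1 a354_2 a354_3 q354 fun c355 a355_1 a355_2 a355_3 q355 =>
  mulK c44 a44_1 a44_2 a44_3 q44 c355 a355_1 a355_2 a355_3 q355 fun c357 a357_1 a357_2 a357_3 q357 =>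
  smulK 4 1 1152921504606846977 4611686018427387904 c357 a357_1 a357_2 a357_3 q357 fun c358 a358_1 a358_2 a358_3 q358 =>
  addK c325 a325_1 a325_2 a325_3 q325 c358 a358_1 a358_2 a358_3 q358 fun c359 a359_1 a359_2 a359_3 q359 =>
  smulK 952 125 144115188075855872125 1097581272385718321152 c24 a24_1 a24_2 a24_3 q24 fun c361 a361_1 a361_2 a361_3 q361 =>
  addcK c361 a361_1 a361_2 a361_3 q361 1152888009084618408 1 fun c362 a362_1 a362_2 a362_3 q362 =>
  mulK c362 a362_1 a362_2 a362_3 q362 c24 a24_1 a24_2 a24_3 q24 fun c363 a363_1 a363_2 a363_3 q363 =>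
  addcK c363 a363_1 a363_2 a363_3 q363 1152968163482283278 1 fun c364 a364_1 a364_2 a364_3 q364 =>
  mulK c364 a364_1 a364_2 a364_3 q364 c24 a24_1 a24_2 a24_3 q24 fun c365 a365_1 a365_2 a365_3 q365 =>
  addcK c365 a365_1 a365_2 a365_3 q365 1152896668838198772 1 fun c366 a366_1 a366_2 a366_3 q366 =>
  mulK c366 a366_1 a366_2 a366_3 q366 c24 a24_1 a24_2 a24_3 q24 fun c367 a367_1 a367_2 a367_3 q367 =>
  addcK c367 a367_1 a367_2 a367_3 q367 1152924178619125727 1 fun c368 a368_1 a368_2 a368_3 q368 =>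
  mulK c368 a368_1 a368_2 a368_3 q368 c24 a24_1 a24_2 a24_3 q24 fun c369 a369_1 a369_2 a369_3 q369 =>
  addcK c369 a369_1 a369_2 a369_3 q369 1152921635448730681 1 fun c370 a370_1 a370_2 a370_3 q370 =>
  mulK c370 a370_1 a370_2 a370_3 q370 c24 a24_1 a24_2 a24_3 q24 fun c371 a371_1 a371_2 a371_3 q371 =>
  addcK c371 a371_1 a371_2 a371_3 q371 1152921874867387630 1 fun c372 a372_1 a372_2 a372_3 q372 =>
  smulK 3332 125 144115188075855872125 3841534453350014124032 c24 a24_1 a24_2 a24_3 q24 fun c373 a373_1 a373_2 a373_3 q373 =>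
  addcK c373 a373_1 a373_2 a373_3 q373 1152848233151971983 1 fun c374 a374_1 a374_2 a374_3 q374 =>
  mulK c374 a374_1 a374_2 a374_3 q374 c24 a24_1 a24_2 a24_3 q24 fun c375 a375_1 a375_2 a375_3 q375 =>
  addcK c375 a375_1 a375_2 a375_3 q375 1152971356464050340 1 fun c376 a376_1 a376_2 a376_3 q376 =>
  mulK c376 a376_1 a376_2 a376_3 q376 c24 a24_1 a24_2 a24_3 q24 fun c377 a377_1 a377_2 a377_3 q377 =>
  addcK c377 a377_1 a377_2 a377_3 q377 1152919998275916923 1 fun c378 a378_1 a378_2 a378_3 q378 =>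
  mulK c378 a378_1 a378_2 a378_3 q378 c24 a24_1 a24_2 a24_3 q24 fun c379 a379_1 a379_2 a379_3 q379 =>
  addcK c379 a379_1 a379_2 a379_3 q379 1152916632670824301 1 fun c380 a380_1 a380_2 a380_3 q380 =>
  mulK c380 a380_1 a380_2 a380_3 q380 c24 a24_1 a24_2 a24_3 q24 fun c381 a381_1 a381_2 a381_3 q381 =>
  addcK c381 a381_1 a381_2 a381_3 q381 1152921749248184156 1 fun c382 a382_1 a382_2 a382_3 q382 =>
  addcK c373 a373_1 a373_2 a373_3 q373 1152877541733921980 1 fun c383 a383_1 a383_2 a383_3 q383 =>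
  mulK c383 a383_1 a383_2 a383_3 q383 c24 a24_1 a24_2 a24_3 q24 fun c384 a384_1 a384_2 a384_3 q384 =>
  addcK c384 a384_1 a384_2 a384_3 q384 1152936460164007985 1 fun c385 a385_1 a385_2 a385_3 q385 =>
  mulK c385 a385_1 a385_2 a385_3 q385 c24 a24_1 a24_2 a24_3 q24 fun c386 a386_1 a386_2 a386_3 q386 =>
  addcK c386 a386_1 a386_2 a386_3 q386 1152921353973753971 1 fun c387 a387_1 a387_2 a387_3 q387 =>
  smulK 476 125 144115188075855872125 548790636192859160576 c24 a24_1 a24_2 a24_3 q24 fun c388 a388_1 a388_2 a388_3 q388 =>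
  addcK c388 a388_1 a388_2 a388_3 q388 1152919411136707690 1 fun c389 a389_1 a389_2 a389_3 q389 =>
  mulK c64 a64_1 a64_2 a64_3 q64 c389 a389_1 a389_2 a389_3 q389 fun c390 a390_1 a390_2 a390_3 q390 =>
  addK c387 a387_1 a387_2 a387_3 q387 c390 a390_1 a390_2 a390_3 q390 fun c391 a391_1 a391_2 a391_3 q391 =>
  mulK c64 a64_1 a64_2 a64_3 q64 c391 a391_1 a391_2 a391_3 q391 fun c392 a392_1 a392_2 a392_3 q392 =>
  addK c382 a382_1 a382_2 a382_3 q382 c392 a392_1 a392_2 a392_3 q392 fun c393 a393_1 a393_2 a393_3 q393 =>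
  mulK c46 a46_1 a46_2 a46_3 q46 c393 a393_1 a393_2 a393_3 q393 fun c394 a394_1 a394_2 a394_3 q394 =>
  addK c372 a372_1 a372_2 a372_3 q372 c394 a394_1 a394_2 a394_3 q394 fun c395 a395_1 a395_2 a395_3 q395 =>
  mulK z2 1152921504606846976 (Nat.add w2 1152921504606846976) 1152921504606846976 0 c395 a395_1 a395_2 a395_3 q395 fun c397 a397_1 a397_2 a397_3 q397 =>
  smulK 2 1 1152921504606846977 2305843009213693952 c397 a397_1 a397_2 a397_3 q397 fun c398 a398_1 a398_2 a398_3 q398 =>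
  subK c359 a359_1 a359_2 a359_3 q359 c398 a398_1 a398_2 a398_3 q398 fun c399 a399_1 a399_2 a399_3 q399 =>
  mulK c313 a313_1 a313_2 a313_3 q313 c399 a399_1 a399_2 a399_3 q399 fun c401 a401_1 a401_2 a401_3 q401 =>
  mulK c154 a154_1 a154_2 a154_3 q154 c190 a190_1 a190_2 a190_3 q190 fun c402 a402_1 a402_2 a402_3 q402 =>
  sqrtK c402 a402_1 a402_2 a402_3 q402 fun c403 a403_1 a403_2 a403_3 q403 =>
  addK c359 a359_1 a359_2 a359_3 q359 c398 a398_1 a398_2 a398_3 q398 fun c404 a404_1 a404_2 a404_3 q404 =>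
  mulK c403 a403_1 a403_2 a403_3 q403 c404 a404_1 a404_2 a404_3 q404 fun c406 a406_1 a406_2 a406_3 q406 =>
  addK c401 a401_1 a401_2 a401_3 q401 c406 a406_1 a406_2 a406_3 q406 fun c407 a407_1 a407_2 a407_3 q407 =>
  smulK 2 1 1152921504606846977 2305843009213693952 c325 a325_1 a325_2 a325_3 q325 fun c408 a408_1 a408_2 a408_3 q408 =>
  subK c407 a407_1 a407_2 a407_3 q407 c408 a408_1 a408_2 a408_3 q408 fun c409 a409_1 a409_2 a409_3 q409 =>
  mulK z1 (Nat.add w1 1152921504606846976) 1152921504606846976 1152921504606846976 0 c409 a409_1 a409_2 a409_3 q409 fun c411 a411_1 a411_2 a411_3 q411 =>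
  negK c411 a411_1 a411_2 a411_3 q411 fun c412 a412_1 a412_2 a412_3 q412 =>
  reluK c412 a412_1 a412_2 a412_3 q412 fun c413 a413_1 a413_2 a413_3 q413 =>
  sqK c413 a413_1 a413_2 a413_3 q413 fun c414 a414_1 a414_2 a414_3 q414 =>
  subK c311 a311_1 a311_2 a311_3 q311 c414 a414_1 a414_2 a414_3 q414 fun c415 a415_1 a415_2 a415_3 q415 =>
  pos c415 a415_1 a415_2 a415_3 q415

theorem alt3_s {p1 p2 z1 w1 z2 w2 z3 w3 : ℕ} {e1 e2 e3 a f s p q : ℝ} (he : Ev e1 e2 e3)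
    (hp1 : In e1 e2 e3 p1 1152921504606846976 1152921504606846976 1152921504606846976 0 p)
    (hp2 : In e1 e2 e3 p2 1152921504606846976 1152921504606846976 1152921504606846976 0 q)
    (hx1 : In e1 e2 e3 z1 (Nat.add w1 1152921504606846976) 1152921504606846976 1152921504606846976 0 a)
    (hx2 : In e1 e2 e3 z2 1152921504606846976 (Nat.add w2 1152921504606846976) 1152921504606846976 0 f)
    (hx3 : In e1 e2 e3 z3 1152921504606846976 1152921504606846976 (Nat.add w3 1152921504606846976) 0 s)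
    (H0 : alt3 p1 p2 z1 w1 z2 w2 z3 w3 = true) : 0 < (PdD a f s p q) ∧ 0 < (QdD a f s p q) ∧ 0 < (((PdD a f s p q) * (QdD a f s p q)) - ((max (-(a * (ZdDD a f s p q))) (0:ℝ)) ^ 2)) := by
  unfold alt3 at H0
  refine smulK_s he (w := (9/20:ℝ)) (by norm_num) (by norm_num) (by norm_num) (by norm_num) hp1 (fun _ _ _ _ _ h1 H1 => ?_) H0
  refine addcK_s he h1 (v' := (11/20:ℝ)) (by norm_num [SS, BB, abs_le]) (fun _ _ _ _ _ h2 H2 => ?_) H1
  have h3 := In_cast h2 (add_comm _ _)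
  have h4 := In_cast (w := (tdp a f s p q)) h3 rfl
  refine smulK_s he (w := (21/50:ℝ)) (by norm_num) (by norm_num) (by norm_num) (by norm_num) h4 (fun _ _ _ _ _ h5 H3 => ?_) H2
  refine negK_s he h5 (fun _ _ _ _ _ h6 H4 => ?_) H3
  refine addcK_s he h6 (v' := (3/5:ℝ)) (by norm_num [SS, BB, abs_le]) (fun _ _ _ _ _ h7 H5 => ?_) H4
  have h8 := In_cast h7 (neg_add_eq_sub _ _)
  refine mulK_s he h4 h8 (fun _ _ _ _ _ h9 H6 => ?_) H5
  refine addcK_s he h9 (v' := (-1/20:ℝ)) (by norm_num [SS, BB, abs_le]) (fun _ _ _ _ _ h10 H7 => ?_) H6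
  have h11 := In_cast h10 (add_comm _ _)
  refine sqK_s he h4 (fun _ _ _ _ _ h12 H8 => ?_) H7
  refine addcK_s he h12 (v' := (1:ℝ)) (by norm_num [SS, BB, abs_le]) (fun _ _ _ _ _ h13 H9 => ?_) H8
  have h14 := In_cast h13 (add_comm _ _)
  refine invK_s he h14 (fun _ _ _ _ _ h15 H10 => ?_) H9
  have h16 := In_cast h15 (inv_eq_one_div _)
  have h17 := In_cast (w := (Dp a f s p q)) h16 rfl
  refine mulK_s he h11 h17 (fun _ _ _ _ _ h18 H11 => ?_) H10
  refine mulK_s he hx3 h18 (fun _ _ _ _ _ h19 H12 => ?_) H11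
  refine addcK_s he h19 (v' := (1:ℝ)) (by norm_num [SS, BB, abs_le]) (fun _ _ _ _ _ h20 H13 => ?_) H12
  have h21 := In_cast h20 (add_comm _ _)
  have h22 := In_cast (w := (K0Dp a f s p q)) h21 rfl
  refine smulK_s he (w := (2:ℝ)) (by norm_num) (by norm_num) (by norm_num) (by norm_num) hx1 (fun _ _ _ _ _ h23 H14 => ?_) H13
  refine addcK_s he h23 (v' := (-1/2:ℝ)) (by norm_num [SS, BB, abs_le]) (fun _ _ _ _ _ h24 H15 => ?_) H14
  have h25 := In_cast h24 (sub_c (c := (1/2:ℝ)) (by norm_num))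
  have h26 := In_cast (w := (x a f s p q)) h25 rfl
  refine smulK_s he (w := (987/1000:ℝ)) (by norm_num) (by norm_num) (by norm_num) (by norm_num) h26 (fun _ _ _ _ _ h27 H16 => ?_) H15
  refine negK_s he h27 (fun _ _ _ _ _ h28 H17 => ?_) H16
  have h29 := In_cast h28 (neg_mul_c (c := (-987/1000:ℝ)) (by norm_num))
  refine addcK_s he h29 (v' := (4077/1000:ℝ)) (by norm_num [SS, BB, abs_le]) (fun _ _ _ _ _ h30 H18 => ?_) H17
  refine mulK_s he h30 h26 (fun _ _ _ _ _ h31 H19 => ?_) H18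
  refine addcK_s he h31 (v' := (-23147/4000:ℝ)) (by norm_num [SS, BB, abs_le]) (fun _ _ _ _ _ h32 H20 => ?_) H19
  refine mulK_s he h32 h26 (fun _ _ _ _ _ h33 H21 => ?_) H20
  refine addcK_s he h33 (v' := (11213/4000:ℝ)) (by norm_num [SS, BB, abs_le]) (fun _ _ _ _ _ h34 H22 => ?_) H21
  refine mulK_s he h34 h26 (fun _ _ _ _ _ h35 H23 => ?_) H22
  refine addcK_s he h35 (v' := (123/3200:ℝ)) (by norm_num [SS, BB, abs_le]) (fun _ _ _ _ _ h36 H24 => ?_) H23
  refine mulK_s he h36 h26 (fun _ _ _ _ _ h37 H25 => ?_) H24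
  refine addcK_s he h37 (v' := (2023/16000:ℝ)) (by norm_num [SS, BB, abs_le]) (fun _ _ _ _ _ h38 H26 => ?_) H25
  refine mulK_s he h38 h26 (fun _ _ _ _ _ h39 H27 => ?_) H26
  refine addcK_s he h39 (v' := (-12141/12800:ℝ)) (by norm_num [SS, BB, abs_le]) (fun _ _ _ _ _ h40 H28 => ?_) H27
  refine mulK_s he h40 h26 (fun _ _ _ _ _ h41 H29 => ?_) H28
  refine addcK_s he h41 (v' := (75807/64000:ℝ)) (by norm_num [SS, BB, abs_le]) (fun _ _ _ _ _ h42 H30 => ?_) H29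
  have h43 := In_cast (w := (uh a f s p q)) h42 rfl
  refine sqK_s he hx2 (fun _ _ _ _ _ h44 H31 => ?_) H30
  refine mulK_s he hx1 h44 (fun _ _ _ _ _ h45 H32 => ?_) H31
  refine smulK_s he (w := (4:ℝ)) (by norm_num) (by norm_num) (by norm_num) (by norm_num) h45 (fun _ _ _ _ _ h46 H33 => ?_) H32
  have h47 := In_cast (w := (af2 a f s p q)) h46 rfl
  refine smulK_s he (w := (6909/500:ℝ)) (by norm_num) (by norm_num) (by norm_num) (by norm_num) h26 (fun _ _ _ _ _ h48 H34 => ?_) H33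
  refine negK_s he h48 (fun _ _ _ _ _ h49 H35 => ?_) H34
  have h50 := In_cast h49 (neg_mul_c (c := (-6909/500:ℝ)) (by norm_num))
  refine addcK_s he h50 (v' := (150507/4000:ℝ)) (by norm_num [SS, BB, abs_le]) (fun _ _ _ _ _ h51 H36 => ?_) H35
  refine mulK_s he h51 h26 (fun _ _ _ _ _ h52 H37 => ?_) H36
  refine addcK_s he h52 (v' := (-44979/1600:ℝ)) (by norm_num [SS, BB, abs_le]) (fun _ _ _ _ _ h53 H38 => ?_) H37
  refine mulK_s he h53 h26 (fun _ _ _ _ _ h54 H39 => ?_) H38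
  refine addcK_s he h54 (v' := (-721/1600:ℝ)) (by norm_num [SS, BB, abs_le]) (fun _ _ _ _ _ h55 H40 => ?_) H39
  refine mulK_s he h55 h26 (fun _ _ _ _ _ h56 H41 => ?_) H40
  refine addcK_s he h56 (v' := (69123/16000:ℝ)) (by norm_num [SS, BB, abs_le]) (fun _ _ _ _ _ h57 H42 => ?_) H41
  refine mulK_s he h57 h26 (fun _ _ _ _ _ h58 H43 => ?_) H42
  refine addcK_s he h58 (v' := (13983/64000:ℝ)) (by norm_num [SS, BB, abs_le]) (fun _ _ _ _ _ h59 H44 => ?_) H43
  refine mulK_s he h59 h26 (fun _ _ _ _ _ h60 H45 => ?_) H44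
  refine addcK_s he h60 (v' := (-56659/128000:ℝ)) (by norm_num [SS, BB, abs_le]) (fun _ _ _ _ _ h61 H46 => ?_) H45
  refine mulK_s he hx1 hx2 (fun _ _ _ _ _ h62 H47 => ?_) H46
  refine sqK_s he h62 (fun _ _ _ _ _ h63 H48 => ?_) H47
  refine smulK_s he (w := (4:ℝ)) (by norm_num) (by norm_num) (by norm_num) (by norm_num) h63 (fun _ _ _ _ _ h64 H49 => ?_) H48
  have h65 := In_cast (w := (dd a f s p q)) h64 rfl
  refine smulK_s he (w := (6909/200:ℝ)) (by norm_num) (by norm_num) (by norm_num) (by norm_num) h26 (fun _ _ _ _ _ h66 H50 => ?_) H49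
  refine negK_s he h66 (fun _ _ _ _ _ h67 H51 => ?_) H50
  have h68 := In_cast h67 (neg_mul_c (c := (-6909/200:ℝ)) (by norm_num))
  refine addcK_s he h68 (v' := (50169/800:ℝ)) (by norm_num [SS, BB, abs_le]) (fun _ _ _ _ _ h69 H52 => ?_) H51
  refine mulK_s he h69 h26 (fun _ _ _ _ _ h70 H53 => ?_) H52
  refine addcK_s he h70 (v' := (-44979/1600:ℝ)) (by norm_num [SS, BB, abs_le]) (fun _ _ _ _ _ h71 H54 => ?_) H53
  refine mulK_s he h71 h26 (fun _ _ _ _ _ h72 H55 => ?_) H54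
  refine addcK_s he h72 (v' := (-721/3200:ℝ)) (by norm_num [SS, BB, abs_le]) (fun _ _ _ _ _ h73 H56 => ?_) H55
  refine mulK_s he h73 h26 (fun _ _ _ _ _ h74 H57 => ?_) H56
  refine addcK_s he h74 (v' := (23041/32000:ℝ)) (by norm_num [SS, BB, abs_le]) (fun _ _ _ _ _ h75 H58 => ?_) H57
  refine addcK_s he h50 (v' := (50169/4000:ℝ)) (by norm_num [SS, BB, abs_le]) (fun _ _ _ _ _ h76 H59 => ?_) H58
  refine mulK_s he h76 h26 (fun _ _ _ _ _ h77 H60 => ?_) H59
  refine addcK_s he h77 (v' := (-14993/8000:ℝ)) (by norm_num [SS, BB, abs_le]) (fun _ _ _ _ _ h78 H61 => ?_) H60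
  refine smulK_s he (w := (987/2000:ℝ)) (by norm_num) (by norm_num) (by norm_num) (by norm_num) h65 (fun _ _ _ _ _ h79 H62 => ?_) H61
  refine negK_s he h79 (fun _ _ _ _ _ h80 H63 => ?_) H62
  have h81 := In_cast h80 (neg_mul_c (c := (-987/2000:ℝ)) (by norm_num))
  refine addK_s he h78 h81 (fun _ _ _ _ _ h82 H64 => ?_) H63
  refine mulK_s he h65 h82 (fun _ _ _ _ _ h83 H65 => ?_) H64
  refine addK_s he h75 h83 (fun _ _ _ _ _ h84 H66 => ?_) H65
  refine mulK_s he h65 h84 (fun _ _ _ _ _ h85 H67 => ?_) H66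
  refine addK_s he h61 h85 (fun _ _ _ _ _ h86 H68 => ?_) H67
  have h87 := In_cast (w := (uE a f s p q)) h86 rfl
  refine mulK_s he h47 h87 (fun _ _ _ _ _ h88 H69 => ?_) H68
  refine addK_s he h43 h88 (fun _ _ _ _ _ h89 H70 => ?_) H69
  have h90 := In_cast (w := (um a f s p q)) h89 rfl
  refine smulK_s he (w := (987/250:ℝ)) (by norm_num) (by norm_num) (by norm_num) (by norm_num) h26 (fun _ _ _ _ _ h91 H71 => ?_) H70
  refine negK_s he h91 (fun _ _ _ _ _ h92 H72 => ?_) H71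
  have h93 := In_cast h92 (neg_mul_c (c := (-987/250:ℝ)) (by norm_num))
  refine addcK_s he h93 (v' := (50169/4000:ℝ)) (by norm_num [SS, BB, abs_le]) (fun _ _ _ _ _ h94 H73 => ?_) H72
  refine mulK_s he h94 h26 (fun _ _ _ _ _ h95 H74 => ?_) H73
  refine addcK_s he h95 (v' := (-44979/4000:ℝ)) (by norm_num [SS, BB, abs_le]) (fun _ _ _ _ _ h96 H75 => ?_) H74
  refine mulK_s he h96 h26 (fun _ _ _ _ _ h97 H76 => ?_) H75
  refine addcK_s he h97 (v' := (-721/3200:ℝ)) (by norm_num [SS, BB, abs_le]) (fun _ _ _ _ _ h98 H77 => ?_) H76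
  refine mulK_s he h98 h26 (fun _ _ _ _ _ h99 H78 => ?_) H77
  refine addcK_s he h99 (v' := (23041/8000:ℝ)) (by norm_num [SS, BB, abs_le]) (fun _ _ _ _ _ h100 H79 => ?_) H78
  refine mulK_s he h100 h26 (fun _ _ _ _ _ h101 H80 => ?_) H79
  refine addcK_s he h101 (v' := (13983/64000:ℝ)) (by norm_num [SS, BB, abs_le]) (fun _ _ _ _ _ h102 H81 => ?_) H80
  refine mulK_s he h102 h26 (fun _ _ _ _ _ h103 H82 => ?_) H81
  refine addcK_s he h103 (v' := (-56659/64000:ℝ)) (by norm_num [SS, BB, abs_le]) (fun _ _ _ _ _ h104 H83 => ?_) H82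
  refine mulK_s he h104 h26 (fun _ _ _ _ _ h105 H84 => ?_) H83
  refine addcK_s he h105 (v' := (90909/256000:ℝ)) (by norm_num [SS, BB, abs_le]) (fun _ _ _ _ _ h106 H85 => ?_) H84
  refine smulK_s he (w := (6909/250:ℝ)) (by norm_num) (by norm_num) (by norm_num) (by norm_num) h26 (fun _ _ _ _ _ h107 H86 => ?_) H85
  refine negK_s he h107 (fun _ _ _ _ _ h108 H87 => ?_) H86
  have h109 := In_cast h108 (neg_mul_c (c := (-6909/250:ℝ)) (by norm_num))
  refine addcK_s he h109 (v' := (50169/800:ℝ)) (by norm_num [SS, BB, abs_le]) (fun _ _ _ _ _ h110 H88 => ?_) H87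
  refine mulK_s he h110 h26 (fun _ _ _ _ _ h111 H89 => ?_) H88
  refine addcK_s he h111 (v' := (-14993/400:ℝ)) (by norm_num [SS, BB, abs_le]) (fun _ _ _ _ _ h112 H90 => ?_) H89
  refine mulK_s he h112 h26 (fun _ _ _ _ _ h113 H91 => ?_) H90
  refine addcK_s he h113 (v' := (-721/1600:ℝ)) (by norm_num [SS, BB, abs_le]) (fun _ _ _ _ _ h114 H92 => ?_) H91
  refine mulK_s he h114 h26 (fun _ _ _ _ _ h115 H93 => ?_) H92
  refine addcK_s he h115 (v' := (23041/8000:ℝ)) (by norm_num [SS, BB, abs_le]) (fun _ _ _ _ _ h116 H94 => ?_) H93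
  refine mulK_s he h116 h26 (fun _ _ _ _ _ h117 H95 => ?_) H94
  refine addcK_s he h117 (v' := (4661/64000:ℝ)) (by norm_num [SS, BB, abs_le]) (fun _ _ _ _ _ h118 H96 => ?_) H95
  refine addcK_s he h109 (v' := (150507/4000:ℝ)) (by norm_num [SS, BB, abs_le]) (fun _ _ _ _ _ h119 H97 => ?_) H96
  refine mulK_s he h119 h26 (fun _ _ _ _ _ h120 H98 => ?_) H97
  refine addcK_s he h120 (v' := (-44979/4000:ℝ)) (by norm_num [SS, BB, abs_le]) (fun _ _ _ _ _ h121 H99 => ?_) H98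
  refine mulK_s he h121 h26 (fun _ _ _ _ _ h122 H100 => ?_) H99
  refine addcK_s he h122 (v' := (-721/16000:ℝ)) (by norm_num [SS, BB, abs_le]) (fun _ _ _ _ _ h123 H101 => ?_) H100
  refine addcK_s he h93 (v' := (7167/4000:ℝ)) (by norm_num [SS, BB, abs_le]) (fun _ _ _ _ _ h124 H102 => ?_) H101
  refine mulK_s he h65 h124 (fun _ _ _ _ _ h125 H103 => ?_) H102
  refine addK_s he h123 h125 (fun _ _ _ _ _ h126 H104 => ?_) H103
  refine mulK_s he h65 h126 (fun _ _ _ _ _ h127 H105 => ?_) H104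
  refine addK_s he h118 h127 (fun _ _ _ _ _ h128 H106 => ?_) H105
  refine mulK_s he h65 h128 (fun _ _ _ _ _ h129 H107 => ?_) H106
  refine addK_s he h106 h129 (fun _ _ _ _ _ h130 H108 => ?_) H107
  have h131 := In_cast (w := (uO a f s p q)) h130 rfl
  refine mulK_s he hx2 h131 (fun _ _ _ _ _ h132 H109 => ?_) H108
  refine smulK_s he (w := (2:ℝ)) (by norm_num) (by norm_num) (by norm_num) (by norm_num) h132 (fun _ _ _ _ _ h133 H110 => ?_) H109
  refine subK_s he h90 h133 (fun _ _ _ _ _ h134 H111 => ?_) H110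
  have h135 := In_cast (w := (u0 a f s p q)) h134 rfl
  refine mulK_s he h22 h135 (fun _ _ _ _ _ h136 H112 => ?_) H111
  refine negK_s he h4 (fun _ _ _ _ _ h137 H113 => ?_) H112
  refine addcK_s he h137 (v' := (1:ℝ)) (by norm_num [SS, BB, abs_le]) (fun _ _ _ _ _ h138 H114 => ?_) H113
  have h139 := In_cast h138 (neg_add_eq_sub _ _)
  refine mulK_s he h139 h17 (fun _ _ _ _ _ h140 H115 => ?_) H114
  refine addcK_s he h4 (v' := (1:ℝ)) (by norm_num [SS, BB, abs_le]) (fun _ _ _ _ _ h141 H116 => ?_) H115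
  have h142 := In_cast h141 (add_comm _ _)
  refine smulK_s he (w := (93/100:ℝ)) (by norm_num) (by norm_num) (by norm_num) (by norm_num) h4 (fun _ _ _ _ _ h143 H117 => ?_) H116
  refine addcK_s he h143 (v' := (-17/100:ℝ)) (by norm_num [SS, BB, abs_le]) (fun _ _ _ _ _ h144 H118 => ?_) H117
  have h145 := In_cast h144 (sub_c (c := (17/100:ℝ)) (by norm_num))
  refine smulK_s he (w := (3/25:ℝ)) (by norm_num) (by norm_num) (by norm_num) (by norm_num) h4 (fun _ _ _ _ _ h146 H119 => ?_) H118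
  refine addcK_s he h146 (v' := (1/10:ℝ)) (by norm_num [SS, BB, abs_le]) (fun _ _ _ _ _ h147 H120 => ?_) H119
  have h148 := In_cast h147 (add_comm _ _)
  refine mulK_s he hx3 h148 (fun _ _ _ _ _ h149 H121 => ?_) H120
  refine addK_s he h145 h149 (fun _ _ _ _ _ h150 H122 => ?_) H121
  refine mulK_s he hx3 h150 (fun _ _ _ _ _ h151 H123 => ?_) H122
  refine subK_s he h142 h151 (fun _ _ _ _ _ h152 H124 => ?_) H123
  have h153 := In_cast (w := (BDp a f s p q)) h152 rfl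
  refine mulK_s he h140 h153 (fun _ _ _ _ _ h154 H125 => ?_) H124
  have h155 := In_cast (w := (K1Dp a f s p q)) h154 rfl
  refine addK_s he h90 h133 (fun _ _ _ _ _ h156 H126 => ?_) H125
  have h157 := In_cast (w := (u1 a f s p q)) h156 rfl
  refine mulK_s he h155 h157 (fun _ _ _ _ _ h158 H127 => ?_) H126
  refine addK_s he h136 h158 (fun _ _ _ _ _ h159 H128 => ?_) H127
  refine smulK_s he (w := (2:ℝ)) (by norm_num) (by norm_num) (by norm_num) (by norm_num) h4 (fun _ _ _ _ _ h160 H129 => ?_) H128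
  refine smulK_s he (w := (1/250:ℝ)) (by norm_num) (by norm_num) (by norm_num) (by norm_num) h139 (fun _ _ _ _ _ h161 H130 => ?_) H129
  refine subK_s he h160 h161 (fun _ _ _ _ _ h162 H131 => ?_) H130
  refine mulK_s he h162 h17 (fun _ _ _ _ _ h163 H132 => ?_) H131
  have h164 := In_cast (w := (lDp a f s p q)) h163 rfl
  refine mulK_s he hx2 h164 (fun _ _ _ _ _ h165 H133 => ?_) H132
  refine smulK_s he (w := (2:ℝ)) (by norm_num) (by norm_num) (by norm_num) (by norm_num) h165 (fun _ _ _ _ _ h166 H134 => ?_) H133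
  refine addK_s he h159 h166 (fun _ _ _ _ _ h167 H135 => ?_) H134
  refine smulK_s he (w := (2:ℝ)) (by norm_num) (by norm_num) (by norm_num) (by norm_num) h43 (fun _ _ _ _ _ h168 H136 => ?_) H135
  refine subK_s he h167 h168 (fun _ _ _ _ _ h169 H137 => ?_) H136
  have h170 := In_cast (w := (PdD a f s p q)) h169 rfl
  refine posK_s he h170 (fun p0 H138 => ?_) H137
  refine smulK_s he (w := (9/20:ℝ)) (by norm_num) (by norm_num) (by norm_num) (by norm_num) hp2 (fun _ _ _ _ _ h171 H139 => ?_) H138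
  refine addcK_s he h171 (v' := (11/20:ℝ)) (by norm_num [SS, BB, abs_le]) (fun _ _ _ _ _ h172 H140 => ?_) H139
  have h173 := In_cast h172 (add_comm _ _)
  have h174 := In_cast (w := (tdq a f s p q)) h173 rfl
  refine smulK_s he (w := (21/50:ℝ)) (by norm_num) (by norm_num) (by norm_num) (by norm_num) h174 (fun _ _ _ _ _ h175 H141 => ?_) H140
  refine negK_s he h175 (fun _ _ _ _ _ h176 H142 => ?_) H141
  refine addcK_s he h176 (v' := (3/5:ℝ)) (by norm_num [SS, BB, abs_le]) (fun _ _ _ _ _ h177 H143 => ?_) H142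
  have h178 := In_cast h177 (neg_add_eq_sub _ _)
  refine mulK_s he h174 h178 (fun _ _ _ _ _ h179 H144 => ?_) H143
  refine addcK_s he h179 (v' := (-1/20:ℝ)) (by norm_num [SS, BB, abs_le]) (fun _ _ _ _ _ h180 H145 => ?_) H144
  have h181 := In_cast h180 (add_comm _ _)
  refine sqK_s he h174 (fun _ _ _ _ _ h182 H146 => ?_) H145
  refine addcK_s he h182 (v' := (1:ℝ)) (by norm_num [SS, BB, abs_le]) (fun _ _ _ _ _ h183 H147 => ?_) H146
  have h184 := In_cast h183 (add_comm _ _)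
  refine invK_s he h184 (fun _ _ _ _ _ h185 H148 => ?_) H147
  have h186 := In_cast h185 (inv_eq_one_div _)
  have h187 := In_cast (w := (Dq a f s p q)) h186 rfl
  refine mulK_s he h181 h187 (fun _ _ _ _ _ h188 H149 => ?_) H148
  refine mulK_s he hx3 h188 (fun _ _ _ _ _ h189 H150 => ?_) H149
  refine addcK_s he h189 (v' := (1:ℝ)) (by norm_num [SS, BB, abs_le]) (fun _ _ _ _ _ h190 H151 => ?_) H150
  have h191 := In_cast h190 (add_comm _ _)
  have h192 := In_cast (w := (K0Dq a f s p q)) h191 rfl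
  refine addcK_s he h29 (v' := (2403/500:ℝ)) (by norm_num [SS, BB, abs_le]) (fun _ _ _ _ _ h193 H152 => ?_) H151
  refine mulK_s he h193 h26 (fun _ _ _ _ _ h194 H153 => ?_) H152
  refine addcK_s he h194 (v' := (-34811/4000:ℝ)) (by norm_num [SS, BB, abs_le]) (fun _ _ _ _ _ h195 H154 => ?_) H153
  refine mulK_s he h195 h26 (fun _ _ _ _ _ h196 H155 => ?_) H154
  refine addcK_s he h196 (v' := (13899/2000:ℝ)) (by norm_num [SS, BB, abs_le]) (fun _ _ _ _ _ h197 H156 => ?_) H155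
  refine mulK_s he h197 h26 (fun _ _ _ _ _ h198 H157 => ?_) H156
  refine addcK_s he h198 (v' := (-1521/640:ℝ)) (by norm_num [SS, BB, abs_le]) (fun _ _ _ _ _ h199 H158 => ?_) H157
  refine mulK_s he h199 h26 (fun _ _ _ _ _ h200 H159 => ?_) H158
  refine addcK_s he h200 (v' := (1597/1600:ℝ)) (by norm_num [SS, BB, abs_le]) (fun _ _ _ _ _ h201 H160 => ?_) H159
  refine mulK_s he h201 h26 (fun _ _ _ _ _ h202 H161 => ?_) H160
  refine addcK_s he h202 (v' := (-116129/64000:ℝ)) (by norm_num [SS, BB, abs_le]) (fun _ _ _ _ _ h203 H162 => ?_) H161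
  refine mulK_s he h203 h26 (fun _ _ _ _ _ h204 H163 => ?_) H162
  refine addcK_s he h204 (v' := (9741/6400:ℝ)) (by norm_num [SS, BB, abs_le]) (fun _ _ _ _ _ h205 H164 => ?_) H163
  have h206 := In_cast (w := (ch a f s p q)) h205 rfl
  refine addcK_s he h50 (v' := (1449/32:ℝ)) (by norm_num [SS, BB, abs_le]) (fun _ _ _ _ _ h207 H165 => ?_) H164
  refine mulK_s he h207 h26 (fun _ _ _ _ _ h208 H166 => ?_) H165
  refine addcK_s he h208 (v' := (-75597/1600:ℝ)) (by norm_num [SS, BB, abs_le]) (fun _ _ _ _ _ h209 H167 => ?_) H166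
  refine mulK_s he h209 h26 (fun _ _ _ _ _ h210 H168 => ?_) H167
  refine addcK_s he h210 (v' := (4157/320:ℝ)) (by norm_num [SS, BB, abs_le]) (fun _ _ _ _ _ h211 H169 => ?_) H168
  refine mulK_s he h211 h26 (fun _ _ _ _ _ h212 H170 => ?_) H169
  refine addcK_s he h212 (v' := (52713/16000:ℝ)) (by norm_num [SS, BB, abs_le]) (fun _ _ _ _ _ h213 H171 => ?_) H170
  refine mulK_s he h213 h26 (fun _ _ _ _ _ h214 H172 => ?_) H171
  refine addcK_s he h214 (v' := (-3651/12800:ℝ)) (by norm_num [SS, BB, abs_le]) (fun _ _ _ _ _ h215 H173 => ?_) H172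
  refine mulK_s he h215 h26 (fun _ _ _ _ _ h216 H174 => ?_) H173
  refine addcK_s he h216 (v' := (-84189/128000:ℝ)) (by norm_num [SS, BB, abs_le]) (fun _ _ _ _ _ h217 H175 => ?_) H174
  refine addcK_s he h68 (v' := (2415/32:ℝ)) (by norm_num [SS, BB, abs_le]) (fun _ _ _ _ _ h218 H176 => ?_) H175
  refine mulK_s he h218 h26 (fun _ _ _ _ _ h219 H177 => ?_) H176
  refine addcK_s he h219 (v' := (-75597/1600:ℝ)) (by norm_num [SS, BB, abs_le]) (fun _ _ _ _ _ h220 H178 => ?_) H177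
  refine mulK_s he h220 h26 (fun _ _ _ _ _ h221 H179 => ?_) H178
  refine addcK_s he h221 (v' := (4157/640:ℝ)) (by norm_num [SS, BB, abs_le]) (fun _ _ _ _ _ h222 H180 => ?_) H179
  refine mulK_s he h222 h26 (fun _ _ _ _ _ h223 H181 => ?_) H180
  refine addcK_s he h223 (v' := (17571/32000:ℝ)) (by norm_num [SS, BB, abs_le]) (fun _ _ _ _ _ h224 H182 => ?_) H181
  refine addcK_s he h50 (v' := (483/32:ℝ)) (by norm_num [SS, BB, abs_le]) (fun _ _ _ _ _ h225 H183 => ?_) H182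
  refine mulK_s he h225 h26 (fun _ _ _ _ _ h226 H184 => ?_) H183
  refine addcK_s he h226 (v' := (-25199/8000:ℝ)) (by norm_num [SS, BB, abs_le]) (fun _ _ _ _ _ h227 H185 => ?_) H184
  refine addK_s he h227 h81 (fun _ _ _ _ _ h228 H186 => ?_) H185
  refine mulK_s he h65 h228 (fun _ _ _ _ _ h229 H187 => ?_) H186
  refine addK_s he h224 h229 (fun _ _ _ _ _ h230 H188 => ?_) H187
  refine mulK_s he h65 h230 (fun _ _ _ _ _ h231 H189 => ?_) H188
  refine addK_s he h217 h231 (fun _ _ _ _ _ h232 H190 => ?_) H189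
  have h233 := In_cast (w := (cE a f s p q)) h232 rfl
  refine mulK_s he h47 h233 (fun _ _ _ _ _ h234 H191 => ?_) H190
  refine addK_s he h206 h234 (fun _ _ _ _ _ h235 H192 => ?_) H191
  have h236 := In_cast (w := (cm a f s p q)) h235 rfl
  refine addcK_s he h93 (v' := (483/32:ℝ)) (by norm_num [SS, BB, abs_le]) (fun _ _ _ _ _ h237 H193 => ?_) H192
  refine mulK_s he h237 h26 (fun _ _ _ _ _ h238 H194 => ?_) H193
  refine addcK_s he h238 (v' := (-75597/4000:ℝ)) (by norm_num [SS, BB, abs_le]) (fun _ _ _ _ _ h239 H195 => ?_) H194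
  refine mulK_s he h239 h26 (fun _ _ _ _ _ h240 H196 => ?_) H195
  refine addcK_s he h240 (v' := (4157/640:ℝ)) (by norm_num [SS, BB, abs_le]) (fun _ _ _ _ _ h241 H197 => ?_) H196
  refine mulK_s he h241 h26 (fun _ _ _ _ _ h242 H198 => ?_) H197
  refine addcK_s he h242 (v' := (17571/8000:ℝ)) (by norm_num [SS, BB, abs_le]) (fun _ _ _ _ _ h243 H199 => ?_) H198
  refine mulK_s he h243 h26 (fun _ _ _ _ _ h244 H200 => ?_) H199
  refine addcK_s he h244 (v' := (-3651/12800:ℝ)) (by norm_num [SS, BB, abs_le]) (fun _ _ _ _ _ h245 H201 => ?_) H200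
  refine mulK_s he h245 h26 (fun _ _ _ _ _ h246 H202 => ?_) H201
  refine addcK_s he h246 (v' := (-84189/64000:ℝ)) (by norm_num [SS, BB, abs_le]) (fun _ _ _ _ _ h247 H203 => ?_) H202
  refine mulK_s he h247 h26 (fun _ _ _ _ _ h248 H204 => ?_) H203
  refine addcK_s he h248 (v' := (78691/256000:ℝ)) (by norm_num [SS, BB, abs_le]) (fun _ _ _ _ _ h249 H205 => ?_) H204
  refine addcK_s he h109 (v' := (2415/32:ℝ)) (by norm_num [SS, BB, abs_le]) (fun _ _ _ _ _ h250 H206 => ?_) H205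
  refine mulK_s he h250 h26 (fun _ _ _ _ _ h251 H207 => ?_) H206
  refine addcK_s he h251 (v' := (-25199/400:ℝ)) (by norm_num [SS, BB, abs_le]) (fun _ _ _ _ _ h252 H208 => ?_) H207
  refine mulK_s he h252 h26 (fun _ _ _ _ _ h253 H209 => ?_) H208
  refine addcK_s he h253 (v' := (4157/320:ℝ)) (by norm_num [SS, BB, abs_le]) (fun _ _ _ _ _ h254 H210 => ?_) H209
  refine mulK_s he h254 h26 (fun _ _ _ _ _ h255 H211 => ?_) H210
  refine addcK_s he h255 (v' := (17571/8000:ℝ)) (by norm_num [SS, BB, abs_le]) (fun _ _ _ _ _ h256 H212 => ?_) H211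
  refine mulK_s he h256 h26 (fun _ _ _ _ _ h257 H213 => ?_) H212
  refine addcK_s he h257 (v' := (-1217/12800:ℝ)) (by norm_num [SS, BB, abs_le]) (fun _ _ _ _ _ h258 H214 => ?_) H213
  refine addcK_s he h109 (v' := (1449/32:ℝ)) (by norm_num [SS, BB, abs_le]) (fun _ _ _ _ _ h259 H215 => ?_) H214
  refine mulK_s he h259 h26 (fun _ _ _ _ _ h260 H216 => ?_) H215
  refine addcK_s he h260 (v' := (-75597/4000:ℝ)) (by norm_num [SS, BB, abs_le]) (fun _ _ _ _ _ h261 H217 => ?_) H216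
  refine mulK_s he h261 h26 (fun _ _ _ _ _ h262 H218 => ?_) H217
  refine addcK_s he h262 (v' := (4157/3200:ℝ)) (by norm_num [SS, BB, abs_le]) (fun _ _ _ _ _ h263 H219 => ?_) H218
  refine addcK_s he h93 (v' := (69/32:ℝ)) (by norm_num [SS, BB, abs_le]) (fun _ _ _ _ _ h264 H220 => ?_) H219
  refine mulK_s he h65 h264 (fun _ _ _ _ _ h265 H221 => ?_) H220
  refine addK_s he h263 h265 (fun _ _ _ _ _ h266 H222 => ?_) H221
  refine mulK_s he h65 h266 (fun _ _ _ _ _ h267 H223 => ?_) H222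
  refine addK_s he h258 h267 (fun _ _ _ _ _ h268 H224 => ?_) H223
  refine mulK_s he h65 h268 (fun _ _ _ _ _ h269 H225 => ?_) H224
  refine addK_s he h249 h269 (fun _ _ _ _ _ h270 H226 => ?_) H225
  have h271 := In_cast (w := (cO a f s p q)) h270 rfl
  refine mulK_s he hx2 h271 (fun _ _ _ _ _ h272 H227 => ?_) H226
  refine smulK_s he (w := (2:ℝ)) (by norm_num) (by norm_num) (by norm_num) (by norm_num) h272 (fun _ _ _ _ _ h273 H228 => ?_) H227
  refine addK_s he h236 h273 (fun _ _ _ _ _ h274 H229 => ?_) H228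
  have h275 := In_cast (w := (c1 a f s p q)) h274 rfl
  refine mulK_s he h192 h275 (fun _ _ _ _ _ h276 H230 => ?_) H229
  refine negK_s he h174 (fun _ _ _ _ _ h277 H231 => ?_) H230
  refine addcK_s he h277 (v' := (1:ℝ)) (by norm_num [SS, BB, abs_le]) (fun _ _ _ _ _ h278 H232 => ?_) H231
  have h279 := In_cast h278 (neg_add_eq_sub _ _)
  refine mulK_s he h279 h187 (fun _ _ _ _ _ h280 H233 => ?_) H232
  refine addcK_s he h174 (v' := (1:ℝ)) (by norm_num [SS, BB, abs_le]) (fun _ _ _ _ _ h281 H234 => ?_) H233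
  have h282 := In_cast h281 (add_comm _ _)
  refine smulK_s he (w := (93/100:ℝ)) (by norm_num) (by norm_num) (by norm_num) (by norm_num) h174 (fun _ _ _ _ _ h283 H235 => ?_) H234
  refine addcK_s he h283 (v' := (-17/100:ℝ)) (by norm_num [SS, BB, abs_le]) (fun _ _ _ _ _ h284 H236 => ?_) H235
  have h285 := In_cast h284 (sub_c (c := (17/100:ℝ)) (by norm_num))
  refine smulK_s he (w := (3/25:ℝ)) (by norm_num) (by norm_num) (by norm_num) (by norm_num) h174 (fun _ _ _ _ _ h286 H237 => ?_) H236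
  refine addcK_s he h286 (v' := (1/10:ℝ)) (by norm_num [SS, BB, abs_le]) (fun _ _ _ _ _ h287 H238 => ?_) H237
  have h288 := In_cast h287 (add_comm _ _)
  refine mulK_s he hx3 h288 (fun _ _ _ _ _ h289 H239 => ?_) H238
  refine addK_s he h285 h289 (fun _ _ _ _ _ h290 H240 => ?_) H239
  refine mulK_s he hx3 h290 (fun _ _ _ _ _ h291 H241 => ?_) H240
  refine subK_s he h282 h291 (fun _ _ _ _ _ h292 H242 => ?_) H241
  have h293 := In_cast (w := (BDq a f s p q)) h292 rfl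
  refine mulK_s he h280 h293 (fun _ _ _ _ _ h294 H243 => ?_) H242
  have h295 := In_cast (w := (K1Dq a f s p q)) h294 rfl
  refine subK_s he h236 h273 (fun _ _ _ _ _ h296 H244 => ?_) H243
  have h297 := In_cast (w := (c0 a f s p q)) h296 rfl
  refine mulK_s he h295 h297 (fun _ _ _ _ _ h298 H245 => ?_) H244
  refine addK_s he h276 h298 (fun _ _ _ _ _ h299 H246 => ?_) H245
  refine smulK_s he (w := (2:ℝ)) (by norm_num) (by norm_num) (by norm_num) (by norm_num) h174 (fun _ _ _ _ _ h300 H247 => ?_) H246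
  refine smulK_s he (w := (1/250:ℝ)) (by norm_num) (by norm_num) (by norm_num) (by norm_num) h279 (fun _ _ _ _ _ h301 H248 => ?_) H247
  refine subK_s he h300 h301 (fun _ _ _ _ _ h302 H249 => ?_) H248
  refine mulK_s he h302 h187 (fun _ _ _ _ _ h303 H250 => ?_) H249
  have h304 := In_cast (w := (lDq a f s p q)) h303 rfl
  refine mulK_s he hx2 h304 (fun _ _ _ _ _ h305 H251 => ?_) H250
  refine smulK_s he (w := (2:ℝ)) (by norm_num) (by norm_num) (by norm_num) (by norm_num) h305 (fun _ _ _ _ _ h306 H252 => ?_) H251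
  refine addK_s he h299 h306 (fun _ _ _ _ _ h307 H253 => ?_) H252
  refine smulK_s he (w := (2:ℝ)) (by norm_num) (by norm_num) (by norm_num) (by norm_num) h206 (fun _ _ _ _ _ h308 H254 => ?_) H253
  refine subK_s he h307 h308 (fun _ _ _ _ _ h309 H255 => ?_) H254
  have h310 := In_cast (w := (QdD a f s p q)) h309 rfl
  refine posK_s he h310 (fun p1 H256 => ?_) H255
  refine mulK_s he h170 h310 (fun _ _ _ _ _ h311 H257 => ?_) H256
  refine mulK_s he h22 h295 (fun _ _ _ _ _ h312 H258 => ?_) H257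
  refine sqrtK_s he h312 (fun _ _ _ _ _ h313 H259 => ?_) H258
  refine smulK_s he (w := (238/125:ℝ)) (by norm_num) (by norm_num) (by norm_num) (by norm_num) h26 (fun _ _ _ _ _ h314 H260 => ?_) H259
  refine addcK_s he h314 (v' := (-238/25:ℝ)) (by norm_num [SS, BB, abs_le]) (fun _ _ _ _ _ h315 H261 => ?_) H260
  refine mulK_s he h315 h26 (fun _ _ _ _ _ h316 H262 => ?_) H261
  refine addcK_s he h316 (v' := (2264/125:ℝ)) (by norm_num [SS, BB, abs_le]) (fun _ _ _ _ _ h317 H263 => ?_) H262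
  refine mulK_s he h317 h26 (fun _ _ _ _ _ h318 H264 => ?_) H263
  refine addcK_s he h318 (v' := (-407/25:ℝ)) (by norm_num [SS, BB, abs_le]) (fun _ _ _ _ _ h319 H265 => ?_) H264
  refine mulK_s he h319 h26 (fun _ _ _ _ _ h320 H266 => ?_) H265
  refine addcK_s he h320 (v' := (7321/1000:ℝ)) (by norm_num [SS, BB, abs_le]) (fun _ _ _ _ _ h321 H267 => ?_) H266
  refine mulK_s he h321 h26 (fun _ _ _ _ _ h322 H268 => ?_) H267
  refine addcK_s he h322 (v' := (-2361/1000:ℝ)) (by norm_num [SS, BB, abs_le]) (fun _ _ _ _ _ h323 H269 => ?_) H268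
  refine mulK_s he h323 h26 (fun _ _ _ _ _ h324 H270 => ?_) H269
  refine addcK_s he h324 (v' := (927/1000:ℝ)) (by norm_num [SS, BB, abs_le]) (fun _ _ _ _ _ h325 H271 => ?_) H270
  have h326 := In_cast (w := (vh a f s p q)) h325 rfl
  refine smulK_s he (w := (1666/125:ℝ)) (by norm_num) (by norm_num) (by norm_num) (by norm_num) h26 (fun _ _ _ _ _ h327 H272 => ?_) H271
  refine addcK_s he h327 (v' := (-4998/125:ℝ)) (by norm_num [SS, BB, abs_le]) (fun _ _ _ _ _ h328 H273 => ?_) H272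
  refine mulK_s he h328 h26 (fun _ _ _ _ _ h329 H274 => ?_) H273
  refine addcK_s he h329 (v' := (6801/200:ℝ)) (by norm_num [SS, BB, abs_le]) (fun _ _ _ _ _ h330 H275 => ?_) H274
  refine mulK_s he h330 h26 (fun _ _ _ _ _ h331 H276 => ?_) H275
  refine addcK_s he h331 (v' := (-137/100:ℝ)) (by norm_num [SS, BB, abs_le]) (fun _ _ _ _ _ h332 H277 => ?_) H276
  refine mulK_s he h332 h26 (fun _ _ _ _ _ h333 H278 => ?_) H277
  refine addcK_s he h333 (v' := (-13293/2000:ℝ)) (by norm_num [SS, BB, abs_le]) (fun _ _ _ _ _ h334 H279 => ?_) H278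
  refine mulK_s he h334 h26 (fun _ _ _ _ _ h335 H280 => ?_) H279
  refine addcK_s he h335 (v' := (267/400:ℝ)) (by norm_num [SS, BB, abs_le]) (fun _ _ _ _ _ h336 H281 => ?_) H280
  refine mulK_s he h336 h26 (fun _ _ _ _ _ h337 H282 => ?_) H281
  refine addcK_s he h337 (v' := (317/3200:ℝ)) (by norm_num [SS, BB, abs_le]) (fun _ _ _ _ _ h338 H283 => ?_) H282
  refine smulK_s he (w := (833/25:ℝ)) (by norm_num) (by norm_num) (by norm_num) (by norm_num) h26 (fun _ _ _ _ _ h339 H284 => ?_) H283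
  refine addcK_s he h339 (v' := (-1666/25:ℝ)) (by norm_num [SS, BB, abs_le]) (fun _ _ _ _ _ h340 H285 => ?_) H284
  refine mulK_s he h340 h26 (fun _ _ _ _ _ h341 H286 => ?_) H285
  refine addcK_s he h341 (v' := (6801/200:ℝ)) (by norm_num [SS, BB, abs_le]) (fun _ _ _ _ _ h342 H287 => ?_) H286
  refine mulK_s he h342 h26 (fun _ _ _ _ _ h343 H288 => ?_) H287
  refine addcK_s he h343 (v' := (-137/200:ℝ)) (by norm_num [SS, BB, abs_le]) (fun _ _ _ _ _ h344 H289 => ?_) H288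
  refine mulK_s he h344 h26 (fun _ _ _ _ _ h345 H290 => ?_) H289
  refine addcK_s he h345 (v' := (-4431/4000:ℝ)) (by norm_num [SS, BB, abs_le]) (fun _ _ _ _ _ h346 H291 => ?_) H290
  refine addcK_s he h327 (v' := (-1666/125:ℝ)) (by norm_num [SS, BB, abs_le]) (fun _ _ _ _ _ h347 H292 => ?_) H291
  refine mulK_s he h347 h26 (fun _ _ _ _ _ h348 H293 => ?_) H292
  refine addcK_s he h348 (v' := (2267/1000:ℝ)) (by norm_num [SS, BB, abs_le]) (fun _ _ _ _ _ h349 H294 => ?_) H293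
  refine smulK_s he (w := (119/250:ℝ)) (by norm_num) (by norm_num) (by norm_num) (by norm_num) h65 (fun _ _ _ _ _ h350 H295 => ?_) H294
  refine addK_s he h349 h350 (fun _ _ _ _ _ h351 H296 => ?_) H295
  refine mulK_s he h65 h351 (fun _ _ _ _ _ h352 H297 => ?_) H296
  refine addK_s he h346 h352 (fun _ _ _ _ _ h353 H298 => ?_) H297
  refine mulK_s he h65 h353 (fun _ _ _ _ _ h354 H299 => ?_) H298
  refine addK_s he h338 h354 (fun _ _ _ _ _ h355 H300 => ?_) H299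
  have h356 := In_cast (w := (vE a f s p q)) h355 rfl
  refine mulK_s he h44 h356 (fun _ _ _ _ _ h357 H301 => ?_) H300
  refine smulK_s he (w := (4:ℝ)) (by norm_num) (by norm_num) (by norm_num) (by norm_num) h357 (fun _ _ _ _ _ h358 H302 => ?_) H301
  refine addK_s he h326 h358 (fun _ _ _ _ _ h359 H303 => ?_) H302
  have h360 := In_cast (w := (vm a f s p q)) h359 rfl
  refine smulK_s he (w := (952/125:ℝ)) (by norm_num) (by norm_num) (by norm_num) (by norm_num) h26 (fun _ _ _ _ _ h361 H304 => ?_) H303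
  refine addcK_s he h361 (v' := (-3808/125:ℝ)) (by norm_num [SS, BB, abs_le]) (fun _ _ _ _ _ h362 H305 => ?_) H304
  refine mulK_s he h362 h26 (fun _ _ _ _ _ h363 H306 => ?_) H305
  refine addcK_s he h363 (v' := (10609/250:ℝ)) (by norm_num [SS, BB, abs_le]) (fun _ _ _ _ _ h364 H307 => ?_) H306
  refine mulK_s he h364 h26 (fun _ _ _ _ _ h365 H308 => ?_) H307
  refine addcK_s he h365 (v' := (-5647/250:ℝ)) (by norm_num [SS, BB, abs_le]) (fun _ _ _ _ _ h366 H309 => ?_) H308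
  refine mulK_s he h366 h26 (fun _ _ _ _ _ h367 H310 => ?_) H309
  refine addcK_s he h367 (v' := (304/125:ℝ)) (by norm_num [SS, BB, abs_le]) (fun _ _ _ _ _ h368 H311 => ?_) H310
  refine mulK_s he h368 h26 (fun _ _ _ _ _ h369 H312 => ?_) H311
  refine addcK_s he h369 (v' := (119/1000:ℝ)) (by norm_num [SS, BB, abs_le]) (fun _ _ _ _ _ h370 H313 => ?_) H312
  refine mulK_s he h370 h26 (fun _ _ _ _ _ h371 H314 => ?_) H313
  refine addcK_s he h371 (v' := (1347/4000:ℝ)) (by norm_num [SS, BB, abs_le]) (fun _ _ _ _ _ h372 H315 => ?_) H314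
  refine smulK_s he (w := (3332/125:ℝ)) (by norm_num) (by norm_num) (by norm_num) (by norm_num) h26 (fun _ _ _ _ _ h373 H316 => ?_) H315
  refine addcK_s he h373 (v' := (-1666/25:ℝ)) (by norm_num [SS, BB, abs_le]) (fun _ _ _ _ _ h374 H317 => ?_) H316
  refine mulK_s he h374 h26 (fun _ _ _ _ _ h375 H318 => ?_) H317
  refine addcK_s he h375 (v' := (2267/50:ℝ)) (by norm_num [SS, BB, abs_le]) (fun _ _ _ _ _ h376 H319 => ?_) H318
  refine mulK_s he h376 h26 (fun _ _ _ _ _ h377 H320 => ?_) H319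
  refine addcK_s he h377 (v' := (-137/100:ℝ)) (by norm_num [SS, BB, abs_le]) (fun _ _ _ _ _ h378 H321 => ?_) H320
  refine mulK_s he h378 h26 (fun _ _ _ _ _ h379 H322 => ?_) H321
  refine addcK_s he h379 (v' := (-4431/1000:ℝ)) (by norm_num [SS, BB, abs_le]) (fun _ _ _ _ _ h380 H323 => ?_) H322
  refine mulK_s he h380 h26 (fun _ _ _ _ _ h381 H324 => ?_) H323
  refine addcK_s he h381 (v' := (89/400:ℝ)) (by norm_num [SS, BB, abs_le]) (fun _ _ _ _ _ h382 H325 => ?_) H324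
  refine addcK_s he h373 (v' := (-4998/125:ℝ)) (by norm_num [SS, BB, abs_le]) (fun _ _ _ _ _ h383 H326 => ?_) H325
  refine mulK_s he h383 h26 (fun _ _ _ _ _ h384 H327 => ?_) H326
  refine addcK_s he h384 (v' := (6801/500:ℝ)) (by norm_num [SS, BB, abs_le]) (fun _ _ _ _ _ h385 H328 => ?_) H327
  refine mulK_s he h385 h26 (fun _ _ _ _ _ h386 H329 => ?_) H328
  refine addcK_s he h386 (v' := (-137/1000:ℝ)) (by norm_num [SS, BB, abs_le]) (fun _ _ _ _ _ h387 H330 => ?_) H329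
  refine smulK_s he (w := (476/125:ℝ)) (by norm_num) (by norm_num) (by norm_num) (by norm_num) h26 (fun _ _ _ _ _ h388 H331 => ?_) H330
  refine addcK_s he h388 (v' := (-238/125:ℝ)) (by norm_num [SS, BB, abs_le]) (fun _ _ _ _ _ h389 H332 => ?_) H331
  refine mulK_s he h65 h389 (fun _ _ _ _ _ h390 H333 => ?_) H332
  refine addK_s he h387 h390 (fun _ _ _ _ _ h391 H334 => ?_) H333
  refine mulK_s he h65 h391 (fun _ _ _ _ _ h392 H335 => ?_) H334
  refine addK_s he h382 h392 (fun _ _ _ _ _ h393 H336 => ?_) H335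
  refine mulK_s he h47 h393 (fun _ _ _ _ _ h394 H337 => ?_) H336
  refine addK_s he h372 h394 (fun _ _ _ _ _ h395 H338 => ?_) H337
  have h396 := In_cast (w := (vO a f s p q)) h395 rfl
  refine mulK_s he hx2 h396 (fun _ _ _ _ _ h397 H339 => ?_) H338
  refine smulK_s he (w := (2:ℝ)) (by norm_num) (by norm_num) (by norm_num) (by norm_num) h397 (fun _ _ _ _ _ h398 H340 => ?_) H339
  refine subK_s he h360 h398 (fun _ _ _ _ _ h399 H341 => ?_) H340
  have h400 := In_cast (w := (v0 a f s p q)) h399 rfl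
  refine mulK_s he h313 h400 (fun _ _ _ _ _ h401 H342 => ?_) H341
  refine mulK_s he h155 h192 (fun _ _ _ _ _ h402 H343 => ?_) H342
  refine sqrtK_s he h402 (fun _ _ _ _ _ h403 H344 => ?_) H343
  refine addK_s he h360 h398 (fun _ _ _ _ _ h404 H345 => ?_) H344
  have h405 := In_cast (w := (v1 a f s p q)) h404 rfl
  refine mulK_s he h403 h405 (fun _ _ _ _ _ h406 H346 => ?_) H345
  refine addK_s he h401 h406 (fun _ _ _ _ _ h407 H347 => ?_) H346
  refine smulK_s he (w := (2:ℝ)) (by norm_num) (by norm_num) (by norm_num) (by norm_num) h326 (fun _ _ _ _ _ h408 H348 => ?_) H347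
  refine subK_s he h407 h408 (fun _ _ _ _ _ h409 H349 => ?_) H348
  have h410 := In_cast (w := (ZdDD a f s p q)) h409 rfl
  refine mulK_s he hx1 h410 (fun _ _ _ _ _ h411 H350 => ?_) H349
  refine negK_s he h411 (fun _ _ _ _ _ h412 H351 => ?_) H350
  refine reluK_s he h412 (fun _ _ _ _ _ h413 H352 => ?_) H351
  refine sqK_s he h413 (fun _ _ _ _ _ h414 H353 => ?_) H352
  refine subK_s he h311 h414 (fun _ _ _ _ _ h415 H354 => ?_) H353
  exact ⟨p0, p1, pos_s he h415 H354⟩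

noncomputable def alt4 (p1 p2 z1 w1 z2 w2 z3 w3 : ℕ) : Bool :=
  smulK 11 20 23058430092136939540 12682136550675316736 p2 1152921504606846976 1152921504606846976 1152921504606846976 0 fun c1 a1_1 a1_2 a1_3 q1 =>
  smulK 3 10 11529215046068469770 3458764513820540928 z3 1152921504606846976 1152921504606846976 (Nat.add w3 1152921504606846976) 0 fun c3 a3_1 a3_2 a3_3 q3 =>
  subK c1 a1_1 a1_2 a1_3 q1 c3 a3_1 a3_2 a3_3 q3 fun c4 a4_1 a4_2 a4_3 q4 =>
  posK c4 a4_1 a4_2 a4_3 q4 <|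
  smulK 9 20 23058430092136939540 10376293541461622784 p1 1152921504606846976 1152921504606846976 1152921504606846976 0 fun c5 a5_1 a5_2 a5_3 q5 =>
  addcK c5 a5_1 a5_2 a5_3 q5 1152922109338242253 1 fun c6 a6_1 a6_2 a6_3 q6 =>
  smulK 21 50 57646075230342348850 24211351596743786496 c6 a6_1 a6_2 a6_3 q6 fun c9 a9_1 a9_2 a9_3 q9 =>
  negK c9 a9_1 a9_2 a9_3 q9 fun c10 a10_1 a10_2 a10_3 q10 =>
  addcK c10 a10_1 a10_2 a10_3 q10 1152922164313823642 1 fun c11 a11_1 a11_2 a11_3 q11 =>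
  mulK c6 a6_1 a6_2 a6_3 q6 c11 a11_1 a11_2 a11_3 q11 fun c13 a13_1 a13_2 a13_3 q13 =>
  addcK c13 a13_1 a13_2 a13_3 q13 1152921449631265587 1 fun c14 a14_1 a14_2 a14_3 q14 =>
  sqK c6 a6_1 a6_2 a6_3 q6 fun c16 a16_1 a16_2 a16_3 q16 =>
  addcK c16 a16_1 a16_2 a16_3 q16 1152922604118474752 0 fun c17 a17_1 a17_2 a17_3 q17 =>
  invK c17 a17_1 a17_2 a17_3 q17 fun c19 a19_1 a19_2 a19_3 q19 =>
  mulK c14 a14_1 a14_2 a14_3 q14 c19 a19_1 a19_2 a19_3 q19 fun c22 a22_1 a22_2 a22_3 q22 =>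
  mulK z3 1152921504606846976 1152921504606846976 (Nat.add w3 1152921504606846976) 0 c22 a22_1 a22_2 a22_3 q22 fun c23 a23_1 a23_2 a23_3 q23 =>
  addcK c23 a23_1 a23_2 a23_3 q23 1152922604118474752 0 fun c24 a24_1 a24_2 a24_3 q24 =>
  smulK 2 1 1152921504606846977 2305843009213693952 z1 (Nat.add w1 1152921504606846976) 1152921504606846976 1152921504606846976 0 fun c27 a27_1 a27_2 a27_3 q27 =>
  addcK c27 a27_1 a27_2 a27_3 q27 1152920954851033088 0 fun c28 a28_1 a28_2 a28_3 q28 =>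
  smulK 987 1000 1152921504606846977000 1137933525046957965312 c28 a28_1 a28_2 a28_3 q28 fun c31 a31_1 a31_2 a31_3 q31 =>
  negK c31 a31_1 a31_2 a31_3 q31 fun c32 a32_1 a32_2 a32_3 q32 =>
  addcK c32 a32_1 a32_2 a32_3 q32 1152925987315753419 1 fun c34 a34_1 a34_2 a34_3 q34 =>
  mulK c34 a34_1 a34_2 a34_3 q34 c28 a28_1 a28_2 a28_3 q28 fun c35 a35_1 a35_2 a35_3 q35 =>
  addcK c35 a35_1 a35_2 a35_3 q35 1152915142007934943 1 fun c36 a36_1 a36_2 a36_3 q36 =>
  mulK c36 a36_1 a36_2 a36_3 q36 c28 a28_1 a28_2 a28_3 q28 fun c37 a37_1 a37_2 a37_3 q37 =>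
  addcK c37 a37_1 a37_2 a37_3 q37 1152924586812817539 1 fun c38 a38_1 a38_2 a38_3 q38 =>
  mulK c38 a38_1 a38_2 a38_3 q38 c28 a28_1 a28_2 a28_3 q28 fun c39 a39_1 a39_2 a39_3 q39 =>
  addcK c39 a39_1 a39_2 a39_3 q39 1152921546869325169 1 fun c40 a40_1 a40_2 a40_3 q40 =>
  mulK c40 a40_1 a40_2 a40_3 q40 c28 a28_1 a28_2 a28_3 q28 fun c41 a41_1 a41_2 a41_3 q41 =>
  addcK c41 a41_1 a41_2 a41_3 q41 1152921643626348413 1 fun c42 a42_1 a42_2 a42_3 q42 =>
  mulK c42 a42_1 a42_2 a42_3 q42 c28 a28_1 a28_2 a28_3 q28 fun c43 a43_1 a43_2 a43_3 q43 =>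
  addcK c43 a43_1 a43_2 a43_3 q43 1152920461702888161 1 fun c44 a44_1 a44_2 a44_3 q44 =>
  mulK c44 a44_1 a44_2 a44_3 q44 c28 a28_1 a28_2 a28_3 q28 fun c45 a45_1 a45_2 a45_3 q45 =>
  addcK c45 a45_1 a45_2 a45_3 q45 1152922806961190207 1 fun c46 a46_1 a46_2 a46_3 q46 =>
  sqK z2 1152921504606846976 (Nat.add w2 1152921504606846976) 1152921504606846976 0 fun c48 a48_1 a48_2 a48_3 q48 =>
  mulK z1 (Nat.add w1 1152921504606846976) 1152921504606846976 1152921504606846976 0 c48 a48_1 a48_2 a48_3 q48 fun c49 a49_1 a49_2 a49_3 q49 =>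
  smulK 4 1 1152921504606846977 4611686018427387904 c49 a49_1 a49_2 a49_3 q49 fun c50 a50_1 a50_2 a50_3 q50 =>
  smulK 6909 500 576460752303423488500 7965534675328705757184 c28 a28_1 a28_2 a28_3 q28 fun c52 a52_1 a52_2 a52_3 q52 =>
  negK c52 a52_1 a52_2 a52_3 q52 fun c53 a53_1 a53_2 a53_3 q53 =>
  addcK c53 a53_1 a53_2 a53_3 q53 1152962875655987397 1 fun c55 a55_1 a55_2 a55_3 q55 =>
  mulK c55 a55_1 a55_2 a55_3 q55 c28 a28_1 a28_2 a28_3 q28 fun c56 a56_1 a56_2 a56_3 q56 =>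
  addcK c56 a56_1 a56_2 a56_3 q56 1152890595273405891 1 fun c57 a57_1 a57_2 a57_3 q57 =>
  mulK c57 a57_1 a57_2 a57_3 q57 c28 a28_1 a28_2 a28_3 q28 fun c58 a58_1 a58_2 a58_3 q58 =>
  addcK c58 a58_1 a58_2 a58_3 q58 1152921009139419709 1 fun c59 a59_1 a59_2 a59_3 q59 =>
  mulK c59 a59_1 a59_2 a59_3 q59 c28 a28_1 a28_2 a28_3 q28 fun c60 a60_1 a60_2 a60_3 q60 =>
  addcK c60 a60_1 a60_2 a60_3 q60 1152926254703237399 1 fun c61 a61_1 a61_2 a61_3 q61 =>
  mulK c61 a61_1 a61_2 a61_3 q61 c28 a28_1 a28_2 a28_3 q28 fun c62 a62_1 a62_2 a62_3 q62 =>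
  addcK c62 a62_1 a62_2 a62_3 q62 1152921744832957776 1 fun c63 a63_1 a63_2 a63_3 q63 =>
  mulK c63 a63_1 a63_2 a63_3 q63 c28 a28_1 a28_2 a28_3 q28 fun c64 a64_1 a64_2 a64_3 q64 =>
  addcK c64 a64_1 a64_2 a64_3 q64 1152921017909742928 1 fun c65 a65_1 a65_2 a65_3 q65 =>
  mulK z1 (Nat.add w1 1152921504606846976) 1152921504606846976 1152921504606846976 0 z2 1152921504606846976 (Nat.add w2 1152921504606846976) 1152921504606846976 0 fun c66 a66_1 a66_2 a66_3 q66 =>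
  sqK c66 a66_1 a66_2 a66_3 q66 fun c67 a67_1 a67_2 a67_3 q67 =>
  smulK 4 1 1152921504606846977 4611686018427387904 c67 a67_1 a67_2 a67_3 q67 fun c68 a68_1 a68_2 a68_3 q68 =>
  smulK 6909 200 230584300921369395400 7965534675328705757184 c28 a28_1 a28_2 a28_3 q28 fun c70 a70_1 a70_2 a70_3 q70 =>
  negK c70 a70_1 a70_2 a70_3 q70 fun c71 a71_1 a71_2 a71_3 q71 =>
  addcK c71 a71_1 a71_2 a71_3 q71 1152990456355414344 1 fun c73 a73_1 a73_2 a73_3 q73 =>
  mulK c73 a73_1 a73_2 a73_3 q73 c28 a28_1 a28_2 a28_3 q28 fun c74 a74_1 a74_2 a74_3 q74 =>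
  addcK c74 a74_1 a74_2 a74_3 q74 1152890595273405891 1 fun c75 a75_1 a75_2 a75_3 q75 =>
  mulK c75 a75_1 a75_2 a75_3 q75 c28 a28_1 a28_2 a28_3 q28 fun c76 a76_1 a76_2 a76_3 q76 =>
  addcK c76 a76_1 a76_2 a76_3 q76 1152921256873133343 1 fun c77 a77_1 a77_2 a77_3 q77 =>
  mulK c77 a77_1 a77_2 a77_3 q77 c28 a28_1 a28_2 a28_3 q28 fun c78 a78_1 a78_2 a78_3 q78 =>
  addcK c78 a78_1 a78_2 a78_3 q78 1152922296289578713 1 fun c79 a79_1 a79_2 a79_3 q79 =>
  addcK c53 a53_1 a53_2 a53_3 q53 1152935294956560450 1 fun c80 a80_1 a80_2 a80_3 q80 =>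
  mulK c80 a80_1 a80_2 a80_3 q80 c28 a28_1 a28_2 a28_3 q28 fun c81 a81_1 a81_2 a81_3 q81 =>
  addcK c81 a81_1 a81_2 a81_3 q81 1152919443984617570 1 fun c82 a82_1 a82_2 a82_3 q82 =>
  smulK 987 2000 2305843009213693954000 1137933525046957965312 c68 a68_1 a68_2 a68_3 q68 fun c83 a83_1 a83_2 a83_3 q83 =>
  negK c83 a83_1 a83_2 a83_3 q83 fun c84 a84_1 a84_2 a84_3 q84 =>
  addK c82 a82_1 a82_2 a82_3 q82 c84 a84_1 a84_2 a84_3 q84 fun c86 a86_1 a86_2 a86_3 q86 =>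
  mulK c68 a68_1 a68_2 a68_3 q68 c86 a86_1 a86_2 a86_3 q86 fun c87 a87_1 a87_2 a87_3 q87 =>
  addK c79 a79_1 a79_2 a79_3 q79 c87 a87_1 a87_2 a87_3 q87 fun c88 a88_1 a88_2 a88_3 q88 =>
  mulK c68 a68_1 a68_2 a68_3 q68 c88 a88_1 a88_2 a88_3 q88 fun c89 a89_1 a89_2 a89_3 q89 =>
  addK c65 a65_1 a65_2 a65_3 q65 c89 a89_1 a89_2 a89_3 q89 fun c90 a90_1 a90_2 a90_3 q90 =>
  mulK c50 a50_1 a50_2 a50_3 q50 c90 a90_1 a90_2 a90_3 q90 fun c92 a92_1 a92_2 a92_3 q92 =>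
  addK c46 a46_1 a46_2 a46_3 q46 c92 a92_1 a92_2 a92_3 q92 fun c93 a93_1 a93_2 a93_3 q93 =>
  smulK 987 250 288230376151711744250 1137933525046957965312 c28 a28_1 a28_2 a28_3 q28 fun c95 a95_1 a95_2 a95_3 q95 =>
  negK c95 a95_1 a95_2 a95_3 q95 fun c96 a96_1 a96_2 a96_3 q96 =>
  addcK c96 a96_1 a96_2 a96_3 q96 1152935294956560450 1 fun c98 a98_1 a98_2 a98_3 q98 =>
  mulK c98 a98_1 a98_2 a98_3 q98 c28 a28_1 a28_2 a28_3 q28 fun c99 a99_1 a99_2 a99_3 q99 =>
  addcK c99 a99_1 a99_2 a99_3 q99 1152909140873470542 1 fun c100 a100_1 a100_2 a100_3 q100 =>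
  mulK c100 a100_1 a100_2 a100_3 q100 c28 a28_1 a28_2 a28_3 q28 fun c101 a101_1 a101_2 a101_3 q101 =>
  addcK c101 a101_1 a101_2 a101_3 q101 1152921256873133343 1 fun c102 a102_1 a102_2 a102_3 q102 =>
  mulK c102 a102_1 a102_2 a102_3 q102 c28 a28_1 a28_2 a28_3 q28 fun c103 a103_1 a103_2 a103_3 q103 =>
  addcK c103 a103_1 a103_2 a103_3 q103 1152924671337773924 1 fun c104 a104_1 a104_2 a104_3 q104 =>
  mulK c104 a104_1 a104_2 a104_3 q104 c28 a28_1 a28_2 a28_3 q28 fun c105 a105_1 a105_2 a105_3 q105 =>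
  addcK c105 a105_1 a105_2 a105_3 q105 1152921744832957776 1 fun c106 a106_1 a106_2 a106_3 q106 =>
  mulK c106 a106_1 a106_2 a106_3 q106 c28 a28_1 a28_2 a28_3 q28 fun c107 a107_1 a107_2 a107_3 q107 =>
  addcK c107 a107_1 a107_2 a107_3 q107 1152920531212638880 1 fun c108 a108_1 a108_2 a108_3 q108 =>
  mulK c108 a108_1 a108_2 a108_3 q108 c28 a28_1 a28_2 a28_3 q28 fun c109 a109_1 a109_2 a109_3 q109 =>
  addcK c109 a109_1 a109_2 a109_3 q109 1152921895058028888 1 fun c110 a110_1 a110_2 a110_3 q110 =>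
  smulK 6909 250 288230376151711744250 7965534675328705757184 c28 a28_1 a28_2 a28_3 q28 fun c111 a111_1 a111_2 a111_3 q111 =>
  negK c111 a111_1 a111_2 a111_3 q111 fun c112 a112_1 a112_2 a112_3 q112 =>
  addcK c112 a112_1 a112_2 a112_3 q112 1152990456355414344 1 fun c114 a114_1 a114_2 a114_3 q114 =>
  mulK c114 a114_1 a114_2 a114_3 q114 c28 a28_1 a28_2 a28_3 q28 fun c115 a115_1 a115_2 a115_3 q115 =>
  addcK c115 a115_1 a115_2 a115_3 q115 1152880292162258862 1 fun c116 a116_1 a116_2 a116_3 q116 =>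
  mulK c116 a116_1 a116_2 a116_3 q116 c28 a28_1 a28_2 a28_3 q28 fun c117 a117_1 a117_2 a117_3 q117 =>
  addcK c117 a117_1 a117_2 a117_3 q117 1152921009139419709 1 fun c118 a118_1 a118_2 a118_3 q118 =>
  mulK c118 a118_1 a118_2 a118_3 q118 c28 a28_1 a28_2 a28_3 q28 fun c119 a119_1 a119_2 a119_3 q119 =>
  addcK c119 a119_1 a119_2 a119_3 q119 1152924671337773924 1 fun c120 a120_1 a120_2 a120_3 q120 =>
  mulK c120 a120_1 a120_2 a120_3 q120 c28 a28_1 a28_2 a28_3 q28 fun c121 a121_1 a121_2 a121_3 q121 =>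
  addcK c121 a121_1 a121_2 a121_3 q121 1152921584682217243 1 fun c122 a122_1 a122_2 a122_3 q122 =>
  addcK c112 a112_1 a112_2 a112_3 q112 1152962875655987397 1 fun c123 a123_1 a123_2 a123_3 q123 =>
  mulK c123 a123_1 a123_2 a123_3 q123 c28 a28_1 a28_2 a28_3 q28 fun c124 a124_1 a124_2 a124_3 q124 =>
  addcK c124 a124_1 a124_2 a124_3 q124 1152909140873470542 1 fun c125 a125_1 a125_2 a125_3 q125 =>
  mulK c125 a125_1 a125_2 a125_3 q125 c28 a28_1 a28_2 a28_3 q28 fun c126 a126_1 a126_2 a126_3 q126 =>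
  addcK c126 a126_1 a126_2 a126_3 q126 1152921455060104249 1 fun c127 a127_1 a127_2 a127_3 q127 =>
  addcK c96 a96_1 a96_2 a96_3 q96 1152923474656806044 1 fun c128 a128_1 a128_2 a128_3 q128 =>
  mulK c68 a68_1 a68_2 a68_3 q68 c128 a128_1 a128_2 a128_3 q128 fun c129 a129_1 a129_2 a129_3 q129 =>
  addK c127 a127_1 a127_2 a127_3 q127 c129 a129_1 a129_2 a129_3 q129 fun c130 a130_1 a130_2 a130_3 q130 =>
  mulK c68 a68_1 a68_2 a68_3 q68 c130 a130_1 a130_2 a130_3 q130 fun c131 a131_1 a131_2 a131_3 q131 =>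
  addK c122 a122_1 a122_2 a122_3 q122 c131 a131_1 a131_2 a131_3 q131 fun c132 a132_1 a132_2 a132_3 q132 =>
  mulK c68 a68_1 a68_2 a68_3 q68 c132 a132_1 a132_2 a132_3 q132 fun c133 a133_1 a133_2 a133_3 q133 =>
  addK c110 a110_1 a110_2 a110_3 q110 c133 a133_1 a133_2 a133_3 q133 fun c134 a134_1 a134_2 a134_3 q134 =>
  mulK z2 1152921504606846976 (Nat.add w2 1152921504606846976) 1152921504606846976 0 c134 a134_1 a134_2 a134_3 q134 fun c136 a136_1 a136_2 a136_3 q136 =>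
  smulK 2 1 1152921504606846977 2305843009213693952 c136 a136_1 a136_2 a136_3 q136 fun c137 a137_1 a137_2 a137_3 q137 =>
  subK c93 a93_1 a93_2 a93_3 q93 c137 a137_1 a137_2 a137_3 q137 fun c138 a138_1 a138_2 a138_3 q138 =>
  mulK c24 a24_1 a24_2 a24_3 q24 c138 a138_1 a138_2 a138_3 q138 fun c140 a140_1 a140_2 a140_3 q140 =>
  negK c6 a6_1 a6_2 a6_3 q6 fun c141 a141_1 a141_2 a141_3 q141 =>
  addcK c141 a141_1 a141_2 a141_3 q141 1152922604118474752 0 fun c142 a142_1 a142_2 a142_3 q142 =>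
  mulK c142 a142_1 a142_2 a142_3 q142 c19 a19_1 a19_2 a19_3 q19 fun c144 a144_1 a144_2 a144_3 q144 =>
  addcK c6 a6_1 a6_2 a6_3 q6 1152922604118474752 0 fun c145 a145_1 a145_2 a145_3 q145 =>
  smulK 93 100 115292150460684697700 107221699928436768768 c6 a6_1 a6_2 a6_3 q6 fun c147 a147_1 a147_2 a147_3 q147 =>
  addcK c147 a147_1 a147_2 a147_3 q147 1152921317689870254 1 fun c148 a148_1 a148_2 a148_3 q148 =>
  smulK 3 25 28823037615171174425 3458764513820540928 c6 a6_1 a6_2 a6_3 q6 fun c150 a150_1 a150_2 a150_3 q150 =>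
  addcK c150 a150_1 a150_2 a150_3 q150 1152921614558009754 1 fun c151 a151_1 a151_2 a151_3 q151 =>
  mulK z3 1152921504606846976 1152921504606846976 (Nat.add w3 1152921504606846976) 0 c151 a151_1 a151_2 a151_3 q151 fun c153 a153_1 a153_2 a153_3 q153 =>
  addK c148 a148_1 a148_2 a148_3 q148 c153 a153_1 a153_2 a153_3 q153 fun c154 a154_1 a154_2 a154_3 q154 =>
  mulK z3 1152921504606846976 1152921504606846976 (Nat.add w3 1152921504606846976) 0 c154 a154_1 a154_2 a154_3 q154 fun c155 a155_1 a155_2 a155_3 q155 =>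
  subK c145 a145_1 a145_2 a145_3 q145 c155 a155_1 a155_2 a155_3 q155 fun c156 a156_1 a156_2 a156_3 q156 =>
  mulK c144 a144_1 a144_2 a144_3 q144 c156 a156_1 a156_2 a156_3 q156 fun c158 a158_1 a158_2 a158_3 q158 =>
  addK c93 a93_1 a93_2 a93_3 q93 c137 a137_1 a137_2 a137_3 q137 fun c160 a160_1 a160_2 a160_3 q160 =>
  mulK c158 a158_1 a158_2 a158_3 q158 c160 a160_1 a160_2 a160_3 q160 fun c162 a162_1 a162_2 a162_3 q162 =>
  addK c140 a140_1 a140_2 a140_3 q140 c162 a162_1 a162_2 a162_3 q162 fun c163 a163_1 a163_2 a163_3 q163 =>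
  smulK 2 1 1152921504606846977 2305843009213693952 c6 a6_1 a6_2 a6_3 q6 fun c164 a164_1 a164_2 a164_3 q164 =>
  smulK 1 250 288230376151711744250 1152921504606846976 c142 a142_1 a142_2 a142_3 q142 fun c165 a165_1 a165_2 a165_3 q165 =>
  subK c164 a164_1 a164_2 a164_3 q164 c165 a165_1 a165_2 a165_3 q165 fun c166 a166_1 a166_2 a166_3 q166 =>
  mulK c166 a166_1 a166_2 a166_3 q166 c19 a19_1 a19_2 a19_3 q19 fun c167 a167_1 a167_2 a167_3 q167 =>
  mulK z2 1152921504606846976 (Nat.add w2 1152921504606846976) 1152921504606846976 0 c167 a167_1 a167_2 a167_3 q167 fun c169 a169_1 a169_2 a169_3 q169 =>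
  smulK 2 1 1152921504606846977 2305843009213693952 c169 a169_1 a169_2 a169_3 q169 fun c170 a170_1 a170_2 a170_3 q170 =>
  addK c163 a163_1 a163_2 a163_3 q163 c170 a170_1 a170_2 a170_3 q170 fun c171 a171_1 a171_2 a171_3 q171 =>
  smulK 2 1 1152921504606846977 2305843009213693952 c46 a46_1 a46_2 a46_3 q46 fun c172 a172_1 a172_2 a172_3 q172 =>
  subK c171 a171_1 a171_2 a171_3 q171 c172 a172_1 a172_2 a172_3 q172 fun c173 a173_1 a173_2 a173_3 q173 =>
  posK c173 a173_1 a173_2 a173_3 q173 <|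
  smulK 3 25 28823037615171174425 3458764513820540928 z3 1152921504606846976 1152921504606846976 (Nat.add w3 1152921504606846976) 0 fun c175 a175_1 a175_2 a175_3 q175 =>
  sqK c1 a1_1 a1_2 a1_3 q1 fun c176 a176_1 a176_2 a176_3 q176 =>
  addcK c176 a176_1 a176_2 a176_3 q176 1152922604118474752 0 fun c177 a177_1 a177_2 a177_3 q177 =>
  invK c177 a177_1 a177_2 a177_3 q177 fun c179 a179_1 a179_2 a179_3 q179 =>
  smulK 2 1 1152921504606846977 2305843009213693952 c1 a1_1 a1_2 a1_3 q1 fun c180 a180_1 a180_2 a180_3 q180 =>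
  mulK c180 a180_1 a180_2 a180_3 q180 c179 a179_1 a179_2 a179_3 q179 fun c181 a181_1 a181_2 a181_3 q181 =>
  smulK 3 10 11529215046068469770 3458764513820540928 c181 a181_1 a181_2 a181_3 q181 fun c184 a184_1 a184_2 a184_3 q184 =>
  mulK c1 a1_1 a1_2 a1_3 q1 c181 a181_1 a181_2 a181_3 q181 fun c185 a185_1 a185_2 a185_3 q185 =>
  smulK 1 4 4611686018427387908 1152921504606846976 c185 a185_1 a185_2 a185_3 q185 fun c187 a187_1 a187_2 a187_3 q187 =>
  subK c184 a184_1 a184_2 a184_3 q184 c187 a187_1 a187_2 a187_3 q187 fun c189 a189_1 a189_2 a189_3 q189 =>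
  addK c175 a175_1 a175_2 a175_3 q175 c189 a189_1 a189_2 a189_3 q189 fun c190 a190_1 a190_2 a190_3 q190 =>
  mulK z3 1152921504606846976 1152921504606846976 (Nat.add w3 1152921504606846976) 0 c190 a190_1 a190_2 a190_3 q190 fun c191 a191_1 a191_2 a191_3 q191 =>
  addcK c191 a191_1 a191_2 a191_3 q191 1152922604118474752 0 fun c192 a192_1 a192_2 a192_3 q192 =>
  addcK c32 a32_1 a32_2 a32_3 q32 1152926788859730067 1 fun c195 a195_1 a195_2 a195_3 q195 =>
  mulK c195 a195_1 a195_2 a195_3 q195 c28 a28_1 a28_2 a28_3 q28 fun c196 a196_1 a196_2 a196_3 q196 =>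
  addcK c196 a196_1 a196_2 a196_3 q196 1152911935832028348 1 fun c197 a197_1 a197_2 a197_3 q197 =>
  mulK c197 a197_1 a197_2 a197_3 q197 c28 a28_1 a28_2 a28_3 q28 fun c198 a198_1 a198_2 a198_3 q198 =>
  addcK c198 a198_1 a198_2 a198_3 q198 1152929145662904205 1 fun c199 a199_1 a199_2 a199_3 q199 =>
  mulK c199 a199_1 a199_2 a199_3 q199 c28 a28_1 a28_2 a28_3 q28 fun c200 a200_1 a200_2 a200_3 q200 =>
  addcK c200 a200_1 a200_2 a200_3 q200 1152918891548744090 1 fun c201 a201_1 a201_2 a201_3 q201 =>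
  mulK c201 a201_1 a201_2 a201_3 q201 c28 a28_1 a28_2 a28_3 q28 fun c202 a202_1 a202_2 a202_3 q202 =>
  addcK c202 a202_1 a202_2 a202_3 q202 1152922602056890450 1 fun c203 a203_1 a203_2 a203_3 q203 =>
  mulK c203 a203_1 a203_2 a203_3 q203 c28 a28_1 a28_2 a28_3 q28 fun c204 a204_1 a204_2 a204_3 q204 =>
  addcK c204 a204_1 a204_2 a204_3 q204 1152919509525818507 1 fun c205 a205_1 a205_2 a205_3 q205 =>
  mulK c205 a205_1 a205_2 a205_3 q205 c28 a28_1 a28_2 a28_3 q28 fun c206 a206_1 a206_2 a206_3 q206 =>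
  addcK c206 a206_1 a206_2 a206_3 q206 1152923178097904189 1 fun c207 a207_1 a207_2 a207_3 q207 =>
  addcK c53 a53_1 a53_2 a53_3 q53 1152971291867742208 0 fun c209 a209_1 a209_2 a209_3 q209 =>
  mulK c209 a209_1 a209_2 a209_3 q209 c28 a28_1 a28_2 a28_3 q28 fun c210 a210_1 a210_2 a210_3 q210 =>
  addcK c210 a210_1 a210_2 a210_3 q210 1152869554744018862 1 fun c211 a211_1 a211_2 a211_3 q211 =>
  mulK c211 a211_1 a211_2 a211_3 q211 c28 a28_1 a28_2 a28_3 q28 fun c212 a212_1 a212_2 a212_3 q212 =>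
  addcK c212 a212_1 a212_2 a212_3 q212 1152935787950086554 1 fun c213 a213_1 a213_2 a213_3 q213 =>
  mulK c213 a213_1 a213_2 a213_3 q213 c28 a28_1 a28_2 a28_3 q28 fun c214 a214_1 a214_2 a214_3 q214 =>
  addcK c214 a214_1 a214_2 a214_3 q214 1152925127016624161 1 fun c215 a215_1 a215_2 a215_3 q215 =>
  mulK c215 a215_1 a215_2 a215_3 q215 c28 a28_1 a28_2 a28_3 q28 fun c216 a216_1 a216_2 a216_3 q216 =>
  addcK c216 a216_1 a216_2 a216_3 q216 1152921190988335022 1 fun c217 a217_1 a217_2 a217_3 q217 =>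
  mulK c217 a217_1 a217_2 a217_3 q217 c28 a28_1 a28_2 a28_3 q28 fun c218 a218_1 a218_2 a218_3 q218 =>
  addcK c218 a218_1 a218_2 a218_3 q218 1152920781428843610 1 fun c219 a219_1 a219_2 a219_3 q219 =>
  addcK c71 a71_1 a71_2 a71_3 q71 1153004483375005696 0 fun c220 a220_1 a220_2 a220_3 q220 =>
  mulK c220 a220_1 a220_2 a220_3 q220 c28 a28_1 a28_2 a28_3 q28 fun c221 a221_1 a221_2 a221_3 q221 =>
  addcK c221 a221_1 a221_2 a221_3 q221 1152869554744018862 1 fun c222 a222_1 a222_2 a222_3 q222 =>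
  mulK c222 a222_1 a222_2 a222_3 q222 c28 a28_1 a28_2 a28_3 q28 fun c223 a223_1 a223_2 a223_3 q223 =>
  addcK c223 a223_1 a223_2 a223_3 q223 1152928646278466765 1 fun c224 a224_1 a224_2 a224_3 q224 =>
  mulK c224 a224_1 a224_2 a224_3 q224 c28 a28_1 a28_2 a28_3 q28 fun c225 a225_1 a225_2 a225_3 q225 =>
  addcK c225 a225_1 a225_2 a225_3 q225 1152922108341809840 1 fun c226 a226_1 a226_2 a226_3 q226 =>
  addcK c53 a53_1 a53_2 a53_3 q53 1152938100360478720 0 fun c227 a227_1 a227_2 a227_3 q227 =>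
  mulK c227 a227_1 a227_2 a227_3 q227 c28 a28_1 a28_2 a28_3 q28 fun c228 a228_1 a228_2 a228_3 q228 =>
  addcK c228 a228_1 a228_2 a228_3 q228 1152918041282658435 1 fun c229 a229_1 a229_2 a229_3 q229 =>
  addK c229 a229_1 a229_2 a229_3 q229 c84 a84_1 a84_2 a84_3 q84 fun c230 a230_1 a230_2 a230_3 q230 =>
  mulK c68 a68_1 a68_2 a68_3 q68 c230 a230_1 a230_2 a230_3 q230 fun c231 a231_1 a231_2 a231_3 q231 =>
  addK c226 a226_1 a226_2 a226_3 q226 c231 a231_1 a231_2 a231_3 q231 fun c232 a232_1 a232_2 a232_3 q232 =>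
  mulK c68 a68_1 a68_2 a68_3 q68 c232 a232_1 a232_2 a232_3 q232 fun c233 a233_1 a233_2 a233_3 q233 =>
  addK c219 a219_1 a219_2 a219_3 q219 c233 a233_1 a233_2 a233_3 q233 fun c234 a234_1 a234_2 a234_3 q234 =>
  mulK c50 a50_1 a50_2 a50_3 q50 c234 a234_1 a234_2 a234_3 q234 fun c236 a236_1 a236_2 a236_3 q236 =>
  addK c207 a207_1 a207_2 a207_3 q207 c236 a236_1 a236_2 a236_3 q236 fun c237 a237_1 a237_2 a237_3 q237 =>
  addcK c96 a96_1 a96_2 a96_3 q96 1152938100360478720 0 fun c239 a239_1 a239_2 a239_3 q239 =>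
  mulK c239 a239_1 a239_2 a239_3 q239 c28 a28_1 a28_2 a28_3 q28 fun c240 a240_1 a240_2 a240_3 q240 =>
  addcK c240 a240_1 a240_2 a240_3 q240 1152900724661715730 1 fun c241 a241_1 a241_2 a241_3 q241 =>
  mulK c241 a241_1 a241_2 a241_3 q241 c28 a28_1 a28_2 a28_3 q28 fun c242 a242_1 a242_2 a242_3 q242 =>
  addcK c242 a242_1 a242_2 a242_3 q242 1152928646278466765 1 fun c243 a243_1 a243_2 a243_3 q243 =>
  mulK c243 a243_1 a243_2 a243_3 q243 c28 a28_1 a28_2 a28_3 q28 fun c244 a244_1 a244_2 a244_3 q244 =>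
  addcK c244 a244_1 a244_2 a244_3 q244 1152923919546698433 1 fun c245 a245_1 a245_2 a245_3 q245 =>
  mulK c245 a245_1 a245_2 a245_3 q245 c28 a28_1 a28_2 a28_3 q28 fun c246 a246_1 a246_2 a246_3 q246 =>
  addcK c246 a246_1 a246_2 a246_3 q246 1152921190988335022 1 fun c247 a247_1 a247_2 a247_3 q247 =>
  mulK c247 a247_1 a247_2 a247_3 q247 c28 a28_1 a28_2 a28_3 q28 fun c248 a248_1 a248_2 a248_3 q248 =>
  addcK c248 a248_1 a248_2 a248_3 q248 1152920058250840244 1 fun c249 a249_1 a249_2 a249_3 q249 =>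
  mulK c249 a249_1 a249_2 a249_3 q249 c28 a28_1 a28_2 a28_3 q28 fun c250 a250_1 a250_2 a250_3 q250 =>
  addcK c250 a250_1 a250_2 a250_3 q250 1152921842582118466 1 fun c251 a251_1 a251_2 a251_3 q251 =>
  addcK c112 a112_1 a112_2 a112_3 q112 1153004483375005696 0 fun c252 a252_1 a252_2 a252_3 q252 =>
  mulK c252 a252_1 a252_2 a252_3 q252 c28 a28_1 a28_2 a28_3 q28 fun c253 a253_1 a253_2 a253_3 q253 =>
  addcK c253 a253_1 a253_2 a253_3 q253 1152852238123076157 1 fun c254 a254_1 a254_2 a254_3 q254 =>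
  mulK c254 a254_1 a254_2 a254_3 q254 c28 a28_1 a28_2 a28_3 q28 fun c255 a255_1 a255_2 a255_3 q255 =>
  addcK c255 a255_1 a255_2 a255_3 q255 1152935787950086554 1 fun c256 a256_1 a256_2 a256_3 q256 =>
  mulK c256 a256_1 a256_2 a256_3 q256 c28 a28_1 a28_2 a28_3 q28 fun c257 a257_1 a257_2 a257_3 q257 =>
  addcK c257 a257_1 a257_2 a257_3 q257 1152923919546698433 1 fun c258 a258_1 a258_2 a258_3 q258 =>
  mulK c258 a258_1 a258_2 a258_3 q258 c28 a28_1 a28_2 a28_3 q28 fun c259 a259_1 a259_2 a259_3 q259 =>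
  addcK c259 a259_1 a259_2 a259_3 q259 1152921400067342991 1 fun c260 a260_1 a260_2 a260_3 q260 =>
  addcK c112 a112_1 a112_2 a112_3 q112 1152971291867742208 0 fun c261 a261_1 a261_2 a261_3 q261 =>
  mulK c261 a261_1 a261_2 a261_3 q261 c28 a28_1 a28_2 a28_3 q28 fun c262 a262_1 a262_2 a262_3 q262 =>
  addcK c262 a262_1 a262_2 a262_3 q262 1152900724661715730 1 fun c263 a263_1 a263_2 a263_3 q263 =>
  mulK c263 a263_1 a263_2 a263_3 q263 c28 a28_1 a28_2 a28_3 q28 fun c264 a264_1 a264_2 a264_3 q264 =>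
  addcK c264 a264_1 a264_2 a264_3 q264 1152922932941170934 1 fun c265 a265_1 a265_2 a265_3 q265 =>
  addcK c96 a96_1 a96_2 a96_3 q96 1152923875428794368 0 fun c266 a266_1 a266_2 a266_3 q266 =>
  mulK c68 a68_1 a68_2 a68_3 q68 c266 a266_1 a266_2 a266_3 q266 fun c267 a267_1 a267_2 a267_3 q267 =>
  addK c265 a265_1 a265_2 a265_3 q265 c267 a267_1 a267_2 a267_3 q267 fun c268 a268_1 a268_2 a268_3 q268 =>
  mulK c68 a68_1 a68_2 a68_3 q68 c268 a268_1 a268_2 a268_3 q268 fun c269 a269_1 a269_2 a269_3 q269 =>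
  addK c260 a260_1 a260_2 a260_3 q260 c269 a269_1 a269_2 a269_3 q269 fun c270 a270_1 a270_2 a270_3 q270 =>
  mulK c68 a68_1 a68_2 a68_3 q68 c270 a270_1 a270_2 a270_3 q270 fun c271 a271_1 a271_2 a271_3 q271 =>
  addK c251 a251_1 a251_2 a251_3 q251 c271 a271_1 a271_2 a271_3 q271 fun c272 a272_1 a272_2 a272_3 q272 =>
  mulK z2 1152921504606846976 (Nat.add w2 1152921504606846976) 1152921504606846976 0 c272 a272_1 a272_2 a272_3 q272 fun c274 a274_1 a274_2 a274_3 q274 =>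
  smulK 2 1 1152921504606846977 2305843009213693952 c274 a274_1 a274_2 a274_3 q274 fun c275 a275_1 a275_2 a275_3 q275 =>
  addK c237 a237_1 a237_2 a237_3 q237 c275 a275_1 a275_2 a275_3 q275 fun c276 a276_1 a276_2 a276_3 q276 =>
  mulK c192 a192_1 a192_2 a192_3 q192 c276 a276_1 a276_2 a276_3 q276 fun c278 a278_1 a278_2 a278_3 q278 =>
  negK c185 a185_1 a185_2 a185_3 q185 fun c279 a279_1 a279_2 a279_3 q279 =>
  addcK c279 a279_1 a279_2 a279_3 q279 1152922604118474752 0 fun c280 a280_1 a280_2 a280_3 q280 =>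
  smulK 7 25 28823037615171174425 8070450532247928832 c181 a181_1 a181_2 a181_3 q181 fun c282 a282_1 a282_2 a282_3 q282 =>
  subK c282 a282_1 a282_2 a282_3 q282 c187 a187_1 a187_2 a187_3 q187 fun c283 a283_1 a283_2 a283_3 q283 =>
  addK c175 a175_1 a175_2 a175_3 q175 c283 a283_1 a283_2 a283_3 q283 fun c284 a284_1 a284_2 a284_3 q284 =>
  mulK z3 1152921504606846976 1152921504606846976 (Nat.add w3 1152921504606846976) 0 c284 a284_1 a284_2 a284_3 q284 fun c285 a285_1 a285_2 a285_3 q285 =>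
  subK c280 a280_1 a280_2 a280_3 q280 c285 a285_1 a285_2 a285_3 q285 fun c286 a286_1 a286_2 a286_3 q286 =>
  subK c237 a237_1 a237_2 a237_3 q237 c275 a275_1 a275_2 a275_3 q275 fun c288 a288_1 a288_2 a288_3 q288 =>
  mulK c286 a286_1 a286_2 a286_3 q286 c288 a288_1 a288_2 a288_3 q288 fun c290 a290_1 a290_2 a290_3 q290 =>
  addK c278 a278_1 a278_2 a278_3 q278 c290 a290_1 a290_2 a290_3 q290 fun c291 a291_1 a291_2 a291_3 q291 =>
  smulK 3 500 576460752303423488500 3458764513820540928 z3 1152921504606846976 1152921504606846976 (Nat.add w3 1152921504606846976) 0 fun c292 a292_1 a292_2 a292_3 q292 =>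
  negK c292 a292_1 a292_2 a292_3 q292 fun c293 a293_1 a293_2 a293_3 q293 =>
  addcK c293 a293_1 a293_2 a293_3 q293 1152922601919451496 1 fun c294 a294_1 a294_2 a294_3 q294 =>
  mulK c294 a294_1 a294_2 a294_3 q294 c181 a181_1 a181_2 a181_3 q181 fun c296 a296_1 a296_2 a296_3 q296 =>
  mulK z2 1152921504606846976 (Nat.add w2 1152921504606846976) 1152921504606846976 0 c296 a296_1 a296_2 a296_3 q296 fun c298 a298_1 a298_2 a298_3 q298 =>
  smulK 2 1 1152921504606846977 2305843009213693952 c298 a298_1 a298_2 a298_3 q298 fun c299 a299_1 a299_2 a299_3 q299 =>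
  addK c291 a291_1 a291_2 a291_3 q291 c299 a299_1 a299_2 a299_3 q299 fun c300 a300_1 a300_2 a300_3 q300 =>
  smulK 2 1 1152921504606846977 2305843009213693952 c207 a207_1 a207_2 a207_3 q207 fun c301 a301_1 a301_2 a301_3 q301 =>
  subK c300 a300_1 a300_2 a300_3 q300 c301 a301_1 a301_2 a301_3 q301 fun c302 a302_1 a302_2 a302_3 q302 =>
  posK c302 a302_1 a302_2 a302_3 q302 <|
  mulK c173 a173_1 a173_2 a173_3 q173 c302 a302_1 a302_2 a302_3 q302 fun c304 a304_1 a304_2 a304_3 q304 =>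
  mulK c24 a24_1 a24_2 a24_3 q24 c286 a286_1 a286_2 a286_3 q286 fun c305 a305_1 a305_2 a305_3 q305 =>
  sqrtK c305 a305_1 a305_2 a305_3 q305 fun c306 a306_1 a306_2 a306_3 q306 =>
  smulK 238 125 144115188075855872125 274395318096429580288 c28 a28_1 a28_2 a28_3 q28 fun c307 a307_1 a307_2 a307_3 q307 =>
  addcK c307 a307_1 a307_2 a307_3 q307 1152911037256150548 1 fun c308 a308_1 a308_2 a308_3 q308 =>
  mulK c308 a308_1 a308_2 a308_3 q308 c28 a28_1 a28_2 a28_3 q28 fun c309 a309_1 a309_2 a309_3 q309 =>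
  addcK c309 a309_1 a309_2 a309_3 q309 1152941418961449255 1 fun c310 a310_1 a310_2 a310_3 q310 =>
  mulK c310 a310_1 a310_2 a310_3 q310 c28 a28_1 a28_2 a28_3 q28 fun c311 a311_1 a311_2 a311_3 q311 =>
  addcK c311 a311_1 a311_2 a311_3 q311 1152903604557546783 1 fun c312 a312_1 a312_2 a312_3 q312 =>
  mulK c312 a312_1 a312_2 a312_3 q312 c28 a28_1 a28_2 a28_3 q28 fun c313 a313_1 a313_2 a313_3 q313 =>
  addcK c313 a313_1 a313_2 a313_3 q313 1152929554131473924 1 fun c314 a314_1 a314_2 a314_3 q314 =>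
  mulK c314 a314_1 a314_2 a314_3 q314 c28 a28_1 a28_2 a28_3 q28 fun c315 a315_1 a315_2 a315_3 q315 =>
  addcK c315 a315_1 a315_2 a315_3 q315 1152918908659893797 1 fun c316 a316_1 a316_2 a316_3 q316 =>
  mulK c316 a316_1 a316_2 a316_3 q316 c28 a28_1 a28_2 a28_3 q28 fun c317 a317_1 a317_2 a317_3 q317 =>
  addcK c317 a317_1 a317_2 a317_3 q317 1152922523854125924 1 fun c318 a318_1 a318_2 a318_3 q318 =>
  smulK 1666 125 144115188075855872125 1920767226675007062016 c28 a28_1 a28_2 a28_3 q28 fun c320 a320_1 a320_2 a320_3 q320 =>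
  addcK c320 a320_1 a320_2 a320_3 q320 1152877541733921980 1 fun c321 a321_1 a321_2 a321_3 q321 =>
  mulK c321 a321_1 a321_2 a321_3 q321 c28 a28_1 a28_2 a28_3 q28 fun c322 a322_1 a322_2 a322_3 q322 =>
  addcK c322 a322_1 a322_2 a322_3 q322 1152958893499749499 1 fun c323 a323_1 a323_2 a323_3 q323 =>
  mulK c323 a323_1 a323_2 a323_3 q323 c28 a28_1 a28_2 a28_3 q28 fun c324 a324_1 a324_2 a324_3 q324 =>
  addcK c324 a324_1 a324_2 a324_3 q324 1152919998275916923 1 fun c325 a325_1 a325_2 a325_3 q325 =>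
  mulK c325 a325_1 a325_2 a325_3 q325 c28 a28_1 a28_2 a28_3 q28 fun c326 a326_1 a326_2 a326_3 q326 =>
  addcK c326 a326_1 a326_2 a326_3 q326 1152914196702812963 1 fun c327 a327_1 a327_2 a327_3 q327 =>
  mulK c327 a327_1 a327_2 a327_3 q327 c28 a28_1 a28_2 a28_3 q28 fun c328 a328_1 a328_2 a328_3 q328 =>
  addcK c328 a328_1 a328_2 a328_3 q328 1152922238530858516 1 fun c329 a329_1 a329_2 a329_3 q329 =>
  mulK c329 a329_1 a329_2 a329_3 q329 c28 a28_1 a28_2 a28_3 q28 fun c330 a330_1 a330_2 a330_3 q330 =>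
  addcK c330 a330_1 a330_2 a330_3 q330 1152921613527217603 1 fun c331 a331_1 a331_2 a331_3 q331 =>
  smulK 833 25 28823037615171174425 960383613337503531008 c28 a28_1 a28_2 a28_3 q28 fun c332 a332_1 a332_2 a332_3 q332 =>
  addcK c332 a332_1 a332_2 a332_3 q332 1152848233151971983 1 fun c333 a333_1 a333_2 a333_3 q333 =>
  mulK c333 a333_1 a333_2 a333_3 q333 c28 a28_1 a28_2 a28_3 q28 fun c334 a334_1 a334_2 a334_3 q334 =>
  addcK c334 a334_1 a334_2 a334_3 q334 1152958893499749499 1 fun c335 a335_1 a335_2 a335_3 q335 =>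
  mulK c335 a335_1 a335_2 a335_3 q335 c28 a28_1 a28_2 a28_3 q28 fun c336 a336_1 a336_2 a336_3 q336 =>
  addcK c336 a336_1 a336_2 a336_3 q336 1152920751441381949 1 fun c337 a337_1 a337_2 a337_3 q337 =>
  mulK c337 a337_1 a337_2 a337_3 q337 c28 a28_1 a28_2 a28_3 q28 fun c338 a338_1 a338_2 a338_3 q338 =>
  addcK c338 a338_1 a338_2 a338_3 q338 1152920286622841307 1 fun c339 a339_1 a339_2 a339_3 q339 =>
  addcK c320 a320_1 a320_2 a320_3 q320 1152906850315871977 1 fun c340 a340_1 a340_2 a340_3 q340 =>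
  mulK c340 a340_1 a340_2 a340_3 q340 c28 a28_1 a28_2 a28_3 q28 fun c341 a341_1 a341_2 a341_3 q341 =>
  addcK c341 a341_1 a341_2 a341_3 q341 1152923997199707144 1 fun c342 a342_1 a342_2 a342_3 q342 =>
  smulK 119 250 288230376151711744250 137197659048214790144 c68 a68_1 a68_2 a68_3 q68 fun c343 a343_1 a343_2 a343_3 q343 =>
  addK c342 a342_1 a342_2 a342_3 q342 c343 a343_1 a343_2 a343_3 q343 fun c344 a344_1 a344_2 a344_3 q344 =>
  mulK c68 a68_1 a68_2 a68_3 q68 c344 a344_1 a344_2 a344_3 q344 fun c345 a345_1 a345_2 a345_3 q345 =>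
  addK c339 a339_1 a339_2 a339_3 q339 c345 a345_1 a345_2 a345_3 q345 fun c346 a346_1 a346_2 a346_3 q346 =>
  mulK c68 a68_1 a68_2 a68_3 q68 c346 a346_1 a346_2 a346_3 q346 fun c347 a347_1 a347_2 a347_3 q347 =>
  addK c331 a331_1 a331_2 a331_3 q331 c347 a347_1 a347_2 a347_3 q347 fun c348 a348_1 a348_2 a348_3 q348 =>
  mulK c48 a48_1 a48_2 a48_3 q48 c348 a348_1 a348_2 a348_3 q348 fun c350 a350_1 a350_2 a350_3 q350 =>
  smulK 4 1 1152921504606846977 4611686018427387904 c350 a350_1 a350_2 a350_3 q350 fun c351 a351_1 a351_2 a351_3 q351 =>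
  addK c318 a318_1 a318_2 a318_3 q318 c351 a351_1 a351_2 a351_3 q351 fun c352 a352_1 a352_2 a352_3 q352 =>
  smulK 952 125 144115188075855872125 1097581272385718321152 c28 a28_1 a28_2 a28_3 q28 fun c354 a354_1 a354_2 a354_3 q354 =>
  addcK c354 a354_1 a354_2 a354_3 q354 1152888009084618408 1 fun c355 a355_1 a355_2 a355_3 q355 =>
  mulK c355 a355_1 a355_2 a355_3 q355 c28 a28_1 a28_2 a28_3 q28 fun c356 a356_1 a356_2 a356_3 q356 =>
  addcK c356 a356_1 a356_2 a356_3 q356 1152968163482283278 1 fun c357 a357_1 a357_2 a357_3 q357 =>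
  mulK c357 a357_1 a357_2 a357_3 q357 c28 a28_1 a28_2 a28_3 q28 fun c358 a358_1 a358_2 a358_3 q358 =>
  addcK c358 a358_1 a358_2 a358_3 q358 1152896668838198772 1 fun c359 a359_1 a359_2 a359_3 q359 =>
  mulK c359 a359_1 a359_2 a359_3 q359 c28 a28_1 a28_2 a28_3 q28 fun c360 a360_1 a360_2 a360_3 q360 =>
  addcK c360 a360_1 a360_2 a360_3 q360 1152924178619125727 1 fun c361 a361_1 a361_2 a361_3 q361 =>
  mulK c361 a361_1 a361_2 a361_3 q361 c28 a28_1 a28_2 a28_3 q28 fun c362 a362_1 a362_2 a362_3 q362 =>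
  addcK c362 a362_1 a362_2 a362_3 q362 1152921635448730681 1 fun c363 a363_1 a363_2 a363_3 q363 =>
  mulK c363 a363_1 a363_2 a363_3 q363 c28 a28_1 a28_2 a28_3 q28 fun c364 a364_1 a364_2 a364_3 q364 =>
  addcK c364 a364_1 a364_2 a364_3 q364 1152921874867387630 1 fun c365 a365_1 a365_2 a365_3 q365 =>
  smulK 3332 125 144115188075855872125 3841534453350014124032 c28 a28_1 a28_2 a28_3 q28 fun c366 a366_1 a366_2 a366_3 q366 =>
  addcK c366 a366_1 a366_2 a366_3 q366 1152848233151971983 1 fun c367 a367_1 a367_2 a367_3 q367 =>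
  mulK c367 a367_1 a367_2 a367_3 q367 c28 a28_1 a28_2 a28_3 q28 fun c368 a368_1 a368_2 a368_3 q368 =>
  addcK c368 a368_1 a368_2 a368_3 q368 1152971356464050340 1 fun c369 a369_1 a369_2 a369_3 q369 =>
  mulK c369 a369_1 a369_2 a369_3 q369 c28 a28_1 a28_2 a28_3 q28 fun c370 a370_1 a370_2 a370_3 q370 =>
  addcK c370 a370_1 a370_2 a370_3 q370 1152919998275916923 1 fun c371 a371_1 a371_2 a371_3 q371 =>
  mulK c371 a371_1 a371_2 a371_3 q371 c28 a28_1 a28_2 a28_3 q28 fun c372 a372_1 a372_2 a372_3 q372 =>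
  addcK c372 a372_1 a372_2 a372_3 q372 1152916632670824301 1 fun c373 a373_1 a373_2 a373_3 q373 =>
  mulK c373 a373_1 a373_2 a373_3 q373 c28 a28_1 a28_2 a28_3 q28 fun c374 a374_1 a374_2 a374_3 q374 =>
  addcK c374 a374_1 a374_2 a374_3 q374 1152921749248184156 1 fun c375 a375_1 a375_2 a375_3 q375 =>
  addcK c366 a366_1 a366_2 a366_3 q366 1152877541733921980 1 fun c376 a376_1 a376_2 a376_3 q376 =>
  mulK c376 a376_1 a376_2 a376_3 q376 c28 a28_1 a28_2 a28_3 q28 fun c377 a377_1 a377_2 a377_3 q377 =>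
  addcK c377 a377_1 a377_2 a377_3 q377 1152936460164007985 1 fun c378 a378_1 a378_2 a378_3 q378 =>
  mulK c378 a378_1 a378_2 a378_3 q378 c28 a28_1 a28_2 a28_3 q28 fun c379 a379_1 a379_2 a379_3 q379 =>
  addcK c379 a379_1 a379_2 a379_3 q379 1152921353973753971 1 fun c380 a380_1 a380_2 a380_3 q380 =>
  smulK 476 125 144115188075855872125 548790636192859160576 c28 a28_1 a28_2 a28_3 q28 fun c381 a381_1 a381_2 a381_3 q381 =>
  addcK c381 a381_1 a381_2 a381_3 q381 1152919411136707690 1 fun c382 a382_1 a382_2 a382_3 q382 =>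
  mulK c68 a68_1 a68_2 a68_3 q68 c382 a382_1 a382_2 a382_3 q382 fun c383 a383_1 a383_2 a383_3 q383 =>
  addK c380 a380_1 a380_2 a380_3 q380 c383 a383_1 a383_2 a383_3 q383 fun c384 a384_1 a384_2 a384_3 q384 =>
  mulK c68 a68_1 a68_2 a68_3 q68 c384 a384_1 a384_2 a384_3 q384 fun c385 a385_1 a385_2 a385_3 q385 =>
  addK c375 a375_1 a375_2 a375_3 q375 c385 a385_1 a385_2 a385_3 q385 fun c386 a386_1 a386_2 a386_3 q386 =>
  mulK c50 a50_1 a50_2 a50_3 q50 c386 a386_1 a386_2 a386_3 q386 fun c387 a387_1 a387_2 a387_3 q387 =>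
  addK c365 a365_1 a365_2 a365_3 q365 c387 a387_1 a387_2 a387_3 q387 fun c388 a388_1 a388_2 a388_3 q388 =>
  mulK z2 1152921504606846976 (Nat.add w2 1152921504606846976) 1152921504606846976 0 c388 a388_1 a388_2 a388_3 q388 fun c390 a390_1 a390_2 a390_3 q390 =>
  smulK 2 1 1152921504606846977 2305843009213693952 c390 a390_1 a390_2 a390_3 q390 fun c391 a391_1 a391_2 a391_3 q391 =>
  subK c352 a352_1 a352_2 a352_3 q352 c391 a391_1 a391_2 a391_3 q391 fun c392 a392_1 a392_2 a392_3 q392 =>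
  mulK c306 a306_1 a306_2 a306_3 q306 c392 a392_1 a392_2 a392_3 q392 fun c394 a394_1 a394_2 a394_3 q394 =>
  mulK c158 a158_1 a158_2 a158_3 q158 c192 a192_1 a192_2 a192_3 q192 fun c395 a395_1 a395_2 a395_3 q395 =>
  sqrtK c395 a395_1 a395_2 a395_3 q395 fun c396 a396_1 a396_2 a396_3 q396 =>
  addK c352 a352_1 a352_2 a352_3 q352 c391 a391_1 a391_2 a391_3 q391 fun c397 a397_1 a397_2 a397_3 q397 =>
  mulK c396 a396_1 a396_2 a396_3 q396 c397 a397_1 a397_2 a397_3 q397 fun c399 a399_1 a399_2 a399_3 q399 =>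
  addK c394 a394_1 a394_2 a394_3 q394 c399 a399_1 a399_2 a399_3 q399 fun c400 a400_1 a400_2 a400_3 q400 =>
  smulK 2 1 1152921504606846977 2305843009213693952 c318 a318_1 a318_2 a318_3 q318 fun c401 a401_1 a401_2 a401_3 q401 =>
  subK c400 a400_1 a400_2 a400_3 q400 c401 a401_1 a401_2 a401_3 q401 fun c402 a402_1 a402_2 a402_3 q402 =>
  mulK z1 (Nat.add w1 1152921504606846976) 1152921504606846976 1152921504606846976 0 c402 a402_1 a402_2 a402_3 q402 fun c404 a404_1 a404_2 a404_3 q404 =>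
  negK c404 a404_1 a404_2 a404_3 q404 fun c405 a405_1 a405_2 a405_3 q405 =>
  reluK c405 a405_1 a405_2 a405_3 q405 fun c406 a406_1 a406_2 a406_3 q406 =>
  sqK c406 a406_1 a406_2 a406_3 q406 fun c407 a407_1 a407_2 a407_3 q407 =>
  subK c304 a304_1 a304_2 a304_3 q304 c407 a407_1 a407_2 a407_3 q407 fun c408 a408_1 a408_2 a408_3 q408 =>
  pos c408 a408_1 a408_2 a408_3 q408

theorem alt4_s {p1 p2 z1 w1 z2 w2 z3 w3 : ℕ} {e1 e2 e3 a f s p q : ℝ} (he : Ev e1 e2 e3)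
    (hp1 : In e1 e2 e3 p1 1152921504606846976 1152921504606846976 1152921504606846976 0 p)
    (hp2 : In e1 e2 e3 p2 1152921504606846976 1152921504606846976 1152921504606846976 0 q)
    (hx1 : In e1 e2 e3 z1 (Nat.add w1 1152921504606846976) 1152921504606846976 1152921504606846976 0 a)
    (hx2 : In e1 e2 e3 z2 1152921504606846976 (Nat.add w2 1152921504606846976) 1152921504606846976 0 f)
    (hx3 : In e1 e2 e3 z3 1152921504606846976 1152921504606846976 (Nat.add w3 1152921504606846976) 0 s)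
    (H0 : alt4 p1 p2 z1 w1 z2 w2 z3 w3 = true) : 0 < ((tbq a f s p q) - ((3/10:ℝ) * s)) ∧ 0 < (PdD a f s p q) ∧ 0 < (QdB a f s p q) ∧ 0 < (((PdD a f s p q) * (QdB a f s p q)) - ((max (-(a * (ZdDB a f s p q))) (0:ℝ)) ^ 2)) := by
  unfold alt4 at H0
  refine smulK_s he (w := (11/20:ℝ)) (by norm_num) (by norm_num) (by norm_num) (by norm_num) hp2 (fun _ _ _ _ _ h1 H1 => ?_) H0
  have h2 := In_cast (w := (tbq a f s p q)) h1 rfl
  refine smulK_s he (w := (3/10:ℝ)) (by norm_num) (by norm_num) (by norm_num) (by norm_num) hx3 (fun _ _ _ _ _ h3 H2 => ?_) H1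
  refine subK_s he h2 h3 (fun _ _ _ _ _ h4 H3 => ?_) H2
  refine posK_s he h4 (fun p0 H4 => ?_) H3
  refine smulK_s he (w := (9/20:ℝ)) (by norm_num) (by norm_num) (by norm_num) (by norm_num) hp1 (fun _ _ _ _ _ h5 H5 => ?_) H4
  refine addcK_s he h5 (v' := (11/20:ℝ)) (by norm_num [SS, BB, abs_le]) (fun _ _ _ _ _ h6 H6 => ?_) H5
  have h7 := In_cast h6 (add_comm _ _)
  have h8 := In_cast (w := (tdp a f s p q)) h7 rfl
  refine smulK_s he (w := (21/50:ℝ)) (by norm_num) (by norm_num) (by norm_num) (by norm_num) h8 (fun _ _ _ _ _ h9 H7 => ?_) H6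
  refine negK_s he h9 (fun _ _ _ _ _ h10 H8 => ?_) H7
  refine addcK_s he h10 (v' := (3/5:ℝ)) (by norm_num [SS, BB, abs_le]) (fun _ _ _ _ _ h11 H9 => ?_) H8
  have h12 := In_cast h11 (neg_add_eq_sub _ _)
  refine mulK_s he h8 h12 (fun _ _ _ _ _ h13 H10 => ?_) H9
  refine addcK_s he h13 (v' := (-1/20:ℝ)) (by norm_num [SS, BB, abs_le]) (fun _ _ _ _ _ h14 H11 => ?_) H10
  have h15 := In_cast h14 (add_comm _ _)
  refine sqK_s he h8 (fun _ _ _ _ _ h16 H12 => ?_) H11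
  refine addcK_s he h16 (v' := (1:ℝ)) (by norm_num [SS, BB, abs_le]) (fun _ _ _ _ _ h17 H13 => ?_) H12
  have h18 := In_cast h17 (add_comm _ _)
  refine invK_s he h18 (fun _ _ _ _ _ h19 H14 => ?_) H13
  have h20 := In_cast h19 (inv_eq_one_div _)
  have h21 := In_cast (w := (Dp a f s p q)) h20 rfl
  refine mulK_s he h15 h21 (fun _ _ _ _ _ h22 H15 => ?_) H14
  refine mulK_s he hx3 h22 (fun _ _ _ _ _ h23 H16 => ?_) H15
  refine addcK_s he h23 (v' := (1:ℝ)) (by norm_num [SS, BB, abs_le]) (fun _ _ _ _ _ h24 H17 => ?_) H16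
  have h25 := In_cast h24 (add_comm _ _)
  have h26 := In_cast (w := (K0Dp a f s p q)) h25 rfl
  refine smulK_s he (w := (2:ℝ)) (by norm_num) (by norm_num) (by norm_num) (by norm_num) hx1 (fun _ _ _ _ _ h27 H18 => ?_) H17
  refine addcK_s he h27 (v' := (-1/2:ℝ)) (by norm_num [SS, BB, abs_le]) (fun _ _ _ _ _ h28 H19 => ?_) H18
  have h29 := In_cast h28 (sub_c (c := (1/2:ℝ)) (by norm_num))
  have h30 := In_cast (w := (x a f s p q)) h29 rfl
  refine smulK_s he (w := (987/1000:ℝ)) (by norm_num) (by norm_num) (by norm_num) (by norm_num) h30 (fun _ _ _ _ _ h31 H20 => ?_) H19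
  refine negK_s he h31 (fun _ _ _ _ _ h32 H21 => ?_) H20
  have h33 := In_cast h32 (neg_mul_c (c := (-987/1000:ℝ)) (by norm_num))
  refine addcK_s he h33 (v' := (4077/1000:ℝ)) (by norm_num [SS, BB, abs_le]) (fun _ _ _ _ _ h34 H22 => ?_) H21
  refine mulK_s he h34 h30 (fun _ _ _ _ _ h35 H23 => ?_) H22
  refine addcK_s he h35 (v' := (-23147/4000:ℝ)) (by norm_num [SS, BB, abs_le]) (fun _ _ _ _ _ h36 H24 => ?_) H23
  refine mulK_s he h36 h30 (fun _ _ _ _ _ h37 H25 => ?_) H24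
  refine addcK_s he h37 (v' := (11213/4000:ℝ)) (by norm_num [SS, BB, abs_le]) (fun _ _ _ _ _ h38 H26 => ?_) H25
  refine mulK_s he h38 h30 (fun _ _ _ _ _ h39 H27 => ?_) H26
  refine addcK_s he h39 (v' := (123/3200:ℝ)) (by norm_num [SS, BB, abs_le]) (fun _ _ _ _ _ h40 H28 => ?_) H27
  refine mulK_s he h40 h30 (fun _ _ _ _ _ h41 H29 => ?_) H28
  refine addcK_s he h41 (v' := (2023/16000:ℝ)) (by norm_num [SS, BB, abs_le]) (fun _ _ _ _ _ h42 H30 => ?_) H29
  refine mulK_s he h42 h30 (fun _ _ _ _ _ h43 H31 => ?_) H30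
  refine addcK_s he h43 (v' := (-12141/12800:ℝ)) (by norm_num [SS, BB, abs_le]) (fun _ _ _ _ _ h44 H32 => ?_) H31
  refine mulK_s he h44 h30 (fun _ _ _ _ _ h45 H33 => ?_) H32
  refine addcK_s he h45 (v' := (75807/64000:ℝ)) (by norm_num [SS, BB, abs_le]) (fun _ _ _ _ _ h46 H34 => ?_) H33
  have h47 := In_cast (w := (uh a f s p q)) h46 rfl
  refine sqK_s he hx2 (fun _ _ _ _ _ h48 H35 => ?_) H34
  refine mulK_s he hx1 h48 (fun _ _ _ _ _ h49 H36 => ?_) H35
  refine smulK_s he (w := (4:ℝ)) (by norm_num) (by norm_num) (by norm_num) (by norm_num) h49 (fun _ _ _ _ _ h50 H37 => ?_) H36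
  have h51 := In_cast (w := (af2 a f s p q)) h50 rfl
  refine smulK_s he (w := (6909/500:ℝ)) (by norm_num) (by norm_num) (by norm_num) (by norm_num) h30 (fun _ _ _ _ _ h52 H38 => ?_) H37
  refine negK_s he h52 (fun _ _ _ _ _ h53 H39 => ?_) H38
  have h54 := In_cast h53 (neg_mul_c (c := (-6909/500:ℝ)) (by norm_num))
  refine addcK_s he h54 (v' := (150507/4000:ℝ)) (by norm_num [SS, BB, abs_le]) (fun _ _ _ _ _ h55 H40 => ?_) H39
  refine mulK_s he h55 h30 (fun _ _ _ _ _ h56 H41 => ?_) H40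
  refine addcK_s he h56 (v' := (-44979/1600:ℝ)) (by norm_num [SS, BB, abs_le]) (fun _ _ _ _ _ h57 H42 => ?_) H41
  refine mulK_s he h57 h30 (fun _ _ _ _ _ h58 H43 => ?_) H42
  refine addcK_s he h58 (v' := (-721/1600:ℝ)) (by norm_num [SS, BB, abs_le]) (fun _ _ _ _ _ h59 H44 => ?_) H43
  refine mulK_s he h59 h30 (fun _ _ _ _ _ h60 H45 => ?_) H44
  refine addcK_s he h60 (v' := (69123/16000:ℝ)) (by norm_num [SS, BB, abs_le]) (fun _ _ _ _ _ h61 H46 => ?_) H45
  refine mulK_s he h61 h30 (fun _ _ _ _ _ h62 H47 => ?_) H46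
  refine addcK_s he h62 (v' := (13983/64000:ℝ)) (by norm_num [SS, BB, abs_le]) (fun _ _ _ _ _ h63 H48 => ?_) H47
  refine mulK_s he h63 h30 (fun _ _ _ _ _ h64 H49 => ?_) H48
  refine addcK_s he h64 (v' := (-56659/128000:ℝ)) (by norm_num [SS, BB, abs_le]) (fun _ _ _ _ _ h65 H50 => ?_) H49
  refine mulK_s he hx1 hx2 (fun _ _ _ _ _ h66 H51 => ?_) H50
  refine sqK_s he h66 (fun _ _ _ _ _ h67 H52 => ?_) H51
  refine smulK_s he (w := (4:ℝ)) (by norm_num) (by norm_num) (by norm_num) (by norm_num) h67 (fun _ _ _ _ _ h68 H53 => ?_) H52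
  have h69 := In_cast (w := (dd a f s p q)) h68 rfl
  refine smulK_s he (w := (6909/200:ℝ)) (by norm_num) (by norm_num) (by norm_num) (by norm_num) h30 (fun _ _ _ _ _ h70 H54 => ?_) H53
  refine negK_s he h70 (fun _ _ _ _ _ h71 H55 => ?_) H54
  have h72 := In_cast h71 (neg_mul_c (c := (-6909/200:ℝ)) (by norm_num))
  refine addcK_s he h72 (v' := (50169/800:ℝ)) (by norm_num [SS, BB, abs_le]) (fun _ _ _ _ _ h73 H56 => ?_) H55
  refine mulK_s he h73 h30 (fun _ _ _ _ _ h74 H57 => ?_) H56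
  refine addcK_s he h74 (v' := (-44979/1600:ℝ)) (by norm_num [SS, BB, abs_le]) (fun _ _ _ _ _ h75 H58 => ?_) H57
  refine mulK_s he h75 h30 (fun _ _ _ _ _ h76 H59 => ?_) H58
  refine addcK_s he h76 (v' := (-721/3200:ℝ)) (by norm_num [SS, BB, abs_le]) (fun _ _ _ _ _ h77 H60 => ?_) H59
  refine mulK_s he h77 h30 (fun _ _ _ _ _ h78 H61 => ?_) H60
  refine addcK_s he h78 (v' := (23041/32000:ℝ)) (by norm_num [SS, BB, abs_le]) (fun _ _ _ _ _ h79 H62 => ?_) H61
  refine addcK_s he h54 (v' := (50169/4000:ℝ)) (by norm_num [SS, BB, abs_le]) (fun _ _ _ _ _ h80 H63 => ?_) H62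
  refine mulK_s he h80 h30 (fun _ _ _ _ _ h81 H64 => ?_) H63
  refine addcK_s he h81 (v' := (-14993/8000:ℝ)) (by norm_num [SS, BB, abs_le]) (fun _ _ _ _ _ h82 H65 => ?_) H64
  refine smulK_s he (w := (987/2000:ℝ)) (by norm_num) (by norm_num) (by norm_num) (by norm_num) h69 (fun _ _ _ _ _ h83 H66 => ?_) H65
  refine negK_s he h83 (fun _ _ _ _ _ h84 H67 => ?_) H66
  have h85 := In_cast h84 (neg_mul_c (c := (-987/2000:ℝ)) (by norm_num))
  refine addK_s he h82 h85 (fun _ _ _ _ _ h86 H68 => ?_) H67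
  refine mulK_s he h69 h86 (fun _ _ _ _ _ h87 H69 => ?_) H68
  refine addK_s he h79 h87 (fun _ _ _ _ _ h88 H70 => ?_) H69
  refine mulK_s he h69 h88 (fun _ _ _ _ _ h89 H71 => ?_) H70
  refine addK_s he h65 h89 (fun _ _ _ _ _ h90 H72 => ?_) H71
  have h91 := In_cast (w := (uE a f s p q)) h90 rfl
  refine mulK_s he h51 h91 (fun _ _ _ _ _ h92 H73 => ?_) H72
  refine addK_s he h47 h92 (fun _ _ _ _ _ h93 H74 => ?_) H73
  have h94 := In_cast (w := (um a f s p q)) h93 rfl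
  refine smulK_s he (w := (987/250:ℝ)) (by norm_num) (by norm_num) (by norm_num) (by norm_num) h30 (fun _ _ _ _ _ h95 H75 => ?_) H74
  refine negK_s he h95 (fun _ _ _ _ _ h96 H76 => ?_) H75
  have h97 := In_cast h96 (neg_mul_c (c := (-987/250:ℝ)) (by norm_num))
  refine addcK_s he h97 (v' := (50169/4000:ℝ)) (by norm_num [SS, BB, abs_le]) (fun _ _ _ _ _ h98 H77 => ?_) H76
  refine mulK_s he h98 h30 (fun _ _ _ _ _ h99 H78 => ?_) H77
  refine addcK_s he h99 (v' := (-44979/4000:ℝ)) (by norm_num [SS, BB, abs_le]) (fun _ _ _ _ _ h100 H79 => ?_) H78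
  refine mulK_s he h100 h30 (fun _ _ _ _ _ h101 H80 => ?_) H79
  refine addcK_s he h101 (v' := (-721/3200:ℝ)) (by norm_num [SS, BB, abs_le]) (fun _ _ _ _ _ h102 H81 => ?_) H80
  refine mulK_s he h102 h30 (fun _ _ _ _ _ h103 H82 => ?_) H81
  refine addcK_s he h103 (v' := (23041/8000:ℝ)) (by norm_num [SS, BB, abs_le]) (fun _ _ _ _ _ h104 H83 => ?_) H82
  refine mulK_s he h104 h30 (fun _ _ _ _ _ h105 H84 => ?_) H83
  refine addcK_s he h105 (v' := (13983/64000:ℝ)) (by norm_num [SS, BB, abs_le]) (fun _ _ _ _ _ h106 H85 => ?_) H84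
  refine mulK_s he h106 h30 (fun _ _ _ _ _ h107 H86 => ?_) H85
  refine addcK_s he h107 (v' := (-56659/64000:ℝ)) (by norm_num [SS, BB, abs_le]) (fun _ _ _ _ _ h108 H87 => ?_) H86
  refine mulK_s he h108 h30 (fun _ _ _ _ _ h109 H88 => ?_) H87
  refine addcK_s he h109 (v' := (90909/256000:ℝ)) (by norm_num [SS, BB, abs_le]) (fun _ _ _ _ _ h110 H89 => ?_) H88
  refine smulK_s he (w := (6909/250:ℝ)) (by norm_num) (by norm_num) (by norm_num) (by norm_num) h30 (fun _ _ _ _ _ h111 H90 => ?_) H89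
  refine negK_s he h111 (fun _ _ _ _ _ h112 H91 => ?_) H90
  have h113 := In_cast h112 (neg_mul_c (c := (-6909/250:ℝ)) (by norm_num))
  refine addcK_s he h113 (v' := (50169/800:ℝ)) (by norm_num [SS, BB, abs_le]) (fun _ _ _ _ _ h114 H92 => ?_) H91
  refine mulK_s he h114 h30 (fun _ _ _ _ _ h115 H93 => ?_) H92
  refine addcK_s he h115 (v' := (-14993/400:ℝ)) (by norm_num [SS, BB, abs_le]) (fun _ _ _ _ _ h116 H94 => ?_) H93
  refine mulK_s he h116 h30 (fun _ _ _ _ _ h117 H95 => ?_) H94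
  refine addcK_s he h117 (v' := (-721/1600:ℝ)) (by norm_num [SS, BB, abs_le]) (fun _ _ _ _ _ h118 H96 => ?_) H95
  refine mulK_s he h118 h30 (fun _ _ _ _ _ h119 H97 => ?_) H96
  refine addcK_s he h119 (v' := (23041/8000:ℝ)) (by norm_num [SS, BB, abs_le]) (fun _ _ _ _ _ h120 H98 => ?_) H97
  refine mulK_s he h120 h30 (fun _ _ _ _ _ h121 H99 => ?_) H98
  refine addcK_s he h121 (v' := (4661/64000:ℝ)) (by norm_num [SS, BB, abs_le]) (fun _ _ _ _ _ h122 H100 => ?_) H99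
  refine addcK_s he h113 (v' := (150507/4000:ℝ)) (by norm_num [SS, BB, abs_le]) (fun _ _ _ _ _ h123 H101 => ?_) H100
  refine mulK_s he h123 h30 (fun _ _ _ _ _ h124 H102 => ?_) H101
  refine addcK_s he h124 (v' := (-44979/4000:ℝ)) (by norm_num [SS, BB, abs_le]) (fun _ _ _ _ _ h125 H103 => ?_) H102
  refine mulK_s he h125 h30 (fun _ _ _ _ _ h126 H104 => ?_) H103
  refine addcK_s he h126 (v' := (-721/16000:ℝ)) (by norm_num [SS, BB, abs_le]) (fun _ _ _ _ _ h127 H105 => ?_) H104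
  refine addcK_s he h97 (v' := (7167/4000:ℝ)) (by norm_num [SS, BB, abs_le]) (fun _ _ _ _ _ h128 H106 => ?_) H105
  refine mulK_s he h69 h128 (fun _ _ _ _ _ h129 H107 => ?_) H106
  refine addK_s he h127 h129 (fun _ _ _ _ _ h130 H108 => ?_) H107
  refine mulK_s he h69 h130 (fun _ _ _ _ _ h131 H109 => ?_) H108
  refine addK_s he h122 h131 (fun _ _ _ _ _ h132 H110 => ?_) H109
  refine mulK_s he h69 h132 (fun _ _ _ _ _ h133 H111 => ?_) H110
  refine addK_s he h110 h133 (fun _ _ _ _ _ h134 H112 => ?_) H111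
  have h135 := In_cast (w := (uO a f s p q)) h134 rfl
  refine mulK_s he hx2 h135 (fun _ _ _ _ _ h136 H113 => ?_) H112
  refine smulK_s he (w := (2:ℝ)) (by norm_num) (by norm_num) (by norm_num) (by norm_num) h136 (fun _ _ _ _ _ h137 H114 => ?_) H113
  refine subK_s he h94 h137 (fun _ _ _ _ _ h138 H115 => ?_) H114
  have h139 := In_cast (w := (u0 a f s p q)) h138 rfl
  refine mulK_s he h26 h139 (fun _ _ _ _ _ h140 H116 => ?_) H115
  refine negK_s he h8 (fun _ _ _ _ _ h141 H117 => ?_) H116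
  refine addcK_s he h141 (v' := (1:ℝ)) (by norm_num [SS, BB, abs_le]) (fun _ _ _ _ _ h142 H118 => ?_) H117
  have h143 := In_cast h142 (neg_add_eq_sub _ _)
  refine mulK_s he h143 h21 (fun _ _ _ _ _ h144 H119 => ?_) H118
  refine addcK_s he h8 (v' := (1:ℝ)) (by norm_num [SS, BB, abs_le]) (fun _ _ _ _ _ h145 H120 => ?_) H119
  have h146 := In_cast h145 (add_comm _ _)
  refine smulK_s he (w := (93/100:ℝ)) (by norm_num) (by norm_num) (by norm_num) (by norm_num) h8 (fun _ _ _ _ _ h147 H121 => ?_) H120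
  refine addcK_s he h147 (v' := (-17/100:ℝ)) (by norm_num [SS, BB, abs_le]) (fun _ _ _ _ _ h148 H122 => ?_) H121
  have h149 := In_cast h148 (sub_c (c := (17/100:ℝ)) (by norm_num))
  refine smulK_s he (w := (3/25:ℝ)) (by norm_num) (by norm_num) (by norm_num) (by norm_num) h8 (fun _ _ _ _ _ h150 H123 => ?_) H122
  refine addcK_s he h150 (v' := (1/10:ℝ)) (by norm_num [SS, BB, abs_le]) (fun _ _ _ _ _ h151 H124 => ?_) H123
  have h152 := In_cast h151 (add_comm _ _)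
  refine mulK_s he hx3 h152 (fun _ _ _ _ _ h153 H125 => ?_) H124
  refine addK_s he h149 h153 (fun _ _ _ _ _ h154 H126 => ?_) H125
  refine mulK_s he hx3 h154 (fun _ _ _ _ _ h155 H127 => ?_) H126
  refine subK_s he h146 h155 (fun _ _ _ _ _ h156 H128 => ?_) H127
  have h157 := In_cast (w := (BDp a f s p q)) h156 rfl
  refine mulK_s he h144 h157 (fun _ _ _ _ _ h158 H129 => ?_) H128
  have h159 := In_cast (w := (K1Dp a f s p q)) h158 rfl
  refine addK_s he h94 h137 (fun _ _ _ _ _ h160 H130 => ?_) H129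
  have h161 := In_cast (w := (u1 a f s p q)) h160 rfl
  refine mulK_s he h159 h161 (fun _ _ _ _ _ h162 H131 => ?_) H130
  refine addK_s he h140 h162 (fun _ _ _ _ _ h163 H132 => ?_) H131
  refine smulK_s he (w := (2:ℝ)) (by norm_num) (by norm_num) (by norm_num) (by norm_num) h8 (fun _ _ _ _ _ h164 H133 => ?_) H132
  refine smulK_s he (w := (1/250:ℝ)) (by norm_num) (by norm_num) (by norm_num) (by norm_num) h143 (fun _ _ _ _ _ h165 H134 => ?_) H133
  refine subK_s he h164 h165 (fun _ _ _ _ _ h166 H135 => ?_) H134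
  refine mulK_s he h166 h21 (fun _ _ _ _ _ h167 H136 => ?_) H135
  have h168 := In_cast (w := (lDp a f s p q)) h167 rfl
  refine mulK_s he hx2 h168 (fun _ _ _ _ _ h169 H137 => ?_) H136
  refine smulK_s he (w := (2:ℝ)) (by norm_num) (by norm_num) (by norm_num) (by norm_num) h169 (fun _ _ _ _ _ h170 H138 => ?_) H137
  refine addK_s he h163 h170 (fun _ _ _ _ _ h171 H139 => ?_) H138
  refine smulK_s he (w := (2:ℝ)) (by norm_num) (by norm_num) (by norm_num) (by norm_num) h47 (fun _ _ _ _ _ h172 H140 => ?_) H139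
  refine subK_s he h171 h172 (fun _ _ _ _ _ h173 H141 => ?_) H140
  have h174 := In_cast (w := (PdD a f s p q)) h173 rfl
  refine posK_s he h174 (fun p1 H142 => ?_) H141
  refine smulK_s he (w := (3/25:ℝ)) (by norm_num) (by norm_num) (by norm_num) (by norm_num) hx3 (fun _ _ _ _ _ h175 H143 => ?_) H142
  refine sqK_s he h2 (fun _ _ _ _ _ h176 H144 => ?_) H143
  refine addcK_s he h176 (v' := (1:ℝ)) (by norm_num [SS, BB, abs_le]) (fun _ _ _ _ _ h177 H145 => ?_) H144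
  have h178 := In_cast h177 (add_comm _ _)
  refine invK_s he h178 (fun _ _ _ _ _ h179 H146 => ?_) H145
  refine smulK_s he (w := (2:ℝ)) (by norm_num) (by norm_num) (by norm_num) (by norm_num) h2 (fun _ _ _ _ _ h180 H147 => ?_) H146
  refine mulK_s he h180 h179 (fun _ _ _ _ _ h181 H148 => ?_) H147
  have h182 := In_cast h181 ((div_eq_mul_inv _ _).symm)
  have h183 := In_cast (w := (Sbq a f s p q)) h182 rfl
  refine smulK_s he (w := (3/10:ℝ)) (by norm_num) (by norm_num) (by norm_num) (by norm_num) h183 (fun _ _ _ _ _ h184 H149 => ?_) H148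
  refine mulK_s he h2 h183 (fun _ _ _ _ _ h185 H150 => ?_) H149
  have h186 := In_cast (w := (Cbq a f s p q)) h185 rfl
  refine smulK_s he (w := (1/4:ℝ)) (by norm_num) (by norm_num) (by norm_num) (by norm_num) h186 (fun _ _ _ _ _ h187 H151 => ?_) H150
  have h188 := In_cast h187 (div_c (c := (4:ℝ)) (by norm_num))
  refine subK_s he h184 h188 (fun _ _ _ _ _ h189 H152 => ?_) H151
  refine addK_s he h175 h189 (fun _ _ _ _ _ h190 H153 => ?_) H152
  refine mulK_s he hx3 h190 (fun _ _ _ _ _ h191 H154 => ?_) H153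
  refine addcK_s he h191 (v' := (1:ℝ)) (by norm_num [SS, BB, abs_le]) (fun _ _ _ _ _ h192 H155 => ?_) H154
  have h193 := In_cast h192 (add_comm _ _)
  have h194 := In_cast (w := (K0Bq a f s p q)) h193 rfl
  refine addcK_s he h33 (v' := (2403/500:ℝ)) (by norm_num [SS, BB, abs_le]) (fun _ _ _ _ _ h195 H156 => ?_) H155
  refine mulK_s he h195 h30 (fun _ _ _ _ _ h196 H157 => ?_) H156
  refine addcK_s he h196 (v' := (-34811/4000:ℝ)) (by norm_num [SS, BB, abs_le]) (fun _ _ _ _ _ h197 H158 => ?_) H157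
  refine mulK_s he h197 h30 (fun _ _ _ _ _ h198 H159 => ?_) H158
  refine addcK_s he h198 (v' := (13899/2000:ℝ)) (by norm_num [SS, BB, abs_le]) (fun _ _ _ _ _ h199 H160 => ?_) H159
  refine mulK_s he h199 h30 (fun _ _ _ _ _ h200 H161 => ?_) H160
  refine addcK_s he h200 (v' := (-1521/640:ℝ)) (by norm_num [SS, BB, abs_le]) (fun _ _ _ _ _ h201 H162 => ?_) H161
  refine mulK_s he h201 h30 (fun _ _ _ _ _ h202 H163 => ?_) H162
  refine addcK_s he h202 (v' := (1597/1600:ℝ)) (by norm_num [SS, BB, abs_le]) (fun _ _ _ _ _ h203 H164 => ?_) H163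
  refine mulK_s he h203 h30 (fun _ _ _ _ _ h204 H165 => ?_) H164
  refine addcK_s he h204 (v' := (-116129/64000:ℝ)) (by norm_num [SS, BB, abs_le]) (fun _ _ _ _ _ h205 H166 => ?_) H165
  refine mulK_s he h205 h30 (fun _ _ _ _ _ h206 H167 => ?_) H166
  refine addcK_s he h206 (v' := (9741/6400:ℝ)) (by norm_num [SS, BB, abs_le]) (fun _ _ _ _ _ h207 H168 => ?_) H167
  have h208 := In_cast (w := (ch a f s p q)) h207 rfl
  refine addcK_s he h54 (v' := (1449/32:ℝ)) (by norm_num [SS, BB, abs_le]) (fun _ _ _ _ _ h209 H169 => ?_) H168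
  refine mulK_s he h209 h30 (fun _ _ _ _ _ h210 H170 => ?_) H169
  refine addcK_s he h210 (v' := (-75597/1600:ℝ)) (by norm_num [SS, BB, abs_le]) (fun _ _ _ _ _ h211 H171 => ?_) H170
  refine mulK_s he h211 h30 (fun _ _ _ _ _ h212 H172 => ?_) H171
  refine addcK_s he h212 (v' := (4157/320:ℝ)) (by norm_num [SS, BB, abs_le]) (fun _ _ _ _ _ h213 H173 => ?_) H172
  refine mulK_s he h213 h30 (fun _ _ _ _ _ h214 H174 => ?_) H173
  refine addcK_s he h214 (v' := (52713/16000:ℝ)) (by norm_num [SS, BB, abs_le]) (fun _ _ _ _ _ h215 H175 => ?_) H174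
  refine mulK_s he h215 h30 (fun _ _ _ _ _ h216 H176 => ?_) H175
  refine addcK_s he h216 (v' := (-3651/12800:ℝ)) (by norm_num [SS, BB, abs_le]) (fun _ _ _ _ _ h217 H177 => ?_) H176
  refine mulK_s he h217 h30 (fun _ _ _ _ _ h218 H178 => ?_) H177
  refine addcK_s he h218 (v' := (-84189/128000:ℝ)) (by norm_num [SS, BB, abs_le]) (fun _ _ _ _ _ h219 H179 => ?_) H178
  refine addcK_s he h72 (v' := (2415/32:ℝ)) (by norm_num [SS, BB, abs_le]) (fun _ _ _ _ _ h220 H180 => ?_) H179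
  refine mulK_s he h220 h30 (fun _ _ _ _ _ h221 H181 => ?_) H180
  refine addcK_s he h221 (v' := (-75597/1600:ℝ)) (by norm_num [SS, BB, abs_le]) (fun _ _ _ _ _ h222 H182 => ?_) H181
  refine mulK_s he h222 h30 (fun _ _ _ _ _ h223 H183 => ?_) H182
  refine addcK_s he h223 (v' := (4157/640:ℝ)) (by norm_num [SS, BB, abs_le]) (fun _ _ _ _ _ h224 H184 => ?_) H183
  refine mulK_s he h224 h30 (fun _ _ _ _ _ h225 H185 => ?_) H184
  refine addcK_s he h225 (v' := (17571/32000:ℝ)) (by norm_num [SS, BB, abs_le]) (fun _ _ _ _ _ h226 H186 => ?_) H185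
  refine addcK_s he h54 (v' := (483/32:ℝ)) (by norm_num [SS, BB, abs_le]) (fun _ _ _ _ _ h227 H187 => ?_) H186
  refine mulK_s he h227 h30 (fun _ _ _ _ _ h228 H188 => ?_) H187
  refine addcK_s he h228 (v' := (-25199/8000:ℝ)) (by norm_num [SS, BB, abs_le]) (fun _ _ _ _ _ h229 H189 => ?_) H188
  refine addK_s he h229 h85 (fun _ _ _ _ _ h230 H190 => ?_) H189
  refine mulK_s he h69 h230 (fun _ _ _ _ _ h231 H191 => ?_) H190
  refine addK_s he h226 h231 (fun _ _ _ _ _ h232 H192 => ?_) H191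
  refine mulK_s he h69 h232 (fun _ _ _ _ _ h233 H193 => ?_) H192
  refine addK_s he h219 h233 (fun _ _ _ _ _ h234 H194 => ?_) H193
  have h235 := In_cast (w := (cE a f s p q)) h234 rfl
  refine mulK_s he h51 h235 (fun _ _ _ _ _ h236 H195 => ?_) H194
  refine addK_s he h208 h236 (fun _ _ _ _ _ h237 H196 => ?_) H195
  have h238 := In_cast (w := (cm a f s p q)) h237 rfl
  refine addcK_s he h97 (v' := (483/32:ℝ)) (by norm_num [SS, BB, abs_le]) (fun _ _ _ _ _ h239 H197 => ?_) H196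
  refine mulK_s he h239 h30 (fun _ _ _ _ _ h240 H198 => ?_) H197
  refine addcK_s he h240 (v' := (-75597/4000:ℝ)) (by norm_num [SS, BB, abs_le]) (fun _ _ _ _ _ h241 H199 => ?_) H198
  refine mulK_s he h241 h30 (fun _ _ _ _ _ h242 H200 => ?_) H199
  refine addcK_s he h242 (v' := (4157/640:ℝ)) (by norm_num [SS, BB, abs_le]) (fun _ _ _ _ _ h243 H201 => ?_) H200
  refine mulK_s he h243 h30 (fun _ _ _ _ _ h244 H202 => ?_) H201
  refine addcK_s he h244 (v' := (17571/8000:ℝ)) (by norm_num [SS, BB, abs_le]) (fun _ _ _ _ _ h245 H203 => ?_) H202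
  refine mulK_s he h245 h30 (fun _ _ _ _ _ h246 H204 => ?_) H203
  refine addcK_s he h246 (v' := (-3651/12800:ℝ)) (by norm_num [SS, BB, abs_le]) (fun _ _ _ _ _ h247 H205 => ?_) H204
  refine mulK_s he h247 h30 (fun _ _ _ _ _ h248 H206 => ?_) H205
  refine addcK_s he h248 (v' := (-84189/64000:ℝ)) (by norm_num [SS, BB, abs_le]) (fun _ _ _ _ _ h249 H207 => ?_) H206
  refine mulK_s he h249 h30 (fun _ _ _ _ _ h250 H208 => ?_) H207
  refine addcK_s he h250 (v' := (78691/256000:ℝ)) (by norm_num [SS, BB, abs_le]) (fun _ _ _ _ _ h251 H209 => ?_) H208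
  refine addcK_s he h113 (v' := (2415/32:ℝ)) (by norm_num [SS, BB, abs_le]) (fun _ _ _ _ _ h252 H210 => ?_) H209
  refine mulK_s he h252 h30 (fun _ _ _ _ _ h253 H211 => ?_) H210
  refine addcK_s he h253 (v' := (-25199/400:ℝ)) (by norm_num [SS, BB, abs_le]) (fun _ _ _ _ _ h254 H212 => ?_) H211
  refine mulK_s he h254 h30 (fun _ _ _ _ _ h255 H213 => ?_) H212
  refine addcK_s he h255 (v' := (4157/320:ℝ)) (by norm_num [SS, BB, abs_le]) (fun _ _ _ _ _ h256 H214 => ?_) H213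
  refine mulK_s he h256 h30 (fun _ _ _ _ _ h257 H215 => ?_) H214
  refine addcK_s he h257 (v' := (17571/8000:ℝ)) (by norm_num [SS, BB, abs_le]) (fun _ _ _ _ _ h258 H216 => ?_) H215
  refine mulK_s he h258 h30 (fun _ _ _ _ _ h259 H217 => ?_) H216
  refine addcK_s he h259 (v' := (-1217/12800:ℝ)) (by norm_num [SS, BB, abs_le]) (fun _ _ _ _ _ h260 H218 => ?_) H217
  refine addcK_s he h113 (v' := (1449/32:ℝ)) (by norm_num [SS, BB, abs_le]) (fun _ _ _ _ _ h261 H219 => ?_) H218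
  refine mulK_s he h261 h30 (fun _ _ _ _ _ h262 H220 => ?_) H219
  refine addcK_s he h262 (v' := (-75597/4000:ℝ)) (by norm_num [SS, BB, abs_le]) (fun _ _ _ _ _ h263 H221 => ?_) H220
  refine mulK_s he h263 h30 (fun _ _ _ _ _ h264 H222 => ?_) H221
  refine addcK_s he h264 (v' := (4157/3200:ℝ)) (by norm_num [SS, BB, abs_le]) (fun _ _ _ _ _ h265 H223 => ?_) H222
  refine addcK_s he h97 (v' := (69/32:ℝ)) (by norm_num [SS, BB, abs_le]) (fun _ _ _ _ _ h266 H224 => ?_) H223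
  refine mulK_s he h69 h266 (fun _ _ _ _ _ h267 H225 => ?_) H224
  refine addK_s he h265 h267 (fun _ _ _ _ _ h268 H226 => ?_) H225
  refine mulK_s he h69 h268 (fun _ _ _ _ _ h269 H227 => ?_) H226
  refine addK_s he h260 h269 (fun _ _ _ _ _ h270 H228 => ?_) H227
  refine mulK_s he h69 h270 (fun _ _ _ _ _ h271 H229 => ?_) H228
  refine addK_s he h251 h271 (fun _ _ _ _ _ h272 H230 => ?_) H229
  have h273 := In_cast (w := (cO a f s p q)) h272 rfl
  refine mulK_s he hx2 h273 (fun _ _ _ _ _ h274 H231 => ?_) H230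
  refine smulK_s he (w := (2:ℝ)) (by norm_num) (by norm_num) (by norm_num) (by norm_num) h274 (fun _ _ _ _ _ h275 H232 => ?_) H231
  refine addK_s he h238 h275 (fun _ _ _ _ _ h276 H233 => ?_) H232
  have h277 := In_cast (w := (c1 a f s p q)) h276 rfl
  refine mulK_s he h194 h277 (fun _ _ _ _ _ h278 H234 => ?_) H233
  refine negK_s he h186 (fun _ _ _ _ _ h279 H235 => ?_) H234
  refine addcK_s he h279 (v' := (1:ℝ)) (by norm_num [SS, BB, abs_le]) (fun _ _ _ _ _ h280 H236 => ?_) H235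
  have h281 := In_cast h280 (neg_add_eq_sub _ _)
  refine smulK_s he (w := (7/25:ℝ)) (by norm_num) (by norm_num) (by norm_num) (by norm_num) h183 (fun _ _ _ _ _ h282 H237 => ?_) H236
  refine subK_s he h282 h188 (fun _ _ _ _ _ h283 H238 => ?_) H237
  refine addK_s he h175 h283 (fun _ _ _ _ _ h284 H239 => ?_) H238
  refine mulK_s he hx3 h284 (fun _ _ _ _ _ h285 H240 => ?_) H239
  refine subK_s he h281 h285 (fun _ _ _ _ _ h286 H241 => ?_) H240
  have h287 := In_cast (w := (K1Bq a f s p q)) h286 rfl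
  refine subK_s he h238 h275 (fun _ _ _ _ _ h288 H242 => ?_) H241
  have h289 := In_cast (w := (c0 a f s p q)) h288 rfl
  refine mulK_s he h287 h289 (fun _ _ _ _ _ h290 H243 => ?_) H242
  refine addK_s he h278 h290 (fun _ _ _ _ _ h291 H244 => ?_) H243
  refine smulK_s he (w := (3/500:ℝ)) (by norm_num) (by norm_num) (by norm_num) (by norm_num) hx3 (fun _ _ _ _ _ h292 H245 => ?_) H244
  refine negK_s he h292 (fun _ _ _ _ _ h293 H246 => ?_) H245
  refine addcK_s he h293 (v' := (499/500:ℝ)) (by norm_num [SS, BB, abs_le]) (fun _ _ _ _ _ h294 H247 => ?_) H246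
  have h295 := In_cast h294 (neg_add_eq_sub _ _)
  refine mulK_s he h295 h183 (fun _ _ _ _ _ h296 H248 => ?_) H247
  have h297 := In_cast (w := (lBq a f s p q)) h296 rfl
  refine mulK_s he hx2 h297 (fun _ _ _ _ _ h298 H249 => ?_) H248
  refine smulK_s he (w := (2:ℝ)) (by norm_num) (by norm_num) (by norm_num) (by norm_num) h298 (fun _ _ _ _ _ h299 H250 => ?_) H249
  refine addK_s he h291 h299 (fun _ _ _ _ _ h300 H251 => ?_) H250
  refine smulK_s he (w := (2:ℝ)) (by norm_num) (by norm_num) (by norm_num) (by norm_num) h208 (fun _ _ _ _ _ h301 H252 => ?_) H251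
  refine subK_s he h300 h301 (fun _ _ _ _ _ h302 H253 => ?_) H252
  have h303 := In_cast (w := (QdB a f s p q)) h302 rfl
  refine posK_s he h303 (fun p2 H254 => ?_) H253
  refine mulK_s he h174 h303 (fun _ _ _ _ _ h304 H255 => ?_) H254
  refine mulK_s he h26 h287 (fun _ _ _ _ _ h305 H256 => ?_) H255
  refine sqrtK_s he h305 (fun _ _ _ _ _ h306 H257 => ?_) H256
  refine smulK_s he (w := (238/125:ℝ)) (by norm_num) (by norm_num) (by norm_num) (by norm_num) h30 (fun _ _ _ _ _ h307 H258 => ?_) H257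
  refine addcK_s he h307 (v' := (-238/25:ℝ)) (by norm_num [SS, BB, abs_le]) (fun _ _ _ _ _ h308 H259 => ?_) H258
  refine mulK_s he h308 h30 (fun _ _ _ _ _ h309 H260 => ?_) H259
  refine addcK_s he h309 (v' := (2264/125:ℝ)) (by norm_num [SS, BB, abs_le]) (fun _ _ _ _ _ h310 H261 => ?_) H260
  refine mulK_s he h310 h30 (fun _ _ _ _ _ h311 H262 => ?_) H261
  refine addcK_s he h311 (v' := (-407/25:ℝ)) (by norm_num [SS, BB, abs_le]) (fun _ _ _ _ _ h312 H263 => ?_) H262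
  refine mulK_s he h312 h30 (fun _ _ _ _ _ h313 H264 => ?_) H263
  refine addcK_s he h313 (v' := (7321/1000:ℝ)) (by norm_num [SS, BB, abs_le]) (fun _ _ _ _ _ h314 H265 => ?_) H264
  refine mulK_s he h314 h30 (fun _ _ _ _ _ h315 H266 => ?_) H265
  refine addcK_s he h315 (v' := (-2361/1000:ℝ)) (by norm_num [SS, BB, abs_le]) (fun _ _ _ _ _ h316 H267 => ?_) H266
  refine mulK_s he h316 h30 (fun _ _ _ _ _ h317 H268 => ?_) H267
  refine addcK_s he h317 (v' := (927/1000:ℝ)) (by norm_num [SS, BB, abs_le]) (fun _ _ _ _ _ h318 H269 => ?_) H268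
  have h319 := In_cast (w := (vh a f s p q)) h318 rfl
  refine smulK_s he (w := (1666/125:ℝ)) (by norm_num) (by norm_num) (by norm_num) (by norm_num) h30 (fun _ _ _ _ _ h320 H270 => ?_) H269
  refine addcK_s he h320 (v' := (-4998/125:ℝ)) (by norm_num [SS, BB, abs_le]) (fun _ _ _ _ _ h321 H271 => ?_) H270
  refine mulK_s he h321 h30 (fun _ _ _ _ _ h322 H272 => ?_) H271
  refine addcK_s he h322 (v' := (6801/200:ℝ)) (by norm_num [SS, BB, abs_le]) (fun _ _ _ _ _ h323 H273 => ?_) H272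
  refine mulK_s he h323 h30 (fun _ _ _ _ _ h324 H274 => ?_) H273
  refine addcK_s he h324 (v' := (-137/100:ℝ)) (by norm_num [SS, BB, abs_le]) (fun _ _ _ _ _ h325 H275 => ?_) H274
  refine mulK_s he h325 h30 (fun _ _ _ _ _ h326 H276 => ?_) H275
  refine addcK_s he h326 (v' := (-13293/2000:ℝ)) (by norm_num [SS, BB, abs_le]) (fun _ _ _ _ _ h327 H277 => ?_) H276
  refine mulK_s he h327 h30 (fun _ _ _ _ _ h328 H278 => ?_) H277
  refine addcK_s he h328 (v' := (267/400:ℝ)) (by norm_num [SS, BB, abs_le]) (fun _ _ _ _ _ h329 H279 => ?_) H278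
  refine mulK_s he h329 h30 (fun _ _ _ _ _ h330 H280 => ?_) H279
  refine addcK_s he h330 (v' := (317/3200:ℝ)) (by norm_num [SS, BB, abs_le]) (fun _ _ _ _ _ h331 H281 => ?_) H280
  refine smulK_s he (w := (833/25:ℝ)) (by norm_num) (by norm_num) (by norm_num) (by norm_num) h30 (fun _ _ _ _ _ h332 H282 => ?_) H281
  refine addcK_s he h332 (v' := (-1666/25:ℝ)) (by norm_num [SS, BB, abs_le]) (fun _ _ _ _ _ h333 H283 => ?_) H282
  refine mulK_s he h333 h30 (fun _ _ _ _ _ h334 H284 => ?_) H283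
  refine addcK_s he h334 (v' := (6801/200:ℝ)) (by norm_num [SS, BB, abs_le]) (fun _ _ _ _ _ h335 H285 => ?_) H284
  refine mulK_s he h335 h30 (fun _ _ _ _ _ h336 H286 => ?_) H285
  refine addcK_s he h336 (v' := (-137/200:ℝ)) (by norm_num [SS, BB, abs_le]) (fun _ _ _ _ _ h337 H287 => ?_) H286
  refine mulK_s he h337 h30 (fun _ _ _ _ _ h338 H288 => ?_) H287
  refine addcK_s he h338 (v' := (-4431/4000:ℝ)) (by norm_num [SS, BB, abs_le]) (fun _ _ _ _ _ h339 H289 => ?_) H288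
  refine addcK_s he h320 (v' := (-1666/125:ℝ)) (by norm_num [SS, BB, abs_le]) (fun _ _ _ _ _ h340 H290 => ?_) H289
  refine mulK_s he h340 h30 (fun _ _ _ _ _ h341 H291 => ?_) H290
  refine addcK_s he h341 (v' := (2267/1000:ℝ)) (by norm_num [SS, BB, abs_le]) (fun _ _ _ _ _ h342 H292 => ?_) H291
  refine smulK_s he (w := (119/250:ℝ)) (by norm_num) (by norm_num) (by norm_num) (by norm_num) h69 (fun _ _ _ _ _ h343 H293 => ?_) H292
  refine addK_s he h342 h343 (fun _ _ _ _ _ h344 H294 => ?_) H293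
  refine mulK_s he h69 h344 (fun _ _ _ _ _ h345 H295 => ?_) H294
  refine addK_s he h339 h345 (fun _ _ _ _ _ h346 H296 => ?_) H295
  refine mulK_s he h69 h346 (fun _ _ _ _ _ h347 H297 => ?_) H296
  refine addK_s he h331 h347 (fun _ _ _ _ _ h348 H298 => ?_) H297
  have h349 := In_cast (w := (vE a f s p q)) h348 rfl
  refine mulK_s he h48 h349 (fun _ _ _ _ _ h350 H299 => ?_) H298
  refine smulK_s he (w := (4:ℝ)) (by norm_num) (by norm_num) (by norm_num) (by norm_num) h350 (fun _ _ _ _ _ h351 H300 => ?_) H299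
  refine addK_s he h319 h351 (fun _ _ _ _ _ h352 H301 => ?_) H300
  have h353 := In_cast (w := (vm a f s p q)) h352 rfl
  refine smulK_s he (w := (952/125:ℝ)) (by norm_num) (by norm_num) (by norm_num) (by norm_num) h30 (fun _ _ _ _ _ h354 H302 => ?_) H301
  refine addcK_s he h354 (v' := (-3808/125:ℝ)) (by norm_num [SS, BB, abs_le]) (fun _ _ _ _ _ h355 H303 => ?_) H302
  refine mulK_s he h355 h30 (fun _ _ _ _ _ h356 H304 => ?_) H303
  refine addcK_s he h356 (v' := (10609/250:ℝ)) (by norm_num [SS, BB, abs_le]) (fun _ _ _ _ _ h357 H305 => ?_) H304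
  refine mulK_s he h357 h30 (fun _ _ _ _ _ h358 H306 => ?_) H305
  refine addcK_s he h358 (v' := (-5647/250:ℝ)) (by norm_num [SS, BB, abs_le]) (fun _ _ _ _ _ h359 H307 => ?_) H306
  refine mulK_s he h359 h30 (fun _ _ _ _ _ h360 H308 => ?_) H307
  refine addcK_s he h360 (v' := (304/125:ℝ)) (by norm_num [SS, BB, abs_le]) (fun _ _ _ _ _ h361 H309 => ?_) H308
  refine mulK_s he h361 h30 (fun _ _ _ _ _ h362 H310 => ?_) H309
  refine addcK_s he h362 (v' := (119/1000:ℝ)) (by norm_num [SS, BB, abs_le]) (fun _ _ _ _ _ h363 H311 => ?_) H310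
  refine mulK_s he h363 h30 (fun _ _ _ _ _ h364 H312 => ?_) H311
  refine addcK_s he h364 (v' := (1347/4000:ℝ)) (by norm_num [SS, BB, abs_le]) (fun _ _ _ _ _ h365 H313 => ?_) H312
  refine smulK_s he (w := (3332/125:ℝ)) (by norm_num) (by norm_num) (by norm_num) (by norm_num) h30 (fun _ _ _ _ _ h366 H314 => ?_) H313
  refine addcK_s he h366 (v' := (-1666/25:ℝ)) (by norm_num [SS, BB, abs_le]) (fun _ _ _ _ _ h367 H315 => ?_) H314
  refine mulK_s he h367 h30 (fun _ _ _ _ _ h368 H316 => ?_) H315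
  refine addcK_s he h368 (v' := (2267/50:ℝ)) (by norm_num [SS, BB, abs_le]) (fun _ _ _ _ _ h369 H317 => ?_) H316
  refine mulK_s he h369 h30 (fun _ _ _ _ _ h370 H318 => ?_) H317
  refine addcK_s he h370 (v' := (-137/100:ℝ)) (by norm_num [SS, BB, abs_le]) (fun _ _ _ _ _ h371 H319 => ?_) H318
  refine mulK_s he h371 h30 (fun _ _ _ _ _ h372 H320 => ?_) H319
  refine addcK_s he h372 (v' := (-4431/1000:ℝ)) (by norm_num [SS, BB, abs_le]) (fun _ _ _ _ _ h373 H321 => ?_) H320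
  refine mulK_s he h373 h30 (fun _ _ _ _ _ h374 H322 => ?_) H321
  refine addcK_s he h374 (v' := (89/400:ℝ)) (by norm_num [SS, BB, abs_le]) (fun _ _ _ _ _ h375 H323 => ?_) H322
  refine addcK_s he h366 (v' := (-4998/125:ℝ)) (by norm_num [SS, BB, abs_le]) (fun _ _ _ _ _ h376 H324 => ?_) H323
  refine mulK_s he h376 h30 (fun _ _ _ _ _ h377 H325 => ?_) H324
  refine addcK_s he h377 (v' := (6801/500:ℝ)) (by norm_num [SS, BB, abs_le]) (fun _ _ _ _ _ h378 H326 => ?_) H325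
  refine mulK_s he h378 h30 (fun _ _ _ _ _ h379 H327 => ?_) H326
  refine addcK_s he h379 (v' := (-137/1000:ℝ)) (by norm_num [SS, BB, abs_le]) (fun _ _ _ _ _ h380 H328 => ?_) H327
  refine smulK_s he (w := (476/125:ℝ)) (by norm_num) (by norm_num) (by norm_num) (by norm_num) h30 (fun _ _ _ _ _ h381 H329 => ?_) H328
  refine addcK_s he h381 (v' := (-238/125:ℝ)) (by norm_num [SS, BB, abs_le]) (fun _ _ _ _ _ h382 H330 => ?_) H329
  refine mulK_s he h69 h382 (fun _ _ _ _ _ h383 H331 => ?_) H330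
  refine addK_s he h380 h383 (fun _ _ _ _ _ h384 H332 => ?_) H331
  refine mulK_s he h69 h384 (fun _ _ _ _ _ h385 H333 => ?_) H332
  refine addK_s he h375 h385 (fun _ _ _ _ _ h386 H334 => ?_) H333
  refine mulK_s he h51 h386 (fun _ _ _ _ _ h387 H335 => ?_) H334
  refine addK_s he h365 h387 (fun _ _ _ _ _ h388 H336 => ?_) H335
  have h389 := In_cast (w := (vO a f s p q)) h388 rfl
  refine mulK_s he hx2 h389 (fun _ _ _ _ _ h390 H337 => ?_) H336
  refine smulK_s he (w := (2:ℝ)) (by norm_num) (by norm_num) (by norm_num) (by norm_num) h390 (fun _ _ _ _ _ h391 H338 => ?_) H337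
  refine subK_s he h353 h391 (fun _ _ _ _ _ h392 H339 => ?_) H338
  have h393 := In_cast (w := (v0 a f s p q)) h392 rfl
  refine mulK_s he h306 h393 (fun _ _ _ _ _ h394 H340 => ?_) H339
  refine mulK_s he h159 h194 (fun _ _ _ _ _ h395 H341 => ?_) H340
  refine sqrtK_s he h395 (fun _ _ _ _ _ h396 H342 => ?_) H341
  refine addK_s he h353 h391 (fun _ _ _ _ _ h397 H343 => ?_) H342
  have h398 := In_cast (w := (v1 a f s p q)) h397 rfl
  refine mulK_s he h396 h398 (fun _ _ _ _ _ h399 H344 => ?_) H343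
  refine addK_s he h394 h399 (fun _ _ _ _ _ h400 H345 => ?_) H344
  refine smulK_s he (w := (2:ℝ)) (by norm_num) (by norm_num) (by norm_num) (by norm_num) h319 (fun _ _ _ _ _ h401 H346 => ?_) H345
  refine subK_s he h400 h401 (fun _ _ _ _ _ h402 H347 => ?_) H346
  have h403 := In_cast (w := (ZdDB a f s p q)) h402 rfl
  refine mulK_s he hx1 h403 (fun _ _ _ _ _ h404 H348 => ?_) H347
  refine negK_s he h404 (fun _ _ _ _ _ h405 H349 => ?_) H348
  refine reluK_s he h405 (fun _ _ _ _ _ h406 H350 => ?_) H349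
  refine sqK_s he h406 (fun _ _ _ _ _ h407 H351 => ?_) H350
  refine subK_s he h304 h407 (fun _ _ _ _ _ h408 H352 => ?_) H351
  exact ⟨p0, p1, p2, pos_s he h408 H352⟩

noncomputable def alt5 (p1 p2 z1 w1 z2 w2 z3 w3 : ℕ) : Bool :=
  smulK 3 4 4611686018427387908 3458764513820540928 z3 1152921504606846976 1152921504606846976 (Nat.add w3 1152921504606846976) 0 fun c1 a1_1 a1_2 a1_3 q1 =>
  smulK 3 1 1152921504606846977 3458764513820540928 p1 1152921504606846976 1152921504606846976 1152921504606846976 0 fun c2 a2_1 a2_2 a2_3 q2 =>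
  mulK c2 a2_1 a2_2 a2_3 q2 z2 1152921504606846976 (Nat.add w2 1152921504606846976) 1152921504606846976 0 fun c3 a3_1 a3_2 a3_3 q3 =>
  subK c1 a1_1 a1_2 a1_3 q1 c3 a3_1 a3_2 a3_3 q3 fun c5 a5_1 a5_2 a5_3 q5 =>
  posK c5 a5_1 a5_2 a5_3 q5 <|
  smulK 11 20 23058430092136939540 12682136550675316736 p2 1152921504606846976 1152921504606846976 1152921504606846976 0 fun c6 a6_1 a6_2 a6_3 q6 =>
  smulK 3 10 11529215046068469770 3458764513820540928 z3 1152921504606846976 1152921504606846976 (Nat.add w3 1152921504606846976) 0 fun c8 a8_1 a8_2 a8_3 q8 =>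
  subK c6 a6_1 a6_2 a6_3 q6 c8 a8_1 a8_2 a8_3 q8 fun c9 a9_1 a9_2 a9_3 q9 =>
  posK c9 a9_1 a9_2 a9_3 q9 <|
  mulK z3 1152921504606846976 1152921504606846976 (Nat.add w3 1152921504606846976) 0 c3 a3_1 a3_2 a3_3 q3 fun c10 a10_1 a10_2 a10_3 q10 =>
  smulK 2 3 3458764513820540931 2305843009213693952 c10 a10_1 a10_2 a10_3 q10 fun c11 a11_1 a11_2 a11_3 q11 =>
  addcK c11 a11_1 a11_2 a11_3 q11 1152922604118474752 0 fun c12 a12_1 a12_2 a12_3 q12 =>
  sqK c3 a3_1 a3_2 a3_3 q3 fun c14 a14_1 a14_2 a14_3 q14 =>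
  smulK 3 10 11529215046068469770 3458764513820540928 c14 a14_1 a14_2 a14_3 q14 fun c15 a15_1 a15_2 a15_3 q15 =>
  subK c12 a12_1 a12_2 a12_3 q12 c15 a15_1 a15_2 a15_3 q15 fun c16 a16_1 a16_2 a16_3 q16 =>
  smulK 2 1 1152921504606846977 2305843009213693952 z1 (Nat.add w1 1152921504606846976) 1152921504606846976 1152921504606846976 0 fun c18 a18_1 a18_2 a18_3 q18 =>
  addcK c18 a18_1 a18_2 a18_3 q18 1152920954851033088 0 fun c19 a19_1 a19_2 a19_3 q19 =>
  smulK 987 1000 1152921504606846977000 1137933525046957965312 c19 a19_1 a19_2 a19_3 q19 fun c22 a22_1 a22_2 a22_3 q22 =>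
  negK c22 a22_1 a22_2 a22_3 q22 fun c23 a23_1 a23_2 a23_3 q23 =>
  addcK c23 a23_1 a23_2 a23_3 q23 1152925987315753419 1 fun c25 a25_1 a25_2 a25_3 q25 =>
  mulK c25 a25_1 a25_2 a25_3 q25 c19 a19_1 a19_2 a19_3 q19 fun c26 a26_1 a26_2 a26_3 q26 =>
  addcK c26 a26_1 a26_2 a26_3 q26 1152915142007934943 1 fun c27 a27_1 a27_2 a27_3 q27 =>
  mulK c27 a27_1 a27_2 a27_3 q27 c19 a19_1 a19_2 a19_3 q19 fun c28 a28_1 a28_2 a28_3 q28 =>
  addcK c28 a28_1 a28_2 a28_3 q28 1152924586812817539 1 fun c29 a29_1 a29_2 a29_3 q29 =>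
  mulK c29 a29_1 a29_2 a29_3 q29 c19 a19_1 a19_2 a19_3 q19 fun c30 a30_1 a30_2 a30_3 q30 =>
  addcK c30 a30_1 a30_2 a30_3 q30 1152921546869325169 1 fun c31 a31_1 a31_2 a31_3 q31 =>
  mulK c31 a31_1 a31_2 a31_3 q31 c19 a19_1 a19_2 a19_3 q19 fun c32 a32_1 a32_2 a32_3 q32 =>
  addcK c32 a32_1 a32_2 a32_3 q32 1152921643626348413 1 fun c33 a33_1 a33_2 a33_3 q33 =>
  mulK c33 a33_1 a33_2 a33_3 q33 c19 a19_1 a19_2 a19_3 q19 fun c34 a34_1 a34_2 a34_3 q34 =>
  addcK c34 a34_1 a34_2 a34_3 q34 1152920461702888161 1 fun c35 a35_1 a35_2 a35_3 q35 =>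
  mulK c35 a35_1 a35_2 a35_3 q35 c19 a19_1 a19_2 a19_3 q19 fun c36 a36_1 a36_2 a36_3 q36 =>
  addcK c36 a36_1 a36_2 a36_3 q36 1152922806961190207 1 fun c37 a37_1 a37_2 a37_3 q37 =>
  sqK z2 1152921504606846976 (Nat.add w2 1152921504606846976) 1152921504606846976 0 fun c39 a39_1 a39_2 a39_3 q39 =>
  mulK z1 (Nat.add w1 1152921504606846976) 1152921504606846976 1152921504606846976 0 c39 a39_1 a39_2 a39_3 q39 fun c40 a40_1 a40_2 a40_3 q40 =>
  smulK 4 1 1152921504606846977 4611686018427387904 c40 a40_1 a40_2 a40_3 q40 fun c41 a41_1 a41_2 a41_3 q41 =>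
  smulK 6909 500 576460752303423488500 7965534675328705757184 c19 a19_1 a19_2 a19_3 q19 fun c43 a43_1 a43_2 a43_3 q43 =>
  negK c43 a43_1 a43_2 a43_3 q43 fun c44 a44_1 a44_2 a44_3 q44 =>
  addcK c44 a44_1 a44_2 a44_3 q44 1152962875655987397 1 fun c46 a46_1 a46_2 a46_3 q46 =>
  mulK c46 a46_1 a46_2 a46_3 q46 c19 a19_1 a19_2 a19_3 q19 fun c47 a47_1 a47_2 a47_3 q47 =>
  addcK c47 a47_1 a47_2 a47_3 q47 1152890595273405891 1 fun c48 a48_1 a48_2 a48_3 q48 =>
  mulK c48 a48_1 a48_2 a48_3 q48 c19 a19_1 a19_2 a19_3 q19 fun c49 a49_1 a49_2 a49_3 q49 =>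
  addcK c49 a49_1 a49_2 a49_3 q49 1152921009139419709 1 fun c50 a50_1 a50_2 a50_3 q50 =>
  mulK c50 a50_1 a50_2 a50_3 q50 c19 a19_1 a19_2 a19_3 q19 fun c51 a51_1 a51_2 a51_3 q51 =>
  addcK c51 a51_1 a51_2 a51_3 q51 1152926254703237399 1 fun c52 a52_1 a52_2 a52_3 q52 =>
  mulK c52 a52_1 a52_2 a52_3 q52 c19 a19_1 a19_2 a19_3 q19 fun c53 a53_1 a53_2 a53_3 q53 =>
  addcK c53 a53_1 a53_2 a53_3 q53 1152921744832957776 1 fun c54 a54_1 a54_2 a54_3 q54 =>
  mulK c54 a54_1 a54_2 a54_3 q54 c19 a19_1 a19_2 a19_3 q19 fun c55 a55_1 a55_2 a55_3 q55 =>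
  addcK c55 a55_1 a55_2 a55_3 q55 1152921017909742928 1 fun c56 a56_1 a56_2 a56_3 q56 =>
  mulK z1 (Nat.add w1 1152921504606846976) 1152921504606846976 1152921504606846976 0 z2 1152921504606846976 (Nat.add w2 1152921504606846976) 1152921504606846976 0 fun c57 a57_1 a57_2 a57_3 q57 =>
  sqK c57 a57_1 a57_2 a57_3 q57 fun c58 a58_1 a58_2 a58_3 q58 =>
  smulK 4 1 1152921504606846977 4611686018427387904 c58 a58_1 a58_2 a58_3 q58 fun c59 a59_1 a59_2 a59_3 q59 =>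
  smulK 6909 200 230584300921369395400 7965534675328705757184 c19 a19_1 a19_2 a19_3 q19 fun c61 a61_1 a61_2 a61_3 q61 =>
  negK c61 a61_1 a61_2 a61_3 q61 fun c62 a62_1 a62_2 a62_3 q62 =>
  addcK c62 a62_1 a62_2 a62_3 q62 1152990456355414344 1 fun c64 a64_1 a64_2 a64_3 q64 =>
  mulK c64 a64_1 a64_2 a64_3 q64 c19 a19_1 a19_2 a19_3 q19 fun c65 a65_1 a65_2 a65_3 q65 =>
  addcK c65 a65_1 a65_2 a65_3 q65 1152890595273405891 1 fun c66 a66_1 a66_2 a66_3 q66 =>
  mulK c66 a66_1 a66_2 a66_3 q66 c19 a19_1 a19_2 a19_3 q19 fun c67 a67_1 a67_2 a67_3 q67 =>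
  addcK c67 a67_1 a67_2 a67_3 q67 1152921256873133343 1 fun c68 a68_1 a68_2 a68_3 q68 =>
  mulK c68 a68_1 a68_2 a68_3 q68 c19 a19_1 a19_2 a19_3 q19 fun c69 a69_1 a69_2 a69_3 q69 =>
  addcK c69 a69_1 a69_2 a69_3 q69 1152922296289578713 1 fun c70 a70_1 a70_2 a70_3 q70 =>
  addcK c44 a44_1 a44_2 a44_3 q44 1152935294956560450 1 fun c71 a71_1 a71_2 a71_3 q71 =>
  mulK c71 a71_1 a71_2 a71_3 q71 c19 a19_1 a19_2 a19_3 q19 fun c72 a72_1 a72_2 a72_3 q72 =>
  addcK c72 a72_1 a72_2 a72_3 q72 1152919443984617570 1 fun c73 a73_1 a73_2 a73_3 q73 =>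
  smulK 987 2000 2305843009213693954000 1137933525046957965312 c59 a59_1 a59_2 a59_3 q59 fun c74 a74_1 a74_2 a74_3 q74 =>
  negK c74 a74_1 a74_2 a74_3 q74 fun c75 a75_1 a75_2 a75_3 q75 =>
  addK c73 a73_1 a73_2 a73_3 q73 c75 a75_1 a75_2 a75_3 q75 fun c77 a77_1 a77_2 a77_3 q77 =>
  mulK c59 a59_1 a59_2 a59_3 q59 c77 a77_1 a77_2 a77_3 q77 fun c78 a78_1 a78_2 a78_3 q78 =>
  addK c70 a70_1 a70_2 a70_3 q70 c78 a78_1 a78_2 a78_3 q78 fun c79 a79_1 a79_2 a79_3 q79 =>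
  mulK c59 a59_1 a59_2 a59_3 q59 c79 a79_1 a79_2 a79_3 q79 fun c80 a80_1 a80_2 a80_3 q80 =>
  addK c56 a56_1 a56_2 a56_3 q56 c80 a80_1 a80_2 a80_3 q80 fun c81 a81_1 a81_2 a81_3 q81 =>
  mulK c41 a41_1 a41_2 a41_3 q41 c81 a81_1 a81_2 a81_3 q81 fun c83 a83_1 a83_2 a83_3 q83 =>
  addK c37 a37_1 a37_2 a37_3 q37 c83 a83_1 a83_2 a83_3 q83 fun c84 a84_1 a84_2 a84_3 q84 =>
  smulK 987 250 288230376151711744250 1137933525046957965312 c19 a19_1 a19_2 a19_3 q19 fun c86 a86_1 a86_2 a86_3 q86 =>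
  negK c86 a86_1 a86_2 a86_3 q86 fun c87 a87_1 a87_2 a87_3 q87 =>
  addcK c87 a87_1 a87_2 a87_3 q87 1152935294956560450 1 fun c89 a89_1 a89_2 a89_3 q89 =>
  mulK c89 a89_1 a89_2 a89_3 q89 c19 a19_1 a19_2 a19_3 q19 fun c90 a90_1 a90_2 a90_3 q90 =>
  addcK c90 a90_1 a90_2 a90_3 q90 1152909140873470542 1 fun c91 a91_1 a91_2 a91_3 q91 =>
  mulK c91 a91_1 a91_2 a91_3 q91 c19 a19_1 a19_2 a19_3 q19 fun c92 a92_1 a92_2 a92_3 q92 =>
  addcK c92 a92_1 a92_2 a92_3 q92 1152921256873133343 1 fun c93 a93_1 a93_2 a93_3 q93 =>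
  mulK c93 a93_1 a93_2 a93_3 q93 c19 a19_1 a19_2 a19_3 q19 fun c94 a94_1 a94_2 a94_3 q94 =>
  addcK c94 a94_1 a94_2 a94_3 q94 1152924671337773924 1 fun c95 a95_1 a95_2 a95_3 q95 =>
  mulK c95 a95_1 a95_2 a95_3 q95 c19 a19_1 a19_2 a19_3 q19 fun c96 a96_1 a96_2 a96_3 q96 =>
  addcK c96 a96_1 a96_2 a96_3 q96 1152921744832957776 1 fun c97 a97_1 a97_2 a97_3 q97 =>
  mulK c97 a97_1 a97_2 a97_3 q97 c19 a19_1 a19_2 a19_3 q19 fun c98 a98_1 a98_2 a98_3 q98 =>
  addcK c98 a98_1 a98_2 a98_3 q98 1152920531212638880 1 fun c99 a99_1 a99_2 a99_3 q99 =>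
  mulK c99 a99_1 a99_2 a99_3 q99 c19 a19_1 a19_2 a19_3 q19 fun c100 a100_1 a100_2 a100_3 q100 =>
  addcK c100 a100_1 a100_2 a100_3 q100 1152921895058028888 1 fun c101 a101_1 a101_2 a101_3 q101 =>
  smulK 6909 250 288230376151711744250 7965534675328705757184 c19 a19_1 a19_2 a19_3 q19 fun c102 a102_1 a102_2 a102_3 q102 =>
  negK c102 a102_1 a102_2 a102_3 q102 fun c103 a103_1 a103_2 a103_3 q103 =>
  addcK c103 a103_1 a103_2 a103_3 q103 1152990456355414344 1 fun c105 a105_1 a105_2 a105_3 q105 =>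
  mulK c105 a105_1 a105_2 a105_3 q105 c19 a19_1 a19_2 a19_3 q19 fun c106 a106_1 a106_2 a106_3 q106 =>
  addcK c106 a106_1 a106_2 a106_3 q106 1152880292162258862 1 fun c107 a107_1 a107_2 a107_3 q107 =>
  mulK c107 a107_1 a107_2 a107_3 q107 c19 a19_1 a19_2 a19_3 q19 fun c108 a108_1 a108_2 a108_3 q108 =>
  addcK c108 a108_1 a108_2 a108_3 q108 1152921009139419709 1 fun c109 a109_1 a109_2 a109_3 q109 =>
  mulK c109 a109_1 a109_2 a109_3 q109 c19 a19_1 a19_2 a19_3 q19 fun c110 a110_1 a110_2 a110_3 q110 =>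
  addcK c110 a110_1 a110_2 a110_3 q110 1152924671337773924 1 fun c111 a111_1 a111_2 a111_3 q111 =>
  mulK c111 a111_1 a111_2 a111_3 q111 c19 a19_1 a19_2 a19_3 q19 fun c112 a112_1 a112_2 a112_3 q112 =>
  addcK c112 a112_1 a112_2 a112_3 q112 1152921584682217243 1 fun c113 a113_1 a113_2 a113_3 q113 =>
  addcK c103 a103_1 a103_2 a103_3 q103 1152962875655987397 1 fun c114 a114_1 a114_2 a114_3 q114 =>
  mulK c114 a114_1 a114_2 a114_3 q114 c19 a19_1 a19_2 a19_3 q19 fun c115 a115_1 a115_2 a115_3 q115 =>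
  addcK c115 a115_1 a115_2 a115_3 q115 1152909140873470542 1 fun c116 a116_1 a116_2 a116_3 q116 =>
  mulK c116 a116_1 a116_2 a116_3 q116 c19 a19_1 a19_2 a19_3 q19 fun c117 a117_1 a117_2 a117_3 q117 =>
  addcK c117 a117_1 a117_2 a117_3 q117 1152921455060104249 1 fun c118 a118_1 a118_2 a118_3 q118 =>
  addcK c87 a87_1 a87_2 a87_3 q87 1152923474656806044 1 fun c119 a119_1 a119_2 a119_3 q119 =>
  mulK c59 a59_1 a59_2 a59_3 q59 c119 a119_1 a119_2 a119_3 q119 fun c120 a120_1 a120_2 a120_3 q120 =>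
  addK c118 a118_1 a118_2 a118_3 q118 c120 a120_1 a120_2 a120_3 q120 fun c121 a121_1 a121_2 a121_3 q121 =>
  mulK c59 a59_1 a59_2 a59_3 q59 c121 a121_1 a121_2 a121_3 q121 fun c122 a122_1 a122_2 a122_3 q122 =>
  addK c113 a113_1 a113_2 a113_3 q113 c122 a122_1 a122_2 a122_3 q122 fun c123 a123_1 a123_2 a123_3 q123 =>
  mulK c59 a59_1 a59_2 a59_3 q59 c123 a123_1 a123_2 a123_3 q123 fun c124 a124_1 a124_2 a124_3 q124 =>
  addK c101 a101_1 a101_2 a101_3 q101 c124 a124_1 a124_2 a124_3 q124 fun c125 a125_1 a125_2 a125_3 q125 =>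
  mulK z2 1152921504606846976 (Nat.add w2 1152921504606846976) 1152921504606846976 0 c125 a125_1 a125_2 a125_3 q125 fun c127 a127_1 a127_2 a127_3 q127 =>
  smulK 2 1 1152921504606846977 2305843009213693952 c127 a127_1 a127_2 a127_3 q127 fun c128 a128_1 a128_2 a128_3 q128 =>
  subK c84 a84_1 a84_2 a84_3 q84 c128 a128_1 a128_2 a128_3 q128 fun c129 a129_1 a129_2 a129_3 q129 =>
  mulK c16 a16_1 a16_2 a16_3 q16 c129 a129_1 a129_2 a129_3 q129 fun c131 a131_1 a131_2 a131_3 q131 =>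
  negK c11 a11_1 a11_2 a11_3 q11 fun c132 a132_1 a132_2 a132_3 q132 =>
  addcK c132 a132_1 a132_2 a132_3 q132 1152922604118474752 0 fun c133 a133_1 a133_2 a133_3 q133 =>
  smulK 39 200 230584300921369395400 44963938679667032064 c14 a14_1 a14_2 a14_3 q14 fun c135 a135_1 a135_2 a135_3 q135 =>
  subK c133 a133_1 a133_2 a133_3 q133 c135 a135_1 a135_2 a135_3 q135 fun c136 a136_1 a136_2 a136_3 q136 =>
  addK c84 a84_1 a84_2 a84_3 q84 c128 a128_1 a128_2 a128_3 q128 fun c138 a138_1 a138_2 a138_3 q138 =>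
  mulK c136 a136_1 a136_2 a136_3 q136 c138 a138_1 a138_2 a138_3 q138 fun c140 a140_1 a140_2 a140_3 q140 =>
  addK c131 a131_1 a131_2 a131_3 q131 c140 a140_1 a140_2 a140_3 q140 fun c141 a141_1 a141_2 a141_3 q141 =>
  mulK z2 1152921504606846976 (Nat.add w2 1152921504606846976) 1152921504606846976 0 c3 a3_1 a3_2 a3_3 q3 fun c142 a142_1 a142_2 a142_3 q142 =>
  smulK 2 1 1152921504606846977 2305843009213693952 c142 a142_1 a142_2 a142_3 q142 fun c143 a143_1 a143_2 a143_3 q143 =>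
  addK c141 a141_1 a141_2 a141_3 q141 c143 a143_1 a143_2 a143_3 q143 fun c144 a144_1 a144_2 a144_3 q144 =>
  smulK 2 1 1152921504606846977 2305843009213693952 c37 a37_1 a37_2 a37_3 q37 fun c145 a145_1 a145_2 a145_3 q145 =>
  subK c144 a144_1 a144_2 a144_3 q144 c145 a145_1 a145_2 a145_3 q145 fun c146 a146_1 a146_2 a146_3 q146 =>
  posK c146 a146_1 a146_2 a146_3 q146 <|
  smulK 3 25 28823037615171174425 3458764513820540928 z3 1152921504606846976 1152921504606846976 (Nat.add w3 1152921504606846976) 0 fun c148 a148_1 a148_2 a148_3 q148 =>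
  sqK c6 a6_1 a6_2 a6_3 q6 fun c149 a149_1 a149_2 a149_3 q149 =>
  addcK c149 a149_1 a149_2 a149_3 q149 1152922604118474752 0 fun c150 a150_1 a150_2 a150_3 q150 =>
  invK c150 a150_1 a150_2 a150_3 q150 fun c152 a152_1 a152_2 a152_3 q152 =>
  smulK 2 1 1152921504606846977 2305843009213693952 c6 a6_1 a6_2 a6_3 q6 fun c153 a153_1 a153_2 a153_3 q153 =>
  mulK c153 a153_1 a153_2 a153_3 q153 c152 a152_1 a152_2 a152_3 q152 fun c154 a154_1 a154_2 a154_3 q154 =>
  smulK 3 10 11529215046068469770 3458764513820540928 c154 a154_1 a154_2 a154_3 q154 fun c157 a157_1 a157_2 a157_3 q157 =>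
  mulK c6 a6_1 a6_2 a6_3 q6 c154 a154_1 a154_2 a154_3 q154 fun c158 a158_1 a158_2 a158_3 q158 =>
  smulK 1 4 4611686018427387908 1152921504606846976 c158 a158_1 a158_2 a158_3 q158 fun c160 a160_1 a160_2 a160_3 q160 =>
  subK c157 a157_1 a157_2 a157_3 q157 c160 a160_1 a160_2 a160_3 q160 fun c162 a162_1 a162_2 a162_3 q162 =>
  addK c148 a148_1 a148_2 a148_3 q148 c162 a162_1 a162_2 a162_3 q162 fun c163 a163_1 a163_2 a163_3 q163 =>
  mulK z3 1152921504606846976 1152921504606846976 (Nat.add w3 1152921504606846976) 0 c163 a163_1 a163_2 a163_3 q163 fun c164 a164_1 a164_2 a164_3 q164 =>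
  addcK c164 a164_1 a164_2 a164_3 q164 1152922604118474752 0 fun c165 a165_1 a165_2 a165_3 q165 =>
  addcK c23 a23_1 a23_2 a23_3 q23 1152926788859730067 1 fun c168 a168_1 a168_2 a168_3 q168 =>
  mulK c168 a168_1 a168_2 a168_3 q168 c19 a19_1 a19_2 a19_3 q19 fun c169 a169_1 a169_2 a169_3 q169 =>
  addcK c169 a169_1 a169_2 a169_3 q169 1152911935832028348 1 fun c170 a170_1 a170_2 a170_3 q170 =>
  mulK c170 a170_1 a170_2 a170_3 q170 c19 a19_1 a19_2 a19_3 q19 fun c171 a171_1 a171_2 a171_3 q171 =>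
  addcK c171 a171_1 a171_2 a171_3 q171 1152929145662904205 1 fun c172 a172_1 a172_2 a172_3 q172 =>
  mulK c172 a172_1 a172_2 a172_3 q172 c19 a19_1 a19_2 a19_3 q19 fun c173 a173_1 a173_2 a173_3 q173 =>
  addcK c173 a173_1 a173_2 a173_3 q173 1152918891548744090 1 fun c174 a174_1 a174_2 a174_3 q174 =>
  mulK c174 a174_1 a174_2 a174_3 q174 c19 a19_1 a19_2 a19_3 q19 fun c175 a175_1 a175_2 a175_3 q175 =>
  addcK c175 a175_1 a175_2 a175_3 q175 1152922602056890450 1 fun c176 a176_1 a176_2 a176_3 q176 =>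
  mulK c176 a176_1 a176_2 a176_3 q176 c19 a19_1 a19_2 a19_3 q19 fun c177 a177_1 a177_2 a177_3 q177 =>
  addcK c177 a177_1 a177_2 a177_3 q177 1152919509525818507 1 fun c178 a178_1 a178_2 a178_3 q178 =>
  mulK c178 a178_1 a178_2 a178_3 q178 c19 a19_1 a19_2 a19_3 q19 fun c179 a179_1 a179_2 a179_3 q179 =>
  addcK c179 a179_1 a179_2 a179_3 q179 1152923178097904189 1 fun c180 a180_1 a180_2 a180_3 q180 =>
  addcK c44 a44_1 a44_2 a44_3 q44 1152971291867742208 0 fun c182 a182_1 a182_2 a182_3 q182 =>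
  mulK c182 a182_1 a182_2 a182_3 q182 c19 a19_1 a19_2 a19_3 q19 fun c183 a183_1 a183_2 a183_3 q183 =>
  addcK c183 a183_1 a183_2 a183_3 q183 1152869554744018862 1 fun c184 a184_1 a184_2 a184_3 q184 =>
  mulK c184 a184_1 a184_2 a184_3 q184 c19 a19_1 a19_2 a19_3 q19 fun c185 a185_1 a185_2 a185_3 q185 =>
  addcK c185 a185_1 a185_2 a185_3 q185 1152935787950086554 1 fun c186 a186_1 a186_2 a186_3 q186 =>
  mulK c186 a186_1 a186_2 a186_3 q186 c19 a19_1 a19_2 a19_3 q19 fun c187 a187_1 a187_2 a187_3 q187 =>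
  addcK c187 a187_1 a187_2 a187_3 q187 1152925127016624161 1 fun c188 a188_1 a188_2 a188_3 q188 =>
  mulK c188 a188_1 a188_2 a188_3 q188 c19 a19_1 a19_2 a19_3 q19 fun c189 a189_1 a189_2 a189_3 q189 =>
  addcK c189 a189_1 a189_2 a189_3 q189 1152921190988335022 1 fun c190 a190_1 a190_2 a190_3 q190 =>
  mulK c190 a190_1 a190_2 a190_3 q190 c19 a19_1 a19_2 a19_3 q19 fun c191 a191_1 a191_2 a191_3 q191 =>
  addcK c191 a191_1 a191_2 a191_3 q191 1152920781428843610 1 fun c192 a192_1 a192_2 a192_3 q192 =>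
  addcK c62 a62_1 a62_2 a62_3 q62 1153004483375005696 0 fun c193 a193_1 a193_2 a193_3 q193 =>
  mulK c193 a193_1 a193_2 a193_3 q193 c19 a19_1 a19_2 a19_3 q19 fun c194 a194_1 a194_2 a194_3 q194 =>
  addcK c194 a194_1 a194_2 a194_3 q194 1152869554744018862 1 fun c195 a195_1 a195_2 a195_3 q195 =>
  mulK c195 a195_1 a195_2 a195_3 q195 c19 a19_1 a19_2 a19_3 q19 fun c196 a196_1 a196_2 a196_3 q196 =>
  addcK c196 a196_1 a196_2 a196_3 q196 1152928646278466765 1 fun c197 a197_1 a197_2 a197_3 q197 =>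
  mulK c197 a197_1 a197_2 a197_3 q197 c19 a19_1 a19_2 a19_3 q19 fun c198 a198_1 a198_2 a198_3 q198 =>
  addcK c198 a198_1 a198_2 a198_3 q198 1152922108341809840 1 fun c199 a199_1 a199_2 a199_3 q199 =>
  addcK c44 a44_1 a44_2 a44_3 q44 1152938100360478720 0 fun c200 a200_1 a200_2 a200_3 q200 =>
  mulK c200 a200_1 a200_2 a200_3 q200 c19 a19_1 a19_2 a19_3 q19 fun c201 a201_1 a201_2 a201_3 q201 =>
  addcK c201 a201_1 a201_2 a201_3 q201 1152918041282658435 1 fun c202 a202_1 a202_2 a202_3 q202 =>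
  addK c202 a202_1 a202_2 a202_3 q202 c75 a75_1 a75_2 a75_3 q75 fun c203 a203_1 a203_2 a203_3 q203 =>
  mulK c59 a59_1 a59_2 a59_3 q59 c203 a203_1 a203_2 a203_3 q203 fun c204 a204_1 a204_2 a204_3 q204 =>
  addK c199 a199_1 a199_2 a199_3 q199 c204 a204_1 a204_2 a204_3 q204 fun c205 a205_1 a205_2 a205_3 q205 =>
  mulK c59 a59_1 a59_2 a59_3 q59 c205 a205_1 a205_2 a205_3 q205 fun c206 a206_1 a206_2 a206_3 q206 =>
  addK c192 a192_1 a192_2 a192_3 q192 c206 a206_1 a206_2 a206_3 q206 fun c207 a207_1 a207_2 a207_3 q207 =>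
  mulK c41 a41_1 a41_2 a41_3 q41 c207 a207_1 a207_2 a207_3 q207 fun c209 a209_1 a209_2 a209_3 q209 =>
  addK c180 a180_1 a180_2 a180_3 q180 c209 a209_1 a209_2 a209_3 q209 fun c210 a210_1 a210_2 a210_3 q210 =>
  addcK c87 a87_1 a87_2 a87_3 q87 1152938100360478720 0 fun c212 a212_1 a212_2 a212_3 q212 =>
  mulK c212 a212_1 a212_2 a212_3 q212 c19 a19_1 a19_2 a19_3 q19 fun c213 a213_1 a213_2 a213_3 q213 =>
  addcK c213 a213_1 a213_2 a213_3 q213 1152900724661715730 1 fun c214 a214_1 a214_2 a214_3 q214 =>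
  mulK c214 a214_1 a214_2 a214_3 q214 c19 a19_1 a19_2 a19_3 q19 fun c215 a215_1 a215_2 a215_3 q215 =>
  addcK c215 a215_1 a215_2 a215_3 q215 1152928646278466765 1 fun c216 a216_1 a216_2 a216_3 q216 =>
  mulK c216 a216_1 a216_2 a216_3 q216 c19 a19_1 a19_2 a19_3 q19 fun c217 a217_1 a217_2 a217_3 q217 =>
  addcK c217 a217_1 a217_2 a217_3 q217 1152923919546698433 1 fun c218 a218_1 a218_2 a218_3 q218 =>
  mulK c218 a218_1 a218_2 a218_3 q218 c19 a19_1 a19_2 a19_3 q19 fun c219 a219_1 a219_2 a219_3 q219 =>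
  addcK c219 a219_1 a219_2 a219_3 q219 1152921190988335022 1 fun c220 a220_1 a220_2 a220_3 q220 =>
  mulK c220 a220_1 a220_2 a220_3 q220 c19 a19_1 a19_2 a19_3 q19 fun c221 a221_1 a221_2 a221_3 q221 =>
  addcK c221 a221_1 a221_2 a221_3 q221 1152920058250840244 1 fun c222 a222_1 a222_2 a222_3 q222 =>
  mulK c222 a222_1 a222_2 a222_3 q222 c19 a19_1 a19_2 a19_3 q19 fun c223 a223_1 a223_2 a223_3 q223 =>
  addcK c223 a223_1 a223_2 a223_3 q223 1152921842582118466 1 fun c224 a224_1 a224_2 a224_3 q224 =>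
  addcK c103 a103_1 a103_2 a103_3 q103 1153004483375005696 0 fun c225 a225_1 a225_2 a225_3 q225 =>
  mulK c225 a225_1 a225_2 a225_3 q225 c19 a19_1 a19_2 a19_3 q19 fun c226 a226_1 a226_2 a226_3 q226 =>
  addcK c226 a226_1 a226_2 a226_3 q226 1152852238123076157 1 fun c227 a227_1 a227_2 a227_3 q227 =>
  mulK c227 a227_1 a227_2 a227_3 q227 c19 a19_1 a19_2 a19_3 q19 fun c228 a228_1 a228_2 a228_3 q228 =>
  addcK c228 a228_1 a228_2 a228_3 q228 1152935787950086554 1 fun c229 a229_1 a229_2 a229_3 q229 =>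
  mulK c229 a229_1 a229_2 a229_3 q229 c19 a19_1 a19_2 a19_3 q19 fun c230 a230_1 a230_2 a230_3 q230 =>
  addcK c230 a230_1 a230_2 a230_3 q230 1152923919546698433 1 fun c231 a231_1 a231_2 a231_3 q231 =>
  mulK c231 a231_1 a231_2 a231_3 q231 c19 a19_1 a19_2 a19_3 q19 fun c232 a232_1 a232_2 a232_3 q232 =>
  addcK c232 a232_1 a232_2 a232_3 q232 1152921400067342991 1 fun c233 a233_1 a233_2 a233_3 q233 =>
  addcK c103 a103_1 a103_2 a103_3 q103 1152971291867742208 0 fun c234 a234_1 a234_2 a234_3 q234 =>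
  mulK c234 a234_1 a234_2 a234_3 q234 c19 a19_1 a19_2 a19_3 q19 fun c235 a235_1 a235_2 a235_3 q235 =>
  addcK c235 a235_1 a235_2 a235_3 q235 1152900724661715730 1 fun c236 a236_1 a236_2 a236_3 q236 =>
  mulK c236 a236_1 a236_2 a236_3 q236 c19 a19_1 a19_2 a19_3 q19 fun c237 a237_1 a237_2 a237_3 q237 =>
  addcK c237 a237_1 a237_2 a237_3 q237 1152922932941170934 1 fun c238 a238_1 a238_2 a238_3 q238 =>
  addcK c87 a87_1 a87_2 a87_3 q87 1152923875428794368 0 fun c239 a239_1 a239_2 a239_3 q239 =>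
  mulK c59 a59_1 a59_2 a59_3 q59 c239 a239_1 a239_2 a239_3 q239 fun c240 a240_1 a240_2 a240_3 q240 =>
  addK c238 a238_1 a238_2 a238_3 q238 c240 a240_1 a240_2 a240_3 q240 fun c241 a241_1 a241_2 a241_3 q241 =>
  mulK c59 a59_1 a59_2 a59_3 q59 c241 a241_1 a241_2 a241_3 q241 fun c242 a242_1 a242_2 a242_3 q242 =>
  addK c233 a233_1 a233_2 a233_3 q233 c242 a242_1 a242_2 a242_3 q242 fun c243 a243_1 a243_2 a243_3 q243 =>
  mulK c59 a59_1 a59_2 a59_3 q59 c243 a243_1 a243_2 a243_3 q243 fun c244 a244_1 a244_2 a244_3 q244 =>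
  addK c224 a224_1 a224_2 a224_3 q224 c244 a244_1 a244_2 a244_3 q244 fun c245 a245_1 a245_2 a245_3 q245 =>
  mulK z2 1152921504606846976 (Nat.add w2 1152921504606846976) 1152921504606846976 0 c245 a245_1 a245_2 a245_3 q245 fun c247 a247_1 a247_2 a247_3 q247 =>
  smulK 2 1 1152921504606846977 2305843009213693952 c247 a247_1 a247_2 a247_3 q247 fun c248 a248_1 a248_2 a248_3 q248 =>
  addK c210 a210_1 a210_2 a210_3 q210 c248 a248_1 a248_2 a248_3 q248 fun c249 a249_1 a249_2 a249_3 q249 =>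
  mulK c165 a165_1 a165_2 a165_3 q165 c249 a249_1 a249_2 a249_3 q249 fun c251 a251_1 a251_2 a251_3 q251 =>
  negK c158 a158_1 a158_2 a158_3 q158 fun c252 a252_1 a252_2 a252_3 q252 =>
  addcK c252 a252_1 a252_2 a252_3 q252 1152922604118474752 0 fun c253 a253_1 a253_2 a253_3 q253 =>
  smulK 7 25 28823037615171174425 8070450532247928832 c154 a154_1 a154_2 a154_3 q154 fun c255 a255_1 a255_2 a255_3 q255 =>
  subK c255 a255_1 a255_2 a255_3 q255 c160 a160_1 a160_2 a160_3 q160 fun c256 a256_1 a256_2 a256_3 q256 =>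
  addK c148 a148_1 a148_2 a148_3 q148 c256 a256_1 a256_2 a256_3 q256 fun c257 a257_1 a257_2 a257_3 q257 =>
  mulK z3 1152921504606846976 1152921504606846976 (Nat.add w3 1152921504606846976) 0 c257 a257_1 a257_2 a257_3 q257 fun c258 a258_1 a258_2 a258_3 q258 =>
  subK c253 a253_1 a253_2 a253_3 q253 c258 a258_1 a258_2 a258_3 q258 fun c259 a259_1 a259_2 a259_3 q259 =>
  subK c210 a210_1 a210_2 a210_3 q210 c248 a248_1 a248_2 a248_3 q248 fun c261 a261_1 a261_2 a261_3 q261 =>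
  mulK c259 a259_1 a259_2 a259_3 q259 c261 a261_1 a261_2 a261_3 q261 fun c263 a263_1 a263_2 a263_3 q263 =>
  addK c251 a251_1 a251_2 a251_3 q251 c263 a263_1 a263_2 a263_3 q263 fun c264 a264_1 a264_2 a264_3 q264 =>
  smulK 3 500 576460752303423488500 3458764513820540928 z3 1152921504606846976 1152921504606846976 (Nat.add w3 1152921504606846976) 0 fun c265 a265_1 a265_2 a265_3 q265 =>
  negK c265 a265_1 a265_2 a265_3 q265 fun c266 a266_1 a266_2 a266_3 q266 =>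
  addcK c266 a266_1 a266_2 a266_3 q266 1152922601919451496 1 fun c267 a267_1 a267_2 a267_3 q267 =>
  mulK c267 a267_1 a267_2 a267_3 q267 c154 a154_1 a154_2 a154_3 q154 fun c269 a269_1 a269_2 a269_3 q269 =>
  mulK z2 1152921504606846976 (Nat.add w2 1152921504606846976) 1152921504606846976 0 c269 a269_1 a269_2 a269_3 q269 fun c271 a271_1 a271_2 a271_3 q271 =>
  smulK 2 1 1152921504606846977 2305843009213693952 c271 a271_1 a271_2 a271_3 q271 fun c272 a272_1 a272_2 a272_3 q272 =>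
  addK c264 a264_1 a264_2 a264_3 q264 c272 a272_1 a272_2 a272_3 q272 fun c273 a273_1 a273_2 a273_3 q273 =>
  smulK 2 1 1152921504606846977 2305843009213693952 c180 a180_1 a180_2 a180_3 q180 fun c274 a274_1 a274_2 a274_3 q274 =>
  subK c273 a273_1 a273_2 a273_3 q273 c274 a274_1 a274_2 a274_3 q274 fun c275 a275_1 a275_2 a275_3 q275 =>
  posK c275 a275_1 a275_2 a275_3 q275 <|
  mulK c146 a146_1 a146_2 a146_3 q146 c275 a275_1 a275_2 a275_3 q275 fun c277 a277_1 a277_2 a277_3 q277 =>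
  mulK c16 a16_1 a16_2 a16_3 q16 c259 a259_1 a259_2 a259_3 q259 fun c278 a278_1 a278_2 a278_3 q278 =>
  sqrtK c278 a278_1 a278_2 a278_3 q278 fun c279 a279_1 a279_2 a279_3 q279 =>
  smulK 238 125 144115188075855872125 274395318096429580288 c19 a19_1 a19_2 a19_3 q19 fun c280 a280_1 a280_2 a280_3 q280 =>
  addcK c280 a280_1 a280_2 a280_3 q280 1152911037256150548 1 fun c281 a281_1 a281_2 a281_3 q281 =>
  mulK c281 a281_1 a281_2 a281_3 q281 c19 a19_1 a19_2 a19_3 q19 fun c282 a282_1 a282_2 a282_3 q282 =>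
  addcK c282 a282_1 a282_2 a282_3 q282 1152941418961449255 1 fun c283 a283_1 a283_2 a283_3 q283 =>
  mulK c283 a283_1 a283_2 a283_3 q283 c19 a19_1 a19_2 a19_3 q19 fun c284 a284_1 a284_2 a284_3 q284 =>
  addcK c284 a284_1 a284_2 a284_3 q284 1152903604557546783 1 fun c285 a285_1 a285_2 a285_3 q285 =>
  mulK c285 a285_1 a285_2 a285_3 q285 c19 a19_1 a19_2 a19_3 q19 fun c286 a286_1 a286_2 a286_3 q286 =>
  addcK c286 a286_1 a286_2 a286_3 q286 1152929554131473924 1 fun c287 a287_1 a287_2 a287_3 q287 =>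
  mulK c287 a287_1 a287_2 a287_3 q287 c19 a19_1 a19_2 a19_3 q19 fun c288 a288_1 a288_2 a288_3 q288 =>
  addcK c288 a288_1 a288_2 a288_3 q288 1152918908659893797 1 fun c289 a289_1 a289_2 a289_3 q289 =>
  mulK c289 a289_1 a289_2 a289_3 q289 c19 a19_1 a19_2 a19_3 q19 fun c290 a290_1 a290_2 a290_3 q290 =>
  addcK c290 a290_1 a290_2 a290_3 q290 1152922523854125924 1 fun c291 a291_1 a291_2 a291_3 q291 =>
  smulK 1666 125 144115188075855872125 1920767226675007062016 c19 a19_1 a19_2 a19_3 q19 fun c293 a293_1 a293_2 a293_3 q293 =>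
  addcK c293 a293_1 a293_2 a293_3 q293 1152877541733921980 1 fun c294 a294_1 a294_2 a294_3 q294 =>
  mulK c294 a294_1 a294_2 a294_3 q294 c19 a19_1 a19_2 a19_3 q19 fun c295 a295_1 a295_2 a295_3 q295 =>
  addcK c295 a295_1 a295_2 a295_3 q295 1152958893499749499 1 fun c296 a296_1 a296_2 a296_3 q296 =>
  mulK c296 a296_1 a296_2 a296_3 q296 c19 a19_1 a19_2 a19_3 q19 fun c297 a297_1 a297_2 a297_3 q297 =>
  addcK c297 a297_1 a297_2 a297_3 q297 1152919998275916923 1 fun c298 a298_1 a298_2 a298_3 q298 =>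
  mulK c298 a298_1 a298_2 a298_3 q298 c19 a19_1 a19_2 a19_3 q19 fun c299 a299_1 a299_2 a299_3 q299 =>
  addcK c299 a299_1 a299_2 a299_3 q299 1152914196702812963 1 fun c300 a300_1 a300_2 a300_3 q300 =>
  mulK c300 a300_1 a300_2 a300_3 q300 c19 a19_1 a19_2 a19_3 q19 fun c301 a301_1 a301_2 a301_3 q301 =>
  addcK c301 a301_1 a301_2 a301_3 q301 1152922238530858516 1 fun c302 a302_1 a302_2 a302_3 q302 =>
  mulK c302 a302_1 a302_2 a302_3 q302 c19 a19_1 a19_2 a19_3 q19 fun c303 a303_1 a303_2 a303_3 q303 =>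
  addcK c303 a303_1 a303_2 a303_3 q303 1152921613527217603 1 fun c304 a304_1 a304_2 a304_3 q304 =>
  smulK 833 25 28823037615171174425 960383613337503531008 c19 a19_1 a19_2 a19_3 q19 fun c305 a305_1 a305_2 a305_3 q305 =>
  addcK c305 a305_1 a305_2 a305_3 q305 1152848233151971983 1 fun c306 a306_1 a306_2 a306_3 q306 =>
  mulK c306 a306_1 a306_2 a306_3 q306 c19 a19_1 a19_2 a19_3 q19 fun c307 a307_1 a307_2 a307_3 q307 =>
  addcK c307 a307_1 a307_2 a307_3 q307 1152958893499749499 1 fun c308 a308_1 a308_2 a308_3 q308 =>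
  mulK c308 a308_1 a308_2 a308_3 q308 c19 a19_1 a19_2 a19_3 q19 fun c309 a309_1 a309_2 a309_3 q309 =>
  addcK c309 a309_1 a309_2 a309_3 q309 1152920751441381949 1 fun c310 a310_1 a310_2 a310_3 q310 =>
  mulK c310 a310_1 a310_2 a310_3 q310 c19 a19_1 a19_2 a19_3 q19 fun c311 a311_1 a311_2 a311_3 q311 =>
  addcK c311 a311_1 a311_2 a311_3 q311 1152920286622841307 1 fun c312 a312_1 a312_2 a312_3 q312 =>
  addcK c293 a293_1 a293_2 a293_3 q293 1152906850315871977 1 fun c313 a313_1 a313_2 a313_3 q313 =>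
  mulK c313 a313_1 a313_2 a313_3 q313 c19 a19_1 a19_2 a19_3 q19 fun c314 a314_1 a314_2 a314_3 q314 =>
  addcK c314 a314_1 a314_2 a314_3 q314 1152923997199707144 1 fun c315 a315_1 a315_2 a315_3 q315 =>
  smulK 119 250 288230376151711744250 137197659048214790144 c59 a59_1 a59_2 a59_3 q59 fun c316 a316_1 a316_2 a316_3 q316 =>
  addK c315 a315_1 a315_2 a315_3 q315 c316 a316_1 a316_2 a316_3 q316 fun c317 a317_1 a317_2 a317_3 q317 =>
  mulK c59 a59_1 a59_2 a59_3 q59 c317 a317_1 a317_2 a317_3 q317 fun c318 a318_1 a318_2 a318_3 q318 =>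
  addK c312 a312_1 a312_2 a312_3 q312 c318 a318_1 a318_2 a318_3 q318 fun c319 a319_1 a319_2 a319_3 q319 =>
  mulK c59 a59_1 a59_2 a59_3 q59 c319 a319_1 a319_2 a319_3 q319 fun c320 a320_1 a320_2 a320_3 q320 =>
  addK c304 a304_1 a304_2 a304_3 q304 c320 a320_1 a320_2 a320_3 q320 fun c321 a321_1 a321_2 a321_3 q321 =>
  mulK c39 a39_1 a39_2 a39_3 q39 c321 a321_1 a321_2 a321_3 q321 fun c323 a323_1 a323_2 a323_3 q323 =>
  smulK 4 1 1152921504606846977 4611686018427387904 c323 a323_1 a323_2 a323_3 q323 fun c324 a324_1 a324_2 a324_3 q324 =>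
  addK c291 a291_1 a291_2 a291_3 q291 c324 a324_1 a324_2 a324_3 q324 fun c325 a325_1 a325_2 a325_3 q325 =>
  smulK 952 125 144115188075855872125 1097581272385718321152 c19 a19_1 a19_2 a19_3 q19 fun c327 a327_1 a327_2 a327_3 q327 =>
  addcK c327 a327_1 a327_2 a327_3 q327 1152888009084618408 1 fun c328 a328_1 a328_2 a328_3 q328 =>
  mulK c328 a328_1 a328_2 a328_3 q328 c19 a19_1 a19_2 a19_3 q19 fun c329 a329_1 a329_2 a329_3 q329 =>
  addcK c329 a329_1 a329_2 a329_3 q329 1152968163482283278 1 fun c330 a330_1 a330_2 a330_3 q330 =>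
  mulK c330 a330_1 a330_2 a330_3 q330 c19 a19_1 a19_2 a19_3 q19 fun c331 a331_1 a331_2 a331_3 q331 =>
  addcK c331 a331_1 a331_2 a331_3 q331 1152896668838198772 1 fun c332 a332_1 a332_2 a332_3 q332 =>
  mulK c332 a332_1 a332_2 a332_3 q332 c19 a19_1 a19_2 a19_3 q19 fun c333 a333_1 a333_2 a333_3 q333 =>
  addcK c333 a333_1 a333_2 a333_3 q333 1152924178619125727 1 fun c334 a334_1 a334_2 a334_3 q334 =>
  mulK c334 a334_1 a334_2 a334_3 q334 c19 a19_1 a19_2 a19_3 q19 fun c335 a335_1 a335_2 a335_3 q335 =>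
  addcK c335 a335_1 a335_2 a335_3 q335 1152921635448730681 1 fun c336 a336_1 a336_2 a336_3 q336 =>
  mulK c336 a336_1 a336_2 a336_3 q336 c19 a19_1 a19_2 a19_3 q19 fun c337 a337_1 a337_2 a337_3 q337 =>
  addcK c337 a337_1 a337_2 a337_3 q337 1152921874867387630 1 fun c338 a338_1 a338_2 a338_3 q338 =>
  smulK 3332 125 144115188075855872125 3841534453350014124032 c19 a19_1 a19_2 a19_3 q19 fun c339 a339_1 a339_2 a339_3 q339 =>
  addcK c339 a339_1 a339_2 a339_3 q339 1152848233151971983 1 fun c340 a340_1 a340_2 a340_3 q340 =>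
  mulK c340 a340_1 a340_2 a340_3 q340 c19 a19_1 a19_2 a19_3 q19 fun c341 a341_1 a341_2 a341_3 q341 =>
  addcK c341 a341_1 a341_2 a341_3 q341 1152971356464050340 1 fun c342 a342_1 a342_2 a342_3 q342 =>
  mulK c342 a342_1 a342_2 a342_3 q342 c19 a19_1 a19_2 a19_3 q19 fun c343 a343_1 a343_2 a343_3 q343 =>
  addcK c343 a343_1 a343_2 a343_3 q343 1152919998275916923 1 fun c344 a344_1 a344_2 a344_3 q344 =>
  mulK c344 a344_1 a344_2 a344_3 q344 c19 a19_1 a19_2 a19_3 q19 fun c345 a345_1 a345_2 a345_3 q345 =>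
  addcK c345 a345_1 a345_2 a345_3 q345 1152916632670824301 1 fun c346 a346_1 a346_2 a346_3 q346 =>
  mulK c346 a346_1 a346_2 a346_3 q346 c19 a19_1 a19_2 a19_3 q19 fun c347 a347_1 a347_2 a347_3 q347 =>
  addcK c347 a347_1 a347_2 a347_3 q347 1152921749248184156 1 fun c348 a348_1 a348_2 a348_3 q348 =>
  addcK c339 a339_1 a339_2 a339_3 q339 1152877541733921980 1 fun c349 a349_1 a349_2 a349_3 q349 =>
  mulK c349 a349_1 a349_2 a349_3 q349 c19 a19_1 a19_2 a19_3 q19 fun c350 a350_1 a350_2 a350_3 q350 =>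
  addcK c350 a350_1 a350_2 a350_3 q350 1152936460164007985 1 fun c351 a351_1 a351_2 a351_3 q351 =>
  mulK c351 a351_1 a351_2 a351_3 q351 c19 a19_1 a19_2 a19_3 q19 fun c352 a352_1 a352_2 a352_3 q352 =>
  addcK c352 a352_1 a352_2 a352_3 q352 1152921353973753971 1 fun c353 a353_1 a353_2 a353_3 q353 =>
  smulK 476 125 144115188075855872125 548790636192859160576 c19 a19_1 a19_2 a19_3 q19 fun c354 a354_1 a354_2 a354_3 q354 =>
  addcK c354 a354_1 a354_2 a354_3 q354 1152919411136707690 1 fun c355 a355_1 a355_2 a355_3 q355 =>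
  mulK c59 a59_1 a59_2 a59_3 q59 c355 a355_1 a355_2 a355_3 q355 fun c356 a356_1 a356_2 a356_3 q356 =>
  addK c353 a353_1 a353_2 a353_3 q353 c356 a356_1 a356_2 a356_3 q356 fun c357 a357_1 a357_2 a357_3 q357 =>
  mulK c59 a59_1 a59_2 a59_3 q59 c357 a357_1 a357_2 a357_3 q357 fun c358 a358_1 a358_2 a358_3 q358 =>
  addK c348 a348_1 a348_2 a348_3 q348 c358 a358_1 a358_2 a358_3 q358 fun c359 a359_1 a359_2 a359_3 q359 =>
  mulK c41 a41_1 a41_2 a41_3 q41 c359 a359_1 a359_2 a359_3 q359 fun c360 a360_1 a360_2 a360_3 q360 =>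
  addK c338 a338_1 a338_2 a338_3 q338 c360 a360_1 a360_2 a360_3 q360 fun c361 a361_1 a361_2 a361_3 q361 =>
  mulK z2 1152921504606846976 (Nat.add w2 1152921504606846976) 1152921504606846976 0 c361 a361_1 a361_2 a361_3 q361 fun c363 a363_1 a363_2 a363_3 q363 =>
  smulK 2 1 1152921504606846977 2305843009213693952 c363 a363_1 a363_2 a363_3 q363 fun c364 a364_1 a364_2 a364_3 q364 =>
  subK c325 a325_1 a325_2 a325_3 q325 c364 a364_1 a364_2 a364_3 q364 fun c365 a365_1 a365_2 a365_3 q365 =>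
  mulK c279 a279_1 a279_2 a279_3 q279 c365 a365_1 a365_2 a365_3 q365 fun c367 a367_1 a367_2 a367_3 q367 =>
  mulK c136 a136_1 a136_2 a136_3 q136 c165 a165_1 a165_2 a165_3 q165 fun c368 a368_1 a368_2 a368_3 q368 =>
  sqrtK c368 a368_1 a368_2 a368_3 q368 fun c369 a369_1 a369_2 a369_3 q369 =>
  addK c325 a325_1 a325_2 a325_3 q325 c364 a364_1 a364_2 a364_3 q364 fun c370 a370_1 a370_2 a370_3 q370 =>
  mulK c369 a369_1 a369_2 a369_3 q369 c370 a370_1 a370_2 a370_3 q370 fun c372 a372_1 a372_2 a372_3 q372 =>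
  addK c367 a367_1 a367_2 a367_3 q367 c372 a372_1 a372_2 a372_3 q372 fun c373 a373_1 a373_2 a373_3 q373 =>
  smulK 2 1 1152921504606846977 2305843009213693952 c291 a291_1 a291_2 a291_3 q291 fun c374 a374_1 a374_2 a374_3 q374 =>
  subK c373 a373_1 a373_2 a373_3 q373 c374 a374_1 a374_2 a374_3 q374 fun c375 a375_1 a375_2 a375_3 q375 =>
  mulK z1 (Nat.add w1 1152921504606846976) 1152921504606846976 1152921504606846976 0 c375 a375_1 a375_2 a375_3 q375 fun c377 a377_1 a377_2 a377_3 q377 =>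
  negK c377 a377_1 a377_2 a377_3 q377 fun c378 a378_1 a378_2 a378_3 q378 =>
  reluK c378 a378_1 a378_2 a378_3 q378 fun c379 a379_1 a379_2 a379_3 q379 =>
  sqK c379 a379_1 a379_2 a379_3 q379 fun c380 a380_1 a380_2 a380_3 q380 =>
  subK c277 a277_1 a277_2 a277_3 q277 c380 a380_1 a380_2 a380_3 q380 fun c381 a381_1 a381_2 a381_3 q381 =>
  pos c381 a381_1 a381_2 a381_3 q381

theorem alt5_s {p1 p2 z1 w1 z2 w2 z3 w3 : ℕ} {e1 e2 e3 a f s p q : ℝ} (he : Ev e1 e2 e3)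
    (hp1 : In e1 e2 e3 p1 1152921504606846976 1152921504606846976 1152921504606846976 0 p)
    (hp2 : In e1 e2 e3 p2 1152921504606846976 1152921504606846976 1152921504606846976 0 q)
    (hx1 : In e1 e2 e3 z1 (Nat.add w1 1152921504606846976) 1152921504606846976 1152921504606846976 0 a)
    (hx2 : In e1 e2 e3 z2 1152921504606846976 (Nat.add w2 1152921504606846976) 1152921504606846976 0 f)
    (hx3 : In e1 e2 e3 z3 1152921504606846976 1152921504606846976 (Nat.add w3 1152921504606846976) 0 s)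
    (H0 : alt5 p1 p2 z1 w1 z2 w2 z3 w3 = true) : 0 < (((3/4:ℝ) * s) - (lAp a f s p q)) ∧ 0 < ((tbq a f s p q) - ((3/10:ℝ) * s)) ∧ 0 < (PdA a f s p q) ∧ 0 < (QdB a f s p q) ∧ 0 < (((PdA a f s p q) * (QdB a f s p q)) - ((max (-(a * (ZdAB a f s p q))) (0:ℝ)) ^ 2)) := by
  unfold alt5 at H0
  refine smulK_s he (w := (3/4:ℝ)) (by norm_num) (by norm_num) (by norm_num) (by norm_num) hx3 (fun _ _ _ _ _ h1 H1 => ?_) H0
  refine smulK_s he (w := (3:ℝ)) (by norm_num) (by norm_num) (by norm_num) (by norm_num) hp1 (fun _ _ _ _ _ h2 H2 => ?_) H1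
  refine mulK_s he h2 hx2 (fun _ _ _ _ _ h3 H3 => ?_) H2
  have h4 := In_cast (w := (lAp a f s p q)) h3 rfl
  refine subK_s he h1 h4 (fun _ _ _ _ _ h5 H4 => ?_) H3
  refine posK_s he h5 (fun p0 H5 => ?_) H4
  refine smulK_s he (w := (11/20:ℝ)) (by norm_num) (by norm_num) (by norm_num) (by norm_num) hp2 (fun _ _ _ _ _ h6 H6 => ?_) H5
  have h7 := In_cast (w := (tbq a f s p q)) h6 rfl
  refine smulK_s he (w := (3/10:ℝ)) (by norm_num) (by norm_num) (by norm_num) (by norm_num) hx3 (fun _ _ _ _ _ h8 H7 => ?_) H6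
  refine subK_s he h7 h8 (fun _ _ _ _ _ h9 H8 => ?_) H7
  refine posK_s he h9 (fun p1 H9 => ?_) H8
  refine mulK_s he hx3 h4 (fun _ _ _ _ _ h10 H10 => ?_) H9
  refine smulK_s he (w := (2/3:ℝ)) (by norm_num) (by norm_num) (by norm_num) (by norm_num) h10 (fun _ _ _ _ _ h11 H11 => ?_) H10
  refine addcK_s he h11 (v' := (1:ℝ)) (by norm_num [SS, BB, abs_le]) (fun _ _ _ _ _ h12 H12 => ?_) H11
  have h13 := In_cast h12 (add_comm _ _)
  refine sqK_s he h4 (fun _ _ _ _ _ h14 H13 => ?_) H12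
  refine smulK_s he (w := (3/10:ℝ)) (by norm_num) (by norm_num) (by norm_num) (by norm_num) h14 (fun _ _ _ _ _ h15 H14 => ?_) H13
  refine subK_s he h13 h15 (fun _ _ _ _ _ h16 H15 => ?_) H14
  have h17 := In_cast (w := (K0Ap a f s p q)) h16 rfl
  refine smulK_s he (w := (2:ℝ)) (by norm_num) (by norm_num) (by norm_num) (by norm_num) hx1 (fun _ _ _ _ _ h18 H16 => ?_) H15
  refine addcK_s he h18 (v' := (-1/2:ℝ)) (by norm_num [SS, BB, abs_le]) (fun _ _ _ _ _ h19 H17 => ?_) H16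
  have h20 := In_cast h19 (sub_c (c := (1/2:ℝ)) (by norm_num))
  have h21 := In_cast (w := (x a f s p q)) h20 rfl
  refine smulK_s he (w := (987/1000:ℝ)) (by norm_num) (by norm_num) (by norm_num) (by norm_num) h21 (fun _ _ _ _ _ h22 H18 => ?_) H17
  refine negK_s he h22 (fun _ _ _ _ _ h23 H19 => ?_) H18
  have h24 := In_cast h23 (neg_mul_c (c := (-987/1000:ℝ)) (by norm_num))
  refine addcK_s he h24 (v' := (4077/1000:ℝ)) (by norm_num [SS, BB, abs_le]) (fun _ _ _ _ _ h25 H20 => ?_) H19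
  refine mulK_s he h25 h21 (fun _ _ _ _ _ h26 H21 => ?_) H20
  refine addcK_s he h26 (v' := (-23147/4000:ℝ)) (by norm_num [SS, BB, abs_le]) (fun _ _ _ _ _ h27 H22 => ?_) H21
  refine mulK_s he h27 h21 (fun _ _ _ _ _ h28 H23 => ?_) H22
  refine addcK_s he h28 (v' := (11213/4000:ℝ)) (by norm_num [SS, BB, abs_le]) (fun _ _ _ _ _ h29 H24 => ?_) H23
  refine mulK_s he h29 h21 (fun _ _ _ _ _ h30 H25 => ?_) H24
  refine addcK_s he h30 (v' := (123/3200:ℝ)) (by norm_num [SS, BB, abs_le]) (fun _ _ _ _ _ h31 H26 => ?_) H25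
  refine mulK_s he h31 h21 (fun _ _ _ _ _ h32 H27 => ?_) H26
  refine addcK_s he h32 (v' := (2023/16000:ℝ)) (by norm_num [SS, BB, abs_le]) (fun _ _ _ _ _ h33 H28 => ?_) H27
  refine mulK_s he h33 h21 (fun _ _ _ _ _ h34 H29 => ?_) H28
  refine addcK_s he h34 (v' := (-12141/12800:ℝ)) (by norm_num [SS, BB, abs_le]) (fun _ _ _ _ _ h35 H30 => ?_) H29
  refine mulK_s he h35 h21 (fun _ _ _ _ _ h36 H31 => ?_) H30
  refine addcK_s he h36 (v' := (75807/64000:ℝ)) (by norm_num [SS, BB, abs_le]) (fun _ _ _ _ _ h37 H32 => ?_) H31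
  have h38 := In_cast (w := (uh a f s p q)) h37 rfl
  refine sqK_s he hx2 (fun _ _ _ _ _ h39 H33 => ?_) H32
  refine mulK_s he hx1 h39 (fun _ _ _ _ _ h40 H34 => ?_) H33
  refine smulK_s he (w := (4:ℝ)) (by norm_num) (by norm_num) (by norm_num) (by norm_num) h40 (fun _ _ _ _ _ h41 H35 => ?_) H34
  have h42 := In_cast (w := (af2 a f s p q)) h41 rfl
  refine smulK_s he (w := (6909/500:ℝ)) (by norm_num) (by norm_num) (by norm_num) (by norm_num) h21 (fun _ _ _ _ _ h43 H36 => ?_) H35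
  refine negK_s he h43 (fun _ _ _ _ _ h44 H37 => ?_) H36
  have h45 := In_cast h44 (neg_mul_c (c := (-6909/500:ℝ)) (by norm_num))
  refine addcK_s he h45 (v' := (150507/4000:ℝ)) (by norm_num [SS, BB, abs_le]) (fun _ _ _ _ _ h46 H38 => ?_) H37
  refine mulK_s he h46 h21 (fun _ _ _ _ _ h47 H39 => ?_) H38
  refine addcK_s he h47 (v' := (-44979/1600:ℝ)) (by norm_num [SS, BB, abs_le]) (fun _ _ _ _ _ h48 H40 => ?_) H39
  refine mulK_s he h48 h21 (fun _ _ _ _ _ h49 H41 => ?_) H40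
  refine addcK_s he h49 (v' := (-721/1600:ℝ)) (by norm_num [SS, BB, abs_le]) (fun _ _ _ _ _ h50 H42 => ?_) H41
  refine mulK_s he h50 h21 (fun _ _ _ _ _ h51 H43 => ?_) H42
  refine addcK_s he h51 (v' := (69123/16000:ℝ)) (by norm_num [SS, BB, abs_le]) (fun _ _ _ _ _ h52 H44 => ?_) H43
  refine mulK_s he h52 h21 (fun _ _ _ _ _ h53 H45 => ?_) H44
  refine addcK_s he h53 (v' := (13983/64000:ℝ)) (by norm_num [SS, BB, abs_le]) (fun _ _ _ _ _ h54 H46 => ?_) H45
  refine mulK_s he h54 h21 (fun _ _ _ _ _ h55 H47 => ?_) H46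
  refine addcK_s he h55 (v' := (-56659/128000:ℝ)) (by norm_num [SS, BB, abs_le]) (fun _ _ _ _ _ h56 H48 => ?_) H47
  refine mulK_s he hx1 hx2 (fun _ _ _ _ _ h57 H49 => ?_) H48
  refine sqK_s he h57 (fun _ _ _ _ _ h58 H50 => ?_) H49
  refine smulK_s he (w := (4:ℝ)) (by norm_num) (by norm_num) (by norm_num) (by norm_num) h58 (fun _ _ _ _ _ h59 H51 => ?_) H50
  have h60 := In_cast (w := (dd a f s p q)) h59 rfl
  refine smulK_s he (w := (6909/200:ℝ)) (by norm_num) (by norm_num) (by norm_num) (by norm_num) h21 (fun _ _ _ _ _ h61 H52 => ?_) H51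
  refine negK_s he h61 (fun _ _ _ _ _ h62 H53 => ?_) H52
  have h63 := In_cast h62 (neg_mul_c (c := (-6909/200:ℝ)) (by norm_num))
  refine addcK_s he h63 (v' := (50169/800:ℝ)) (by norm_num [SS, BB, abs_le]) (fun _ _ _ _ _ h64 H54 => ?_) H53
  refine mulK_s he h64 h21 (fun _ _ _ _ _ h65 H55 => ?_) H54
  refine addcK_s he h65 (v' := (-44979/1600:ℝ)) (by norm_num [SS, BB, abs_le]) (fun _ _ _ _ _ h66 H56 => ?_) H55
  refine mulK_s he h66 h21 (fun _ _ _ _ _ h67 H57 => ?_) H56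
  refine addcK_s he h67 (v' := (-721/3200:ℝ)) (by norm_num [SS, BB, abs_le]) (fun _ _ _ _ _ h68 H58 => ?_) H57
  refine mulK_s he h68 h21 (fun _ _ _ _ _ h69 H59 => ?_) H58
  refine addcK_s he h69 (v' := (23041/32000:ℝ)) (by norm_num [SS, BB, abs_le]) (fun _ _ _ _ _ h70 H60 => ?_) H59
  refine addcK_s he h45 (v' := (50169/4000:ℝ)) (by norm_num [SS, BB, abs_le]) (fun _ _ _ _ _ h71 H61 => ?_) H60
  refine mulK_s he h71 h21 (fun _ _ _ _ _ h72 H62 => ?_) H61
  refine addcK_s he h72 (v' := (-14993/8000:ℝ)) (by norm_num [SS, BB, abs_le]) (fun _ _ _ _ _ h73 H63 => ?_) H62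
  refine smulK_s he (w := (987/2000:ℝ)) (by norm_num) (by norm_num) (by norm_num) (by norm_num) h60 (fun _ _ _ _ _ h74 H64 => ?_) H63
  refine negK_s he h74 (fun _ _ _ _ _ h75 H65 => ?_) H64
  have h76 := In_cast h75 (neg_mul_c (c := (-987/2000:ℝ)) (by norm_num))
  refine addK_s he h73 h76 (fun _ _ _ _ _ h77 H66 => ?_) H65
  refine mulK_s he h60 h77 (fun _ _ _ _ _ h78 H67 => ?_) H66
  refine addK_s he h70 h78 (fun _ _ _ _ _ h79 H68 => ?_) H67
  refine mulK_s he h60 h79 (fun _ _ _ _ _ h80 H69 => ?_) H68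
  refine addK_s he h56 h80 (fun _ _ _ _ _ h81 H70 => ?_) H69
  have h82 := In_cast (w := (uE a f s p q)) h81 rfl
  refine mulK_s he h42 h82 (fun _ _ _ _ _ h83 H71 => ?_) H70
  refine addK_s he h38 h83 (fun _ _ _ _ _ h84 H72 => ?_) H71
  have h85 := In_cast (w := (um a f s p q)) h84 rfl
  refine smulK_s he (w := (987/250:ℝ)) (by norm_num) (by norm_num) (by norm_num) (by norm_num) h21 (fun _ _ _ _ _ h86 H73 => ?_) H72
  refine negK_s he h86 (fun _ _ _ _ _ h87 H74 => ?_) H73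
  have h88 := In_cast h87 (neg_mul_c (c := (-987/250:ℝ)) (by norm_num))
  refine addcK_s he h88 (v' := (50169/4000:ℝ)) (by norm_num [SS, BB, abs_le]) (fun _ _ _ _ _ h89 H75 => ?_) H74
  refine mulK_s he h89 h21 (fun _ _ _ _ _ h90 H76 => ?_) H75
  refine addcK_s he h90 (v' := (-44979/4000:ℝ)) (by norm_num [SS, BB, abs_le]) (fun _ _ _ _ _ h91 H77 => ?_) H76
  refine mulK_s he h91 h21 (fun _ _ _ _ _ h92 H78 => ?_) H77
  refine addcK_s he h92 (v' := (-721/3200:ℝ)) (by norm_num [SS, BB, abs_le]) (fun _ _ _ _ _ h93 H79 => ?_) H78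
  refine mulK_s he h93 h21 (fun _ _ _ _ _ h94 H80 => ?_) H79
  refine addcK_s he h94 (v' := (23041/8000:ℝ)) (by norm_num [SS, BB, abs_le]) (fun _ _ _ _ _ h95 H81 => ?_) H80
  refine mulK_s he h95 h21 (fun _ _ _ _ _ h96 H82 => ?_) H81
  refine addcK_s he h96 (v' := (13983/64000:ℝ)) (by norm_num [SS, BB, abs_le]) (fun _ _ _ _ _ h97 H83 => ?_) H82
  refine mulK_s he h97 h21 (fun _ _ _ _ _ h98 H84 => ?_) H83
  refine addcK_s he h98 (v' := (-56659/64000:ℝ)) (by norm_num [SS, BB, abs_le]) (fun _ _ _ _ _ h99 H85 => ?_) H84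
  refine mulK_s he h99 h21 (fun _ _ _ _ _ h100 H86 => ?_) H85
  refine addcK_s he h100 (v' := (90909/256000:ℝ)) (by norm_num [SS, BB, abs_le]) (fun _ _ _ _ _ h101 H87 => ?_) H86
  refine smulK_s he (w := (6909/250:ℝ)) (by norm_num) (by norm_num) (by norm_num) (by norm_num) h21 (fun _ _ _ _ _ h102 H88 => ?_) H87
  refine negK_s he h102 (fun _ _ _ _ _ h103 H89 => ?_) H88
  have h104 := In_cast h103 (neg_mul_c (c := (-6909/250:ℝ)) (by norm_num))
  refine addcK_s he h104 (v' := (50169/800:ℝ)) (by norm_num [SS, BB, abs_le]) (fun _ _ _ _ _ h105 H90 => ?_) H89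
  refine mulK_s he h105 h21 (fun _ _ _ _ _ h106 H91 => ?_) H90
  refine addcK_s he h106 (v' := (-14993/400:ℝ)) (by norm_num [SS, BB, abs_le]) (fun _ _ _ _ _ h107 H92 => ?_) H91
  refine mulK_s he h107 h21 (fun _ _ _ _ _ h108 H93 => ?_) H92
  refine addcK_s he h108 (v' := (-721/1600:ℝ)) (by norm_num [SS, BB, abs_le]) (fun _ _ _ _ _ h109 H94 => ?_) H93
  refine mulK_s he h109 h21 (fun _ _ _ _ _ h110 H95 => ?_) H94
  refine addcK_s he h110 (v' := (23041/8000:ℝ)) (by norm_num [SS, BB, abs_le]) (fun _ _ _ _ _ h111 H96 => ?_) H95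
  refine mulK_s he h111 h21 (fun _ _ _ _ _ h112 H97 => ?_) H96
  refine addcK_s he h112 (v' := (4661/64000:ℝ)) (by norm_num [SS, BB, abs_le]) (fun _ _ _ _ _ h113 H98 => ?_) H97
  refine addcK_s he h104 (v' := (150507/4000:ℝ)) (by norm_num [SS, BB, abs_le]) (fun _ _ _ _ _ h114 H99 => ?_) H98
  refine mulK_s he h114 h21 (fun _ _ _ _ _ h115 H100 => ?_) H99
  refine addcK_s he h115 (v' := (-44979/4000:ℝ)) (by norm_num [SS, BB, abs_le]) (fun _ _ _ _ _ h116 H101 => ?_) H100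
  refine mulK_s he h116 h21 (fun _ _ _ _ _ h117 H102 => ?_) H101
  refine addcK_s he h117 (v' := (-721/16000:ℝ)) (by norm_num [SS, BB, abs_le]) (fun _ _ _ _ _ h118 H103 => ?_) H102
  refine addcK_s he h88 (v' := (7167/4000:ℝ)) (by norm_num [SS, BB, abs_le]) (fun _ _ _ _ _ h119 H104 => ?_) H103
  refine mulK_s he h60 h119 (fun _ _ _ _ _ h120 H105 => ?_) H104
  refine addK_s he h118 h120 (fun _ _ _ _ _ h121 H106 => ?_) H105
  refine mulK_s he h60 h121 (fun _ _ _ _ _ h122 H107 => ?_) H106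
  refine addK_s he h113 h122 (fun _ _ _ _ _ h123 H108 => ?_) H107
  refine mulK_s he h60 h123 (fun _ _ _ _ _ h124 H109 => ?_) H108
  refine addK_s he h101 h124 (fun _ _ _ _ _ h125 H110 => ?_) H109
  have h126 := In_cast (w := (uO a f s p q)) h125 rfl
  refine mulK_s he hx2 h126 (fun _ _ _ _ _ h127 H111 => ?_) H110
  refine smulK_s he (w := (2:ℝ)) (by norm_num) (by norm_num) (by norm_num) (by norm_num) h127 (fun _ _ _ _ _ h128 H112 => ?_) H111
  refine subK_s he h85 h128 (fun _ _ _ _ _ h129 H113 => ?_) H112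
  have h130 := In_cast (w := (u0 a f s p q)) h129 rfl
  refine mulK_s he h17 h130 (fun _ _ _ _ _ h131 H114 => ?_) H113
  refine negK_s he h11 (fun _ _ _ _ _ h132 H115 => ?_) H114
  refine addcK_s he h132 (v' := (1:ℝ)) (by norm_num [SS, BB, abs_le]) (fun _ _ _ _ _ h133 H116 => ?_) H115
  have h134 := In_cast h133 (neg_add_eq_sub _ _)
  refine smulK_s he (w := (39/200:ℝ)) (by norm_num) (by norm_num) (by norm_num) (by norm_num) h14 (fun _ _ _ _ _ h135 H117 => ?_) H116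
  refine subK_s he h134 h135 (fun _ _ _ _ _ h136 H118 => ?_) H117
  have h137 := In_cast (w := (K1Ap a f s p q)) h136 rfl
  refine addK_s he h85 h128 (fun _ _ _ _ _ h138 H119 => ?_) H118
  have h139 := In_cast (w := (u1 a f s p q)) h138 rfl
  refine mulK_s he h137 h139 (fun _ _ _ _ _ h140 H120 => ?_) H119
  refine addK_s he h131 h140 (fun _ _ _ _ _ h141 H121 => ?_) H120
  refine mulK_s he hx2 h4 (fun _ _ _ _ _ h142 H122 => ?_) H121
  refine smulK_s he (w := (2:ℝ)) (by norm_num) (by norm_num) (by norm_num) (by norm_num) h142 (fun _ _ _ _ _ h143 H123 => ?_) H122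
  refine addK_s he h141 h143 (fun _ _ _ _ _ h144 H124 => ?_) H123
  refine smulK_s he (w := (2:ℝ)) (by norm_num) (by norm_num) (by norm_num) (by norm_num) h38 (fun _ _ _ _ _ h145 H125 => ?_) H124
  refine subK_s he h144 h145 (fun _ _ _ _ _ h146 H126 => ?_) H125
  have h147 := In_cast (w := (PdA a f s p q)) h146 rfl
  refine posK_s he h147 (fun p2 H127 => ?_) H126
  refine smulK_s he (w := (3/25:ℝ)) (by norm_num) (by norm_num) (by norm_num) (by norm_num) hx3 (fun _ _ _ _ _ h148 H128 => ?_) H127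
  refine sqK_s he h7 (fun _ _ _ _ _ h149 H129 => ?_) H128
  refine addcK_s he h149 (v' := (1:ℝ)) (by norm_num [SS, BB, abs_le]) (fun _ _ _ _ _ h150 H130 => ?_) H129
  have h151 := In_cast h150 (add_comm _ _)
  refine invK_s he h151 (fun _ _ _ _ _ h152 H131 => ?_) H130
  refine smulK_s he (w := (2:ℝ)) (by norm_num) (by norm_num) (by norm_num) (by norm_num) h7 (fun _ _ _ _ _ h153 H132 => ?_) H131
  refine mulK_s he h153 h152 (fun _ _ _ _ _ h154 H133 => ?_) H132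
  have h155 := In_cast h154 ((div_eq_mul_inv _ _).symm)
  have h156 := In_cast (w := (Sbq a f s p q)) h155 rfl
  refine smulK_s he (w := (3/10:ℝ)) (by norm_num) (by norm_num) (by norm_num) (by norm_num) h156 (fun _ _ _ _ _ h157 H134 => ?_) H133
  refine mulK_s he h7 h156 (fun _ _ _ _ _ h158 H135 => ?_) H134
  have h159 := In_cast (w := (Cbq a f s p q)) h158 rfl
  refine smulK_s he (w := (1/4:ℝ)) (by norm_num) (by norm_num) (by norm_num) (by norm_num) h159 (fun _ _ _ _ _ h160 H136 => ?_) H135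
  have h161 := In_cast h160 (div_c (c := (4:ℝ)) (by norm_num))
  refine subK_s he h157 h161 (fun _ _ _ _ _ h162 H137 => ?_) H136
  refine addK_s he h148 h162 (fun _ _ _ _ _ h163 H138 => ?_) H137
  refine mulK_s he hx3 h163 (fun _ _ _ _ _ h164 H139 => ?_) H138
  refine addcK_s he h164 (v' := (1:ℝ)) (by norm_num [SS, BB, abs_le]) (fun _ _ _ _ _ h165 H140 => ?_) H139
  have h166 := In_cast h165 (add_comm _ _)
  have h167 := In_cast (w := (K0Bq a f s p q)) h166 rfl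
  refine addcK_s he h24 (v' := (2403/500:ℝ)) (by norm_num [SS, BB, abs_le]) (fun _ _ _ _ _ h168 H141 => ?_) H140
  refine mulK_s he h168 h21 (fun _ _ _ _ _ h169 H142 => ?_) H141
  refine addcK_s he h169 (v' := (-34811/4000:ℝ)) (by norm_num [SS, BB, abs_le]) (fun _ _ _ _ _ h170 H143 => ?_) H142
  refine mulK_s he h170 h21 (fun _ _ _ _ _ h171 H144 => ?_) H143
  refine addcK_s he h171 (v' := (13899/2000:ℝ)) (by norm_num [SS, BB, abs_le]) (fun _ _ _ _ _ h172 H145 => ?_) H144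
  refine mulK_s he h172 h21 (fun _ _ _ _ _ h173 H146 => ?_) H145
  refine addcK_s he h173 (v' := (-1521/640:ℝ)) (by norm_num [SS, BB, abs_le]) (fun _ _ _ _ _ h174 H147 => ?_) H146
  refine mulK_s he h174 h21 (fun _ _ _ _ _ h175 H148 => ?_) H147
  refine addcK_s he h175 (v' := (1597/1600:ℝ)) (by norm_num [SS, BB, abs_le]) (fun _ _ _ _ _ h176 H149 => ?_) H148
  refine mulK_s he h176 h21 (fun _ _ _ _ _ h177 H150 => ?_) H149
  refine addcK_s he h177 (v' := (-116129/64000:ℝ)) (by norm_num [SS, BB, abs_le]) (fun _ _ _ _ _ h178 H151 => ?_) H150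
  refine mulK_s he h178 h21 (fun _ _ _ _ _ h179 H152 => ?_) H151
  refine addcK_s he h179 (v' := (9741/6400:ℝ)) (by norm_num [SS, BB, abs_le]) (fun _ _ _ _ _ h180 H153 => ?_) H152
  have h181 := In_cast (w := (ch a f s p q)) h180 rfl
  refine addcK_s he h45 (v' := (1449/32:ℝ)) (by norm_num [SS, BB, abs_le]) (fun _ _ _ _ _ h182 H154 => ?_) H153
  refine mulK_s he h182 h21 (fun _ _ _ _ _ h183 H155 => ?_) H154
  refine addcK_s he h183 (v' := (-75597/1600:ℝ)) (by norm_num [SS, BB, abs_le]) (fun _ _ _ _ _ h184 H156 => ?_) H155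
  refine mulK_s he h184 h21 (fun _ _ _ _ _ h185 H157 => ?_) H156
  refine addcK_s he h185 (v' := (4157/320:ℝ)) (by norm_num [SS, BB, abs_le]) (fun _ _ _ _ _ h186 H158 => ?_) H157
  refine mulK_s he h186 h21 (fun _ _ _ _ _ h187 H159 => ?_) H158
  refine addcK_s he h187 (v' := (52713/16000:ℝ)) (by norm_num [SS, BB, abs_le]) (fun _ _ _ _ _ h188 H160 => ?_) H159
  refine mulK_s he h188 h21 (fun _ _ _ _ _ h189 H161 => ?_) H160
  refine addcK_s he h189 (v' := (-3651/12800:ℝ)) (by norm_num [SS, BB, abs_le]) (fun _ _ _ _ _ h190 H162 => ?_) H161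
  refine mulK_s he h190 h21 (fun _ _ _ _ _ h191 H163 => ?_) H162
  refine addcK_s he h191 (v' := (-84189/128000:ℝ)) (by norm_num [SS, BB, abs_le]) (fun _ _ _ _ _ h192 H164 => ?_) H163
  refine addcK_s he h63 (v' := (2415/32:ℝ)) (by norm_num [SS, BB, abs_le]) (fun _ _ _ _ _ h193 H165 => ?_) H164
  refine mulK_s he h193 h21 (fun _ _ _ _ _ h194 H166 => ?_) H165
  refine addcK_s he h194 (v' := (-75597/1600:ℝ)) (by norm_num [SS, BB, abs_le]) (fun _ _ _ _ _ h195 H167 => ?_) H166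
  refine mulK_s he h195 h21 (fun _ _ _ _ _ h196 H168 => ?_) H167
  refine addcK_s he h196 (v' := (4157/640:ℝ)) (by norm_num [SS, BB, abs_le]) (fun _ _ _ _ _ h197 H169 => ?_) H168
  refine mulK_s he h197 h21 (fun _ _ _ _ _ h198 H170 => ?_) H169
  refine addcK_s he h198 (v' := (17571/32000:ℝ)) (by norm_num [SS, BB, abs_le]) (fun _ _ _ _ _ h199 H171 => ?_) H170
  refine addcK_s he h45 (v' := (483/32:ℝ)) (by norm_num [SS, BB, abs_le]) (fun _ _ _ _ _ h200 H172 => ?_) H171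
  refine mulK_s he h200 h21 (fun _ _ _ _ _ h201 H173 => ?_) H172
  refine addcK_s he h201 (v' := (-25199/8000:ℝ)) (by norm_num [SS, BB, abs_le]) (fun _ _ _ _ _ h202 H174 => ?_) H173
  refine addK_s he h202 h76 (fun _ _ _ _ _ h203 H175 => ?_) H174
  refine mulK_s he h60 h203 (fun _ _ _ _ _ h204 H176 => ?_) H175
  refine addK_s he h199 h204 (fun _ _ _ _ _ h205 H177 => ?_) H176
  refine mulK_s he h60 h205 (fun _ _ _ _ _ h206 H178 => ?_) H177
  refine addK_s he h192 h206 (fun _ _ _ _ _ h207 H179 => ?_) H178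
  have h208 := In_cast (w := (cE a f s p q)) h207 rfl
  refine mulK_s he h42 h208 (fun _ _ _ _ _ h209 H180 => ?_) H179
  refine addK_s he h181 h209 (fun _ _ _ _ _ h210 H181 => ?_) H180
  have h211 := In_cast (w := (cm a f s p q)) h210 rfl
  refine addcK_s he h88 (v' := (483/32:ℝ)) (by norm_num [SS, BB, abs_le]) (fun _ _ _ _ _ h212 H182 => ?_) H181
  refine mulK_s he h212 h21 (fun _ _ _ _ _ h213 H183 => ?_) H182
  refine addcK_s he h213 (v' := (-75597/4000:ℝ)) (by norm_num [SS, BB, abs_le]) (fun _ _ _ _ _ h214 H184 => ?_) H183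
  refine mulK_s he h214 h21 (fun _ _ _ _ _ h215 H185 => ?_) H184
  refine addcK_s he h215 (v' := (4157/640:ℝ)) (by norm_num [SS, BB, abs_le]) (fun _ _ _ _ _ h216 H186 => ?_) H185
  refine mulK_s he h216 h21 (fun _ _ _ _ _ h217 H187 => ?_) H186
  refine addcK_s he h217 (v' := (17571/8000:ℝ)) (by norm_num [SS, BB, abs_le]) (fun _ _ _ _ _ h218 H188 => ?_) H187
  refine mulK_s he h218 h21 (fun _ _ _ _ _ h219 H189 => ?_) H188
  refine addcK_s he h219 (v' := (-3651/12800:ℝ)) (by norm_num [SS, BB, abs_le]) (fun _ _ _ _ _ h220 H190 => ?_) H189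
  refine mulK_s he h220 h21 (fun _ _ _ _ _ h221 H191 => ?_) H190
  refine addcK_s he h221 (v' := (-84189/64000:ℝ)) (by norm_num [SS, BB, abs_le]) (fun _ _ _ _ _ h222 H192 => ?_) H191
  refine mulK_s he h222 h21 (fun _ _ _ _ _ h223 H193 => ?_) H192
  refine addcK_s he h223 (v' := (78691/256000:ℝ)) (by norm_num [SS, BB, abs_le]) (fun _ _ _ _ _ h224 H194 => ?_) H193
  refine addcK_s he h104 (v' := (2415/32:ℝ)) (by norm_num [SS, BB, abs_le]) (fun _ _ _ _ _ h225 H195 => ?_) H194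
  refine mulK_s he h225 h21 (fun _ _ _ _ _ h226 H196 => ?_) H195
  refine addcK_s he h226 (v' := (-25199/400:ℝ)) (by norm_num [SS, BB, abs_le]) (fun _ _ _ _ _ h227 H197 => ?_) H196
  refine mulK_s he h227 h21 (fun _ _ _ _ _ h228 H198 => ?_) H197
  refine addcK_s he h228 (v' := (4157/320:ℝ)) (by norm_num [SS, BB, abs_le]) (fun _ _ _ _ _ h229 H199 => ?_) H198
  refine mulK_s he h229 h21 (fun _ _ _ _ _ h230 H200 => ?_) H199
  refine addcK_s he h230 (v' := (17571/8000:ℝ)) (by norm_num [SS, BB, abs_le]) (fun _ _ _ _ _ h231 H201 => ?_) H200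
  refine mulK_s he h231 h21 (fun _ _ _ _ _ h232 H202 => ?_) H201
  refine addcK_s he h232 (v' := (-1217/12800:ℝ)) (by norm_num [SS, BB, abs_le]) (fun _ _ _ _ _ h233 H203 => ?_) H202
  refine addcK_s he h104 (v' := (1449/32:ℝ)) (by norm_num [SS, BB, abs_le]) (fun _ _ _ _ _ h234 H204 => ?_) H203
  refine mulK_s he h234 h21 (fun _ _ _ _ _ h235 H205 => ?_) H204
  refine addcK_s he h235 (v' := (-75597/4000:ℝ)) (by norm_num [SS, BB, abs_le]) (fun _ _ _ _ _ h236 H206 => ?_) H205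
  refine mulK_s he h236 h21 (fun _ _ _ _ _ h237 H207 => ?_) H206
  refine addcK_s he h237 (v' := (4157/3200:ℝ)) (by norm_num [SS, BB, abs_le]) (fun _ _ _ _ _ h238 H208 => ?_) H207
  refine addcK_s he h88 (v' := (69/32:ℝ)) (by norm_num [SS, BB, abs_le]) (fun _ _ _ _ _ h239 H209 => ?_) H208
  refine mulK_s he h60 h239 (fun _ _ _ _ _ h240 H210 => ?_) H209
  refine addK_s he h238 h240 (fun _ _ _ _ _ h241 H211 => ?_) H210
  refine mulK_s he h60 h241 (fun _ _ _ _ _ h242 H212 => ?_) H211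
  refine addK_s he h233 h242 (fun _ _ _ _ _ h243 H213 => ?_) H212
  refine mulK_s he h60 h243 (fun _ _ _ _ _ h244 H214 => ?_) H213
  refine addK_s he h224 h244 (fun _ _ _ _ _ h245 H215 => ?_) H214
  have h246 := In_cast (w := (cO a f s p q)) h245 rfl
  refine mulK_s he hx2 h246 (fun _ _ _ _ _ h247 H216 => ?_) H215
  refine smulK_s he (w := (2:ℝ)) (by norm_num) (by norm_num) (by norm_num) (by norm_num) h247 (fun _ _ _ _ _ h248 H217 => ?_) H216
  refine addK_s he h211 h248 (fun _ _ _ _ _ h249 H218 => ?_) H217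
  have h250 := In_cast (w := (c1 a f s p q)) h249 rfl
  refine mulK_s he h167 h250 (fun _ _ _ _ _ h251 H219 => ?_) H218
  refine negK_s he h159 (fun _ _ _ _ _ h252 H220 => ?_) H219
  refine addcK_s he h252 (v' := (1:ℝ)) (by norm_num [SS, BB, abs_le]) (fun _ _ _ _ _ h253 H221 => ?_) H220
  have h254 := In_cast h253 (neg_add_eq_sub _ _)
  refine smulK_s he (w := (7/25:ℝ)) (by norm_num) (by norm_num) (by norm_num) (by norm_num) h156 (fun _ _ _ _ _ h255 H222 => ?_) H221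
  refine subK_s he h255 h161 (fun _ _ _ _ _ h256 H223 => ?_) H222
  refine addK_s he h148 h256 (fun _ _ _ _ _ h257 H224 => ?_) H223
  refine mulK_s he hx3 h257 (fun _ _ _ _ _ h258 H225 => ?_) H224
  refine subK_s he h254 h258 (fun _ _ _ _ _ h259 H226 => ?_) H225
  have h260 := In_cast (w := (K1Bq a f s p q)) h259 rfl
  refine subK_s he h211 h248 (fun _ _ _ _ _ h261 H227 => ?_) H226
  have h262 := In_cast (w := (c0 a f s p q)) h261 rfl
  refine mulK_s he h260 h262 (fun _ _ _ _ _ h263 H228 => ?_) H227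
  refine addK_s he h251 h263 (fun _ _ _ _ _ h264 H229 => ?_) H228
  refine smulK_s he (w := (3/500:ℝ)) (by norm_num) (by norm_num) (by norm_num) (by norm_num) hx3 (fun _ _ _ _ _ h265 H230 => ?_) H229
  refine negK_s he h265 (fun _ _ _ _ _ h266 H231 => ?_) H230
  refine addcK_s he h266 (v' := (499/500:ℝ)) (by norm_num [SS, BB, abs_le]) (fun _ _ _ _ _ h267 H232 => ?_) H231
  have h268 := In_cast h267 (neg_add_eq_sub _ _)
  refine mulK_s he h268 h156 (fun _ _ _ _ _ h269 H233 => ?_) H232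
  have h270 := In_cast (w := (lBq a f s p q)) h269 rfl
  refine mulK_s he hx2 h270 (fun _ _ _ _ _ h271 H234 => ?_) H233
  refine smulK_s he (w := (2:ℝ)) (by norm_num) (by norm_num) (by norm_num) (by norm_num) h271 (fun _ _ _ _ _ h272 H235 => ?_) H234
  refine addK_s he h264 h272 (fun _ _ _ _ _ h273 H236 => ?_) H235
  refine smulK_s he (w := (2:ℝ)) (by norm_num) (by norm_num) (by norm_num) (by norm_num) h181 (fun _ _ _ _ _ h274 H237 => ?_) H236
  refine subK_s he h273 h274 (fun _ _ _ _ _ h275 H238 => ?_) H237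
  have h276 := In_cast (w := (QdB a f s p q)) h275 rfl
  refine posK_s he h276 (fun p3 H239 => ?_) H238
  refine mulK_s he h147 h276 (fun _ _ _ _ _ h277 H240 => ?_) H239
  refine mulK_s he h17 h260 (fun _ _ _ _ _ h278 H241 => ?_) H240
  refine sqrtK_s he h278 (fun _ _ _ _ _ h279 H242 => ?_) H241
  refine smulK_s he (w := (238/125:ℝ)) (by norm_num) (by norm_num) (by norm_num) (by norm_num) h21 (fun _ _ _ _ _ h280 H243 => ?_) H242
  refine addcK_s he h280 (v' := (-238/25:ℝ)) (by norm_num [SS, BB, abs_le]) (fun _ _ _ _ _ h281 H244 => ?_) H243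
  refine mulK_s he h281 h21 (fun _ _ _ _ _ h282 H245 => ?_) H244
  refine addcK_s he h282 (v' := (2264/125:ℝ)) (by norm_num [SS, BB, abs_le]) (fun _ _ _ _ _ h283 H246 => ?_) H245
  refine mulK_s he h283 h21 (fun _ _ _ _ _ h284 H247 => ?_) H246
  refine addcK_s he h284 (v' := (-407/25:ℝ)) (by norm_num [SS, BB, abs_le]) (fun _ _ _ _ _ h285 H248 => ?_) H247
  refine mulK_s he h285 h21 (fun _ _ _ _ _ h286 H249 => ?_) H248
  refine addcK_s he h286 (v' := (7321/1000:ℝ)) (by norm_num [SS, BB, abs_le]) (fun _ _ _ _ _ h287 H250 => ?_) H249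
  refine mulK_s he h287 h21 (fun _ _ _ _ _ h288 H251 => ?_) H250
  refine addcK_s he h288 (v' := (-2361/1000:ℝ)) (by norm_num [SS, BB, abs_le]) (fun _ _ _ _ _ h289 H252 => ?_) H251
  refine mulK_s he h289 h21 (fun _ _ _ _ _ h290 H253 => ?_) H252
  refine addcK_s he h290 (v' := (927/1000:ℝ)) (by norm_num [SS, BB, abs_le]) (fun _ _ _ _ _ h291 H254 => ?_) H253
  have h292 := In_cast (w := (vh a f s p q)) h291 rfl
  refine smulK_s he (w := (1666/125:ℝ)) (by norm_num) (by norm_num) (by norm_num) (by norm_num) h21 (fun _ _ _ _ _ h293 H255 => ?_) H254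
  refine addcK_s he h293 (v' := (-4998/125:ℝ)) (by norm_num [SS, BB, abs_le]) (fun _ _ _ _ _ h294 H256 => ?_) H255
  refine mulK_s he h294 h21 (fun _ _ _ _ _ h295 H257 => ?_) H256
  refine addcK_s he h295 (v' := (6801/200:ℝ)) (by norm_num [SS, BB, abs_le]) (fun _ _ _ _ _ h296 H258 => ?_) H257
  refine mulK_s he h296 h21 (fun _ _ _ _ _ h297 H259 => ?_) H258
  refine addcK_s he h297 (v' := (-137/100:ℝ)) (by norm_num [SS, BB, abs_le]) (fun _ _ _ _ _ h298 H260 => ?_) H259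
  refine mulK_s he h298 h21 (fun _ _ _ _ _ h299 H261 => ?_) H260
  refine addcK_s he h299 (v' := (-13293/2000:ℝ)) (by norm_num [SS, BB, abs_le]) (fun _ _ _ _ _ h300 H262 => ?_) H261
  refine mulK_s he h300 h21 (fun _ _ _ _ _ h301 H263 => ?_) H262
  refine addcK_s he h301 (v' := (267/400:ℝ)) (by norm_num [SS, BB, abs_le]) (fun _ _ _ _ _ h302 H264 => ?_) H263
  refine mulK_s he h302 h21 (fun _ _ _ _ _ h303 H265 => ?_) H264
  refine addcK_s he h303 (v' := (317/3200:ℝ)) (by norm_num [SS, BB, abs_le]) (fun _ _ _ _ _ h304 H266 => ?_) H265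
  refine smulK_s he (w := (833/25:ℝ)) (by norm_num) (by norm_num) (by norm_num) (by norm_num) h21 (fun _ _ _ _ _ h305 H267 => ?_) H266
  refine addcK_s he h305 (v' := (-1666/25:ℝ)) (by norm_num [SS, BB, abs_le]) (fun _ _ _ _ _ h306 H268 => ?_) H267
  refine mulK_s he h306 h21 (fun _ _ _ _ _ h307 H269 => ?_) H268
  refine addcK_s he h307 (v' := (6801/200:ℝ)) (by norm_num [SS, BB, abs_le]) (fun _ _ _ _ _ h308 H270 => ?_) H269
  refine mulK_s he h308 h21 (fun _ _ _ _ _ h309 H271 => ?_) H270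
  refine addcK_s he h309 (v' := (-137/200:ℝ)) (by norm_num [SS, BB, abs_le]) (fun _ _ _ _ _ h310 H272 => ?_) H271
  refine mulK_s he h310 h21 (fun _ _ _ _ _ h311 H273 => ?_) H272
  refine addcK_s he h311 (v' := (-4431/4000:ℝ)) (by norm_num [SS, BB, abs_le]) (fun _ _ _ _ _ h312 H274 => ?_) H273
  refine addcK_s he h293 (v' := (-1666/125:ℝ)) (by norm_num [SS, BB, abs_le]) (fun _ _ _ _ _ h313 H275 => ?_) H274
  refine mulK_s he h313 h21 (fun _ _ _ _ _ h314 H276 => ?_) H275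
  refine addcK_s he h314 (v' := (2267/1000:ℝ)) (by norm_num [SS, BB, abs_le]) (fun _ _ _ _ _ h315 H277 => ?_) H276
  refine smulK_s he (w := (119/250:ℝ)) (by norm_num) (by norm_num) (by norm_num) (by norm_num) h60 (fun _ _ _ _ _ h316 H278 => ?_) H277
  refine addK_s he h315 h316 (fun _ _ _ _ _ h317 H279 => ?_) H278
  refine mulK_s he h60 h317 (fun _ _ _ _ _ h318 H280 => ?_) H279
  refine addK_s he h312 h318 (fun _ _ _ _ _ h319 H281 => ?_) H280
  refine mulK_s he h60 h319 (fun _ _ _ _ _ h320 H282 => ?_) H281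
  refine addK_s he h304 h320 (fun _ _ _ _ _ h321 H283 => ?_) H282
  have h322 := In_cast (w := (vE a f s p q)) h321 rfl
  refine mulK_s he h39 h322 (fun _ _ _ _ _ h323 H284 => ?_) H283
  refine smulK_s he (w := (4:ℝ)) (by norm_num) (by norm_num) (by norm_num) (by norm_num) h323 (fun _ _ _ _ _ h324 H285 => ?_) H284
  refine addK_s he h292 h324 (fun _ _ _ _ _ h325 H286 => ?_) H285
  have h326 := In_cast (w := (vm a f s p q)) h325 rfl
  refine smulK_s he (w := (952/125:ℝ)) (by norm_num) (by norm_num) (by norm_num) (by norm_num) h21 (fun _ _ _ _ _ h327 H287 => ?_) H286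
  refine addcK_s he h327 (v' := (-3808/125:ℝ)) (by norm_num [SS, BB, abs_le]) (fun _ _ _ _ _ h328 H288 => ?_) H287
  refine mulK_s he h328 h21 (fun _ _ _ _ _ h329 H289 => ?_) H288
  refine addcK_s he h329 (v' := (10609/250:ℝ)) (by norm_num [SS, BB, abs_le]) (fun _ _ _ _ _ h330 H290 => ?_) H289
  refine mulK_s he h330 h21 (fun _ _ _ _ _ h331 H291 => ?_) H290
  refine addcK_s he h331 (v' := (-5647/250:ℝ)) (by norm_num [SS, BB, abs_le]) (fun _ _ _ _ _ h332 H292 => ?_) H291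
  refine mulK_s he h332 h21 (fun _ _ _ _ _ h333 H293 => ?_) H292
  refine addcK_s he h333 (v' := (304/125:ℝ)) (by norm_num [SS, BB, abs_le]) (fun _ _ _ _ _ h334 H294 => ?_) H293
  refine mulK_s he h334 h21 (fun _ _ _ _ _ h335 H295 => ?_) H294
  refine addcK_s he h335 (v' := (119/1000:ℝ)) (by norm_num [SS, BB, abs_le]) (fun _ _ _ _ _ h336 H296 => ?_) H295
  refine mulK_s he h336 h21 (fun _ _ _ _ _ h337 H297 => ?_) H296
  refine addcK_s he h337 (v' := (1347/4000:ℝ)) (by norm_num [SS, BB, abs_le]) (fun _ _ _ _ _ h338 H298 => ?_) H297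
  refine smulK_s he (w := (3332/125:ℝ)) (by norm_num) (by norm_num) (by norm_num) (by norm_num) h21 (fun _ _ _ _ _ h339 H299 => ?_) H298
  refine addcK_s he h339 (v' := (-1666/25:ℝ)) (by norm_num [SS, BB, abs_le]) (fun _ _ _ _ _ h340 H300 => ?_) H299
  refine mulK_s he h340 h21 (fun _ _ _ _ _ h341 H301 => ?_) H300
  refine addcK_s he h341 (v' := (2267/50:ℝ)) (by norm_num [SS, BB, abs_le]) (fun _ _ _ _ _ h342 H302 => ?_) H301
  refine mulK_s he h342 h21 (fun _ _ _ _ _ h343 H303 => ?_) H302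
  refine addcK_s he h343 (v' := (-137/100:ℝ)) (by norm_num [SS, BB, abs_le]) (fun _ _ _ _ _ h344 H304 => ?_) H303
  refine mulK_s he h344 h21 (fun _ _ _ _ _ h345 H305 => ?_) H304
  refine addcK_s he h345 (v' := (-4431/1000:ℝ)) (by norm_num [SS, BB, abs_le]) (fun _ _ _ _ _ h346 H306 => ?_) H305
  refine mulK_s he h346 h21 (fun _ _ _ _ _ h347 H307 => ?_) H306
  refine addcK_s he h347 (v' := (89/400:ℝ)) (by norm_num [SS, BB, abs_le]) (fun _ _ _ _ _ h348 H308 => ?_) H307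
  refine addcK_s he h339 (v' := (-4998/125:ℝ)) (by norm_num [SS, BB, abs_le]) (fun _ _ _ _ _ h349 H309 => ?_) H308
  refine mulK_s he h349 h21 (fun _ _ _ _ _ h350 H310 => ?_) H309
  refine addcK_s he h350 (v' := (6801/500:ℝ)) (by norm_num [SS, BB, abs_le]) (fun _ _ _ _ _ h351 H311 => ?_) H310
  refine mulK_s he h351 h21 (fun _ _ _ _ _ h352 H312 => ?_) H311
  refine addcK_s he h352 (v' := (-137/1000:ℝ)) (by norm_num [SS, BB, abs_le]) (fun _ _ _ _ _ h353 H313 => ?_) H312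
  refine smulK_s he (w := (476/125:ℝ)) (by norm_num) (by norm_num) (by norm_num) (by norm_num) h21 (fun _ _ _ _ _ h354 H314 => ?_) H313
  refine addcK_s he h354 (v' := (-238/125:ℝ)) (by norm_num [SS, BB, abs_le]) (fun _ _ _ _ _ h355 H315 => ?_) H314
  refine mulK_s he h60 h355 (fun _ _ _ _ _ h356 H316 => ?_) H315
  refine addK_s he h353 h356 (fun _ _ _ _ _ h357 H317 => ?_) H316
  refine mulK_s he h60 h357 (fun _ _ _ _ _ h358 H318 => ?_) H317
  refine addK_s he h348 h358 (fun _ _ _ _ _ h359 H319 => ?_) H318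
  refine mulK_s he h42 h359 (fun _ _ _ _ _ h360 H320 => ?_) H319
  refine addK_s he h338 h360 (fun _ _ _ _ _ h361 H321 => ?_) H320
  have h362 := In_cast (w := (vO a f s p q)) h361 rfl
  refine mulK_s he hx2 h362 (fun _ _ _ _ _ h363 H322 => ?_) H321
  refine smulK_s he (w := (2:ℝ)) (by norm_num) (by norm_num) (by norm_num) (by norm_num) h363 (fun _ _ _ _ _ h364 H323 => ?_) H322
  refine subK_s he h326 h364 (fun _ _ _ _ _ h365 H324 => ?_) H323
  have h366 := In_cast (w := (v0 a f s p q)) h365 rfl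
  refine mulK_s he h279 h366 (fun _ _ _ _ _ h367 H325 => ?_) H324
  refine mulK_s he h137 h167 (fun _ _ _ _ _ h368 H326 => ?_) H325
  refine sqrtK_s he h368 (fun _ _ _ _ _ h369 H327 => ?_) H326
  refine addK_s he h326 h364 (fun _ _ _ _ _ h370 H328 => ?_) H327
  have h371 := In_cast (w := (v1 a f s p q)) h370 rfl
  refine mulK_s he h369 h371 (fun _ _ _ _ _ h372 H329 => ?_) H328
  refine addK_s he h367 h372 (fun _ _ _ _ _ h373 H330 => ?_) H329
  refine smulK_s he (w := (2:ℝ)) (by norm_num) (by norm_num) (by norm_num) (by norm_num) h292 (fun _ _ _ _ _ h374 H331 => ?_) H330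
  refine subK_s he h373 h374 (fun _ _ _ _ _ h375 H332 => ?_) H331
  have h376 := In_cast (w := (ZdAB a f s p q)) h375 rfl
  refine mulK_s he hx1 h376 (fun _ _ _ _ _ h377 H333 => ?_) H332
  refine negK_s he h377 (fun _ _ _ _ _ h378 H334 => ?_) H333
  refine reluK_s he h378 (fun _ _ _ _ _ h379 H335 => ?_) H334
  refine sqK_s he h379 (fun _ _ _ _ _ h380 H336 => ?_) H335
  refine subK_s he h277 h380 (fun _ _ _ _ _ h381 H337 => ?_) H336
  exact ⟨p0, p1, p2, p3, pos_s he h381 H337⟩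

noncomputable def alt6 (p1 p2 z1 w1 z2 w2 z3 w3 : ℕ) : Bool :=
  smulK 3 4 4611686018427387908 3458764513820540928 z3 1152921504606846976 1152921504606846976 (Nat.add w3 1152921504606846976) 0 fun c1 a1_1 a1_2 a1_3 q1 =>
  smulK 3 1 1152921504606846977 3458764513820540928 p1 1152921504606846976 1152921504606846976 1152921504606846976 0 fun c2 a2_1 a2_2 a2_3 q2 =>
  mulK c2 a2_1 a2_2 a2_3 q2 z2 1152921504606846976 (Nat.add w2 1152921504606846976) 1152921504606846976 0 fun c3 a3_1 a3_2 a3_3 q3 =>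
  subK c1 a1_1 a1_2 a1_3 q1 c3 a3_1 a3_2 a3_3 q3 fun c5 a5_1 a5_2 a5_3 q5 =>
  posK c5 a5_1 a5_2 a5_3 q5 <|
  mulK z3 1152921504606846976 1152921504606846976 (Nat.add w3 1152921504606846976) 0 c3 a3_1 a3_2 a3_3 q3 fun c6 a6_1 a6_2 a6_3 q6 =>
  smulK 2 3 3458764513820540931 2305843009213693952 c6 a6_1 a6_2 a6_3 q6 fun c7 a7_1 a7_2 a7_3 q7 =>
  addcK c7 a7_1 a7_2 a7_3 q7 1152922604118474752 0 fun c8 a8_1 a8_2 a8_3 q8 =>
  sqK c3 a3_1 a3_2 a3_3 q3 fun c10 a10_1 a10_2 a10_3 q10 =>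
  smulK 3 10 11529215046068469770 3458764513820540928 c10 a10_1 a10_2 a10_3 q10 fun c11 a11_1 a11_2 a11_3 q11 =>
  subK c8 a8_1 a8_2 a8_3 q8 c11 a11_1 a11_2 a11_3 q11 fun c12 a12_1 a12_2 a12_3 q12 =>
  smulK 2 1 1152921504606846977 2305843009213693952 z1 (Nat.add w1 1152921504606846976) 1152921504606846976 1152921504606846976 0 fun c14 a14_1 a14_2 a14_3 q14 =>
  addcK c14 a14_1 a14_2 a14_3 q14 1152920954851033088 0 fun c15 a15_1 a15_2 a15_3 q15 =>
  smulK 987 1000 1152921504606846977000 1137933525046957965312 c15 a15_1 a15_2 a15_3 q15 fun c18 a18_1 a18_2 a18_3 q18 =>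
  negK c18 a18_1 a18_2 a18_3 q18 fun c19 a19_1 a19_2 a19_3 q19 =>
  addcK c19 a19_1 a19_2 a19_3 q19 1152925987315753419 1 fun c21 a21_1 a21_2 a21_3 q21 =>
  mulK c21 a21_1 a21_2 a21_3 q21 c15 a15_1 a15_2 a15_3 q15 fun c22 a22_1 a22_2 a22_3 q22 =>
  addcK c22 a22_1 a22_2 a22_3 q22 1152915142007934943 1 fun c23 a23_1 a23_2 a23_3 q23 =>
  mulK c23 a23_1 a23_2 a23_3 q23 c15 a15_1 a15_2 a15_3 q15 fun c24 a24_1 a24_2 a24_3 q24 =>
  addcK c24 a24_1 a24_2 a24_3 q24 1152924586812817539 1 fun c25 a25_1 a25_2 a25_3 q25 =>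
  mulK c25 a25_1 a25_2 a25_3 q25 c15 a15_1 a15_2 a15_3 q15 fun c26 a26_1 a26_2 a26_3 q26 =>
  addcK c26 a26_1 a26_2 a26_3 q26 1152921546869325169 1 fun c27 a27_1 a27_2 a27_3 q27 =>
  mulK c27 a27_1 a27_2 a27_3 q27 c15 a15_1 a15_2 a15_3 q15 fun c28 a28_1 a28_2 a28_3 q28 =>
  addcK c28 a28_1 a28_2 a28_3 q28 1152921643626348413 1 fun c29 a29_1 a29_2 a29_3 q29 =>
  mulK c29 a29_1 a29_2 a29_3 q29 c15 a15_1 a15_2 a15_3 q15 fun c30 a30_1 a30_2 a30_3 q30 =>
  addcK c30 a30_1 a30_2 a30_3 q30 1152920461702888161 1 fun c31 a31_1 a31_2 a31_3 q31 =>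
  mulK c31 a31_1 a31_2 a31_3 q31 c15 a15_1 a15_2 a15_3 q15 fun c32 a32_1 a32_2 a32_3 q32 =>
  addcK c32 a32_1 a32_2 a32_3 q32 1152922806961190207 1 fun c33 a33_1 a33_2 a33_3 q33 =>
  sqK z2 1152921504606846976 (Nat.add w2 1152921504606846976) 1152921504606846976 0 fun c35 a35_1 a35_2 a35_3 q35 =>
  mulK z1 (Nat.add w1 1152921504606846976) 1152921504606846976 1152921504606846976 0 c35 a35_1 a35_2 a35_3 q35 fun c36 a36_1 a36_2 a36_3 q36 =>
  smulK 4 1 1152921504606846977 4611686018427387904 c36 a36_1 a36_2 a36_3 q36 fun c37 a37_1 a37_2 a37_3 q37 =>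
  smulK 6909 500 576460752303423488500 7965534675328705757184 c15 a15_1 a15_2 a15_3 q15 fun c39 a39_1 a39_2 a39_3 q39 =>
  negK c39 a39_1 a39_2 a39_3 q39 fun c40 a40_1 a40_2 a40_3 q40 =>
  addcK c40 a40_1 a40_2 a40_3 q40 1152962875655987397 1 fun c42 a42_1 a42_2 a42_3 q42 =>
  mulK c42 a42_1 a42_2 a42_3 q42 c15 a15_1 a15_2 a15_3 q15 fun c43 a43_1 a43_2 a43_3 q43 =>
  addcK c43 a43_1 a43_2 a43_3 q43 1152890595273405891 1 fun c44 a44_1 a44_2 a44_3 q44 =>
  mulK c44 a44_1 a44_2 a44_3 q44 c15 a15_1 a15_2 a15_3 q15 fun c45 a45_1 a45_2 a45_3 q45 =>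
  addcK c45 a45_1 a45_2 a45_3 q45 1152921009139419709 1 fun c46 a46_1 a46_2 a46_3 q46 =>
  mulK c46 a46_1 a46_2 a46_3 q46 c15 a15_1 a15_2 a15_3 q15 fun c47 a47_1 a47_2 a47_3 q47 =>
  addcK c47 a47_1 a47_2 a47_3 q47 1152926254703237399 1 fun c48 a48_1 a48_2 a48_3 q48 =>
  mulK c48 a48_1 a48_2 a48_3 q48 c15 a15_1 a15_2 a15_3 q15 fun c49 a49_1 a49_2 a49_3 q49 =>
  addcK c49 a49_1 a49_2 a49_3 q49 1152921744832957776 1 fun c50 a50_1 a50_2 a50_3 q50 =>
  mulK c50 a50_1 a50_2 a50_3 q50 c15 a15_1 a15_2 a15_3 q15 fun c51 a51_1 a51_2 a51_3 q51 =>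
  addcK c51 a51_1 a51_2 a51_3 q51 1152921017909742928 1 fun c52 a52_1 a52_2 a52_3 q52 =>
  mulK z1 (Nat.add w1 1152921504606846976) 1152921504606846976 1152921504606846976 0 z2 1152921504606846976 (Nat.add w2 1152921504606846976) 1152921504606846976 0 fun c53 a53_1 a53_2 a53_3 q53 =>
  sqK c53 a53_1 a53_2 a53_3 q53 fun c54 a54_1 a54_2 a54_3 q54 =>
  smulK 4 1 1152921504606846977 4611686018427387904 c54 a54_1 a54_2 a54_3 q54 fun c55 a55_1 a55_2 a55_3 q55 =>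
  smulK 6909 200 230584300921369395400 7965534675328705757184 c15 a15_1 a15_2 a15_3 q15 fun c57 a57_1 a57_2 a57_3 q57 =>
  negK c57 a57_1 a57_2 a57_3 q57 fun c58 a58_1 a58_2 a58_3 q58 =>
  addcK c58 a58_1 a58_2 a58_3 q58 1152990456355414344 1 fun c60 a60_1 a60_2 a60_3 q60 =>
  mulK c60 a60_1 a60_2 a60_3 q60 c15 a15_1 a15_2 a15_3 q15 fun c61 a61_1 a61_2 a61_3 q61 =>
  addcK c61 a61_1 a61_2 a61_3 q61 1152890595273405891 1 fun c62 a62_1 a62_2 a62_3 q62 =>
  mulK c62 a62_1 a62_2 a62_3 q62 c15 a15_1 a15_2 a15_3 q15 fun c63 a63_1 a63_2 a63_3 q63 =>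
  addcK c63 a63_1 a63_2 a63_3 q63 1152921256873133343 1 fun c64 a64_1 a64_2 a64_3 q64 =>
  mulK c64 a64_1 a64_2 a64_3 q64 c15 a15_1 a15_2 a15_3 q15 fun c65 a65_1 a65_2 a65_3 q65 =>
  addcK c65 a65_1 a65_2 a65_3 q65 1152922296289578713 1 fun c66 a66_1 a66_2 a66_3 q66 =>
  addcK c40 a40_1 a40_2 a40_3 q40 1152935294956560450 1 fun c67 a67_1 a67_2 a67_3 q67 =>
  mulK c67 a67_1 a67_2 a67_3 q67 c15 a15_1 a15_2 a15_3 q15 fun c68 a68_1 a68_2 a68_3 q68 =>
  addcK c68 a68_1 a68_2 a68_3 q68 1152919443984617570 1 fun c69 a69_1 a69_2 a69_3 q69 =>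
  smulK 987 2000 2305843009213693954000 1137933525046957965312 c55 a55_1 a55_2 a55_3 q55 fun c70 a70_1 a70_2 a70_3 q70 =>
  negK c70 a70_1 a70_2 a70_3 q70 fun c71 a71_1 a71_2 a71_3 q71 =>
  addK c69 a69_1 a69_2 a69_3 q69 c71 a71_1 a71_2 a71_3 q71 fun c73 a73_1 a73_2 a73_3 q73 =>
  mulK c55 a55_1 a55_2 a55_3 q55 c73 a73_1 a73_2 a73_3 q73 fun c74 a74_1 a74_2 a74_3 q74 =>
  addK c66 a66_1 a66_2 a66_3 q66 c74 a74_1 a74_2 a74_3 q74 fun c75 a75_1 a75_2 a75_3 q75 =>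
  mulK c55 a55_1 a55_2 a55_3 q55 c75 a75_1 a75_2 a75_3 q75 fun c76 a76_1 a76_2 a76_3 q76 =>
  addK c52 a52_1 a52_2 a52_3 q52 c76 a76_1 a76_2 a76_3 q76 fun c77 a77_1 a77_2 a77_3 q77 =>
  mulK c37 a37_1 a37_2 a37_3 q37 c77 a77_1 a77_2 a77_3 q77 fun c79 a79_1 a79_2 a79_3 q79 =>
  addK c33 a33_1 a33_2 a33_3 q33 c79 a79_1 a79_2 a79_3 q79 fun c80 a80_1 a80_2 a80_3 q80 =>
  smulK 987 250 288230376151711744250 1137933525046957965312 c15 a15_1 a15_2 a15_3 q15 fun c82 a82_1 a82_2 a82_3 q82 =>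
  negK c82 a82_1 a82_2 a82_3 q82 fun c83 a83_1 a83_2 a83_3 q83 =>
  addcK c83 a83_1 a83_2 a83_3 q83 1152935294956560450 1 fun c85 a85_1 a85_2 a85_3 q85 =>
  mulK c85 a85_1 a85_2 a85_3 q85 c15 a15_1 a15_2 a15_3 q15 fun c86 a86_1 a86_2 a86_3 q86 =>
  addcK c86 a86_1 a86_2 a86_3 q86 1152909140873470542 1 fun c87 a87_1 a87_2 a87_3 q87 =>
  mulK c87 a87_1 a87_2 a87_3 q87 c15 a15_1 a15_2 a15_3 q15 fun c88 a88_1 a88_2 a88_3 q88 =>
  addcK c88 a88_1 a88_2 a88_3 q88 1152921256873133343 1 fun c89 a89_1 a89_2 a89_3 q89 =>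
  mulK c89 a89_1 a89_2 a89_3 q89 c15 a15_1 a15_2 a15_3 q15 fun c90 a90_1 a90_2 a90_3 q90 =>
  addcK c90 a90_1 a90_2 a90_3 q90 1152924671337773924 1 fun c91 a91_1 a91_2 a91_3 q91 =>
  mulK c91 a91_1 a91_2 a91_3 q91 c15 a15_1 a15_2 a15_3 q15 fun c92 a92_1 a92_2 a92_3 q92 =>
  addcK c92 a92_1 a92_2 a92_3 q92 1152921744832957776 1 fun c93 a93_1 a93_2 a93_3 q93 =>
  mulK c93 a93_1 a93_2 a93_3 q93 c15 a15_1 a15_2 a15_3 q15 fun c94 a94_1 a94_2 a94_3 q94 =>
  addcK c94 a94_1 a94_2 a94_3 q94 1152920531212638880 1 fun c95 a95_1 a95_2 a95_3 q95 =>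
  mulK c95 a95_1 a95_2 a95_3 q95 c15 a15_1 a15_2 a15_3 q15 fun c96 a96_1 a96_2 a96_3 q96 =>
  addcK c96 a96_1 a96_2 a96_3 q96 1152921895058028888 1 fun c97 a97_1 a97_2 a97_3 q97 =>
  smulK 6909 250 288230376151711744250 7965534675328705757184 c15 a15_1 a15_2 a15_3 q15 fun c98 a98_1 a98_2 a98_3 q98 =>
  negK c98 a98_1 a98_2 a98_3 q98 fun c99 a99_1 a99_2 a99_3 q99 =>
  addcK c99 a99_1 a99_2 a99_3 q99 1152990456355414344 1 fun c101 a101_1 a101_2 a101_3 q101 =>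
  mulK c101 a101_1 a101_2 a101_3 q101 c15 a15_1 a15_2 a15_3 q15 fun c102 a102_1 a102_2 a102_3 q102 =>
  addcK c102 a102_1 a102_2 a102_3 q102 1152880292162258862 1 fun c103 a103_1 a103_2 a103_3 q103 =>
  mulK c103 a103_1 a103_2 a103_3 q103 c15 a15_1 a15_2 a15_3 q15 fun c104 a104_1 a104_2 a104_3 q104 =>
  addcK c104 a104_1 a104_2 a104_3 q104 1152921009139419709 1 fun c105 a105_1 a105_2 a105_3 q105 =>
  mulK c105 a105_1 a105_2 a105_3 q105 c15 a15_1 a15_2 a15_3 q15 fun c106 a106_1 a106_2 a106_3 q106 =>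
  addcK c106 a106_1 a106_2 a106_3 q106 1152924671337773924 1 fun c107 a107_1 a107_2 a107_3 q107 =>
  mulK c107 a107_1 a107_2 a107_3 q107 c15 a15_1 a15_2 a15_3 q15 fun c108 a108_1 a108_2 a108_3 q108 =>
  addcK c108 a108_1 a108_2 a108_3 q108 1152921584682217243 1 fun c109 a109_1 a109_2 a109_3 q109 =>
  addcK c99 a99_1 a99_2 a99_3 q99 1152962875655987397 1 fun c110 a110_1 a110_2 a110_3 q110 =>
  mulK c110 a110_1 a110_2 a110_3 q110 c15 a15_1 a15_2 a15_3 q15 fun c111 a111_1 a111_2 a111_3 q111 =>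
  addcK c111 a111_1 a111_2 a111_3 q111 1152909140873470542 1 fun c112 a112_1 a112_2 a112_3 q112 =>
  mulK c112 a112_1 a112_2 a112_3 q112 c15 a15_1 a15_2 a15_3 q15 fun c113 a113_1 a113_2 a113_3 q113 =>
  addcK c113 a113_1 a113_2 a113_3 q113 1152921455060104249 1 fun c114 a114_1 a114_2 a114_3 q114 =>
  addcK c83 a83_1 a83_2 a83_3 q83 1152923474656806044 1 fun c115 a115_1 a115_2 a115_3 q115 =>
  mulK c55 a55_1 a55_2 a55_3 q55 c115 a115_1 a115_2 a115_3 q115 fun c116 a116_1 a116_2 a116_3 q116 =>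
  addK c114 a114_1 a114_2 a114_3 q114 c116 a116_1 a116_2 a116_3 q116 fun c117 a117_1 a117_2 a117_3 q117 =>
  mulK c55 a55_1 a55_2 a55_3 q55 c117 a117_1 a117_2 a117_3 q117 fun c118 a118_1 a118_2 a118_3 q118 =>
  addK c109 a109_1 a109_2 a109_3 q109 c118 a118_1 a118_2 a118_3 q118 fun c119 a119_1 a119_2 a119_3 q119 =>
  mulK c55 a55_1 a55_2 a55_3 q55 c119 a119_1 a119_2 a119_3 q119 fun c120 a120_1 a120_2 a120_3 q120 =>
  addK c97 a97_1 a97_2 a97_3 q97 c120 a120_1 a120_2 a120_3 q120 fun c121 a121_1 a121_2 a121_3 q121 =>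
  mulK z2 1152921504606846976 (Nat.add w2 1152921504606846976) 1152921504606846976 0 c121 a121_1 a121_2 a121_3 q121 fun c123 a123_1 a123_2 a123_3 q123 =>
  smulK 2 1 1152921504606846977 2305843009213693952 c123 a123_1 a123_2 a123_3 q123 fun c124 a124_1 a124_2 a124_3 q124 =>
  subK c80 a80_1 a80_2 a80_3 q80 c124 a124_1 a124_2 a124_3 q124 fun c125 a125_1 a125_2 a125_3 q125 =>
  mulK c12 a12_1 a12_2 a12_3 q12 c125 a125_1 a125_2 a125_3 q125 fun c127 a127_1 a127_2 a127_3 q127 =>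
  negK c7 a7_1 a7_2 a7_3 q7 fun c128 a128_1 a128_2 a128_3 q128 =>
  addcK c128 a128_1 a128_2 a128_3 q128 1152922604118474752 0 fun c129 a129_1 a129_2 a129_3 q129 =>
  smulK 39 200 230584300921369395400 44963938679667032064 c10 a10_1 a10_2 a10_3 q10 fun c131 a131_1 a131_2 a131_3 q131 =>
  subK c129 a129_1 a129_2 a129_3 q129 c131 a131_1 a131_2 a131_3 q131 fun c132 a132_1 a132_2 a132_3 q132 =>
  addK c80 a80_1 a80_2 a80_3 q80 c124 a124_1 a124_2 a124_3 q124 fun c134 a134_1 a134_2 a134_3 q134 =>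
  mulK c132 a132_1 a132_2 a132_3 q132 c134 a134_1 a134_2 a134_3 q134 fun c136 a136_1 a136_2 a136_3 q136 =>
  addK c127 a127_1 a127_2 a127_3 q127 c136 a136_1 a136_2 a136_3 q136 fun c137 a137_1 a137_2 a137_3 q137 =>
  mulK z2 1152921504606846976 (Nat.add w2 1152921504606846976) 1152921504606846976 0 c3 a3_1 a3_2 a3_3 q3 fun c138 a138_1 a138_2 a138_3 q138 =>
  smulK 2 1 1152921504606846977 2305843009213693952 c138 a138_1 a138_2 a138_3 q138 fun c139 a139_1 a139_2 a139_3 q139 =>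
  addK c137 a137_1 a137_2 a137_3 q137 c139 a139_1 a139_2 a139_3 q139 fun c140 a140_1 a140_2 a140_3 q140 =>
  smulK 2 1 1152921504606846977 2305843009213693952 c33 a33_1 a33_2 a33_3 q33 fun c141 a141_1 a141_2 a141_3 q141 =>
  subK c140 a140_1 a140_2 a140_3 q140 c141 a141_1 a141_2 a141_3 q141 fun c142 a142_1 a142_2 a142_3 q142 =>
  posK c142 a142_1 a142_2 a142_3 q142 <|
  smulK 9 20 23058430092136939540 10376293541461622784 p2 1152921504606846976 1152921504606846976 1152921504606846976 0 fun c144 a144_1 a144_2 a144_3 q144 =>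
  addcK c144 a144_1 a144_2 a144_3 q144 1152922109338242253 1 fun c145 a145_1 a145_2 a145_3 q145 =>
  smulK 21 50 57646075230342348850 24211351596743786496 c145 a145_1 a145_2 a145_3 q145 fun c148 a148_1 a148_2 a148_3 q148 =>
  negK c148 a148_1 a148_2 a148_3 q148 fun c149 a149_1 a149_2 a149_3 q149 =>
  addcK c149 a149_1 a149_2 a149_3 q149 1152922164313823642 1 fun c150 a150_1 a150_2 a150_3 q150 =>
  mulK c145 a145_1 a145_2 a145_3 q145 c150 a150_1 a150_2 a150_3 q150 fun c152 a152_1 a152_2 a152_3 q152 =>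
  addcK c152 a152_1 a152_2 a152_3 q152 1152921449631265587 1 fun c153 a153_1 a153_2 a153_3 q153 =>
  sqK c145 a145_1 a145_2 a145_3 q145 fun c155 a155_1 a155_2 a155_3 q155 =>
  addcK c155 a155_1 a155_2 a155_3 q155 1152922604118474752 0 fun c156 a156_1 a156_2 a156_3 q156 =>
  invK c156 a156_1 a156_2 a156_3 q156 fun c158 a158_1 a158_2 a158_3 q158 =>
  mulK c153 a153_1 a153_2 a153_3 q153 c158 a158_1 a158_2 a158_3 q158 fun c161 a161_1 a161_2 a161_3 q161 =>
  mulK z3 1152921504606846976 1152921504606846976 (Nat.add w3 1152921504606846976) 0 c161 a161_1 a161_2 a161_3 q161 fun c162 a162_1 a162_2 a162_3 q162 =>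
  addcK c162 a162_1 a162_2 a162_3 q162 1152922604118474752 0 fun c163 a163_1 a163_2 a163_3 q163 =>
  addcK c19 a19_1 a19_2 a19_3 q19 1152926788859730067 1 fun c166 a166_1 a166_2 a166_3 q166 =>
  mulK c166 a166_1 a166_2 a166_3 q166 c15 a15_1 a15_2 a15_3 q15 fun c167 a167_1 a167_2 a167_3 q167 =>
  addcK c167 a167_1 a167_2 a167_3 q167 1152911935832028348 1 fun c168 a168_1 a168_2 a168_3 q168 =>
  mulK c168 a168_1 a168_2 a168_3 q168 c15 a15_1 a15_2 a15_3 q15 fun c169 a169_1 a169_2 a169_3 q169 =>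
  addcK c169 a169_1 a169_2 a169_3 q169 1152929145662904205 1 fun c170 a170_1 a170_2 a170_3 q170 =>
  mulK c170 a170_1 a170_2 a170_3 q170 c15 a15_1 a15_2 a15_3 q15 fun c171 a171_1 a171_2 a171_3 q171 =>
  addcK c171 a171_1 a171_2 a171_3 q171 1152918891548744090 1 fun c172 a172_1 a172_2 a172_3 q172 =>
  mulK c172 a172_1 a172_2 a172_3 q172 c15 a15_1 a15_2 a15_3 q15 fun c173 a173_1 a173_2 a173_3 q173 =>
  addcK c173 a173_1 a173_2 a173_3 q173 1152922602056890450 1 fun c174 a174_1 a174_2 a174_3 q174 =>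
  mulK c174 a174_1 a174_2 a174_3 q174 c15 a15_1 a15_2 a15_3 q15 fun c175 a175_1 a175_2 a175_3 q175 =>
  addcK c175 a175_1 a175_2 a175_3 q175 1152919509525818507 1 fun c176 a176_1 a176_2 a176_3 q176 =>
  mulK c176 a176_1 a176_2 a176_3 q176 c15 a15_1 a15_2 a15_3 q15 fun c177 a177_1 a177_2 a177_3 q177 =>
  addcK c177 a177_1 a177_2 a177_3 q177 1152923178097904189 1 fun c178 a178_1 a178_2 a178_3 q178 =>
  addcK c40 a40_1 a40_2 a40_3 q40 1152971291867742208 0 fun c180 a180_1 a180_2 a180_3 q180 =>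
  mulK c180 a180_1 a180_2 a180_3 q180 c15 a15_1 a15_2 a15_3 q15 fun c181 a181_1 a181_2 a181_3 q181 =>
  addcK c181 a181_1 a181_2 a181_3 q181 1152869554744018862 1 fun c182 a182_1 a182_2 a182_3 q182 =>
  mulK c182 a182_1 a182_2 a182_3 q182 c15 a15_1 a15_2 a15_3 q15 fun c183 a183_1 a183_2 a183_3 q183 =>
  addcK c183 a183_1 a183_2 a183_3 q183 1152935787950086554 1 fun c184 a184_1 a184_2 a184_3 q184 =>
  mulK c184 a184_1 a184_2 a184_3 q184 c15 a15_1 a15_2 a15_3 q15 fun c185 a185_1 a185_2 a185_3 q185 =>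
  addcK c185 a185_1 a185_2 a185_3 q185 1152925127016624161 1 fun c186 a186_1 a186_2 a186_3 q186 =>
  mulK c186 a186_1 a186_2 a186_3 q186 c15 a15_1 a15_2 a15_3 q15 fun c187 a187_1 a187_2 a187_3 q187 =>
  addcK c187 a187_1 a187_2 a187_3 q187 1152921190988335022 1 fun c188 a188_1 a188_2 a188_3 q188 =>
  mulK c188 a188_1 a188_2 a188_3 q188 c15 a15_1 a15_2 a15_3 q15 fun c189 a189_1 a189_2 a189_3 q189 =>
  addcK c189 a189_1 a189_2 a189_3 q189 1152920781428843610 1 fun c190 a190_1 a190_2 a190_3 q190 =>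
  addcK c58 a58_1 a58_2 a58_3 q58 1153004483375005696 0 fun c191 a191_1 a191_2 a191_3 q191 =>
  mulK c191 a191_1 a191_2 a191_3 q191 c15 a15_1 a15_2 a15_3 q15 fun c192 a192_1 a192_2 a192_3 q192 =>
  addcK c192 a192_1 a192_2 a192_3 q192 1152869554744018862 1 fun c193 a193_1 a193_2 a193_3 q193 =>
  mulK c193 a193_1 a193_2 a193_3 q193 c15 a15_1 a15_2 a15_3 q15 fun c194 a194_1 a194_2 a194_3 q194 =>
  addcK c194 a194_1 a194_2 a194_3 q194 1152928646278466765 1 fun c195 a195_1 a195_2 a195_3 q195 =>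
  mulK c195 a195_1 a195_2 a195_3 q195 c15 a15_1 a15_2 a15_3 q15 fun c196 a196_1 a196_2 a196_3 q196 =>
  addcK c196 a196_1 a196_2 a196_3 q196 1152922108341809840 1 fun c197 a197_1 a197_2 a197_3 q197 =>
  addcK c40 a40_1 a40_2 a40_3 q40 1152938100360478720 0 fun c198 a198_1 a198_2 a198_3 q198 =>
  mulK c198 a198_1 a198_2 a198_3 q198 c15 a15_1 a15_2 a15_3 q15 fun c199 a199_1 a199_2 a199_3 q199 =>
  addcK c199 a199_1 a199_2 a199_3 q199 1152918041282658435 1 fun c200 a200_1 a200_2 a200_3 q200 =>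
  addK c200 a200_1 a200_2 a200_3 q200 c71 a71_1 a71_2 a71_3 q71 fun c201 a201_1 a201_2 a201_3 q201 =>
  mulK c55 a55_1 a55_2 a55_3 q55 c201 a201_1 a201_2 a201_3 q201 fun c202 a202_1 a202_2 a202_3 q202 =>
  addK c197 a197_1 a197_2 a197_3 q197 c202 a202_1 a202_2 a202_3 q202 fun c203 a203_1 a203_2 a203_3 q203 =>
  mulK c55 a55_1 a55_2 a55_3 q55 c203 a203_1 a203_2 a203_3 q203 fun c204 a204_1 a204_2 a204_3 q204 =>
  addK c190 a190_1 a190_2 a190_3 q190 c204 a204_1 a204_2 a204_3 q204 fun c205 a205_1 a205_2 a205_3 q205 =>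
  mulK c37 a37_1 a37_2 a37_3 q37 c205 a205_1 a205_2 a205_3 q205 fun c207 a207_1 a207_2 a207_3 q207 =>
  addK c178 a178_1 a178_2 a178_3 q178 c207 a207_1 a207_2 a207_3 q207 fun c208 a208_1 a208_2 a208_3 q208 =>
  addcK c83 a83_1 a83_2 a83_3 q83 1152938100360478720 0 fun c210 a210_1 a210_2 a210_3 q210 =>
  mulK c210 a210_1 a210_2 a210_3 q210 c15 a15_1 a15_2 a15_3 q15 fun c211 a211_1 a211_2 a211_3 q211 =>
  addcK c211 a211_1 a211_2 a211_3 q211 1152900724661715730 1 fun c212 a212_1 a212_2 a212_3 q212 =>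
  mulK c212 a212_1 a212_2 a212_3 q212 c15 a15_1 a15_2 a15_3 q15 fun c213 a213_1 a213_2 a213_3 q213 =>
  addcK c213 a213_1 a213_2 a213_3 q213 1152928646278466765 1 fun c214 a214_1 a214_2 a214_3 q214 =>
  mulK c214 a214_1 a214_2 a214_3 q214 c15 a15_1 a15_2 a15_3 q15 fun c215 a215_1 a215_2 a215_3 q215 =>
  addcK c215 a215_1 a215_2 a215_3 q215 1152923919546698433 1 fun c216 a216_1 a216_2 a216_3 q216 =>
  mulK c216 a216_1 a216_2 a216_3 q216 c15 a15_1 a15_2 a15_3 q15 fun c217 a217_1 a217_2 a217_3 q217 =>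
  addcK c217 a217_1 a217_2 a217_3 q217 1152921190988335022 1 fun c218 a218_1 a218_2 a218_3 q218 =>
  mulK c218 a218_1 a218_2 a218_3 q218 c15 a15_1 a15_2 a15_3 q15 fun c219 a219_1 a219_2 a219_3 q219 =>
  addcK c219 a219_1 a219_2 a219_3 q219 1152920058250840244 1 fun c220 a220_1 a220_2 a220_3 q220 =>
  mulK c220 a220_1 a220_2 a220_3 q220 c15 a15_1 a15_2 a15_3 q15 fun c221 a221_1 a221_2 a221_3 q221 =>
  addcK c221 a221_1 a221_2 a221_3 q221 1152921842582118466 1 fun c222 a222_1 a222_2 a222_3 q222 =>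
  addcK c99 a99_1 a99_2 a99_3 q99 1153004483375005696 0 fun c223 a223_1 a223_2 a223_3 q223 =>
  mulK c223 a223_1 a223_2 a223_3 q223 c15 a15_1 a15_2 a15_3 q15 fun c224 a224_1 a224_2 a224_3 q224 =>
  addcK c224 a224_1 a224_2 a224_3 q224 1152852238123076157 1 fun c225 a225_1 a225_2 a225_3 q225 =>
  mulK c225 a225_1 a225_2 a225_3 q225 c15 a15_1 a15_2 a15_3 q15 fun c226 a226_1 a226_2 a226_3 q226 =>
  addcK c226 a226_1 a226_2 a226_3 q226 1152935787950086554 1 fun c227 a227_1 a227_2 a227_3 q227 =>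
  mulK c227 a227_1 a227_2 a227_3 q227 c15 a15_1 a15_2 a15_3 q15 fun c228 a228_1 a228_2 a228_3 q228 =>
  addcK c228 a228_1 a228_2 a228_3 q228 1152923919546698433 1 fun c229 a229_1 a229_2 a229_3 q229 =>
  mulK c229 a229_1 a229_2 a229_3 q229 c15 a15_1 a15_2 a15_3 q15 fun c230 a230_1 a230_2 a230_3 q230 =>
  addcK c230 a230_1 a230_2 a230_3 q230 1152921400067342991 1 fun c231 a231_1 a231_2 a231_3 q231 =>
  addcK c99 a99_1 a99_2 a99_3 q99 1152971291867742208 0 fun c232 a232_1 a232_2 a232_3 q232 =>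
  mulK c232 a232_1 a232_2 a232_3 q232 c15 a15_1 a15_2 a15_3 q15 fun c233 a233_1 a233_2 a233_3 q233 =>
  addcK c233 a233_1 a233_2 a233_3 q233 1152900724661715730 1 fun c234 a234_1 a234_2 a234_3 q234 =>
  mulK c234 a234_1 a234_2 a234_3 q234 c15 a15_1 a15_2 a15_3 q15 fun c235 a235_1 a235_2 a235_3 q235 =>
  addcK c235 a235_1 a235_2 a235_3 q235 1152922932941170934 1 fun c236 a236_1 a236_2 a236_3 q236 =>
  addcK c83 a83_1 a83_2 a83_3 q83 1152923875428794368 0 fun c237 a237_1 a237_2 a237_3 q237 =>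
  mulK c55 a55_1 a55_2 a55_3 q55 c237 a237_1 a237_2 a237_3 q237 fun c238 a238_1 a238_2 a238_3 q238 =>
  addK c236 a236_1 a236_2 a236_3 q236 c238 a238_1 a238_2 a238_3 q238 fun c239 a239_1 a239_2 a239_3 q239 =>
  mulK c55 a55_1 a55_2 a55_3 q55 c239 a239_1 a239_2 a239_3 q239 fun c240 a240_1 a240_2 a240_3 q240 =>
  addK c231 a231_1 a231_2 a231_3 q231 c240 a240_1 a240_2 a240_3 q240 fun c241 a241_1 a241_2 a241_3 q241 =>
  mulK c55 a55_1 a55_2 a55_3 q55 c241 a241_1 a241_2 a241_3 q241 fun c242 a242_1 a242_2 a242_3 q242 =>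
  addK c222 a222_1 a222_2 a222_3 q222 c242 a242_1 a242_2 a242_3 q242 fun c243 a243_1 a243_2 a243_3 q243 =>
  mulK z2 1152921504606846976 (Nat.add w2 1152921504606846976) 1152921504606846976 0 c243 a243_1 a243_2 a243_3 q243 fun c245 a245_1 a245_2 a245_3 q245 =>
  smulK 2 1 1152921504606846977 2305843009213693952 c245 a245_1 a245_2 a245_3 q245 fun c246 a246_1 a246_2 a246_3 q246 =>
  addK c208 a208_1 a208_2 a208_3 q208 c246 a246_1 a246_2 a246_3 q246 fun c247 a247_1 a247_2 a247_3 q247 =>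
  mulK c163 a163_1 a163_2 a163_3 q163 c247 a247_1 a247_2 a247_3 q247 fun c249 a249_1 a249_2 a249_3 q249 =>
  negK c145 a145_1 a145_2 a145_3 q145 fun c250 a250_1 a250_2 a250_3 q250 =>
  addcK c250 a250_1 a250_2 a250_3 q250 1152922604118474752 0 fun c251 a251_1 a251_2 a251_3 q251 =>
  mulK c251 a251_1 a251_2 a251_3 q251 c158 a158_1 a158_2 a158_3 q158 fun c253 a253_1 a253_2 a253_3 q253 =>
  addcK c145 a145_1 a145_2 a145_3 q145 1152922604118474752 0 fun c254 a254_1 a254_2 a254_3 q254 =>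
  smulK 93 100 115292150460684697700 107221699928436768768 c145 a145_1 a145_2 a145_3 q145 fun c256 a256_1 a256_2 a256_3 q256 =>
  addcK c256 a256_1 a256_2 a256_3 q256 1152921317689870254 1 fun c257 a257_1 a257_2 a257_3 q257 =>
  smulK 3 25 28823037615171174425 3458764513820540928 c145 a145_1 a145_2 a145_3 q145 fun c259 a259_1 a259_2 a259_3 q259 =>
  addcK c259 a259_1 a259_2 a259_3 q259 1152921614558009754 1 fun c260 a260_1 a260_2 a260_3 q260 =>
  mulK z3 1152921504606846976 1152921504606846976 (Nat.add w3 1152921504606846976) 0 c260 a260_1 a260_2 a260_3 q260 fun c262 a262_1 a262_2 a262_3 q262 =>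
  addK c257 a257_1 a257_2 a257_3 q257 c262 a262_1 a262_2 a262_3 q262 fun c263 a263_1 a263_2 a263_3 q263 =>
  mulK z3 1152921504606846976 1152921504606846976 (Nat.add w3 1152921504606846976) 0 c263 a263_1 a263_2 a263_3 q263 fun c264 a264_1 a264_2 a264_3 q264 =>
  subK c254 a254_1 a254_2 a254_3 q254 c264 a264_1 a264_2 a264_3 q264 fun c265 a265_1 a265_2 a265_3 q265 =>
  mulK c253 a253_1 a253_2 a253_3 q253 c265 a265_1 a265_2 a265_3 q265 fun c267 a267_1 a267_2 a267_3 q267 =>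
  subK c208 a208_1 a208_2 a208_3 q208 c246 a246_1 a246_2 a246_3 q246 fun c269 a269_1 a269_2 a269_3 q269 =>
  mulK c267 a267_1 a267_2 a267_3 q267 c269 a269_1 a269_2 a269_3 q269 fun c271 a271_1 a271_2 a271_3 q271 =>
  addK c249 a249_1 a249_2 a249_3 q249 c271 a271_1 a271_2 a271_3 q271 fun c272 a272_1 a272_2 a272_3 q272 =>
  smulK 2 1 1152921504606846977 2305843009213693952 c145 a145_1 a145_2 a145_3 q145 fun c273 a273_1 a273_2 a273_3 q273 =>
  smulK 1 250 288230376151711744250 1152921504606846976 c251 a251_1 a251_2 a251_3 q251 fun c274 a274_1 a274_2 a274_3 q274 =>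
  subK c273 a273_1 a273_2 a273_3 q273 c274 a274_1 a274_2 a274_3 q274 fun c275 a275_1 a275_2 a275_3 q275 =>
  mulK c275 a275_1 a275_2 a275_3 q275 c158 a158_1 a158_2 a158_3 q158 fun c276 a276_1 a276_2 a276_3 q276 =>
  mulK z2 1152921504606846976 (Nat.add w2 1152921504606846976) 1152921504606846976 0 c276 a276_1 a276_2 a276_3 q276 fun c278 a278_1 a278_2 a278_3 q278 =>
  smulK 2 1 1152921504606846977 2305843009213693952 c278 a278_1 a278_2 a278_3 q278 fun c279 a279_1 a279_2 a279_3 q279 =>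
  addK c272 a272_1 a272_2 a272_3 q272 c279 a279_1 a279_2 a279_3 q279 fun c280 a280_1 a280_2 a280_3 q280 =>
  smulK 2 1 1152921504606846977 2305843009213693952 c178 a178_1 a178_2 a178_3 q178 fun c281 a281_1 a281_2 a281_3 q281 =>
  subK c280 a280_1 a280_2 a280_3 q280 c281 a281_1 a281_2 a281_3 q281 fun c282 a282_1 a282_2 a282_3 q282 =>
  posK c282 a282_1 a282_2 a282_3 q282 <|
  mulK c142 a142_1 a142_2 a142_3 q142 c282 a282_1 a282_2 a282_3 q282 fun c284 a284_1 a284_2 a284_3 q284 =>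
  mulK c12 a12_1 a12_2 a12_3 q12 c267 a267_1 a267_2 a267_3 q267 fun c285 a285_1 a285_2 a285_3 q285 =>
  sqrtK c285 a285_1 a285_2 a285_3 q285 fun c286 a286_1 a286_2 a286_3 q286 =>
  smulK 238 125 144115188075855872125 274395318096429580288 c15 a15_1 a15_2 a15_3 q15 fun c287 a287_1 a287_2 a287_3 q287 =>
  addcK c287 a287_1 a287_2 a287_3 q287 1152911037256150548 1 fun c288 a288_1 a288_2 a288_3 q288 =>
  mulK c288 a288_1 a288_2 a288_3 q288 c15 a15_1 a15_2 a15_3 q15 fun c289 a289_1 a289_2 a289_3 q289 =>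
  addcK c289 a289_1 a289_2 a289_3 q289 1152941418961449255 1 fun c290 a290_1 a290_2 a290_3 q290 =>
  mulK c290 a290_1 a290_2 a290_3 q290 c15 a15_1 a15_2 a15_3 q15 fun c291 a291_1 a291_2 a291_3 q291 =>
  addcK c291 a291_1 a291_2 a291_3 q291 1152903604557546783 1 fun c292 a292_1 a292_2 a292_3 q292 =>
  mulK c292 a292_1 a292_2 a292_3 q292 c15 a15_1 a15_2 a15_3 q15 fun c293 a293_1 a293_2 a293_3 q293 =>
  addcK c293 a293_1 a293_2 a293_3 q293 1152929554131473924 1 fun c294 a294_1 a294_2 a294_3 q294 =>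
  mulK c294 a294_1 a294_2 a294_3 q294 c15 a15_1 a15_2 a15_3 q15 fun c295 a295_1 a295_2 a295_3 q295 =>
  addcK c295 a295_1 a295_2 a295_3 q295 1152918908659893797 1 fun c296 a296_1 a296_2 a296_3 q296 =>
  mulK c296 a296_1 a296_2 a296_3 q296 c15 a15_1 a15_2 a15_3 q15 fun c297 a297_1 a297_2 a297_3 q297 =>
  addcK c297 a297_1 a297_2 a297_3 q297 1152922523854125924 1 fun c298 a298_1 a298_2 a298_3 q298 =>
  smulK 1666 125 144115188075855872125 1920767226675007062016 c15 a15_1 a15_2 a15_3 q15 fun c300 a300_1 a300_2 a300_3 q300 =>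
  addcK c300 a300_1 a300_2 a300_3 q300 1152877541733921980 1 fun c301 a301_1 a301_2 a301_3 q301 =>
  mulK c301 a301_1 a301_2 a301_3 q301 c15 a15_1 a15_2 a15_3 q15 fun c302 a302_1 a302_2 a302_3 q302 =>
  addcK c302 a302_1 a302_2 a302_3 q302 1152958893499749499 1 fun c303 a303_1 a303_2 a303_3 q303 =>
  mulK c303 a303_1 a303_2 a303_3 q303 c15 a15_1 a15_2 a15_3 q15 fun c304 a304_1 a304_2 a304_3 q304 =>
  addcK c304 a304_1 a304_2 a304_3 q304 1152919998275916923 1 fun c305 a305_1 a305_2 a305_3 q305 =>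
  mulK c305 a305_1 a305_2 a305_3 q305 c15 a15_1 a15_2 a15_3 q15 fun c306 a306_1 a306_2 a306_3 q306 =>
  addcK c306 a306_1 a306_2 a306_3 q306 1152914196702812963 1 fun c307 a307_1 a307_2 a307_3 q307 =>
  mulK c307 a307_1 a307_2 a307_3 q307 c15 a15_1 a15_2 a15_3 q15 fun c308 a308_1 a308_2 a308_3 q308 =>
  addcK c308 a308_1 a308_2 a308_3 q308 1152922238530858516 1 fun c309 a309_1 a309_2 a309_3 q309 =>
  mulK c309 a309_1 a309_2 a309_3 q309 c15 a15_1 a15_2 a15_3 q15 fun c310 a310_1 a310_2 a310_3 q310 =>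
  addcK c310 a310_1 a310_2 a310_3 q310 1152921613527217603 1 fun c311 a311_1 a311_2 a311_3 q311 =>
  smulK 833 25 28823037615171174425 960383613337503531008 c15 a15_1 a15_2 a15_3 q15 fun c312 a312_1 a312_2 a312_3 q312 =>
  addcK c312 a312_1 a312_2 a312_3 q312 1152848233151971983 1 fun c313 a313_1 a313_2 a313_3 q313 =>
  mulK c313 a313_1 a313_2 a313_3 q313 c15 a15_1 a15_2 a15_3 q15 fun c314 a314_1 a314_2 a314_3 q314 =>
  addcK c314 a314_1 a314_2 a314_3 q314 1152958893499749499 1 fun c315 a315_1 a315_2 a315_3 q315 =>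
  mulK c315 a315_1 a315_2 a315_3 q315 c15 a15_1 a15_2 a15_3 q15 fun c316 a316_1 a316_2 a316_3 q316 =>
  addcK c316 a316_1 a316_2 a316_3 q316 1152920751441381949 1 fun c317 a317_1 a317_2 a317_3 q317 =>
  mulK c317 a317_1 a317_2 a317_3 q317 c15 a15_1 a15_2 a15_3 q15 fun c318 a318_1 a318_2 a318_3 q318 =>
  addcK c318 a318_1 a318_2 a318_3 q318 1152920286622841307 1 fun c319 a319_1 a319_2 a319_3 q319 =>
  addcK c300 a300_1 a300_2 a300_3 q300 1152906850315871977 1 fun c320 a320_1 a320_2 a320_3 q320 =>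
  mulK c320 a320_1 a320_2 a320_3 q320 c15 a15_1 a15_2 a15_3 q15 fun c321 a321_1 a321_2 a321_3 q321 =>
  addcK c321 a321_1 a321_2 a321_3 q321 1152923997199707144 1 fun c322 a322_1 a322_2 a322_3 q322 =>
  smulK 119 250 288230376151711744250 137197659048214790144 c55 a55_1 a55_2 a55_3 q55 fun c323 a323_1 a323_2 a323_3 q323 =>
  addK c322 a322_1 a322_2 a322_3 q322 c323 a323_1 a323_2 a323_3 q323 fun c324 a324_1 a324_2 a324_3 q324 =>
  mulK c55 a55_1 a55_2 a55_3 q55 c324 a324_1 a324_2 a324_3 q324 fun c325 a325_1 a325_2 a325_3 q325 =>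
  addK c319 a319_1 a319_2 a319_3 q319 c325 a325_1 a325_2 a325_3 q325 fun c326 a326_1 a326_2 a326_3 q326 =>
  mulK c55 a55_1 a55_2 a55_3 q55 c326 a326_1 a326_2 a326_3 q326 fun c327 a327_1 a327_2 a327_3 q327 =>
  addK c311 a311_1 a311_2 a311_3 q311 c327 a327_1 a327_2 a327_3 q327 fun c328 a328_1 a328_2 a328_3 q328 =>
  mulK c35 a35_1 a35_2 a35_3 q35 c328 a328_1 a328_2 a328_3 q328 fun c330 a330_1 a330_2 a330_3 q330 =>
  smulK 4 1 1152921504606846977 4611686018427387904 c330 a330_1 a330_2 a330_3 q330 fun c331 a331_1 a331_2 a331_3 q331 =>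
  addK c298 a298_1 a298_2 a298_3 q298 c331 a331_1 a331_2 a331_3 q331 fun c332 a332_1 a332_2 a332_3 q332 =>
  smulK 952 125 144115188075855872125 1097581272385718321152 c15 a15_1 a15_2 a15_3 q15 fun c334 a334_1 a334_2 a334_3 q334 =>
  addcK c334 a334_1 a334_2 a334_3 q334 1152888009084618408 1 fun c335 a335_1 a335_2 a335_3 q335 =>
  mulK c335 a335_1 a335_2 a335_3 q335 c15 a15_1 a15_2 a15_3 q15 fun c336 a336_1 a336_2 a336_3 q336 =>
  addcK c336 a336_1 a336_2 a336_3 q336 1152968163482283278 1 fun c337 a337_1 a337_2 a337_3 q337 =>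
  mulK c337 a337_1 a337_2 a337_3 q337 c15 a15_1 a15_2 a15_3 q15 fun c338 a338_1 a338_2 a338_3 q338 =>
  addcK c338 a338_1 a338_2 a338_3 q338 1152896668838198772 1 fun c339 a339_1 a339_2 a339_3 q339 =>
  mulK c339 a339_1 a339_2 a339_3 q339 c15 a15_1 a15_2 a15_3 q15 fun c340 a340_1 a340_2 a340_3 q340 =>
  addcK c340 a340_1 a340_2 a340_3 q340 1152924178619125727 1 fun c341 a341_1 a341_2 a341_3 q341 =>
  mulK c341 a341_1 a341_2 a341_3 q341 c15 a15_1 a15_2 a15_3 q15 fun c342 a342_1 a342_2 a342_3 q342 =>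
  addcK c342 a342_1 a342_2 a342_3 q342 1152921635448730681 1 fun c343 a343_1 a343_2 a343_3 q343 =>
  mulK c343 a343_1 a343_2 a343_3 q343 c15 a15_1 a15_2 a15_3 q15 fun c344 a344_1 a344_2 a344_3 q344 =>
  addcK c344 a344_1 a344_2 a344_3 q344 1152921874867387630 1 fun c345 a345_1 a345_2 a345_3 q345 =>
  smulK 3332 125 144115188075855872125 3841534453350014124032 c15 a15_1 a15_2 a15_3 q15 fun c346 a346_1 a346_2 a346_3 q346 =>
  addcK c346 a346_1 a346_2 a346_3 q346 1152848233151971983 1 fun c347 a347_1 a347_2 a347_3 q347 =>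
  mulK c347 a347_1 a347_2 a347_3 q347 c15 a15_1 a15_2 a15_3 q15 fun c348 a348_1 a348_2 a348_3 q348 =>
  addcK c348 a348_1 a348_2 a348_3 q348 1152971356464050340 1 fun c349 a349_1 a349_2 a349_3 q349 =>
  mulK c349 a349_1 a349_2 a349_3 q349 c15 a15_1 a15_2 a15_3 q15 fun c350 a350_1 a350_2 a350_3 q350 =>
  addcK c350 a350_1 a350_2 a350_3 q350 1152919998275916923 1 fun c351 a351_1 a351_2 a351_3 q351 =>
  mulK c351 a351_1 a351_2 a351_3 q351 c15 a15_1 a15_2 a15_3 q15 fun c352 a352_1 a352_2 a352_3 q352 =>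
  addcK c352 a352_1 a352_2 a352_3 q352 1152916632670824301 1 fun c353 a353_1 a353_2 a353_3 q353 =>
  mulK c353 a353_1 a353_2 a353_3 q353 c15 a15_1 a15_2 a15_3 q15 fun c354 a354_1 a354_2 a354_3 q354 =>
  addcK c354 a354_1 a354_2 a354_3 q354 1152921749248184156 1 fun c355 a355_1 a355_2 a355_3 q355 =>
  addcK c346 a346_1 a346_2 a346_3 q346 1152877541733921980 1 fun c356 a356_1 a356_2 a356_3 q356 =>
  mulK c356 a356_1 a356_2 a356_3 q356 c15 a15_1 a15_2 a15_3 q15 fun c357 a357_1 a357_2 a357_3 q357 =>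
  addcK c357 a357_1 a357_2 a357_3 q357 1152936460164007985 1 fun c358 a358_1 a358_2 a358_3 q358 =>
  mulK c358 a358_1 a358_2 a358_3 q358 c15 a15_1 a15_2 a15_3 q15 fun c359 a359_1 a359_2 a359_3 q359 =>
  addcK c359 a359_1 a359_2 a359_3 q359 1152921353973753971 1 fun c360 a360_1 a360_2 a360_3 q360 =>
  smulK 476 125 144115188075855872125 548790636192859160576 c15 a15_1 a15_2 a15_3 q15 fun c361 a361_1 a361_2 a361_3 q361 =>
  addcK c361 a361_1 a361_2 a361_3 q361 1152919411136707690 1 fun c362 a362_1 a362_2 a362_3 q362 =>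
  mulK c55 a55_1 a55_2 a55_3 q55 c362 a362_1 a362_2 a362_3 q362 fun c363 a363_1 a363_2 a363_3 q363 =>
  addK c360 a360_1 a360_2 a360_3 q360 c363 a363_1 a363_2 a363_3 q363 fun c364 a364_1 a364_2 a364_3 q364 =>
  mulK c55 a55_1 a55_2 a55_3 q55 c364 a364_1 a364_2 a364_3 q364 fun c365 a365_1 a365_2 a365_3 q365 =>
  addK c355 a355_1 a355_2 a355_3 q355 c365 a365_1 a365_2 a365_3 q365 fun c366 a366_1 a366_2 a366_3 q366 =>
  mulK c37 a37_1 a37_2 a37_3 q37 c366 a366_1 a366_2 a366_3 q366 fun c367 a367_1 a367_2 a367_3 q367 =>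
  addK c345 a345_1 a345_2 a345_3 q345 c367 a367_1 a367_2 a367_3 q367 fun c368 a368_1 a368_2 a368_3 q368 =>
  mulK z2 1152921504606846976 (Nat.add w2 1152921504606846976) 1152921504606846976 0 c368 a368_1 a368_2 a368_3 q368 fun c370 a370_1 a370_2 a370_3 q370 =>
  smulK 2 1 1152921504606846977 2305843009213693952 c370 a370_1 a370_2 a370_3 q370 fun c371 a371_1 a371_2 a371_3 q371 =>
  subK c332 a332_1 a332_2 a332_3 q332 c371 a371_1 a371_2 a371_3 q371 fun c372 a372_1 a372_2 a372_3 q372 =>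
  mulK c286 a286_1 a286_2 a286_3 q286 c372 a372_1 a372_2 a372_3 q372 fun c374 a374_1 a374_2 a374_3 q374 =>
  mulK c132 a132_1 a132_2 a132_3 q132 c163 a163_1 a163_2 a163_3 q163 fun c375 a375_1 a375_2 a375_3 q375 =>
  sqrtK c375 a375_1 a375_2 a375_3 q375 fun c376 a376_1 a376_2 a376_3 q376 =>
  addK c332 a332_1 a332_2 a332_3 q332 c371 a371_1 a371_2 a371_3 q371 fun c377 a377_1 a377_2 a377_3 q377 =>
  mulK c376 a376_1 a376_2 a376_3 q376 c377 a377_1 a377_2 a377_3 q377 fun c379 a379_1 a379_2 a379_3 q379 =>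
  addK c374 a374_1 a374_2 a374_3 q374 c379 a379_1 a379_2 a379_3 q379 fun c380 a380_1 a380_2 a380_3 q380 =>
  smulK 2 1 1152921504606846977 2305843009213693952 c298 a298_1 a298_2 a298_3 q298 fun c381 a381_1 a381_2 a381_3 q381 =>
  subK c380 a380_1 a380_2 a380_3 q380 c381 a381_1 a381_2 a381_3 q381 fun c382 a382_1 a382_2 a382_3 q382 =>
  mulK z1 (Nat.add w1 1152921504606846976) 1152921504606846976 1152921504606846976 0 c382 a382_1 a382_2 a382_3 q382 fun c384 a384_1 a384_2 a384_3 q384 =>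
  negK c384 a384_1 a384_2 a384_3 q384 fun c385 a385_1 a385_2 a385_3 q385 =>
  reluK c385 a385_1 a385_2 a385_3 q385 fun c386 a386_1 a386_2 a386_3 q386 =>
  sqK c386 a386_1 a386_2 a386_3 q386 fun c387 a387_1 a387_2 a387_3 q387 =>
  subK c284 a284_1 a284_2 a284_3 q284 c387 a387_1 a387_2 a387_3 q387 fun c388 a388_1 a388_2 a388_3 q388 =>
  pos c388 a388_1 a388_2 a388_3 q388

theorem alt6_s {p1 p2 z1 w1 z2 w2 z3 w3 : ℕ} {e1 e2 e3 a f s p q : ℝ} (he : Ev e1 e2 e3)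
    (hp1 : In e1 e2 e3 p1 1152921504606846976 1152921504606846976 1152921504606846976 0 p)
    (hp2 : In e1 e2 e3 p2 1152921504606846976 1152921504606846976 1152921504606846976 0 q)
    (hx1 : In e1 e2 e3 z1 (Nat.add w1 1152921504606846976) 1152921504606846976 1152921504606846976 0 a)
    (hx2 : In e1 e2 e3 z2 1152921504606846976 (Nat.add w2 1152921504606846976) 1152921504606846976 0 f)
    (hx3 : In e1 e2 e3 z3 1152921504606846976 1152921504606846976 (Nat.add w3 1152921504606846976) 0 s)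
    (H0 : alt6 p1 p2 z1 w1 z2 w2 z3 w3 = true) : 0 < (((3/4:ℝ) * s) - (lAp a f s p q)) ∧ 0 < (PdA a f s p q) ∧ 0 < (QdD a f s p q) ∧ 0 < (((PdA a f s p q) * (QdD a f s p q)) - ((max (-(a * (ZdAD a f s p q))) (0:ℝ)) ^ 2)) := by
  unfold alt6 at H0
  refine smulK_s he (w := (3/4:ℝ)) (by norm_num) (by norm_num) (by norm_num) (by norm_num) hx3 (fun _ _ _ _ _ h1 H1 => ?_) H0
  refine smulK_s he (w := (3:ℝ)) (by norm_num) (by norm_num) (by norm_num) (by norm_num) hp1 (fun _ _ _ _ _ h2 H2 => ?_) H1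
  refine mulK_s he h2 hx2 (fun _ _ _ _ _ h3 H3 => ?_) H2
  have h4 := In_cast (w := (lAp a f s p q)) h3 rfl
  refine subK_s he h1 h4 (fun _ _ _ _ _ h5 H4 => ?_) H3
  refine posK_s he h5 (fun p0 H5 => ?_) H4
  refine mulK_s he hx3 h4 (fun _ _ _ _ _ h6 H6 => ?_) H5
  refine smulK_s he (w := (2/3:ℝ)) (by norm_num) (by norm_num) (by norm_num) (by norm_num) h6 (fun _ _ _ _ _ h7 H7 => ?_) H6
  refine addcK_s he h7 (v' := (1:ℝ)) (by norm_num [SS, BB, abs_le]) (fun _ _ _ _ _ h8 H8 => ?_) H7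
  have h9 := In_cast h8 (add_comm _ _)
  refine sqK_s he h4 (fun _ _ _ _ _ h10 H9 => ?_) H8
  refine smulK_s he (w := (3/10:ℝ)) (by norm_num) (by norm_num) (by norm_num) (by norm_num) h10 (fun _ _ _ _ _ h11 H10 => ?_) H9
  refine subK_s he h9 h11 (fun _ _ _ _ _ h12 H11 => ?_) H10
  have h13 := In_cast (w := (K0Ap a f s p q)) h12 rfl
  refine smulK_s he (w := (2:ℝ)) (by norm_num) (by norm_num) (by norm_num) (by norm_num) hx1 (fun _ _ _ _ _ h14 H12 => ?_) H11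
  refine addcK_s he h14 (v' := (-1/2:ℝ)) (by norm_num [SS, BB, abs_le]) (fun _ _ _ _ _ h15 H13 => ?_) H12
  have h16 := In_cast h15 (sub_c (c := (1/2:ℝ)) (by norm_num))
  have h17 := In_cast (w := (x a f s p q)) h16 rfl
  refine smulK_s he (w := (987/1000:ℝ)) (by norm_num) (by norm_num) (by norm_num) (by norm_num) h17 (fun _ _ _ _ _ h18 H14 => ?_) H13
  refine negK_s he h18 (fun _ _ _ _ _ h19 H15 => ?_) H14
  have h20 := In_cast h19 (neg_mul_c (c := (-987/1000:ℝ)) (by norm_num))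
  refine addcK_s he h20 (v' := (4077/1000:ℝ)) (by norm_num [SS, BB, abs_le]) (fun _ _ _ _ _ h21 H16 => ?_) H15
  refine mulK_s he h21 h17 (fun _ _ _ _ _ h22 H17 => ?_) H16
  refine addcK_s he h22 (v' := (-23147/4000:ℝ)) (by norm_num [SS, BB, abs_le]) (fun _ _ _ _ _ h23 H18 => ?_) H17
  refine mulK_s he h23 h17 (fun _ _ _ _ _ h24 H19 => ?_) H18
  refine addcK_s he h24 (v' := (11213/4000:ℝ)) (by norm_num [SS, BB, abs_le]) (fun _ _ _ _ _ h25 H20 => ?_) H19
  refine mulK_s he h25 h17 (fun _ _ _ _ _ h26 H21 => ?_) H20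
  refine addcK_s he h26 (v' := (123/3200:ℝ)) (by norm_num [SS, BB, abs_le]) (fun _ _ _ _ _ h27 H22 => ?_) H21
  refine mulK_s he h27 h17 (fun _ _ _ _ _ h28 H23 => ?_) H22
  refine addcK_s he h28 (v' := (2023/16000:ℝ)) (by norm_num [SS, BB, abs_le]) (fun _ _ _ _ _ h29 H24 => ?_) H23
  refine mulK_s he h29 h17 (fun _ _ _ _ _ h30 H25 => ?_) H24
  refine addcK_s he h30 (v' := (-12141/12800:ℝ)) (by norm_num [SS, BB, abs_le]) (fun _ _ _ _ _ h31 H26 => ?_) H25
  refine mulK_s he h31 h17 (fun _ _ _ _ _ h32 H27 => ?_) H26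
  refine addcK_s he h32 (v' := (75807/64000:ℝ)) (by norm_num [SS, BB, abs_le]) (fun _ _ _ _ _ h33 H28 => ?_) H27
  have h34 := In_cast (w := (uh a f s p q)) h33 rfl
  refine sqK_s he hx2 (fun _ _ _ _ _ h35 H29 => ?_) H28
  refine mulK_s he hx1 h35 (fun _ _ _ _ _ h36 H30 => ?_) H29
  refine smulK_s he (w := (4:ℝ)) (by norm_num) (by norm_num) (by norm_num) (by norm_num) h36 (fun _ _ _ _ _ h37 H31 => ?_) H30
  have h38 := In_cast (w := (af2 a f s p q)) h37 rfl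
  refine smulK_s he (w := (6909/500:ℝ)) (by norm_num) (by norm_num) (by norm_num) (by norm_num) h17 (fun _ _ _ _ _ h39 H32 => ?_) H31
  refine negK_s he h39 (fun _ _ _ _ _ h40 H33 => ?_) H32
  have h41 := In_cast h40 (neg_mul_c (c := (-6909/500:ℝ)) (by norm_num))
  refine addcK_s he h41 (v' := (150507/4000:ℝ)) (by norm_num [SS, BB, abs_le]) (fun _ _ _ _ _ h42 H34 => ?_) H33
  refine mulK_s he h42 h17 (fun _ _ _ _ _ h43 H35 => ?_) H34
  refine addcK_s he h43 (v' := (-44979/1600:ℝ)) (by norm_num [SS, BB, abs_le]) (fun _ _ _ _ _ h44 H36 => ?_) H35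
  refine mulK_s he h44 h17 (fun _ _ _ _ _ h45 H37 => ?_) H36
  refine addcK_s he h45 (v' := (-721/1600:ℝ)) (by norm_num [SS, BB, abs_le]) (fun _ _ _ _ _ h46 H38 => ?_) H37
  refine mulK_s he h46 h17 (fun _ _ _ _ _ h47 H39 => ?_) H38
  refine addcK_s he h47 (v' := (69123/16000:ℝ)) (by norm_num [SS, BB, abs_le]) (fun _ _ _ _ _ h48 H40 => ?_) H39
  refine mulK_s he h48 h17 (fun _ _ _ _ _ h49 H41 => ?_) H40
  refine addcK_s he h49 (v' := (13983/64000:ℝ)) (by norm_num [SS, BB, abs_le]) (fun _ _ _ _ _ h50 H42 => ?_) H41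
  refine mulK_s he h50 h17 (fun _ _ _ _ _ h51 H43 => ?_) H42
  refine addcK_s he h51 (v' := (-56659/128000:ℝ)) (by norm_num [SS, BB, abs_le]) (fun _ _ _ _ _ h52 H44 => ?_) H43
  refine mulK_s he hx1 hx2 (fun _ _ _ _ _ h53 H45 => ?_) H44
  refine sqK_s he h53 (fun _ _ _ _ _ h54 H46 => ?_) H45
  refine smulK_s he (w := (4:ℝ)) (by norm_num) (by norm_num) (by norm_num) (by norm_num) h54 (fun _ _ _ _ _ h55 H47 => ?_) H46
  have h56 := In_cast (w := (dd a f s p q)) h55 rfl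
  refine smulK_s he (w := (6909/200:ℝ)) (by norm_num) (by norm_num) (by norm_num) (by norm_num) h17 (fun _ _ _ _ _ h57 H48 => ?_) H47
  refine negK_s he h57 (fun _ _ _ _ _ h58 H49 => ?_) H48
  have h59 := In_cast h58 (neg_mul_c (c := (-6909/200:ℝ)) (by norm_num))
  refine addcK_s he h59 (v' := (50169/800:ℝ)) (by norm_num [SS, BB, abs_le]) (fun _ _ _ _ _ h60 H50 => ?_) H49
  refine mulK_s he h60 h17 (fun _ _ _ _ _ h61 H51 => ?_) H50
  refine addcK_s he h61 (v' := (-44979/1600:ℝ)) (by norm_num [SS, BB, abs_le]) (fun _ _ _ _ _ h62 H52 => ?_) H51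
  refine mulK_s he h62 h17 (fun _ _ _ _ _ h63 H53 => ?_) H52
  refine addcK_s he h63 (v' := (-721/3200:ℝ)) (by norm_num [SS, BB, abs_le]) (fun _ _ _ _ _ h64 H54 => ?_) H53
  refine mulK_s he h64 h17 (fun _ _ _ _ _ h65 H55 => ?_) H54
  refine addcK_s he h65 (v' := (23041/32000:ℝ)) (by norm_num [SS, BB, abs_le]) (fun _ _ _ _ _ h66 H56 => ?_) H55
  refine addcK_s he h41 (v' := (50169/4000:ℝ)) (by norm_num [SS, BB, abs_le]) (fun _ _ _ _ _ h67 H57 => ?_) H56
  refine mulK_s he h67 h17 (fun _ _ _ _ _ h68 H58 => ?_) H57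
  refine addcK_s he h68 (v' := (-14993/8000:ℝ)) (by norm_num [SS, BB, abs_le]) (fun _ _ _ _ _ h69 H59 => ?_) H58
  refine smulK_s he (w := (987/2000:ℝ)) (by norm_num) (by norm_num) (by norm_num) (by norm_num) h56 (fun _ _ _ _ _ h70 H60 => ?_) H59
  refine negK_s he h70 (fun _ _ _ _ _ h71 H61 => ?_) H60
  have h72 := In_cast h71 (neg_mul_c (c := (-987/2000:ℝ)) (by norm_num))
  refine addK_s he h69 h72 (fun _ _ _ _ _ h73 H62 => ?_) H61
  refine mulK_s he h56 h73 (fun _ _ _ _ _ h74 H63 => ?_) H62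
  refine addK_s he h66 h74 (fun _ _ _ _ _ h75 H64 => ?_) H63
  refine mulK_s he h56 h75 (fun _ _ _ _ _ h76 H65 => ?_) H64
  refine addK_s he h52 h76 (fun _ _ _ _ _ h77 H66 => ?_) H65
  have h78 := In_cast (w := (uE a f s p q)) h77 rfl
  refine mulK_s he h38 h78 (fun _ _ _ _ _ h79 H67 => ?_) H66
  refine addK_s he h34 h79 (fun _ _ _ _ _ h80 H68 => ?_) H67
  have h81 := In_cast (w := (um a f s p q)) h80 rfl
  refine smulK_s he (w := (987/250:ℝ)) (by norm_num) (by norm_num) (by norm_num) (by norm_num) h17 (fun _ _ _ _ _ h82 H69 => ?_) H68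
  refine negK_s he h82 (fun _ _ _ _ _ h83 H70 => ?_) H69
  have h84 := In_cast h83 (neg_mul_c (c := (-987/250:ℝ)) (by norm_num))
  refine addcK_s he h84 (v' := (50169/4000:ℝ)) (by norm_num [SS, BB, abs_le]) (fun _ _ _ _ _ h85 H71 => ?_) H70
  refine mulK_s he h85 h17 (fun _ _ _ _ _ h86 H72 => ?_) H71
  refine addcK_s he h86 (v' := (-44979/4000:ℝ)) (by norm_num [SS, BB, abs_le]) (fun _ _ _ _ _ h87 H73 => ?_) H72
  refine mulK_s he h87 h17 (fun _ _ _ _ _ h88 H74 => ?_) H73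
  refine addcK_s he h88 (v' := (-721/3200:ℝ)) (by norm_num [SS, BB, abs_le]) (fun _ _ _ _ _ h89 H75 => ?_) H74
  refine mulK_s he h89 h17 (fun _ _ _ _ _ h90 H76 => ?_) H75
  refine addcK_s he h90 (v' := (23041/8000:ℝ)) (by norm_num [SS, BB, abs_le]) (fun _ _ _ _ _ h91 H77 => ?_) H76
  refine mulK_s he h91 h17 (fun _ _ _ _ _ h92 H78 => ?_) H77
  refine addcK_s he h92 (v' := (13983/64000:ℝ)) (by norm_num [SS, BB, abs_le]) (fun _ _ _ _ _ h93 H79 => ?_) H78
  refine mulK_s he h93 h17 (fun _ _ _ _ _ h94 H80 => ?_) H79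
  refine addcK_s he h94 (v' := (-56659/64000:ℝ)) (by norm_num [SS, BB, abs_le]) (fun _ _ _ _ _ h95 H81 => ?_) H80
  refine mulK_s he h95 h17 (fun _ _ _ _ _ h96 H82 => ?_) H81
  refine addcK_s he h96 (v' := (90909/256000:ℝ)) (by norm_num [SS, BB, abs_le]) (fun _ _ _ _ _ h97 H83 => ?_) H82
  refine smulK_s he (w := (6909/250:ℝ)) (by norm_num) (by norm_num) (by norm_num) (by norm_num) h17 (fun _ _ _ _ _ h98 H84 => ?_) H83
  refine negK_s he h98 (fun _ _ _ _ _ h99 H85 => ?_) H84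
  have h100 := In_cast h99 (neg_mul_c (c := (-6909/250:ℝ)) (by norm_num))
  refine addcK_s he h100 (v' := (50169/800:ℝ)) (by norm_num [SS, BB, abs_le]) (fun _ _ _ _ _ h101 H86 => ?_) H85
  refine mulK_s he h101 h17 (fun _ _ _ _ _ h102 H87 => ?_) H86
  refine addcK_s he h102 (v' := (-14993/400:ℝ)) (by norm_num [SS, BB, abs_le]) (fun _ _ _ _ _ h103 H88 => ?_) H87
  refine mulK_s he h103 h17 (fun _ _ _ _ _ h104 H89 => ?_) H88
  refine addcK_s he h104 (v' := (-721/1600:ℝ)) (by norm_num [SS, BB, abs_le]) (fun _ _ _ _ _ h105 H90 => ?_) H89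
  refine mulK_s he h105 h17 (fun _ _ _ _ _ h106 H91 => ?_) H90
  refine addcK_s he h106 (v' := (23041/8000:ℝ)) (by norm_num [SS, BB, abs_le]) (fun _ _ _ _ _ h107 H92 => ?_) H91
  refine mulK_s he h107 h17 (fun _ _ _ _ _ h108 H93 => ?_) H92
  refine addcK_s he h108 (v' := (4661/64000:ℝ)) (by norm_num [SS, BB, abs_le]) (fun _ _ _ _ _ h109 H94 => ?_) H93
  refine addcK_s he h100 (v' := (150507/4000:ℝ)) (by norm_num [SS, BB, abs_le]) (fun _ _ _ _ _ h110 H95 => ?_) H94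
  refine mulK_s he h110 h17 (fun _ _ _ _ _ h111 H96 => ?_) H95
  refine addcK_s he h111 (v' := (-44979/4000:ℝ)) (by norm_num [SS, BB, abs_le]) (fun _ _ _ _ _ h112 H97 => ?_) H96
  refine mulK_s he h112 h17 (fun _ _ _ _ _ h113 H98 => ?_) H97
  refine addcK_s he h113 (v' := (-721/16000:ℝ)) (by norm_num [SS, BB, abs_le]) (fun _ _ _ _ _ h114 H99 => ?_) H98
  refine addcK_s he h84 (v' := (7167/4000:ℝ)) (by norm_num [SS, BB, abs_le]) (fun _ _ _ _ _ h115 H100 => ?_) H99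
  refine mulK_s he h56 h115 (fun _ _ _ _ _ h116 H101 => ?_) H100
  refine addK_s he h114 h116 (fun _ _ _ _ _ h117 H102 => ?_) H101
  refine mulK_s he h56 h117 (fun _ _ _ _ _ h118 H103 => ?_) H102
  refine addK_s he h109 h118 (fun _ _ _ _ _ h119 H104 => ?_) H103
  refine mulK_s he h56 h119 (fun _ _ _ _ _ h120 H105 => ?_) H104
  refine addK_s he h97 h120 (fun _ _ _ _ _ h121 H106 => ?_) H105
  have h122 := In_cast (w := (uO a f s p q)) h121 rfl
  refine mulK_s he hx2 h122 (fun _ _ _ _ _ h123 H107 => ?_) H106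
  refine smulK_s he (w := (2:ℝ)) (by norm_num) (by norm_num) (by norm_num) (by norm_num) h123 (fun _ _ _ _ _ h124 H108 => ?_) H107
  refine subK_s he h81 h124 (fun _ _ _ _ _ h125 H109 => ?_) H108
  have h126 := In_cast (w := (u0 a f s p q)) h125 rfl
  refine mulK_s he h13 h126 (fun _ _ _ _ _ h127 H110 => ?_) H109
  refine negK_s he h7 (fun _ _ _ _ _ h128 H111 => ?_) H110
  refine addcK_s he h128 (v' := (1:ℝ)) (by norm_num [SS, BB, abs_le]) (fun _ _ _ _ _ h129 H112 => ?_) H111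
  have h130 := In_cast h129 (neg_add_eq_sub _ _)
  refine smulK_s he (w := (39/200:ℝ)) (by norm_num) (by norm_num) (by norm_num) (by norm_num) h10 (fun _ _ _ _ _ h131 H113 => ?_) H112
  refine subK_s he h130 h131 (fun _ _ _ _ _ h132 H114 => ?_) H113
  have h133 := In_cast (w := (K1Ap a f s p q)) h132 rfl
  refine addK_s he h81 h124 (fun _ _ _ _ _ h134 H115 => ?_) H114
  have h135 := In_cast (w := (u1 a f s p q)) h134 rfl
  refine mulK_s he h133 h135 (fun _ _ _ _ _ h136 H116 => ?_) H115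
  refine addK_s he h127 h136 (fun _ _ _ _ _ h137 H117 => ?_) H116
  refine mulK_s he hx2 h4 (fun _ _ _ _ _ h138 H118 => ?_) H117
  refine smulK_s he (w := (2:ℝ)) (by norm_num) (by norm_num) (by norm_num) (by norm_num) h138 (fun _ _ _ _ _ h139 H119 => ?_) H118
  refine addK_s he h137 h139 (fun _ _ _ _ _ h140 H120 => ?_) H119
  refine smulK_s he (w := (2:ℝ)) (by norm_num) (by norm_num) (by norm_num) (by norm_num) h34 (fun _ _ _ _ _ h141 H121 => ?_) H120
  refine subK_s he h140 h141 (fun _ _ _ _ _ h142 H122 => ?_) H121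
  have h143 := In_cast (w := (PdA a f s p q)) h142 rfl
  refine posK_s he h143 (fun p1 H123 => ?_) H122
  refine smulK_s he (w := (9/20:ℝ)) (by norm_num) (by norm_num) (by norm_num) (by norm_num) hp2 (fun _ _ _ _ _ h144 H124 => ?_) H123
  refine addcK_s he h144 (v' := (11/20:ℝ)) (by norm_num [SS, BB, abs_le]) (fun _ _ _ _ _ h145 H125 => ?_) H124
  have h146 := In_cast h145 (add_comm _ _)
  have h147 := In_cast (w := (tdq a f s p q)) h146 rfl
  refine smulK_s he (w := (21/50:ℝ)) (by norm_num) (by norm_num) (by norm_num) (by norm_num) h147 (fun _ _ _ _ _ h148 H126 => ?_) H125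
  refine negK_s he h148 (fun _ _ _ _ _ h149 H127 => ?_) H126
  refine addcK_s he h149 (v' := (3/5:ℝ)) (by norm_num [SS, BB, abs_le]) (fun _ _ _ _ _ h150 H128 => ?_) H127
  have h151 := In_cast h150 (neg_add_eq_sub _ _)
  refine mulK_s he h147 h151 (fun _ _ _ _ _ h152 H129 => ?_) H128
  refine addcK_s he h152 (v' := (-1/20:ℝ)) (by norm_num [SS, BB, abs_le]) (fun _ _ _ _ _ h153 H130 => ?_) H129
  have h154 := In_cast h153 (add_comm _ _)
  refine sqK_s he h147 (fun _ _ _ _ _ h155 H131 => ?_) H130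
  refine addcK_s he h155 (v' := (1:ℝ)) (by norm_num [SS, BB, abs_le]) (fun _ _ _ _ _ h156 H132 => ?_) H131
  have h157 := In_cast h156 (add_comm _ _)
  refine invK_s he h157 (fun _ _ _ _ _ h158 H133 => ?_) H132
  have h159 := In_cast h158 (inv_eq_one_div _)
  have h160 := In_cast (w := (Dq a f s p q)) h159 rfl
  refine mulK_s he h154 h160 (fun _ _ _ _ _ h161 H134 => ?_) H133
  refine mulK_s he hx3 h161 (fun _ _ _ _ _ h162 H135 => ?_) H134
  refine addcK_s he h162 (v' := (1:ℝ)) (by norm_num [SS, BB, abs_le]) (fun _ _ _ _ _ h163 H136 => ?_) H135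
  have h164 := In_cast h163 (add_comm _ _)
  have h165 := In_cast (w := (K0Dq a f s p q)) h164 rfl
  refine addcK_s he h20 (v' := (2403/500:ℝ)) (by norm_num [SS, BB, abs_le]) (fun _ _ _ _ _ h166 H137 => ?_) H136
  refine mulK_s he h166 h17 (fun _ _ _ _ _ h167 H138 => ?_) H137
  refine addcK_s he h167 (v' := (-34811/4000:ℝ)) (by norm_num [SS, BB, abs_le]) (fun _ _ _ _ _ h168 H139 => ?_) H138
  refine mulK_s he h168 h17 (fun _ _ _ _ _ h169 H140 => ?_) H139
  refine addcK_s he h169 (v' := (13899/2000:ℝ)) (by norm_num [SS, BB, abs_le]) (fun _ _ _ _ _ h170 H141 => ?_) H140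
  refine mulK_s he h170 h17 (fun _ _ _ _ _ h171 H142 => ?_) H141
  refine addcK_s he h171 (v' := (-1521/640:ℝ)) (by norm_num [SS, BB, abs_le]) (fun _ _ _ _ _ h172 H143 => ?_) H142
  refine mulK_s he h172 h17 (fun _ _ _ _ _ h173 H144 => ?_) H143
  refine addcK_s he h173 (v' := (1597/1600:ℝ)) (by norm_num [SS, BB, abs_le]) (fun _ _ _ _ _ h174 H145 => ?_) H144
  refine mulK_s he h174 h17 (fun _ _ _ _ _ h175 H146 => ?_) H145
  refine addcK_s he h175 (v' := (-116129/64000:ℝ)) (by norm_num [SS, BB, abs_le]) (fun _ _ _ _ _ h176 H147 => ?_) H146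
  refine mulK_s he h176 h17 (fun _ _ _ _ _ h177 H148 => ?_) H147
  refine addcK_s he h177 (v' := (9741/6400:ℝ)) (by norm_num [SS, BB, abs_le]) (fun _ _ _ _ _ h178 H149 => ?_) H148
  have h179 := In_cast (w := (ch a f s p q)) h178 rfl
  refine addcK_s he h41 (v' := (1449/32:ℝ)) (by norm_num [SS, BB, abs_le]) (fun _ _ _ _ _ h180 H150 => ?_) H149
  refine mulK_s he h180 h17 (fun _ _ _ _ _ h181 H151 => ?_) H150
  refine addcK_s he h181 (v' := (-75597/1600:ℝ)) (by norm_num [SS, BB, abs_le]) (fun _ _ _ _ _ h182 H152 => ?_) H151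
  refine mulK_s he h182 h17 (fun _ _ _ _ _ h183 H153 => ?_) H152
  refine addcK_s he h183 (v' := (4157/320:ℝ)) (by norm_num [SS, BB, abs_le]) (fun _ _ _ _ _ h184 H154 => ?_) H153
  refine mulK_s he h184 h17 (fun _ _ _ _ _ h185 H155 => ?_) H154
  refine addcK_s he h185 (v' := (52713/16000:ℝ)) (by norm_num [SS, BB, abs_le]) (fun _ _ _ _ _ h186 H156 => ?_) H155
  refine mulK_s he h186 h17 (fun _ _ _ _ _ h187 H157 => ?_) H156
  refine addcK_s he h187 (v' := (-3651/12800:ℝ)) (by norm_num [SS, BB, abs_le]) (fun _ _ _ _ _ h188 H158 => ?_) H157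
  refine mulK_s he h188 h17 (fun _ _ _ _ _ h189 H159 => ?_) H158
  refine addcK_s he h189 (v' := (-84189/128000:ℝ)) (by norm_num [SS, BB, abs_le]) (fun _ _ _ _ _ h190 H160 => ?_) H159
  refine addcK_s he h59 (v' := (2415/32:ℝ)) (by norm_num [SS, BB, abs_le]) (fun _ _ _ _ _ h191 H161 => ?_) H160
  refine mulK_s he h191 h17 (fun _ _ _ _ _ h192 H162 => ?_) H161
  refine addcK_s he h192 (v' := (-75597/1600:ℝ)) (by norm_num [SS, BB, abs_le]) (fun _ _ _ _ _ h193 H163 => ?_) H162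
  refine mulK_s he h193 h17 (fun _ _ _ _ _ h194 H164 => ?_) H163
  refine addcK_s he h194 (v' := (4157/640:ℝ)) (by norm_num [SS, BB, abs_le]) (fun _ _ _ _ _ h195 H165 => ?_) H164
  refine mulK_s he h195 h17 (fun _ _ _ _ _ h196 H166 => ?_) H165
  refine addcK_s he h196 (v' := (17571/32000:ℝ)) (by norm_num [SS, BB, abs_le]) (fun _ _ _ _ _ h197 H167 => ?_) H166
  refine addcK_s he h41 (v' := (483/32:ℝ)) (by norm_num [SS, BB, abs_le]) (fun _ _ _ _ _ h198 H168 => ?_) H167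
  refine mulK_s he h198 h17 (fun _ _ _ _ _ h199 H169 => ?_) H168
  refine addcK_s he h199 (v' := (-25199/8000:ℝ)) (by norm_num [SS, BB, abs_le]) (fun _ _ _ _ _ h200 H170 => ?_) H169
  refine addK_s he h200 h72 (fun _ _ _ _ _ h201 H171 => ?_) H170
  refine mulK_s he h56 h201 (fun _ _ _ _ _ h202 H172 => ?_) H171
  refine addK_s he h197 h202 (fun _ _ _ _ _ h203 H173 => ?_) H172
  refine mulK_s he h56 h203 (fun _ _ _ _ _ h204 H174 => ?_) H173
  refine addK_s he h190 h204 (fun _ _ _ _ _ h205 H175 => ?_) H174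
  have h206 := In_cast (w := (cE a f s p q)) h205 rfl
  refine mulK_s he h38 h206 (fun _ _ _ _ _ h207 H176 => ?_) H175
  refine addK_s he h179 h207 (fun _ _ _ _ _ h208 H177 => ?_) H176
  have h209 := In_cast (w := (cm a f s p q)) h208 rfl
  refine addcK_s he h84 (v' := (483/32:ℝ)) (by norm_num [SS, BB, abs_le]) (fun _ _ _ _ _ h210 H178 => ?_) H177
  refine mulK_s he h210 h17 (fun _ _ _ _ _ h211 H179 => ?_) H178
  refine addcK_s he h211 (v' := (-75597/4000:ℝ)) (by norm_num [SS, BB, abs_le]) (fun _ _ _ _ _ h212 H180 => ?_) H179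
  refine mulK_s he h212 h17 (fun _ _ _ _ _ h213 H181 => ?_) H180
  refine addcK_s he h213 (v' := (4157/640:ℝ)) (by norm_num [SS, BB, abs_le]) (fun _ _ _ _ _ h214 H182 => ?_) H181
  refine mulK_s he h214 h17 (fun _ _ _ _ _ h215 H183 => ?_) H182
  refine addcK_s he h215 (v' := (17571/8000:ℝ)) (by norm_num [SS, BB, abs_le]) (fun _ _ _ _ _ h216 H184 => ?_) H183
  refine mulK_s he h216 h17 (fun _ _ _ _ _ h217 H185 => ?_) H184
  refine addcK_s he h217 (v' := (-3651/12800:ℝ)) (by norm_num [SS, BB, abs_le]) (fun _ _ _ _ _ h218 H186 => ?_) H185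
  refine mulK_s he h218 h17 (fun _ _ _ _ _ h219 H187 => ?_) H186
  refine addcK_s he h219 (v' := (-84189/64000:ℝ)) (by norm_num [SS, BB, abs_le]) (fun _ _ _ _ _ h220 H188 => ?_) H187
  refine mulK_s he h220 h17 (fun _ _ _ _ _ h221 H189 => ?_) H188
  refine addcK_s he h221 (v' := (78691/256000:ℝ)) (by norm_num [SS, BB, abs_le]) (fun _ _ _ _ _ h222 H190 => ?_) H189
  refine addcK_s he h100 (v' := (2415/32:ℝ)) (by norm_num [SS, BB, abs_le]) (fun _ _ _ _ _ h223 H191 => ?_) H190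
  refine mulK_s he h223 h17 (fun _ _ _ _ _ h224 H192 => ?_) H191
  refine addcK_s he h224 (v' := (-25199/400:ℝ)) (by norm_num [SS, BB, abs_le]) (fun _ _ _ _ _ h225 H193 => ?_) H192
  refine mulK_s he h225 h17 (fun _ _ _ _ _ h226 H194 => ?_) H193
  refine addcK_s he h226 (v' := (4157/320:ℝ)) (by norm_num [SS, BB, abs_le]) (fun _ _ _ _ _ h227 H195 => ?_) H194
  refine mulK_s he h227 h17 (fun _ _ _ _ _ h228 H196 => ?_) H195
  refine addcK_s he h228 (v' := (17571/8000:ℝ)) (by norm_num [SS, BB, abs_le]) (fun _ _ _ _ _ h229 H197 => ?_) H196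
  refine mulK_s he h229 h17 (fun _ _ _ _ _ h230 H198 => ?_) H197
  refine addcK_s he h230 (v' := (-1217/12800:ℝ)) (by norm_num [SS, BB, abs_le]) (fun _ _ _ _ _ h231 H199 => ?_) H198
  refine addcK_s he h100 (v' := (1449/32:ℝ)) (by norm_num [SS, BB, abs_le]) (fun _ _ _ _ _ h232 H200 => ?_) H199
  refine mulK_s he h232 h17 (fun _ _ _ _ _ h233 H201 => ?_) H200
  refine addcK_s he h233 (v' := (-75597/4000:ℝ)) (by norm_num [SS, BB, abs_le]) (fun _ _ _ _ _ h234 H202 => ?_) H201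
  refine mulK_s he h234 h17 (fun _ _ _ _ _ h235 H203 => ?_) H202
  refine addcK_s he h235 (v' := (4157/3200:ℝ)) (by norm_num [SS, BB, abs_le]) (fun _ _ _ _ _ h236 H204 => ?_) H203
  refine addcK_s he h84 (v' := (69/32:ℝ)) (by norm_num [SS, BB, abs_le]) (fun _ _ _ _ _ h237 H205 => ?_) H204
  refine mulK_s he h56 h237 (fun _ _ _ _ _ h238 H206 => ?_) H205
  refine addK_s he h236 h238 (fun _ _ _ _ _ h239 H207 => ?_) H206
  refine mulK_s he h56 h239 (fun _ _ _ _ _ h240 H208 => ?_) H207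
  refine addK_s he h231 h240 (fun _ _ _ _ _ h241 H209 => ?_) H208
  refine mulK_s he h56 h241 (fun _ _ _ _ _ h242 H210 => ?_) H209
  refine addK_s he h222 h242 (fun _ _ _ _ _ h243 H211 => ?_) H210
  have h244 := In_cast (w := (cO a f s p q)) h243 rfl
  refine mulK_s he hx2 h244 (fun _ _ _ _ _ h245 H212 => ?_) H211
  refine smulK_s he (w := (2:ℝ)) (by norm_num) (by norm_num) (by norm_num) (by norm_num) h245 (fun _ _ _ _ _ h246 H213 => ?_) H212
  refine addK_s he h209 h246 (fun _ _ _ _ _ h247 H214 => ?_) H213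
  have h248 := In_cast (w := (c1 a f s p q)) h247 rfl
  refine mulK_s he h165 h248 (fun _ _ _ _ _ h249 H215 => ?_) H214
  refine negK_s he h147 (fun _ _ _ _ _ h250 H216 => ?_) H215
  refine addcK_s he h250 (v' := (1:ℝ)) (by norm_num [SS, BB, abs_le]) (fun _ _ _ _ _ h251 H217 => ?_) H216
  have h252 := In_cast h251 (neg_add_eq_sub _ _)
  refine mulK_s he h252 h160 (fun _ _ _ _ _ h253 H218 => ?_) H217
  refine addcK_s he h147 (v' := (1:ℝ)) (by norm_num [SS, BB, abs_le]) (fun _ _ _ _ _ h254 H219 => ?_) H218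
  have h255 := In_cast h254 (add_comm _ _)
  refine smulK_s he (w := (93/100:ℝ)) (by norm_num) (by norm_num) (by norm_num) (by norm_num) h147 (fun _ _ _ _ _ h256 H220 => ?_) H219
  refine addcK_s he h256 (v' := (-17/100:ℝ)) (by norm_num [SS, BB, abs_le]) (fun _ _ _ _ _ h257 H221 => ?_) H220
  have h258 := In_cast h257 (sub_c (c := (17/100:ℝ)) (by norm_num))
  refine smulK_s he (w := (3/25:ℝ)) (by norm_num) (by norm_num) (by norm_num) (by norm_num) h147 (fun _ _ _ _ _ h259 H222 => ?_) H221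
  refine addcK_s he h259 (v' := (1/10:ℝ)) (by norm_num [SS, BB, abs_le]) (fun _ _ _ _ _ h260 H223 => ?_) H222
  have h261 := In_cast h260 (add_comm _ _)
  refine mulK_s he hx3 h261 (fun _ _ _ _ _ h262 H224 => ?_) H223
  refine addK_s he h258 h262 (fun _ _ _ _ _ h263 H225 => ?_) H224
  refine mulK_s he hx3 h263 (fun _ _ _ _ _ h264 H226 => ?_) H225
  refine subK_s he h255 h264 (fun _ _ _ _ _ h265 H227 => ?_) H226
  have h266 := In_cast (w := (BDq a f s p q)) h265 rfl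
  refine mulK_s he h253 h266 (fun _ _ _ _ _ h267 H228 => ?_) H227
  have h268 := In_cast (w := (K1Dq a f s p q)) h267 rfl
  refine subK_s he h209 h246 (fun _ _ _ _ _ h269 H229 => ?_) H228
  have h270 := In_cast (w := (c0 a f s p q)) h269 rfl
  refine mulK_s he h268 h270 (fun _ _ _ _ _ h271 H230 => ?_) H229
  refine addK_s he h249 h271 (fun _ _ _ _ _ h272 H231 => ?_) H230
  refine smulK_s he (w := (2:ℝ)) (by norm_num) (by norm_num) (by norm_num) (by norm_num) h147 (fun _ _ _ _ _ h273 H232 => ?_) H231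
  refine smulK_s he (w := (1/250:ℝ)) (by norm_num) (by norm_num) (by norm_num) (by norm_num) h252 (fun _ _ _ _ _ h274 H233 => ?_) H232
  refine subK_s he h273 h274 (fun _ _ _ _ _ h275 H234 => ?_) H233
  refine mulK_s he h275 h160 (fun _ _ _ _ _ h276 H235 => ?_) H234
  have h277 := In_cast (w := (lDq a f s p q)) h276 rfl
  refine mulK_s he hx2 h277 (fun _ _ _ _ _ h278 H236 => ?_) H235
  refine smulK_s he (w := (2:ℝ)) (by norm_num) (by norm_num) (by norm_num) (by norm_num) h278 (fun _ _ _ _ _ h279 H237 => ?_) H236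
  refine addK_s he h272 h279 (fun _ _ _ _ _ h280 H238 => ?_) H237
  refine smulK_s he (w := (2:ℝ)) (by norm_num) (by norm_num) (by norm_num) (by norm_num) h179 (fun _ _ _ _ _ h281 H239 => ?_) H238
  refine subK_s he h280 h281 (fun _ _ _ _ _ h282 H240 => ?_) H239
  have h283 := In_cast (w := (QdD a f s p q)) h282 rfl
  refine posK_s he h283 (fun p2 H241 => ?_) H240
  refine mulK_s he h143 h283 (fun _ _ _ _ _ h284 H242 => ?_) H241
  refine mulK_s he h13 h268 (fun _ _ _ _ _ h285 H243 => ?_) H242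
  refine sqrtK_s he h285 (fun _ _ _ _ _ h286 H244 => ?_) H243
  refine smulK_s he (w := (238/125:ℝ)) (by norm_num) (by norm_num) (by norm_num) (by norm_num) h17 (fun _ _ _ _ _ h287 H245 => ?_) H244
  refine addcK_s he h287 (v' := (-238/25:ℝ)) (by norm_num [SS, BB, abs_le]) (fun _ _ _ _ _ h288 H246 => ?_) H245
  refine mulK_s he h288 h17 (fun _ _ _ _ _ h289 H247 => ?_) H246
  refine addcK_s he h289 (v' := (2264/125:ℝ)) (by norm_num [SS, BB, abs_le]) (fun _ _ _ _ _ h290 H248 => ?_) H247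
  refine mulK_s he h290 h17 (fun _ _ _ _ _ h291 H249 => ?_) H248
  refine addcK_s he h291 (v' := (-407/25:ℝ)) (by norm_num [SS, BB, abs_le]) (fun _ _ _ _ _ h292 H250 => ?_) H249
  refine mulK_s he h292 h17 (fun _ _ _ _ _ h293 H251 => ?_) H250
  refine addcK_s he h293 (v' := (7321/1000:ℝ)) (by norm_num [SS, BB, abs_le]) (fun _ _ _ _ _ h294 H252 => ?_) H251
  refine mulK_s he h294 h17 (fun _ _ _ _ _ h295 H253 => ?_) H252
  refine addcK_s he h295 (v' := (-2361/1000:ℝ)) (by norm_num [SS, BB, abs_le]) (fun _ _ _ _ _ h296 H254 => ?_) H253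
  refine mulK_s he h296 h17 (fun _ _ _ _ _ h297 H255 => ?_) H254
  refine addcK_s he h297 (v' := (927/1000:ℝ)) (by norm_num [SS, BB, abs_le]) (fun _ _ _ _ _ h298 H256 => ?_) H255
  have h299 := In_cast (w := (vh a f s p q)) h298 rfl
  refine smulK_s he (w := (1666/125:ℝ)) (by norm_num) (by norm_num) (by norm_num) (by norm_num) h17 (fun _ _ _ _ _ h300 H257 => ?_) H256
  refine addcK_s he h300 (v' := (-4998/125:ℝ)) (by norm_num [SS, BB, abs_le]) (fun _ _ _ _ _ h301 H258 => ?_) H257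
  refine mulK_s he h301 h17 (fun _ _ _ _ _ h302 H259 => ?_) H258
  refine addcK_s he h302 (v' := (6801/200:ℝ)) (by norm_num [SS, BB, abs_le]) (fun _ _ _ _ _ h303 H260 => ?_) H259
  refine mulK_s he h303 h17 (fun _ _ _ _ _ h304 H261 => ?_) H260
  refine addcK_s he h304 (v' := (-137/100:ℝ)) (by norm_num [SS, BB, abs_le]) (fun _ _ _ _ _ h305 H262 => ?_) H261
  refine mulK_s he h305 h17 (fun _ _ _ _ _ h306 H263 => ?_) H262
  refine addcK_s he h306 (v' := (-13293/2000:ℝ)) (by norm_num [SS, BB, abs_le]) (fun _ _ _ _ _ h307 H264 => ?_) H263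
  refine mulK_s he h307 h17 (fun _ _ _ _ _ h308 H265 => ?_) H264
  refine addcK_s he h308 (v' := (267/400:ℝ)) (by norm_num [SS, BB, abs_le]) (fun _ _ _ _ _ h309 H266 => ?_) H265
  refine mulK_s he h309 h17 (fun _ _ _ _ _ h310 H267 => ?_) H266
  refine addcK_s he h310 (v' := (317/3200:ℝ)) (by norm_num [SS, BB, abs_le]) (fun _ _ _ _ _ h311 H268 => ?_) H267
  refine smulK_s he (w := (833/25:ℝ)) (by norm_num) (by norm_num) (by norm_num) (by norm_num) h17 (fun _ _ _ _ _ h312 H269 => ?_) H268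
  refine addcK_s he h312 (v' := (-1666/25:ℝ)) (by norm_num [SS, BB, abs_le]) (fun _ _ _ _ _ h313 H270 => ?_) H269
  refine mulK_s he h313 h17 (fun _ _ _ _ _ h314 H271 => ?_) H270
  refine addcK_s he h314 (v' := (6801/200:ℝ)) (by norm_num [SS, BB, abs_le]) (fun _ _ _ _ _ h315 H272 => ?_) H271
  refine mulK_s he h315 h17 (fun _ _ _ _ _ h316 H273 => ?_) H272
  refine addcK_s he h316 (v' := (-137/200:ℝ)) (by norm_num [SS, BB, abs_le]) (fun _ _ _ _ _ h317 H274 => ?_) H273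
  refine mulK_s he h317 h17 (fun _ _ _ _ _ h318 H275 => ?_) H274
  refine addcK_s he h318 (v' := (-4431/4000:ℝ)) (by norm_num [SS, BB, abs_le]) (fun _ _ _ _ _ h319 H276 => ?_) H275
  refine addcK_s he h300 (v' := (-1666/125:ℝ)) (by norm_num [SS, BB, abs_le]) (fun _ _ _ _ _ h320 H277 => ?_) H276
  refine mulK_s he h320 h17 (fun _ _ _ _ _ h321 H278 => ?_) H277
  refine addcK_s he h321 (v' := (2267/1000:ℝ)) (by norm_num [SS, BB, abs_le]) (fun _ _ _ _ _ h322 H279 => ?_) H278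
  refine smulK_s he (w := (119/250:ℝ)) (by norm_num) (by norm_num) (by norm_num) (by norm_num) h56 (fun _ _ _ _ _ h323 H280 => ?_) H279
  refine addK_s he h322 h323 (fun _ _ _ _ _ h324 H281 => ?_) H280
  refine mulK_s he h56 h324 (fun _ _ _ _ _ h325 H282 => ?_) H281
  refine addK_s he h319 h325 (fun _ _ _ _ _ h326 H283 => ?_) H282
  refine mulK_s he h56 h326 (fun _ _ _ _ _ h327 H284 => ?_) H283
  refine addK_s he h311 h327 (fun _ _ _ _ _ h328 H285 => ?_) H284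
  have h329 := In_cast (w := (vE a f s p q)) h328 rfl
  refine mulK_s he h35 h329 (fun _ _ _ _ _ h330 H286 => ?_) H285
  refine smulK_s he (w := (4:ℝ)) (by norm_num) (by norm_num) (by norm_num) (by norm_num) h330 (fun _ _ _ _ _ h331 H287 => ?_) H286
  refine addK_s he h299 h331 (fun _ _ _ _ _ h332 H288 => ?_) H287
  have h333 := In_cast (w := (vm a f s p q)) h332 rfl
  refine smulK_s he (w := (952/125:ℝ)) (by norm_num) (by norm_num) (by norm_num) (by norm_num) h17 (fun _ _ _ _ _ h334 H289 => ?_) H288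
  refine addcK_s he h334 (v' := (-3808/125:ℝ)) (by norm_num [SS, BB, abs_le]) (fun _ _ _ _ _ h335 H290 => ?_) H289
  refine mulK_s he h335 h17 (fun _ _ _ _ _ h336 H291 => ?_) H290
  refine addcK_s he h336 (v' := (10609/250:ℝ)) (by norm_num [SS, BB, abs_le]) (fun _ _ _ _ _ h337 H292 => ?_) H291
  refine mulK_s he h337 h17 (fun _ _ _ _ _ h338 H293 => ?_) H292
  refine addcK_s he h338 (v' := (-5647/250:ℝ)) (by norm_num [SS, BB, abs_le]) (fun _ _ _ _ _ h339 H294 => ?_) H293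
  refine mulK_s he h339 h17 (fun _ _ _ _ _ h340 H295 => ?_) H294
  refine addcK_s he h340 (v' := (304/125:ℝ)) (by norm_num [SS, BB, abs_le]) (fun _ _ _ _ _ h341 H296 => ?_) H295
  refine mulK_s he h341 h17 (fun _ _ _ _ _ h342 H297 => ?_) H296
  refine addcK_s he h342 (v' := (119/1000:ℝ)) (by norm_num [SS, BB, abs_le]) (fun _ _ _ _ _ h343 H298 => ?_) H297
  refine mulK_s he h343 h17 (fun _ _ _ _ _ h344 H299 => ?_) H298
  refine addcK_s he h344 (v' := (1347/4000:ℝ)) (by norm_num [SS, BB, abs_le]) (fun _ _ _ _ _ h345 H300 => ?_) H299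
  refine smulK_s he (w := (3332/125:ℝ)) (by norm_num) (by norm_num) (by norm_num) (by norm_num) h17 (fun _ _ _ _ _ h346 H301 => ?_) H300
  refine addcK_s he h346 (v' := (-1666/25:ℝ)) (by norm_num [SS, BB, abs_le]) (fun _ _ _ _ _ h347 H302 => ?_) H301
  refine mulK_s he h347 h17 (fun _ _ _ _ _ h348 H303 => ?_) H302
  refine addcK_s he h348 (v' := (2267/50:ℝ)) (by norm_num [SS, BB, abs_le]) (fun _ _ _ _ _ h349 H304 => ?_) H303
  refine mulK_s he h349 h17 (fun _ _ _ _ _ h350 H305 => ?_) H304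
  refine addcK_s he h350 (v' := (-137/100:ℝ)) (by norm_num [SS, BB, abs_le]) (fun _ _ _ _ _ h351 H306 => ?_) H305
  refine mulK_s he h351 h17 (fun _ _ _ _ _ h352 H307 => ?_) H306
  refine addcK_s he h352 (v' := (-4431/1000:ℝ)) (by norm_num [SS, BB, abs_le]) (fun _ _ _ _ _ h353 H308 => ?_) H307
  refine mulK_s he h353 h17 (fun _ _ _ _ _ h354 H309 => ?_) H308
  refine addcK_s he h354 (v' := (89/400:ℝ)) (by norm_num [SS, BB, abs_le]) (fun _ _ _ _ _ h355 H310 => ?_) H309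
  refine addcK_s he h346 (v' := (-4998/125:ℝ)) (by norm_num [SS, BB, abs_le]) (fun _ _ _ _ _ h356 H311 => ?_) H310
  refine mulK_s he h356 h17 (fun _ _ _ _ _ h357 H312 => ?_) H311
  refine addcK_s he h357 (v' := (6801/500:ℝ)) (by norm_num [SS, BB, abs_le]) (fun _ _ _ _ _ h358 H313 => ?_) H312
  refine mulK_s he h358 h17 (fun _ _ _ _ _ h359 H314 => ?_) H313
  refine addcK_s he h359 (v' := (-137/1000:ℝ)) (by norm_num [SS, BB, abs_le]) (fun _ _ _ _ _ h360 H315 => ?_) H314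
  refine smulK_s he (w := (476/125:ℝ)) (by norm_num) (by norm_num) (by norm_num) (by norm_num) h17 (fun _ _ _ _ _ h361 H316 => ?_) H315
  refine addcK_s he h361 (v' := (-238/125:ℝ)) (by norm_num [SS, BB, abs_le]) (fun _ _ _ _ _ h362 H317 => ?_) H316
  refine mulK_s he h56 h362 (fun _ _ _ _ _ h363 H318 => ?_) H317
  refine addK_s he h360 h363 (fun _ _ _ _ _ h364 H319 => ?_) H318
  refine mulK_s he h56 h364 (fun _ _ _ _ _ h365 H320 => ?_) H319
  refine addK_s he h355 h365 (fun _ _ _ _ _ h366 H321 => ?_) H320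
  refine mulK_s he h38 h366 (fun _ _ _ _ _ h367 H322 => ?_) H321
  refine addK_s he h345 h367 (fun _ _ _ _ _ h368 H323 => ?_) H322
  have h369 := In_cast (w := (vO a f s p q)) h368 rfl
  refine mulK_s he hx2 h369 (fun _ _ _ _ _ h370 H324 => ?_) H323
  refine smulK_s he (w := (2:ℝ)) (by norm_num) (by norm_num) (by norm_num) (by norm_num) h370 (fun _ _ _ _ _ h371 H325 => ?_) H324
  refine subK_s he h333 h371 (fun _ _ _ _ _ h372 H326 => ?_) H325
  have h373 := In_cast (w := (v0 a f s p q)) h372 rfl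
  refine mulK_s he h286 h373 (fun _ _ _ _ _ h374 H327 => ?_) H326
  refine mulK_s he h133 h165 (fun _ _ _ _ _ h375 H328 => ?_) H327
  refine sqrtK_s he h375 (fun _ _ _ _ _ h376 H329 => ?_) H328
  refine addK_s he h333 h371 (fun _ _ _ _ _ h377 H330 => ?_) H329
  have h378 := In_cast (w := (v1 a f s p q)) h377 rfl
  refine mulK_s he h376 h378 (fun _ _ _ _ _ h379 H331 => ?_) H330
  refine addK_s he h374 h379 (fun _ _ _ _ _ h380 H332 => ?_) H331
  refine smulK_s he (w := (2:ℝ)) (by norm_num) (by norm_num) (by norm_num) (by norm_num) h299 (fun _ _ _ _ _ h381 H333 => ?_) H332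
  refine subK_s he h380 h381 (fun _ _ _ _ _ h382 H334 => ?_) H333
  have h383 := In_cast (w := (ZdAD a f s p q)) h382 rfl
  refine mulK_s he hx1 h383 (fun _ _ _ _ _ h384 H335 => ?_) H334
  refine negK_s he h384 (fun _ _ _ _ _ h385 H336 => ?_) H335
  refine reluK_s he h385 (fun _ _ _ _ _ h386 H337 => ?_) H336
  refine sqK_s he h386 (fun _ _ _ _ _ h387 H338 => ?_) H337
  refine subK_s he h284 h387 (fun _ _ _ _ _ h388 H339 => ?_) H338
  exact ⟨p0, p1, p2, pos_s he h388 H339⟩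

attribute [irreducible] alt0 alt1 alt2 alt3 alt4 alt5 alt6

noncomputable def leaf (j u z1 w1 z2 w2 z3 w3 : ℕ) : Bool :=
  fB (Nat.add (Nat.land (Nat.shiftRight u 0) 65535) 1) fun n1 =>
  fB (Nat.add (Nat.mul n1 16777216) 1152921504606846977) fun p1 =>
  fB (Nat.add (Nat.land (Nat.shiftRight u 16) 65535) 1) fun n2 =>
  fB (Nat.add (Nat.mul n2 16777216) 1152921504606846977) fun p2 =>
  sB j (alt0 p1 p2 z1 w1 z2 w2 z3 w3) fun j => sB j (alt1 p1 p2 z1 w1 z2 w2 z3 w3) fun j => sB j (alt2 p1 p2 z1 w1 z2 w2 z3 w3) fun j => sB j (alt3 p1 p2 z1 w1 z2 w2 z3 w3) fun j => sB j (alt4 p1 p2 z1 w1 z2 w2 z3 w3) fun j => sB j (alt5 p1 p2 z1 w1 z2 w2 z3 w3) fun j => alt6 p1 p2 z1 w1 z2 w2 z3 w3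

theorem snd : Snd Q leaf := by
  intro j u z1 w1 z2 w2 z3 w3 e1 e2 e3 he H
  unfold leaf at H
  unfold Q
  replace H := frc H
  obtain ⟨n1, hn1, H⟩ := H
  replace H := frc H
  obtain ⟨p1, hp1, H⟩ := H
  obtain ⟨hp1, ha, hb⟩ := par (e1 := e1) (e2 := e2) (e3 := e3) hn1 hp1
  refine ⟨_, ha, hb, ?_⟩
  replace H := frc H
  obtain ⟨n2, hn2, H⟩ := H
  replace H := frc H
  obtain ⟨p2, hp2, H⟩ := H
  obtain ⟨hp2, ha, hb⟩ := par (e1 := e1) (e2 := e2) (e3 := e3) hn2 hp2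
  refine ⟨_, ha, hb, ?_⟩
  replace H := sel H
  rcases H with H | ⟨j, H⟩
  · exact Or.inl (alt0_s he hp1 hp2 (var1 z1 w1) (var2 z2 w2) (var3 z3 w3) H)
  replace H := sel H
  rcases H with H | ⟨j, H⟩
  · exact Or.inr (Or.inl (alt1_s he hp1 hp2 (var1 z1 w1) (var2 z2 w2) (var3 z3 w3) H))
  replace H := sel H
  rcases H with H | ⟨j, H⟩
  · exact Or.inr (Or.inr (Or.inl (alt2_s he hp1 hp2 (var1 z1 w1) (var2 z2 w2) (var3 z3 w3) H)))
  replace H := sel H
  rcases H with H | ⟨j, H⟩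
  · exact Or.inr (Or.inr (Or.inr (Or.inl (alt3_s he hp1 hp2 (var1 z1 w1) (var2 z2 w2) (var3 z3 w3) H))))
  replace H := sel H
  rcases H with H | ⟨j, H⟩
  · exact Or.inr (Or.inr (Or.inr (Or.inr (Or.inl (alt4_s he hp1 hp2 (var1 z1 w1) (var2 z2 w2) (var3 z3 w3) H)))))
  replace H := sel H
  rcases H with H | ⟨j, H⟩
  · exact Or.inr (Or.inr (Or.inr (Or.inr (Or.inr (Or.inl (alt5_s he hp1 hp2 (var1 z1 w1) (var2 z2 w2) (var3 z3 w3) H))))))
  exact Or.inr (Or.inr (Or.inr (Or.inr (Or.inr (Or.inr (alt6_s he hp1 hp2 (var1 z1 w1) (var2 z2 w2) (var3 z3 w3) H))))))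

end Crest.Agent.R307.HL2K
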