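import Crest.Agent.R307.UDc
set_option autoImplicit false
set_option maxRecDepth 100000
namespace Crest.Agent.R307.UDc
open Crest.Agent.R307.IA Crest.Agent.R307.IA3

theorem k3 : Cov Q 1152921504606846976 1152921573326323899 1152921585118589241 1152921665630328145 1152921504606846976 1152922219289408203 :=
  cov_of snd 0 0 17 _ _ _ _ _ _ 0x33033013303301233032331203303301330330123303301330330120133033013313310233133120331331033133102330330233033022012330331033133101330331033033101233133033021331330330212033033003303310133300330331012331330330213323303302120223330033310133133133110233233033021333023303302120331331331103313313311023303301330330123313310331331022023313323321033033233210233133103330133102330330133103303301332022033032330332033310203303310330330330102330330233033301220330330330203303303312023303033133102330330133302033033013313303301203313300330330422330330422133133033013431204412202022020222 (by decide +kernel)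

theorem k4 : Cov Q 1152921504606846976 1152921573326323899 1152921585118589241 1152921665630328145 1152922219289408203 1152922933971964171 :=
  cov_of snd 0 0 10 _ _ _ _ _ _ 0x4441244044040214414414411244412444121044044041244412044044124441201430440133033012441333012044044013303303300124413303302201222 (by decide +kernel)

theorem k5 : Cov Q 1152921504606846976 1152921573326323899 1152921504606846976 1152921665630328145 1152922933971964171 1152924363337079194 :=
  cov_of snd 0 0 8 _ _ _ _ _ _ 0x4440244144144112244401444401014404402442444014440120121 (by decide +kernel)

end Crest.Agent.R307.UDc
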