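import Crest.Agent.R307.UDc
set_option autoImplicit false
set_option maxRecDepth 100000
namespace Crest.Agent.R307.UDc
open Crest.Agent.R307.IA Crest.Agent.R307.IA3

theorem k6 : Cov Q 1152921573326323899 1152921642045800643 1152921504606846976 1152921665630328145 1152921504606846976 1152922933971964171 :=
  cov_of snd 0 0 11 _ _ _ _ _ _ 0x4414401440441244402124404401441441044044101244041444004401214440244044044012044402440441201440333002440333002144044103313310244044103313310210244144114440244402104403402434021444104341024440044410210212233033023303302133033103303310233033103303310210330330233033021333003330023330033300210233033023303302133033103303310233033103303310210330330233033021333003330023331033300210213323321330330233033021033033013303302330330210233233013303302333003302103303301330332033033201021233033013311330330123331033300233133133020133133032033033032012033033013312333203331013313303301020222 (by decide +kernel)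

theorem k7 : Cov Q 1152921573326323899 1152921642045800643 1152921504606846976 1152921665630328145 1152922933971964171 1152924363337079194 :=
  cov_of snd 0 0 5 _ _ _ _ _ _ 0x44144041244141442441122 (by decide +kernel)

theorem k8 : Cov Q 1152921642045800643 1152921779484754113 1152921504606846976 1152921665630328145 1152921504606846976 1152924363337079194 :=
  cov_of snd 0 0 11 _ _ _ _ _ _ 0x44044124421442440144044024440212244044104401441444020440441012444024411440414404410244044041210440440244044021441440440104414404401024404410440441021022434004401331330310233033103303300123303301332332103303303301023313313301033033033010213303233133020332331330201203303310330330023303301331331203313303302020222 (by decide +kernel)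

end Crest.Agent.R307.UDc
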