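import Crest.Agent.R307.UDc
set_option autoImplicit false
set_option maxRecDepth 100000
namespace Crest.Agent.R307.UDc
open Crest.Agent.R307.IA Crest.Agent.R307.IA3

theorem k9 : Cov Q 1152921779484754113 1152922054362661017 1152921504606846976 1152921665630328145 1152921504606846976 1152924363337079194 :=
  cov_of snd 0 0 9 _ _ _ _ _ _ 0x440440044044002440440214404144144010440440144402441102244044024404144044012044044024414404104404404102024440042442441330330120433041330202022 (by decide +kernel)

theorem k10 : Cov Q 1152921504606846976 1152921573326323899 1152921665630328145 1152921826653802752 1152921504606846976 1152921683277490725 :=
  cov_of snd 0 0 16 _ _ _ _ _ _ 0x3313313312033133133120233133133020330330330202133033013313310233133103313310213303301331033033013310233033013310330330133102120330330330203333200233032330330233320201330330133302033133302033033120233033013330203313330203303312021331330330203313313331020233133033020330330330330120213303301331331023303301331331021330330233203303312330334223332012033302330330133003330042333004213304414124414120220233033013320331330133033310333001203330233033013304233042123313423421344120441220202120202 (by decide +kernel)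

theorem k11 : Cov Q 1152921504606846976 1152921573326323899 1152921665630328145 1152921826653802752 1152921683277490725 1152921861948130991 :=
  cov_of snd 0 0 8 _ _ _ _ _ _ 0x330331033300133133110330331033310133233110233300333001333003330012331331133233212013303310333101331332331102331331233033013303301220331331331103313313311023313330123303301330330122012 (by decide +kernel)

end Crest.Agent.R307.UDc
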