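import Crest.Agent.R307.UDc
set_option autoImplicit false
set_option maxRecDepth 100000
namespace Crest.Agent.R307.UDc
open Crest.Agent.R307.IA Crest.Agent.R307.IA3

theorem k12 : Cov Q 1152921573326323899 1152921642045800643 1152921665630328145 1152921826653802752 1152921504606846976 1152921861948130991 :=
  cov_of snd 0 0 8 _ _ _ _ _ _ 0x333103303301133033103331023331033310210330323301333103330023313303201023303301331233033203303320133133133010202 (by decide +kernel)

theorem k13 : Cov Q 1152921504606846976 1152921642045800643 1152921665630328145 1152921826653802752 1152921861948130991 1152922040618770567 :=
  cov_of snd 0 0 9 _ _ _ _ _ _ 0x330323303213330033023303302103303301330330133033012023323321330330233033021033033013303301330330120213303301330330213313311033033023303302133133110233033023303300133033110330330033033001330331102133033103303300133133010330331033300133133110233300330330013330033300123303311331331120120 (by decide +kernel)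

theorem k14 : Cov Q 1152921504606846976 1152921642045800643 1152921665630328145 1152921826653802752 1152922040618770567 1152922219289408203 :=
  cov_of snd 0 0 9 _ _ _ _ _ _ 0x333103330023330033021330330133033012330330133033102103303302330330213303310333002333003330021023303302330330213313310330331023303310330331021033033023303302133300333002333003302102133033013303103303301331023303301331033033013310213303301331033033013310233033013310330330133102123303301331033033013310233033013303301233133120133033013310330330133102330330133033022331331201210 (by decide +kernel)

end Crest.Agent.R307.UDc
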