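import Crest.Agent.R307.UDc
set_option autoImplicit false
set_option maxRecDepth 100000
namespace Crest.Agent.R307.UDc
open Crest.Agent.R307.IA Crest.Agent.R307.IA3

theorem k15 : Cov Q 1152921504606846976 1152921642045800643 1152921665630328145 1152921746142066237 1152922219289408203 1152922933971964171 :=
  cov_of snd 0 0 11 _ _ _ _ _ _ 0x444024414404401224424414412204404410444001444024440204414440201244044124404401440440120440440244144044012014331033300233300333001330330120440333002340340133033012012244402440144044044002440440212441441044044014410244144004404401441021332332133033012430330233120332430133033012330413312012202 (by decide +kernel)

theorem k16 : Cov Q 1152921504606846976 1152921642045800643 1152921746142066237 1152921826653802752 1152922219289408203 1152922933971964171 :=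
  cov_of snd 0 0 12 _ _ _ _ _ _ 0x44244204424410144044014404410440124404144244012024440244412044144201441440412440414440044012044044124404404120124404414400244402144041441044244014414102440440044144102120440440144044012441441044400144144104404410120440413403401244044014440044012013330033013303310233133203303310133033003330012033133103303310233033003303300133033012012440440244402144244110440330302430330214303302441102440440144041044244014404401021330330233033021332331103303302332133133010233032330321330330103303301330310212022 (by decide +kernel)

theorem k17 : Cov Q 1152921642045800643 1152921779484754113 1152921665630328145 1152921826653802752 1152921504606846976 1152922933971964171 :=
  cov_of snd 0 0 12 _ _ _ _ _ _ 0x4404402442440104404412440414404401202441444020444024404404120214404144044012444104440014404440204441012044044124404401444104440012014441044400244041440214404144044024440210432441133041330243302102441442441104414330243302102102243310433101333003330012330330133033023303210331331330102330330133233210331330330102103303320330331013303303301033310233032331330201023313310330330023313302330330133120331330330202022 (by decide +kernel)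

end Crest.Agent.R307.UDc
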