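import Crest.Agent.R307.UDc
set_option autoImplicit false
set_option maxRecDepth 100000
namespace Crest.Agent.R307.UDc
open Crest.Agent.R307.IA Crest.Agent.R307.IA3

theorem k18 : Cov Q 1152921779484754113 1152922054362661017 1152921665630328145 1152921826653802752 1152921504606846976 1152922933971964171 :=
  cov_of snd 0 0 9 _ _ _ _ _ _ 0x44044024440214441044410244400444002104441044400244420444101441441440102024404410440244142442440143133033010204404330033020202 (by decide +kernel)

theorem k19 : Cov Q 1152921504606846976 1152922054362661017 1152921665630328145 1152921826653802752 1152922933971964171 1152924363337079194 :=
  cov_of snd 0 0 10 _ _ _ _ _ _ 0x440424401440440244210440440144044024421024414404104414404401021440440244041440412044244044020144044024421444004440024404402102244041444002440440214404402440440212441440144244012144044014404401244044021440440144144041024440044044102122440414412440421440440244212441414414401214404144044012440440144044004401224424401444024424420121200 (by decide +kernel)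

theorem k20 : Cov Q 1152922054362661017 1152922604118474752 1152921504606846976 1152921826653802752 1152921504606846976 1152924363337079194 :=
  cov_of snd 0 0 10 _ _ _ _ _ _ 0x440441044400244044021441440410441440420244044004440021044144104404410244041441440104404144244010202440441044014440044022442442044044101440441044044102201440440044024414420144144042024414404401044044044020244042441440201441424404144020202 (by decide +kernel)

end Crest.Agent.R307.UDc
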