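import Crest.Agent.R307.UDcC0
import Crest.Agent.R307.UDcC1
import Crest.Agent.R307.UDcC2
import Crest.Agent.R307.UDcC3
import Crest.Agent.R307.UDcC4
import Crest.Agent.R307.UDcC5
import Crest.Agent.R307.UDcC6
set_option autoImplicit false
set_option maxRecDepth 100000
namespace Crest.Agent.R307.UDc
open Crest.Agent.R307.IA Crest.Agent.R307.IA3

theorem cov : Cov Q 1152921504606846976 1152922604118474752 1152921504606846976 1152921826653802752 1152921504606846976 1152924363337079194 :=
  (join1 1152922054362661017 (join2 1152921665630328145 (join1 1152921779484754113 (join1 1152921642045800643 (join1 1152921573326323899 (join3 1152922933971964171 (join2 1152921585118589241 (join3 1152922219289408203 (join3 1152921861948130991 k0 k1) k2) (join3 1152922219289408203 k3 k4)) k5) (join3 1152922933971964171 k6 k7)) k8) k9) (join3 1152922933971964171 (join1 1152921779484754113 (join1 1152921642045800643 (join3 1152922219289408203 (join3 1152921861948130991 (join1 1152921573326323899 (join3 1152921683277490725 k10 k11) k12) (join3 1152922040618770567 k13 k14)) (join2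 1152921746142066237 k15 k16)) k17) k18) k19)) k20)

theorem main (w e o : ℝ) (l0 : (0:ℝ) ≤ w) (u0 : w ≤ (1:ℝ)) (l1 : (0:ℝ) ≤ e) (u1 : e ≤ (2929/10000:ℝ)) (l2 : (0:ℝ) ≤ o) (u2 : o ≤ (13/5:ℝ)) : Q w e o :=
  cov w e o (le_trans (by norm_num [val, SS, BB]) l0) (le_trans u0 (by norm_num [val, SS, BB])) (le_trans (by norm_num [val, SS, BB]) l1) (le_trans u1 (by norm_num [val, SS, BB])) (le_trans (by norm_num [val, SS, BB]) l2) (le_trans u2 (by norm_num [val, SS, BB]))

end Crest.Agent.R307.UDc
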