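import Crest.Agent.R307.UDb
import Crest.Agent.R307.UDcM

/-!
# R307/UD: the pointwise family (D) for the exact split potential, `s ≤ 14/25`, `t ∈ [11/20, 1]`
-/

set_option autoImplicit false

namespace Crest.Agent.R307

open Set

theorem ud_fin {e R be s t W U0 U1 dl Ga u1 n0 d A B C : ℝ} (eR : 0 ≤ e * R) (hs : s = 2 * (e * be))
    (hW : e * R * (Ga + 2 * (be * (R * d))) ≤ W) (hU1 : U1 = e * R * u1) (hU0 : s * U0 = e * R * (2 * n0))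
    (hdl : dl = R ^ 2 * d) (hC : C = 2 * Ga - 13 / 50 * n0)
    (hA : A = Ga + 2 * (be * (R * d)) + u1 * (1 - s * (93 / 100 + 3 / 25 * s)) + 21 / 25 * n0)
    (hB : B = 1 / 125 * (be * (R * d)) - 2 * Ga - u1 * (2 - s * (19 / 25 + 11 / 50 * s)) - 12 / 25 * n0)
    (h : 0 ≤ C + B * (1 - t) + A * (1 - t) ^ 2) :
    s * (-1 / 20 + 3 / 5 * t - 21 / 50 * t ^ 2) * U0 +
      (1 - t) * (1 + t - s * (-17 / 100 + 93 / 100 * t + s * (1 / 10 + 3 / 25 * t))) * U1 +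
      s * (2 * t - 1 / 250 * (1 - t)) * dl ≤ (1 + t ^ 2) * W := by
  have k1 := mul_le_mul_of_nonneg_left hW (show 0 ≤ 1 + t ^ 2 by positivity)
  have k2 := mul_nonneg eR h
  have k3 : s * dl = e * R * (2 * (be * (R * d))) := by rw [hs, hdl]; ring
  rw [hC, hA, hB] at k2
  rw [hU1]
  linear_combination k1 + k2 + (-1 / 20 + 3 / 5 * t - 21 / 50 * t ^ 2) * hU0 + (2 * t - 1 / 250 * (1 - t)) * k3

theorem ud_le {x c : ℝ} (c0 : 0 ≤ c) (h : x ^ 2 ≤ c ^ 2) : x ≤ c := (abs_le_of_sq_le_sq' h c0).2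

theorem ud_small {e o R : ℝ} (e0 : 0 < e) (e1 : e ≤ 2929 / 10000) (o0 : 0 ≤ o) (o1 : o ≤ 13 / 5) (R2 : R ^ 2 ≤ 1) :
    e ^ 2 * o ^ 2 ≤ 16 / 25 ∧ e ^ 2 ≤ 9 / 100 ∧ e ^ 2 * (1 - e ^ 2 * o ^ 2) ≤ 9 / 100 ∧
      0 < 1 - R ^ 2 * (e ^ 2 * (o ^ 2 + (1 - e ^ 2 * o ^ 2))) := by
  have eo : e * o ≤ 4 / 5 := by nlinarith
  have eo2 : e ^ 2 * o ^ 2 ≤ 16 / 25 := by
    have := mul_nonneg e0.le o0
    nlinarith
  have ee1 : e ^ 2 ≤ 9 / 100 := by nlinarith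
  have k : 0 ≤ e ^ 2 * (e ^ 2 * o ^ 2) := by positivity
  have k2 : 0 ≤ e ^ 2 * (o ^ 2 + (1 - e ^ 2 * o ^ 2)) := mul_nonneg (sq_nonneg _) (by linarith [sq_nonneg o])
  have := mul_le_mul_of_nonneg_right R2 k2
  refine ⟨eo2, ee1, by linarith, by linarith⟩

set_option maxHeartbeats 1000000 in
theorem ud_main {e be s t a R v r : ℝ} (e0 : 0 < e) (e1 : e ≤ 2929 / 10000) (be0 : 0 < be) (hbe : be ^ 2 = 1 - e ^ 2)
    (hs : s = 2 * (e * be)) (t0 : 11 / 20 ≤ t) (t1 : t ≤ 1) (a0 : 0 ≤ a) (R0 : 0 < R) (haR : R ^ 2 + a ^ 2 = 1)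
    (v0 : 0 ≤ v) (r0 : 0 ≤ r) (hvr : r ^ 2 + v ^ 2 = 1) (hr : r ≤ 13 / 5 * (e * R)) :
    s * (-1 / 20 + 3 / 5 * t - 21 / 50 * t ^ 2) * Uex (a ^ 2) +
      (1 - t) * (1 + t - s * (-17 / 100 + 93 / 100 * t + s * (1 / 10 + 3 / 25 * t))) * Uex (v ^ 2) +
      s * (2 * t - 1 / 250 * (1 - t)) * (v ^ 2 - a ^ 2) ≤
    (1 + t ^ 2) * (Uex ((1 - e ^ 2) * v ^ 2 + e ^ 2 * a ^ 2) + Uex ((1 - e ^ 2) * a ^ 2 + e ^ 2 * v ^ 2) - Uex (a ^ 2)) := by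
  have eR : 0 < e * R := mul_pos e0 R0
  obtain ⟨o, ho⟩ : ∃ o, r = e * R * o := ⟨r / (e * R), by field_simp⟩
  have o0 : 0 ≤ o := by
    by_contra h
    have := mul_neg_of_pos_of_neg eR (not_le.1 h)
    linarith
  have o1 : o ≤ 13 / 5 := le_of_mul_le_mul_left (by linarith) eR
  have R2 : R ^ 2 ≤ 1 := by linarith [sq_nonneg a]
  have R1 : R ≤ 1 := ud_le zero_le_one (by linarith)
  have a1 : a ≤ 1 := ud_le zero_le_one (by linarith [sq_nonneg R])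
  obtain ⟨eo2, ee1, ed1, q2⟩ := ud_small e0 e1 o0 o1 R2
  obtain ⟨w, hw⟩ : ∃ w, w = a / (1 + R) := ⟨_, rfl⟩
  have w0 : 0 ≤ w := by rw [hw]; positivity
  have w1 : w ≤ 1 := by rw [hw, div_le_one (by positivity)]; linarith
  have hw2 : 1 + w ^ 2 = 2 / (1 + R) := by
    rw [hw]; field_simp; linear_combination haR
  have ea : UDc.a w e o = a := by
    unfold UDc.a; rw [hw2, hw]; field_simp
  have eRR : UDc.R w e o = R := by
    unfold UDc.R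
    rw [show 1 - w ^ 2 = 2 - (1 + w ^ 2) by ring, hw2]; field_simp; ring
  obtain ⟨d, hd⟩ : ∃ d, d = 1 - e ^ 2 * o ^ 2 := ⟨_, rfl⟩
  rw [← hd] at ed1 q2
  have ed : UDc.d w e o = d := by unfold UDc.d UDc.ee UDc.oo; rw [hd]
  have d0 : 0 < d := by linarith
  have d1 : d ≤ 1 := by have : 0 ≤ e ^ 2 * o ^ 2 := by positivity
                        linarith
  have ezz : UDc.zz w e o = o ^ 2 + d := by unfold UDc.zz UDc.oo; rw [ed]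
  have ebe : UDc.be w e o = be := by unfold UDc.be UDc.ee; rw [← hbe, Real.sqrt_sq be0.le]
  have es : UDc.s w e o = s := by unfold UDc.s; rw [ebe, hs]
  have q1 : 0 < 1 - e ^ 2 * (o ^ 2 + d) := by linarith
  have q3 : 0 < 1 - e ^ 2 * d := by linarith
  have q4 : 0 < o ^ 2 + d := by positivity
  have sd0 : 0 < UDc.sd w e o := by unfold UDc.sd; rw [ed]; exact Real.sqrt_pos.2 d0
  have hsd : UDc.sd w e o ^ 2 = d := by unfold UDc.sd; rw [ed]; exact Real.sq_sqrt d0.le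
  have z0 : 0 < UDc.z w e o := by unfold UDc.z; rw [ezz]; exact Real.sqrt_pos.2 q4
  have hz : UDc.z w e o ^ 2 = o ^ 2 + d := by unfold UDc.z; rw [ezz]; exact Real.sq_sqrt q4.le
  have vb0 : 0 < UDc.vb w e o := by unfold UDc.vb UDc.ee; rw [ezz]; exact Real.sqrt_pos.2 q1
  have hvb : UDc.vb w e o ^ 2 = 1 - e ^ 2 * (o ^ 2 + d) := by unfold UDc.vb UDc.ee; rw [ezz]; exact Real.sq_sqrt q1.le
  have ka0 : 0 < UDc.ka w e o := by unfold UDc.ka UDc.ee; rw [ed]; exact Real.sqrt_pos.2 q3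
  have hka : UDc.ka w e o ^ 2 = 1 - e ^ 2 * d := by unfold UDc.ka UDc.ee; rw [ed]; exact Real.sq_sqrt q3.le
  have vx0 : 0 < UDc.vx w e o := by unfold UDc.vx UDc.ee; rw [ezz, eRR]; exact Real.sqrt_pos.2 q2
  have hvx : UDc.vx w e o ^ 2 = 1 - R ^ 2 * (e ^ 2 * (o ^ 2 + d)) := by
    unfold UDc.vx UDc.ee; rw [ezz, eRR]; exact Real.sq_sqrt q2.le
  have ev1 : UDc.v1 w e o = v := by
    unfold UDc.v1 UDc.ee UDc.oo
    rw [eRR, show 1 - R ^ 2 * (e ^ 2 * o ^ 2) = v ^ 2 by rw [← hvr, ho]; ring, Real.sqrt_sq v0]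
  have eg : UDc.g w e o = 1 / (1 + R) := by unfold UDc.g; rw [eRR]
  have m0 : 0 < e * UDc.sd w e o := mul_pos e0 sd0
  have sd1 : UDc.sd w e o ≤ 1 := ud_le zero_le_one (by linarith)
  have hm : e * UDc.sd w e o ≤ UDc.hh w e o := by
    have := mul_le_mul_of_nonneg_left sd1 e0.le
    unfold UDc.hh; linarith
  obtain ⟨Yt, hY⟩ : ∃ Yt, Yt = √(a ^ 2 + (R * (e * UDc.sd w e o)) ^ 2) := ⟨_, rfl⟩
  have Yt0 : 0 < Yt := by rw [hY]; exact Real.sqrt_pos.2 (by positivity)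
  have hYt : Yt ^ 2 = a ^ 2 + (R * (e * UDc.sd w e o)) ^ 2 := by rw [hY]; exact Real.sq_sqrt (by positivity)
  have hM := ud_M (Y := UDc.Y w e o) a0 R0 m0 hm Yt0.le hYt (Real.sqrt_nonneg _) (by
    unfold UDc.Y; rw [ea, eRR]; exact Real.sq_sqrt (by positivity))
  have hW := ud_W (M1 := UDc.M1 w e o) (M2 := UDc.M2 w e o) (G1 := UDc.G1 w e o) (G2 := UDc.G2 w e o)
    e0 d0 hd be0 hbe sd0 hsd z0 hz vb0 hvb ka0 hka vx0 hvx a0 R0 haR eg Yt0 hYt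
    (by unfold UDc.M1; rw [eRR]; exact hM.1) (by unfold UDc.M2; rw [eRR, ea]; exact hM.2)
    (by unfold UDc.G1 UDc.ee; rw [ed, ebe]) (by unfold UDc.G2 UDc.ee UDc.oo; rw [ed, ebe, ezz])
  have hv2 : v ^ 2 = 1 - R ^ 2 * (e ^ 2 * o ^ 2) := by rw [← hvr, ho]; ring
  have hx := ud_Uex (p := (1 - e ^ 2) * v ^ 2 + e ^ 2 * a ^ 2) (r := e * R * UDc.z w e o) (v := UDc.vx w e o)
    (by positivity) vx0.le (by rw [hvx, hv2, hd]; linear_combination e ^ 2 * haR)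
    (by rw [mul_pow, hz, hv2, hd]; linear_combination (-e ^ 2) * haR)
  have hy := ud_Uex (p := (1 - e ^ 2) * a ^ 2 + e ^ 2 * v ^ 2) (r := R * UDc.ka w e o) (v := Yt)
    (by positivity) Yt0.le (by rw [hYt, mul_pow, mul_pow, hsd, hv2, hd]; linear_combination (-e ^ 2) * haR)
    (by rw [mul_pow, hka, hv2, hd]; linear_combination (e ^ 2 - 1) * haR)
  have h0 := ud_Uex (p := a ^ 2) (r := R) (v := a) R0.le a0 rfl (by linarith)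
  have h1 := ud_Uex (p := v ^ 2) (r := r) (v := v) r0 v0 rfl (by linarith)
  rw [← hx, ← hy, ← h0] at hW
  refine ud_fin (Ga := o ^ 2 * UDc.G1 w e o + a ^ 2 * UDc.G2 w e o) (u1 := UDc.U1 w e o) (n0 := a ^ 2 * UDc.N0 w e o)
    (A := UDc.A w e o) (B := UDc.B w e o) (C := UDc.C w e o) eR.le hs hW ?_ ?_ ?_ ?_ ?_ ?_ ?_
  · unfold UDc.U1 UDc.oo
    have : 1 - v = r ^ 2 / (1 + v) := ud_diff (by positivity) (by linarith)
    rw [h1, ev1, eRR]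
    linear_combination this + 2 * hvr + (1 + v + (r + e * R * o) * (1 / (1 + v) - 2)) * ho
  · unfold UDc.N0
    rw [h0, ud_U a0 haR, eRR, ea, eg, ebe, hs, show a ^ 2 = (1 - R) * (1 + R) by linear_combination haR]
    field_simp
  · rw [hv2, hd]; linear_combination (-1) * haR
  · unfold UDc.C UDc.G3 UDc.oo; rw [ea]; ring
  · unfold UDc.A UDc.Ga UDc.oo; rw [ea, eRR, ed, ebe, es]
  · unfold UDc.B UDc.Ga UDc.oo; rw [ea, eRR, ed, ebe, es]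
  · refine ud_quad (c0 := UDc.c0 w e o) (c1 := UDc.c1 w e o) rfl rfl ?_ (by linarith) (by linarith)
    rcases UDc.main w e o w0 w1 e0.le e1 o0 o1 with h | ⟨g1, g3, h⟩
    · exact Or.inl h
    · refine Or.inr ⟨?_, h⟩
      unfold UDc.C UDc.oo
      positivity

theorem ud_easy {e be s t a R v r : ℝ} (e0 : 0 ≤ e) (ee1 : 0 ≤ 1 - e ^ 2) (be0 : 0 < be) (hbe : be ^ 2 = 1 - e ^ 2)
    (hse : s = 2 * (e * be)) (s1 : s ≤ 14 / 25) (t0 : 11 / 20 ≤ t) (t1 : t ≤ 1) (a0 : 0 ≤ a) (R0 : 0 ≤ R)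
    (haR : R ^ 2 = 1 - a ^ 2) (v0 : 0 ≤ v) (r0 : 0 ≤ r) (hvr : r ^ 2 = 1 - v ^ 2) (h01 : a ^ 2 ≤ v ^ 2)
    (hr : 13 / 5 * (e * R) ≤ r) :
    s * (-1 / 20 + 3 / 5 * t - 21 / 50 * t ^ 2) * Uex (a ^ 2) +
      (1 - t) * (1 + t - s * (-17 / 100 + 93 / 100 * t + s * (1 / 10 + 3 / 25 * t))) * Uex (v ^ 2) +
      s * (2 * t - 1 / 250 * (1 - t)) * (v ^ 2 - a ^ 2) ≤
    (1 + t ^ 2) * (Uex ((1 - e ^ 2) * v ^ 2 + e ^ 2 * a ^ 2) + Uex ((1 - e ^ 2) * a ^ 2 + e ^ 2 * v ^ 2) - Uex (a ^ 2)) := by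
  have tp : 0 < 1 + t ^ 2 := by positivity
  have s0 : 0 ≤ s := by rw [hse]; positivity
  have n1 : -1 / 20 + 3 / 5 * t - 21 / 50 * t ^ 2 ≤ 7 / 25 * t := by
    have := mul_nonneg (sub_nonneg.2 t0) (show 0 ≤ t - 1 / 4 by linarith)
    linarith
  have f0 : 0 ≤ -17 / 100 + 93 / 100 * t + s * (1 / 10 + 3 / 25 * t) := by
    have : 0 ≤ s * (1 / 10 + 3 / 25 * t) := mul_nonneg s0 (by linarith)
    linarith
  have ee0 : 0 ≤ e ^ 2 := sq_nonneg e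
  have h0 : 0 ≤ a ^ 2 := sq_nonneg a
  have h1 : v ^ 2 ≤ 1 := by linarith [sq_nonneg r]
  have R1 : R ≤ 1 := ud_le zero_le_one (by linarith)
  have rR : r ≤ R := ud_le R0 (by linarith)
  have be1 : be ≤ 1 := ud_le zero_le_one (by linarith)
  have u0 := (ud_Uex (p := a ^ 2) (r := R) (v := a) R0 a0 rfl (by linarith)).trans (ud_U a0 (by linarith))
  have u1 := (ud_Uex (p := v ^ 2) (r := r) (v := v) r0 v0 rfl (by linarith)).trans (ud_U v0 (by linarith))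
  have RR : 0 ≤ R * (1 - R) := mul_nonneg R0 (by linarith)
  have Ra : R / (1 + a) ≤ 1 := by rw [div_le_one (by positivity)]; linarith
  have U00 : 0 ≤ Uex (a ^ 2) := by rw [u0]; exact mul_nonneg RR (by positivity)
  have U10 : 0 ≤ Uex (v ^ 2) := by
    rw [u1]; exact mul_nonneg (mul_nonneg r0 (by linarith)) (by positivity)
  have k := ud_triv s0 s1 R1 r0 rR v0 (by linarith) (U0 := Uex (a ^ 2)) (by
    have := mul_le_mul_of_nonneg_left Ra RR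
    rw [u0]; linarith) u1 (by
    have := mul_le_mul_of_nonneg_left be1 (mul_nonneg e0 R0)
    rw [hse]; linarith)
  rw [show R ^ 2 - r ^ 2 = v ^ 2 - a ^ 2 by linarith] at k
  have c1 : (1 - e ^ 2) * Uex (v ^ 2) + e ^ 2 * Uex (a ^ 2) ≤ Uex ((1 - e ^ 2) * v ^ 2 + e ^ 2 * a ^ 2) :=
    Uex_conc.2 (x := v ^ 2) (y := a ^ 2) ⟨sq_nonneg _, h1⟩ ⟨h0, h01.trans h1⟩ ee1 ee0 (by ring)
  have c2 : (1 - e ^ 2) * Uex (a ^ 2) + e ^ 2 * Uex (v ^ 2) ≤ Uex ((1 - e ^ 2) * a ^ 2 + e ^ 2 * v ^ 2) :=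
    Uex_conc.2 (x := a ^ 2) (y := v ^ 2) ⟨h0, h01.trans h1⟩ ⟨sq_nonneg _, h1⟩ ee1 ee0 (by ring)
  have g1 := mul_le_mul_of_nonneg_left (add_le_add c1 c2) tp.le
  have g2 := mul_le_mul_of_nonneg_left k (show 0 ≤ t by linarith)
  have g3 := mul_le_mul_of_nonneg_left n1 (mul_nonneg s0 U00)
  have g4 := mul_nonneg (mul_nonneg (mul_nonneg s0 (sub_nonneg.2 t1)) f0) U10
  have g5 := mul_nonneg (mul_nonneg s0 (sub_nonneg.2 t1)) (sub_nonneg.2 h01)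
  have g6 := mul_nonneg (mul_nonneg (show 0 ≤ t by linarith) (sub_nonneg.2 t0)) U10
  linear_combination g1 + g2 + g3 + g4 + 1 / 250 * g5 + 2 * g6

/-- Family (D): `t ∈ [11/20, 1]`, `s ≤ 14/25`. -/
theorem ustepD {ρ s t : ℝ} (hρ0 : 0 ≤ ρ) (hρ1 : ρ ≤ 1) (s0 : 0 ≤ s) (hs : s ^ 2 = 1 - ρ ^ 2) (s1 : s ≤ 14 / 25)
    (t0 : 11 / 20 ≤ t) (t1 : t ≤ 1) :
    UStep ρ Uex ((1 + t ^ 2 + s * (-1 / 20 + 3 / 5 * t - 21 / 50 * t ^ 2)) / (1 + t ^ 2))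
      ((1 - t) * (1 + t - s * (-17 / 100 + 93 / 100 * t + s * (1 / 10 + 3 / 25 * t))) / (1 + t ^ 2))
      (s * (2 * t - 1 / 250 * (1 - t)) / (1 + t ^ 2)) := by
  have tp : 0 < 1 + t ^ 2 := by positivity
  have n0 : 0 ≤ -1 / 20 + 3 / 5 * t - 21 / 50 * t ^ 2 := by nlinarith
  have ρ1 : 82842 / 100000 ≤ ρ := by nlinarith
  have f1 : -17 / 100 + 93 / 100 * t + s * (1 / 10 + 3 / 25 * t) ≤ 1 := by nlinarith
  refine ⟨div_nonneg (by have := mul_nonneg s0 n0; linarith) tp.le,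
    div_nonneg (mul_nonneg (by linarith) (by nlinarith)) tp.le, fun p0 p1 h0 h01 h1 => ?_⟩
  obtain ⟨e, e0, he⟩ : ∃ e : ℝ, 0 ≤ e ∧ e ^ 2 = (1 - ρ) / 2 := ⟨_, Real.sqrt_nonneg _, Real.sq_sqrt (by linarith)⟩
  obtain ⟨be, be0, hbe⟩ : ∃ be : ℝ, 0 < be ∧ be ^ 2 = 1 - e ^ 2 :=
    ⟨_, Real.sqrt_pos.2 (show 0 < 1 - e ^ 2 by linarith), Real.sq_sqrt (by linarith)⟩
  obtain ⟨a, a0, rfl⟩ : ∃ a : ℝ, 0 ≤ a ∧ p0 = a ^ 2 := ⟨_, Real.sqrt_nonneg _, (Real.sq_sqrt h0).symm⟩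
  obtain ⟨v, v0, rfl⟩ : ∃ v : ℝ, 0 ≤ v ∧ p1 = v ^ 2 := ⟨_, Real.sqrt_nonneg _, (Real.sq_sqrt (h0.trans h01)).symm⟩
  obtain ⟨R, R0, haR⟩ : ∃ R : ℝ, 0 ≤ R ∧ R ^ 2 = 1 - a ^ 2 := ⟨_, Real.sqrt_nonneg _, Real.sq_sqrt (by linarith)⟩
  obtain ⟨r, r0, hvr⟩ : ∃ r : ℝ, 0 ≤ r ∧ r ^ 2 = 1 - v ^ 2 := ⟨_, Real.sqrt_nonneg _, Real.sq_sqrt (by linarith)⟩
  have hse : s = 2 * (e * be) := by
    refine (pow_left_inj₀ s0 (by positivity) two_ne_zero).1 ?_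
    rw [hs, mul_pow, mul_pow, hbe, he]; ring
  have ex : (1 + ρ) / 2 = 1 - e ^ 2 := by linarith
  rw [ex, ← he]
  have key : s * (-1 / 20 + 3 / 5 * t - 21 / 50 * t ^ 2) * Uex (a ^ 2) +
      (1 - t) * (1 + t - s * (-17 / 100 + 93 / 100 * t + s * (1 / 10 + 3 / 25 * t))) * Uex (v ^ 2) +
      s * (2 * t - 1 / 250 * (1 - t)) * (v ^ 2 - a ^ 2) ≤
    (1 + t ^ 2) * (Uex ((1 - e ^ 2) * v ^ 2 + e ^ 2 * a ^ 2) + Uex ((1 - e ^ 2) * a ^ 2 + e ^ 2 * v ^ 2) - Uex (a ^ 2)) := by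
    rcases lt_or_ge r (13 / 5 * (e * R)) with hr | hr
    · have eR : 0 < e * R := by linarith
      have e0' : 0 < e := by
        rcases e0.eq_or_lt with h | h
        · rw [← h] at eR; simp at eR
        · exact h
      have R0' : 0 < R := by
        rcases R0.eq_or_lt with h | h
        · rw [← h] at eR; simp at eR
        · exact h
      exact ud_main e0' (ud_le (by norm_num) (by linarith)) be0 hbe hse t0 t1 a0 R0' (by linarith) v0 r0 (by linarith) hr.le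
    · exact ud_easy e0 (by linarith) be0 hbe hse s1 t0 t1 a0 R0 haR v0 r0 hvr h01 hr
  rw [div_mul_eq_mul_div _ (1 + t ^ 2), div_mul_eq_mul_div _ (1 + t ^ 2), div_mul_eq_mul_div _ (1 + t ^ 2),
    ← add_div, ← add_div, div_le_iff₀ tp]
  linear_combination key

end Crest.Agent.R307
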