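import Crest.Agent.R307.HLg
import Crest.Agent.R307.UA
import Crest.Agent.R307.UB
import Crest.Agent.R307.UD

/-!
# R307/HLf: the families (A), (B), (D) in the form `Fam`
-/

set_option autoImplicit false

namespace Crest.Agent.R307

open Crest.CubeNoise Set

theorem fam_ok {ρ s : ℝ} (hρ0 : 0 ≤ ρ) (hρ1 : ρ ≤ 1) (hs : s ^ 2 = 1 - ρ ^ 2) (s0 : 0 < s) (s1 : s ≤ 11 / 20) :
    Fam ρ s := by
  refine ⟨fun l l0 l1 => ?_, fun t t0 t1 => ?_, fun t t0 t1 => ?_⟩
  · convert ustepA (x := l / s) hρ0 hρ1 hs s0.le s1 (by positivity) (by rwa [div_le_iff₀ s0]) using 1 <;> field_simp <;> ring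
  · have tp : 0 < 1 + t ^ 2 := by positivity
    have t2 : 0 ≤ t := by linarith
    obtain ⟨S, hS⟩ : ∃ S, S = 2 * t / (1 + t ^ 2) := ⟨_, rfl⟩
    have e : (1 + t ^ 2) * S = 2 * t := by rw [hS]; field_simp
    have S0 : 0 ≤ S := by rw [hS]; positivity
    have S1 : S ≤ 1 := by rw [hS, div_le_one tp]; nlinarith [sq_nonneg (1 - t)]
    have C0 : 0 ≤ t * S := by positivity
    have C1 : t * S ≤ 11 / 20 := by nlinarith
    rw [← hS]
    convert ustepB (sn := S) (cm := t * S) hρ0 hρ1 hs s0.le s1 t0 e (by linear_combination t * e)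
      (by nlinarith [mul_nonneg s0.le S0, mul_nonneg s0.le (sub_nonneg.2 C1)])
      (by nlinarith [mul_nonneg s0.le (sub_nonneg.2 S1), mul_nonneg s0.le C0]) using 1 <;> ring
  · have tp : 0 < 1 + t ^ 2 := by positivity
    convert ustepD hρ0 hρ1 s0.le hs (by linarith) t0 t1 using 1 <;> field_simp <;> ring

end Crest.Agent.R307
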