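import Crest.Agent.R307.HLf
import Crest.Agent.R307.HL1
import Crest.Agent.R307.HL2

/-!
# R307/HLz: `XCore ρ` for `0 < s ≤ 3/10`
-/

set_option autoImplicit false

namespace Crest.Agent.R307

theorem hl_core03 {ρ : ℝ} (hρ0 : 0 ≤ ρ) (hρ1 : ρ ≤ 1) (s0 : 0 < √(1 - ρ ^ 2)) (s1 : √(1 - ρ ^ 2) ≤ 3 / 10) :
    XCore ρ := by
  have F := fam_ok hρ0 hρ1 (Real.sq_sqrt (by nlinarith)) s0 (by linarith)
  rcases le_total (√(1 - ρ ^ 2)) (17 / 100) with h | h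
  · exact HL1.core hρ0 hρ1 rfl F s0 s0.le h
  · exact HL2.core hρ0 hρ1 rfl F s0 h s1

end Crest.Agent.R307
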