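import Crest.Agent.R307.Cube

/-!
# R307/HNa: level-one weight, slices, variance under noise
-/

set_option autoImplicit false

namespace Crest.Agent.R307

open Crest.CubeNoise

variable {n : ℕ}

/-- Level-one coefficient. -/
noncomputable def co (f : (Fin n → Bool) → ℝ) (i : Fin n) : ℝ := cubeAverage fun x => f x * spin (x i)

/-- Level-one weight. -/
noncomputable def W1 (f : (Fin n → Bool) → ℝ) : ℝ := ∑ i, co f i ^ 2

/-- Average of the two slices. -/
noncomputable def bar (f : (Fin (n + 1) → Bool) → ℝ) : (Fin n → Bool) → ℝ := fun x => (sl f false x + sl f true x) / 2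

/-- The Hellinger inequality for a sign function. -/
def HN (ρ : ℝ) (f : (Fin n → Bool) → ℝ) : Prop :=
  √(1 - cubeAverage f ^ 2) - 1 + √(1 - ρ ^ 2) ≤ cubeAverage fun x => √(1 - noise ρ f x ^ 2)

theorem co_zero (f : (Fin (n + 1) → Bool) → ℝ) :
    co f 0 = (cubeAverage (sl f true) - cubeAverage (sl f false)) / 2 := by
  unfold co
  rw [avg_succ]
  have h1 : sl (fun x : Fin (n + 1) → Bool => f x * spin (x 0)) false = fun x => -(sl f false x) := by
    funext x; simp [sl, spin]
  have h2 : sl (fun x : Fin (n + 1) → Bool => f x * spin (x 0)) true = sl f true := by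
    funext x; simp [sl, spin]
  rw [h1, h2, avg_neg]; ring

theorem co_succ (f : (Fin (n + 1) → Bool) → ℝ) (i : Fin n) : co f i.succ = co (bar f) i := by
  unfold co
  rw [avg_succ, ← avg_add, ← avg_div]
  congr 1
  funext x
  simp only [sl, bar, Fin.cons_succ]; ring

theorem W1_succ (f : (Fin (n + 1) → Bool) → ℝ) : W1 f = co f 0 ^ 2 + W1 (bar f) := by
  unfold W1
  rw [Fin.sum_univ_succ]
  simp only [co_succ]

theorem W1_nonneg (f : (Fin n → Bool) → ℝ) : 0 ≤ W1 f := by
  exact Finset.sum_nonneg fun i _ => sq_nonneg _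

theorem co_neg (f : (Fin n → Bool) → ℝ) (i : Fin n) : co (fun x => -f x) i = -co f i := by
  unfold co
  rw [← avg_neg]
  congr 1
  funext x; ring

theorem W1_neg (f : (Fin n → Bool) → ℝ) : W1 (fun x => -f x) = W1 f := by
  unfold W1
  simp only [co_neg, neg_sq]

theorem HN_neg {ρ : ℝ} {f : (Fin n → Bool) → ℝ} (h : HN ρ fun x => -f x) : HN ρ f := by
  unfold HN at h ⊢
  have h1 : ∀ x, noise ρ (fun y => -f y) x = -noise ρ f x := by
    intro x
    have := noise_affine ρ (-1) 0 f x
    simpa using this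
  simpa only [avg_neg, h1, neg_sq] using h

/-- Half difference of the two slices. -/
noncomputable def hna_d (f : (Fin (n + 1) → Bool) → ℝ) : (Fin n → Bool) → ℝ := fun x => (sl f true x - sl f false x) / 2

theorem hna_lin (ρ a b : ℝ) (u v : (Fin n → Bool) → ℝ) (x : Fin n → Bool) :
    noise ρ (fun y => a * u y + b * v y) x = a * noise ρ u x + b * noise ρ v x := by
  rw [noise_add ρ (fun y => a * u y) (fun y => b * v y)]
  have h1 := noise_affine ρ a 0 u x
  have h2 := noise_affine ρ b 0 v x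
  simp only [add_zero] at h1 h2
  rw [h1, h2]

theorem hna_nbar (ρ : ℝ) (f : (Fin (n + 1) → Bool) → ℝ) (x : Fin n → Bool) :
    noise ρ (bar f) x = (noise ρ (sl f false) x + noise ρ (sl f true) x) / 2 := by
  have h : bar f = fun y => 1 / 2 * sl f false y + 1 / 2 * sl f true y := by
    funext y; simp only [bar]; ring
  rw [h, hna_lin]; ring

theorem hna_nd (ρ : ℝ) (f : (Fin (n + 1) → Bool) → ℝ) (x : Fin n → Bool) :
    noise ρ (hna_d f) x = (noise ρ (sl f true) x - noise ρ (sl f false) x) / 2 := by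
  have h : hna_d f = fun y => (-1 / 2) * sl f false y + 1 / 2 * sl f true y := by
    funext y; simp only [hna_d]; ring
  rw [h, hna_lin]; ring

theorem hna_sqn (ρ : ℝ) (f : (Fin (n + 1) → Bool) → ℝ) :
    (cubeAverage fun x => noise ρ f x ^ 2) =
      (cubeAverage fun x => noise ρ (bar f) x ^ 2) + ρ ^ 2 * cubeAverage fun x => noise ρ (hna_d f) x ^ 2 := by
  rw [avg_succ, ← avg_add, ← avg_div, ← avg_mul, ← avg_add]
  congr 1
  funext x
  have h1 := noise_sl ρ f false x
  have h2 := noise_sl ρ f true x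
  simp only [sl] at h1 h2 ⊢
  rw [h1, h2, hna_nbar, hna_nd]
  simp only [spin, sl]
  norm_num
  ring

theorem hna_sq (f : (Fin (n + 1) → Bool) → ℝ) :
    (cubeAverage fun x => f x ^ 2) = (cubeAverage fun x => bar f x ^ 2) + cubeAverage fun x => hna_d f x ^ 2 := by
  rw [avg_succ, ← avg_add, ← avg_div, ← avg_add]
  congr 1
  funext x
  simp only [sl, bar, hna_d]
  ring

theorem hna_avg (f : (Fin (n + 1) → Bool) → ℝ) : cubeAverage f = cubeAverage (bar f) := by
  rw [avg_succ, ← avg_add, ← avg_div]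
  rfl

theorem hna_avgd (f : (Fin (n + 1) → Bool) → ℝ) : cubeAverage (hna_d f) = co f 0 := by
  rw [co_zero, ← avg_sub, ← avg_div]
  rfl

theorem hna_cs (f : (Fin n → Bool) → ℝ) : cubeAverage f ^ 2 ≤ cubeAverage fun x => f x ^ 2 := by
  have h := avg_nonneg (f := fun x => (f x - cubeAverage f) ^ 2) fun x => sq_nonneg _
  have h2 : (fun x => (f x - cubeAverage f) ^ 2) =
      fun x => (f x ^ 2 + (-2 * cubeAverage f) * f x) + cubeAverage f ^ 2 := by
    funext x; ring
  rw [h2, avg_add, avg_add, avg_mul, avg_const] at h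
  nlinarith

/-- One level of contraction. -/
theorem hn_var1 {ρ : ℝ} (hρ : ρ ^ 2 ≤ 1) (f : (Fin n → Bool) → ℝ) :
    (cubeAverage fun x => noise ρ f x ^ 2) ≤
      cubeAverage f ^ 2 + ρ ^ 2 * ((cubeAverage fun x => f x ^ 2) - cubeAverage f ^ 2) := by
  induction n with
  | zero => simp only [avg_zero_dim, noise_zero_dim]; simp
  | succ n ih =>
    rw [hna_sqn, hna_sq, hna_avg]
    have h1 := ih (bar f)
    have h2 := ih (hna_d f)
    have h3 := hna_cs (hna_d f)
    have h4 : (cubeAverage fun x => noise ρ (hna_d f) x ^ 2) ≤ cubeAverage fun x => hna_d f x ^ 2 := by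
      nlinarith [mul_nonneg (sub_nonneg.2 hρ) (sub_nonneg.2 h3)]
    nlinarith [mul_le_mul_of_nonneg_left h4 (sq_nonneg ρ)]

/-- Two levels of contraction. -/
theorem hn_var2 {ρ : ℝ} (hρ : ρ ^ 2 ≤ 1) (f : (Fin n → Bool) → ℝ) :
    (cubeAverage fun x => noise ρ f x ^ 2) ≤
      cubeAverage f ^ 2 + ρ ^ 2 * W1 f + ρ ^ 4 * ((cubeAverage fun x => f x ^ 2) - cubeAverage f ^ 2 - W1 f) := by
  induction n with
  | zero => simp only [avg_zero_dim, noise_zero_dim]; simp [W1]
  | succ n ih =>
    rw [hna_sqn, hna_sq, hna_avg, W1_succ, ← hna_avgd]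
    have h1 := ih (bar f)
    have h2 := hn_var1 hρ (hna_d f)
    nlinarith [mul_le_mul_of_nonneg_left h2 (sq_nonneg ρ)]

/-- The variance of the noisy sign function. -/
theorem hn_var {ρ : ℝ} (hρ : ρ ^ 2 ≤ 1) {f : (Fin n → Bool) → ℝ} (hf : ∀ x, f x = 1 ∨ f x = -1) :
    (cubeAverage fun x => (noise ρ f x - cubeAverage f) ^ 2) ≤
      ρ ^ 2 * ((1 - ρ ^ 2) * W1 f + ρ ^ 2 * (1 - cubeAverage f ^ 2)) := by
  have h2 : (fun x => (noise ρ f x - cubeAverage f) ^ 2) =
      fun x => (noise ρ f x ^ 2 + (-2 * cubeAverage f) * noise ρ f x) + cubeAverage f ^ 2 := by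
    funext x; ring
  have h3 : (fun x => f x ^ 2) = fun _ => (1 : ℝ) := by
    funext x; rcases hf x with h | h <;> simp [h]
  have h1 := hn_var2 hρ f
  rw [h3, avg_const] at h1
  have h4 : (cubeAverage fun x => noise ρ f x) = cubeAverage f := avg_noise ρ f
  rw [h2, avg_add, avg_add, avg_mul, avg_const, h4]
  nlinarith

end Crest.Agent.R307
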