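import Crest.Agent.R307.HNa

/-!
# R307/HNb: moments of sign sums
-/

set_option autoImplicit false

namespace Crest.Agent.R307

open Crest.CubeNoise

variable {n : ℕ}

/-- A linear form in the signs. -/
noncomputable def lf (a : Fin n → ℝ) (x : Fin n → Bool) : ℝ := ∑ i, a i * spin (x i)

theorem hnb_succ (a : Fin (n + 1) → ℝ) (g : ℝ → ℝ) :
    (cubeAverage fun x => g (lf a x)) = cubeAverage fun x =>
      (g (lf (fun i => a i.succ) x - a 0) + g (lf (fun i => a i.succ) x + a 0)) / 2 := by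
  rw [avg_succ, avg_div, avg_add]
  congr 3 <;> funext x <;>
    simp only [sl, lf, Fin.sum_univ_succ, Fin.cons_zero, Fin.cons_succ] <;> congr 1 <;>
    simp [spin] <;> ring

theorem lf_sq (a : Fin n → ℝ) : (cubeAverage fun x => lf a x ^ 2) = ∑ i, a i ^ 2 := by
  induction n with
  | zero => simp [lf, avg_const]
  | succ n ih =>
    rw [hnb_succ a (· ^ 2), Fin.sum_univ_succ, ← ih]
    have e : ∀ l : ℝ, ((l - a 0) ^ 2 + (l + a 0) ^ 2) / 2 = a 0 ^ 2 + l ^ 2 := fun l => by ring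
    simp only [e, avg_add, avg_const]

theorem lf_four (a : Fin n → ℝ) :
    (cubeAverage fun x => lf a x ^ 4) = 3 * (∑ i, a i ^ 2) ^ 2 - 2 * ∑ i, a i ^ 4 := by
  induction n with
  | zero => simp [lf, avg_const]
  | succ n ih =>
    rw [hnb_succ a (· ^ 4)]
    have e : ∀ l : ℝ, ((l - a 0) ^ 4 + (l + a 0) ^ 4) / 2 =
        a 0 ^ 4 + 6 * a 0 ^ 2 * l ^ 2 + l ^ 4 := fun l => by ring
    simp only [e, avg_add, avg_const, avg_mul, lf_sq, ih, Fin.sum_univ_succ]
    ring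

theorem lf_six (a : Fin n → ℝ) :
    (cubeAverage fun x => lf a x ^ 6) =
      15 * (∑ i, a i ^ 2) ^ 3 - 30 * (∑ i, a i ^ 2) * (∑ i, a i ^ 4) + 16 * ∑ i, a i ^ 6 := by
  induction n with
  | zero => simp [lf, avg_const]
  | succ n ih =>
    rw [hnb_succ a (· ^ 6)]
    have e : ∀ l : ℝ, ((l - a 0) ^ 6 + (l + a 0) ^ 6) / 2 =
        a 0 ^ 6 + 15 * a 0 ^ 4 * l ^ 2 + 15 * a 0 ^ 2 * l ^ 4 + l ^ 6 := fun l => by ring
    simp only [e, avg_add, avg_const, avg_mul, lf_sq, lf_four, ih, Fin.sum_univ_succ]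
    ring

theorem avg_mul_lf (f : (Fin n → Bool) → ℝ) : (cubeAverage fun x => f x * lf (co f) x) = W1 f := by
  simp only [W1, lf, sq]
  generalize hc : co f = c
  have h : ∀ i, c i * c i = cubeAverage fun x => c i * (f x * spin (x i)) := fun i => by
    rw [avg_mul, ← hc]; rfl
  simp only [h]
  simp only [cubeAverage, Finset.mul_sum, ← Finset.sum_div]
  rw [Finset.sum_comm]
  congr 1
  exact Finset.sum_congr rfl fun i _ => Finset.sum_congr rfl fun x _ => by ring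

/-- Bessel. -/
theorem W1_le_sq (f : (Fin n → Bool) → ℝ) : W1 f ≤ cubeAverage fun x => f x ^ 2 := by
  have h := avg_nonneg fun x => sq_nonneg (f x - lf (co f) x)
  have e : ∀ x, (f x - lf (co f) x) ^ 2 = f x ^ 2 - 2 * (f x * lf (co f) x) + lf (co f) x ^ 2 :=
    fun x => by ring
  simp only [e, avg_add, avg_sub, avg_mul, avg_mul_lf, lf_sq] at h
  unfold W1 at h ⊢
  linarith

/-- Level-one inequality from the fourth moment. -/
theorem W1_sq_le {h : (Fin n → Bool) → ℝ} (hh : ∀ x, h x = 0 ∨ h x = 1 ∨ h x = -1) :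
    W1 h ^ 2 ≤ 3 * (cubeAverage fun x => h x ^ 2) ^ 3 := by
  have h1 := W1_le_sq h
  have h0 : 0 ≤ W1 h := Finset.sum_nonneg fun i _ => sq_nonneg _
  set s := cubeAverage fun x => h x ^ 2 with hs
  rcases h0.eq_or_lt with hW | hW
  · rw [← hW] at h1 ⊢
    have : 0 ≤ s ^ 3 := pow_nonneg h1 3
    linarith
  have hs0 : 0 < s := hW.trans_le h1
  set t := W1 h / s with ht
  have ht0 : 0 < t := div_pos hW hs0
  have key : ∀ y : ℝ, 4 * t ^ 3 * y ≤ 3 * t ^ 4 + y ^ 4 := fun y => by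
    nlinarith [mul_nonneg (sq_nonneg (y - t)) (add_nonneg (sq_nonneg (y + t))
      (mul_nonneg (by norm_num : (0 : ℝ) ≤ 2) (sq_nonneg t)))]
  have h2 : ∀ x, 4 * t ^ 3 * (h x * lf (co h) x) ≤ 3 * t ^ 4 * h x ^ 2 + lf (co h) x ^ 4 := by
    intro x
    rcases hh x with e | e | e <;> rw [e]
    · have : 0 ≤ lf (co h) x ^ 4 := by positivity
      linarith
    · linarith [key (lf (co h) x)]
    · have := key (-lf (co h) x)
      linarith
  have h3 := avg_mono h2
  rw [avg_add, avg_mul, avg_mul, avg_mul_lf, lf_four, ← hs] at h3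
  have h4 : 0 ≤ ∑ i, co h i ^ 4 := Finset.sum_nonneg fun i _ => by positivity
  have h5 : W1 h = t * s := by rw [ht]; field_simp
  have h6 : ∑ i, co h i ^ 2 = t * s := h5
  rw [h6, h5] at h3
  rw [h5]
  have h7 : t ^ 2 * s * t ^ 2 ≤ t ^ 2 * s * (3 * s) := by nlinarith
  have h8 : t ^ 2 ≤ 3 * s := le_of_mul_le_mul_left h7 (by positivity)
  nlinarith [mul_le_mul_of_nonneg_right h8 (sq_nonneg s)]

end Crest.Agent.R307
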