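import Crest.Agent.R307.HNb

/-!
# R307/HNc: bounds for the level-one weight of sign functions
-/

set_option autoImplicit false

namespace Crest.Agent.R307

open Crest.CubeNoise

variable {n : ℕ}

theorem hnc_core {h d : (Fin n → Bool) → ℝ} (hh : ∀ x, h x = 0 ∨ h x = 1 ∨ h x = -1)
    (hd : ∀ x, h x ^ 2 ≤ 1 - |d x|) :
    W1 h ≤ 1 - |cubeAverage d| ∧ W1 h ^ 2 ≤ 3 * (1 - |cubeAverage d|) ^ 3 := by
  have h1 : (cubeAverage fun x => h x ^ 2) ≤ 1 - |cubeAverage d| := by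
    have a1 : (cubeAverage fun x => h x ^ 2) ≤ cubeAverage fun x => 1 - d x :=
      avg_mono fun x => (hd x).trans (by linarith [le_abs_self (d x)])
    have a2 : (cubeAverage fun x => h x ^ 2) ≤ cubeAverage fun x => 1 + d x :=
      avg_mono fun x => (hd x).trans (by linarith [neg_abs_le (d x)])
    rw [avg_sub, avg_const] at a1
    rw [avg_add, avg_const] at a2
    have e : (cubeAverage fun x => d x) = cubeAverage d := rfl
    rw [e] at a1 a2
    rcases abs_cases (cubeAverage d) with ⟨e, _⟩ | ⟨e, _⟩ <;> rw [e] <;> linarith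
  have h0 : 0 ≤ cubeAverage fun x => h x ^ 2 := avg_nonneg fun x => sq_nonneg _
  refine ⟨(W1_le_sq h).trans h1, (W1_sq_le hh).trans ?_⟩
  gcongr

theorem W1_le_mean {f : (Fin n → Bool) → ℝ} (hf : ∀ x, f x = 1 ∨ f x = -1) :
    W1 f ≤ 1 - |cubeAverage f| ∧ W1 f ^ 2 ≤ 3 * (1 - |cubeAverage f|) ^ 3 := by
  have hco : ∀ i, co (fun x => (f x - f fun j => !x j) / 2) i = co f i := by
    intro i
    have h1 := avg_not (fun x => f x * spin (x i))
    simp only [spin_not] at h1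
    have h2 : (fun x : Fin n → Bool => (f x - f fun j => !x j) / 2 * spin (x i)) =
        fun x => (f x * spin (x i) + (f fun j => !x j) * -spin (x i)) / 2 := by
      funext x; ring
    unfold co
    rw [h2, avg_div, avg_add, h1]; ring
  have hW : W1 (fun x => (f x - f fun j => !x j) / 2) = W1 f := by
    unfold W1; simp only [hco]
  have hev : (cubeAverage fun x => (f x + f fun j => !x j) / 2) = cubeAverage f := by
    rw [avg_div, avg_add, avg_not]
    have e : (cubeAverage fun x => f x) = cubeAverage f := rfl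
    rw [e]; ring
  have := hnc_core (h := fun x => (f x - f fun j => !x j) / 2) (d := fun x => (f x + f fun j => !x j) / 2)
    (fun x => by
      rcases hf x with a | a <;> rcases hf (fun j => !x j) with b | b <;> simp only [a, b] <;> norm_num)
    (fun x => by
      rcases hf x with a | a <;> rcases hf (fun j => !x j) with b | b <;> simp only [a, b] <;> norm_num)
  rwa [hW, hev] at this

theorem hnc_poly (z : ℝ) : z ≤ 299 / 1000 + 91 / 100 * z ^ 2 - 189 / 1000 * z ^ 4 + 171 / 10000 * z ^ 6 := by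
  have e : 299 / 1000 + 91 / 100 * z ^ 2 - 189 / 1000 * z ^ 4 + 171 / 10000 * z ^ 6 - z =
      299 / 1000 * (1 - 500 / 299 * z + 30 / 299 * z ^ 2 + 67 / 299 * z ^ 3) ^ 2
      + 83 / 5980 * (z - 5033 / 4150 * z ^ 2 + 1507 / 4150 * z ^ 3) ^ 2
      + 6539 / 4150000 * (z ^ 2 - 2531 / 6539 * z ^ 3) ^ 2 + 1329 / 65390000 * (z ^ 3) ^ 2 := by ring
  have : 0 ≤ 299 / 1000 + 91 / 100 * z ^ 2 - 189 / 1000 * z ^ 4 + 171 / 10000 * z ^ 6 - z := by
    rw [e]; positivity
  linarith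

theorem W1_small {f : (Fin n → Bool) → ℝ} (hf : ∀ x, |f x| ≤ 1) (h : ∀ i, |co f i| ≤ 7 / 25) : W1 f ≤ 4 / 5 := by
  have h1 : ∀ x, f x * lf (co f) x ≤ 299 / 1000 + 91 / 100 * lf (co f) x ^ 2 - 189 / 1000 * lf (co f) x ^ 4
      + 171 / 10000 * lf (co f) x ^ 6 := by
    intro x
    have a1 : f x * lf (co f) x ≤ |lf (co f) x| := by
      refine (le_abs_self _).trans ?_
      rw [abs_mul]
      exact mul_le_of_le_one_left (abs_nonneg _) (hf x)
    have a2 := hnc_poly |lf (co f) x|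
    rw [sq_abs, Even.pow_abs (by decide), Even.pow_abs (by decide)] at a2
    linarith
  have h2 := avg_mono h1
  rw [avg_mul_lf, avg_add, avg_sub, avg_add, avg_const, avg_mul, avg_mul, avg_mul, lf_sq, lf_four, lf_six] at h2
  have h3 : W1 f ≤ 1 := (W1_le_sq f).trans (avg_le fun x => by
    have := hf x
    rw [← sq_abs]; nlinarith [abs_nonneg (f x)])
  have h4 : 0 ≤ ∑ i, co f i ^ 4 := Finset.sum_nonneg fun i _ => by positivity
  have h6 : ∑ i, co f i ^ 6 ≤ (7 / 25) ^ 2 * ∑ i, co f i ^ 4 := by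
    rw [Finset.mul_sum]
    refine Finset.sum_le_sum fun i _ => ?_
    have a1 : co f i ^ 2 ≤ (7 / 25) ^ 2 := by
      rw [← sq_abs]; exact pow_le_pow_left₀ (abs_nonneg _) (h i) 2
    have a2 : 0 ≤ co f i ^ 4 := by positivity
    calc co f i ^ 6 = co f i ^ 2 * co f i ^ 4 := by ring
      _ ≤ _ := mul_le_mul_of_nonneg_right a1 a2
  have e : ∑ i, co f i ^ 2 = W1 f := rfl
  rw [e] at h2
  by_contra hc
  rw [not_le] at hc
  set W := W1 f
  have h7 : 4 / 5 * ∑ i, co f i ^ 4 ≤ W * ∑ i, co f i ^ 4 := mul_le_mul_of_nonneg_right hc.le h4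
  nlinarith [mul_nonneg (sub_nonneg.2 hc.le) (sub_nonneg.2 h3), mul_nonneg (mul_nonneg (sub_nonneg.2 hc.le) (sub_nonneg.2 h3)) (sub_nonneg.2 hc.le)]

theorem W1_bar {f : (Fin (n + 1) → Bool) → ℝ} (hf : ∀ x, f x = 1 ∨ f x = -1) :
    W1 (bar f) ≤ 1 - |co f 0| ∧ W1 (bar f) ^ 2 ≤ 3 * (1 - |co f 0|) ^ 3 := by
  have := hnc_core (h := bar f) (d := hna_d f)
    (fun x => by
      rcases hf (Fin.cons false x) with a | a <;> rcases hf (Fin.cons true x) with b | b <;>
        simp only [bar, sl, a, b] <;> norm_num)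
    (fun x => by
      rcases hf (Fin.cons false x) with a | a <;> rcases hf (Fin.cons true x) with b | b <;>
        simp only [bar, hna_d, sl, a, b] <;> norm_num)
  rwa [hna_avgd] at this

theorem W1_case {f : (Fin (n + 1) → Bool) → ℝ} (hf : ∀ x, f x = 1 ∨ f x = -1)
    (hmax : ∀ i, |co f i| ≤ |co f 0|) (h : |co f 0| ≤ 81 / 100) : W1 f ≤ 4 / 5 := by
  by_cases h1 : |co f 0| ≤ 7 / 25
  · exact W1_small (fun x => by rcases hf x with a | a <;> simp [a]) fun i => (hmax i).trans h1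
  rw [not_le] at h1
  obtain ⟨h2, h3⟩ := W1_bar hf
  have h0 := W1_nonneg (bar f)
  rw [W1_succ, ← sq_abs]
  set t := |co f 0|
  set w := W1 (bar f)
  by_cases h4 : t ≤ 2 / 3
  · nlinarith
  rw [not_le] at h4
  have h5 : 0 ≤ 4 / 5 - t ^ 2 := by nlinarith
  have h6 : 3 * (1 - t) ^ 3 ≤ (4 / 5 - t ^ 2) ^ 2 := by
    nlinarith [mul_nonneg (sub_nonneg.2 h4.le) (sub_nonneg.2 h), mul_nonneg (mul_nonneg (sub_nonneg.2 h4.le) (sub_nonneg.2 h)) (sub_nonneg.2 h4.le),
      mul_nonneg (mul_nonneg (sub_nonneg.2 h4.le) (sub_nonneg.2 h)) (sub_nonneg.2 h), mul_nonneg (mul_nonneg (sub_nonneg.2 h4.le) (sub_nonneg.2 h)) (sq_nonneg t)]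
  have := abs_le_of_sq_le_sq' (h3.trans h6) h5
  linarith [this.2]

end Crest.Agent.R307
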