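import Crest.Agent.R307.IA3
import Crest.Agent.R307.IAx
set_option autoImplicit false
set_option linter.unusedVariables false
set_option maxRecDepth 20000
namespace Crest.Agent.R307.HNcI
open Crest.Agent.R307.IA Crest.Agent.R307.IA3

theorem In_cast {e1 e2 e3 : ℝ} {x y1 y2 y3 r : ℕ} {v w : ℝ}
    (h : In e1 e2 e3 x y1 y2 y3 r v) (e : v = w) : In e1 e2 e3 x y1 y2 y3 r w := e ▸ h

noncomputable def et (p r t : ℝ) : ℝ := (r ^ 2)
noncomputable def mu (p r t : ℝ) : ℝ := (((2:ℝ) * t) - (1:ℝ))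
noncomputable def m (p r t : ℝ) : ℝ := ((mu p r t) * (et p r t))
noncomputable def C (p r t : ℝ) : ℝ := (√((1:ℝ) - ((m p r t) ^ 2)))
noncomputable def d (p r t : ℝ) : ℝ := ((1:ℝ) - (et p r t))
noncomputable def x (p r t : ℝ) : ℝ := (p ^ 2)
noncomputable def z (p r t : ℝ) : ℝ := (√(((1:ℝ) - ((m p r t) ^ 2)) - ((x p r t) * ((d p r t) ^ 2))))
noncomputable def s (p r t : ℝ) : ℝ := (√((1:ℝ) - (x p r t)))
noncomputable def T1 (p r t : ℝ) : ℝ := (((((2:ℝ) - (et p r t)) - (((mu p r t) * (m p r t)) / ((1:ℝ) + (C p r t)))) + (((((2:ℝ) - (et p r t)) * (((1:ℝ) + ((d p r t) ^ 2)) - ((x p r t) * ((d p r t) ^ 2)))) - ((mu p r t) * (m p r t))) / ((z p r t) + ((s p r t) * ((d p r t) ^ 2))))) / (((1:ℝ) + (s p r t)) * ((C p r t) + (z p r t))))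
noncomputable def lp (p r t : ℝ) : ℝ := ((81/64:ℝ) / (((2:ℝ) * (z p r t)) * (((1:ℝ) + (z p r t)) ^ 2)))
noncomputable def B (p r t : ℝ) : ℝ := ((17/64:ℝ) + ((z p r t) ^ 2))
noncomputable def lam (p r t : ℝ) : ℝ := ((lp p r t) * ((B p r t) ^ 2))
noncomputable def T2 (p r t : ℝ) : ℝ := ((((((lam p r t) * (4:ℝ)) * (mu p r t)) * (m p r t)) * ((d p r t) ^ 2)) / ((B p r t) * (((B p r t) ^ 2) - ((((4:ℝ) * ((m p r t) ^ 2)) * (x p r t)) * ((d p r t) ^ 2)))))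
noncomputable def nu (p r t : ℝ) : ℝ := (((1:ℝ) / ((2:ℝ) * (z p r t))) - (lp p r t))
noncomputable def T3 (p r t : ℝ) : ℝ := ((nu p r t) * ((((17321/10000:ℝ) * r) * ((1:ℝ) - (x p r t))) + ((x p r t) * (((2:ℝ) - (et p r t)) - ((mu p r t) * (m p r t))))))
noncomputable def A0 (p r t : ℝ) : ℝ := (t * ((81/10:ℝ) - (((16:ℝ) * (et p r t)) * t)))
noncomputable def B1 (p r t : ℝ) : ℝ := (((1:ℝ) - t) * (39/10:ℝ))
noncomputable def ep1 (p r t : ℝ) : ℝ := (((((1:ℝ) - p) / (2:ℝ)) * (A0 p r t)) + ((((1:ℝ) + p) / (2:ℝ)) * (B1 p r t)))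
noncomputable def X1 (p r t : ℝ) : ℝ := (((9/8:ℝ) + (m p r t)) + (p * (d p r t)))
noncomputable def ep2 (p r t : ℝ) : ℝ := (((((1:ℝ) + p) / (2:ℝ)) * (A0 p r t)) + ((((1:ℝ) - p) / (2:ℝ)) * (B1 p r t)))
noncomputable def X2 (p r t : ℝ) : ℝ := (((9/8:ℝ) + (m p r t)) - (p * (d p r t)))
noncomputable def A1 (p r t : ℝ) : ℝ := (((1:ℝ) - t) * ((81/10:ℝ) - (((16:ℝ) * (et p r t)) * ((1:ℝ) - t))))
noncomputable def B0 (p r t : ℝ) : ℝ := (t * (39/10:ℝ))
noncomputable def ep3 (p r t : ℝ) : ℝ := (((((1:ℝ) + p) / (2:ℝ)) * (A1 p r t)) + ((((1:ℝ) - p) / (2:ℝ)) * (B0 p r t)))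
noncomputable def X3 (p r t : ℝ) : ℝ := (((9/8:ℝ) - (m p r t)) - (p * (d p r t)))
noncomputable def ep4 (p r t : ℝ) : ℝ := (((((1:ℝ) - p) / (2:ℝ)) * (A1 p r t)) + ((((1:ℝ) + p) / (2:ℝ)) * (B0 p r t)))
noncomputable def X4 (p r t : ℝ) : ℝ := (((9/8:ℝ) - (m p r t)) + (p * (d p r t)))
noncomputable def T4 (p r t : ℝ) : ℝ := (((lam p r t) / (9/2:ℝ)) * (((((ep1 p r t) / ((X1 p r t) * ((X1 p r t) - (((x p r t) * (et p r t)) * (ep1 p r t))))) + ((ep2 p r t) / ((X2 p r t) * ((X2 p r t) - (((x p r t) * (et p r t)) * (ep2 p r t)))))) + ((ep3 p r t) / ((X3 p r t) * ((X3 p r t) - (((x p r t) * (et p r t)) * (ep3 p r t)))))) + ((ep4 p r t) / ((X4 p r t) * ((X4 p r t) - (((x p r t) * (et p r t)) * (ep4 p r t)))))))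

def Q (p r t : ℝ) : Prop :=
  (
  (0 < ((((T1 p r t) - (T2 p r t)) - (T3 p r t)) - (T4 p r t)) ∧ 0 < (nu p r t) ∧ 0 < (((((z p r t) ^ 2) * (9/8:ℝ)) * (9/8:ℝ)) - ((17/64:ℝ) * (((1:ℝ) + (z p r t)) ^ 2)))))

noncomputable def alt0 (z1 w1 z2 w2 z3 w3 : ℕ) : Bool :=
  sqK z1 (Nat.add w1 1152921504606846976) 1152921504606846976 1152921504606846976 0 fun c1 a1_1 a1_2 a1_3 q1 =>
  negK c1 a1_1 a1_2 a1_3 q1 fun c3 a3_1 a3_2 a3_3 q3 =>
  addcK c3 a3_1 a3_2 a3_3 q3 1152922604118474752 0 fun c4 a4_1 a4_2 a4_3 q4 =>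
  sqrtK c4 a4_1 a4_2 a4_3 q4 fun c6 a6_1 a6_2 a6_3 q6 =>
  addcK c6 a6_1 a6_2 a6_3 q6 1152922604118474752 0 fun c8 a8_1 a8_2 a8_3 q8 =>
  smulK 2 1 1152921504606846977 2305843009213693952 z3 1152921504606846976 1152921504606846976 (Nat.add w3 1152921504606846976) 0 fun c10 a10_1 a10_2 a10_3 q10 =>
  addcK c10 a10_1 a10_2 a10_3 q10 1152920405095219200 0 fun c11 a11_1 a11_2 a11_3 q11 =>
  sqK z2 1152921504606846976 (Nat.add w2 1152921504606846976) 1152921504606846976 0 fun c14 a14_1 a14_2 a14_3 q14 =>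
  mulK c11 a11_1 a11_2 a11_3 q11 c14 a14_1 a14_2 a14_3 q14 fun c16 a16_1 a16_2 a16_3 q16 =>
  sqK c16 a16_1 a16_2 a16_3 q16 fun c18 a18_1 a18_2 a18_3 q18 =>
  negK c18 a18_1 a18_2 a18_3 q18 fun c19 a19_1 a19_2 a19_3 q19 =>
  addcK c19 a19_1 a19_2 a19_3 q19 1152922604118474752 0 fun c20 a20_1 a20_2 a20_3 q20 =>
  sqrtK c20 a20_1 a20_2 a20_3 q20 fun c22 a22_1 a22_2 a22_3 q22 =>
  negK c14 a14_1 a14_2 a14_3 q14 fun c24 a24_1 a24_2 a24_3 q24 =>
  addcK c24 a24_1 a24_2 a24_3 q24 1152922604118474752 0 fun c25 a25_1 a25_2 a25_3 q25 =>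
  sqK c25 a25_1 a25_2 a25_3 q25 fun c28 a28_1 a28_2 a28_3 q28 =>
  mulK c1 a1_1 a1_2 a1_3 q1 c28 a28_1 a28_2 a28_3 q28 fun c29 a29_1 a29_2 a29_3 q29 =>
  subK c20 a20_1 a20_2 a20_3 q20 c29 a29_1 a29_2 a29_3 q29 fun c30 a30_1 a30_2 a30_3 q30 =>
  sqrtK c30 a30_1 a30_2 a30_3 q30 fun c31 a31_1 a31_2 a31_3 q31 =>
  addK c22 a22_1 a22_2 a22_3 q22 c31 a31_1 a31_2 a31_3 q31 fun c33 a33_1 a33_2 a33_3 q33 =>
  mulK c8 a8_1 a8_2 a8_3 q8 c33 a33_1 a33_2 a33_3 q33 fun c34 a34_1 a34_2 a34_3 q34 =>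
  invK c34 a34_1 a34_2 a34_3 q34 fun c35 a35_1 a35_2 a35_3 q35 =>
  negK c14 a14_1 a14_2 a14_3 q14 fun c36 a36_1 a36_2 a36_3 q36 =>
  addcK c36 a36_1 a36_2 a36_3 q36 1152923703630102528 0 fun c37 a37_1 a37_2 a37_3 q37 =>
  addcK c22 a22_1 a22_2 a22_3 q22 1152922604118474752 0 fun c39 a39_1 a39_2 a39_3 q39 =>
  invK c39 a39_1 a39_2 a39_3 q39 fun c41 a41_1 a41_2 a41_3 q41 =>
  mulK c11 a11_1 a11_2 a11_3 q11 c16 a16_1 a16_2 a16_3 q16 fun c42 a42_1 a42_2 a42_3 q42 =>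
  mulK c42 a42_1 a42_2 a42_3 q42 c41 a41_1 a41_2 a41_3 q41 fun c43 a43_1 a43_2 a43_3 q43 =>
  subK c37 a37_1 a37_2 a37_3 q37 c43 a43_1 a43_2 a43_3 q43 fun c45 a45_1 a45_2 a45_3 q45 =>
  mulK c6 a6_1 a6_2 a6_3 q6 c28 a28_1 a28_2 a28_3 q28 fun c46 a46_1 a46_2 a46_3 q46 =>
  addK c31 a31_1 a31_2 a31_3 q31 c46 a46_1 a46_2 a46_3 q46 fun c47 a47_1 a47_2 a47_3 q47 =>
  invK c47 a47_1 a47_2 a47_3 q47 fun c48 a48_1 a48_2 a48_3 q48 =>
  addcK c28 a28_1 a28_2 a28_3 q28 1152922604118474752 0 fun c49 a49_1 a49_2 a49_3 q49 =>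
  subK c49 a49_1 a49_2 a49_3 q49 c29 a29_1 a29_2 a29_3 q29 fun c51 a51_1 a51_2 a51_3 q51 =>
  mulK c37 a37_1 a37_2 a37_3 q37 c51 a51_1 a51_2 a51_3 q51 fun c52 a52_1 a52_2 a52_3 q52 =>
  subK c52 a52_1 a52_2 a52_3 q52 c42 a42_1 a42_2 a42_3 q42 fun c53 a53_1 a53_2 a53_3 q53 =>
  mulK c53 a53_1 a53_2 a53_3 q53 c48 a48_1 a48_2 a48_3 q48 fun c54 a54_1 a54_2 a54_3 q54 =>
  addK c45 a45_1 a45_2 a45_3 q45 c54 a54_1 a54_2 a54_3 q54 fun c56 a56_1 a56_2 a56_3 q56 =>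
  mulK c56 a56_1 a56_2 a56_3 q56 c35 a35_1 a35_2 a35_3 q35 fun c57 a57_1 a57_2 a57_3 q57 =>
  sqK c31 a31_1 a31_2 a31_3 q31 fun c60 a60_1 a60_2 a60_3 q60 =>
  addcK c60 a60_1 a60_2 a60_3 q60 1152921796664623104 0 fun c61 a61_1 a61_2 a61_3 q61 =>
  sqK c61 a61_1 a61_2 a61_3 q61 fun c64 a64_1 a64_2 a64_3 q64 =>
  smulK 4 1 1152921504606846977 4611686018427387904 c18 a18_1 a18_2 a18_3 q18 fun c65 a65_1 a65_2 a65_3 q65 =>
  mulK c65 a65_1 a65_2 a65_3 q65 c1 a1_1 a1_2 a1_3 q1 fun c66 a66_1 a66_2 a66_3 q66 =>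
  mulK c66 a66_1 a66_2 a66_3 q66 c28 a28_1 a28_2 a28_3 q28 fun c67 a67_1 a67_2 a67_3 q67 =>
  subK c64 a64_1 a64_2 a64_3 q64 c67 a67_1 a67_2 a67_3 q67 fun c68 a68_1 a68_2 a68_3 q68 =>
  mulK c61 a61_1 a61_2 a61_3 q61 c68 a68_1 a68_2 a68_3 q68 fun c69 a69_1 a69_2 a69_3 q69 =>
  invK c69 a69_1 a69_2 a69_3 q69 fun c70 a70_1 a70_2 a70_3 q70 =>
  smulK 2 1 1152921504606846977 2305843009213693952 c31 a31_1 a31_2 a31_3 q31 fun c71 a71_1 a71_2 a71_3 q71 =>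
  addcK c31 a31_1 a31_2 a31_3 q31 1152922604118474752 0 fun c72 a72_1 a72_2 a72_3 q72 =>
  sqK c72 a72_1 a72_2 a72_3 q72 fun c74 a74_1 a74_2 a74_3 q74 =>
  mulK c71 a71_1 a71_2 a71_3 q71 c74 a74_1 a74_2 a74_3 q74 fun c75 a75_1 a75_2 a75_3 q75 =>
  invK c75 a75_1 a75_2 a75_3 q75 fun c76 a76_1 a76_2 a76_3 q76 =>
  smulK 81 64 73786976294838206528 93386641873154605056 c76 a76_1 a76_2 a76_3 q76 fun c77 a77_1 a77_2 a77_3 q77 =>
  mulK c77 a77_1 a77_2 a77_3 q77 c64 a64_1 a64_2 a64_3 q64 fun c80 a80_1 a80_2 a80_3 q80 =>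
  smulK 4 1 1152921504606846977 4611686018427387904 c80 a80_1 a80_2 a80_3 q80 fun c82 a82_1 a82_2 a82_3 q82 =>
  mulK c82 a82_1 a82_2 a82_3 q82 c11 a11_1 a11_2 a11_3 q11 fun c84 a84_1 a84_2 a84_3 q84 =>
  mulK c84 a84_1 a84_2 a84_3 q84 c16 a16_1 a16_2 a16_3 q16 fun c85 a85_1 a85_2 a85_3 q85 =>
  mulK c85 a85_1 a85_2 a85_3 q85 c28 a28_1 a28_2 a28_3 q28 fun c86 a86_1 a86_2 a86_3 q86 =>
  mulK c86 a86_1 a86_2 a86_3 q86 c70 a70_1 a70_2 a70_3 q70 fun c87 a87_1 a87_2 a87_3 q87 =>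
  subK c57 a57_1 a57_2 a57_3 q57 c87 a87_1 a87_2 a87_3 q87 fun c90 a90_1 a90_2 a90_3 q90 =>
  invK c71 a71_1 a71_2 a71_3 q71 fun c91 a91_1 a91_2 a91_3 q91 =>
  subK c91 a91_1 a91_2 a91_3 q91 c77 a77_1 a77_2 a77_3 q77 fun c93 a93_1 a93_2 a93_3 q93 =>
  smulK 17321 10000 11529215046068469770000 19969753381295196471296 z2 1152921504606846976 (Nat.add w2 1152921504606846976) 1152921504606846976 0 fun c95 a95_1 a95_2 a95_3 q95 =>
  mulK c95 a95_1 a95_2 a95_3 q95 c4 a4_1 a4_2 a4_3 q4 fun c96 a96_1 a96_2 a96_3 q96 =>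
  subK c37 a37_1 a37_2 a37_3 q37 c42 a42_1 a42_2 a42_3 q42 fun c97 a97_1 a97_2 a97_3 q97 =>
  mulK c1 a1_1 a1_2 a1_3 q1 c97 a97_1 a97_2 a97_3 q97 fun c98 a98_1 a98_2 a98_3 q98 =>
  addK c96 a96_1 a96_2 a96_3 q96 c98 a98_1 a98_2 a98_3 q98 fun c99 a99_1 a99_2 a99_3 q99 =>
  mulK c93 a93_1 a93_2 a93_3 q93 c99 a99_1 a99_2 a99_3 q99 fun c100 a100_1 a100_2 a100_3 q100 =>
  subK c90 a90_1 a90_2 a90_3 q90 c100 a100_1 a100_2 a100_3 q100 fun c102 a102_1 a102_2 a102_3 q102 =>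
  smulK 2 9 10376293541461622793 2305843009213693952 c80 a80_1 a80_2 a80_3 q80 fun c103 a103_1 a103_2 a103_3 q103 =>
  addcK c16 a16_1 a16_2 a16_3 q16 1152922741557428224 0 fun c105 a105_1 a105_2 a105_3 q105 =>
  mulK z1 (Nat.add w1 1152921504606846976) 1152921504606846976 1152921504606846976 0 c25 a25_1 a25_2 a25_3 q25 fun c107 a107_1 a107_2 a107_3 q107 =>
  addK c105 a105_1 a105_2 a105_3 q105 c107 a107_1 a107_2 a107_3 q107 fun c108 a108_1 a108_2 a108_3 q108 =>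
  mulK c1 a1_1 a1_2 a1_3 q1 c14 a14_1 a14_2 a14_3 q14 fun c110 a110_1 a110_2 a110_3 q110 =>
  negK z1 (Nat.add w1 1152921504606846976) 1152921504606846976 1152921504606846976 0 fun c111 a111_1 a111_2 a111_3 q111 =>
  addcK c111 a111_1 a111_2 a111_3 q111 1152922604118474752 0 fun c112 a112_1 a112_2 a112_3 q112 =>
  smulK 1 2 2305843009213693954 1152921504606846976 c112 a112_1 a112_2 a112_3 q112 fun c114 a114_1 a114_2 a114_3 q114 =>
  smulK 16 1 1152921504606846977 18446744073709551616 c14 a14_1 a14_2 a14_3 q14 fun c116 a116_1 a116_2 a116_3 q116 =>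
  mulK c116 a116_1 a116_2 a116_3 q116 z3 1152921504606846976 1152921504606846976 (Nat.add w3 1152921504606846976) 0 fun c117 a117_1 a117_2 a117_3 q117 =>
  negK c117 a117_1 a117_2 a117_3 q117 fun c118 a118_1 a118_2 a118_3 q118 =>
  addcK c118 a118_1 a118_2 a118_3 q118 1152930410651031962 1 fun c119 a119_1 a119_2 a119_3 q119 =>
  mulK z3 1152921504606846976 1152921504606846976 (Nat.add w3 1152921504606846976) 0 c119 a119_1 a119_2 a119_3 q119 fun c121 a121_1 a121_2 a121_3 q121 =>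
  mulK c114 a114_1 a114_2 a114_3 q114 c121 a121_1 a121_2 a121_3 q121 fun c123 a123_1 a123_2 a123_3 q123 =>
  addcK z1 (Nat.add w1 1152921504606846976) 1152921504606846976 1152921504606846976 0 1152922604118474752 0 fun c124 a124_1 a124_2 a124_3 q124 =>
  smulK 1 2 2305843009213693954 1152921504606846976 c124 a124_1 a124_2 a124_3 q124 fun c126 a126_1 a126_2 a126_3 q126 =>
  negK z3 1152921504606846976 1152921504606846976 (Nat.add w3 1152921504606846976) 0 fun c128 a128_1 a128_2 a128_3 q128 =>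
  addcK c128 a128_1 a128_2 a128_3 q128 1152922604118474752 0 fun c129 a129_1 a129_2 a129_3 q129 =>
  smulK 39 10 11529215046068469770 44963938679667032064 c129 a129_1 a129_2 a129_3 q129 fun c131 a131_1 a131_2 a131_3 q131 =>
  mulK c126 a126_1 a126_2 a126_3 q126 c131 a131_1 a131_2 a131_3 q131 fun c134 a134_1 a134_2 a134_3 q134 =>
  addK c123 a123_1 a123_2 a123_3 q123 c134 a134_1 a134_2 a134_3 q134 fun c135 a135_1 a135_2 a135_3 q135 =>
  mulK c110 a110_1 a110_2 a110_3 q110 c135 a135_1 a135_2 a135_3 q135 fun c137 a137_1 a137_2 a137_3 q137 =>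
  subK c108 a108_1 a108_2 a108_3 q108 c137 a137_1 a137_2 a137_3 q137 fun c138 a138_1 a138_2 a138_3 q138 =>
  mulK c108 a108_1 a108_2 a108_3 q108 c138 a138_1 a138_2 a138_3 q138 fun c139 a139_1 a139_2 a139_3 q139 =>
  invK c139 a139_1 a139_2 a139_3 q139 fun c140 a140_1 a140_2 a140_3 q140 =>
  mulK c135 a135_1 a135_2 a135_3 q135 c140 a140_1 a140_2 a140_3 q140 fun c141 a141_1 a141_2 a141_3 q141 =>
  subK c105 a105_1 a105_2 a105_3 q105 c107 a107_1 a107_2 a107_3 q107 fun c143 a143_1 a143_2 a143_3 q143 =>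
  mulK c126 a126_1 a126_2 a126_3 q126 c121 a121_1 a121_2 a121_3 q121 fun c145 a145_1 a145_2 a145_3 q145 =>
  mulK c114 a114_1 a114_2 a114_3 q114 c131 a131_1 a131_2 a131_3 q131 fun c146 a146_1 a146_2 a146_3 q146 =>
  addK c145 a145_1 a145_2 a145_3 q145 c146 a146_1 a146_2 a146_3 q146 fun c147 a147_1 a147_2 a147_3 q147 =>
  mulK c110 a110_1 a110_2 a110_3 q110 c147 a147_1 a147_2 a147_3 q147 fun c149 a149_1 a149_2 a149_3 q149 =>
  subK c143 a143_1 a143_2 a143_3 q143 c149 a149_1 a149_2 a149_3 q149 fun c150 a150_1 a150_2 a150_3 q150 =>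
  mulK c143 a143_1 a143_2 a143_3 q143 c150 a150_1 a150_2 a150_3 q150 fun c151 a151_1 a151_2 a151_3 q151 =>
  invK c151 a151_1 a151_2 a151_3 q151 fun c152 a152_1 a152_2 a152_3 q152 =>
  mulK c147 a147_1 a147_2 a147_3 q147 c152 a152_1 a152_2 a152_3 q152 fun c153 a153_1 a153_2 a153_3 q153 =>
  addK c141 a141_1 a141_2 a141_3 q141 c153 a153_1 a153_2 a153_3 q153 fun c155 a155_1 a155_2 a155_3 q155 =>
  negK c16 a16_1 a16_2 a16_3 q16 fun c156 a156_1 a156_2 a156_3 q156 =>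
  addcK c156 a156_1 a156_2 a156_3 q156 1152922741557428224 0 fun c157 a157_1 a157_2 a157_3 q157 =>
  subK c157 a157_1 a157_2 a157_3 q157 c107 a107_1 a107_2 a107_3 q107 fun c159 a159_1 a159_2 a159_3 q159 =>
  mulK c116 a116_1 a116_2 a116_3 q116 c129 a129_1 a129_2 a129_3 q129 fun c161 a161_1 a161_2 a161_3 q161 =>
  negK c161 a161_1 a161_2 a161_3 q161 fun c162 a162_1 a162_2 a162_3 q162 =>
  addcK c162 a162_1 a162_2 a162_3 q162 1152930410651031962 1 fun c163 a163_1 a163_2 a163_3 q163 =>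
  mulK c129 a129_1 a129_2 a129_3 q129 c163 a163_1 a163_2 a163_3 q163 fun c165 a165_1 a165_2 a165_3 q165 =>
  mulK c126 a126_1 a126_2 a126_3 q126 c165 a165_1 a165_2 a165_3 q165 fun c167 a167_1 a167_2 a167_3 q167 =>
  smulK 39 10 11529215046068469770 44963938679667032064 z3 1152921504606846976 1152921504606846976 (Nat.add w3 1152921504606846976) 0 fun c168 a168_1 a168_2 a168_3 q168 =>
  mulK c114 a114_1 a114_2 a114_3 q114 c168 a168_1 a168_2 a168_3 q168 fun c171 a171_1 a171_2 a171_3 q171 =>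
  addK c167 a167_1 a167_2 a167_3 q167 c171 a171_1 a171_2 a171_3 q171 fun c172 a172_1 a172_2 a172_3 q172 =>
  mulK c110 a110_1 a110_2 a110_3 q110 c172 a172_1 a172_2 a172_3 q172 fun c174 a174_1 a174_2 a174_3 q174 =>
  subK c159 a159_1 a159_2 a159_3 q159 c174 a174_1 a174_2 a174_3 q174 fun c175 a175_1 a175_2 a175_3 q175 =>
  mulK c159 a159_1 a159_2 a159_3 q159 c175 a175_1 a175_2 a175_3 q175 fun c176 a176_1 a176_2 a176_3 q176 =>
  invK c176 a176_1 a176_2 a176_3 q176 fun c177 a177_1 a177_2 a177_3 q177 =>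
  mulK c172 a172_1 a172_2 a172_3 q172 c177 a177_1 a177_2 a177_3 q177 fun c178 a178_1 a178_2 a178_3 q178 =>
  addK c155 a155_1 a155_2 a155_3 q155 c178 a178_1 a178_2 a178_3 q178 fun c180 a180_1 a180_2 a180_3 q180 =>
  addK c157 a157_1 a157_2 a157_3 q157 c107 a107_1 a107_2 a107_3 q107 fun c181 a181_1 a181_2 a181_3 q181 =>
  mulK c114 a114_1 a114_2 a114_3 q114 c165 a165_1 a165_2 a165_3 q165 fun c183 a183_1 a183_2 a183_3 q183 =>
  mulK c126 a126_1 a126_2 a126_3 q126 c168 a168_1 a168_2 a168_3 q168 fun c184 a184_1 a184_2 a184_3 q184 =>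
  addK c183 a183_1 a183_2 a183_3 q183 c184 a184_1 a184_2 a184_3 q184 fun c185 a185_1 a185_2 a185_3 q185 =>
  mulK c110 a110_1 a110_2 a110_3 q110 c185 a185_1 a185_2 a185_3 q185 fun c187 a187_1 a187_2 a187_3 q187 =>
  subK c181 a181_1 a181_2 a181_3 q181 c187 a187_1 a187_2 a187_3 q187 fun c188 a188_1 a188_2 a188_3 q188 =>
  mulK c181 a181_1 a181_2 a181_3 q181 c188 a188_1 a188_2 a188_3 q188 fun c189 a189_1 a189_2 a189_3 q189 =>
  invK c189 a189_1 a189_2 a189_3 q189 fun c190 a190_1 a190_2 a190_3 q190 =>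
  mulK c185 a185_1 a185_2 a185_3 q185 c190 a190_1 a190_2 a190_3 q190 fun c191 a191_1 a191_2 a191_3 q191 =>
  addK c180 a180_1 a180_2 a180_3 q180 c191 a191_1 a191_2 a191_3 q191 fun c193 a193_1 a193_2 a193_3 q193 =>
  mulK c103 a103_1 a103_2 a103_3 q103 c193 a193_1 a193_2 a193_3 q193 fun c194 a194_1 a194_2 a194_3 q194 =>
  subK c102 a102_1 a102_2 a102_3 q102 c194 a194_1 a194_2 a194_3 q194 fun c196 a196_1 a196_2 a196_3 q196 =>
  posK c196 a196_1 a196_2 a196_3 q196 <|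
  posK c93 a93_1 a93_2 a93_3 q93 <|
  smulK 9 8 9223372036854775816 10376293541461622784 c60 a60_1 a60_2 a60_3 q60 fun c197 a197_1 a197_2 a197_3 q197 =>
  smulK 9 8 9223372036854775816 10376293541461622784 c197 a197_1 a197_2 a197_3 q197 fun c199 a199_1 a199_2 a199_3 q199 =>
  smulK 17 64 73786976294838206528 19599665578316398592 c74 a74_1 a74_2 a74_3 q74 fun c201 a201_1 a201_2 a201_3 q201 =>
  subK c199 a199_1 a199_2 a199_3 q199 c201 a201_1 a201_2 a201_3 q201 fun c202 a202_1 a202_2 a202_3 q202 =>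
  pos c202 a202_1 a202_2 a202_3 q202

theorem alt0_s {z1 w1 z2 w2 z3 w3 : ℕ} {e1 e2 e3 p r t : ℝ} (he : Ev e1 e2 e3)
    (hx1 : In e1 e2 e3 z1 (Nat.add w1 1152921504606846976) 1152921504606846976 1152921504606846976 0 p)
    (hx2 : In e1 e2 e3 z2 1152921504606846976 (Nat.add w2 1152921504606846976) 1152921504606846976 0 r)
    (hx3 : In e1 e2 e3 z3 1152921504606846976 1152921504606846976 (Nat.add w3 1152921504606846976) 0 t)
    (H0 : alt0 z1 w1 z2 w2 z3 w3 = true) : 0 < ((((T1 p r t) - (T2 p r t)) - (T3 p r t)) - (T4 p r t)) ∧ 0 < (nu p r t) ∧ 0 < (((((z p r t) ^ 2) * (9/8:ℝ)) * (9/8:ℝ)) - ((17/64:ℝ) * (((1:ℝ) + (z p r t)) ^ 2))) := by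
  unfold alt0 at H0
  refine sqK_s he hx1 (fun _ _ _ _ _ h1 H1 => ?_) H0
  have h2 := In_cast (w := (x p r t)) h1 rfl
  refine negK_s he h2 (fun _ _ _ _ _ h3 H2 => ?_) H1
  refine addcK_s he h3 (v' := (1:ℝ)) (by norm_num [SS, BB, abs_le]) (fun _ _ _ _ _ h4 H3 => ?_) H2
  have h5 := In_cast h4 (neg_add_eq_sub _ _)
  refine sqrtK_s he h5 (fun _ _ _ _ _ h6 H4 => ?_) H3
  have h7 := In_cast (w := (s p r t)) h6 rfl
  refine addcK_s he h7 (v' := (1:ℝ)) (by norm_num [SS, BB, abs_le]) (fun _ _ _ _ _ h8 H5 => ?_) H4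
  have h9 := In_cast h8 (add_comm _ _)
  refine smulK_s he (w := (2:ℝ)) (by norm_num) (by norm_num) (by norm_num) (by norm_num) hx3 (fun _ _ _ _ _ h10 H6 => ?_) H5
  refine addcK_s he h10 (v' := (-1:ℝ)) (by norm_num [SS, BB, abs_le]) (fun _ _ _ _ _ h11 H7 => ?_) H6
  have h12 := In_cast h11 (sub_c (c := (1:ℝ)) (by norm_num))
  have h13 := In_cast (w := (mu p r t)) h12 rfl
  refine sqK_s he hx2 (fun _ _ _ _ _ h14 H8 => ?_) H7
  have h15 := In_cast (w := (et p r t)) h14 rfl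
  refine mulK_s he h13 h15 (fun _ _ _ _ _ h16 H9 => ?_) H8
  have h17 := In_cast (w := (m p r t)) h16 rfl
  refine sqK_s he h17 (fun _ _ _ _ _ h18 H10 => ?_) H9
  refine negK_s he h18 (fun _ _ _ _ _ h19 H11 => ?_) H10
  refine addcK_s he h19 (v' := (1:ℝ)) (by norm_num [SS, BB, abs_le]) (fun _ _ _ _ _ h20 H12 => ?_) H11
  have h21 := In_cast h20 (neg_add_eq_sub _ _)
  refine sqrtK_s he h21 (fun _ _ _ _ _ h22 H13 => ?_) H12
  have h23 := In_cast (w := (C p r t)) h22 rfl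
  refine negK_s he h15 (fun _ _ _ _ _ h24 H14 => ?_) H13
  refine addcK_s he h24 (v' := (1:ℝ)) (by norm_num [SS, BB, abs_le]) (fun _ _ _ _ _ h25 H15 => ?_) H14
  have h26 := In_cast h25 (neg_add_eq_sub _ _)
  have h27 := In_cast (w := (d p r t)) h26 rfl
  refine sqK_s he h27 (fun _ _ _ _ _ h28 H16 => ?_) H15
  refine mulK_s he h2 h28 (fun _ _ _ _ _ h29 H17 => ?_) H16
  refine subK_s he h21 h29 (fun _ _ _ _ _ h30 H18 => ?_) H17
  refine sqrtK_s he h30 (fun _ _ _ _ _ h31 H19 => ?_) H18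
  have h32 := In_cast (w := (z p r t)) h31 rfl
  refine addK_s he h23 h32 (fun _ _ _ _ _ h33 H20 => ?_) H19
  refine mulK_s he h9 h33 (fun _ _ _ _ _ h34 H21 => ?_) H20
  refine invK_s he h34 (fun _ _ _ _ _ h35 H22 => ?_) H21
  refine negK_s he h15 (fun _ _ _ _ _ h36 H23 => ?_) H22
  refine addcK_s he h36 (v' := (2:ℝ)) (by norm_num [SS, BB, abs_le]) (fun _ _ _ _ _ h37 H24 => ?_) H23
  have h38 := In_cast h37 (neg_add_eq_sub _ _)
  refine addcK_s he h23 (v' := (1:ℝ)) (by norm_num [SS, BB, abs_le]) (fun _ _ _ _ _ h39 H25 => ?_) H24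
  have h40 := In_cast h39 (add_comm _ _)
  refine invK_s he h40 (fun _ _ _ _ _ h41 H26 => ?_) H25
  refine mulK_s he h13 h17 (fun _ _ _ _ _ h42 H27 => ?_) H26
  refine mulK_s he h42 h41 (fun _ _ _ _ _ h43 H28 => ?_) H27
  have h44 := In_cast h43 ((div_eq_mul_inv _ _).symm)
  refine subK_s he h38 h44 (fun _ _ _ _ _ h45 H29 => ?_) H28
  refine mulK_s he h7 h28 (fun _ _ _ _ _ h46 H30 => ?_) H29
  refine addK_s he h32 h46 (fun _ _ _ _ _ h47 H31 => ?_) H30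
  refine invK_s he h47 (fun _ _ _ _ _ h48 H32 => ?_) H31
  refine addcK_s he h28 (v' := (1:ℝ)) (by norm_num [SS, BB, abs_le]) (fun _ _ _ _ _ h49 H33 => ?_) H32
  have h50 := In_cast h49 (add_comm _ _)
  refine subK_s he h50 h29 (fun _ _ _ _ _ h51 H34 => ?_) H33
  refine mulK_s he h38 h51 (fun _ _ _ _ _ h52 H35 => ?_) H34
  refine subK_s he h52 h42 (fun _ _ _ _ _ h53 H36 => ?_) H35
  refine mulK_s he h53 h48 (fun _ _ _ _ _ h54 H37 => ?_) H36
  have h55 := In_cast h54 ((div_eq_mul_inv _ _).symm)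
  refine addK_s he h45 h55 (fun _ _ _ _ _ h56 H38 => ?_) H37
  refine mulK_s he h56 h35 (fun _ _ _ _ _ h57 H39 => ?_) H38
  have h58 := In_cast h57 ((div_eq_mul_inv _ _).symm)
  have h59 := In_cast (w := (T1 p r t)) h58 rfl
  refine sqK_s he h32 (fun _ _ _ _ _ h60 H40 => ?_) H39
  refine addcK_s he h60 (v' := (17/64:ℝ)) (by norm_num [SS, BB, abs_le]) (fun _ _ _ _ _ h61 H41 => ?_) H40
  have h62 := In_cast h61 (add_comm _ _)
  have h63 := In_cast (w := (B p r t)) h62 rfl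
  refine sqK_s he h63 (fun _ _ _ _ _ h64 H42 => ?_) H41
  refine smulK_s he (w := (4:ℝ)) (by norm_num) (by norm_num) (by norm_num) (by norm_num) h18 (fun _ _ _ _ _ h65 H43 => ?_) H42
  refine mulK_s he h65 h2 (fun _ _ _ _ _ h66 H44 => ?_) H43
  refine mulK_s he h66 h28 (fun _ _ _ _ _ h67 H45 => ?_) H44
  refine subK_s he h64 h67 (fun _ _ _ _ _ h68 H46 => ?_) H45
  refine mulK_s he h63 h68 (fun _ _ _ _ _ h69 H47 => ?_) H46
  refine invK_s he h69 (fun _ _ _ _ _ h70 H48 => ?_) H47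
  refine smulK_s he (w := (2:ℝ)) (by norm_num) (by norm_num) (by norm_num) (by norm_num) h32 (fun _ _ _ _ _ h71 H49 => ?_) H48
  refine addcK_s he h32 (v' := (1:ℝ)) (by norm_num [SS, BB, abs_le]) (fun _ _ _ _ _ h72 H50 => ?_) H49
  have h73 := In_cast h72 (add_comm _ _)
  refine sqK_s he h73 (fun _ _ _ _ _ h74 H51 => ?_) H50
  refine mulK_s he h71 h74 (fun _ _ _ _ _ h75 H52 => ?_) H51
  refine invK_s he h75 (fun _ _ _ _ _ h76 H53 => ?_) H52
  refine smulK_s he (w := (81/64:ℝ)) (by norm_num) (by norm_num) (by norm_num) (by norm_num) h76 (fun _ _ _ _ _ h77 H54 => ?_) H53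
  have h78 := In_cast h77 ((div_eq_mul_inv _ _).symm)
  have h79 := In_cast (w := (lp p r t)) h78 rfl
  refine mulK_s he h79 h64 (fun _ _ _ _ _ h80 H55 => ?_) H54
  have h81 := In_cast (w := (lam p r t)) h80 rfl
  refine smulK_s he (w := (4:ℝ)) (by norm_num) (by norm_num) (by norm_num) (by norm_num) h81 (fun _ _ _ _ _ h82 H56 => ?_) H55
  have h83 := In_cast h82 (mul_comm _ _)
  refine mulK_s he h83 h13 (fun _ _ _ _ _ h84 H57 => ?_) H56
  refine mulK_s he h84 h17 (fun _ _ _ _ _ h85 H58 => ?_) H57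
  refine mulK_s he h85 h28 (fun _ _ _ _ _ h86 H59 => ?_) H58
  refine mulK_s he h86 h70 (fun _ _ _ _ _ h87 H60 => ?_) H59
  have h88 := In_cast h87 ((div_eq_mul_inv _ _).symm)
  have h89 := In_cast (w := (T2 p r t)) h88 rfl
  refine subK_s he h59 h89 (fun _ _ _ _ _ h90 H61 => ?_) H60
  refine invK_s he h71 (fun _ _ _ _ _ h91 H62 => ?_) H61
  have h92 := In_cast h91 (inv_eq_one_div _)
  refine subK_s he h92 h79 (fun _ _ _ _ _ h93 H63 => ?_) H62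
  have h94 := In_cast (w := (nu p r t)) h93 rfl
  refine smulK_s he (w := (17321/10000:ℝ)) (by norm_num) (by norm_num) (by norm_num) (by norm_num) hx2 (fun _ _ _ _ _ h95 H64 => ?_) H63
  refine mulK_s he h95 h5 (fun _ _ _ _ _ h96 H65 => ?_) H64
  refine subK_s he h38 h42 (fun _ _ _ _ _ h97 H66 => ?_) H65
  refine mulK_s he h2 h97 (fun _ _ _ _ _ h98 H67 => ?_) H66
  refine addK_s he h96 h98 (fun _ _ _ _ _ h99 H68 => ?_) H67
  refine mulK_s he h94 h99 (fun _ _ _ _ _ h100 H69 => ?_) H68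
  have h101 := In_cast (w := (T3 p r t)) h100 rfl
  refine subK_s he h90 h101 (fun _ _ _ _ _ h102 H70 => ?_) H69
  refine smulK_s he (w := (2/9:ℝ)) (by norm_num) (by norm_num) (by norm_num) (by norm_num) h81 (fun _ _ _ _ _ h103 H71 => ?_) H70
  have h104 := In_cast h103 (div_c (c := (9/2:ℝ)) (by norm_num))
  refine addcK_s he h17 (v' := (9/8:ℝ)) (by norm_num [SS, BB, abs_le]) (fun _ _ _ _ _ h105 H72 => ?_) H71
  have h106 := In_cast h105 (add_comm _ _)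
  refine mulK_s he hx1 h27 (fun _ _ _ _ _ h107 H73 => ?_) H72
  refine addK_s he h106 h107 (fun _ _ _ _ _ h108 H74 => ?_) H73
  have h109 := In_cast (w := (X1 p r t)) h108 rfl
  refine mulK_s he h2 h15 (fun _ _ _ _ _ h110 H75 => ?_) H74
  refine negK_s he hx1 (fun _ _ _ _ _ h111 H76 => ?_) H75
  refine addcK_s he h111 (v' := (1:ℝ)) (by norm_num [SS, BB, abs_le]) (fun _ _ _ _ _ h112 H77 => ?_) H76
  have h113 := In_cast h112 (neg_add_eq_sub _ _)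
  refine smulK_s he (w := (1/2:ℝ)) (by norm_num) (by norm_num) (by norm_num) (by norm_num) h113 (fun _ _ _ _ _ h114 H78 => ?_) H77
  have h115 := In_cast h114 (div_c (c := (2:ℝ)) (by norm_num))
  refine smulK_s he (w := (16:ℝ)) (by norm_num) (by norm_num) (by norm_num) (by norm_num) h15 (fun _ _ _ _ _ h116 H79 => ?_) H78
  refine mulK_s he h116 hx3 (fun _ _ _ _ _ h117 H80 => ?_) H79
  refine negK_s he h117 (fun _ _ _ _ _ h118 H81 => ?_) H80
  refine addcK_s he h118 (v' := (81/10:ℝ)) (by norm_num [SS, BB, abs_le]) (fun _ _ _ _ _ h119 H82 => ?_) H81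
  have h120 := In_cast h119 (neg_add_eq_sub _ _)
  refine mulK_s he hx3 h120 (fun _ _ _ _ _ h121 H83 => ?_) H82
  have h122 := In_cast (w := (A0 p r t)) h121 rfl
  refine mulK_s he h115 h122 (fun _ _ _ _ _ h123 H84 => ?_) H83
  refine addcK_s he hx1 (v' := (1:ℝ)) (by norm_num [SS, BB, abs_le]) (fun _ _ _ _ _ h124 H85 => ?_) H84
  have h125 := In_cast h124 (add_comm _ _)
  refine smulK_s he (w := (1/2:ℝ)) (by norm_num) (by norm_num) (by norm_num) (by norm_num) h125 (fun _ _ _ _ _ h126 H86 => ?_) H85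
  have h127 := In_cast h126 (div_c (c := (2:ℝ)) (by norm_num))
  refine negK_s he hx3 (fun _ _ _ _ _ h128 H87 => ?_) H86
  refine addcK_s he h128 (v' := (1:ℝ)) (by norm_num [SS, BB, abs_le]) (fun _ _ _ _ _ h129 H88 => ?_) H87
  have h130 := In_cast h129 (neg_add_eq_sub _ _)
  refine smulK_s he (w := (39/10:ℝ)) (by norm_num) (by norm_num) (by norm_num) (by norm_num) h130 (fun _ _ _ _ _ h131 H89 => ?_) H88
  have h132 := In_cast h131 (mul_comm _ _)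
  have h133 := In_cast (w := (B1 p r t)) h132 rfl
  refine mulK_s he h127 h133 (fun _ _ _ _ _ h134 H90 => ?_) H89
  refine addK_s he h123 h134 (fun _ _ _ _ _ h135 H91 => ?_) H90
  have h136 := In_cast (w := (ep1 p r t)) h135 rfl
  refine mulK_s he h110 h136 (fun _ _ _ _ _ h137 H92 => ?_) H91
  refine subK_s he h109 h137 (fun _ _ _ _ _ h138 H93 => ?_) H92
  refine mulK_s he h109 h138 (fun _ _ _ _ _ h139 H94 => ?_) H93
  refine invK_s he h139 (fun _ _ _ _ _ h140 H95 => ?_) H94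
  refine mulK_s he h136 h140 (fun _ _ _ _ _ h141 H96 => ?_) H95
  have h142 := In_cast h141 ((div_eq_mul_inv _ _).symm)
  refine subK_s he h106 h107 (fun _ _ _ _ _ h143 H97 => ?_) H96
  have h144 := In_cast (w := (X2 p r t)) h143 rfl
  refine mulK_s he h127 h122 (fun _ _ _ _ _ h145 H98 => ?_) H97
  refine mulK_s he h115 h133 (fun _ _ _ _ _ h146 H99 => ?_) H98
  refine addK_s he h145 h146 (fun _ _ _ _ _ h147 H100 => ?_) H99
  have h148 := In_cast (w := (ep2 p r t)) h147 rfl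
  refine mulK_s he h110 h148 (fun _ _ _ _ _ h149 H101 => ?_) H100
  refine subK_s he h144 h149 (fun _ _ _ _ _ h150 H102 => ?_) H101
  refine mulK_s he h144 h150 (fun _ _ _ _ _ h151 H103 => ?_) H102
  refine invK_s he h151 (fun _ _ _ _ _ h152 H104 => ?_) H103
  refine mulK_s he h148 h152 (fun _ _ _ _ _ h153 H105 => ?_) H104
  have h154 := In_cast h153 ((div_eq_mul_inv _ _).symm)
  refine addK_s he h142 h154 (fun _ _ _ _ _ h155 H106 => ?_) H105
  refine negK_s he h17 (fun _ _ _ _ _ h156 H107 => ?_) H106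
  refine addcK_s he h156 (v' := (9/8:ℝ)) (by norm_num [SS, BB, abs_le]) (fun _ _ _ _ _ h157 H108 => ?_) H107
  have h158 := In_cast h157 (neg_add_eq_sub _ _)
  refine subK_s he h158 h107 (fun _ _ _ _ _ h159 H109 => ?_) H108
  have h160 := In_cast (w := (X3 p r t)) h159 rfl
  refine mulK_s he h116 h130 (fun _ _ _ _ _ h161 H110 => ?_) H109
  refine negK_s he h161 (fun _ _ _ _ _ h162 H111 => ?_) H110
  refine addcK_s he h162 (v' := (81/10:ℝ)) (by norm_num [SS, BB, abs_le]) (fun _ _ _ _ _ h163 H112 => ?_) H111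
  have h164 := In_cast h163 (neg_add_eq_sub _ _)
  refine mulK_s he h130 h164 (fun _ _ _ _ _ h165 H113 => ?_) H112
  have h166 := In_cast (w := (A1 p r t)) h165 rfl
  refine mulK_s he h127 h166 (fun _ _ _ _ _ h167 H114 => ?_) H113
  refine smulK_s he (w := (39/10:ℝ)) (by norm_num) (by norm_num) (by norm_num) (by norm_num) hx3 (fun _ _ _ _ _ h168 H115 => ?_) H114
  have h169 := In_cast h168 (mul_comm _ _)
  have h170 := In_cast (w := (B0 p r t)) h169 rfl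
  refine mulK_s he h115 h170 (fun _ _ _ _ _ h171 H116 => ?_) H115
  refine addK_s he h167 h171 (fun _ _ _ _ _ h172 H117 => ?_) H116
  have h173 := In_cast (w := (ep3 p r t)) h172 rfl
  refine mulK_s he h110 h173 (fun _ _ _ _ _ h174 H118 => ?_) H117
  refine subK_s he h160 h174 (fun _ _ _ _ _ h175 H119 => ?_) H118
  refine mulK_s he h160 h175 (fun _ _ _ _ _ h176 H120 => ?_) H119
  refine invK_s he h176 (fun _ _ _ _ _ h177 H121 => ?_) H120
  refine mulK_s he h173 h177 (fun _ _ _ _ _ h178 H122 => ?_) H121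
  have h179 := In_cast h178 ((div_eq_mul_inv _ _).symm)
  refine addK_s he h155 h179 (fun _ _ _ _ _ h180 H123 => ?_) H122
  refine addK_s he h158 h107 (fun _ _ _ _ _ h181 H124 => ?_) H123
  have h182 := In_cast (w := (X4 p r t)) h181 rfl
  refine mulK_s he h115 h166 (fun _ _ _ _ _ h183 H125 => ?_) H124
  refine mulK_s he h127 h170 (fun _ _ _ _ _ h184 H126 => ?_) H125
  refine addK_s he h183 h184 (fun _ _ _ _ _ h185 H127 => ?_) H126
  have h186 := In_cast (w := (ep4 p r t)) h185 rfl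
  refine mulK_s he h110 h186 (fun _ _ _ _ _ h187 H128 => ?_) H127
  refine subK_s he h182 h187 (fun _ _ _ _ _ h188 H129 => ?_) H128
  refine mulK_s he h182 h188 (fun _ _ _ _ _ h189 H130 => ?_) H129
  refine invK_s he h189 (fun _ _ _ _ _ h190 H131 => ?_) H130
  refine mulK_s he h186 h190 (fun _ _ _ _ _ h191 H132 => ?_) H131
  have h192 := In_cast h191 ((div_eq_mul_inv _ _).symm)
  refine addK_s he h180 h192 (fun _ _ _ _ _ h193 H133 => ?_) H132
  refine mulK_s he h104 h193 (fun _ _ _ _ _ h194 H134 => ?_) H133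
  have h195 := In_cast (w := (T4 p r t)) h194 rfl
  refine subK_s he h102 h195 (fun _ _ _ _ _ h196 H135 => ?_) H134
  refine posK_s he h196 (fun p0 H136 => ?_) H135
  refine posK_s he h94 (fun p1 H137 => ?_) H136
  refine smulK_s he (w := (9/8:ℝ)) (by norm_num) (by norm_num) (by norm_num) (by norm_num) h60 (fun _ _ _ _ _ h197 H138 => ?_) H137
  have h198 := In_cast h197 (mul_comm _ _)
  refine smulK_s he (w := (9/8:ℝ)) (by norm_num) (by norm_num) (by norm_num) (by norm_num) h198 (fun _ _ _ _ _ h199 H139 => ?_) H138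
  have h200 := In_cast h199 (mul_comm _ _)
  refine smulK_s he (w := (17/64:ℝ)) (by norm_num) (by norm_num) (by norm_num) (by norm_num) h74 (fun _ _ _ _ _ h201 H140 => ?_) H139
  refine subK_s he h200 h201 (fun _ _ _ _ _ h202 H141 => ?_) H140
  exact ⟨p0, p1, pos_s he h202 H141⟩

attribute [irreducible] alt0

noncomputable def leaf (j u z1 w1 z2 w2 z3 w3 : ℕ) : Bool :=
  alt0 z1 w1 z2 w2 z3 w3

theorem snd : Snd Q leaf := by
  intro j u z1 w1 z2 w2 z3 w3 e1 e2 e3 he H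
  unfold leaf at H
  unfold Q
  exact alt0_s he (var1 z1 w1) (var2 z2 w2) (var3 z3 w3) H

end Crest.Agent.R307.HNcI
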