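import Crest.Agent.R307.IA2
import Crest.Agent.R307.IAx
set_option autoImplicit false
set_option linter.unusedVariables false
set_option maxRecDepth 20000
namespace Crest.Agent.R307.HNcK
open Crest.Agent.R307.IA Crest.Agent.R307.IA2

theorem In_cast {e1 e2 : ℝ} {x y1 y2 r : ℕ} {v w : ℝ}
    (h : In e1 e2 x y1 y2 r v) (e : v = w) : In e1 e2 x y1 y2 r w := e ▸ h

noncomputable def W (m x : ℝ) : ℝ := (min (4/5:ℝ) (min ((1:ℝ) - m) (√((3:ℝ) * (((1:ℝ) - m) ^ 3)))))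
noncomputable def a1 (m x : ℝ) : ℝ := (((((1:ℝ) - (-m)) * (1/20:ℝ)) * (7427/2000:ℝ)) * (((1:ℝ) + (x * (7427/2000:ℝ))) + ((2/3:ℝ) * ((x * (7427/2000:ℝ)) ^ 2))))
noncomputable def t1 (m x : ℝ) : ℝ := (√(√((((21/20:ℝ) + (-m)) + (x * (a1 m x))) / (41/20:ℝ))))
noncomputable def u1 (m x : ℝ) : ℝ := (((4:ℝ) * ((1:ℝ) - ((t1 m x) ^ 2))) / ((t1 m x) * ((1:ℝ) - ((2:ℝ) * x))))
noncomputable def a2 (m x : ℝ) : ℝ := (((((1:ℝ) - m) * (1/20:ℝ)) * (7427/2000:ℝ)) * (((1:ℝ) + (x * (7427/2000:ℝ))) + ((2/3:ℝ) * ((x * (7427/2000:ℝ)) ^ 2))))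
noncomputable def t2 (m x : ℝ) : ℝ := (√(√((((21/20:ℝ) + m) + (x * (a2 m x))) / (41/20:ℝ))))
noncomputable def u2 (m x : ℝ) : ℝ := (((4:ℝ) * ((1:ℝ) - ((t2 m x) ^ 2))) / ((t2 m x) * ((1:ℝ) - ((2:ℝ) * x))))

def Q (m x : ℝ) : Prop :=
  (
  (0 < (((((1:ℝ) / ((1:ℝ) + (√((1:ℝ) - x)))) - ((((11/25:ℝ) - ((99/1000:ℝ) * m)) + ((207/250:ℝ) * (m ^ 2))) * ((((1:ℝ) - x) * (W m x)) + (x * ((1:ℝ) - (m ^ 2)))))) - (((283/5000:ℝ) - ((429/10000:ℝ) * m)) * (((((2:ℝ) * (u1 m x)) * ((21/20:ℝ) + (-m))) - (((2:ℝ) - (x * (u1 m x))) * (a1 m x))) / ((((2:ℝ) - (x * (u1 m x))) * (((21/20:ℝ) + (-m)) + (x * (a1 m x)))) * ((21/20:ℝ) + (-m)))))) - (((129/2500:ℝ) - ((67/1000:ℝ) * m)) * (((((2:ℝ) * (u2 m x)) * ((21/20:ℝ) + m)) - (((2:ℝ) - (x * (u2 m x))) * (a2 m x))) / ((((2:ℝ) - (x * (u2 m x))) * (((21/20:ℝ) + m) + (x * (a2 m x)))) * ((21/20:ℝ) + m))))) ∧ 0 < ((2:ℝ) - (x * (u1 m x))) ∧ 0 < ((2:ℝ) - (x * (u2 m x)))))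

noncomputable def alt0 (z1 w1 z2 w2 : ℕ) : Bool :=
  negK z2 1152921504606846976 (Nat.add w2 1152921504606846976) 0 fun c1 a1_1 a1_2 q1 =>
  addcK c1 a1_1 a1_2 q1 1152922604118474752 0 fun c2 a2_1 a2_2 q2 =>
  sqrtK c2 a2_1 a2_2 q2 fun c4 a4_1 a4_2 q4 =>
  addcK c4 a4_1 a4_2 q4 1152922604118474752 0 fun c5 a5_1 a5_2 q5 =>
  invK c5 a5_1 a5_2 q5 fun c7 a7_1 a7_2 q7 =>
  smulK 99 1000 1152921504606846977000 114139228956077850624 z1 (Nat.add w1 1152921504606846976) 1152921504606846976 0 fun c9 a9_1 a9_2 q9 =>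
  negK c9 a9_1 a9_2 q9 fun c10 a10_1 a10_2 q10 =>
  addcK c10 a10_1 a10_2 q10 1152921988391963197 1 fun c11 a11_1 a11_2 q11 =>
  sqK z1 (Nat.add w1 1152921504606846976) 1152921504606846976 0 fun c13 a13_1 a13_2 q13 =>
  smulK 207 250 288230376151711744250 238654751453617324032 c13 a13_1 a13_2 q13 fun c14 a14_1 a14_2 q14 =>
  addK c11 a11_1 a11_2 q11 c14 a14_1 a14_2 q14 fun c15 a15_1 a15_2 q15 =>
  negK z1 (Nat.add w1 1152921504606846976) 1152921504606846976 0 fun c17 a17_1 a17_2 q17 =>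
  addcK c17 a17_1 a17_2 q17 1152922604118474752 0 fun c18 a18_1 a18_2 q18 =>
  sqK c18 a18_1 a18_2 q18 fun c20 a20_1 a20_2 q20 =>
  mulK c20 a20_1 a20_2 q20 c18 a18_1 a18_2 q18 fun c21 a21_1 a21_2 q21 =>
  smulK 3 1 1152921504606846977 3458764513820540928 c21 a21_1 a21_2 q21 fun c23 a23_1 a23_2 q23 =>
  sqrtK c23 a23_1 a23_2 q23 fun c24 a24_1 a24_2 q24 =>
  subK c18 a18_1 a18_2 q18 c24 a24_1 a24_2 q24 fun c25 a25_1 a25_2 q25 =>
  reluK c25 a25_1 a25_2 q25 fun c26 a26_1 a26_2 q26 =>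
  subK c18 a18_1 a18_2 q18 c26 a26_1 a26_2 q26 fun c27 a27_1 a27_2 q27 =>
  subK 1152922384216149197 1152921504606846976 1152921504606846976 1 c27 a27_1 a27_2 q27 fun c29 a29_1 a29_2 q29 =>
  reluK c29 a29_1 a29_2 q29 fun c30 a30_1 a30_2 q30 =>
  subK 1152922384216149197 1152921504606846976 1152921504606846976 1 c30 a30_1 a30_2 q30 fun c31 a31_1 a31_2 q31 =>
  mulK c2 a2_1 a2_2 q2 c31 a31_1 a31_2 q31 fun c34 a34_1 a34_2 q34 =>
  negK c13 a13_1 a13_2 q13 fun c35 a35_1 a35_2 q35 =>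
  addcK c35 a35_1 a35_2 q35 1152922604118474752 0 fun c36 a36_1 a36_2 q36 =>
  mulK z2 1152921504606846976 (Nat.add w2 1152921504606846976) 0 c36 a36_1 a36_2 q36 fun c38 a38_1 a38_2 q38 =>
  addK c34 a34_1 a34_2 q34 c38 a38_1 a38_2 q38 fun c39 a39_1 a39_2 q39 =>
  mulK c15 a15_1 a15_2 q15 c39 a39_1 a39_2 q39 fun c40 a40_1 a40_2 q40 =>
  subK c7 a7_1 a7_2 q7 c40 a40_1 a40_2 q40 fun c41 a41_1 a41_2 q41 =>
  smulK 429 10000 11529215046068469770000 494603325476337352704 z1 (Nat.add w1 1152921504606846976) 1152921504606846976 0 fun c42 a42_1 a42_2 q42 =>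
  negK c42 a42_1 a42_2 q42 fun c43 a43_1 a43_2 q43 =>
  addcK c43 a43_1 a43_2 q43 1152921566839205108 1 fun c44 a44_1 a44_2 q44 =>
  negK z1 (Nat.add w1 1152921504606846976) 1152921504606846976 0 fun c46 a46_1 a46_2 q46 =>
  addcK c46 a46_1 a46_2 q46 1152922659094056141 1 fun c47 a47_1 a47_2 q47 =>
  negK c46 a46_1 a46_2 q46 fun c49 a49_1 a49_2 q49 =>
  addcK c49 a49_1 a49_2 q49 1152922604118474752 0 fun c50 a50_1 a50_2 q50 =>
  smulK 1 20 23058430092136939540 1152921504606846976 c50 a50_1 a50_2 q50 fun c52 a52_1 a52_2 q52 =>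
  smulK 7427 2000 2305843009213693954000 8562748014715052490752 c52 a52_1 a52_2 q52 fun c54 a54_1 a54_2 q54 =>
  smulK 7427 2000 2305843009213693954000 8562748014715052490752 z2 1152921504606846976 (Nat.add w2 1152921504606846976) 0 fun c56 a56_1 a56_2 q56 =>
  addcK c56 a56_1 a56_2 q56 1152922604118474752 0 fun c58 a58_1 a58_2 q58 =>
  sqK c56 a56_1 a56_2 q56 fun c60 a60_1 a60_2 q60 =>
  smulK 2 3 3458764513820540931 2305843009213693952 c60 a60_1 a60_2 q60 fun c61 a61_1 a61_2 q61 =>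
  addK c58 a58_1 a58_2 q58 c61 a61_1 a61_2 q61 fun c62 a62_1 a62_2 q62 =>
  mulK c54 a54_1 a54_2 q54 c62 a62_1 a62_2 q62 fun c63 a63_1 a63_2 q63 =>
  mulK z2 1152921504606846976 (Nat.add w2 1152921504606846976) 0 c63 a63_1 a63_2 q63 fun c65 a65_1 a65_2 q65 =>
  addK c47 a47_1 a47_2 q47 c65 a65_1 a65_2 q65 fun c66 a66_1 a66_2 q66 =>
  smulK 20 41 47269781688880726057 23058430092136939520 c66 a66_1 a66_2 q66 fun c67 a67_1 a67_2 q67 =>
  sqrtK c67 a67_1 a67_2 q67 fun c69 a69_1 a69_2 q69 =>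
  sqrtK c69 a69_1 a69_2 q69 fun c70 a70_1 a70_2 q70 =>
  smulK 2 1 1152921504606846977 2305843009213693952 z2 1152921504606846976 (Nat.add w2 1152921504606846976) 0 fun c72 a72_1 a72_2 q72 =>
  negK c72 a72_1 a72_2 q72 fun c73 a73_1 a73_2 q73 =>
  addcK c73 a73_1 a73_2 q73 1152922604118474752 0 fun c74 a74_1 a74_2 q74 =>
  mulK c70 a70_1 a70_2 q70 c74 a74_1 a74_2 q74 fun c76 a76_1 a76_2 q76 =>
  invK c76 a76_1 a76_2 q76 fun c77 a77_1 a77_2 q77 =>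
  sqK c70 a70_1 a70_2 q70 fun c78 a78_1 a78_2 q78 =>
  negK c78 a78_1 a78_2 q78 fun c79 a79_1 a79_2 q79 =>
  addcK c79 a79_1 a79_2 q79 1152922604118474752 0 fun c80 a80_1 a80_2 q80 =>
  smulK 4 1 1152921504606846977 4611686018427387904 c80 a80_1 a80_2 q80 fun c82 a82_1 a82_2 q82 =>
  mulK c82 a82_1 a82_2 q82 c77 a77_1 a77_2 q77 fun c83 a83_1 a83_2 q83 =>
  mulK z2 1152921504606846976 (Nat.add w2 1152921504606846976) 0 c83 a83_1 a83_2 q83 fun c86 a86_1 a86_2 q86 =>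
  negK c86 a86_1 a86_2 q86 fun c87 a87_1 a87_2 q87 =>
  addcK c87 a87_1 a87_2 q87 1152923703630102528 0 fun c88 a88_1 a88_2 q88 =>
  mulK c88 a88_1 a88_2 q88 c66 a66_1 a66_2 q66 fun c90 a90_1 a90_2 q90 =>
  mulK c90 a90_1 a90_2 q90 c47 a47_1 a47_2 q47 fun c91 a91_1 a91_2 q91 =>
  invK c91 a91_1 a91_2 q91 fun c92 a92_1 a92_2 q92 =>
  smulK 2 1 1152921504606846977 2305843009213693952 c83 a83_1 a83_2 q83 fun c93 a93_1 a93_2 q93 =>
  mulK c93 a93_1 a93_2 q93 c47 a47_1 a47_2 q47 fun c94 a94_1 a94_2 q94 =>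
  mulK c88 a88_1 a88_2 q88 c63 a63_1 a63_2 q63 fun c95 a95_1 a95_2 q95 =>
  subK c94 a94_1 a94_2 q94 c95 a95_1 a95_2 q95 fun c96 a96_1 a96_2 q96 =>
  mulK c96 a96_1 a96_2 q96 c92 a92_1 a92_2 q92 fun c97 a97_1 a97_2 q97 =>
  mulK c44 a44_1 a44_2 q44 c97 a97_1 a97_2 q97 fun c99 a99_1 a99_2 q99 =>
  subK c41 a41_1 a41_2 q41 c99 a99_1 a99_2 q99 fun c100 a100_1 a100_2 q100 =>
  smulK 67 1000 1152921504606846977000 77245740808658747392 z1 (Nat.add w1 1152921504606846976) 1152921504606846976 0 fun c101 a101_1 a101_2 q101 =>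
  negK c101 a101_1 a101_2 q101 fun c102 a102_1 a102_2 q102 =>
  addcK c102 a102_1 a102_2 q102 1152921561341646969 1 fun c103 a103_1 a103_2 q103 =>
  addcK z1 (Nat.add w1 1152921504606846976) 1152921504606846976 0 1152922659094056141 1 fun c105 a105_1 a105_2 q105 =>
  smulK 1 20 23058430092136939540 1152921504606846976 c18 a18_1 a18_2 q18 fun c107 a107_1 a107_2 q107 =>
  smulK 7427 2000 2305843009213693954000 8562748014715052490752 c107 a107_1 a107_2 q107 fun c109 a109_1 a109_2 q109 =>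
  mulK c109 a109_1 a109_2 q109 c62 a62_1 a62_2 q62 fun c111 a111_1 a111_2 q111 =>
  mulK z2 1152921504606846976 (Nat.add w2 1152921504606846976) 0 c111 a111_1 a111_2 q111 fun c113 a113_1 a113_2 q113 =>
  addK c105 a105_1 a105_2 q105 c113 a113_1 a113_2 q113 fun c114 a114_1 a114_2 q114 =>
  smulK 20 41 47269781688880726057 23058430092136939520 c114 a114_1 a114_2 q114 fun c115 a115_1 a115_2 q115 =>
  sqrtK c115 a115_1 a115_2 q115 fun c117 a117_1 a117_2 q117 =>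
  sqrtK c117 a117_1 a117_2 q117 fun c118 a118_1 a118_2 q118 =>
  mulK c118 a118_1 a118_2 q118 c74 a74_1 a74_2 q74 fun c120 a120_1 a120_2 q120 =>
  invK c120 a120_1 a120_2 q120 fun c121 a121_1 a121_2 q121 =>
  sqK c118 a118_1 a118_2 q118 fun c122 a122_1 a122_2 q122 =>
  negK c122 a122_1 a122_2 q122 fun c123 a123_1 a123_2 q123 =>
  addcK c123 a123_1 a123_2 q123 1152922604118474752 0 fun c124 a124_1 a124_2 q124 =>
  smulK 4 1 1152921504606846977 4611686018427387904 c124 a124_1 a124_2 q124 fun c126 a126_1 a126_2 q126 =>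
  mulK c126 a126_1 a126_2 q126 c121 a121_1 a121_2 q121 fun c127 a127_1 a127_2 q127 =>
  mulK z2 1152921504606846976 (Nat.add w2 1152921504606846976) 0 c127 a127_1 a127_2 q127 fun c130 a130_1 a130_2 q130 =>
  negK c130 a130_1 a130_2 q130 fun c131 a131_1 a131_2 q131 =>
  addcK c131 a131_1 a131_2 q131 1152923703630102528 0 fun c132 a132_1 a132_2 q132 =>
  mulK c132 a132_1 a132_2 q132 c114 a114_1 a114_2 q114 fun c134 a134_1 a134_2 q134 =>
  mulK c134 a134_1 a134_2 q134 c105 a105_1 a105_2 q105 fun c135 a135_1 a135_2 q135 =>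
  invK c135 a135_1 a135_2 q135 fun c136 a136_1 a136_2 q136 =>
  smulK 2 1 1152921504606846977 2305843009213693952 c127 a127_1 a127_2 q127 fun c137 a137_1 a137_2 q137 =>
  mulK c137 a137_1 a137_2 q137 c105 a105_1 a105_2 q105 fun c138 a138_1 a138_2 q138 =>
  mulK c132 a132_1 a132_2 q132 c111 a111_1 a111_2 q111 fun c139 a139_1 a139_2 q139 =>
  subK c138 a138_1 a138_2 q138 c139 a139_1 a139_2 q139 fun c140 a140_1 a140_2 q140 =>
  mulK c140 a140_1 a140_2 q140 c136 a136_1 a136_2 q136 fun c141 a141_1 a141_2 q141 =>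
  mulK c103 a103_1 a103_2 q103 c141 a141_1 a141_2 q141 fun c143 a143_1 a143_2 q143 =>
  subK c100 a100_1 a100_2 q100 c143 a143_1 a143_2 q143 fun c144 a144_1 a144_2 q144 =>
  posK c144 a144_1 a144_2 q144 <|
  posK c88 a88_1 a88_2 q88 <|
  pos c132 a132_1 a132_2 q132

theorem alt0_s {z1 w1 z2 w2 : ℕ} {e1 e2 m x : ℝ} (he : Ev e1 e2)
    (hx1 : In e1 e2 z1 (Nat.add w1 1152921504606846976) 1152921504606846976 0 m)
    (hx2 : In e1 e2 z2 1152921504606846976 (Nat.add w2 1152921504606846976) 0 x)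
    (H0 : alt0 z1 w1 z2 w2 = true) : 0 < (((((1:ℝ) / ((1:ℝ) + (√((1:ℝ) - x)))) - ((((11/25:ℝ) - ((99/1000:ℝ) * m)) + ((207/250:ℝ) * (m ^ 2))) * ((((1:ℝ) - x) * (W m x)) + (x * ((1:ℝ) - (m ^ 2)))))) - (((283/5000:ℝ) - ((429/10000:ℝ) * m)) * (((((2:ℝ) * (u1 m x)) * ((21/20:ℝ) + (-m))) - (((2:ℝ) - (x * (u1 m x))) * (a1 m x))) / ((((2:ℝ) - (x * (u1 m x))) * (((21/20:ℝ) + (-m)) + (x * (a1 m x)))) * ((21/20:ℝ) + (-m)))))) - (((129/2500:ℝ) - ((67/1000:ℝ) * m)) * (((((2:ℝ) * (u2 m x)) * ((21/20:ℝ) + m)) - (((2:ℝ) - (x * (u2 m x))) * (a2 m x))) / ((((2:ℝ) - (x * (u2 m x))) * (((21/20:ℝ) + m) + (x * (a2 m x)))) * ((21/20:ℝ) + m))))) ∧ 0 < ((2:ℝ) - (x * (u1 m x))) ∧ 0 < ((2:ℝ) - (x * (u2 m x))) := by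
  unfold alt0 at H0
  refine negK_s he hx2 (fun _ _ _ _ h1 H1 => ?_) H0
  refine addcK_s he h1 (v' := (1:ℝ)) (by norm_num [SS, BB, abs_le]) (fun _ _ _ _ h2 H2 => ?_) H1
  have h3 := In_cast h2 (neg_add_eq_sub _ _)
  refine sqrtK_s he h3 (fun _ _ _ _ h4 H3 => ?_) H2
  refine addcK_s he h4 (v' := (1:ℝ)) (by norm_num [SS, BB, abs_le]) (fun _ _ _ _ h5 H4 => ?_) H3
  have h6 := In_cast h5 (add_comm _ _)
  refine invK_s he h6 (fun _ _ _ _ h7 H5 => ?_) H4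
  have h8 := In_cast h7 (inv_eq_one_div _)
  refine smulK_s he (w := (99/1000:ℝ)) (by norm_num) (by norm_num) (by norm_num) (by norm_num) hx1 (fun _ _ _ _ h9 H6 => ?_) H5
  refine negK_s he h9 (fun _ _ _ _ h10 H7 => ?_) H6
  refine addcK_s he h10 (v' := (11/25:ℝ)) (by norm_num [SS, BB, abs_le]) (fun _ _ _ _ h11 H8 => ?_) H7
  have h12 := In_cast h11 (neg_add_eq_sub _ _)
  refine sqK_s he hx1 (fun _ _ _ _ h13 H9 => ?_) H8
  refine smulK_s he (w := (207/250:ℝ)) (by norm_num) (by norm_num) (by norm_num) (by norm_num) h13 (fun _ _ _ _ h14 H10 => ?_) H9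
  refine addK_s he h12 h14 (fun _ _ _ _ h15 H11 => ?_) H10
  have h16 := cst (e1 := e1) (e2 := e2) 1152922384216149197 1 (4/5:ℝ) (by norm_num [SS, BB, abs_le])
  refine negK_s he hx1 (fun _ _ _ _ h17 H12 => ?_) H11
  refine addcK_s he h17 (v' := (1:ℝ)) (by norm_num [SS, BB, abs_le]) (fun _ _ _ _ h18 H13 => ?_) H12
  have h19 := In_cast h18 (neg_add_eq_sub _ _)
  refine sqK_s he h19 (fun _ _ _ _ h20 H14 => ?_) H13
  refine mulK_s he h20 h19 (fun _ _ _ _ h21 H15 => ?_) H14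
  have h22 := In_cast h21 (pow_sc (n := 3) rfl)
  refine smulK_s he (w := (3:ℝ)) (by norm_num) (by norm_num) (by norm_num) (by norm_num) h22 (fun _ _ _ _ h23 H16 => ?_) H15
  refine sqrtK_s he h23 (fun _ _ _ _ h24 H17 => ?_) H16
  refine subK_s he h19 h24 (fun _ _ _ _ h25 H18 => ?_) H17
  refine reluK_s he h25 (fun _ _ _ _ h26 H19 => ?_) H18
  refine subK_s he h19 h26 (fun _ _ _ _ h27 H20 => ?_) H19
  have h28 := In_cast h27 (min_rl _ _)
  refine subK_s he h16 h28 (fun _ _ _ _ h29 H21 => ?_) H20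
  refine reluK_s he h29 (fun _ _ _ _ h30 H22 => ?_) H21
  refine subK_s he h16 h30 (fun _ _ _ _ h31 H23 => ?_) H22
  have h32 := In_cast h31 (min_rl _ _)
  have h33 := In_cast (w := (W m x)) h32 rfl
  refine mulK_s he h3 h33 (fun _ _ _ _ h34 H24 => ?_) H23
  refine negK_s he h13 (fun _ _ _ _ h35 H25 => ?_) H24
  refine addcK_s he h35 (v' := (1:ℝ)) (by norm_num [SS, BB, abs_le]) (fun _ _ _ _ h36 H26 => ?_) H25
  have h37 := In_cast h36 (neg_add_eq_sub _ _)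
  refine mulK_s he hx2 h37 (fun _ _ _ _ h38 H27 => ?_) H26
  refine addK_s he h34 h38 (fun _ _ _ _ h39 H28 => ?_) H27
  refine mulK_s he h15 h39 (fun _ _ _ _ h40 H29 => ?_) H28
  refine subK_s he h8 h40 (fun _ _ _ _ h41 H30 => ?_) H29
  refine smulK_s he (w := (429/10000:ℝ)) (by norm_num) (by norm_num) (by norm_num) (by norm_num) hx1 (fun _ _ _ _ h42 H31 => ?_) H30
  refine negK_s he h42 (fun _ _ _ _ h43 H32 => ?_) H31
  refine addcK_s he h43 (v' := (283/5000:ℝ)) (by norm_num [SS, BB, abs_le]) (fun _ _ _ _ h44 H33 => ?_) H32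
  have h45 := In_cast h44 (neg_add_eq_sub _ _)
  refine negK_s he hx1 (fun _ _ _ _ h46 H34 => ?_) H33
  refine addcK_s he h46 (v' := (21/20:ℝ)) (by norm_num [SS, BB, abs_le]) (fun _ _ _ _ h47 H35 => ?_) H34
  have h48 := In_cast h47 (add_comm _ _)
  refine negK_s he h46 (fun _ _ _ _ h49 H36 => ?_) H35
  refine addcK_s he h49 (v' := (1:ℝ)) (by norm_num [SS, BB, abs_le]) (fun _ _ _ _ h50 H37 => ?_) H36
  have h51 := In_cast h50 (neg_add_eq_sub _ _)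
  refine smulK_s he (w := (1/20:ℝ)) (by norm_num) (by norm_num) (by norm_num) (by norm_num) h51 (fun _ _ _ _ h52 H38 => ?_) H37
  have h53 := In_cast h52 (mul_comm _ _)
  refine smulK_s he (w := (7427/2000:ℝ)) (by norm_num) (by norm_num) (by norm_num) (by norm_num) h53 (fun _ _ _ _ h54 H39 => ?_) H38
  have h55 := In_cast h54 (mul_comm _ _)
  refine smulK_s he (w := (7427/2000:ℝ)) (by norm_num) (by norm_num) (by norm_num) (by norm_num) hx2 (fun _ _ _ _ h56 H40 => ?_) H39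
  have h57 := In_cast h56 (mul_comm _ _)
  refine addcK_s he h57 (v' := (1:ℝ)) (by norm_num [SS, BB, abs_le]) (fun _ _ _ _ h58 H41 => ?_) H40
  have h59 := In_cast h58 (add_comm _ _)
  refine sqK_s he h57 (fun _ _ _ _ h60 H42 => ?_) H41
  refine smulK_s he (w := (2/3:ℝ)) (by norm_num) (by norm_num) (by norm_num) (by norm_num) h60 (fun _ _ _ _ h61 H43 => ?_) H42
  refine addK_s he h59 h61 (fun _ _ _ _ h62 H44 => ?_) H43
  refine mulK_s he h55 h62 (fun _ _ _ _ h63 H45 => ?_) H44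
  have h64 := In_cast (w := (a1 m x)) h63 rfl
  refine mulK_s he hx2 h64 (fun _ _ _ _ h65 H46 => ?_) H45
  refine addK_s he h48 h65 (fun _ _ _ _ h66 H47 => ?_) H46
  refine smulK_s he (w := (20/41:ℝ)) (by norm_num) (by norm_num) (by norm_num) (by norm_num) h66 (fun _ _ _ _ h67 H48 => ?_) H47
  have h68 := In_cast h67 (div_c (c := (41/20:ℝ)) (by norm_num))
  refine sqrtK_s he h68 (fun _ _ _ _ h69 H49 => ?_) H48
  refine sqrtK_s he h69 (fun _ _ _ _ h70 H50 => ?_) H49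
  have h71 := In_cast (w := (t1 m x)) h70 rfl
  refine smulK_s he (w := (2:ℝ)) (by norm_num) (by norm_num) (by norm_num) (by norm_num) hx2 (fun _ _ _ _ h72 H51 => ?_) H50
  refine negK_s he h72 (fun _ _ _ _ h73 H52 => ?_) H51
  refine addcK_s he h73 (v' := (1:ℝ)) (by norm_num [SS, BB, abs_le]) (fun _ _ _ _ h74 H53 => ?_) H52
  have h75 := In_cast h74 (neg_add_eq_sub _ _)
  refine mulK_s he h71 h75 (fun _ _ _ _ h76 H54 => ?_) H53
  refine invK_s he h76 (fun _ _ _ _ h77 H55 => ?_) H54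
  refine sqK_s he h71 (fun _ _ _ _ h78 H56 => ?_) H55
  refine negK_s he h78 (fun _ _ _ _ h79 H57 => ?_) H56
  refine addcK_s he h79 (v' := (1:ℝ)) (by norm_num [SS, BB, abs_le]) (fun _ _ _ _ h80 H58 => ?_) H57
  have h81 := In_cast h80 (neg_add_eq_sub _ _)
  refine smulK_s he (w := (4:ℝ)) (by norm_num) (by norm_num) (by norm_num) (by norm_num) h81 (fun _ _ _ _ h82 H59 => ?_) H58
  refine mulK_s he h82 h77 (fun _ _ _ _ h83 H60 => ?_) H59
  have h84 := In_cast h83 ((div_eq_mul_inv _ _).symm)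
  have h85 := In_cast (w := (u1 m x)) h84 rfl
  refine mulK_s he hx2 h85 (fun _ _ _ _ h86 H61 => ?_) H60
  refine negK_s he h86 (fun _ _ _ _ h87 H62 => ?_) H61
  refine addcK_s he h87 (v' := (2:ℝ)) (by norm_num [SS, BB, abs_le]) (fun _ _ _ _ h88 H63 => ?_) H62
  have h89 := In_cast h88 (neg_add_eq_sub _ _)
  refine mulK_s he h89 h66 (fun _ _ _ _ h90 H64 => ?_) H63
  refine mulK_s he h90 h48 (fun _ _ _ _ h91 H65 => ?_) H64
  refine invK_s he h91 (fun _ _ _ _ h92 H66 => ?_) H65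
  refine smulK_s he (w := (2:ℝ)) (by norm_num) (by norm_num) (by norm_num) (by norm_num) h85 (fun _ _ _ _ h93 H67 => ?_) H66
  refine mulK_s he h93 h48 (fun _ _ _ _ h94 H68 => ?_) H67
  refine mulK_s he h89 h64 (fun _ _ _ _ h95 H69 => ?_) H68
  refine subK_s he h94 h95 (fun _ _ _ _ h96 H70 => ?_) H69
  refine mulK_s he h96 h92 (fun _ _ _ _ h97 H71 => ?_) H70
  have h98 := In_cast h97 ((div_eq_mul_inv _ _).symm)
  refine mulK_s he h45 h98 (fun _ _ _ _ h99 H72 => ?_) H71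
  refine subK_s he h41 h99 (fun _ _ _ _ h100 H73 => ?_) H72
  refine smulK_s he (w := (67/1000:ℝ)) (by norm_num) (by norm_num) (by norm_num) (by norm_num) hx1 (fun _ _ _ _ h101 H74 => ?_) H73
  refine negK_s he h101 (fun _ _ _ _ h102 H75 => ?_) H74
  refine addcK_s he h102 (v' := (129/2500:ℝ)) (by norm_num [SS, BB, abs_le]) (fun _ _ _ _ h103 H76 => ?_) H75
  have h104 := In_cast h103 (neg_add_eq_sub _ _)
  refine addcK_s he hx1 (v' := (21/20:ℝ)) (by norm_num [SS, BB, abs_le]) (fun _ _ _ _ h105 H77 => ?_) H76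
  have h106 := In_cast h105 (add_comm _ _)
  refine smulK_s he (w := (1/20:ℝ)) (by norm_num) (by norm_num) (by norm_num) (by norm_num) h19 (fun _ _ _ _ h107 H78 => ?_) H77
  have h108 := In_cast h107 (mul_comm _ _)
  refine smulK_s he (w := (7427/2000:ℝ)) (by norm_num) (by norm_num) (by norm_num) (by norm_num) h108 (fun _ _ _ _ h109 H79 => ?_) H78
  have h110 := In_cast h109 (mul_comm _ _)
  refine mulK_s he h110 h62 (fun _ _ _ _ h111 H80 => ?_) H79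
  have h112 := In_cast (w := (a2 m x)) h111 rfl
  refine mulK_s he hx2 h112 (fun _ _ _ _ h113 H81 => ?_) H80
  refine addK_s he h106 h113 (fun _ _ _ _ h114 H82 => ?_) H81
  refine smulK_s he (w := (20/41:ℝ)) (by norm_num) (by norm_num) (by norm_num) (by norm_num) h114 (fun _ _ _ _ h115 H83 => ?_) H82
  have h116 := In_cast h115 (div_c (c := (41/20:ℝ)) (by norm_num))
  refine sqrtK_s he h116 (fun _ _ _ _ h117 H84 => ?_) H83
  refine sqrtK_s he h117 (fun _ _ _ _ h118 H85 => ?_) H84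
  have h119 := In_cast (w := (t2 m x)) h118 rfl
  refine mulK_s he h119 h75 (fun _ _ _ _ h120 H86 => ?_) H85
  refine invK_s he h120 (fun _ _ _ _ h121 H87 => ?_) H86
  refine sqK_s he h119 (fun _ _ _ _ h122 H88 => ?_) H87
  refine negK_s he h122 (fun _ _ _ _ h123 H89 => ?_) H88
  refine addcK_s he h123 (v' := (1:ℝ)) (by norm_num [SS, BB, abs_le]) (fun _ _ _ _ h124 H90 => ?_) H89
  have h125 := In_cast h124 (neg_add_eq_sub _ _)
  refine smulK_s he (w := (4:ℝ)) (by norm_num) (by norm_num) (by norm_num) (by norm_num) h125 (fun _ _ _ _ h126 H91 => ?_) H90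
  refine mulK_s he h126 h121 (fun _ _ _ _ h127 H92 => ?_) H91
  have h128 := In_cast h127 ((div_eq_mul_inv _ _).symm)
  have h129 := In_cast (w := (u2 m x)) h128 rfl
  refine mulK_s he hx2 h129 (fun _ _ _ _ h130 H93 => ?_) H92
  refine negK_s he h130 (fun _ _ _ _ h131 H94 => ?_) H93
  refine addcK_s he h131 (v' := (2:ℝ)) (by norm_num [SS, BB, abs_le]) (fun _ _ _ _ h132 H95 => ?_) H94
  have h133 := In_cast h132 (neg_add_eq_sub _ _)
  refine mulK_s he h133 h114 (fun _ _ _ _ h134 H96 => ?_) H95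
  refine mulK_s he h134 h106 (fun _ _ _ _ h135 H97 => ?_) H96
  refine invK_s he h135 (fun _ _ _ _ h136 H98 => ?_) H97
  refine smulK_s he (w := (2:ℝ)) (by norm_num) (by norm_num) (by norm_num) (by norm_num) h129 (fun _ _ _ _ h137 H99 => ?_) H98
  refine mulK_s he h137 h106 (fun _ _ _ _ h138 H100 => ?_) H99
  refine mulK_s he h133 h112 (fun _ _ _ _ h139 H101 => ?_) H100
  refine subK_s he h138 h139 (fun _ _ _ _ h140 H102 => ?_) H101
  refine mulK_s he h140 h136 (fun _ _ _ _ h141 H103 => ?_) H102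
  have h142 := In_cast h141 ((div_eq_mul_inv _ _).symm)
  refine mulK_s he h104 h142 (fun _ _ _ _ h143 H104 => ?_) H103
  refine subK_s he h100 h143 (fun _ _ _ _ h144 H105 => ?_) H104
  refine posK_s he h144 (fun p0 H106 => ?_) H105
  refine posK_s he h89 (fun p1 H107 => ?_) H106
  exact ⟨p0, p1, pos_s he h133 H107⟩

attribute [irreducible] alt0

noncomputable def leaf (j u z1 w1 z2 w2 : ℕ) : Bool :=
  alt0 z1 w1 z2 w2

theorem snd : Snd Q leaf := by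
  intro j u z1 w1 z2 w2 e1 e2 he H
  unfold leaf at H
  unfold Q
  exact alt0_s he (var1 z1 w1) (var2 z2 w2) H

end Crest.Agent.R307.HNcK
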