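import Crest.Agent.R307.HNcK
set_option autoImplicit false
set_option maxRecDepth 100000
namespace Crest.Agent.R307.HNcK
open Crest.Agent.R307.IA Crest.Agent.R307.IA2

theorem k0 : Cov Q 1152921504606846976 1152922351230800364 1152921504606846976 1152921603562893476 :=
  cov_of snd 0 0 9 _ _ _ _ 0x22022002122022200021022021220021220210022021220022000220222021002202022200000 (by decide +kernel)

end Crest.Agent.R307.HNcK
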