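import Crest.Agent.R307.IA2
import Crest.Agent.R307.IAx
set_option autoImplicit false
set_option linter.unusedVariables false
set_option maxRecDepth 20000
namespace Crest.Agent.R307.HNcM
open Crest.Agent.R307.IA Crest.Agent.R307.IA2

theorem In_cast {e1 e2 : ℝ} {x y1 y2 r : ℕ} {v w : ℝ}
    (h : In e1 e2 x y1 y2 r v) (e : v = w) : In e1 e2 x y1 y2 r w := e ▸ h

noncomputable def g (m t : ℝ) : ℝ := (((2:ℝ) * t) / ((1:ℝ) + (t ^ 2)))
noncomputable def C (m t : ℝ) : ℝ := (√((1:ℝ) - (m ^ 2)))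
noncomputable def y (m t : ℝ) : ℝ := (((1:ℝ) - (t ^ 2)) / ((1:ℝ) + (t ^ 2)))

def Q (m t : ℝ) : Prop :=
  (
  (0 < ((((((11/25:ℝ) - ((99/1000:ℝ) * m)) + ((207/250:ℝ) * (m ^ 2))) + (((283/5000:ℝ) - ((429/10000:ℝ) * m)) / (((21/20:ℝ) - (g m t)) * (((21/20:ℝ) - m) ^ 2)))) + (((129/2500:ℝ) - ((67/1000:ℝ) * m)) / (((21/20:ℝ) + (g m t)) * (((21/20:ℝ) + m) ^ 2)))) - ((1:ℝ) / ((C m t) * (((1:ℝ) - (m * (g m t))) + ((C m t) * (y m t))))))))

noncomputable def alt0 (z1 w1 z2 w2 : ℕ) : Bool :=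
  smulK 99 1000 1152921504606846977000 114139228956077850624 z1 (Nat.add w1 1152921504606846976) 1152921504606846976 0 fun c1 a1_1 a1_2 q1 =>
  negK c1 a1_1 a1_2 q1 fun c2 a2_1 a2_2 q2 =>
  addcK c2 a2_1 a2_2 q2 1152921988391963197 1 fun c3 a3_1 a3_2 q3 =>
  sqK z1 (Nat.add w1 1152921504606846976) 1152921504606846976 0 fun c5 a5_1 a5_2 q5 =>
  smulK 207 250 288230376151711744250 238654751453617324032 c5 a5_1 a5_2 q5 fun c6 a6_1 a6_2 q6 =>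
  addK c3 a3_1 a3_2 q3 c6 a6_1 a6_2 q6 fun c7 a7_1 a7_2 q7 =>
  sqK z2 1152921504606846976 (Nat.add w2 1152921504606846976) 0 fun c8 a8_1 a8_2 q8 =>
  addcK c8 a8_1 a8_2 q8 1152922604118474752 0 fun c9 a9_1 a9_2 q9 =>
  invK c9 a9_1 a9_2 q9 fun c11 a11_1 a11_2 q11 =>
  smulK 2 1 1152921504606846977 2305843009213693952 z2 1152921504606846976 (Nat.add w2 1152921504606846976) 0 fun c12 a12_1 a12_2 q12 =>
  mulK c12 a12_1 a12_2 q12 c11 a11_1 a11_2 q11 fun c13 a13_1 a13_2 q13 =>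
  negK c13 a13_1 a13_2 q13 fun c16 a16_1 a16_2 q16 =>
  addcK c16 a16_1 a16_2 q16 1152922659094056141 1 fun c17 a17_1 a17_2 q17 =>
  negK z1 (Nat.add w1 1152921504606846976) 1152921504606846976 0 fun c19 a19_1 a19_2 q19 =>
  addcK c19 a19_1 a19_2 q19 1152922659094056141 1 fun c20 a20_1 a20_2 q20 =>
  sqK c20 a20_1 a20_2 q20 fun c22 a22_1 a22_2 q22 =>
  mulK c17 a17_1 a17_2 q17 c22 a22_1 a22_2 q22 fun c23 a23_1 a23_2 q23 =>
  invK c23 a23_1 a23_2 q23 fun c24 a24_1 a24_2 q24 =>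
  smulK 429 10000 11529215046068469770000 494603325476337352704 z1 (Nat.add w1 1152921504606846976) 1152921504606846976 0 fun c25 a25_1 a25_2 q25 =>
  negK c25 a25_1 a25_2 q25 fun c26 a26_1 a26_2 q26 =>
  addcK c26 a26_1 a26_2 q26 1152921566839205108 1 fun c27 a27_1 a27_2 q27 =>
  mulK c27 a27_1 a27_2 q27 c24 a24_1 a24_2 q24 fun c29 a29_1 a29_2 q29 =>
  addK c7 a7_1 a7_2 q7 c29 a29_1 a29_2 q29 fun c31 a31_1 a31_2 q31 =>
  addcK c13 a13_1 a13_2 q13 1152922659094056141 1 fun c32 a32_1 a32_2 q32 =>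
  addcK z1 (Nat.add w1 1152921504606846976) 1152921504606846976 0 1152922659094056141 1 fun c34 a34_1 a34_2 q34 =>
  sqK c34 a34_1 a34_2 q34 fun c36 a36_1 a36_2 q36 =>
  mulK c32 a32_1 a32_2 q32 c36 a36_1 a36_2 q36 fun c37 a37_1 a37_2 q37 =>
  invK c37 a37_1 a37_2 q37 fun c38 a38_1 a38_2 q38 =>
  smulK 67 1000 1152921504606846977000 77245740808658747392 z1 (Nat.add w1 1152921504606846976) 1152921504606846976 0 fun c39 a39_1 a39_2 q39 =>
  negK c39 a39_1 a39_2 q39 fun c40 a40_1 a40_2 q40 =>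
  addcK c40 a40_1 a40_2 q40 1152921561341646969 1 fun c41 a41_1 a41_2 q41 =>
  mulK c41 a41_1 a41_2 q41 c38 a38_1 a38_2 q38 fun c43 a43_1 a43_2 q43 =>
  addK c31 a31_1 a31_2 q31 c43 a43_1 a43_2 q43 fun c45 a45_1 a45_2 q45 =>
  negK c5 a5_1 a5_2 q5 fun c46 a46_1 a46_2 q46 =>
  addcK c46 a46_1 a46_2 q46 1152922604118474752 0 fun c47 a47_1 a47_2 q47 =>
  sqrtK c47 a47_1 a47_2 q47 fun c49 a49_1 a49_2 q49 =>
  mulK z1 (Nat.add w1 1152921504606846976) 1152921504606846976 0 c13 a13_1 a13_2 q13 fun c51 a51_1 a51_2 q51 =>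
  negK c51 a51_1 a51_2 q51 fun c52 a52_1 a52_2 q52 =>
  addcK c52 a52_1 a52_2 q52 1152922604118474752 0 fun c53 a53_1 a53_2 q53 =>
  negK c8 a8_1 a8_2 q8 fun c55 a55_1 a55_2 q55 =>
  addcK c55 a55_1 a55_2 q55 1152922604118474752 0 fun c56 a56_1 a56_2 q56 =>
  mulK c56 a56_1 a56_2 q56 c11 a11_1 a11_2 q11 fun c58 a58_1 a58_2 q58 =>
  mulK c49 a49_1 a49_2 q49 c58 a58_1 a58_2 q58 fun c61 a61_1 a61_2 q61 =>
  addK c53 a53_1 a53_2 q53 c61 a61_1 a61_2 q61 fun c62 a62_1 a62_2 q62 =>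
  mulK c49 a49_1 a49_2 q49 c62 a62_1 a62_2 q62 fun c63 a63_1 a63_2 q63 =>
  invK c63 a63_1 a63_2 q63 fun c64 a64_1 a64_2 q64 =>
  subK c45 a45_1 a45_2 q45 c64 a64_1 a64_2 q64 fun c66 a66_1 a66_2 q66 =>
  pos c66 a66_1 a66_2 q66

theorem alt0_s {z1 w1 z2 w2 : ℕ} {e1 e2 m t : ℝ} (he : Ev e1 e2)
    (hx1 : In e1 e2 z1 (Nat.add w1 1152921504606846976) 1152921504606846976 0 m)
    (hx2 : In e1 e2 z2 1152921504606846976 (Nat.add w2 1152921504606846976) 0 t)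
    (H0 : alt0 z1 w1 z2 w2 = true) : 0 < ((((((11/25:ℝ) - ((99/1000:ℝ) * m)) + ((207/250:ℝ) * (m ^ 2))) + (((283/5000:ℝ) - ((429/10000:ℝ) * m)) / (((21/20:ℝ) - (g m t)) * (((21/20:ℝ) - m) ^ 2)))) + (((129/2500:ℝ) - ((67/1000:ℝ) * m)) / (((21/20:ℝ) + (g m t)) * (((21/20:ℝ) + m) ^ 2)))) - ((1:ℝ) / ((C m t) * (((1:ℝ) - (m * (g m t))) + ((C m t) * (y m t)))))) := by
  unfold alt0 at H0
  refine smulK_s he (w := (99/1000:ℝ)) (by norm_num) (by norm_num) (by norm_num) (by norm_num) hx1 (fun _ _ _ _ h1 H1 => ?_) H0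
  refine negK_s he h1 (fun _ _ _ _ h2 H2 => ?_) H1
  refine addcK_s he h2 (v' := (11/25:ℝ)) (by norm_num [SS, BB, abs_le]) (fun _ _ _ _ h3 H3 => ?_) H2
  have h4 := In_cast h3 (neg_add_eq_sub _ _)
  refine sqK_s he hx1 (fun _ _ _ _ h5 H4 => ?_) H3
  refine smulK_s he (w := (207/250:ℝ)) (by norm_num) (by norm_num) (by norm_num) (by norm_num) h5 (fun _ _ _ _ h6 H5 => ?_) H4
  refine addK_s he h4 h6 (fun _ _ _ _ h7 H6 => ?_) H5
  refine sqK_s he hx2 (fun _ _ _ _ h8 H7 => ?_) H6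
  refine addcK_s he h8 (v' := (1:ℝ)) (by norm_num [SS, BB, abs_le]) (fun _ _ _ _ h9 H8 => ?_) H7
  have h10 := In_cast h9 (add_comm _ _)
  refine invK_s he h10 (fun _ _ _ _ h11 H9 => ?_) H8
  refine smulK_s he (w := (2:ℝ)) (by norm_num) (by norm_num) (by norm_num) (by norm_num) hx2 (fun _ _ _ _ h12 H10 => ?_) H9
  refine mulK_s he h12 h11 (fun _ _ _ _ h13 H11 => ?_) H10
  have h14 := In_cast h13 ((div_eq_mul_inv _ _).symm)
  have h15 := In_cast (w := (g m t)) h14 rfl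
  refine negK_s he h15 (fun _ _ _ _ h16 H12 => ?_) H11
  refine addcK_s he h16 (v' := (21/20:ℝ)) (by norm_num [SS, BB, abs_le]) (fun _ _ _ _ h17 H13 => ?_) H12
  have h18 := In_cast h17 (neg_add_eq_sub _ _)
  refine negK_s he hx1 (fun _ _ _ _ h19 H14 => ?_) H13
  refine addcK_s he h19 (v' := (21/20:ℝ)) (by norm_num [SS, BB, abs_le]) (fun _ _ _ _ h20 H15 => ?_) H14
  have h21 := In_cast h20 (neg_add_eq_sub _ _)
  refine sqK_s he h21 (fun _ _ _ _ h22 H16 => ?_) H15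
  refine mulK_s he h18 h22 (fun _ _ _ _ h23 H17 => ?_) H16
  refine invK_s he h23 (fun _ _ _ _ h24 H18 => ?_) H17
  refine smulK_s he (w := (429/10000:ℝ)) (by norm_num) (by norm_num) (by norm_num) (by norm_num) hx1 (fun _ _ _ _ h25 H19 => ?_) H18
  refine negK_s he h25 (fun _ _ _ _ h26 H20 => ?_) H19
  refine addcK_s he h26 (v' := (283/5000:ℝ)) (by norm_num [SS, BB, abs_le]) (fun _ _ _ _ h27 H21 => ?_) H20
  have h28 := In_cast h27 (neg_add_eq_sub _ _)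
  refine mulK_s he h28 h24 (fun _ _ _ _ h29 H22 => ?_) H21
  have h30 := In_cast h29 ((div_eq_mul_inv _ _).symm)
  refine addK_s he h7 h30 (fun _ _ _ _ h31 H23 => ?_) H22
  refine addcK_s he h15 (v' := (21/20:ℝ)) (by norm_num [SS, BB, abs_le]) (fun _ _ _ _ h32 H24 => ?_) H23
  have h33 := In_cast h32 (add_comm _ _)
  refine addcK_s he hx1 (v' := (21/20:ℝ)) (by norm_num [SS, BB, abs_le]) (fun _ _ _ _ h34 H25 => ?_) H24
  have h35 := In_cast h34 (add_comm _ _)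
  refine sqK_s he h35 (fun _ _ _ _ h36 H26 => ?_) H25
  refine mulK_s he h33 h36 (fun _ _ _ _ h37 H27 => ?_) H26
  refine invK_s he h37 (fun _ _ _ _ h38 H28 => ?_) H27
  refine smulK_s he (w := (67/1000:ℝ)) (by norm_num) (by norm_num) (by norm_num) (by norm_num) hx1 (fun _ _ _ _ h39 H29 => ?_) H28
  refine negK_s he h39 (fun _ _ _ _ h40 H30 => ?_) H29
  refine addcK_s he h40 (v' := (129/2500:ℝ)) (by norm_num [SS, BB, abs_le]) (fun _ _ _ _ h41 H31 => ?_) H30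
  have h42 := In_cast h41 (neg_add_eq_sub _ _)
  refine mulK_s he h42 h38 (fun _ _ _ _ h43 H32 => ?_) H31
  have h44 := In_cast h43 ((div_eq_mul_inv _ _).symm)
  refine addK_s he h31 h44 (fun _ _ _ _ h45 H33 => ?_) H32
  refine negK_s he h5 (fun _ _ _ _ h46 H34 => ?_) H33
  refine addcK_s he h46 (v' := (1:ℝ)) (by norm_num [SS, BB, abs_le]) (fun _ _ _ _ h47 H35 => ?_) H34
  have h48 := In_cast h47 (neg_add_eq_sub _ _)
  refine sqrtK_s he h48 (fun _ _ _ _ h49 H36 => ?_) H35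
  have h50 := In_cast (w := (C m t)) h49 rfl
  refine mulK_s he hx1 h15 (fun _ _ _ _ h51 H37 => ?_) H36
  refine negK_s he h51 (fun _ _ _ _ h52 H38 => ?_) H37
  refine addcK_s he h52 (v' := (1:ℝ)) (by norm_num [SS, BB, abs_le]) (fun _ _ _ _ h53 H39 => ?_) H38
  have h54 := In_cast h53 (neg_add_eq_sub _ _)
  refine negK_s he h8 (fun _ _ _ _ h55 H40 => ?_) H39
  refine addcK_s he h55 (v' := (1:ℝ)) (by norm_num [SS, BB, abs_le]) (fun _ _ _ _ h56 H41 => ?_) H40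
  have h57 := In_cast h56 (neg_add_eq_sub _ _)
  refine mulK_s he h57 h11 (fun _ _ _ _ h58 H42 => ?_) H41
  have h59 := In_cast h58 ((div_eq_mul_inv _ _).symm)
  have h60 := In_cast (w := (y m t)) h59 rfl
  refine mulK_s he h50 h60 (fun _ _ _ _ h61 H43 => ?_) H42
  refine addK_s he h54 h61 (fun _ _ _ _ h62 H44 => ?_) H43
  refine mulK_s he h50 h62 (fun _ _ _ _ h63 H45 => ?_) H44
  refine invK_s he h63 (fun _ _ _ _ h64 H46 => ?_) H45
  have h65 := In_cast h64 (inv_eq_one_div _)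
  refine subK_s he h45 h65 (fun _ _ _ _ h66 H47 => ?_) H46
  exact pos_s he h66 H47

attribute [irreducible] alt0

noncomputable def leaf (j u z1 w1 z2 w2 : ℕ) : Bool :=
  alt0 z1 w1 z2 w2

theorem snd : Snd Q leaf := by
  intro j u z1 w1 z2 w2 e1 e2 he H
  unfold leaf at H
  unfold Q
  exact alt0_s he (var1 z1 w1) (var2 z2 w2) H

end Crest.Agent.R307.HNcM
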