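import Crest.Agent.R307.HNcM
set_option autoImplicit false
set_option maxRecDepth 100000
namespace Crest.Agent.R307.HNcM
open Crest.Agent.R307.IA Crest.Agent.R307.IA2

theorem k0 : Cov Q 1152921504606846976 1152922351230800364 1152920405095219200 1152922604118474752 :=
  cov_of snd 0 0 18 _ _ _ _ 0x220212021220022012202201122020220220012202201220221220012220101221220220110112202122112202201220220022201220011102202202012210220220122002202201220022001220220101220202202010220202201220022120122021022021220012202022010122022012210221220010220212200220122021012202201220122022010220202201102202021220210112202211222012202202200111222012212202202200111022022002201220220022200102202201220220101221220210110220202202202201112202201220220122022201111012220122122022022001112212212220111022122102212202201012202202012202220012202202200101022022021022012220022012202200220102202200101220220210220111221220222011122122211102220122022012200122201022022012200220201221012202022011102202220022202221010112202211221221112221022200122021122122011012220122201222010220220220012202201220220101220202212010112202122021022122001220211221211220202201221122021101010 (by decide +kernel)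

end Crest.Agent.R307.HNcM
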