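import Crest.Agent.R307.IA2
import Crest.Agent.R307.IAx
set_option autoImplicit false
set_option linter.unusedVariables false
set_option maxRecDepth 20000
namespace Crest.Agent.R307.HNcP
open Crest.Agent.R307.IA Crest.Agent.R307.IA2

theorem In_cast {e1 e2 : ℝ} {x y1 y2 r : ℕ} {v w : ℝ}
    (h : In e1 e2 x y1 y2 r v) (e : v = w) : In e1 e2 x y1 y2 r w := e ▸ h

noncomputable def ph (x e : ℝ) : ℝ := ((28333/5000:ℝ) * (((1:ℝ) - (x * (28333/10000:ℝ))) + ((2/3:ℝ) * ((x * (28333/10000:ℝ)) ^ 2))))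
noncomputable def th (x e : ℝ) : ℝ := ((2:ℝ) / ((1:ℝ) - ((2:ℝ) * x)))
noncomputable def d (x e : ℝ) : ℝ := (((2:ℝ) - (((17/8:ℝ) * x) * (ph x e))) / (1/8:ℝ))
noncomputable def A (x e : ℝ) : ℝ := ((1:ℝ) + (e * (d x e)))
noncomputable def lo (x e : ℝ) : ℝ := (((4:ℝ) * (d x e)) / (((√(A x e)) + (1:ℝ)) ^ 2))
noncomputable def ps (x e : ℝ) : ℝ := ((7083/1250:ℝ) * (((1:ℝ) + (x * (7083/2500:ℝ))) + ((2/3:ℝ) * ((x * (7083/2500:ℝ)) ^ 2))))
noncomputable def d1 (x e : ℝ) : ℝ := ((1:ℝ) - ((1/17:ℝ) * ((1:ℝ) + (x * (ps x e)))))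

def Q (x e : ℝ) : Prop :=
  (
  (0 < (((81/10:ℝ) - ((16:ℝ) * e)) - (((17/8:ℝ) * (ph x e)) - (((((th x e) * (1/8:ℝ)) * (A x e)) * (lo x e)) * ((1:ℝ) + ((((x * (th x e)) * e) * (lo x e)) / (2:ℝ)))))) ∧ 0 < ((39/10:ℝ) - (((((th x e) * (17/8:ℝ)) * (√((1:ℝ) - (e * (d1 x e))))) * (d1 x e)) - ((1/8:ℝ) * (ps x e)))) ∧ 0 < (d x e) ∧ 0 < (d1 x e)))

noncomputable def alt0 (z1 w1 z2 w2 : ℕ) : Bool :=
  smulK 16 1 1152921504606846977 18446744073709551616 z2 1152921504606846976 (Nat.add w2 1152921504606846976) 0 fun c1 a1_1 a1_2 q1 =>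
  negK c1 a1_1 a1_2 q1 fun c2 a2_1 a2_2 q2 =>
  addcK c2 a2_1 a2_2 q2 1152930410651031962 1 fun c3 a3_1 a3_2 q3 =>
  smulK 28333 10000 11529215046068469770000 32665724990025795371008 z1 (Nat.add w1 1152921504606846976) 1152921504606846976 0 fun c5 a5_1 a5_2 q5 =>
  negK c5 a5_1 a5_2 q5 fun c7 a7_1 a7_2 q7 =>
  addcK c7 a7_1 a7_2 q7 1152922604118474752 0 fun c8 a8_1 a8_2 q8 =>
  sqK c5 a5_1 a5_2 q5 fun c10 a10_1 a10_2 q10 =>
  smulK 2 3 3458764513820540931 2305843009213693952 c10 a10_1 a10_2 q10 fun c11 a11_1 a11_2 q11 =>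
  addK c8 a8_1 a8_2 q8 c11 a11_1 a11_2 q11 fun c12 a12_1 a12_2 q12 =>
  smulK 28333 5000 5764607523034234885000 32665724990025795371008 c12 a12_1 a12_2 q12 fun c13 a13_1 a13_2 q13 =>
  smulK 17 8 9223372036854775816 19599665578316398592 c13 a13_1 a13_2 q13 fun c15 a15_1 a15_2 q15 =>
  smulK 2 1 1152921504606846977 2305843009213693952 z1 (Nat.add w1 1152921504606846976) 1152921504606846976 0 fun c16 a16_1 a16_2 q16 =>
  negK c16 a16_1 a16_2 q16 fun c17 a17_1 a17_2 q17 =>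
  addcK c17 a17_1 a17_2 q17 1152922604118474752 0 fun c18 a18_1 a18_2 q18 =>
  invK c18 a18_1 a18_2 q18 fun c20 a20_1 a20_2 q20 =>
  smulK 2 1 1152921504606846977 2305843009213693952 c20 a20_1 a20_2 q20 fun c21 a21_1 a21_2 q21 =>
  smulK 1 8 9223372036854775816 1152921504606846976 c21 a21_1 a21_2 q21 fun c24 a24_1 a24_2 q24 =>
  smulK 17 8 9223372036854775816 19599665578316398592 z1 (Nat.add w1 1152921504606846976) 1152921504606846976 0 fun c26 a26_1 a26_2 q26 =>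
  mulK c26 a26_1 a26_2 q26 c13 a13_1 a13_2 q13 fun c27 a27_1 a27_2 q27 =>
  negK c27 a27_1 a27_2 q27 fun c28 a28_1 a28_2 q28 =>
  addcK c28 a28_1 a28_2 q28 1152923703630102528 0 fun c29 a29_1 a29_2 q29 =>
  smulK 8 1 1152921504606846977 9223372036854775808 c29 a29_1 a29_2 q29 fun c31 a31_1 a31_2 q31 =>
  mulK z2 1152921504606846976 (Nat.add w2 1152921504606846976) 0 c31 a31_1 a31_2 q31 fun c34 a34_1 a34_2 q34 =>
  addcK c34 a34_1 a34_2 q34 1152922604118474752 0 fun c35 a35_1 a35_2 q35 =>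
  mulK c24 a24_1 a24_2 q24 c35 a35_1 a35_2 q35 fun c38 a38_1 a38_2 q38 =>
  sqrtK c35 a35_1 a35_2 q35 fun c39 a39_1 a39_2 q39 =>
  addcK c39 a39_1 a39_2 q39 1152922604118474752 0 fun c40 a40_1 a40_2 q40 =>
  sqK c40 a40_1 a40_2 q40 fun c41 a41_1 a41_2 q41 =>
  invK c41 a41_1 a41_2 q41 fun c42 a42_1 a42_2 q42 =>
  smulK 4 1 1152921504606846977 4611686018427387904 c31 a31_1 a31_2 q31 fun c43 a43_1 a43_2 q43 =>
  mulK c43 a43_1 a43_2 q43 c42 a42_1 a42_2 q42 fun c44 a44_1 a44_2 q44 =>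
  mulK c38 a38_1 a38_2 q38 c44 a44_1 a44_2 q44 fun c47 a47_1 a47_2 q47 =>
  mulK z1 (Nat.add w1 1152921504606846976) 1152921504606846976 0 c21 a21_1 a21_2 q21 fun c48 a48_1 a48_2 q48 =>
  mulK c48 a48_1 a48_2 q48 z2 1152921504606846976 (Nat.add w2 1152921504606846976) 0 fun c49 a49_1 a49_2 q49 =>
  mulK c49 a49_1 a49_2 q49 c44 a44_1 a44_2 q44 fun c50 a50_1 a50_2 q50 =>
  smulK 1 2 2305843009213693954 1152921504606846976 c50 a50_1 a50_2 q50 fun c51 a51_1 a51_2 q51 =>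
  addcK c51 a51_1 a51_2 q51 1152922604118474752 0 fun c53 a53_1 a53_2 q53 =>
  mulK c47 a47_1 a47_2 q47 c53 a53_1 a53_2 q53 fun c55 a55_1 a55_2 q55 =>
  subK c15 a15_1 a15_2 q15 c55 a55_1 a55_2 q55 fun c56 a56_1 a56_2 q56 =>
  subK c3 a3_1 a3_2 q3 c56 a56_1 a56_2 q56 fun c57 a57_1 a57_2 q57 =>
  posK c57 a57_1 a57_2 q57 <|
  smulK 17 8 9223372036854775816 19599665578316398592 c21 a21_1 a21_2 q21 fun c58 a58_1 a58_2 q58 =>
  smulK 7083 2500 2882303761517117442500 8166143017130297131008 z1 (Nat.add w1 1152921504606846976) 1152921504606846976 0 fun c60 a60_1 a60_2 q60 =>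
  addcK c60 a60_1 a60_2 q60 1152922604118474752 0 fun c62 a62_1 a62_2 q62 =>
  sqK c60 a60_1 a60_2 q60 fun c64 a64_1 a64_2 q64 =>
  smulK 2 3 3458764513820540931 2305843009213693952 c64 a64_1 a64_2 q64 fun c65 a65_1 a65_2 q65 =>
  addK c62 a62_1 a62_2 q62 c65 a65_1 a65_2 q65 fun c66 a66_1 a66_2 q66 =>
  smulK 7083 1250 1441151880758558721250 8166143017130297131008 c66 a66_1 a66_2 q66 fun c67 a67_1 a67_2 q67 =>
  mulK z1 (Nat.add w1 1152921504606846976) 1152921504606846976 0 c67 a67_1 a67_2 q67 fun c69 a69_1 a69_2 q69 =>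
  addcK c69 a69_1 a69_2 q69 1152922604118474752 0 fun c70 a70_1 a70_2 q70 =>
  smulK 1 17 19599665578316398609 1152921504606846976 c70 a70_1 a70_2 q70 fun c72 a72_1 a72_2 q72 =>
  negK c72 a72_1 a72_2 q72 fun c73 a73_1 a73_2 q73 =>
  addcK c73 a73_1 a73_2 q73 1152922604118474752 0 fun c74 a74_1 a74_2 q74 =>
  mulK z2 1152921504606846976 (Nat.add w2 1152921504606846976) 0 c74 a74_1 a74_2 q74 fun c77 a77_1 a77_2 q77 =>
  negK c77 a77_1 a77_2 q77 fun c78 a78_1 a78_2 q78 =>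
  addcK c78 a78_1 a78_2 q78 1152922604118474752 0 fun c79 a79_1 a79_2 q79 =>
  sqrtK c79 a79_1 a79_2 q79 fun c81 a81_1 a81_2 q81 =>
  mulK c58 a58_1 a58_2 q58 c81 a81_1 a81_2 q81 fun c82 a82_1 a82_2 q82 =>
  mulK c82 a82_1 a82_2 q82 c74 a74_1 a74_2 q74 fun c83 a83_1 a83_2 q83 =>
  smulK 1 8 9223372036854775816 1152921504606846976 c67 a67_1 a67_2 q67 fun c84 a84_1 a84_2 q84 =>
  subK c83 a83_1 a83_2 q83 c84 a84_1 a84_2 q84 fun c85 a85_1 a85_2 q85 =>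
  negK c85 a85_1 a85_2 q85 fun c86 a86_1 a86_2 q86 =>
  addcK c86 a86_1 a86_2 q86 1152925792702195302 1 fun c87 a87_1 a87_2 q87 =>
  posK c87 a87_1 a87_2 q87 <|
  posK c31 a31_1 a31_2 q31 <|
  pos c74 a74_1 a74_2 q74

theorem alt0_s {z1 w1 z2 w2 : ℕ} {e1 e2 x e : ℝ} (he : Ev e1 e2)
    (hx1 : In e1 e2 z1 (Nat.add w1 1152921504606846976) 1152921504606846976 0 x)
    (hx2 : In e1 e2 z2 1152921504606846976 (Nat.add w2 1152921504606846976) 0 e)
    (H0 : alt0 z1 w1 z2 w2 = true) : 0 < (((81/10:ℝ) - ((16:ℝ) * e)) - (((17/8:ℝ) * (ph x e)) - (((((th x e) * (1/8:ℝ)) * (A x e)) * (lo x e)) * ((1:ℝ) + ((((x * (th x e)) * e) * (lo x e)) / (2:ℝ)))))) ∧ 0 < ((39/10:ℝ) - (((((th x e) * (17/8:ℝ)) * (√((1:ℝ) - (e * (d1 x e))))) * (d1 x e)) - ((1/8:ℝ) * (ps x e)))) ∧ 0 < (d x e) ∧ 0 < (d1 x e) := by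
  unfold alt0 at H0
  refine smulK_s he (w := (16:ℝ)) (by norm_num) (by norm_num) (by norm_num) (by norm_num) hx2 (fun _ _ _ _ h1 H1 => ?_) H0
  refine negK_s he h1 (fun _ _ _ _ h2 H2 => ?_) H1
  refine addcK_s he h2 (v' := (81/10:ℝ)) (by norm_num [SS, BB, abs_le]) (fun _ _ _ _ h3 H3 => ?_) H2
  have h4 := In_cast h3 (neg_add_eq_sub _ _)
  refine smulK_s he (w := (28333/10000:ℝ)) (by norm_num) (by norm_num) (by norm_num) (by norm_num) hx1 (fun _ _ _ _ h5 H4 => ?_) H3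
  have h6 := In_cast h5 (mul_comm _ _)
  refine negK_s he h6 (fun _ _ _ _ h7 H5 => ?_) H4
  refine addcK_s he h7 (v' := (1:ℝ)) (by norm_num [SS, BB, abs_le]) (fun _ _ _ _ h8 H6 => ?_) H5
  have h9 := In_cast h8 (neg_add_eq_sub _ _)
  refine sqK_s he h6 (fun _ _ _ _ h10 H7 => ?_) H6
  refine smulK_s he (w := (2/3:ℝ)) (by norm_num) (by norm_num) (by norm_num) (by norm_num) h10 (fun _ _ _ _ h11 H8 => ?_) H7
  refine addK_s he h9 h11 (fun _ _ _ _ h12 H9 => ?_) H8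
  refine smulK_s he (w := (28333/5000:ℝ)) (by norm_num) (by norm_num) (by norm_num) (by norm_num) h12 (fun _ _ _ _ h13 H10 => ?_) H9
  have h14 := In_cast (w := (ph x e)) h13 rfl
  refine smulK_s he (w := (17/8:ℝ)) (by norm_num) (by norm_num) (by norm_num) (by norm_num) h14 (fun _ _ _ _ h15 H11 => ?_) H10
  refine smulK_s he (w := (2:ℝ)) (by norm_num) (by norm_num) (by norm_num) (by norm_num) hx1 (fun _ _ _ _ h16 H12 => ?_) H11
  refine negK_s he h16 (fun _ _ _ _ h17 H13 => ?_) H12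
  refine addcK_s he h17 (v' := (1:ℝ)) (by norm_num [SS, BB, abs_le]) (fun _ _ _ _ h18 H14 => ?_) H13
  have h19 := In_cast h18 (neg_add_eq_sub _ _)
  refine invK_s he h19 (fun _ _ _ _ h20 H15 => ?_) H14
  refine smulK_s he (w := (2:ℝ)) (by norm_num) (by norm_num) (by norm_num) (by norm_num) h20 (fun _ _ _ _ h21 H16 => ?_) H15
  have h22 := In_cast h21 ((div_eq_mul_inv _ _).symm)
  have h23 := In_cast (w := (th x e)) h22 rfl
  refine smulK_s he (w := (1/8:ℝ)) (by norm_num) (by norm_num) (by norm_num) (by norm_num) h23 (fun _ _ _ _ h24 H17 => ?_) H16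
  have h25 := In_cast h24 (mul_comm _ _)
  refine smulK_s he (w := (17/8:ℝ)) (by norm_num) (by norm_num) (by norm_num) (by norm_num) hx1 (fun _ _ _ _ h26 H18 => ?_) H17
  refine mulK_s he h26 h14 (fun _ _ _ _ h27 H19 => ?_) H18
  refine negK_s he h27 (fun _ _ _ _ h28 H20 => ?_) H19
  refine addcK_s he h28 (v' := (2:ℝ)) (by norm_num [SS, BB, abs_le]) (fun _ _ _ _ h29 H21 => ?_) H20
  have h30 := In_cast h29 (neg_add_eq_sub _ _)
  refine smulK_s he (w := (8:ℝ)) (by norm_num) (by norm_num) (by norm_num) (by norm_num) h30 (fun _ _ _ _ h31 H22 => ?_) H21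
  have h32 := In_cast h31 (div_c (c := (1/8:ℝ)) (by norm_num))
  have h33 := In_cast (w := (d x e)) h32 rfl
  refine mulK_s he hx2 h33 (fun _ _ _ _ h34 H23 => ?_) H22
  refine addcK_s he h34 (v' := (1:ℝ)) (by norm_num [SS, BB, abs_le]) (fun _ _ _ _ h35 H24 => ?_) H23
  have h36 := In_cast h35 (add_comm _ _)
  have h37 := In_cast (w := (A x e)) h36 rfl
  refine mulK_s he h25 h37 (fun _ _ _ _ h38 H25 => ?_) H24
  refine sqrtK_s he h37 (fun _ _ _ _ h39 H26 => ?_) H25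
  refine addcK_s he h39 (v' := (1:ℝ)) (by norm_num [SS, BB, abs_le]) (fun _ _ _ _ h40 H27 => ?_) H26
  refine sqK_s he h40 (fun _ _ _ _ h41 H28 => ?_) H27
  refine invK_s he h41 (fun _ _ _ _ h42 H29 => ?_) H28
  refine smulK_s he (w := (4:ℝ)) (by norm_num) (by norm_num) (by norm_num) (by norm_num) h33 (fun _ _ _ _ h43 H30 => ?_) H29
  refine mulK_s he h43 h42 (fun _ _ _ _ h44 H31 => ?_) H30
  have h45 := In_cast h44 ((div_eq_mul_inv _ _).symm)
  have h46 := In_cast (w := (lo x e)) h45 rfl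
  refine mulK_s he h38 h46 (fun _ _ _ _ h47 H32 => ?_) H31
  refine mulK_s he hx1 h23 (fun _ _ _ _ h48 H33 => ?_) H32
  refine mulK_s he h48 hx2 (fun _ _ _ _ h49 H34 => ?_) H33
  refine mulK_s he h49 h46 (fun _ _ _ _ h50 H35 => ?_) H34
  refine smulK_s he (w := (1/2:ℝ)) (by norm_num) (by norm_num) (by norm_num) (by norm_num) h50 (fun _ _ _ _ h51 H36 => ?_) H35
  have h52 := In_cast h51 (div_c (c := (2:ℝ)) (by norm_num))
  refine addcK_s he h52 (v' := (1:ℝ)) (by norm_num [SS, BB, abs_le]) (fun _ _ _ _ h53 H37 => ?_) H36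
  have h54 := In_cast h53 (add_comm _ _)
  refine mulK_s he h47 h54 (fun _ _ _ _ h55 H38 => ?_) H37
  refine subK_s he h15 h55 (fun _ _ _ _ h56 H39 => ?_) H38
  refine subK_s he h4 h56 (fun _ _ _ _ h57 H40 => ?_) H39
  refine posK_s he h57 (fun p0 H41 => ?_) H40
  refine smulK_s he (w := (17/8:ℝ)) (by norm_num) (by norm_num) (by norm_num) (by norm_num) h23 (fun _ _ _ _ h58 H42 => ?_) H41
  have h59 := In_cast h58 (mul_comm _ _)
  refine smulK_s he (w := (7083/2500:ℝ)) (by norm_num) (by norm_num) (by norm_num) (by norm_num) hx1 (fun _ _ _ _ h60 H43 => ?_) H42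
  have h61 := In_cast h60 (mul_comm _ _)
  refine addcK_s he h61 (v' := (1:ℝ)) (by norm_num [SS, BB, abs_le]) (fun _ _ _ _ h62 H44 => ?_) H43
  have h63 := In_cast h62 (add_comm _ _)
  refine sqK_s he h61 (fun _ _ _ _ h64 H45 => ?_) H44
  refine smulK_s he (w := (2/3:ℝ)) (by norm_num) (by norm_num) (by norm_num) (by norm_num) h64 (fun _ _ _ _ h65 H46 => ?_) H45
  refine addK_s he h63 h65 (fun _ _ _ _ h66 H47 => ?_) H46
  refine smulK_s he (w := (7083/1250:ℝ)) (by norm_num) (by norm_num) (by norm_num) (by norm_num) h66 (fun _ _ _ _ h67 H48 => ?_) H47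
  have h68 := In_cast (w := (ps x e)) h67 rfl
  refine mulK_s he hx1 h68 (fun _ _ _ _ h69 H49 => ?_) H48
  refine addcK_s he h69 (v' := (1:ℝ)) (by norm_num [SS, BB, abs_le]) (fun _ _ _ _ h70 H50 => ?_) H49
  have h71 := In_cast h70 (add_comm _ _)
  refine smulK_s he (w := (1/17:ℝ)) (by norm_num) (by norm_num) (by norm_num) (by norm_num) h71 (fun _ _ _ _ h72 H51 => ?_) H50
  refine negK_s he h72 (fun _ _ _ _ h73 H52 => ?_) H51
  refine addcK_s he h73 (v' := (1:ℝ)) (by norm_num [SS, BB, abs_le]) (fun _ _ _ _ h74 H53 => ?_) H52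
  have h75 := In_cast h74 (neg_add_eq_sub _ _)
  have h76 := In_cast (w := (d1 x e)) h75 rfl
  refine mulK_s he hx2 h76 (fun _ _ _ _ h77 H54 => ?_) H53
  refine negK_s he h77 (fun _ _ _ _ h78 H55 => ?_) H54
  refine addcK_s he h78 (v' := (1:ℝ)) (by norm_num [SS, BB, abs_le]) (fun _ _ _ _ h79 H56 => ?_) H55
  have h80 := In_cast h79 (neg_add_eq_sub _ _)
  refine sqrtK_s he h80 (fun _ _ _ _ h81 H57 => ?_) H56
  refine mulK_s he h59 h81 (fun _ _ _ _ h82 H58 => ?_) H57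
  refine mulK_s he h82 h76 (fun _ _ _ _ h83 H59 => ?_) H58
  refine smulK_s he (w := (1/8:ℝ)) (by norm_num) (by norm_num) (by norm_num) (by norm_num) h68 (fun _ _ _ _ h84 H60 => ?_) H59
  refine subK_s he h83 h84 (fun _ _ _ _ h85 H61 => ?_) H60
  refine negK_s he h85 (fun _ _ _ _ h86 H62 => ?_) H61
  refine addcK_s he h86 (v' := (39/10:ℝ)) (by norm_num [SS, BB, abs_le]) (fun _ _ _ _ h87 H63 => ?_) H62
  have h88 := In_cast h87 (neg_add_eq_sub _ _)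
  refine posK_s he h88 (fun p1 H64 => ?_) H63
  refine posK_s he h33 (fun p2 H65 => ?_) H64
  exact ⟨p0, p1, p2, pos_s he h76 H65⟩

attribute [irreducible] alt0

noncomputable def leaf (j u z1 w1 z2 w2 : ℕ) : Bool :=
  alt0 z1 w1 z2 w2

theorem snd : Snd Q leaf := by
  intro j u z1 w1 z2 w2 e1 e2 he H
  unfold leaf at H
  unfold Q
  exact alt0_s he (var1 z1 w1) (var2 z2 w2) H

end Crest.Agent.R307.HNcP
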