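import Crest.Agent.R307.HNcP
set_option autoImplicit false
set_option maxRecDepth 100000
namespace Crest.Agent.R307.HNcP
open Crest.Agent.R307.IA Crest.Agent.R307.IA2

theorem k0 : Cov Q 1152921504606846976 1152921603562893476 1152921504606846976 1152921713514056254 :=
  cov_of snd 0 0 8 _ _ _ _ 0x22022012202122200210022122022022220110101 (by decide +kernel)

end Crest.Agent.R307.HNcP
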