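import Crest.Agent.R307.IA2
import Crest.Agent.R307.IAx
set_option autoImplicit false
set_option linter.unusedVariables false
set_option maxRecDepth 20000
namespace Crest.Agent.R307.HNcS
open Crest.Agent.R307.IA Crest.Agent.R307.IA2

theorem In_cast {e1 e2 : ℝ} {x y1 y2 r : ℕ} {v w : ℝ}
    (h : In e1 e2 x y1 y2 r v) (e : v = w) : In e1 e2 x y1 y2 r w := e ▸ h


def Q (u t : ℝ) : Prop :=
  (
  (0 < (((((2:ℝ) * ((13/25:ℝ) + ((37/100:ℝ) * (((2:ℝ) * u) / ((1:ℝ) + (u ^ 2)))))) * ((1:ℝ) - (u ^ 2))) * (((1:ℝ) - (((u * t) ^ 2) * (u ^ 2))) ^ 2)) - (((1:ℝ) - (((t / ((1:ℝ) + t)) ^ 2) * ((1:ℝ) - (u ^ 4)))) * ((((1:ℝ) + ((u * t) ^ 2)) * ((1:ℝ) + (u ^ 2))) ^ 2)))))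

noncomputable def alt0 (z1 w1 z2 w2 : ℕ) : Bool :=
  sqK z1 (Nat.add w1 1152921504606846976) 1152921504606846976 0 fun c1 a1_1 a1_2 q1 =>
  addcK c1 a1_1 a1_2 q1 1152922604118474752 0 fun c2 a2_1 a2_2 q2 =>
  invK c2 a2_1 a2_2 q2 fun c4 a4_1 a4_2 q4 =>
  smulK 2 1 1152921504606846977 2305843009213693952 z1 (Nat.add w1 1152921504606846976) 1152921504606846976 0 fun c5 a5_1 a5_2 q5 =>
  mulK c5 a5_1 a5_2 q5 c4 a4_1 a4_2 q4 fun c6 a6_1 a6_2 q6 =>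
  smulK 37 100 115292150460684697700 42658095670453338112 c6 a6_1 a6_2 q6 fun c8 a8_1 a8_2 q8 =>
  addcK c8 a8_1 a8_2 q8 1152922076352893420 1 fun c9 a9_1 a9_2 q9 =>
  smulK 2 1 1152921504606846977 2305843009213693952 c9 a9_1 a9_2 q9 fun c11 a11_1 a11_2 q11 =>
  negK c1 a1_1 a1_2 q1 fun c12 a12_1 a12_2 q12 =>
  addcK c12 a12_1 a12_2 q12 1152922604118474752 0 fun c13 a13_1 a13_2 q13 =>
  mulK c11 a11_1 a11_2 q11 c13 a13_1 a13_2 q13 fun c15 a15_1 a15_2 q15 =>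
  mulK z1 (Nat.add w1 1152921504606846976) 1152921504606846976 0 z2 1152921504606846976 (Nat.add w2 1152921504606846976) 0 fun c16 a16_1 a16_2 q16 =>
  sqK c16 a16_1 a16_2 q16 fun c17 a17_1 a17_2 q17 =>
  mulK c17 a17_1 a17_2 q17 c1 a1_1 a1_2 q1 fun c18 a18_1 a18_2 q18 =>
  negK c18 a18_1 a18_2 q18 fun c19 a19_1 a19_2 q19 =>
  addcK c19 a19_1 a19_2 q19 1152922604118474752 0 fun c20 a20_1 a20_2 q20 =>
  sqK c20 a20_1 a20_2 q20 fun c22 a22_1 a22_2 q22 =>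
  mulK c15 a15_1 a15_2 q15 c22 a22_1 a22_2 q22 fun c23 a23_1 a23_2 q23 =>
  addcK z2 1152921504606846976 (Nat.add w2 1152921504606846976) 0 1152922604118474752 0 fun c24 a24_1 a24_2 q24 =>
  invK c24 a24_1 a24_2 q24 fun c26 a26_1 a26_2 q26 =>
  mulK z2 1152921504606846976 (Nat.add w2 1152921504606846976) 0 c26 a26_1 a26_2 q26 fun c27 a27_1 a27_2 q27 =>
  sqK c27 a27_1 a27_2 q27 fun c29 a29_1 a29_2 q29 =>
  sqK c1 a1_1 a1_2 q1 fun c30 a30_1 a30_2 q30 =>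
  negK c30 a30_1 a30_2 q30 fun c32 a32_1 a32_2 q32 =>
  addcK c32 a32_1 a32_2 q32 1152922604118474752 0 fun c33 a33_1 a33_2 q33 =>
  mulK c29 a29_1 a29_2 q29 c33 a33_1 a33_2 q33 fun c35 a35_1 a35_2 q35 =>
  negK c35 a35_1 a35_2 q35 fun c36 a36_1 a36_2 q36 =>
  addcK c36 a36_1 a36_2 q36 1152922604118474752 0 fun c37 a37_1 a37_2 q37 =>
  addcK c17 a17_1 a17_2 q17 1152922604118474752 0 fun c39 a39_1 a39_2 q39 =>
  mulK c39 a39_1 a39_2 q39 c2 a2_1 a2_2 q2 fun c41 a41_1 a41_2 q41 =>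
  sqK c41 a41_1 a41_2 q41 fun c42 a42_1 a42_2 q42 =>
  mulK c37 a37_1 a37_2 q37 c42 a42_1 a42_2 q42 fun c43 a43_1 a43_2 q43 =>
  subK c23 a23_1 a23_2 q23 c43 a43_1 a43_2 q43 fun c44 a44_1 a44_2 q44 =>
  pos c44 a44_1 a44_2 q44

theorem alt0_s {z1 w1 z2 w2 : ℕ} {e1 e2 u t : ℝ} (he : Ev e1 e2)
    (hx1 : In e1 e2 z1 (Nat.add w1 1152921504606846976) 1152921504606846976 0 u)
    (hx2 : In e1 e2 z2 1152921504606846976 (Nat.add w2 1152921504606846976) 0 t)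
    (H0 : alt0 z1 w1 z2 w2 = true) : 0 < (((((2:ℝ) * ((13/25:ℝ) + ((37/100:ℝ) * (((2:ℝ) * u) / ((1:ℝ) + (u ^ 2)))))) * ((1:ℝ) - (u ^ 2))) * (((1:ℝ) - (((u * t) ^ 2) * (u ^ 2))) ^ 2)) - (((1:ℝ) - (((t / ((1:ℝ) + t)) ^ 2) * ((1:ℝ) - (u ^ 4)))) * ((((1:ℝ) + ((u * t) ^ 2)) * ((1:ℝ) + (u ^ 2))) ^ 2))) := by
  unfold alt0 at H0
  refine sqK_s he hx1 (fun _ _ _ _ h1 H1 => ?_) H0
  refine addcK_s he h1 (v' := (1:ℝ)) (by norm_num [SS, BB, abs_le]) (fun _ _ _ _ h2 H2 => ?_) H1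
  have h3 := In_cast h2 (add_comm _ _)
  refine invK_s he h3 (fun _ _ _ _ h4 H3 => ?_) H2
  refine smulK_s he (w := (2:ℝ)) (by norm_num) (by norm_num) (by norm_num) (by norm_num) hx1 (fun _ _ _ _ h5 H4 => ?_) H3
  refine mulK_s he h5 h4 (fun _ _ _ _ h6 H5 => ?_) H4
  have h7 := In_cast h6 ((div_eq_mul_inv _ _).symm)
  refine smulK_s he (w := (37/100:ℝ)) (by norm_num) (by norm_num) (by norm_num) (by norm_num) h7 (fun _ _ _ _ h8 H6 => ?_) H5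
  refine addcK_s he h8 (v' := (13/25:ℝ)) (by norm_num [SS, BB, abs_le]) (fun _ _ _ _ h9 H7 => ?_) H6
  have h10 := In_cast h9 (add_comm _ _)
  refine smulK_s he (w := (2:ℝ)) (by norm_num) (by norm_num) (by norm_num) (by norm_num) h10 (fun _ _ _ _ h11 H8 => ?_) H7
  refine negK_s he h1 (fun _ _ _ _ h12 H9 => ?_) H8
  refine addcK_s he h12 (v' := (1:ℝ)) (by norm_num [SS, BB, abs_le]) (fun _ _ _ _ h13 H10 => ?_) H9
  have h14 := In_cast h13 (neg_add_eq_sub _ _)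
  refine mulK_s he h11 h14 (fun _ _ _ _ h15 H11 => ?_) H10
  refine mulK_s he hx1 hx2 (fun _ _ _ _ h16 H12 => ?_) H11
  refine sqK_s he h16 (fun _ _ _ _ h17 H13 => ?_) H12
  refine mulK_s he h17 h1 (fun _ _ _ _ h18 H14 => ?_) H13
  refine negK_s he h18 (fun _ _ _ _ h19 H15 => ?_) H14
  refine addcK_s he h19 (v' := (1:ℝ)) (by norm_num [SS, BB, abs_le]) (fun _ _ _ _ h20 H16 => ?_) H15
  have h21 := In_cast h20 (neg_add_eq_sub _ _)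
  refine sqK_s he h21 (fun _ _ _ _ h22 H17 => ?_) H16
  refine mulK_s he h15 h22 (fun _ _ _ _ h23 H18 => ?_) H17
  refine addcK_s he hx2 (v' := (1:ℝ)) (by norm_num [SS, BB, abs_le]) (fun _ _ _ _ h24 H19 => ?_) H18
  have h25 := In_cast h24 (add_comm _ _)
  refine invK_s he h25 (fun _ _ _ _ h26 H20 => ?_) H19
  refine mulK_s he hx2 h26 (fun _ _ _ _ h27 H21 => ?_) H20
  have h28 := In_cast h27 ((div_eq_mul_inv _ _).symm)
  refine sqK_s he h28 (fun _ _ _ _ h29 H22 => ?_) H21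
  refine sqK_s he h1 (fun _ _ _ _ h30 H23 => ?_) H22
  have h31 := In_cast h30 (pow_dbl (n := 4) rfl)
  refine negK_s he h31 (fun _ _ _ _ h32 H24 => ?_) H23
  refine addcK_s he h32 (v' := (1:ℝ)) (by norm_num [SS, BB, abs_le]) (fun _ _ _ _ h33 H25 => ?_) H24
  have h34 := In_cast h33 (neg_add_eq_sub _ _)
  refine mulK_s he h29 h34 (fun _ _ _ _ h35 H26 => ?_) H25
  refine negK_s he h35 (fun _ _ _ _ h36 H27 => ?_) H26
  refine addcK_s he h36 (v' := (1:ℝ)) (by norm_num [SS, BB, abs_le]) (fun _ _ _ _ h37 H28 => ?_) H27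
  have h38 := In_cast h37 (neg_add_eq_sub _ _)
  refine addcK_s he h17 (v' := (1:ℝ)) (by norm_num [SS, BB, abs_le]) (fun _ _ _ _ h39 H29 => ?_) H28
  have h40 := In_cast h39 (add_comm _ _)
  refine mulK_s he h40 h3 (fun _ _ _ _ h41 H30 => ?_) H29
  refine sqK_s he h41 (fun _ _ _ _ h42 H31 => ?_) H30
  refine mulK_s he h38 h42 (fun _ _ _ _ h43 H32 => ?_) H31
  refine subK_s he h23 h43 (fun _ _ _ _ h44 H33 => ?_) H32
  exact pos_s he h44 H33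

attribute [irreducible] alt0

noncomputable def leaf (j u z1 w1 z2 w2 : ℕ) : Bool :=
  alt0 z1 w1 z2 w2

theorem snd : Snd Q leaf := by
  intro j u z1 w1 z2 w2 e1 e2 he H
  unfold leaf at H
  unfold Q
  exact alt0_s he (var1 z1 w1) (var2 z2 w2) H

end Crest.Agent.R307.HNcS
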