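import Crest.Agent.R307.IA2
import Crest.Agent.R307.IAx
set_option autoImplicit false
set_option linter.unusedVariables false
set_option maxRecDepth 20000
namespace Crest.Agent.R307.HNcT
open Crest.Agent.R307.IA Crest.Agent.R307.IA2

theorem In_cast {e1 e2 : ℝ} {x y1 y2 r : ℕ} {v w : ℝ}
    (h : In e1 e2 x y1 y2 r v) (e : v = w) : In e1 e2 x y1 y2 r w := e ▸ h


def Q (u t : ℝ) : Prop :=
  (
  (0 < (((((2:ℝ) * ((13/25:ℝ) + ((37/100:ℝ) * (((2:ℝ) * (u * t)) / ((1:ℝ) + ((u * t) ^ 2)))))) * ((1:ℝ) - ((u * t) ^ 2))) * (((1:ℝ) - ((u ^ 2) * ((u * t) ^ 2))) ^ 2)) - (((1:ℝ) - ((((1:ℝ) / ((1:ℝ) + t)) ^ 2) * ((1:ℝ) - ((u * t) ^ 4)))) * ((((1:ℝ) + (u ^ 2)) * ((1:ℝ) + ((u * t) ^ 2))) ^ 2)))) ∨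
  (0 < ((u * t) - (7/40:ℝ))))

noncomputable def alt0 (z1 w1 z2 w2 : ℕ) : Bool :=
  mulK z1 (Nat.add w1 1152921504606846976) 1152921504606846976 0 z2 1152921504606846976 (Nat.add w2 1152921504606846976) 0 fun c1 a1_1 a1_2 q1 =>
  sqK c1 a1_1 a1_2 q1 fun c2 a2_1 a2_2 q2 =>
  addcK c2 a2_1 a2_2 q2 1152922604118474752 0 fun c3 a3_1 a3_2 q3 =>
  invK c3 a3_1 a3_2 q3 fun c5 a5_1 a5_2 q5 =>
  smulK 2 1 1152921504606846977 2305843009213693952 c1 a1_1 a1_2 q1 fun c6 a6_1 a6_2 q6 =>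
  mulK c6 a6_1 a6_2 q6 c5 a5_1 a5_2 q5 fun c7 a7_1 a7_2 q7 =>
  smulK 37 100 115292150460684697700 42658095670453338112 c7 a7_1 a7_2 q7 fun c9 a9_1 a9_2 q9 =>
  addcK c9 a9_1 a9_2 q9 1152922076352893420 1 fun c10 a10_1 a10_2 q10 =>
  smulK 2 1 1152921504606846977 2305843009213693952 c10 a10_1 a10_2 q10 fun c12 a12_1 a12_2 q12 =>
  negK c2 a2_1 a2_2 q2 fun c13 a13_1 a13_2 q13 =>
  addcK c13 a13_1 a13_2 q13 1152922604118474752 0 fun c14 a14_1 a14_2 q14 =>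
  mulK c12 a12_1 a12_2 q12 c14 a14_1 a14_2 q14 fun c16 a16_1 a16_2 q16 =>
  sqK z1 (Nat.add w1 1152921504606846976) 1152921504606846976 0 fun c17 a17_1 a17_2 q17 =>
  mulK c17 a17_1 a17_2 q17 c2 a2_1 a2_2 q2 fun c18 a18_1 a18_2 q18 =>
  negK c18 a18_1 a18_2 q18 fun c19 a19_1 a19_2 q19 =>
  addcK c19 a19_1 a19_2 q19 1152922604118474752 0 fun c20 a20_1 a20_2 q20 =>
  sqK c20 a20_1 a20_2 q20 fun c22 a22_1 a22_2 q22 =>
  mulK c16 a16_1 a16_2 q16 c22 a22_1 a22_2 q22 fun c23 a23_1 a23_2 q23 =>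
  addcK z2 1152921504606846976 (Nat.add w2 1152921504606846976) 0 1152922604118474752 0 fun c24 a24_1 a24_2 q24 =>
  invK c24 a24_1 a24_2 q24 fun c26 a26_1 a26_2 q26 =>
  sqK c26 a26_1 a26_2 q26 fun c28 a28_1 a28_2 q28 =>
  sqK c2 a2_1 a2_2 q2 fun c29 a29_1 a29_2 q29 =>
  negK c29 a29_1 a29_2 q29 fun c31 a31_1 a31_2 q31 =>
  addcK c31 a31_1 a31_2 q31 1152922604118474752 0 fun c32 a32_1 a32_2 q32 =>
  mulK c28 a28_1 a28_2 q28 c32 a32_1 a32_2 q32 fun c34 a34_1 a34_2 q34 =>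
  negK c34 a34_1 a34_2 q34 fun c35 a35_1 a35_2 q35 =>
  addcK c35 a35_1 a35_2 q35 1152922604118474752 0 fun c36 a36_1 a36_2 q36 =>
  addcK c17 a17_1 a17_2 q17 1152922604118474752 0 fun c38 a38_1 a38_2 q38 =>
  mulK c38 a38_1 a38_2 q38 c3 a3_1 a3_2 q3 fun c40 a40_1 a40_2 q40 =>
  sqK c40 a40_1 a40_2 q40 fun c41 a41_1 a41_2 q41 =>
  mulK c36 a36_1 a36_2 q36 c41 a41_1 a41_2 q41 fun c42 a42_1 a42_2 q42 =>
  subK c23 a23_1 a23_2 q23 c42 a42_1 a42_2 q42 fun c43 a43_1 a43_2 q43 =>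
  pos c43 a43_1 a43_2 q43

theorem alt0_s {z1 w1 z2 w2 : ℕ} {e1 e2 u t : ℝ} (he : Ev e1 e2)
    (hx1 : In e1 e2 z1 (Nat.add w1 1152921504606846976) 1152921504606846976 0 u)
    (hx2 : In e1 e2 z2 1152921504606846976 (Nat.add w2 1152921504606846976) 0 t)
    (H0 : alt0 z1 w1 z2 w2 = true) : 0 < (((((2:ℝ) * ((13/25:ℝ) + ((37/100:ℝ) * (((2:ℝ) * (u * t)) / ((1:ℝ) + ((u * t) ^ 2)))))) * ((1:ℝ) - ((u * t) ^ 2))) * (((1:ℝ) - ((u ^ 2) * ((u * t) ^ 2))) ^ 2)) - (((1:ℝ) - ((((1:ℝ) / ((1:ℝ) + t)) ^ 2) * ((1:ℝ) - ((u * t) ^ 4)))) * ((((1:ℝ) + (u ^ 2)) * ((1:ℝ) + ((u * t) ^ 2))) ^ 2))) := by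
  unfold alt0 at H0
  refine mulK_s he hx1 hx2 (fun _ _ _ _ h1 H1 => ?_) H0
  refine sqK_s he h1 (fun _ _ _ _ h2 H2 => ?_) H1
  refine addcK_s he h2 (v' := (1:ℝ)) (by norm_num [SS, BB, abs_le]) (fun _ _ _ _ h3 H3 => ?_) H2
  have h4 := In_cast h3 (add_comm _ _)
  refine invK_s he h4 (fun _ _ _ _ h5 H4 => ?_) H3
  refine smulK_s he (w := (2:ℝ)) (by norm_num) (by norm_num) (by norm_num) (by norm_num) h1 (fun _ _ _ _ h6 H5 => ?_) H4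
  refine mulK_s he h6 h5 (fun _ _ _ _ h7 H6 => ?_) H5
  have h8 := In_cast h7 ((div_eq_mul_inv _ _).symm)
  refine smulK_s he (w := (37/100:ℝ)) (by norm_num) (by norm_num) (by norm_num) (by norm_num) h8 (fun _ _ _ _ h9 H7 => ?_) H6
  refine addcK_s he h9 (v' := (13/25:ℝ)) (by norm_num [SS, BB, abs_le]) (fun _ _ _ _ h10 H8 => ?_) H7
  have h11 := In_cast h10 (add_comm _ _)
  refine smulK_s he (w := (2:ℝ)) (by norm_num) (by norm_num) (by norm_num) (by norm_num) h11 (fun _ _ _ _ h12 H9 => ?_) H8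
  refine negK_s he h2 (fun _ _ _ _ h13 H10 => ?_) H9
  refine addcK_s he h13 (v' := (1:ℝ)) (by norm_num [SS, BB, abs_le]) (fun _ _ _ _ h14 H11 => ?_) H10
  have h15 := In_cast h14 (neg_add_eq_sub _ _)
  refine mulK_s he h12 h15 (fun _ _ _ _ h16 H12 => ?_) H11
  refine sqK_s he hx1 (fun _ _ _ _ h17 H13 => ?_) H12
  refine mulK_s he h17 h2 (fun _ _ _ _ h18 H14 => ?_) H13
  refine negK_s he h18 (fun _ _ _ _ h19 H15 => ?_) H14
  refine addcK_s he h19 (v' := (1:ℝ)) (by norm_num [SS, BB, abs_le]) (fun _ _ _ _ h20 H16 => ?_) H15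
  have h21 := In_cast h20 (neg_add_eq_sub _ _)
  refine sqK_s he h21 (fun _ _ _ _ h22 H17 => ?_) H16
  refine mulK_s he h16 h22 (fun _ _ _ _ h23 H18 => ?_) H17
  refine addcK_s he hx2 (v' := (1:ℝ)) (by norm_num [SS, BB, abs_le]) (fun _ _ _ _ h24 H19 => ?_) H18
  have h25 := In_cast h24 (add_comm _ _)
  refine invK_s he h25 (fun _ _ _ _ h26 H20 => ?_) H19
  have h27 := In_cast h26 (inv_eq_one_div _)
  refine sqK_s he h27 (fun _ _ _ _ h28 H21 => ?_) H20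
  refine sqK_s he h2 (fun _ _ _ _ h29 H22 => ?_) H21
  have h30 := In_cast h29 (pow_dbl (n := 4) rfl)
  refine negK_s he h30 (fun _ _ _ _ h31 H23 => ?_) H22
  refine addcK_s he h31 (v' := (1:ℝ)) (by norm_num [SS, BB, abs_le]) (fun _ _ _ _ h32 H24 => ?_) H23
  have h33 := In_cast h32 (neg_add_eq_sub _ _)
  refine mulK_s he h28 h33 (fun _ _ _ _ h34 H25 => ?_) H24
  refine negK_s he h34 (fun _ _ _ _ h35 H26 => ?_) H25
  refine addcK_s he h35 (v' := (1:ℝ)) (by norm_num [SS, BB, abs_le]) (fun _ _ _ _ h36 H27 => ?_) H26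
  have h37 := In_cast h36 (neg_add_eq_sub _ _)
  refine addcK_s he h17 (v' := (1:ℝ)) (by norm_num [SS, BB, abs_le]) (fun _ _ _ _ h38 H28 => ?_) H27
  have h39 := In_cast h38 (add_comm _ _)
  refine mulK_s he h39 h4 (fun _ _ _ _ h40 H29 => ?_) H28
  refine sqK_s he h40 (fun _ _ _ _ h41 H30 => ?_) H29
  refine mulK_s he h37 h41 (fun _ _ _ _ h42 H31 => ?_) H30
  refine subK_s he h23 h42 (fun _ _ _ _ h43 H32 => ?_) H31
  exact pos_s he h43 H32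

noncomputable def alt1 (z1 w1 z2 w2 : ℕ) : Bool :=
  mulK z1 (Nat.add w1 1152921504606846976) 1152921504606846976 0 z2 1152921504606846976 (Nat.add w2 1152921504606846976) 0 fun c1 a1_1 a1_2 q1 =>
  addcK c1 a1_1 a1_2 q1 1152921312192312115 1 fun c2 a2_1 a2_2 q2 =>
  pos c2 a2_1 a2_2 q2

theorem alt1_s {z1 w1 z2 w2 : ℕ} {e1 e2 u t : ℝ} (he : Ev e1 e2)
    (hx1 : In e1 e2 z1 (Nat.add w1 1152921504606846976) 1152921504606846976 0 u)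
    (hx2 : In e1 e2 z2 1152921504606846976 (Nat.add w2 1152921504606846976) 0 t)
    (H0 : alt1 z1 w1 z2 w2 = true) : 0 < ((u * t) - (7/40:ℝ)) := by
  unfold alt1 at H0
  refine mulK_s he hx1 hx2 (fun _ _ _ _ h1 H1 => ?_) H0
  refine addcK_s he h1 (v' := (-7/40:ℝ)) (by norm_num [SS, BB, abs_le]) (fun _ _ _ _ h2 H2 => ?_) H1
  have h3 := In_cast h2 (sub_c (c := (7/40:ℝ)) (by norm_num))
  exact pos_s he h3 H2

attribute [irreducible] alt0 alt1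

noncomputable def leaf (j u z1 w1 z2 w2 : ℕ) : Bool :=
  sB j (alt0 z1 w1 z2 w2) fun j => alt1 z1 w1 z2 w2

theorem snd : Snd Q leaf := by
  intro j u z1 w1 z2 w2 e1 e2 he H
  unfold leaf at H
  unfold Q
  replace H := sel H
  rcases H with H | ⟨j, H⟩
  · exact Or.inl (alt0_s he (var1 z1 w1) (var2 z2 w2) H)
  exact Or.inr (alt1_s he (var1 z1 w1) (var2 z2 w2) H)

end Crest.Agent.R307.HNcT
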