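import Crest.Agent.R307.HNcT
set_option autoImplicit false
set_option maxRecDepth 100000
namespace Crest.Agent.R307.HNcT
open Crest.Agent.R307.IA Crest.Agent.R307.IA2

theorem k0 : Cov Q 1152921504606846976 1152922604118474752 1152921504606846976 1152922604118474752 :=
  cov_of snd 0 0 23 _ _ _ _ 0x33033301330320211033200332012013332100332003321020133200202120212021120120202120211202111332003202012022010 (by decide +kernel)

end Crest.Agent.R307.HNcT
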