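import Crest.Agent.R307.HNr

/-!
# R307/HNh: reverse hypercontractivity at exponents -1 and 1/2
-/

set_option autoImplicit false

namespace Crest.Agent.R307

open Crest.CubeNoise

variable {n : ℕ}

theorem hn_harm {u v : (Fin n → Bool) → ℝ} {P Q α β : ℝ} (hu : ∀ x, 0 < u x) (hv : ∀ x, 0 < v x) (hP : 0 < P) (hQ : 0 < Q)
    (hα : 0 ≤ α) (hβ : 0 ≤ β) (hs : α + β = 1) (h1 : (cubeAverage fun x => 1 / u x) ≤ 1 / P)
    (h2 : (cubeAverage fun x => 1 / v x) ≤ 1 / Q) :
    (cubeAverage fun x => 1 / (α * u x + β * v x)) ≤ 1 / (α * P + β * Q) := by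
  have hS : 0 < α * P + β * Q := by
    rcases hα.eq_or_lt with h | h
    · have : β = 1 := by linarith
      rw [← h, this]
      linarith
    · nlinarith [mul_pos h hP, mul_nonneg hβ hQ.le]
  have hpt : ∀ x, 1 / (α * u x + β * v x) ≤
      α * P ^ 2 / (α * P + β * Q) ^ 2 * (1 / u x) + β * Q ^ 2 / (α * P + β * Q) ^ 2 * (1 / v x) := by
    intro x
    have a := hu x
    have b := hv x
    have hT : 0 < α * u x + β * v x := by
      rcases hα.eq_or_lt with h | h
      · have : β = 1 := by linarith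
        rw [← h, this]
        linarith
      · nlinarith [mul_pos h a, mul_nonneg hβ b.le]
    have e : α * P ^ 2 / (α * P + β * Q) ^ 2 * (1 / u x) + β * Q ^ 2 / (α * P + β * Q) ^ 2 * (1 / v x) =
        (α * P ^ 2 * v x + β * Q ^ 2 * u x) / ((α * P + β * Q) ^ 2 * (u x * v x)) := by
      field_simp
    rw [e, div_le_div_iff₀ hT (by positivity)]
    nlinarith [mul_nonneg (mul_nonneg hα hβ) (sq_nonneg (P * v x - Q * u x))]
  refine (avg_mono hpt).trans ?_
  rw [avg_add, avg_mul, avg_mul]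
  calc _ ≤ α * P ^ 2 / (α * P + β * Q) ^ 2 * (1 / P) + β * Q ^ 2 / (α * P + β * Q) ^ 2 * (1 / Q) := by gcongr
    _ = _ := by field_simp

theorem hn_mink {u v : (Fin n → Bool) → ℝ} {P Q α β : ℝ} (hu : ∀ x, 0 ≤ u x) (hv : ∀ x, 0 ≤ v x) (hP : 0 ≤ P) (hQ : 0 ≤ Q)
    (hα : 0 ≤ α) (hβ : 0 ≤ β) (h1 : √P ≤ cubeAverage fun x => √(u x)) (h2 : √Q ≤ cubeAverage fun x => √(v x)) :
    √(α * P + β * Q) ≤ cubeAverage fun x => √(α * u x + β * v x) := by
  have hS : 0 ≤ α * P + β * Q := by positivity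
  rcases hS.eq_or_lt with h | h
  · rw [← h, Real.sqrt_zero]
    exact avg_nonneg fun x => Real.sqrt_nonneg _
  have hs := Real.sqrt_pos.2 h
  have hpt : ∀ x, α * √P * √(u x) + β * √Q * √(v x) ≤ √(α * P + β * Q) * √(α * u x + β * v x) := by
    intro x
    rw [← Real.sqrt_mul hS]
    refine Real.le_sqrt_of_sq_le ?_
    have a := Real.sq_sqrt hP
    have b := Real.sq_sqrt hQ
    have c := Real.sq_sqrt (hu x)
    have d := Real.sq_sqrt (hv x)
    generalize √P = p at *
    generalize √Q = q at *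
    generalize √(u x) = s at *
    generalize √(v x) = t at *
    rw [← a, ← b, ← c, ← d]
    nlinarith [mul_nonneg (mul_nonneg hα hβ) (sq_nonneg (p * t - q * s))]
  have h3 := avg_mono hpt
  rw [avg_add, avg_mul, avg_mul, avg_mul] at h3
  refine le_of_mul_le_mul_left (le_trans ?_ h3) hs
  rw [Real.mul_self_sqrt hS]
  calc α * P + β * Q = α * √P * √P + β * √Q * √Q := by
        rw [mul_assoc, mul_assoc, Real.mul_self_sqrt hP, Real.mul_self_sqrt hQ]
    _ ≤ _ := by gcongr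

theorem hnh_pos {ρ : ℝ} (hρ : |ρ| ≤ 1) {f : (Fin n → Bool) → ℝ} (hf : ∀ x, 0 < f x) (x : Fin n → Bool) :
    0 < noise ρ f x := by
  obtain ⟨y, -, hy⟩ := Finset.exists_min_image Finset.univ f Finset.univ_nonempty
  have := noise_mono hρ (u := fun _ => f y) (fun z => hy z (Finset.mem_univ _)) x
  rw [noise_const] at this
  exact (hf y).trans_le this

theorem hnh_abs {ρ : ℝ} (hρ : ρ ^ 2 ≤ 1 / 4) : |ρ| ≤ 1 := by
  rw [← sq_le_one_iff_abs_le_one]
  linarith

theorem hn_hc_inv {ρ K : ℝ} (hρ : |ρ| ≤ 1) (h1 : 1 ≤ K) (hK : 1 ≤ K * (1 - 2 * ρ ^ 2)) (h2 : K ≤ 2) :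
    ∀ (n : ℕ) (f : (Fin n → Bool) → ℝ), (∀ x, 0 < f x) →
      (cubeAverage fun x => 1 / noise ρ f x) ≤ 1 / (cubeAverage fun x => f x ^ (1 / K)) ^ K := by
  obtain ⟨r1, r2⟩ := abs_le.1 hρ
  intro n
  induction n with
  | zero =>
    intro f hf
    rw [avg_zero_dim, avg_zero_dim, noise_zero_dim, one_div K, Real.rpow_inv_rpow (hf _).le (by linarith)]
  | succ n ih =>
    intro f hf
    have hL : ∀ b, 0 < cubeAverage fun x => sl f b x ^ (1 / K) := fun b => by
      simpa [avg_const, sl] using avg_lt (f := fun _ : Fin n → Bool => (0 : ℝ)) fun x => Real.rpow_pos_of_pos (hf _) (1 / K)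
    have hN : ∀ b x, 0 < noise ρ (sl f b) x := fun b => hnh_pos hρ fun x => hf _
    have e : ∀ b, (cubeAverage (sl (fun x => 1 / noise ρ f x) b)) ≤
        1 / ((1 - ρ * spin b) / 2 * (cubeAverage fun x => sl f false x ^ (1 / K)) ^ K +
          (1 + ρ * spin b) / 2 * (cubeAverage fun x => sl f true x ^ (1 / K)) ^ K) := by
      intro b
      have e1 : sl (fun x => 1 / noise ρ f x) b = fun x => 1 / ((1 - ρ * spin b) / 2 * noise ρ (sl f false) x +
          (1 + ρ * spin b) / 2 * noise ρ (sl f true) x) := funext fun x => congrArg (1 / ·) (noise_sl ρ f b x)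
      rw [e1]
      refine hn_harm (hN false) (hN true) (Real.rpow_pos_of_pos (hL _) _) (Real.rpow_pos_of_pos (hL _) _) ?_ ?_
        (by ring) (ih _ fun x => hf _) (ih _ fun x => hf _)
      all_goals rcases spin_cases b with h | h <;> rw [h] <;> linarith
    have e0 := e false
    have e1 := e true
    simp only [spin, if_true, Bool.false_eq_true, if_false, mul_one, mul_neg, sub_neg_eq_add,
      ← sub_eq_add_neg] at e0 e1
    have h3 := hn_two_inv hρ h1 hK h2 (hL false) (hL true)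
    rw [avg_succ, avg_succ fun x => f x ^ (1 / K)]
    change _ ≤ 1 / (((cubeAverage fun x => sl f false x ^ (1 / K)) + cubeAverage fun x => sl f true x ^ (1 / K)) / 2) ^ K
    rw [← mul_one_div 2] at h3
    linarith

theorem hn_hc_sqrt {ρ K : ℝ} (hρ : |ρ| ≤ 1) (h1 : 1 ≤ K) (hK : 1 ≤ K * √(1 - ρ ^ 2)) (h2 : K ≤ 2) :
    ∀ (n : ℕ) (f : (Fin n → Bool) → ℝ), (∀ x, 0 ≤ f x) →
      √((cubeAverage fun x => f x ^ (1 / K)) ^ K) ≤ cubeAverage fun x => √(noise ρ f x) := by
  obtain ⟨r1, r2⟩ := abs_le.1 hρ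
  intro n
  induction n with
  | zero =>
    intro f hf
    rw [avg_zero_dim, avg_zero_dim, noise_zero_dim, one_div K, Real.rpow_inv_rpow (hf _) (by linarith)]
  | succ n ih =>
    intro f hf
    have hL : ∀ b, 0 ≤ cubeAverage fun x => sl f b x ^ (1 / K) := fun b =>
      avg_nonneg fun x => Real.rpow_nonneg (hf _) (1 / K)
    have hN : ∀ b x, 0 ≤ noise ρ (sl f b) x := fun b x => by
      simpa [noise_const] using noise_mono hρ (u := fun _ => 0) (v := sl f b) (fun y => hf _) x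
    have e : ∀ b, √((1 - ρ * spin b) / 2 * (cubeAverage fun x => sl f false x ^ (1 / K)) ^ K +
          (1 + ρ * spin b) / 2 * (cubeAverage fun x => sl f true x ^ (1 / K)) ^ K) ≤
        cubeAverage (sl (fun x => √(noise ρ f x)) b) := by
      intro b
      have e1 : sl (fun x => √(noise ρ f x)) b = fun x => √((1 - ρ * spin b) / 2 * noise ρ (sl f false) x +
          (1 + ρ * spin b) / 2 * noise ρ (sl f true) x) := funext fun x => congrArg Real.sqrt (noise_sl ρ f b x)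
      rw [e1]
      refine hn_mink (hN false) (hN true) (Real.rpow_nonneg (hL _) _) (Real.rpow_nonneg (hL _) _) ?_ ?_
        (ih _ fun x => hf _) (ih _ fun x => hf _)
      all_goals rcases spin_cases b with h | h <;> rw [h] <;> linarith
    have e0 := e false
    have e1 := e true
    simp only [spin, if_true, Bool.false_eq_true, if_false, mul_one, mul_neg, sub_neg_eq_add,
      ← sub_eq_add_neg] at e0 e1
    have h3 := hn_two_sqrt hρ h1 hK h2 (hL false) (hL true)
    rw [avg_succ (fun x => √(noise ρ f x)), avg_succ fun x => f x ^ (1 / K)]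
    change √((((cubeAverage fun x => sl f false x ^ (1 / K)) + cubeAverage fun x => sl f true x ^ (1 / K)) / 2) ^ K) ≤ _
    linarith

/-- The norm of `b + f` for a sign function `f` of mean `m`, exponent `1 - 2x`. -/
noncomputable def NN (b m x : ℝ) : ℝ :=
  ((1 + m) / 2 * (b + 1) ^ (1 - 2 * x) + (1 - m) / 2 * (b - 1) ^ (1 - 2 * x)) ^ (1 / (1 - 2 * x))

theorem hn_tail {ρ b : ℝ} (hρ : ρ ^ 2 ≤ 1 / 4) (hb : 1 < b) {f : (Fin n → Bool) → ℝ} (hf : ∀ x, f x = 1 ∨ f x = -1) :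
    (cubeAverage fun x => 1 / (b + noise ρ f x)) ≤ 1 / NN b (cubeAverage f) (ρ ^ 2) := by
  have hk : 1 / 2 ≤ 1 - 2 * ρ ^ 2 := by linarith
  have hk0 : 0 < 1 - 2 * ρ ^ 2 := by linarith
  have h := hn_hc_inv (K := 1 / (1 - 2 * ρ ^ 2)) (hnh_abs hρ)
    (by rw [le_div_iff₀ hk0]; nlinarith [sq_nonneg ρ]) (by rw [one_div_mul_cancel hk0.ne'])
    (by rw [div_le_iff₀ hk0]; linarith) n (fun x => 1 * f x + b)
    (fun x => by rcases hf x with a | a <;> rw [a] <;> linarith)
  simp only [noise_affine, one_div_one_div] at h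
  have e : (cubeAverage fun x => (1 * f x + b) ^ (1 - 2 * ρ ^ 2)) =
      (1 + cubeAverage f) / 2 * (b + 1) ^ (1 - 2 * ρ ^ 2) + (1 - cubeAverage f) / 2 * (b - 1) ^ (1 - 2 * ρ ^ 2) := by
    have e1 : (fun x => (1 * f x + b) ^ (1 - 2 * ρ ^ 2)) = fun x =>
        ((b + 1) ^ (1 - 2 * ρ ^ 2) - (b - 1) ^ (1 - 2 * ρ ^ 2)) / 2 * f x +
          ((b + 1) ^ (1 - 2 * ρ ^ 2) + (b - 1) ^ (1 - 2 * ρ ^ 2)) / 2 := by
      funext x
      rcases hf x with a | a <;> rw [a]
      · rw [show 1 * 1 + b = b + 1 by ring]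
        ring
      · rw [show 1 * -1 + b = b - 1 by ring]
        ring
    rw [e1, avg_add, avg_mul, avg_const]
    ring
  rw [e] at h
  simpa only [NN, one_mul, add_comm b] using h

theorem hn_sqrt_ind {ρ : ℝ} (hρ : ρ ^ 2 ≤ 1 / 4) {f : (Fin n → Bool) → ℝ} (hf : ∀ x, f x = 1 ∨ f x = -1) :
    √(((1 - cubeAverage f) / 2) ^ (1 / √(1 - ρ ^ 2))) ≤ cubeAverage fun x => √((1 - noise ρ f x) / 2) := by
  have hk : 1 / 2 ≤ √(1 - ρ ^ 2) := Real.le_sqrt_of_sq_le (by linarith)
  have hk0 : 0 < √(1 - ρ ^ 2) := by linarith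
  have hk1 : √(1 - ρ ^ 2) ≤ 1 := Real.sqrt_le_one.2 (by nlinarith [sq_nonneg ρ])
  have h := hn_hc_sqrt (K := 1 / √(1 - ρ ^ 2)) (hnh_abs hρ)
    (by rw [le_div_iff₀ hk0]; linarith) (by rw [one_div_mul_cancel hk0.ne'])
    (by rw [div_le_iff₀ hk0]; linarith) n (fun x => -(1 / 2) * f x + 1 / 2)
    (fun x => by rcases hf x with a | a <;> rw [a] <;> norm_num)
  simp only [noise_affine, one_div_one_div] at h
  have e1 : (fun x => (-(1 / 2) * f x + 1 / 2) ^ √(1 - ρ ^ 2)) = fun x => -(1 / 2) * f x + 1 / 2 := by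
    funext x
    rcases hf x with a | a <;> rw [a]
    · norm_num [hk0.ne']
    · norm_num
  rw [e1, avg_add, avg_mul, avg_const] at h
  convert h using 3
  · ring
  · congr 1
    ring

end Crest.Agent.R307
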