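import Crest.Agent.R307.HNh
import Crest.Agent.R307.HNcKM

/-!
# R307/HNn: lower bound for the norm NN at b = 21/20
-/

set_option autoImplicit false

namespace Crest.Agent.R307

open Crest.CubeNoise

theorem NN_pos {b m x : ℝ} (hb : 1 < b) (hm : |m| ≤ 1) : 0 < NN b m x := by
  unfold NN
  obtain ⟨h1, h2⟩ := abs_le.1 hm
  apply Real.rpow_pos_of_pos
  have hp : 0 < (b + 1) ^ (1 - 2 * x) := Real.rpow_pos_of_pos (by linarith) _
  have hq : 0 < (b - 1) ^ (1 - 2 * x) := Real.rpow_pos_of_pos (by linarith) _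
  rcases le_total 0 m with h | h
  · have ha : 0 < (1 + m) / 2 * (b + 1) ^ (1 - 2 * x) := mul_pos (by linarith) hp
    have hb' : 0 ≤ (1 - m) / 2 * (b - 1) ^ (1 - 2 * x) := mul_nonneg (by linarith) hq.le
    linarith
  · have ha : 0 ≤ (1 + m) / 2 * (b + 1) ^ (1 - 2 * x) := mul_nonneg (by linarith) hp.le
    have hb' : 0 < (1 - m) / 2 * (b - 1) ^ (1 - 2 * x) := mul_pos (by linarith) hq
    linarith

theorem hn_log41 : (7427 / 2000 : ℝ) ≤ Real.log 41 := by
  have h2 := Real.log_two_gt_d9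
  have h3 : 2 * (3385 / 65536 : ℝ) / ((3385 / 65536 : ℝ) + 2) ≤ Real.log (1 + 3385 / 65536) :=
    Real.le_log_one_add_of_nonneg (by norm_num)
  have h4 : 3 * Real.log 41 = 16 * Real.log 2 + Real.log (1 + 3385 / 65536) := by
    have e1 : (3 : ℝ) * Real.log 41 = Real.log ((41 : ℝ) ^ 3) := by
      rw [Real.log_pow]; norm_num
    have e2 : (16 : ℝ) * Real.log 2 = Real.log ((2 : ℝ) ^ 16) := by
      rw [Real.log_pow]; norm_num
    rw [e1, e2, ← Real.log_mul (by norm_num) (by norm_num)]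
    norm_num
  norm_num at h3 h2 h4 ⊢
  linarith

theorem hnn_exp_neg {u : ℝ} (h0 : 0 ≤ u) (h2 : u < 2) : (2 - u) / (2 + u) ≤ Real.exp (-u) := by
  have hd : 0 < 2 - u := by linarith
  have hy : 0 ≤ 2 * u / (2 - u) := by positivity
  have h := Real.le_log_one_add_of_nonneg hy
  have e1 : 2 * (2 * u / (2 - u)) / (2 * u / (2 - u) + 2) = u := by
    field_simp
    ring
  have e2 : 1 + 2 * u / (2 - u) = (2 + u) / (2 - u) := by
    field_simp
    ring
  rw [e1, e2] at h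
  have hpos : 0 < (2 + u) / (2 - u) := by positivity
  have h' : Real.exp u ≤ (2 + u) / (2 - u) := by
    calc Real.exp u ≤ Real.exp (Real.log ((2 + u) / (2 - u))) := Real.exp_le_exp.2 h
      _ = (2 + u) / (2 - u) := Real.exp_log hpos
  rw [Real.exp_neg]
  have := inv_anti₀ (Real.exp_pos u) h'
  rwa [inv_div] at this

theorem hnn_log_inv {t : ℝ} (h0 : 0 < t) (h1 : t ≤ 1) : -Real.log t ≤ (1 - t ^ 2) / (2 * t) := by
  have hl : 0 ≤ Real.log t⁻¹ := Real.log_nonneg ((one_le_inv₀ h0).2 h1)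
  have h := Real.self_le_sinh_iff.2 hl
  rw [Real.sinh_log (inv_pos.2 h0), Real.log_inv, inv_inv] at h
  have e : (t⁻¹ - t) / 2 = (1 - t ^ 2) / (2 * t) := by
    field_simp
  rwa [e] at h

/-- `A ^ (1 + θ)` from below for `A ≤ 1`, with `t = A ^ (1/4)`. -/
theorem hn_pow_low {A θ : ℝ} (h0 : 0 < A) (h1 : A ≤ 1) (hθ : 0 ≤ θ) (hu : θ * (2 * (1 - √(√A) ^ 2) / √(√A)) < 2) :
    A * (2 - θ * (2 * (1 - √(√A) ^ 2) / √(√A))) / (2 + θ * (2 * (1 - √(√A) ^ 2) / √(√A))) ≤ A ^ (1 + θ) := by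
  have hs0 : 0 < √A := Real.sqrt_pos.2 h0
  have ht0 : 0 < √(√A) := Real.sqrt_pos.2 hs0
  have hs1 : √A ≤ 1 := Real.sqrt_le_one.2 h1
  have ht1 : √(√A) ≤ 1 := Real.sqrt_le_one.2 hs1
  have hlogA : Real.log A = 4 * Real.log (√(√A)) := by
    rw [Real.log_sqrt hs0.le, Real.log_sqrt h0.le]; ring
  generalize √(√A) = t at *
  have hl := hnn_log_inv ht0 ht1
  have hv0 : 0 ≤ 2 * (1 - t ^ 2) / t := by
    have : 0 ≤ 1 - t ^ 2 := by nlinarith
    positivity
  have hv : -Real.log A ≤ 2 * (1 - t ^ 2) / t := by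
    have e : 2 * (1 - t ^ 2) / t = 4 * ((1 - t ^ 2) / (2 * t)) := by
      field_simp
      ring
    rw [hlogA, e]; linarith
  generalize 2 * (1 - t ^ 2) / t = v at *
  have hu0 : 0 ≤ θ * v := mul_nonneg hθ hv0
  have h3 := hnn_exp_neg hu0 hu
  have h4 : Real.exp (-(θ * v)) ≤ A ^ θ := by
    rw [Real.rpow_def_of_pos h0]
    apply Real.exp_le_exp.2
    have := mul_le_mul_of_nonneg_left hv hθ
    nlinarith
  rw [Real.rpow_add h0, Real.rpow_one, mul_div_assoc]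
  exact mul_le_mul_of_nonneg_left (h3.trans h4) h0.le

theorem hnn_exp_low {y : ℝ} (hy : 0 ≤ y) : 1 + y + y ^ 2 / 2 + y ^ 3 / 6 ≤ Real.exp y := by
  have h := Real.sum_le_exp_of_nonneg hy 4
  simp only [Finset.sum_range_succ, Finset.range_zero, Finset.sum_empty, Nat.factorial] at h
  norm_num at h
  linarith

theorem hn_N_II {m x : ℝ} (hm : |m| ≤ 1) (hx0 : 0 ≤ x) (hx : x ≤ 9 / 100) (hu : 0 < 2 - x * HNcK.u2 m x) :
    1 / NN (21 / 20) m x ≤ 1 / (21 / 20 + m) + x * ((2 * HNcK.u2 m x * (21 / 20 + m) - (2 - x * HNcK.u2 m x) * HNcK.a2 m x) /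
      ((2 - x * HNcK.u2 m x) * (21 / 20 + m + x * HNcK.a2 m x) * (21 / 20 + m))) := by
  obtain ⟨hm1, hm2⟩ := abs_le.1 hm
  have hk : 0 < 1 - 2 * x := by linarith
  have hM : 0 < 21 / 20 + m := by linarith
  have hxL0 : 0 ≤ x * (7427 / 2000 : ℝ) := by positivity
  have hxL1 : x * (7427 / 2000 : ℝ) ≤ 1 / 2 := by linarith
  have ha0 : 0 ≤ HNcK.a2 m x := by
    unfold HNcK.a2
    have : 0 ≤ 1 - m := by linarith
    positivity
  have hxa : x * HNcK.a2 m x = (1 - m) / 20 * (x * (7427 / 2000) * (1 + x * (7427 / 2000) + 2 / 3 * (x * (7427 / 2000)) ^ 2)) := by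
    unfold HNcK.a2; ring
  have hxa1 : x * HNcK.a2 m x ≤ 1 - m := by
    rw [hxa]
    generalize x * (7427 / 2000 : ℝ) = y at hxL0 hxL1
    have h1 : y * (1 + y + 2 / 3 * y ^ 2) ≤ 1 := by nlinarith
    have h2 : 0 ≤ (1 - m) / 20 := by linarith
    have := mul_le_mul_of_nonneg_left h1 h2
    linarith
  have hxa0 : 0 ≤ x * HNcK.a2 m x := mul_nonneg hx0 ha0
  set A : ℝ := (21 / 20 + m + x * HNcK.a2 m x) / (41 / 20) with hA
  have hA0 : 0 < A := by rw [hA]; apply div_pos <;> linarith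
  have hA1 : A ≤ 1 := by rw [hA, div_le_one (by norm_num)]; linarith
  have hθ : 0 ≤ 2 * x / (1 - 2 * x) := by positivity
  have ht0 : 0 < √(√A) := Real.sqrt_pos.2 (Real.sqrt_pos.2 hA0)
  have hxu : 2 * x / (1 - 2 * x) * (2 * (1 - √(√A) ^ 2) / √(√A)) = x * HNcK.u2 m x := by
    unfold HNcK.u2 HNcK.t2
    rw [← hA]
    field_simp
    ring
  have hxu0 : 0 ≤ x * HNcK.u2 m x := by
    rw [← hxu]
    have h1 : √(√A) ≤ 1 := Real.sqrt_le_one.2 (Real.sqrt_le_one.2 hA1)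
    have : 0 ≤ 1 - √(√A) ^ 2 := by nlinarith
    positivity
  have hpow := hn_pow_low hA0 hA1 hθ (by rw [hxu]; linarith)
  rw [hxu] at hpow
  -- the base from below
  have hc : (0 : ℝ) < (41 / 20 : ℝ) ^ (1 - 2 * x) := Real.rpow_pos_of_pos (by norm_num) _
  have hsmall : (1 / 20 : ℝ) ^ (1 - 2 * x) = (41 / 20 : ℝ) ^ (1 - 2 * x) * (1 / 41 * Real.exp (2 * x * Real.log 41)) := by
    have e : (1 / 20 : ℝ) = 41 / 20 * (41 : ℝ)⁻¹ := by norm_num
    rw [e, Real.mul_rpow (by norm_num) (by norm_num)]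
    congr 1
    rw [Real.rpow_def_of_pos (by norm_num), Real.log_inv]
    have e2 : -Real.log 41 * (1 - 2 * x) = -Real.log 41 + 2 * x * Real.log 41 := by ring
    rw [e2, Real.exp_add, Real.exp_neg, Real.exp_log (by norm_num)]
    norm_num
  have hexp : 1 + 2 * (x * (7427 / 2000) * (1 + x * (7427 / 2000) + 2 / 3 * (x * (7427 / 2000)) ^ 2)) ≤
      Real.exp (2 * x * Real.log 41) := by
    have h1 : Real.exp (2 * (x * (7427 / 2000))) ≤ Real.exp (2 * x * Real.log 41) := by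
      apply Real.exp_le_exp.2
      have := mul_le_mul_of_nonneg_left hn_log41 hx0
      linarith
    have h2 := hnn_exp_low (y := 2 * (x * (7427 / 2000))) (by positivity)
    refine le_trans (le_of_eq ?_) (h2.trans h1)
    ring
  have hbase : (41 / 20 : ℝ) ^ (1 - 2 * x) * A ≤
      (1 + m) / 2 * (21 / 20 + 1 : ℝ) ^ (1 - 2 * x) + (1 - m) / 2 * (21 / 20 - 1 : ℝ) ^ (1 - 2 * x) := by
    have e1 : (21 / 20 + 1 : ℝ) = 41 / 20 := by norm_num
    have e2 : (21 / 20 - 1 : ℝ) = 1 / 20 := by norm_num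
    rw [e1, e2, hsmall]
    have h1 : A ≤ (1 + m) / 2 + (1 - m) / 2 * (1 / 41 * Real.exp (2 * x * Real.log 41)) := by
      rw [hA, hxa]
      have h2 : 0 ≤ (1 - m) / 82 := by linarith
      have := mul_le_mul_of_nonneg_left hexp h2
      linarith
    have := mul_le_mul_of_nonneg_left h1 hc.le
    linarith
  have hNN : 41 / 20 * A ^ (1 + 2 * x / (1 - 2 * x)) ≤ NN (21 / 20) m x := by
    unfold NN
    have hk' : 0 ≤ 1 / (1 - 2 * x) := by positivity
    refine le_trans (le_of_eq ?_) (Real.rpow_le_rpow (by positivity) hbase hk')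
    rw [Real.mul_rpow hc.le hA0.le, ← Real.rpow_mul (by norm_num)]
    have e1 : (1 - 2 * x) * (1 / (1 - 2 * x)) = 1 := by field_simp
    have e2 : 1 + 2 * x / (1 - 2 * x) = 1 / (1 - 2 * x) := by field_simp; ring
    rw [e1, e2, Real.rpow_one]
  have hMa : 0 < 21 / 20 + m + x * HNcK.a2 m x := by linarith
  have hlow : (21 / 20 + m + x * HNcK.a2 m x) * (2 - x * HNcK.u2 m x) / (2 + x * HNcK.u2 m x) ≤ NN (21 / 20) m x := by
    refine le_trans ?_ hNN
    have := mul_le_mul_of_nonneg_left hpow (by norm_num : (0 : ℝ) ≤ 41 / 20)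
    refine le_trans (le_of_eq ?_) this
    rw [hA]
    field_simp
  have hpos : 0 < (21 / 20 + m + x * HNcK.a2 m x) * (2 - x * HNcK.u2 m x) / (2 + x * HNcK.u2 m x) := by
    apply div_pos (mul_pos hMa hu); linarith
  refine le_trans (one_div_le_one_div_of_le hpos hlow) (le_of_eq ?_)
  have h2u : 0 < 2 + x * HNcK.u2 m x := by linarith
  generalize HNcK.u2 m x = u at *
  generalize HNcK.a2 m x = a at *
  have hM' : 21 / 20 + m ≠ 0 := hM.ne'
  have hMa' : 21 / 20 + m + x * a ≠ 0 := hMa.ne'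
  have hu' : 2 - x * u ≠ 0 := hu.ne'
  have h2u' : 2 + x * u ≠ 0 := h2u.ne'
  generalize 21 / 20 + m = M at hM' hMa' ⊢
  field_simp
  ring

end Crest.Agent.R307
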