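import Crest.Agent.R307.HNh
import Crest.Agent.R307.HNcPM

/-!
# R307/HNo: lower bounds for the norm NN at b = 9/8 near the ends
-/

set_option autoImplicit false

namespace Crest.Agent.R307

open Crest.CubeNoise

theorem hn_log17 : (7083 / 2500 : ℝ) ≤ Real.log 17 ∧ Real.log 17 ≤ 28333 / 10000 := by
  have h1 := Real.abs_log_sub_add_sum_range_le (x := (1 / 17 : ℝ)) (by rw [abs_of_pos] <;> norm_num) 4
  have h2 : Real.log (1 - 1 / 17 : ℝ) = 4 * Real.log 2 - Real.log 17 := by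
    have : (1 - 1 / 17 : ℝ) = 2 ^ 4 / 17 := by norm_num
    rw [this, Real.log_div (by norm_num) (by norm_num), Real.log_pow]
    norm_num
  rw [h2, abs_of_pos (by norm_num : (0 : ℝ) < 1 / 17)] at h1
  simp only [Finset.sum_range_succ, Finset.sum_range_zero] at h1
  have h3 := Real.log_two_gt_d9
  have h4 := Real.log_two_lt_d9
  obtain ⟨h5, h6⟩ := abs_le.mp h1
  norm_num at h3 h4 h5 h6
  constructor <;> linarith

theorem hno_exp_neg {y : ℝ} (h0 : 0 ≤ y) (h1 : y ≤ 1) :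
    1 - (y - y ^ 2 / 2 + y ^ 3 / 6) ≤ Real.exp (-y) := by
  have h := Real.exp_bound (x := -y) (by rw [abs_neg, abs_of_nonneg h0]; exact h1) (n := 5) (by norm_num)
  rw [abs_neg, abs_of_nonneg h0] at h
  simp only [Finset.sum_range_succ, Finset.sum_range_zero, Nat.factorial] at h
  obtain ⟨h5, -⟩ := abs_le.mp h
  have h4 : 0 ≤ y ^ 4 := by positivity
  have h6 : y ^ 5 ≤ y ^ 4 := by
    have : y ^ 5 = y ^ 4 * y := by ring
    rw [this]
    exact mul_le_of_le_one_right h4 h1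
  have e3 : (-y) ^ 3 = -y ^ 3 := by ring
  have e2 : (-y) ^ 2 = y ^ 2 := by ring
  have e4 : (-y) ^ 4 = y ^ 4 := by ring
  rw [e2, e3, e4] at h5
  norm_num at h5
  linarith

theorem hno_exp_pos {y : ℝ} (h0 : 0 ≤ y) : 1 + (y + y ^ 2 / 2 + y ^ 3 / 6) ≤ Real.exp y := by
  have h := Real.sum_le_exp_of_nonneg h0 4
  simp only [Finset.sum_range_succ, Finset.sum_range_zero, Nat.factorial] at h
  norm_num at h
  linarith

theorem hno_log_lo {A : ℝ} (hA : 1 ≤ A) : 4 * (A - 1) / (√A + 1) ^ 2 ≤ Real.log A := by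
  have hs : 1 ≤ √A := by
    rw [show (1 : ℝ) = √1 by simp]
    exact Real.sqrt_le_sqrt hA
  have hq : √A ^ 2 = A := Real.sq_sqrt (by linarith)
  have h1 := Real.le_log_one_add_of_nonneg (x := √A - 1) (by linarith)
  have h2 : Real.log A = 2 * Real.log (√A) := by
    conv_lhs => rw [← hq]
    rw [Real.log_pow]; norm_num
  have h3 : (1 + (√A - 1)) = √A := by ring
  rw [h3] at h1
  have h4 : 4 * (A - 1) / (√A + 1) ^ 2 = 2 * (2 * (√A - 1) / (√A - 1 + 2)) := by
    have : A - 1 = (√A - 1) * (√A + 1) := by nlinarith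
    rw [this]
    have h5 : √A + 1 ≠ 0 := by positivity
    have h6 : √A - 1 + 2 = √A + 1 := by ring
    rw [h6]
    field_simp
    ring
  rw [h4, h2]
  linarith

theorem hno_log_hi {A : ℝ} (h0 : 0 < A) (hA : A ≤ 1) : -((1 - A) / √A) ≤ Real.log A := by
  have hs0 : 0 < √A := Real.sqrt_pos.mpr h0
  have hs : √A ≤ 1 := by
    rw [show (1 : ℝ) = √1 by simp]
    exact Real.sqrt_le_sqrt hA
  have hq : √A ^ 2 = A := Real.sq_sqrt h0.le
  have h2 : Real.log A = 2 * Real.log (√A) := by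
    conv_lhs => rw [← hq]
    rw [Real.log_pow]; norm_num
  have h3 : Real.log (√A) ≤ 0 := Real.log_nonpos hs0.le hs
  have h4 : Real.sinh (Real.log (√A)) ≤ Real.log (√A) := Real.sinh_le_self_iff.mpr h3
  rw [Real.sinh_log hs0] at h4
  have h5 : -((1 - A) / √A) = √A - (√A)⁻¹ := by
    field_simp
    nlinarith
  rw [h5, h2]
  linarith

theorem hno_root {c A B k t : ℝ} (hc : 0 < c) (hA : 0 < A) (hk : 0 < k) (ht : 1 / k = 1 + t)
    (hB : c ^ k * A ≤ B) : c * (A * Real.exp (t * Real.log A)) ≤ B ^ (1 / k) := by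
  have h0 : 0 ≤ c ^ k * A := by positivity
  have h1 : (c ^ k * A) ^ (1 / k) ≤ B ^ (1 / k) := Real.rpow_le_rpow h0 hB (by positivity)
  refine le_trans (le_of_eq ?_) h1
  rw [Real.mul_rpow (by positivity) hA.le, ← Real.rpow_mul hc.le, mul_one_div_cancel hk.ne', Real.rpow_one, ht,
    Real.rpow_add hA, Real.rpow_one, Real.rpow_def_of_pos hA, mul_comm (Real.log A) t]

theorem hno_th {e x : ℝ} (hx : x ≤ 9 / 100) : 1 / (1 - 2 * x) = 1 + x * HNcP.th x e := by
  unfold HNcP.th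
  have : 1 - 2 * x ≠ 0 := by linarith [show (0 : ℝ) < 1 - 2 * x by linarith] |> fun (h : (0 : ℝ) < 1 - 2 * x) => h.ne'
  field_simp
  ring

theorem hn_N_P0 {e x : ℝ} (he0 : 0 ≤ e) (he : e ≤ 19 / 100) (hx0 : 0 ≤ x) (hx : x ≤ 9 / 100) :
    1 / 8 + 2 * e - x * e * (81 / 10 - 16 * e) ≤ NN (9 / 8) (-1 + 2 * e) x := by
  obtain ⟨q1, -, q3, -⟩ := HNcP.main x e hx0 hx he0 he
  obtain ⟨-, hL⟩ := hn_log17
  have hk : 0 < 1 - 2 * x := by linarith
  have hth : 0 ≤ HNcP.th x e := by unfold HNcP.th; positivity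
  have hA1 : 1 ≤ HNcP.A x e := by
    unfold HNcP.A
    have := mul_nonneg he0 q3.le
    linarith
  have hA0 : 0 < HNcP.A x e := by linarith
  have hd : HNcP.d x e = 16 - 17 * (x * HNcP.ph x e) := by unfold HNcP.d; ring
  have hAe : HNcP.A x e = 1 + e * HNcP.d x e := rfl
  have hy : 1 - x * HNcP.ph x e ≤ Real.exp (-(2 * x * Real.log 17)) := by
    have h1 := hno_exp_neg (y := 2 * x * (28333 / 10000)) (by positivity) (by linarith)
    have h2 : Real.exp (-(2 * x * (28333 / 10000))) ≤ Real.exp (-(2 * x * Real.log 17)) := by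
      apply Real.exp_le_exp.mpr
      have := mul_le_mul_of_nonneg_left hL (show 0 ≤ 2 * x by linarith)
      linarith
    have h3 : x * HNcP.ph x e = 2 * x * (28333 / 10000) - (2 * x * (28333 / 10000)) ^ 2 / 2
        + (2 * x * (28333 / 10000)) ^ 3 / 6 := by unfold HNcP.ph; ring
    rw [h3]; linarith
  have hp : (17 / 8 : ℝ) ^ (1 - 2 * x) = (1 / 8 : ℝ) ^ (1 - 2 * x) * (17 * Real.exp (-(2 * x * Real.log 17))) := by
    rw [show (17 / 8 : ℝ) = 1 / 8 * 17 by norm_num, Real.mul_rpow (by norm_num) (by norm_num)]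
    congr 1
    rw [sub_eq_add_neg, Real.rpow_add (by norm_num), Real.rpow_one, Real.rpow_def_of_pos (by norm_num)]
    congr 2
    ring
  have hc : 0 < (1 / 8 : ℝ) ^ (1 - 2 * x) := by positivity
  have hB : (1 / 8 : ℝ) ^ (1 - 2 * x) * HNcP.A x e ≤
      (1 + (-1 + 2 * e)) / 2 * (9 / 8 + 1 : ℝ) ^ (1 - 2 * x) + (1 - (-1 + 2 * e)) / 2 * (9 / 8 - 1 : ℝ) ^ (1 - 2 * x) := by
    rw [show (9 / 8 + 1 : ℝ) = 17 / 8 by norm_num, show (9 / 8 - 1 : ℝ) = 1 / 8 by norm_num, hp, hAe, hd]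
    have h1 := mul_le_mul_of_nonneg_left hy (mul_nonneg hc.le he0)
    nlinarith
  have hR := hno_root (by norm_num : (0 : ℝ) < 1 / 8) hA0 hk (hno_th (e := e) hx) hB
  refine le_trans ?_ hR
  have hlo : e * HNcP.lo x e ≤ Real.log (HNcP.A x e) := by
    refine le_trans (le_of_eq ?_) (hno_log_lo hA1)
    unfold HNcP.lo
    have : HNcP.A x e - 1 = e * HNcP.d x e := by rw [hAe]; ring
    rw [this]; ring
  have hlo0 : 0 ≤ HNcP.lo x e := by
    unfold HNcP.lo
    have := q3.le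
    positivity
  have hxt : 0 ≤ x * HNcP.th x e := mul_nonneg hx0 hth
  set u := x * HNcP.th x e * e * HNcP.lo x e with hu
  have hu0 : 0 ≤ u := by positivity
  have hE : 1 + u + u ^ 2 / 2 ≤ Real.exp (x * HNcP.th x e * Real.log (HNcP.A x e)) := by
    refine le_trans (Real.quadratic_le_exp_of_nonneg hu0) (Real.exp_le_exp.mpr ?_)
    have := mul_le_mul_of_nonneg_left hlo hxt
    rw [hu]; linarith
  have h5 := mul_le_mul_of_nonneg_left hE hA0.le
  have h6 := mul_nonneg (mul_nonneg hx0 he0) q1.le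
  have h7 : x * e * (81 / 10 - 16 * e - (17 / 8 * HNcP.ph x e -
      HNcP.th x e * (1 / 8) * HNcP.A x e * HNcP.lo x e * (1 + u / 2))) =
      x * e * (81 / 10 - 16 * e) - 17 / 8 * (e * (x * HNcP.ph x e)) + 1 / 8 * (HNcP.A x e * (u + u ^ 2 / 2)) := by
    rw [hu]; ring
  rw [h7] at h6
  have h8 : HNcP.A x e = 1 + 16 * e - 17 * (e * (x * HNcP.ph x e)) := by rw [hAe, hd]; ring
  have h9 : HNcP.A x e * (1 + u + u ^ 2 / 2) = HNcP.A x e + HNcP.A x e * (u + u ^ 2 / 2) := by ring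
  rw [h9] at h5
  linarith

theorem hn_N_P1 {e x : ℝ} (he0 : 0 ≤ e) (he : e ≤ 19 / 100) (hx0 : 0 ≤ x) (hx : x ≤ 9 / 100) :
    17 / 8 - 2 * e - x * e * (39 / 10) ≤ NN (9 / 8) (1 - 2 * e) x := by
  obtain ⟨-, q2, -, q4⟩ := HNcP.main x e hx0 hx he0 he
  obtain ⟨hL, -⟩ := hn_log17
  have hk : 0 < 1 - 2 * x := by linarith
  have hth : 0 ≤ HNcP.th x e := by unfold HNcP.th; positivity
  have hps : 0 ≤ HNcP.ps x e := by unfold HNcP.ps; positivity
  have hd : HNcP.d1 x e = 1 - 1 / 17 * (1 + x * HNcP.ps x e) := rfl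
  have hd1 : HNcP.d1 x e ≤ 1 := by
    rw [hd]
    have := mul_nonneg hx0 hps
    linarith
  set A := 1 - e * HNcP.d1 x e with hAe
  have hA1 : A ≤ 1 := by
    have := mul_nonneg he0 q4.le
    linarith
  have hA0 : 0 < A := by
    have := mul_le_mul_of_nonneg_left hd1 he0
    linarith
  have hy : 1 + x * HNcP.ps x e ≤ Real.exp (2 * x * Real.log 17) := by
    have h1 := hno_exp_pos (y := 2 * x * (7083 / 2500)) (by positivity)
    have h2 : Real.exp (2 * x * (7083 / 2500)) ≤ Real.exp (2 * x * Real.log 17) := by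
      apply Real.exp_le_exp.mpr
      exact mul_le_mul_of_nonneg_left hL (show 0 ≤ 2 * x by linarith)
    have h3 : x * HNcP.ps x e = 2 * x * (7083 / 2500) + (2 * x * (7083 / 2500)) ^ 2 / 2
        + (2 * x * (7083 / 2500)) ^ 3 / 6 := by unfold HNcP.ps; ring
    rw [h3]; linarith
  have hp : (1 / 8 : ℝ) ^ (1 - 2 * x) = (17 / 8 : ℝ) ^ (1 - 2 * x) * (1 / 17 * Real.exp (2 * x * Real.log 17)) := by
    rw [show (1 / 8 : ℝ) = 17 / 8 * (1 / 17) by norm_num, Real.mul_rpow (by norm_num) (by norm_num)]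
    congr 1
    rw [sub_eq_add_neg, Real.rpow_add (by norm_num), Real.rpow_one, Real.rpow_def_of_pos (by norm_num),
      one_div, Real.log_inv]
    congr 2
    ring
  have hc : 0 < (17 / 8 : ℝ) ^ (1 - 2 * x) := by positivity
  have hB : (17 / 8 : ℝ) ^ (1 - 2 * x) * A ≤
      (1 + (1 - 2 * e)) / 2 * (9 / 8 + 1 : ℝ) ^ (1 - 2 * x) + (1 - (1 - 2 * e)) / 2 * (9 / 8 - 1 : ℝ) ^ (1 - 2 * x) := by
    rw [show (9 / 8 + 1 : ℝ) = 17 / 8 by norm_num, show (9 / 8 - 1 : ℝ) = 1 / 8 by norm_num, hp, hAe, hd]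
    have h1 := mul_le_mul_of_nonneg_left hy (mul_nonneg hc.le he0)
    nlinarith
  have hR := hno_root (by norm_num : (0 : ℝ) < 17 / 8) hA0 hk (hno_th (e := e) hx) hB
  refine le_trans ?_ hR
  have hxt : 0 ≤ x * HNcP.th x e := mul_nonneg hx0 hth
  have hs0 : 0 < √A := Real.sqrt_pos.mpr hA0
  have hq : √A * √A = A := Real.mul_self_sqrt hA0.le
  have hlo := hno_log_hi hA0 hA1
  have hE : 1 - x * HNcP.th x e * ((1 - A) / √A) ≤ Real.exp (x * HNcP.th x e * Real.log A) := by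
    refine le_trans ?_ (Real.add_one_le_exp _)
    have := mul_le_mul_of_nonneg_left hlo hxt
    linarith
  have h5 := mul_le_mul_of_nonneg_left hE hA0.le
  have h9 : A * (1 - x * HNcP.th x e * ((1 - A) / √A)) = A - x * HNcP.th x e * √A * (e * HNcP.d1 x e) := by
    have h10 : A * ((1 - A) / √A) = √A * (1 - A) := by
      field_simp
      nlinarith
    have h11 : 1 - A = e * HNcP.d1 x e := by rw [hAe]; ring
    calc A * (1 - x * HNcP.th x e * ((1 - A) / √A)) = A - x * HNcP.th x e * (A * ((1 - A) / √A)) := by ring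
      _ = _ := by rw [h10, h11]; ring
  rw [h9] at h5
  have h6 := mul_nonneg (mul_nonneg hx0 he0) q2.le
  have h8 : A = 1 - 16 / 17 * e + 1 / 17 * (e * (x * HNcP.ps x e)) := by rw [hAe, hd]; ring
  have h7 : x * e * (39 / 10 - (HNcP.th x e * (17 / 8) * √A * HNcP.d1 x e - 1 / 8 * HNcP.ps x e)) =
      x * e * (39 / 10) - 17 / 8 * (x * HNcP.th x e * √A * (e * HNcP.d1 x e)) + 1 / 8 * (e * (x * HNcP.ps x e)) := by
    ring
  rw [h7] at h6
  linarith

end Crest.Agent.R307
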