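import Crest.Agent.R307.Cube
import Crest.Agent.R307.HNcMM
import Crest.Agent.R307.HNcSM
import Crest.Agent.R307.HNcTM

/-!
# R307/HNp: pointwise minorants
-/

set_option autoImplicit false

namespace Crest.Agent.R307

open Crest.CubeNoise

theorem hnp_half {g y : ℝ} (hy : 0 ≤ y) (h : g ^ 2 + y ^ 2 = 1) :
    2 * (g / (1 + y)) / (1 + (g / (1 + y)) ^ 2) = g ∧ (1 - (g / (1 + y)) ^ 2) / (1 + (g / (1 + y)) ^ 2) = y := by
  have h1 : (0 : ℝ) < 1 + y := by linarith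
  have e : 1 + (g / (1 + y)) ^ 2 = 2 / (1 + y) := by
    field_simp
    linear_combination h
  have e' : 1 - (g / (1 + y)) ^ 2 = 2 * y / (1 + y) := by
    field_simp
    linear_combination -h
  rw [e, e']
  constructor <;> field_simp

theorem hnp_cert {ta si : ℝ} (h0 : 0 ≤ ta) (h1 : ta ≤ 1) (s0 : 0 < si) (s1 : si ≤ 7 / 40) :
    0 < 2 * (13 / 25 + 37 / 100 * (2 * si / (1 + si ^ 2))) * (1 - si ^ 2) * (1 - ta ^ 2 * si ^ 2) ^ 2
      - (1 - (ta / (ta + si)) ^ 2 * (1 - si ^ 4)) * ((1 + ta ^ 2) * (1 + si ^ 2)) ^ 2 := by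
  rcases le_total ta si with h | h
  · have hQ := HNcS.main si (ta / si) s0.le s1 (by positivity) ((div_le_one s0).2 h)
    unfold HNcS.Q at hQ
    have e1 : si * (ta / si) = ta := by field_simp
    have e2 : ta / si / (1 + ta / si) = ta / (ta + si) := by
      field_simp
      ring
    rwa [e1, e2] at hQ
  · have t0 : 0 < ta := s0.trans_le h
    have hQ := HNcT.main ta (si / ta) h0 h1 (by positivity) ((div_le_one t0).2 h)
    unfold HNcT.Q at hQ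
    have e1 : ta * (si / ta) = si := by field_simp
    have e2 : 1 / (1 + si / ta) = ta / (ta + si) := by field_simp
    rw [e1, e2] at hQ
    rcases hQ with hQ | hQ
    · exact hQ
    · linarith

theorem hnp_core {ta si c u v al be : ℝ} (h0 : 0 ≤ ta) (s0 : 0 < si) (hu : 2 * ta / (1 + ta ^ 2) = u)
    (hv : (1 - ta ^ 2) / (1 + ta ^ 2) = v) (ha : 2 * si / (1 + si ^ 2) = al) (hb : (1 - si ^ 2) / (1 + si ^ 2) = be)
    (h : 0 < 2 * c * (1 - si ^ 2) * (1 - ta ^ 2 * si ^ 2) ^ 2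
      - (1 - (ta / (ta + si)) ^ 2 * (1 - si ^ 4)) * ((1 + ta ^ 2) * (1 + si ^ 2)) ^ 2) :
    (be * u - al * v) ^ 2 ≤ be * (u - al) ^ 2 + c * be * (u ^ 2 - al ^ 2) ^ 2 := by
  have p1 : (0 : ℝ) < 1 + ta ^ 2 := by positivity
  have p2 : (0 : ℝ) < 1 + si ^ 2 := by positivity
  have p3 : 0 < ta + si := by positivity
  have e : be * (u - al) ^ 2 + c * be * (u ^ 2 - al ^ 2) ^ 2 - (be * u - al * v) ^ 2 =
      8 * (ta - si) ^ 2 * (ta + si) ^ 2 / ((1 + ta ^ 2) ^ 4 * (1 + si ^ 2) ^ 5) *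
      (2 * c * (1 - si ^ 2) * (1 - ta ^ 2 * si ^ 2) ^ 2
      - (1 - (ta / (ta + si)) ^ 2 * (1 - si ^ 4)) * ((1 + ta ^ 2) * (1 + si ^ 2)) ^ 2) := by
    rw [← hu, ← hv, ← ha, ← hb]
    field_simp
    ring
  have h2 : 0 ≤ 8 * (ta - si) ^ 2 * (ta + si) ^ 2 / ((1 + ta ^ 2) ^ 4 * (1 + si ^ 2) ^ 5) := by positivity
  have := mul_nonneg h2 h.le
  linarith

theorem hn_ptM {m g : ℝ} (h0 : 0 ≤ m) (h1 : m ≤ 77 / 100) (hg : |g| ≤ 1) :
    √(1 - m ^ 2) - m / √(1 - m ^ 2) * (g - m) - (11 / 25 - 99 / 1000 * m + 207 / 250 * m ^ 2) * (g - m) ^ 2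
      - (283 / 5000 - 429 / 10000 * m) * (1 / (21 / 20 - g) - 1 / (21 / 20 - m) - (g - m) / (21 / 20 - m) ^ 2)
      - (129 / 2500 - 67 / 1000 * m) * (1 / (21 / 20 + g) - 1 / (21 / 20 + m) + (g - m) / (21 / 20 + m) ^ 2)
      ≤ √(1 - g ^ 2) := by
  have hg1 := abs_le.1 hg
  have hy0 : 0 ≤ √(1 - g ^ 2) := Real.sqrt_nonneg _
  have hy2 : √(1 - g ^ 2) ^ 2 = 1 - g ^ 2 := Real.sq_sqrt (by nlinarith [hg1.1, hg1.2])
  have hC0 : 0 < √(1 - m ^ 2) := Real.sqrt_pos.2 (by nlinarith)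
  have hC2 : √(1 - m ^ 2) ^ 2 = 1 - m ^ 2 := Real.sq_sqrt (by nlinarith)
  obtain ⟨y, hy⟩ : ∃ y, y = √(1 - g ^ 2) := ⟨_, rfl⟩
  rw [← hy] at hy0 hy2 ⊢
  have h1y : (0 : ℝ) < 1 + y := by linarith
  obtain ⟨eg, ey⟩ := hnp_half (g := g) hy0 (by linarith)
  have hQ := HNcM.main m (g / (1 + y)) h0 h1 ((le_div_iff₀ h1y).2 (by linarith [hg1.1]))
    ((div_le_iff₀ h1y).2 (by linarith [hg1.2]))
  unfold HNcM.Q HNcM.g HNcM.C HNcM.y at hQ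
  rw [eg, ey] at hQ
  obtain ⟨C, hC⟩ : ∃ C, C = √(1 - m ^ 2) := ⟨_, rfl⟩
  rw [← hC] at hC0 hC2 hQ ⊢
  have hK : 0 < 1 - m * g + C * y := by nlinarith [mul_nonneg hC0.le hy0, hg1.2]
  have b1 : (0 : ℝ) < 21 / 20 - g := by linarith [hg1.2]
  have b2 : (0 : ℝ) < 21 / 20 + g := by linarith [hg1.1]
  have b3 : (0 : ℝ) < 21 / 20 - m := by linarith
  have b4 : (0 : ℝ) < 21 / 20 + m := by linarith
  have e1 : y = C - m / C * (g - m) - (g - m) ^ 2 * (1 / (C * (1 - m * g + C * y))) := by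
    have e0 : (g - m) ^ 2 = (1 - m * g - C * y) * (1 - m * g + C * y) := by
      linear_combination y ^ 2 * hC2 + (1 - m ^ 2) * hy2
    obtain ⟨K, hKe⟩ : ∃ K, K = 1 - m * g + C * y := ⟨_, rfl⟩
    rw [← hKe] at e0 hK ⊢
    have e4 : (g - m) ^ 2 * (1 / (C * K)) = (1 - m * g - C * y) / C := by
      rw [e0]
      field_simp
    rw [e4]
    field_simp
    linear_combination -hC2
  obtain ⟨b, hb⟩ : ∃ b : ℝ, b = 21 / 20 := ⟨_, rfl⟩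
  rw [← hb] at b1 b2 b3 b4 hQ ⊢
  have e2 : 1 / (b - g) - 1 / (b - m) - (g - m) / (b - m) ^ 2 = (g - m) ^ 2 / ((b - g) * (b - m) ^ 2) := by
    field_simp
    ring
  have e3 : 1 / (b + g) - 1 / (b + m) + (g - m) / (b + m) ^ 2 = (g - m) ^ 2 / ((b + g) * (b + m) ^ 2) := by
    field_simp
    ring
  have h3 := mul_nonneg (sq_nonneg (g - m)) hQ.le
  rw [e2, e3]
  simp only [div_eq_mul_inv] at h3 e1 ⊢
  linarith

theorem hn_ptI {z y : ℝ} (hz : 0 < z) (hz' : 17 / 64 * (1 + z) ^ 2 ≤ 81 / 64 * z ^ 2) (hy0 : 0 ≤ y) (hy1 : y ≤ 1) :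
    z + (1 / (2 * z) - 81 / 64 / (2 * z * (1 + z) ^ 2)) * (y ^ 2 - z ^ 2)
      - 81 / 64 / (2 * z * (1 + z) ^ 2) * (17 / 64 + z ^ 2) ^ 2 * (1 / (17 / 64 + y ^ 2) - 1 / (17 / 64 + z ^ 2)) ≤ y := by
  have hz8 : 1 / 8 ≤ z := by
    by_contra hc
    push Not at hc
    nlinarith
  have h1 : 0 ≤ 81 / 64 * (y + z) ^ 2 - (1 + z) ^ 2 * (17 / 64 + y ^ 2) := by
    have h2 : 0 ≤ (1 + z) ^ 2 - 81 / 64 := by nlinarith
    have h3 := mul_nonneg (sub_nonneg.2 hy1) (add_nonneg (sub_nonneg.2 hz') (mul_nonneg h2 hy0))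
    linarith
  obtain ⟨w, hw⟩ : ∃ w : ℝ, w = 17 / 64 := ⟨_, rfl⟩
  obtain ⟨k, hk⟩ : ∃ k : ℝ, k = 81 / 64 := ⟨_, rfl⟩
  have w0 : 0 < w := by rw [hw]; norm_num
  rw [← hw, ← hk] at h1 ⊢
  have e : y - (z + (1 / (2 * z) - k / (2 * z * (1 + z) ^ 2)) * (y ^ 2 - z ^ 2)
      - k / (2 * z * (1 + z) ^ 2) * (w + z ^ 2) ^ 2 * (1 / (w + y ^ 2) - 1 / (w + z ^ 2))) =
      (y - z) ^ 2 / (2 * z * (1 + z) ^ 2 * (w + y ^ 2)) * (k * (y + z) ^ 2 - (1 + z) ^ 2 * (w + y ^ 2)) := by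
    field_simp
    ring
  have h4 : 0 ≤ (y - z) ^ 2 / (2 * z * (1 + z) ^ 2 * (w + y ^ 2)) := by positivity
  have := mul_nonneg h4 h1
  linarith

theorem hn_ptS {a : ℝ} (h0 : 0 < a) (h1 : a ≤ 23 / 200) : ∃ l : ℝ, ∀ p : ℝ, 0 ≤ p → p ≤ 1 →
    2 * √(a * (1 - a)) + l * (p - a) - (2 * √a - 2 * √p) - (13 / 25 / √a + 37 / 100) * (p - a) ^ 2 ≤ 2 * √(p * (1 - p)) := by
  have al0 : 0 < √a := Real.sqrt_pos.2 h0
  have be0 : 0 < √(1 - a) := Real.sqrt_pos.2 (by linarith)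
  have al2 : √a ^ 2 = a := Real.sq_sqrt h0.le
  have be2 : √(1 - a) ^ 2 = 1 - a := Real.sq_sqrt (by linarith)
  refine ⟨(1 - 2 * a) / (√a * √(1 - a)) - 1 / √a, fun p p0 p1 => ?_⟩
  have u0 : 0 ≤ √p := Real.sqrt_nonneg _
  have v0 : 0 ≤ √(1 - p) := Real.sqrt_nonneg _
  have u2 : √p ^ 2 = p := Real.sq_sqrt p0
  have v2 : √(1 - p) ^ 2 = 1 - p := Real.sq_sqrt (by linarith)
  rw [Real.sqrt_mul h0.le, Real.sqrt_mul p0]
  obtain ⟨al, hal⟩ : ∃ al, al = √a := ⟨_, rfl⟩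
  obtain ⟨be, hbe⟩ : ∃ be, be = √(1 - a) := ⟨_, rfl⟩
  obtain ⟨u, hu⟩ : ∃ u, u = √p := ⟨_, rfl⟩
  obtain ⟨v, hv⟩ : ∃ v, v = √(1 - p) := ⟨_, rfl⟩
  rw [← hal] at al0 al2 ⊢
  rw [← hbe] at be0 be2 ⊢
  rw [← hu] at u0 u2 ⊢
  rw [← hv] at v0 v2 ⊢
  obtain ⟨e1, e2⟩ := hnp_half (g := u) v0 (by linarith)
  obtain ⟨e3, e4⟩ := hnp_half (g := al) be0.le (by linarith)
  have u1 : u ≤ 1 := by nlinarith
  have a1 : al ≤ 679 / 2000 := by nlinarith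
  have b1 : 47 / 50 ≤ be := by nlinarith
  have t0 : 0 ≤ u / (1 + v) := by positivity
  have s0 : 0 < al / (1 + be) := by positivity
  have hc := hnp_cert t0 ((div_le_one (by positivity)).2 (by linarith)) s0
    ((div_le_iff₀ (by positivity)).2 (by linarith))
  rw [e3] at hc
  have key := hnp_core t0 s0 e1 e2 e3 e4 hc
  have e : 2 * (u * v) - (2 * (al * be) + ((1 - 2 * a) / (al * be) - 1 / al) * (p - a) - (2 * al - 2 * u)
      - (13 / 25 / al + 37 / 100) * (p - a) ^ 2) =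
      (be * (u - al) ^ 2 + (13 / 25 + 37 / 100 * al) * be * (u ^ 2 - al ^ 2) ^ 2 - (be * u - al * v) ^ 2) / (al * be) := by
    have hb : be ^ 2 = 1 - al ^ 2 := by linarith
    have hv' : v ^ 2 = 1 - u ^ 2 := by linarith
    rw [← al2, ← u2, eq_div_iff (by positivity)]
    have e5 : (1 - 2 * al ^ 2) / (al * be) * (al * be) = 1 - 2 * al ^ 2 := by field_simp
    have e6 : 1 / al * al = 1 := by field_simp
    have e7 : 13 / 25 / al * al = 13 / 25 := by field_simp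
    linear_combination -(u ^ 2 - al ^ 2) * e5 + be * (u ^ 2 - al ^ 2) * e6 + be * (u ^ 2 - al ^ 2) ^ 2 * e7
      + (u ^ 2 - 2 * al ^ 2) * hb + al ^ 2 * hv'
  have := div_nonneg (sub_nonneg.2 key) (mul_pos al0 be0).le
  linarith

end Crest.Agent.R307
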