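import Crest.Agent.R307.HNc
import Crest.Agent.R307.HNn
import Crest.Agent.R307.HNp

/-!
# R307/HNq: the region of small level-one weight
-/

set_option autoImplicit false

namespace Crest.Agent.R307

open Crest.CubeNoise

variable {n : ℕ}

/-- Averaging the pointwise minorant. -/
theorem hnq_avg (g : (Fin n → Bool) → ℝ) (c0 c1 A B C m u v : ℝ) (hg : cubeAverage g = m) :
    (cubeAverage fun x => c0 - c1 * (g x - m) - A * (g x - m) ^ 2
      - B * (1 / (21 / 20 - g x) - 1 / (21 / 20 - m) - (g x - m) / u)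
      - C * (1 / (21 / 20 + g x) - 1 / (21 / 20 + m) + (g x - m) / v)) =
    c0 - A * (cubeAverage fun x => (g x - m) ^ 2)
      - B * ((cubeAverage fun x => 1 / (21 / 20 - g x)) - 1 / (21 / 20 - m))
      - C * ((cubeAverage fun x => 1 / (21 / 20 + g x)) - 1 / (21 / 20 + m)) := by
  have h0 : (cubeAverage fun x => g x - m) = 0 := by
    rw [avg_sub, avg_const]
    change cubeAverage g - m = 0
    rw [hg, sub_self]
  simp only [avg_sub, avg_add, avg_mul, avg_div, avg_const, h0]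
  ring

theorem hnq_num {s x A B C V e1 e2 T1 T2 K c0 : ℝ} (hx : 0 ≤ x) (hs : 0 ≤ s) (hs2 : s ^ 2 = 1 - x) (hA : 0 ≤ A) (hB : 0 ≤ B)
    (hC : 0 ≤ C) (hV : V ≤ x * K) (h1 : e1 ≤ x * T1) (h2 : e2 ≤ x * T2)
    (h : 0 < 1 / (1 + s) - A * K - B * T1 - C * T2) : c0 - 1 + s ≤ c0 - A * V - B * e1 - C * e2 := by
  have e : x * (1 / (1 + s)) = 1 - s := by
    have : x = (1 - s) * (1 + s) := by nlinarith
    rw [this]
    field_simp
  have a := mul_le_mul_of_nonneg_left hV hA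
  have b := mul_le_mul_of_nonneg_left h1 hB
  have c := mul_le_mul_of_nonneg_left h2 hC
  have d := mul_nonneg hx h.le
  nlinarith

theorem hn_II {ρ : ℝ} (h0 : 0 ≤ ρ) (h1 : ρ ≤ 3 / 10) {f : (Fin n → Bool) → ℝ} (hf : ∀ x, f x = 1 ∨ f x = -1)
    (hm0 : 0 ≤ cubeAverage f) (hm1 : cubeAverage f ≤ 77 / 100) (hW : W1 f ≤ 4 / 5) : HN ρ f := by
  have hρ : |ρ| ≤ 1 := abs_le.2 ⟨by linarith, by linarith⟩
  have hx0 : 0 ≤ ρ ^ 2 := sq_nonneg ρ
  have hx1 : ρ ^ 2 ≤ 9 / 100 := by nlinarith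
  have hf1 : ∀ y, |f y| ≤ 1 := fun y => by rcases hf y with h | h <;> simp [h]
  have hg : ∀ x, |noise ρ f x| ≤ 1 := abs_noise_le hρ hf1
  set m := cubeAverage f with hm
  have hma : |m| = m := abs_of_nonneg hm0
  obtain ⟨q0, q1, q2⟩ := HNcK.main m (ρ ^ 2) hm0 hm1 hx0 hx1
  have hWm : W1 f ≤ HNcK.W m (ρ ^ 2) := by
    obtain ⟨w1, w2⟩ := W1_le_mean hf
    rw [← hm, hma] at w1 w2
    exact le_min hW (le_min w1 (Real.le_sqrt_of_sq_le w2))
  have hV := hn_var (ρ := ρ) (by linarith) hf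
  rw [← hm] at hV
  have hV' : (cubeAverage fun x => (noise ρ f x - m) ^ 2) ≤
      ρ ^ 2 * ((1 - ρ ^ 2) * HNcK.W m (ρ ^ 2) + ρ ^ 2 * (1 - m ^ 2)) := by
    refine hV.trans (mul_le_mul_of_nonneg_left ?_ hx0)
    have := mul_le_mul_of_nonneg_left hWm (show 0 ≤ 1 - ρ ^ 2 by linarith)
    linarith
  have t2 := hn_tail (ρ := ρ) (b := 21 / 20) (by linarith) (by norm_num) hf
  rw [← hm] at t2
  have n2 := hn_N_II (m := m) (x := ρ ^ 2) (by rw [hma]; linarith) hx0 hx1 q2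
  have hf' : ∀ x, (fun y => -f y) x = 1 ∨ (fun y => -f y) x = -1 := fun x => by
    rcases hf x with h | h <;> simp [h]
  have t1 := hn_tail (ρ := ρ) (b := 21 / 20) (by linarith) (by norm_num) hf'
  have en : ∀ x, noise ρ (fun y => -f y) x = -noise ρ f x := fun x => by
    have := noise_affine ρ (-1) 0 f x
    simpa using this
  simp only [en, avg_neg] at t1
  rw [← hm] at t1
  have n1 := hn_N_II (m := -m) (x := ρ ^ 2) (by rw [abs_neg, hma]; linarith) hx0 hx1 q1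
  have key := avg_mono fun x => hn_ptM hm0 hm1 (hg x)
  rw [hnq_avg (noise ρ f) _ _ _ _ _ m _ _ (avg_noise ρ f)] at key
  unfold HN
  rw [← hm]
  refine le_trans ?_ key
  refine hnq_num hx0 (Real.sqrt_nonneg _) (Real.sq_sqrt (by linarith)) (by nlinarith [sq_nonneg (m - 1 / 10)])
    (by linarith) (by linarith) hV' ?_ ?_ q0
  · have e : (fun x => 1 / (21 / 20 - noise ρ f x)) = fun x => 1 / (21 / 20 + -noise ρ f x) := by
      funext x
      rw [sub_eq_add_neg]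
    rw [e, sub_eq_add_neg (21 / 20 : ℝ) m, sub_le_iff_le_add, add_comm]
    exact t1.trans n1
  · rw [sub_le_iff_le_add, add_comm]
    exact t2.trans n2

end Crest.Agent.R307
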