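import Crest.Agent.R307.Cube

/-!
# R307/HNr: two-point inequalities for reverse hypercontractivity
-/

set_option autoImplicit false

namespace Crest.Agent.R307

open Crest.CubeNoise

theorem hnr_mono {f f' : ℝ → ℝ} {b : ℝ} (hb : 0 ≤ b) (hc : ContinuousOn f (Set.Icc 0 b))
    (hd : ∀ x ∈ Set.Ioo 0 b, HasDerivAt f (f' x) x) (hp : ∀ x ∈ Set.Ioo 0 b, 0 ≤ f' x) : f 0 ≤ f b := by
  rcases hb.eq_or_lt with h | h
  · rw [← h]
  · obtain ⟨c, hc1, hc2⟩ := exists_hasDerivAt_eq_slope f f' h hc hd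
    have h1 := hp c hc1
    rw [hc2, sub_zero, le_div_iff₀ h] at h1
    linarith

theorem hnr_dp {p x : ℝ} (h : 1 + x ≠ 0 ∨ 1 ≤ p) :
    HasDerivAt (fun y : ℝ => (1 + y) ^ p) (p * (1 + x) ^ (p - 1)) x := by
  have := ((hasDerivAt_id' x).const_add 1).rpow_const (p := p) h
  simpa using this

theorem hnr_dm {p x : ℝ} (h : 1 - x ≠ 0 ∨ 1 ≤ p) :
    HasDerivAt (fun y : ℝ => (1 - y) ^ p) (-(p * (1 - x) ^ (p - 1))) x := by
  have := ((hasDerivAt_id' x).const_sub 1).rpow_const (p := p) h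
  simpa using this

theorem hnr_bern {q s : ℝ} (hq : q ≤ 0) (hs : 0 < 1 + s) : 1 + q * s ≤ (1 + s) ^ q := by
  rw [Real.rpow_def_of_pos hs]
  have h1 := Real.add_one_le_exp (Real.log (1 + s) * q)
  have h2 := Real.log_le_sub_one_of_pos hs
  nlinarith

theorem hnr_odd {p z : ℝ} (h0 : 0 ≤ p) (h1 : p ≤ 1) (hz0 : 0 ≤ z) (hz1 : z < 1) :
    2 * p * z ≤ (1 + z) ^ p - (1 - z) ^ p := by
  have hd : ∀ x ∈ Set.Icc 0 z, HasDerivAt (fun y : ℝ => (1 + y) ^ p - (1 - y) ^ p - 2 * p * y)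
      (p * (1 + x) ^ (p - 1) - -(p * (1 - x) ^ (p - 1)) - 2 * p * 1) x := by
    intro x hx
    exact ((hnr_dp (Or.inl (by linarith [hx.1]))).fun_sub
      (hnr_dm (Or.inl (by linarith [hx.2])))).fun_sub ((hasDerivAt_id' x).const_mul (2 * p))
  have := hnr_mono hz0 (fun x hx => (hd x hx).continuousAt.continuousWithinAt)
    (fun x hx => hd x (Set.Ioo_subset_Icc_self hx)) (fun x hx => by
      have a1 := hnr_bern (q := p - 1) (s := x) (by linarith) (by linarith [hx.1])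
      have a2 := hnr_bern (q := p - 1) (s := -x) (by linarith) (by linarith [hx.2])
      rw [← sub_eq_add_neg] at a2
      nlinarith [mul_le_mul_of_nonneg_left (add_le_add a1 a2) h0])
  simp at this
  linarith

theorem hn_rp1 {K z : ℝ} (h1 : 1 ≤ K) (h2 : K ≤ 2) (hz0 : 0 ≤ z) (hz1 : z ≤ 1) :
    2 + K * (K - 1) * z ^ 2 ≤ (1 + z) ^ K + (1 - z) ^ K := by
  have hd : ∀ x, HasDerivAt (fun y : ℝ => (1 + y) ^ K + (1 - y) ^ K - K * (K - 1) * y ^ 2)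
      (K * (1 + x) ^ (K - 1) + -(K * (1 - x) ^ (K - 1)) - K * (K - 1) * (2 * x)) x := by
    intro x
    have h3 : HasDerivAt (fun y : ℝ => y ^ 2) (2 * x) x := by simpa using hasDerivAt_pow 2 x
    exact ((hnr_dp (Or.inr h1)).fun_add (hnr_dm (Or.inr h1))).fun_sub (h3.const_mul _)
  have := hnr_mono hz0 (fun x _ => (hd x).continuousAt.continuousWithinAt)
    (fun x _ => hd x) (fun x hx => by
      have a1 := hnr_odd (p := K - 1) (z := x) (by linarith) (by linarith) hx.1.le (by linarith [hx.2])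
      nlinarith [mul_le_mul_of_nonneg_left a1 (show 0 ≤ K by linarith)])
  simp at this
  linarith

theorem hn_rp2 {K z : ℝ} (h1 : 1 ≤ K) (h2 : K ≤ 2) (hz0 : 0 ≤ z) (hz1 : z ≤ 1) :
    (1 + z) ^ K - (1 - z) ^ K ≤ 2 * K * z := by
  have hd : ∀ x, HasDerivAt (fun y : ℝ => 2 * K * y - ((1 + y) ^ K - (1 - y) ^ K))
      (2 * K * 1 - (K * (1 + x) ^ (K - 1) - -(K * (1 - x) ^ (K - 1)))) x := by
    intro x
    exact ((hasDerivAt_id' x).const_mul (2 * K)).fun_sub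
      ((hnr_dp (Or.inr h1)).fun_sub (hnr_dm (Or.inr h1)))
  have := hnr_mono hz0 (fun x _ => (hd x).continuousAt.continuousWithinAt)
    (fun x _ => hd x) (fun x hx => by
      have a1 := rpow_one_add_le_one_add_mul_self (s := x) (by linarith [hx.1]) (p := K - 1)
        (by linarith) (by linarith)
      have a2 := rpow_one_add_le_one_add_mul_self (s := -x) (by linarith [hx.2]) (p := K - 1)
        (by linarith) (by linarith)
      rw [← sub_eq_add_neg] at a2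
      nlinarith [mul_le_mul_of_nonneg_left (add_le_add a1 a2) (show 0 ≤ K by linarith)])
  simp at this
  linarith

theorem hnr_sq {K z : ℝ} (h1 : 1 ≤ K) (h2 : K ≤ 2) (hz0 : 0 ≤ z) (hz1 : z ≤ 1) :
    ((1 + z) ^ K - (1 - z) ^ K) ^ 2 ≤ (2 * K * z) ^ 2 := by
  have a := hn_rp2 h1 h2 hz0 hz1
  have b : (1 - z) ^ K ≤ (1 + z) ^ K := Real.rpow_le_rpow (by linarith) (by linarith) (by linarith)
  exact pow_le_pow_left₀ (by linarith) a 2

theorem hnr_both {K z : ℝ} (h1 : 1 ≤ K) (h2 : K ≤ 2) (hz0 : -1 ≤ z) (hz1 : z ≤ 1) :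
    2 + K * (K - 1) * z ^ 2 ≤ (1 + z) ^ K + (1 - z) ^ K ∧
      ((1 + z) ^ K - (1 - z) ^ K) ^ 2 ≤ (2 * K * z) ^ 2 := by
  rcases le_total 0 z with h | h
  · exact ⟨hn_rp1 h1 h2 h hz1, hnr_sq h1 h2 h hz1⟩
  · have a := hn_rp1 (z := -z) h1 h2 (by linarith) (by linarith)
    have b := hnr_sq (z := -z) h1 h2 (by linarith) (by linarith)
    rw [sub_neg_eq_add, ← sub_eq_add_neg] at a b
    constructor <;> nlinarith

/-- normal form `L0 ^ K = P (A - B)`, `L1 ^ K = P (A + B)` -/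
theorem hnr_nf {K L0 L1 : ℝ} (h1 : 1 ≤ K) (h2 : K ≤ 2) (h0 : 0 ≤ L0) (h0' : 0 ≤ L1) (hL : 0 < L0 + L1) :
    ∃ A B w : ℝ, 0 ≤ w ∧ L0 ^ K = ((L0 + L1) / 2) ^ K * (A - B) ∧ L1 ^ K = ((L0 + L1) / 2) ^ K * (A + B) ∧
      1 + K * (K - 1) * w / 2 ≤ A ∧ B ^ 2 ≤ K ^ 2 * w := by
  have hz1 : (L1 - L0) / (L0 + L1) ≤ 1 := by rw [div_le_one hL]; linarith
  have hz0 : -1 ≤ (L1 - L0) / (L0 + L1) := by rw [le_div_iff₀ hL]; linarith
  obtain ⟨a, b⟩ := hnr_both h1 h2 hz0 hz1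
  have e0 : L0 = (L0 + L1) / 2 * (1 - (L1 - L0) / (L0 + L1)) := by field_simp; ring
  have e1 : L1 = (L0 + L1) / 2 * (1 + (L1 - L0) / (L0 + L1)) := by field_simp; ring
  generalize (L1 - L0) / (L0 + L1) = z at *
  have f0 : L0 ^ K = ((L0 + L1) / 2) ^ K * (1 - z) ^ K := by
    rw [← Real.mul_rpow (by linarith) (by linarith), ← e0]
  have f1 : L1 ^ K = ((L0 + L1) / 2) ^ K * (1 + z) ^ K := by
    rw [← Real.mul_rpow (by linarith) (by linarith), ← e1]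
  refine ⟨((1 + z) ^ K + (1 - z) ^ K) / 2, ((1 + z) ^ K - (1 - z) ^ K) / 2, z ^ 2, sq_nonneg z, ?_, ?_, ?_, ?_⟩
  · rw [f0]; ring
  · rw [f1]; ring
  · linarith
  · nlinarith

theorem hn_two_inv {ρ K L0 L1 : ℝ} (hρ : |ρ| ≤ 1) (h1 : 1 ≤ K) (hK : 1 ≤ K * (1 - 2 * ρ ^ 2)) (h2 : K ≤ 2)
    (h0 : 0 < L0) (h0' : 0 < L1) :
    1 / ((1 - ρ) / 2 * L0 ^ K + (1 + ρ) / 2 * L1 ^ K) + 1 / ((1 + ρ) / 2 * L0 ^ K + (1 - ρ) / 2 * L1 ^ K) ≤
      2 / ((L0 + L1) / 2) ^ K := by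
  obtain ⟨A, B, w, hw, e0, e1, hA, hB⟩ := hnr_nf h1 h2 h0.le h0'.le (by linarith)
  have hP : 0 < ((L0 + L1) / 2) ^ K := Real.rpow_pos_of_pos (by linarith) _
  have p0 : 0 < L0 ^ K := Real.rpow_pos_of_pos h0 _
  have p1 : 0 < L1 ^ K := Real.rpow_pos_of_pos h0' _
  generalize ((L0 + L1) / 2) ^ K = P at *
  have hK0 : 0 ≤ K * (K - 1) * w / 2 := by
    have : 0 ≤ K - 1 := by linarith
    positivity
  have hA1 : 1 ≤ A := by linarith
  have key : A ≤ A ^ 2 - ρ ^ 2 * B ^ 2 := by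
    have a1 : ρ ^ 2 * B ^ 2 ≤ ρ ^ 2 * (K ^ 2 * w) := mul_le_mul_of_nonneg_left hB (sq_nonneg _)
    have a2 : 2 * ρ ^ 2 * K * (K * w) ≤ (K - 1) * (K * w) :=
      mul_le_mul_of_nonneg_right (by linarith) (by positivity)
    nlinarith
  have g1 : (1 - ρ) / 2 * L0 ^ K + (1 + ρ) / 2 * L1 ^ K = P * (A + ρ * B) := by rw [e0, e1]; ring
  have g2 : (1 + ρ) / 2 * L0 ^ K + (1 - ρ) / 2 * L1 ^ K = P * (A - ρ * B) := by rw [e0, e1]; ring
  have hprod : 0 < (A + ρ * B) * (A - ρ * B) := by nlinarith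
  have q1 : 0 < A + ρ * B := by
    by_contra hn
    have : 0 < A - ρ * B := by linarith
    nlinarith
  have q2 : 0 < A - ρ * B := by
    by_contra hn
    nlinarith
  rw [g1, g2, div_add_div _ _ (by positivity) (by positivity), div_le_div_iff₀ (by positivity) hP]
  have : P * P * A ≤ P * P * (A ^ 2 - ρ ^ 2 * B ^ 2) := mul_le_mul_of_nonneg_left key (by positivity)
  nlinarith

theorem hn_two_sqrt {ρ K L0 L1 : ℝ} (hρ : |ρ| ≤ 1) (h1 : 1 ≤ K) (hK : 1 ≤ K * √(1 - ρ ^ 2)) (h2 : K ≤ 2)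
    (h0 : 0 ≤ L0) (h0' : 0 ≤ L1) :
    2 * √(((L0 + L1) / 2) ^ K) ≤
      √((1 - ρ) / 2 * L0 ^ K + (1 + ρ) / 2 * L1 ^ K) + √((1 + ρ) / 2 * L0 ^ K + (1 - ρ) / 2 * L1 ^ K) := by
  rcases (add_nonneg h0 h0').eq_or_lt with hL | hL
  · rw [← hL, zero_div, Real.zero_rpow (by linarith), Real.sqrt_zero, mul_zero]
    positivity
  obtain ⟨A, B, w, hw, e0, e1, hA, hB⟩ := hnr_nf h1 h2 h0 h0' hL
  have hP : 0 < ((L0 + L1) / 2) ^ K := Real.rpow_pos_of_pos (by linarith) _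
  generalize ((L0 + L1) / 2) ^ K = P at *
  have hK0 : 0 ≤ K * (K - 1) * w / 2 := by
    have : 0 ≤ K - 1 := by linarith
    positivity
  have hA1 : 1 ≤ A := by linarith
  have hρ2 : ρ ^ 2 ≤ 1 := by
    have := abs_le.1 hρ
    nlinarith
  have hs2 : √(1 - ρ ^ 2) ^ 2 = 1 - ρ ^ 2 := Real.sq_sqrt (by linarith)
  have hs3 : ρ ^ 2 * K ≤ 2 * (K - 1) := by
    have : ρ ^ 2 ≤ 2 * (1 - √(1 - ρ ^ 2)) := by nlinarith [sq_nonneg (1 - √(1 - ρ ^ 2))]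
    nlinarith [mul_le_mul_of_nonneg_right this (show 0 ≤ K by linarith)]
  have key : (2 - A) ^ 2 ≤ (A + ρ * B) * (A - ρ * B) := by
    have a1 : ρ ^ 2 * B ^ 2 ≤ ρ ^ 2 * (K ^ 2 * w) := mul_le_mul_of_nonneg_left hB (sq_nonneg _)
    have a2 : ρ ^ 2 * K * (K * w) ≤ 2 * (K - 1) * (K * w) :=
      mul_le_mul_of_nonneg_right hs3 (by positivity)
    nlinarith
  have g1 : (1 - ρ) / 2 * L0 ^ K + (1 + ρ) / 2 * L1 ^ K = P * (A + ρ * B) := by rw [e0, e1]; ring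
  have g2 : (1 + ρ) / 2 * L0 ^ K + (1 - ρ) / 2 * L1 ^ K = P * (A - ρ * B) := by rw [e0, e1]; ring
  have hprod : 0 ≤ (A + ρ * B) * (A - ρ * B) := (sq_nonneg _).trans key
  have q1 : 0 ≤ A + ρ * B := by
    by_contra hn
    have : 0 < A - ρ * B := by linarith
    nlinarith
  have q2 : 0 ≤ A - ρ * B := by
    by_contra hn
    have : 0 < A + ρ * B := by linarith
    nlinarith
  rw [g1, g2, Real.sqrt_mul hP.le, Real.sqrt_mul hP.le, ← mul_add, mul_comm 2]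
  refine mul_le_mul_of_nonneg_left ?_ (Real.sqrt_nonneg _)
  have u2 := Real.sq_sqrt q1
  have v2 := Real.sq_sqrt q2
  have uv : 2 - A ≤ √(A + ρ * B) * √(A - ρ * B) := by
    rw [← Real.sqrt_mul q1]
    exact Real.le_sqrt_of_sq_le key
  have h4 : (2 : ℝ) ^ 2 ≤ (√(A + ρ * B) + √(A - ρ * B)) ^ 2 := by nlinarith
  exact (pow_le_pow_iff_left₀ (by norm_num) (by positivity) two_ne_zero).1 h4

end Crest.Agent.R307
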