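import Crest.Agent.R307.HNc
import Crest.Agent.R307.HNh
import Crest.Agent.R307.HNp

/-!
# R307/HNs: the region of large mean
-/

set_option autoImplicit false

namespace Crest.Agent.R307

open Crest.CubeNoise

variable {n : ℕ}

theorem hns_log {t : ℝ} (ht : 0 < t) : -(t * Real.log t) ≤ 3679 / 10000 := by
  have h1 := Real.log_le_sub_one_of_pos (x := t⁻¹ * Real.exp (-1)) (by positivity)
  rw [Real.log_mul (by positivity) (by positivity), Real.log_inv, Real.log_exp] at h1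
  have h2 := Real.exp_neg_one_lt_d9
  have h3 : t * (-Real.log t) ≤ t * (t⁻¹ * Real.exp (-1)) := mul_le_mul_of_nonneg_left (by linarith) ht.le
  rw [← mul_assoc, mul_inv_cancel₀ ht.ne', one_mul] at h3
  linarith

theorem hns_pow {a k : ℝ} (ha : 0 < a) (hk : 1 ≤ k) : √a - (k - 1) * (3679 / 10000) ≤ √(a ^ k) := by
  have hal : 0 < √a := Real.sqrt_pos.2 ha
  have e : √(a ^ k) = √a * Real.exp ((k - 1) * Real.log √a) := by
    have e1 : √(a ^ k) = Real.exp (k * Real.log √a) := by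
      rw [Real.sqrt_eq_rpow, ← Real.rpow_mul ha.le, Real.rpow_def_of_pos ha, Real.log_sqrt ha.le]
      congr 1
      ring
    have e2 : k * Real.log √a = Real.log √a + (k - 1) * Real.log √a := by ring
    rw [e1, e2, Real.exp_add, Real.exp_log hal]
  have h1 := Real.add_one_le_exp ((k - 1) * Real.log √a)
  have h2 := hns_log hal
  have h3 := mul_le_mul_of_nonneg_left h1 hal.le
  have h4 := mul_le_mul_of_nonneg_left h2 (sub_nonneg.2 hk)
  rw [e]
  nlinarith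

theorem hns_sq {p : ℝ} : √(1 - (1 - 2 * p) ^ 2) = 2 * √(p * (1 - p)) := by
  have e : 1 - (1 - 2 * p) ^ 2 = 2 ^ 2 * (p * (1 - p)) := by ring
  rw [e, Real.sqrt_mul (by positivity), Real.sqrt_sq (by norm_num)]

theorem hns_num {t x W V : ℝ} (ht : 0 < t) (ht2 : t ^ 2 ≤ 23 / 200) (hx : 0 ≤ x) (hx1 : x ≤ 9 / 100) (hW0 : 0 ≤ W)
    (hW : W ^ 2 ≤ 3 * (2 * t ^ 2) ^ 3) (hV : V ≤ x * ((1 - x) * W + x * (1 - (1 - 2 * t ^ 2) ^ 2))) :
    (13 / 25 / t + 37 / 100) * (V / 4) ≤ x * (1107 / 10000) := by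
  have t1 : t ≤ 3392 / 10000 := by nlinarith
  have w1 : W ≤ 4899 / 1000 * t ^ 3 := by
    refine abs_le_of_sq_le_sq' ?_ (by positivity) |>.2
    have : 0 ≤ t ^ 6 := by positivity
    nlinarith
  have v1 : (1 - x) * W + x * (1 - (1 - 2 * t ^ 2) ^ 2) ≤ t * (4899 / 1000 * t ^ 2 + 9 / 25 * t) := by
    have a1 : x * (1 - (1 - 2 * t ^ 2) ^ 2) ≤ 9 / 100 * (4 * t ^ 2) := by
      have : 0 ≤ t ^ 4 := by positivity
      have b1 : 1 - (1 - 2 * t ^ 2) ^ 2 ≤ 4 * t ^ 2 := by nlinarith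
      calc x * (1 - (1 - 2 * t ^ 2) ^ 2) ≤ x * (4 * t ^ 2) := mul_le_mul_of_nonneg_left b1 hx
        _ ≤ 9 / 100 * (4 * t ^ 2) := mul_le_mul_of_nonneg_right hx1 (by positivity)
    have a2 : 0 ≤ x * W := mul_nonneg hx hW0
    nlinarith
  have v2 : V ≤ x * (t * (4899 / 1000 * t ^ 2 + 9 / 25 * t)) := hV.trans (mul_le_mul_of_nonneg_left v1 hx)
  have c0 : 0 ≤ 13 / 25 / t + 37 / 100 := by positivity
  have v3 : (13 / 25 + 37 / 100 * t) * (4899 / 1000 * t ^ 2 + 9 / 25 * t) / 4 ≤ 1107 / 10000 := by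
    have b1 : 13 / 25 + 37 / 100 * t ≤ 6456 / 10000 := by linarith
    have b2 : 4899 / 1000 * t ^ 2 + 9 / 25 * t ≤ 6856 / 10000 := by linarith
    have := mul_le_mul b1 b2 (by positivity) (by norm_num)
    linarith
  calc (13 / 25 / t + 37 / 100) * (V / 4)
      ≤ (13 / 25 / t + 37 / 100) * (x * (t * (4899 / 1000 * t ^ 2 + 9 / 25 * t)) / 4) :=
        mul_le_mul_of_nonneg_left (by linarith) c0
    _ = x * ((13 / 25 + 37 / 100 * t) * (4899 / 1000 * t ^ 2 + 9 / 25 * t) / 4) := by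
        field_simp
    _ ≤ x * (1107 / 10000) := mul_le_mul_of_nonneg_left v3 hx

theorem hn_III {ρ : ℝ} (h0 : 0 ≤ ρ) (h1 : ρ ≤ 3 / 10) {f : (Fin n → Bool) → ℝ} (hf : ∀ x, f x = 1 ∨ f x = -1)
    (hm : 77 / 100 ≤ cubeAverage f) : HN ρ f := by
  have hf1 : ∀ x, |f x| ≤ 1 := fun x => by rcases hf x with h | h <;> rw [h] <;> norm_num
  have hρ1 : |ρ| ≤ 1 := by rw [abs_of_nonneg h0]; linarith
  have hx1 : ρ ^ 2 ≤ 9 / 100 := by nlinarith
  have hx0 : 0 ≤ ρ ^ 2 := sq_nonneg ρ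
  have hm1 : cubeAverage f ≤ 1 := avg_le fun x => (abs_le.1 (hf1 x)).2
  have hs2 : √(1 - ρ ^ 2) ^ 2 = 1 - ρ ^ 2 := Real.sq_sqrt (by linarith)
  have hs0 : 9539 / 10000 ≤ √(1 - ρ ^ 2) := Real.le_sqrt_of_sq_le (by linarith)
  have hs1 : √(1 - ρ ^ 2) ≤ 1 := Real.sqrt_le_one.2 (by linarith)
  unfold HN
  rcases hm1.eq_or_lt with hm2 | hm2
  · rw [hm2]
    have : (0 : ℝ) ≤ cubeAverage fun x => √(1 - noise ρ f x ^ 2) := avg_nonneg fun x => Real.sqrt_nonneg _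
    simp only [one_pow, sub_self, Real.sqrt_zero]
    linarith
  have hind := hn_sqrt_ind (ρ := ρ) (by linarith) hf
  have hvar := hn_var (ρ := ρ) (by linarith) hf
  have hW := (W1_le_mean hf).2
  have hW0 := W1_nonneg f
  rw [abs_of_nonneg (by linarith)] at hW
  obtain ⟨a, ha⟩ : ∃ a : ℝ, a = (1 - cubeAverage f) / 2 := ⟨_, rfl⟩
  have hma : cubeAverage f = 1 - 2 * a := by rw [ha]; ring
  have ha0 : 0 < a := by rw [ha]; linarith
  have ha1 : a ≤ 23 / 200 := by rw [ha]; linarith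
  obtain ⟨l, hl⟩ := hn_ptS ha0 ha1
  have hal : 0 < √a := Real.sqrt_pos.2 ha0
  have hal2 : √a ^ 2 = a := Real.sq_sqrt ha0.le
  rw [← ha] at hind
  have hk : 1 ≤ 1 / √(1 - ρ ^ 2) := by rw [le_div_iff₀ (by linarith)]; linarith
  have hpow := hns_pow ha0 hk
  have hnum := hns_num (t := √a) (x := ρ ^ 2) (W := W1 f)
    (V := cubeAverage fun x => (noise ρ f x - cubeAverage f) ^ 2) hal (by rw [hal2]; exact ha1) hx0 hx1 hW0
    (by rw [hal2]; convert hW using 3; rw [hma]; ring) (by rw [hal2, ← hma]; exact hvar)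
  have hpt : ∀ x, (2 * √(a * (1 - a)) - 2 * √a) + (-(l / 2)) * (noise ρ f x - cubeAverage f)
      + 2 * √((1 - noise ρ f x) / 2)
      - (13 / 25 / √a + 37 / 100) * ((noise ρ f x - cubeAverage f) ^ 2 / 4) ≤ √(1 - noise ρ f x ^ 2) := by
    intro x
    obtain ⟨g1, g2⟩ := abs_le.1 (abs_noise_le hρ1 hf1 x)
    have h := hl ((1 - noise ρ f x) / 2) (by linarith) (by linarith)
    rw [← hns_sq (p := (1 - noise ρ f x) / 2)] at h
    have e1 : 1 - 2 * ((1 - noise ρ f x) / 2) = noise ρ f x := by ring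
    have e2 : (1 - noise ρ f x) / 2 - a = -((noise ρ f x - cubeAverage f) / 2) := by rw [hma]; ring
    rw [e1, e2] at h
    convert h using 1
    ring
  have hav := avg_mono hpt
  rw [avg_sub, avg_add, avg_add, avg_const, avg_mul, avg_mul, avg_mul, avg_div, avg_sub, avg_const, avg_noise,
    sub_self, mul_zero, add_zero] at hav
  have e3 : √(1 - cubeAverage f ^ 2) = 2 * √(a * (1 - a)) := by rw [hma, hns_sq]
  rw [e3]
  have hq : 1 / √(1 - ρ ^ 2) - 1 ≤ (1 - √(1 - ρ ^ 2)) * (10484 / 10000) := by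
    rw [div_sub_one (by linarith), div_le_iff₀ (by linarith)]
    have := mul_le_mul_of_nonneg_left hs0 (sub_nonneg.2 hs1)
    nlinarith
  have hx2 : ρ ^ 2 ≤ 2 * (1 - √(1 - ρ ^ 2)) := by nlinarith [sq_nonneg (1 - √(1 - ρ ^ 2))]
  linarith

end Crest.Agent.R307
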