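import Crest.Agent.R307.Cube
import Crest.Agent.R307.HNcIM

/-!
# R307/HNt: the numerical inequality near a dictator
-/

set_option autoImplicit false

namespace Crest.Agent.R307

open Crest.CubeNoise

/-- Lower bounds for the two slice norms. -/
noncomputable def Pl (x e : ℝ) : ℝ := 1 / 8 + 2 * e - x * e * (81 / 10 - 16 * e)

noncomputable def Ph (x e : ℝ) : ℝ := 17 / 8 - 2 * e - x * e * (39 / 10)

theorem hnt_T1 {x η μ m d C z s : ℝ} (hm : m = μ * η) (hd : d = 1 - η) (hC : C ^ 2 = 1 - m ^ 2)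
    (hz : z ^ 2 = 1 - m ^ 2 - x * d ^ 2) (hs : s ^ 2 = 1 - x) (C0 : 0 < C) (z0 : 0 < z) (s0 : 0 < s) :
    z - C + 1 - s = x * η * (((2 - η) - μ * m / (1 + C) +
      ((2 - η) * (1 + d ^ 2 - x * d ^ 2) - μ * m) / (z + s * d ^ 2)) / ((1 + s) * (C + z))) := by
  have p1 : 0 < 1 + C := by linarith
  have p2 : 0 < z + s * d ^ 2 := by positivity
  have p3 : 0 < (1 + s) * (C + z) := by positivity
  have a1 : η * (μ * m / (1 + C)) = 1 - C := by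
    rw [← mul_div_assoc, div_eq_iff p1.ne']
    linear_combination hC - m * hm
  have a2 : η * (((2 - η) * (1 + d ^ 2 - x * d ^ 2) - μ * m) / (z + s * d ^ 2)) = z - s * d ^ 2 := by
    rw [← mul_div_assoc, div_eq_iff p2.ne']
    have e : η * (2 - η) = 1 - d ^ 2 := by rw [hd]; ring
    linear_combination (1 + d ^ 2 - x * d ^ 2) * e + m * hm - hz + d ^ 4 * hs
  have e : η * (2 - η) = 1 - d ^ 2 := by rw [hd]; ring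
  rw [← mul_div_assoc, eq_div_iff p3.ne']
  linear_combination (-x) * e + x * a1 - x * a2 - (1 + s) * hC + (1 + s) * hz - (C + z) * hs

theorem hnt_inv {X y D : ℝ} (hD : D = X - y) (h1 : 0 < X) (h2 : 0 < X - y) :
    1 / D = 1 / X + y * (1 / (X * (X - y))) := by
  rw [hD]; field_simp; ring

theorem hnt_sum {m ρ d B : ℝ} (hB : B = 81 / 64 - m ^ 2 - ρ ^ 2 * d ^ 2) (h1 : 0 < 9 / 8 + m + ρ * d)
    (h2 : 0 < 9 / 8 + m - ρ * d) (h3 : 0 < 9 / 8 - m - ρ * d) (h4 : 0 < 9 / 8 - m + ρ * d) (B0 : 0 < B) :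
    2 / 9 * (1 / (9 / 8 + m + ρ * d) + 1 / (9 / 8 + m - ρ * d) + 1 / (9 / 8 - m - ρ * d) + 1 / (9 / 8 - m + ρ * d)) =
      1 / B + 4 * m ^ 2 * ρ ^ 2 * d ^ 2 / (B * (B ^ 2 - 4 * m ^ 2 * ρ ^ 2 * d ^ 2)) := by
  have e1 : (9 / 8 + m + ρ * d) * (9 / 8 - m - ρ * d) = B - 2 * m * ρ * d := by rw [hB]; ring
  have e2 : (9 / 8 + m - ρ * d) * (9 / 8 - m + ρ * d) = B + 2 * m * ρ * d := by rw [hB]; ring
  have p1 : 0 < B - 2 * m * ρ * d := e1 ▸ mul_pos h1 h3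
  have p2 : 0 < B + 2 * m * ρ * d := e2 ▸ mul_pos h2 h4
  have a1 : 1 / (9 / 8 + m + ρ * d) + 1 / (9 / 8 - m - ρ * d) = 9 / 4 / (B - 2 * m * ρ * d) := by
    rw [div_add_div _ _ h1.ne' h3.ne', e1]; congr 1; ring
  have a2 : 1 / (9 / 8 + m - ρ * d) + 1 / (9 / 8 - m + ρ * d) = 9 / 4 / (B + 2 * m * ρ * d) := by
    rw [div_add_div _ _ h2.ne' h4.ne', e2]; congr 1; ring
  have e3 : B ^ 2 - 4 * m ^ 2 * ρ ^ 2 * d ^ 2 = (B - 2 * m * ρ * d) * (B + 2 * m * ρ * d) := by ring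
  have a3 : 2 / 9 * (9 / 4 / (B - 2 * m * ρ * d) + 9 / 4 / (B + 2 * m * ρ * d)) =
      1 / B + 4 * m ^ 2 * ρ ^ 2 * d ^ 2 / (B * (B ^ 2 - 4 * m ^ 2 * ρ ^ 2 * d ^ 2)) := by
    rw [e3]
    generalize hy : 2 * m * ρ * d = y at *
    have : 4 * m ^ 2 * ρ ^ 2 * d ^ 2 = y ^ 2 := by rw [← hy]; ring
    rw [this]
    field_simp
    ring
  linear_combination 2 / 9 * a1 + 2 / 9 * a2 + a3

theorem hnt_small {ρ η A B' c : ℝ} (h0 : 0 ≤ ρ) (h1 : ρ ≤ 3 / 10) (e0 : 0 ≤ η) (e1 : η ≤ 1 / 5) (hA : A ≤ 9)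
    (hB : B' ≤ 9) (c0 : 0 ≤ c) (c1 : c ≤ 1) : ρ ^ 2 * η * (c * A + (1 - c) * B') ≤ 1 / 5 := by
  have a1 : c * A + (1 - c) * B' ≤ 9 := by nlinarith
  have a2 : ρ ^ 2 ≤ 9 / 100 := by nlinarith
  have a3 : ρ ^ 2 * η ≤ 9 / 500 := by nlinarith
  have a4 : 0 ≤ ρ ^ 2 * η := by positivity
  nlinarith

theorem hnt_ep {ρ r t η : ℝ} (h0 : 0 ≤ ρ) (h1 : ρ ≤ 3 / 10) (t0 : 0 ≤ t) (t1 : t ≤ 1) (η0 : 0 ≤ η)
    (he : η ≤ 19 / 100) (q1 : HNcI.et ρ r t = η) :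
    ρ ^ 2 * η * HNcI.ep1 ρ r t ≤ 1 / 5 ∧ ρ ^ 2 * η * HNcI.ep2 ρ r t ≤ 1 / 5 ∧
      ρ ^ 2 * η * HNcI.ep3 ρ r t ≤ 1 / 5 ∧ ρ ^ 2 * η * HNcI.ep4 ρ r t ≤ 1 / 5 := by
  have A0 : HNcI.A0 ρ r t ≤ 9 := by
    rw [HNcI.A0, q1]; nlinarith [mul_nonneg η0 t0, mul_nonneg t0 (mul_nonneg η0 t0)]
  have A1 : HNcI.A1 ρ r t ≤ 9 := by
    have t2 : 0 ≤ 1 - t := by linarith
    rw [HNcI.A1, q1]; nlinarith [mul_nonneg η0 t2, mul_nonneg t2 (mul_nonneg η0 t2)]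
  have B0 : HNcI.B0 ρ r t ≤ 9 := by rw [HNcI.B0]; linarith
  have B1 : HNcI.B1 ρ r t ≤ 9 := by rw [HNcI.B1]; linarith
  have y1 : ρ ^ 2 * η * HNcI.ep1 ρ r t ≤ 1 / 5 := by
    have := hnt_small (c := (1 - ρ) / 2) h0 h1 η0 (by linarith) A0 B1 (by linarith) (by linarith)
    rw [HNcI.ep1]; convert this using 3; ring
  have y2 : ρ ^ 2 * η * HNcI.ep2 ρ r t ≤ 1 / 5 := by
    have := hnt_small (c := (1 + ρ) / 2) h0 h1 η0 (by linarith) A0 B1 (by linarith) (by linarith)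
    rw [HNcI.ep2]; convert this using 3; ring
  have y3 : ρ ^ 2 * η * HNcI.ep3 ρ r t ≤ 1 / 5 := by
    have := hnt_small (c := (1 + ρ) / 2) h0 h1 η0 (by linarith) A1 B0 (by linarith) (by linarith)
    rw [HNcI.ep3]; convert this using 3; ring
  have y4 : ρ ^ 2 * η * HNcI.ep4 ρ r t ≤ 1 / 5 := by
    have := hnt_small (c := (1 - ρ) / 2) h0 h1 η0 (by linarith) A1 B0 (by linarith) (by linarith)
    rw [HNcI.ep4]; convert this using 3; ring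
  exact ⟨y1, y2, y3, y4⟩

set_option maxHeartbeats 1000000 in
theorem hn_I_num {ρ e0 e1 w V J z : ℝ} (h0 : 0 ≤ ρ) (h1 : ρ ≤ 3 / 10) (he0 : 0 ≤ e0) (he1 : 0 ≤ e1) (he : e0 + e1 ≤ 19 / 100)
    (hz : z = √(1 - (e0 - e1) ^ 2 - ρ ^ 2 * (1 - (e0 + e1)) ^ 2))
    (hw : w ^ 2 ≤ 3 * (e0 + e1) ^ 3)
    (hV : V ≤ ρ ^ 2 * ((1 - ρ ^ 2) * ((1 - (e0 + e1)) ^ 2 + w) + ρ ^ 2 * (1 - (e0 - e1) ^ 2)))
    (hJ : J ≤ 2 / 9 * (1 / ((1 - ρ) / 2 * Pl (ρ ^ 2) e0 + (1 + ρ) / 2 * Ph (ρ ^ 2) e1)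
      + 1 / ((1 + ρ) / 2 * Pl (ρ ^ 2) e0 + (1 - ρ) / 2 * Ph (ρ ^ 2) e1)
      + 1 / ((1 - ρ) / 2 * Ph (ρ ^ 2) e0 + (1 + ρ) / 2 * Pl (ρ ^ 2) e1)
      + 1 / ((1 + ρ) / 2 * Ph (ρ ^ 2) e0 + (1 - ρ) / 2 * Pl (ρ ^ 2) e1))) :
    0 < z ∧ 17 / 64 * (1 + z) ^ 2 ≤ 81 / 64 * z ^ 2 ∧
    √(1 - (e0 - e1) ^ 2) - 1 + √(1 - ρ ^ 2) ≤
      z + (1 / (2 * z) - 81 / 64 / (2 * z * (1 + z) ^ 2)) * (1 - (e0 - e1) ^ 2 - V - z ^ 2)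
        - 81 / 64 / (2 * z * (1 + z) ^ 2) * (17 / 64 + z ^ 2) ^ 2 * (J - 1 / (17 / 64 + z ^ 2)) := by
  obtain ⟨r, t, r0, r1, t0, t1, rfl, rfl⟩ : ∃ r t : ℝ, 0 ≤ r ∧ r ≤ 109 / 250 ∧ 0 ≤ t ∧ t ≤ 1 ∧
      e0 = r ^ 2 * t ∧ e1 = r ^ 2 * (1 - t) := by
    have hs : √(e0 + e1) ^ 2 = e0 + e1 := Real.sq_sqrt (by linarith)
    have hr : √(e0 + e1) ≤ 109 / 250 := Real.sqrt_le_iff.2 ⟨by norm_num, by linarith⟩
    rcases eq_or_lt_of_le (add_nonneg he0 he1) with h | h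
    · exact ⟨0, 0, le_rfl, by norm_num, le_rfl, by norm_num, by linarith, by linarith⟩
    · refine ⟨√(e0 + e1), e0 / (e0 + e1), Real.sqrt_nonneg _, hr, by positivity,
        (div_le_one h).2 (by linarith), ?_, ?_⟩
      · rw [hs]; field_simp
      · rw [hs]; field_simp; ring
  have hQ := HNcI.main ρ r t h0 h1 r0 r1 t0 t1
  obtain ⟨η, hη⟩ : ∃ η : ℝ, η = r ^ 2 := ⟨_, rfl⟩
  obtain ⟨μ, hμ⟩ : ∃ μ : ℝ, μ = 2 * t - 1 := ⟨_, rfl⟩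
  obtain ⟨m, hm⟩ : ∃ m : ℝ, m = μ * η := ⟨_, rfl⟩
  obtain ⟨d, hd⟩ : ∃ d : ℝ, d = 1 - η := ⟨_, rfl⟩
  rw [← hη] at he0 he1 he hz hw hV hJ ⊢
  have k1 : η * t - η * (1 - t) = m := by rw [hm, hμ]; ring
  have k2 : η * t + η * (1 - t) = η := by ring
  rw [k2] at he hw
  rw [k1, k2, ← hd] at hz hV
  rw [k1]
  have η0 : 0 ≤ η := by rw [hη]; positivity
  have m1 : m ≤ η := by linarith
  have m2 : -η ≤ m := by linarith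
  have d0 : 0 ≤ d := by linarith
  have d1 : d ≤ 1 := by linarith
  have mm : m ^ 2 ≤ 1 / 25 := by nlinarith
  have xx : ρ ^ 2 ≤ 9 / 100 := by nlinarith
  have dd : d ^ 2 ≤ 1 := by nlinarith
  have xd : ρ ^ 2 * d ^ 2 ≤ 9 / 100 := by nlinarith [sq_nonneg ρ]
  have pd0 : 0 ≤ ρ * d := by positivity
  have pd1 : ρ * d ≤ 3 / 10 := by nlinarith
  obtain ⟨C, hC⟩ : ∃ C : ℝ, C = √(1 - m ^ 2) := ⟨_, rfl⟩
  obtain ⟨s, hs⟩ : ∃ s : ℝ, s = √(1 - ρ ^ 2) := ⟨_, rfl⟩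
  rw [← hC, ← hs]
  have C0 : 0 < C := hC ▸ Real.sqrt_pos.2 (by linarith)
  have s0 : 0 < s := hs ▸ Real.sqrt_pos.2 (by linarith)
  have z0 : 0 < z := hz ▸ Real.sqrt_pos.2 (by linarith)
  have C2 : C ^ 2 = 1 - m ^ 2 := hC ▸ Real.sq_sqrt (by linarith)
  have s2 : s ^ 2 = 1 - ρ ^ 2 := hs ▸ Real.sq_sqrt (by linarith)
  have z2 : z ^ 2 = 1 - m ^ 2 - ρ ^ 2 * d ^ 2 := hz ▸ Real.sq_sqrt (by linarith)
  have q1 : HNcI.et ρ r t = η := hη.symm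
  have q2 : HNcI.mu ρ r t = μ := hμ.symm
  have q3 : HNcI.m ρ r t = m := by rw [HNcI.m, q1, q2, hm]
  have q4 : HNcI.d ρ r t = d := by rw [HNcI.d, q1, hd]
  have q5 : HNcI.x ρ r t = ρ ^ 2 := rfl
  have q6 : HNcI.C ρ r t = C := by rw [HNcI.C, q3, hC]
  have q7 : HNcI.s ρ r t = s := by rw [HNcI.s, q5, hs]
  have q8 : HNcI.z ρ r t = z := by rw [HNcI.z, q3, q4, q5, hz]
  obtain ⟨y1, y2, y3, y4⟩ := hnt_ep h0 h1 t0 t1 η0 he q1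
  have X1 : 0 < 9 / 8 + m + ρ * d := by linarith
  have X2 : 0 < 9 / 8 + m - ρ * d := by linarith
  have X3 : 0 < 9 / 8 - m - ρ * d := by linarith
  have X4 : 0 < 9 / 8 - m + ρ * d := by linarith
  have i1 := hnt_inv (D := (1 - ρ) / 2 * Pl (ρ ^ 2) (η * t) + (1 + ρ) / 2 * Ph (ρ ^ 2) (η * (1 - t)))
    (y := ρ ^ 2 * η * HNcI.ep1 ρ r t)
    (by rw [HNcI.ep1, HNcI.A0, HNcI.B1, q1, Pl, Ph, ← k1, hd]; ring) X1 (by linarith)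
  have i2 := hnt_inv (D := (1 + ρ) / 2 * Pl (ρ ^ 2) (η * t) + (1 - ρ) / 2 * Ph (ρ ^ 2) (η * (1 - t)))
    (y := ρ ^ 2 * η * HNcI.ep2 ρ r t)
    (by rw [HNcI.ep2, HNcI.A0, HNcI.B1, q1, Pl, Ph, ← k1, hd]; ring) X2 (by linarith)
  have i3 := hnt_inv (D := (1 - ρ) / 2 * Ph (ρ ^ 2) (η * t) + (1 + ρ) / 2 * Pl (ρ ^ 2) (η * (1 - t)))
    (y := ρ ^ 2 * η * HNcI.ep3 ρ r t)
    (by rw [HNcI.ep3, HNcI.A1, HNcI.B0, q1, Pl, Ph, ← k1, hd]; ring) X3 (by linarith)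
  have i4 := hnt_inv (D := (1 + ρ) / 2 * Ph (ρ ^ 2) (η * t) + (1 - ρ) / 2 * Pl (ρ ^ 2) (η * (1 - t)))
    (y := ρ ^ 2 * η * HNcI.ep4 ρ r t)
    (by rw [HNcI.ep4, HNcI.A1, HNcI.B0, q1, Pl, Ph, ← k1, hd]; ring) X4 (by linarith)
  rw [i1, i2, i3, i4] at hJ
  have S := hnt_sum (m := m) (ρ := ρ) (d := d) (B := 17 / 64 + z ^ 2) (by linarith) X1 X2 X3 X4 (by positivity)
  have w1 : w ≤ 17321 / 10000 * r * η := by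
    refine abs_le_of_sq_le_sq' ?_ (by positivity) |>.2
    have : (17321 / 10000 * r * η) ^ 2 = (17321 / 10000) ^ 2 * η ^ 3 := by rw [hη]; ring
    rw [this]
    have : 0 ≤ η ^ 3 := by positivity
    nlinarith
  have v1 : -(ρ ^ 2 * η * (17321 / 10000 * r * (1 - ρ ^ 2) + ρ ^ 2 * (2 - η - μ * m))) ≤ 1 - m ^ 2 - V - z ^ 2 := by
    have a : ρ ^ 2 * (1 - ρ ^ 2) * w ≤ ρ ^ 2 * (1 - ρ ^ 2) * (17321 / 10000 * r * η) :=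
      mul_le_mul_of_nonneg_left w1 (mul_nonneg (sq_nonneg _) (by linarith))
    have e : η * (2 - η - μ * m) = 1 - m ^ 2 - d ^ 2 := by rw [hd, hm]; ring
    linear_combination hV + a + z2 - ρ ^ 2 * ρ ^ 2 * e
  simp only [HNcI.Q, HNcI.T1, HNcI.T2, HNcI.T3, HNcI.T4, HNcI.nu, HNcI.lam, HNcI.lp, HNcI.B, HNcI.X1, HNcI.X2,
    HNcI.X3, HNcI.X4, q1, q2, q3, q4, q5, q6, q7, q8] at hQ
  obtain ⟨hQ1, hQ2, hQ3⟩ := hQ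
  refine ⟨z0, by linarith, ?_⟩
  have T1 := hnt_T1 hm hd C2 z2 s2 C0 z0 s0
  generalize HNcI.ep1 ρ r t = E1 at *
  generalize HNcI.ep2 ρ r t = E2 at *
  generalize HNcI.ep3 ρ r t = E3 at *
  generalize HNcI.ep4 ρ r t = E4 at *
  have l0 : 0 ≤ 81 / 64 / (2 * z * (1 + z) ^ 2) * (17 / 64 + z ^ 2) ^ 2 := by positivity
  have f1 := mul_le_mul_of_nonneg_left v1 hQ2.le
  have f2 := mul_le_mul_of_nonneg_left hJ l0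
  have f3 := mul_nonneg (mul_nonneg (sq_nonneg ρ) η0) hQ1.le
  have f4 : 4 * m ^ 2 * ρ ^ 2 * d ^ 2 = ρ ^ 2 * η * (4 * μ * m * d ^ 2) := by rw [hm]; ring
  simp only [div_eq_mul_inv, one_mul] at *
  generalize (2 * z * (1 + z) ^ 2)⁻¹ = I1 at *
  generalize ((17 * 64⁻¹ + z ^ 2) * ((17 * 64⁻¹ + z ^ 2) ^ 2 - 4 * m ^ 2 * ρ ^ 2 * d ^ 2))⁻¹ = I2 at *
  linear_combination f1 + f2 + f3 - T1 + (81 * 64⁻¹ * I1 * (17 * 64⁻¹ + z ^ 2) ^ 2) * S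
    + (81 * 64⁻¹ * I1 * (17 * 64⁻¹ + z ^ 2) ^ 2) * I2 * f4

end Crest.Agent.R307
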