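import Crest.Agent.R307.HNc
import Crest.Agent.R307.HNo
import Crest.Agent.R307.HNp
import Crest.Agent.R307.HNt

/-!
# R307/HNu: the region near a dictator
-/

set_option autoImplicit false

namespace Crest.Agent.R307

open Crest.CubeNoise

variable {n : ℕ}

theorem hnu_abs {f : (Fin n → Bool) → ℝ} (hf : ∀ x, f x = 1 ∨ f x = -1) (x : Fin n → Bool) : |f x| ≤ 1 := by
  rcases hf x with h | h <;> simp [h]

theorem hnu_neg {f : (Fin n → Bool) → ℝ} (hf : ∀ x, f x = 1 ∨ f x = -1) (x : Fin n → Bool) :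
    -f x = 1 ∨ -f x = -1 := by
  rcases hf x with h | h <;> simp [h]

theorem hnu_lo {ρ e : ℝ} (hρ : ρ ^ 2 ≤ 9 / 100) {u : (Fin n → Bool) → ℝ} (hu : ∀ x, u x = 1 ∨ u x = -1)
    (hm : cubeAverage u = -1 + 2 * e) (he : e ≤ 19 / 100) :
    0 < Pl (ρ ^ 2) e ∧ (cubeAverage fun x => 1 / (9 / 8 + noise ρ u x)) ≤ 1 / Pl (ρ ^ 2) e := by
  have h0 : 0 ≤ e := by
    have := le_avg fun x => (abs_le.1 (hnu_abs hu x)).1
    linarith
  have hx := sq_nonneg ρ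
  have hP : 0 < Pl (ρ ^ 2) e := by
    unfold Pl
    have h1 : ρ ^ 2 * (81 / 10 - 16 * e) ≤ 1 := by nlinarith
    nlinarith
  refine ⟨hP, (hn_tail (by linarith) (by norm_num) hu).trans (one_div_le_one_div_of_le hP ?_)⟩
  rw [hm]
  exact hn_N_P0 h0 he hx hρ

theorem hnu_hi {ρ e : ℝ} (hρ : ρ ^ 2 ≤ 9 / 100) {u : (Fin n → Bool) → ℝ} (hu : ∀ x, u x = 1 ∨ u x = -1)
    (hm : cubeAverage u = 1 - 2 * e) (he : e ≤ 19 / 100) :
    0 < Ph (ρ ^ 2) e ∧ (cubeAverage fun x => 1 / (9 / 8 + noise ρ u x)) ≤ 1 / Ph (ρ ^ 2) e := by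
  have h0 : 0 ≤ e := by
    have := avg_le fun x => (abs_le.1 (hnu_abs hu x)).2
    linarith
  have hx := sq_nonneg ρ
  have hP : 0 < Ph (ρ ^ 2) e := by
    unfold Ph
    nlinarith
  refine ⟨hP, (hn_tail (by linarith) (by norm_num) hu).trans (one_div_le_one_div_of_le hP ?_)⟩
  rw [hm]
  exact hn_N_P1 h0 he hx hρ

theorem hnu_half {ρ P Q : ℝ} (h0 : 0 ≤ ρ) (h1 : ρ ≤ 1) {f : (Fin (n + 1) → Bool) → ℝ} (hf : ∀ x, |f x| ≤ 1)
    (hP : 0 < P) (hQ : 0 < Q) (a0 : (cubeAverage fun x => 1 / (9 / 8 + noise ρ (sl f false) x)) ≤ 1 / P)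
    (a1 : (cubeAverage fun x => 1 / (9 / 8 + noise ρ (sl f true) x)) ≤ 1 / Q) :
    (cubeAverage fun x => 1 / (9 / 8 + noise ρ f x)) ≤
      (1 / ((1 - ρ) / 2 * P + (1 + ρ) / 2 * Q) + 1 / ((1 + ρ) / 2 * P + (1 - ρ) / 2 * Q)) / 2 := by
  have hρ : |ρ| ≤ 1 := by rwa [abs_of_nonneg h0]
  have hp : ∀ b x, 0 < 9 / 8 + noise ρ (sl f b) x := fun b x => by
    have := (abs_le.1 (abs_noise_le hρ (u := sl f b) (fun y => hf _) x)).1
    linarith
  have e0 : sl (fun x => 1 / (9 / 8 + noise ρ f x)) false = fun x => 1 / ((1 + ρ) / 2 *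
      (9 / 8 + noise ρ (sl f false) x) + (1 - ρ) / 2 * (9 / 8 + noise ρ (sl f true) x)) := by
    funext x
    change 1 / (9 / 8 + sl (noise ρ f) false x) = _
    rw [noise_sl]
    congr 1
    simp only [spin, Bool.false_eq_true, if_false]
    ring
  have e1 : sl (fun x => 1 / (9 / 8 + noise ρ f x)) true = fun x => 1 / ((1 - ρ) / 2 *
      (9 / 8 + noise ρ (sl f false) x) + (1 + ρ) / 2 * (9 / 8 + noise ρ (sl f true) x)) := by
    funext x
    change 1 / (9 / 8 + sl (noise ρ f) true x) = _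
    rw [noise_sl]
    congr 1
    simp only [spin, if_true]
    ring
  have b0 := hn_harm (α := (1 + ρ) / 2) (β := (1 - ρ) / 2) (hp false) (hp true) hP hQ (by linarith) (by linarith)
    (by ring) a0 a1
  have b1 := hn_harm (α := (1 - ρ) / 2) (β := (1 + ρ) / 2) (hp false) (hp true) hP hQ (by linarith) (by linarith)
    (by ring) a0 a1
  rw [avg_succ, e0, e1]
  linarith

/-- One exact step for the tail potential. -/
theorem hn_I_tail {ρ e0 e1 : ℝ} (h0 : 0 ≤ ρ) (h1 : ρ ≤ 3 / 10) {f : (Fin (n + 1) → Bool) → ℝ} (hf : ∀ x, f x = 1 ∨ f x = -1)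
    (he0 : cubeAverage (sl f false) = -1 + 2 * e0) (he1 : cubeAverage (sl f true) = 1 - 2 * e1) (he : e0 + e1 ≤ 19 / 100) :
    (cubeAverage fun x => 1 / (17 / 64 + √(1 - noise ρ f x ^ 2) ^ 2)) ≤
      2 / 9 * (1 / ((1 - ρ) / 2 * Pl (ρ ^ 2) e0 + (1 + ρ) / 2 * Ph (ρ ^ 2) e1)
      + 1 / ((1 + ρ) / 2 * Pl (ρ ^ 2) e0 + (1 - ρ) / 2 * Ph (ρ ^ 2) e1)
      + 1 / ((1 - ρ) / 2 * Ph (ρ ^ 2) e0 + (1 + ρ) / 2 * Pl (ρ ^ 2) e1)
      + 1 / ((1 + ρ) / 2 * Ph (ρ ^ 2) e0 + (1 - ρ) / 2 * Pl (ρ ^ 2) e1)) := by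
  have hρ : |ρ| ≤ 1 := by rw [abs_of_nonneg h0]; linarith
  have hx : ρ ^ 2 ≤ 9 / 100 := by nlinarith
  have p0 : 0 ≤ e0 := by
    have := le_avg (f := sl f false) fun x => (abs_le.1 (hnu_abs hf _)).1
    linarith
  have p1 : 0 ≤ e1 := by
    have := avg_le (f := sl f true) fun x => (abs_le.1 (hnu_abs hf _)).2
    linarith
  obtain ⟨a1, a2⟩ := hnu_lo hx (u := sl f false) (fun x => hf _) he0 (by linarith)
  obtain ⟨b1, b2⟩ := hnu_hi hx (u := sl f true) (fun x => hf _) he1 (by linarith)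
  obtain ⟨c1, c2⟩ := hnu_hi hx (e := e0) (u := sl (fun x => -f x) false) (fun x => hnu_neg hf _)
    ((avg_neg (sl f false)).trans (by rw [he0]; ring)) (by linarith)
  obtain ⟨d1, d2⟩ := hnu_lo hx (e := e1) (u := sl (fun x => -f x) true) (fun x => hnu_neg hf _)
    ((avg_neg (sl f true)).trans (by rw [he1]; ring)) (by linarith)
  have k1 := hnu_half h0 (by linarith) (hnu_abs hf) a1 b1 a2 b2
  have k2 := hnu_half h0 (by linarith) (f := fun x => -f x) (hnu_abs (hnu_neg hf)) c1 d1 c2 d2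
  have e : (fun x => 1 / (17 / 64 + √(1 - noise ρ f x ^ 2) ^ 2)) = fun x =>
      4 / 9 * (1 / (9 / 8 + noise ρ f x) + 1 / (9 / 8 + noise ρ (fun x => -f x) x)) := by
    funext x
    have h2 := abs_le.1 (abs_noise_le hρ (hnu_abs hf) x)
    have h3 : noise ρ (fun x => -f x) x = -noise ρ f x := by
      simpa using noise_affine ρ (-1) 0 f x
    rw [h3, Real.sq_sqrt (by nlinarith)]
    generalize noise ρ f x = g at *
    have h4 : 9 / 8 + g ≠ 0 := by linarith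
    have h5 : 9 / 8 + -g ≠ 0 := by linarith
    have h6 : 17 / 64 + (1 - g ^ 2) = (9 / 8 + g) * (9 / 8 + -g) := by ring
    rw [h6, div_add_div _ _ h4 h5, ← mul_div_assoc]
    congr 1
    ring
  rw [e, avg_mul, avg_add]
  linarith

theorem hn_I {ρ : ℝ} (h0 : 0 ≤ ρ) (h1 : ρ ≤ 3 / 10) {f : (Fin (n + 1) → Bool) → ℝ} (hf : ∀ x, f x = 1 ∨ f x = -1)
    (h : 81 / 100 ≤ co f 0) : HN ρ f := by
  have hρ : |ρ| ≤ 1 := by rw [abs_of_nonneg h0]; linarith
  obtain ⟨e0, he0⟩ : ∃ e0, cubeAverage (sl f false) = -1 + 2 * e0 :=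
    ⟨(1 + cubeAverage (sl f false)) / 2, by ring⟩
  obtain ⟨e1, he1⟩ : ∃ e1, cubeAverage (sl f true) = 1 - 2 * e1 := ⟨(1 - cubeAverage (sl f true)) / 2, by ring⟩
  have p0 : 0 ≤ e0 := by
    have := le_avg (f := sl f false) fun x => (abs_le.1 (hnu_abs hf _)).1
    linarith
  have p1 : 0 ≤ e1 := by
    have := avg_le (f := sl f true) fun x => (abs_le.1 (hnu_abs hf _)).2
    linarith
  have hc : co f 0 = 1 - (e0 + e1) := by rw [co_zero, he0, he1]; ring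
  have hm : cubeAverage f = e0 - e1 := by rw [avg_succ, he0, he1]; ring
  have he : e0 + e1 ≤ 19 / 100 := by linarith
  have hw := (W1_bar hf).2
  rw [abs_of_nonneg (by linarith), hc, sub_sub_cancel] at hw
  have hV := hn_var (ρ := ρ) (by nlinarith) hf
  rw [W1_succ, hc, hm] at hV
  obtain ⟨z0, z1, z2⟩ := hn_I_num h0 h1 p0 p1 he rfl hw hV (hn_I_tail h0 h1 hf he0 he1 he)
  generalize √(1 - (e0 - e1) ^ 2 - ρ ^ 2 * (1 - (e0 + e1)) ^ 2) = z at z0 z1 z2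
  have hg : ∀ x, 0 ≤ 1 - noise ρ f x ^ 2 := fun x => by
    have h2 := abs_le.1 (abs_noise_le hρ (hnu_abs hf) x)
    nlinarith
  have hy : (cubeAverage fun x => √(1 - noise ρ f x ^ 2) ^ 2) =
      1 - (e0 - e1) ^ 2 - cubeAverage fun x => (noise ρ f x - (e0 - e1)) ^ 2 := by
    have e : (fun x => √(1 - noise ρ f x ^ 2) ^ 2) = fun x =>
        (1 + (e0 - e1) ^ 2) - (noise ρ f x - (e0 - e1)) ^ 2 - 2 * (e0 - e1) * noise ρ f x := by
      funext x
      rw [Real.sq_sqrt (hg x)]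
      ring
    rw [e, avg_sub, avg_sub, avg_const, avg_mul, avg_noise, hm]
    ring
  have hpt := avg_mono fun x => hn_ptI z0 z1 (Real.sqrt_nonneg (1 - noise ρ f x ^ 2))
    (Real.sqrt_le_one.2 (sub_le_self _ (sq_nonneg _)))
  rw [avg_sub, avg_add, avg_const, avg_mul, avg_mul, avg_sub, avg_sub, avg_const, avg_const, hy] at hpt
  unfold HN
  rw [hm]
  exact z2.trans hpt

end Crest.Agent.R307
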