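import Crest.Agent.R307.Cube

/-!
# R307/XInd: fixed-noise induction over the cube for concave potentials of `T 1_A`

* `xind_avg`: compression (`A0 ∩ A1`, `A0 ∪ A1`) and induction, step in averaged form;
* `xind_mul`: step given by multipliers (pointwise inequality + Bellman inequality);
* `hell_of`: the Hellinger statement from `s - 1 + 2 √(a(1-a)) ≤ E 2 √(p(1-p))`, `0 ≤ ρ ≤ 1`.
-/

set_option autoImplicit false

namespace Crest.Agent.R307

open Crest.CubeNoise Set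

/-- Spreading two points with the same sum lowers the sum of a concave function. -/
theorem xind_spread {Φ : ℝ → ℝ} (hc : ConcaveOn ℝ (Icc 0 1) Φ) {x y x' y' : ℝ}
    (h0 : 0 ≤ y') (h1 : x' ≤ 1) (hy : y' ≤ y) (hx : y' ≤ x) (hs : x + y = x' + y') :
    Φ x' + Φ y' ≤ Φ x + Φ y := by
  have hxx : x ≤ x' := by linarith
  have hyx : y ≤ x' := by linarith
  rcases eq_or_lt_of_le (hx.trans hxx) with h | h
  · have e1 : x = x' := le_antisymm hxx (by linarith)
    have e2 : y = y' := by linarith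
    rw [e1, e2]
  · have hd : 0 < x' - y' := sub_pos.2 h
    have mx : x' ∈ Icc (0:ℝ) 1 := ⟨by linarith, h1⟩
    have my : y' ∈ Icc (0:ℝ) 1 := ⟨h0, by linarith⟩
    set t := (x - y') / (x' - y') with ht
    have t0 : 0 ≤ t := div_nonneg (by linarith) hd.le
    have t1 : 0 ≤ 1 - t := by
      have : t ≤ 1 := (div_le_one hd).2 (by linarith)
      linarith
    have et : t * (x' - y') = x - y' := div_mul_cancel₀ _ hd.ne'
    have a1 := hc.2 mx my t0 t1 (by ring)
    have a2 := hc.2 mx my t1 t0 (by ring)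
    simp only [smul_eq_mul] at a1 a2
    have e1 : t * x' + (1 - t) * y' = x := by linarith
    have e2 : (1 - t) * x' + t * y' = y := by linarith
    rw [e1] at a1
    rw [e2] at a2
    linarith

/-- Induction with the step in averaged form; `al = (1+ρ)/2`. -/
theorem xind_avg {ι : Type} {ρ : ℝ} (hρ0 : 0 ≤ ρ) (hρ1 : ρ ≤ 1) (Φ b : ι → ℝ → ℝ)
    (hc : ∀ j, ConcaveOn ℝ (Icc 0 1) (Φ j)) (h0 : ∀ j, b j 0 ≤ Φ j 0) (h1 : ∀ j, b j 1 ≤ Φ j 1)
    (step : ∀ (n : ℕ) (P Q : (Fin n → Bool) → ℝ), (∀ x, 0 ≤ P x) → (∀ x, P x ≤ Q x) → (∀ x, Q x ≤ 1) →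
      (∀ i, b i (cubeAverage P) ≤ cubeAverage fun x => Φ i (P x)) →
      (∀ i, b i (cubeAverage Q) ≤ cubeAverage fun x => Φ i (Q x)) →
      ∀ j, 2 * b j ((cubeAverage P + cubeAverage Q) / 2) ≤
        cubeAverage fun x => Φ j ((1 + ρ) / 2 * Q x + (1 - ρ) / 2 * P x) + Φ j ((1 + ρ) / 2 * P x + (1 - ρ) / 2 * Q x)) :
    ∀ (n : ℕ) (u : (Fin n → Bool) → ℝ), (∀ y, u y = 0 ∨ u y = 1) →
      ∀ j, b j (cubeAverage u) ≤ cubeAverage fun x => Φ j (noise ρ u x) := by
  have hρ : |ρ| ≤ 1 := abs_le.2 ⟨by linarith, hρ1⟩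
  intro n
  induction n with
  | zero =>
    intro u hu j
    rw [avg_zero_dim, avg_zero_dim, noise_zero_dim]
    rcases hu default with h | h <;> rw [h]
    · exact h0 j
    · exact h1 j
  | succ n ih =>
    intro u hu j
    set u0 := sl u false with hu0
    set u1 := sl u true with hu1
    have b0 : ∀ y, u0 y = 0 ∨ u0 y = 1 := fun y => hu _
    have b1 : ∀ y, u1 y = 0 ∨ u1 y = 1 := fun y => hu _
    let v : (Fin n → Bool) → ℝ := fun y => min (u0 y) (u1 y)
    let w : (Fin n → Bool) → ℝ := fun y => max (u0 y) (u1 y)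
    have bv : ∀ y, v y = 0 ∨ v y = 1 := fun y => by
      rcases b0 y with a | a <;> rcases b1 y with c | c <;> simp [v, a, c]
    have bw : ∀ y, w y = 0 ∨ w y = 1 := fun y => by
      rcases b0 y with a | a <;> rcases b1 y with c | c <;> simp [w, a, c]
    have hsum : ∀ y, v y + w y = u0 y + u1 y := fun y => min_add_max _ _
    have hP0 : ∀ x, 0 ≤ noise ρ v x := fun x => by
      have := noise_mono hρ (u := fun _ => 0) (v := v) (fun y => by rcases bv y with a | a <;> simp [a]) x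
      rwa [noise_const] at this
    have hQ1 : ∀ x, noise ρ w x ≤ 1 := fun x => by
      have := noise_mono hρ (v := fun _ => 1) (u := w) (fun y => by rcases bw y with a | a <;> simp [a]) x
      rwa [noise_const] at this
    have hv0 : ∀ x, noise ρ v x ≤ noise ρ u0 x := noise_mono hρ fun y => min_le_left _ _
    have hv1 : ∀ x, noise ρ v x ≤ noise ρ u1 x := noise_mono hρ fun y => min_le_right _ _
    have hns : ∀ x, noise ρ v x + noise ρ w x = noise ρ u0 x + noise ρ u1 x := fun x => by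
      rw [← noise_add, ← noise_add]
      simp only [hsum]
    have hPQ : ∀ x, noise ρ v x ≤ noise ρ w x := fun x => by linarith [hv0 x, hv1 x, hns x]
    have hav : cubeAverage v + cubeAverage w = cubeAverage u0 + cubeAverage u1 := by
      rw [← avg_add, ← avg_add]
      simp only [hsum]
    have key := step n (noise ρ v) (noise ρ w) hP0 hPQ hQ1
      (fun i => by rw [avg_noise]; exact ih v bv i) (fun i => by rw [avg_noise]; exact ih w bw i) j
    rw [avg_noise, avg_noise, hav] at key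
    rw [avg_succ u, avg_succ (fun x => Φ j (noise ρ u x)), ← avg_add (sl (fun x => Φ j (noise ρ u x)) false),
      ← hu0, ← hu1, le_div_iff₀ (by norm_num), mul_comm]
    refine key.trans (avg_mono fun x => ?_)
    have e0 : sl (fun x => Φ j (noise ρ u x)) false x =
        Φ j ((1 + ρ) / 2 * noise ρ u0 x + (1 - ρ) / 2 * noise ρ u1 x) := by
      have := noise_sl ρ u false x
      simp only [sl] at this ⊢
      rw [this]
      simp [spin, hu0, hu1]
      rfl
    have e1 : sl (fun x => Φ j (noise ρ u x)) true x =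
        Φ j ((1 - ρ) / 2 * noise ρ u0 x + (1 + ρ) / 2 * noise ρ u1 x) := by
      have := noise_sl ρ u true x
      simp only [sl] at this ⊢
      rw [this]
      simp [spin, hu0, hu1]
    rw [e0, e1]
    have p0 := hP0 x
    have q1 := hQ1 x
    have a0 := hv0 x
    have a1 := hv1 x
    have a2 := hns x
    have a3 := hPQ x
    set P := noise ρ v x
    set Q := noise ρ w x
    set X := noise ρ u0 x
    set Y := noise ρ u1 x
    have hQ : Q = X + Y - P := by linarith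
    refine xind_spread (hc j) ?_ ?_ ?_ ?_ ?_
    · nlinarith
    · nlinarith
    · rw [hQ]; nlinarith [mul_nonneg hρ0 (sub_nonneg.2 a1)]
    · rw [hQ]; nlinarith [mul_nonneg hρ0 (sub_nonneg.2 a0)]
    · rw [hQ]; ring

theorem xind_avg_sum {ι : Type} [Fintype ι] {n : ℕ} (k : ι → ℝ) (F : ι → (Fin n → Bool) → ℝ) :
    cubeAverage (fun x => ∑ i, k i * F i x) = ∑ i, k i * cubeAverage (F i) := by
  unfold cubeAverage
  rw [Finset.sum_comm, Finset.sum_div]
  refine Finset.sum_congr rfl fun i _ => ?_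
  rw [← Finset.mul_sum, mul_div_assoc]

/-- Induction with the step given by multipliers. -/
theorem xind_mul {ι : Type} [Fintype ι] {ρ : ℝ} (hρ0 : 0 ≤ ρ) (hρ1 : ρ ≤ 1) (Φ b : ι → ℝ → ℝ)
    (hc : ∀ j, ConcaveOn ℝ (Icc 0 1) (Φ j)) (h0 : ∀ j, b j 0 ≤ Φ j 0) (h1 : ∀ j, b j 1 ≤ Φ j 1)
    (step : ∀ j (a0 a1 : ℝ), 0 ≤ a0 → a0 ≤ a1 → a1 ≤ 1 → ∃ (k0 k1 : ι → ℝ) (l0 l1 c : ℝ),
      (∀ i, 0 ≤ k0 i) ∧ (∀ i, 0 ≤ k1 i) ∧
      (∀ p0 p1 : ℝ, 0 ≤ p0 → p0 ≤ p1 → p1 ≤ 1 →
        ∑ i, k0 i * Φ i p0 + ∑ i, k1 i * Φ i p1 + l0 * p0 + l1 * p1 + c ≤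
          Φ j ((1 + ρ) / 2 * p1 + (1 - ρ) / 2 * p0) + Φ j ((1 + ρ) / 2 * p0 + (1 - ρ) / 2 * p1)) ∧
      2 * b j ((a0 + a1) / 2) ≤ ∑ i, k0 i * b i a0 + ∑ i, k1 i * b i a1 + l0 * a0 + l1 * a1 + c) :
    ∀ (n : ℕ) (u : (Fin n → Bool) → ℝ), (∀ y, u y = 0 ∨ u y = 1) →
      ∀ j, b j (cubeAverage u) ≤ cubeAverage fun x => Φ j (noise ρ u x) := by
  refine xind_avg hρ0 hρ1 Φ b hc h0 h1 fun n P Q hP hPQ hQ iP iQ j => ?_
  obtain ⟨k0, k1, l0, l1, c, hk0, hk1, hpt, hb⟩ := step j (cubeAverage P) (cubeAverage Q) (le_avg hP)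
    (avg_mono hPQ) (avg_le hQ)
  refine hb.trans (le_trans ?_ (avg_mono fun x => hpt (P x) (Q x) (hP x) (hPQ x) (hQ x)))
  rw [avg_add, avg_add, avg_add, avg_add, avg_const, avg_mul, avg_mul, xind_avg_sum k0 fun i x => Φ i (P x),
    xind_avg_sum k1 fun i x => Φ i (Q x)]
  have s0 : ∑ i, k0 i * b i (cubeAverage P) ≤ ∑ i, k0 i * cubeAverage fun x => Φ i (P x) :=
    Finset.sum_le_sum fun i _ => mul_le_mul_of_nonneg_left (iP i) (hk0 i)
  have s1 : ∑ i, k1 i * b i (cubeAverage Q) ≤ ∑ i, k1 i * cubeAverage fun x => Φ i (Q x) :=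
    Finset.sum_le_sum fun i _ => mul_le_mul_of_nonneg_left (iQ i) (hk1 i)
  change _ ≤ _ + _ + l0 * cubeAverage P + l1 * cubeAverage Q + c
  linarith

/-- The core inequality for `0/1`-valued `u`, `p = T u`, `a = E u`, at one noise level. -/
def XCore (ρ : ℝ) : Prop :=
  ∀ (n : ℕ) (u : (Fin n → Bool) → ℝ), (∀ y, u y = 0 ∨ u y = 1) →
    √(1 - ρ ^ 2) - 1 + 2 * √(cubeAverage u * (1 - cubeAverage u)) ≤
      cubeAverage fun x => 2 * √(noise ρ u x * (1 - noise ρ u x))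

theorem xind_sqrt (p : ℝ) : √(1 - (2 * p + -1) ^ 2) = 2 * √(p * (1 - p)) := by
  rw [show 1 - (2 * p + -1) ^ 2 = 2 ^ 2 * (p * (1 - p)) by ring, Real.sqrt_mul (by norm_num), Real.sqrt_sq (by norm_num)]

theorem hell_of_core {ρ : ℝ} (h : XCore ρ) (n : ℕ) (f : (Fin n → Bool) → Bool) :
    √(1 - (cubeAverage (fun x => spin (f x))) ^ 2)
        - cubeAverage (fun x => √(1 - (noise ρ (fun y => spin (f y)) x) ^ 2)) ≤ 1 - √(1 - ρ ^ 2) := by
  let u : (Fin n → Bool) → ℝ := fun y => if f y then 1 else 0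
  have hu : ∀ y, u y = 0 ∨ u y = 1 := fun y => by by_cases a : f y <;> simp [u, a]
  have e : (fun y => spin (f y)) = fun y => 2 * u y + -1 := by
    funext y
    by_cases a : f y <;> simp [u, a, spin]
    norm_num
  have := h n u hu
  rw [e, avg_add, avg_mul, avg_const, xind_sqrt]
  simp only [noise_affine, xind_sqrt]
  linarith

/-- The statement S0471 from the core inequality for `0 ≤ ρ ≤ 1`. -/
theorem hell_of (h : ∀ ρ : ℝ, 0 ≤ ρ → ρ ≤ 1 → XCore ρ) (n : ℕ) (f : (Fin n → Bool) → Bool) (ρ : ℝ) (hρ : |ρ| ≤ 1) :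
    √(1 - (cubeAverage (fun x => spin (f x))) ^ 2)
        - cubeAverage (fun x => √(1 - (noise ρ (fun y => spin (f y)) x) ^ 2)) ≤ 1 - √(1 - ρ ^ 2) := by
  rcases le_total 0 ρ with h0 | h0
  · exact hell_of_core (h ρ h0 (abs_le.1 hρ).2) n f
  · have := hell_of_core (h (-ρ) (by linarith) (by linarith [(abs_le.1 hρ).1])) n f
    simp only [noise_neg, neg_sq] at this
    rwa [avg_not fun x => √(1 - noise ρ (fun y => spin (f y)) x ^ 2)] at this

end Crest.Agent.R307
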