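import Crest.Agent.R307.HNq
import Crest.Agent.R307.HNs
import Crest.Agent.R307.HNu
import Crest.Agent.R307.XInd

/-!
# R307/HNz: the Hellinger inequality at high noise
-/

set_option autoImplicit false

namespace Crest.Agent.R307

open Crest.CubeNoise

variable {n : ℕ}

/-- Composition with a permutation of the coordinates. -/
def hnzE (σ : Equiv.Perm (Fin n)) : (Fin n → Bool) ≃ (Fin n → Bool) where
  toFun x := x ∘ σ
  invFun x := x ∘ σ.symm
  left_inv x := by funext i; simp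
  right_inv x := by funext i; simp

theorem hnz_avg (σ : Equiv.Perm (Fin n)) (g : (Fin n → Bool) → ℝ) :
    cubeAverage (fun x => g (x ∘ σ)) = cubeAverage g := by
  unfold cubeAverage
  congr 1
  exact Equiv.sum_comp (hnzE σ) g

theorem hnz_noise (ρ : ℝ) (σ : Equiv.Perm (Fin n)) (f : (Fin n → Bool) → ℝ) (x : Fin n → Bool) :
    noise ρ (fun y => f (y ∘ σ)) x = noise ρ f (x ∘ σ) := by
  rw [noise_eq, noise_eq, ← Equiv.sum_comp (hnzE σ) fun y => wt ρ (x ∘ σ) y * f y]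
  refine Finset.sum_congr rfl fun y _ => ?_
  congr 1
  exact (Equiv.prod_comp σ fun i => (1 + ρ * spin (x i) * spin (y i)) / 2).symm

/-- Exchange of coordinates. -/
theorem HN_swap {ρ : ℝ} (σ : Equiv.Perm (Fin n)) {f : (Fin n → Bool) → ℝ} (h : HN ρ fun x => f (x ∘ σ)) : HN ρ f := by
  unfold HN at h ⊢
  simp only [hnz_noise] at h
  rwa [hnz_avg σ f, hnz_avg σ fun x => √(1 - noise ρ f x ^ 2)] at h

theorem co_swap (σ : Equiv.Perm (Fin n)) (f : (Fin n → Bool) → ℝ) (i : Fin n) :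
    co (fun x => f (x ∘ σ)) (σ i) = co f i := by
  exact hnz_avg σ fun y => f y * spin (y i)

theorem hnz_neg {f : (Fin n → Bool) → ℝ} (hf : ∀ x, f x = 1 ∨ f x = -1) (x : Fin n → Bool) :
    -f x = 1 ∨ -f x = -1 := by
  rcases hf x with a | a <;> rw [a] <;> simp

theorem hnz_small {ρ : ℝ} (h0 : 0 ≤ ρ) (h1 : ρ ≤ 3 / 10) {f : (Fin n → Bool) → ℝ} (hf : ∀ x, f x = 1 ∨ f x = -1)
    (hm : 0 ≤ cubeAverage f) (hW : W1 f ≤ 4 / 5) : HN ρ f := by
  rcases le_total (cubeAverage f) (77 / 100) with h | h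
  · exact hn_II h0 h1 hf hm h hW
  · exact hn_III h0 h1 hf h

theorem hn_small {ρ : ℝ} (h0 : 0 ≤ ρ) (h1 : ρ ≤ 3 / 10) {f : (Fin n → Bool) → ℝ} (hf : ∀ x, f x = 1 ∨ f x = -1)
    (hW : W1 f ≤ 4 / 5) : HN ρ f := by
  rcases le_total 0 (cubeAverage f) with h | h
  · exact hnz_small h0 h1 hf h hW
  · refine HN_neg (hnz_small h0 h1 (hnz_neg hf) ?_ ?_)
    · rw [avg_neg]; linarith
    · rwa [W1_neg]

theorem hn_all {ρ : ℝ} (h0 : 0 ≤ ρ) (h1 : ρ ≤ 3 / 10) (n : ℕ) (f : (Fin n → Bool) → ℝ) (hf : ∀ x, f x = 1 ∨ f x = -1) :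
    HN ρ f := by
  cases n with
  | zero => exact hn_small h0 h1 hf (by simp [W1]; norm_num)
  | succ n =>
    obtain ⟨i, -, hi⟩ := Finset.exists_max_image Finset.univ (fun i => |co f i|) Finset.univ_nonempty
    refine HN_swap (Equiv.swap 0 i) ?_
    have hf' : ∀ x : Fin (n + 1) → Bool, f (x ∘ Equiv.swap 0 i) = 1 ∨ f (x ∘ Equiv.swap 0 i) = -1 := fun x => hf _
    have e0 : co (fun x => f (x ∘ Equiv.swap 0 i)) 0 = co f i := by
      have := co_swap (Equiv.swap 0 i) f i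
      rwa [Equiv.swap_apply_right] at this
    have hmax : ∀ j, |co (fun x => f (x ∘ Equiv.swap 0 i)) j| ≤ |co (fun x => f (x ∘ Equiv.swap 0 i)) 0| := fun j => by
      have := co_swap (Equiv.swap 0 i) f (Equiv.swap 0 i j)
      rw [Equiv.swap_apply_self] at this
      rw [this, e0]
      exact hi _ (Finset.mem_univ _)
    rcases le_total |co (fun x => f (x ∘ Equiv.swap 0 i)) 0| (81 / 100) with h | h
    · exact hn_small h0 h1 hf' (W1_case hf' hmax h)
    · rcases le_abs.1 h with h | h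
      · exact hn_I h0 h1 hf' h
      · refine HN_neg (hn_I h0 h1 (hnz_neg hf') ?_)
        rwa [co_neg]

theorem hn_core {ρ : ℝ} (h0 : 0 ≤ ρ) (h1 : ρ ≤ 3 / 10) : XCore ρ := by
  intro n u hu
  have h := hn_all h0 h1 n (fun y => 2 * u y + -1) fun y => by
    rcases hu y with a | a <;> rw [a] <;> norm_num
  unfold HN at h
  rw [avg_add, avg_mul, avg_const, xind_sqrt] at h
  simp only [noise_affine, xind_sqrt] at h
  linarith

end Crest.Agent.R307
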