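import Crest.Agent.R307.XInd

/-!
# R307/HP: the pair scheme (one potential `U`, hypotheses `A E U(p) + B E U(1-p) ≥ H a A B` for all `A, B ≥ 0`)
-/

set_option autoImplicit false

namespace Crest.Agent.R307

open Crest.CubeNoise Set

/-- Pointwise step for the potential `U` with multipliers `K0, K1 ≥ 0` and `l`. -/
def UStep (ρ : ℝ) (U : ℝ → ℝ) (K0 K1 l : ℝ) : Prop :=
  0 ≤ K0 ∧ 0 ≤ K1 ∧ ∀ p0 p1 : ℝ, 0 ≤ p0 → p0 ≤ p1 → p1 ≤ 1 →
    K0 * U p0 + K1 * U p1 + l * (p1 - p0) ≤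
      U ((1 + ρ) / 2 * p1 + (1 - ρ) / 2 * p0) + U ((1 + ρ) / 2 * p0 + (1 - ρ) / 2 * p1)

theorem hp_conc {U : ℝ → ℝ} (hc : ConcaveOn ℝ (Icc 0 1) U) {A B : ℝ} (hA : 0 ≤ A) (hB : 0 ≤ B) :
    ConcaveOn ℝ (Icc 0 1) (fun p => A * U p + B * U (1 - p)) := by
  refine ⟨convex_Icc 0 1, fun x hx y hy a b ha hb hab => ?_⟩
  have h1 := hc.2 hx hy ha hb hab
  have h2 := hc.2 (x := 1 - x) (y := 1 - y) ⟨by linarith [hx.2], by linarith [hx.1]⟩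
    ⟨by linarith [hy.2], by linarith [hy.1]⟩ ha hb hab
  simp only [smul_eq_mul] at h1 h2 ⊢
  have e : a * (1 - x) + b * (1 - y) = 1 - (a * x + b * y) := by linear_combination hab
  rw [e] at h2
  nlinarith [mul_le_mul_of_nonneg_left h1 hA, mul_le_mul_of_nonneg_left h2 hB]

/-- The Bellman step of the pair scheme. -/
def PairStep (ρ : ℝ) (U : ℝ → ℝ) (H : ℝ → ℝ → ℝ → ℝ) : Prop :=
  ∀ a0 a1 A B : ℝ, 0 ≤ a0 → a0 ≤ a1 → a1 ≤ 1 → 0 ≤ A → 0 ≤ B →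
    ∃ K0 K1 l M0 M1 m : ℝ, UStep ρ U K0 K1 l ∧ UStep ρ U M0 M1 m ∧
      2 * H ((a0 + a1) / 2) A B ≤ H a0 (A * K0) (B * M1) + H a1 (A * K1) (B * M0) + (a1 - a0) * (A * l + B * m)

theorem pair_ind {ρ : ℝ} (hρ0 : 0 ≤ ρ) (hρ1 : ρ ≤ 1) {U : ℝ → ℝ} {H : ℝ → ℝ → ℝ → ℝ}
    (hc : ConcaveOn ℝ (Icc 0 1) U)
    (h0 : ∀ A B : ℝ, 0 ≤ A → 0 ≤ B → H 0 A B ≤ A * U 0 + B * U 1)
    (h1 : ∀ A B : ℝ, 0 ≤ A → 0 ≤ B → H 1 A B ≤ A * U 1 + B * U 0)
    (step : PairStep ρ U H) (n : ℕ) (u : (Fin n → Bool) → ℝ) (hu : ∀ y, u y = 0 ∨ u y = 1)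
    (A B : ℝ) (hA : 0 ≤ A) (hB : 0 ≤ B) :
    H (cubeAverage u) A B ≤ cubeAverage fun x => A * U (noise ρ u x) + B * U (1 - noise ρ u x) := by
  have key := xind_avg (ι := {z : ℝ × ℝ // 0 ≤ z.1 ∧ 0 ≤ z.2}) hρ0 hρ1
    (fun j p => j.1.1 * U p + j.1.2 * U (1 - p)) (fun j a => H a j.1.1 j.1.2)
    (fun j => hp_conc hc j.2.1 j.2.2)
    (fun j => by simpa using h0 _ _ j.2.1 j.2.2) (fun j => by simpa using h1 _ _ j.2.1 j.2.2)
    (fun n P Q hP hPQ hQ iP iQ j => ?_) n u hu ⟨(A, B), hA, hB⟩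
  · exact key
  obtain ⟨⟨A, B⟩, hA, hB⟩ := j
  obtain ⟨K0, K1, l, M0, M1, m, ⟨k0, k1, hK⟩, ⟨m0, m1, hM⟩, hb⟩ :=
    step (cubeAverage P) (cubeAverage Q) A B (le_avg hP) (avg_mono hPQ) (avg_le hQ) hA hB
  have e0 := iP ⟨(A * K0, B * M1), mul_nonneg hA k0, mul_nonneg hB m1⟩
  have e1 := iQ ⟨(A * K1, B * M0), mul_nonneg hA k1, mul_nonneg hB m0⟩
  simp only at e0 e1 hA hB ⊢
  refine hb.trans (le_trans ?_ (avg_mono (f := fun x => (A * K0 * U (P x) + B * M1 * U (1 - P x)) +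
      ((A * K1 * U (Q x) + B * M0 * U (1 - Q x)) + (A * l + B * m) * (Q x - P x))) fun x => ?_))
  · rw [avg_add (fun x => A * K0 * U (P x) + B * M1 * U (1 - P x)),
      avg_add (fun x => A * K1 * U (Q x) + B * M0 * U (1 - Q x)), avg_mul, avg_sub]
    linarith
  · have a := mul_le_mul_of_nonneg_left (hK (P x) (Q x) (hP x) (hPQ x) (hQ x)) hA
    have b := mul_le_mul_of_nonneg_left (hM (1 - Q x) (1 - P x) (by linarith [hQ x]) (by linarith [hPQ x])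
      (by linarith [hP x])) hB
    have f1 : (1 + ρ) / 2 * (1 - P x) + (1 - ρ) / 2 * (1 - Q x) = 1 - ((1 + ρ) / 2 * P x + (1 - ρ) / 2 * Q x) := by ring
    have f2 : (1 + ρ) / 2 * (1 - Q x) + (1 - ρ) / 2 * (1 - P x) = 1 - ((1 + ρ) / 2 * Q x + (1 - ρ) / 2 * P x) := by ring
    rw [f1, f2] at b
    linarith

/-- The core inequality from the pair scheme. -/
theorem xcore_of_pair {ρ : ℝ} (hρ0 : 0 ≤ ρ) (hρ1 : ρ ≤ 1) {U : ℝ → ℝ} {H : ℝ → ℝ → ℝ → ℝ}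
    (hc : ConcaveOn ℝ (Icc 0 1) U)
    (h0 : ∀ A B : ℝ, 0 ≤ A → 0 ≤ B → H 0 A B ≤ A * U 0 + B * U 1)
    (h1 : ∀ A B : ℝ, 0 ≤ A → 0 ≤ B → H 1 A B ≤ A * U 1 + B * U 0)
    (step : PairStep ρ U H)
    (hs : ∀ p : ℝ, 0 ≤ p → p ≤ 1 → U p + U (1 - p) ≤ 2 * √(p * (1 - p)))
    (fin : ∀ a : ℝ, 0 ≤ a → a ≤ 1 → √(1 - ρ ^ 2) - 1 + 2 * √(a * (1 - a)) ≤ H a 1 1) : XCore ρ := by
  intro n u hu
  have hρ : |ρ| ≤ 1 := abs_le.2 ⟨by linarith, hρ1⟩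
  have u0 : ∀ y, 0 ≤ u y := fun y => by rcases hu y with a | a <;> simp [a]
  have u1 : ∀ y, u y ≤ 1 := fun y => by rcases hu y with a | a <;> simp [a]
  refine (fin _ (le_avg u0) (avg_le u1)).trans ((pair_ind hρ0 hρ1 hc h0 h1 step n u hu 1 1 zero_le_one
    zero_le_one).trans (avg_mono fun x => ?_))
  have p0 : 0 ≤ noise ρ u x := by
    have := noise_mono hρ (u := fun _ => 0) (v := u) u0 x
    rwa [noise_const] at this
  have p1 : noise ρ u x ≤ 1 := by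
    have := noise_mono hρ (v := fun _ => 1) (u := u) u1 x
    rwa [noise_const] at this
  have := hs _ p0 p1
  linarith

/-- The hyperbola support function `A u(a) + B u(1-a) + 2 √(AB) v(a)`. -/
noncomputable def HH (u v : ℝ → ℝ) (a A B : ℝ) : ℝ := A * u a + B * u (1 - a) + 2 * √(A * B) * v a

theorem HH_sq (u v : ℝ → ℝ) (a : ℝ) {x y : ℝ} (hx : 0 ≤ x) (hy : 0 ≤ y) :
    HH u v a (x ^ 2) (y ^ 2) = x ^ 2 * u a + y ^ 2 * u (1 - a) + 2 * (x * y) * v a := by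
  unfold HH
  rw [← mul_pow, Real.sqrt_sq (mul_nonneg hx hy)]

theorem HH_smul (u v : ℝ → ℝ) (a : ℝ) {c : ℝ} (hc : 0 ≤ c) (A B : ℝ) :
    HH u v a (c * A) (c * B) = c * HH u v a A B := by
  unfold HH
  rw [show c * A * (c * B) = c ^ 2 * (A * B) by ring, Real.sqrt_mul (sq_nonneg c), Real.sqrt_sq hc]
  ring

/-- The inequality of one Bellman step (for given `a0 a1 A B`). -/
def PairAt (ρ : ℝ) (U : ℝ → ℝ) (H : ℝ → ℝ → ℝ → ℝ) (a0 a1 A B : ℝ) : Prop :=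
  ∃ K0 K1 l M0 M1 m : ℝ, UStep ρ U K0 K1 l ∧ UStep ρ U M0 M1 m ∧
    2 * H ((a0 + a1) / 2) A B ≤ H a0 (A * K0) (B * M1) + H a1 (A * K1) (B * M0) + (a1 - a0) * (A * l + B * m)

/-- Homogeneity. -/
theorem PairAt.smul {ρ : ℝ} {U : ℝ → ℝ} {H : ℝ → ℝ → ℝ → ℝ}
    (hH : ∀ a c A B : ℝ, 0 ≤ c → H a (c * A) (c * B) = c * H a A B) {a0 a1 A B c : ℝ} (hc : 0 ≤ c)
    (h : PairAt ρ U H a0 a1 A B) : PairAt ρ U H a0 a1 (c * A) (c * B) := by
  obtain ⟨K0, K1, l, M0, M1, m, hK, hM, hb⟩ := h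
  refine ⟨K0, K1, l, M0, M1, m, hK, hM, ?_⟩
  rw [mul_assoc c A, mul_assoc c B, mul_assoc c A, mul_assoc c B, hH _ _ _ _ hc, hH _ _ _ _ hc, hH _ _ _ _ hc]
  nlinarith [mul_le_mul_of_nonneg_left hb hc]

/-- Symmetry `a ↦ 1 - a`. -/
theorem PairAt.symm {ρ : ℝ} {U : ℝ → ℝ} {H : ℝ → ℝ → ℝ → ℝ}
    (hH : ∀ a A B : ℝ, H (1 - a) B A = H a A B) {a0 a1 A B : ℝ}
    (h : PairAt ρ U H (1 - a1) (1 - a0) B A) : PairAt ρ U H a0 a1 A B := by
  obtain ⟨K0, K1, l, M0, M1, m, hK, hM, hb⟩ := h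
  refine ⟨M0, M1, m, K0, K1, l, hM, hK, ?_⟩
  rw [show (1 - a1 + (1 - a0)) / 2 = 1 - (a0 + a1) / 2 by ring, hH, hH, hH] at hb
  linarith

/-- It is enough to treat `(A, B) = (x², y²)` with `x + y = 1`. -/
theorem pairStep_of_sum {ρ : ℝ} {U : ℝ → ℝ} {H : ℝ → ℝ → ℝ → ℝ}
    (hH : ∀ a c A B : ℝ, 0 ≤ c → H a (c * A) (c * B) = c * H a A B)
    (h : ∀ a0 a1 x : ℝ, 0 ≤ a0 → a0 ≤ a1 → a1 ≤ 1 → 0 ≤ x → x ≤ 1 → PairAt ρ U H a0 a1 (x ^ 2) ((1 - x) ^ 2)) :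
    PairStep ρ U H := by
  intro a0 a1 A B h0 h01 h1 hA hB
  change PairAt ρ U H a0 a1 A B
  have sa := Real.sqrt_nonneg A
  have sb := Real.sqrt_nonneg B
  rcases eq_or_lt_of_le (add_nonneg sa sb) with e | e
  · have eA : A = 0 := by
      have : √A = 0 := by linarith
      rwa [Real.sqrt_eq_zero hA] at this
    have eB : B = 0 := by
      have : √B = 0 := by linarith
      rwa [Real.sqrt_eq_zero hB] at this
    have := (h a0 a1 0 h0 h01 h1 le_rfl zero_le_one).smul hH (c := 0) le_rfl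
    simpa [eA, eB] using this
  · have := (h a0 a1 (√A / (√A + √B)) h0 h01 h1 (by positivity) ((div_le_one e).2 (by linarith))).smul hH
      (c := (√A + √B) ^ 2) (sq_nonneg _)
    have e1 : (√A + √B) ^ 2 * (√A / (√A + √B)) ^ 2 = A := by
      rw [← mul_pow, mul_div_cancel₀ _ e.ne', Real.sq_sqrt hA]
    have e2 : (√A + √B) ^ 2 * (1 - √A / (√A + √B)) ^ 2 = B := by
      rw [← mul_pow, show (√A + √B) * (1 - √A / (√A + √B)) = √B by field_simp; ring, Real.sq_sqrt hB]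
    rwa [e1, e2] at this

/-- With the symmetry it is enough to treat `(A, B) = (1, y²)`, `0 ≤ y ≤ 1`. -/
theorem pairStep_of_le {ρ : ℝ} {U : ℝ → ℝ} {H : ℝ → ℝ → ℝ → ℝ}
    (hH : ∀ a c A B : ℝ, 0 ≤ c → H a (c * A) (c * B) = c * H a A B)
    (hS : ∀ a A B : ℝ, H (1 - a) B A = H a A B)
    (h : ∀ a0 a1 y : ℝ, 0 ≤ a0 → a0 ≤ a1 → a1 ≤ 1 → 0 ≤ y → y ≤ 1 → PairAt ρ U H a0 a1 1 (y ^ 2)) :
    PairStep ρ U H := by
  have k : ∀ a0 a1 A B : ℝ, 0 ≤ a0 → a0 ≤ a1 → a1 ≤ 1 → 0 ≤ B → B ≤ A → PairAt ρ U H a0 a1 A B := by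
    intro a0 a1 A B h0 h01 h1 hB hBA
    rcases eq_or_lt_of_le (hB.trans hBA) with e | e
    · have eB : B = 0 := by linarith
      have := (h a0 a1 0 h0 h01 h1 le_rfl zero_le_one).smul hH (c := 0) le_rfl
      simpa [← e, eB] using this
    · have := (h a0 a1 √(B / A) h0 h01 h1 (Real.sqrt_nonneg _)
        (Real.sqrt_le_one.2 ((div_le_one e).2 hBA))).smul hH (c := A) e.le
      rwa [mul_one, Real.sq_sqrt (div_nonneg hB e.le), mul_div_cancel₀ _ e.ne'] at this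
  intro a0 a1 A B h0 h01 h1 hA hB
  change PairAt ρ U H a0 a1 A B
  rcases le_total B A with e | e
  · exact k a0 a1 A B h0 h01 h1 hB e
  · exact (k (1 - a1) (1 - a0) B A (by linarith) (by linarith) (by linarith) hA e).symm hS

/-- With the symmetry it is enough to treat `a0 + a1 ≤ 1`, `(A, B) = (x², (1-x)²)`. -/
theorem pairStep_of_half {ρ : ℝ} {U : ℝ → ℝ} {H : ℝ → ℝ → ℝ → ℝ}
    (hH : ∀ a c A B : ℝ, 0 ≤ c → H a (c * A) (c * B) = c * H a A B)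
    (hS : ∀ a A B : ℝ, H (1 - a) B A = H a A B)
    (h : ∀ a0 a1 x : ℝ, 0 ≤ a0 → a0 ≤ a1 → a0 + a1 ≤ 1 → 0 ≤ x → x ≤ 1 →
      PairAt ρ U H a0 a1 (x ^ 2) ((1 - x) ^ 2)) : PairStep ρ U H := by
  refine pairStep_of_sum hH fun a0 a1 x h0 h01 h1 x0 x1 => ?_
  rcases le_total (a0 + a1) 1 with e | e
  · exact h a0 a1 x h0 h01 e x0 x1
  · have := h (1 - a1) (1 - a0) (1 - x) (by linarith) (by linarith) (by linarith) (by linarith) (by linarith)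
    rw [sub_sub_cancel] at this
    exact this.symm hS

theorem HH_symm (u : ℝ → ℝ) {v : ℝ → ℝ} (hv : ∀ a, v (1 - a) = v a) (a A B : ℝ) :
    HH u v (1 - a) B A = HH u v a A B := by
  unfold HH
  rw [sub_sub_cancel, hv, mul_comm B A]
  ring

/-- Multipliers may be lowered when `U ≥ 0`. -/
theorem UStep.mono {ρ : ℝ} {U : ℝ → ℝ} (hU : ∀ p, 0 ≤ p → p ≤ 1 → 0 ≤ U p) {K0 K1 l K0' K1' l' : ℝ}
    (h : UStep ρ U K0 K1 l) (h0 : 0 ≤ K0') (h1 : 0 ≤ K1') (e0 : K0' ≤ K0) (e1 : K1' ≤ K1) (el : l' ≤ l) :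
    UStep ρ U K0' K1' l' := by
  refine ⟨h0, h1, fun p0 p1 a b c => le_trans ?_ (h.2.2 p0 p1 a b c)⟩
  have := mul_le_mul_of_nonneg_right e0 (hU p0 a (b.trans c))
  have := mul_le_mul_of_nonneg_right e1 (hU p1 (a.trans b) c)
  have := mul_le_mul_of_nonneg_right el (sub_nonneg.2 b)
  linarith

/-- Convex combinations of steps. -/
theorem UStep.mix {ρ : ℝ} {U : ℝ → ℝ} {K0 K1 l K0' K1' l' t : ℝ} (h : UStep ρ U K0 K1 l)
    (h' : UStep ρ U K0' K1' l') (t0 : 0 ≤ t) (t1 : t ≤ 1) :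
    UStep ρ U ((1 - t) * K0 + t * K0') ((1 - t) * K1 + t * K1') ((1 - t) * l + t * l') := by
  have t2 : 0 ≤ 1 - t := by linarith
  refine ⟨add_nonneg (mul_nonneg t2 h.1) (mul_nonneg t0 h'.1), add_nonneg (mul_nonneg t2 h.2.1) (mul_nonneg t0 h'.2.1),
    fun p0 p1 a b c => ?_⟩
  have := mul_le_mul_of_nonneg_left (h.2.2 p0 p1 a b c) t2
  have := mul_le_mul_of_nonneg_left (h'.2.2 p0 p1 a b c) t0
  linarith

/-- The exact split potential. -/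
noncomputable def Uex (p : ℝ) : ℝ := √p * √(1 - p) + √(1 - p) - √p + 2 * p - 1

theorem Uex_zero : Uex 0 = 0 := by simp [Uex]

theorem Uex_one : Uex 1 = 0 := by simp [Uex]; norm_num

theorem Uex_split {p : ℝ} (h0 : 0 ≤ p) : Uex p + Uex (1 - p) = 2 * √(p * (1 - p)) := by
  unfold Uex
  rw [sub_sub_cancel, Real.sqrt_mul h0]
  ring

theorem Uex_conc : ConcaveOn ℝ (Icc 0 1) Uex := by
  have da : ∀ p : ℝ, 0 < p → HasDerivAt (fun p => √p) (1 / (2 * √p)) p := fun p hp => Real.hasDerivAt_sqrt hp.ne'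
  have db : ∀ p : ℝ, p < 1 → HasDerivAt (fun p => √(1 - p)) (-1 / (2 * √(1 - p))) p := fun p hp => by
    have := ((hasDerivAt_id p).const_sub 1).sqrt (by simp; linarith)
    simpa using this
  refine concaveOn_of_hasDerivWithinAt2_nonpos (convex_Icc 0 1)
    (f' := fun p => √(1 - p) / (2 * √p) - √p / (2 * √(1 - p)) - 1 / (2 * √(1 - p)) - 1 / (2 * √p) + 2)
    (f'' := fun p => -(1 / (4 * √p ^ 3 * √(1 - p))) - 1 / (4 * √p * √(1 - p) ^ 3) - 1 / (4 * √(1 - p) ^ 3) +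
      1 / (4 * √p ^ 3)) (by unfold Uex; fun_prop) ?_ ?_ ?_
  · intro p hp
    rw [interior_Icc] at hp
    have a0 := Real.sqrt_pos.2 hp.1
    have b0 := Real.sqrt_pos.2 (sub_pos.2 hp.2)
    have := (((((da p hp.1).fun_mul (db p hp.2)).fun_add (db p hp.2)).fun_sub (da p hp.1)).fun_add
      ((hasDerivAt_id' p).const_mul 2)).sub_const 1
    refine (this.congr_deriv ?_).hasDerivWithinAt
    field_simp
    ring
  · intro p hp
    rw [interior_Icc] at hp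
    have a0 := Real.sqrt_pos.2 hp.1
    have b0 := Real.sqrt_pos.2 (sub_pos.2 hp.2)
    have a2 := Real.sq_sqrt hp.1.le
    have b2 := Real.sq_sqrt (sub_pos.2 hp.2).le
    have A := (da p hp.1).const_mul 2
    have B := (db p hp.2).const_mul 2
    have := (((((db p hp.2).fun_div A (by positivity)).fun_sub ((da p hp.1).fun_div B (by positivity))).fun_sub
      ((hasDerivAt_const p (1:ℝ)).fun_div B (by positivity))).fun_sub
      ((hasDerivAt_const p (1:ℝ)).fun_div A (by positivity))).add_const 2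
    refine (this.congr_deriv ?_).hasDerivWithinAt
    have e : √p ^ 2 + √(1 - p) ^ 2 = 1 := by linarith
    generalize √p = a at *
    generalize √(1 - p) = b at *
    field_simp
    linear_combination (-4 * (a ^ 2 + b ^ 2)) * e
  · intro p hp
    rw [interior_Icc] at hp
    have a0 := Real.sqrt_pos.2 hp.1
    have b0 := Real.sqrt_pos.2 (sub_pos.2 hp.2)
    have b1 : √(1 - p) ≤ 1 := Real.sqrt_le_one.2 (by linarith [hp.1])
    have : 1 / (4 * √p ^ 3) ≤ 1 / (4 * √p ^ 3 * √(1 - p)) :=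
      one_div_le_one_div_of_le (by positivity) (mul_le_of_le_one_right (by positivity) b1)
    have : 0 ≤ 1 / (4 * √p * √(1 - p) ^ 3) := by positivity
    have : 0 ≤ 1 / (4 * √(1 - p) ^ 3) := by positivity
    linarith

theorem Uex_nonneg {p : ℝ} (h0 : 0 ≤ p) (h1 : p ≤ 1) : 0 ≤ Uex p := by
  have := Uex_conc.2 (x := 0) (y := 1) ⟨le_rfl, zero_le_one⟩ ⟨zero_le_one, le_rfl⟩ (sub_nonneg.2 h1) h0 (by ring)
  simpa [Uex_zero, Uex_one] using this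

/-- The HP scheme: `H = HH u v` (with the factor `s` inside `u, v`), potential `Uex`. -/
theorem xcore_of_HP {ρ : ℝ} (hρ0 : 0 ≤ ρ) (hρ1 : ρ ≤ 1) {u v : ℝ → ℝ}
    (u0 : u 0 ≤ 0) (u1 : u 1 ≤ 0) (v0 : v 0 ≤ 0) (v1 : v 1 ≤ 0)
    (step : PairStep ρ Uex (HH u v))
    (fin : ∀ a : ℝ, 0 ≤ a → a ≤ 1 → √(1 - ρ ^ 2) - 1 + 2 * √(a * (1 - a)) ≤ u a + u (1 - a) + 2 * v a) :
    XCore ρ := by
  refine xcore_of_pair hρ0 hρ1 Uex_conc (fun A B hA hB => ?_) (fun A B hA hB => ?_) step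
    (fun p h0 _ => (Uex_split h0).le) fun a h0 h1 => ?_
  · rw [Uex_zero, Uex_one, HH, sub_zero]
    nlinarith [mul_nonneg hA (neg_nonneg.2 u0), mul_nonneg hB (neg_nonneg.2 u1),
      mul_nonneg (Real.sqrt_nonneg (A * B)) (neg_nonneg.2 v0)]
  · rw [Uex_zero, Uex_one, HH, sub_self]
    nlinarith [mul_nonneg hA (neg_nonneg.2 u1), mul_nonneg hB (neg_nonneg.2 u0),
      mul_nonneg (Real.sqrt_nonneg (A * B)) (neg_nonneg.2 v1)]
  · simpa [HH] using fin a h0 h1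

end Crest.Agent.R307
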