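import Crest.Agent.R307.Cube
import Crest.Agent.R307.XInd
import Crest.Agent.R307.HWcGM

/-!
# R307/HWa: pointwise inequalities at the dictator corner
-/

set_option autoImplicit false

namespace Crest.Agent.R307

open Crest.CubeNoise

noncomputable def hwc (p : ℝ) : ℝ := 2 * √(p * (1 - p))

noncomputable def hwG (ρ u : ℝ) : ℝ := (hwc ((1 + ρ) / 2 * (1 - u)) + hwc ((1 - ρ) / 2 * (1 - u))) / 2

theorem hw_breg {a p : ℝ} (h0 : 0 < a) (h1 : a < 1) (hp0 : 0 ≤ p) (hp1 : p ≤ 1) :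
    hwc p = hwc a + (1 - 2 * a) / √(a * (1 - a)) * (p - a) -
      (p - a) ^ 2 / (√(a * (1 - a)) * (√(a * (1 - p)) + √((1 - a) * p)) ^ 2) := by
  obtain ⟨A, hA, hA2⟩ : ∃ A : ℝ, A = √a ∧ A ^ 2 = a := ⟨_, rfl, Real.sq_sqrt h0.le⟩
  obtain ⟨B, hB, hB2⟩ : ∃ B : ℝ, B = √(1 - a) ∧ B ^ 2 = 1 - a := ⟨_, rfl, Real.sq_sqrt (by linarith)⟩
  obtain ⟨U, hU, hU2⟩ : ∃ U : ℝ, U = √p ∧ U ^ 2 = p := ⟨_, rfl, Real.sq_sqrt hp0⟩
  obtain ⟨V, hV, hV2⟩ : ∃ V : ℝ, V = √(1 - p) ∧ V ^ 2 = 1 - p := ⟨_, rfl, Real.sq_sqrt (by linarith)⟩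
  have A0 : 0 < A := hA ▸ Real.sqrt_pos.2 h0
  have B0 : 0 < B := hB ▸ Real.sqrt_pos.2 (by linarith)
  have U0 : 0 ≤ U := hU ▸ Real.sqrt_nonneg _
  have V0 : 0 ≤ V := hV ▸ Real.sqrt_nonneg _
  have e1 : √(a * (1 - a)) = A * B := by rw [Real.sqrt_mul h0.le, hA, hB]
  have e2 : √(a * (1 - p)) = A * V := by rw [Real.sqrt_mul h0.le, hA, hV]
  have e3 : √((1 - a) * p) = B * U := by rw [Real.sqrt_mul (by linarith), hB, hU]
  have e4 : √(p * (1 - p)) = U * V := by rw [Real.sqrt_mul hp0, hU, hV]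
  have S0 : 0 < A * V + B * U := by
    rcases eq_or_lt_of_le U0 with h | h
    · have : V ^ 2 = 1 := by rw [hV2, ← hU2, ← h]; ring
      have hV1 : 0 < V := by
        rcases eq_or_lt_of_le V0 with h' | h'
        · rw [← h'] at this; norm_num at this
        · exact h'
      have := mul_pos A0 hV1
      have := mul_nonneg B0.le U0
      linarith
    · have := mul_pos B0 h
      have := mul_nonneg A0.le V0
      linarith
  have f1 : p - a = (B * U - A * V) * (A * V + B * U) := by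
    have : (B * U - A * V) * (A * V + B * U) = B ^ 2 * U ^ 2 - A ^ 2 * V ^ 2 := by ring
    rw [this, hA2, hB2, hU2, hV2]; ring
  have f2 : (p - a) ^ 2 / (A * B * (A * V + B * U) ^ 2) = (B * U - A * V) ^ 2 / (A * B) := by
    rw [f1]; field_simp
  have f3 : (B * U - A * V) ^ 2 = 2 * (A * B) ^ 2 + (1 - 2 * a) * (p - a) - 2 * (U * V) * (A * B) := by
    have g1 : (B * U - A * V) ^ 2 = B ^ 2 * U ^ 2 + A ^ 2 * V ^ 2 - 2 * (U * V) * (A * B) := by ring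
    have g2 : (A * B) ^ 2 = A ^ 2 * B ^ 2 := by ring
    rw [g1, g2, hA2, hB2, hU2, hV2]; ring
  have AB : A * B ≠ 0 := (mul_pos A0 B0).ne'
  unfold hwc
  rw [e1, e2, e3, e4, f2, f3]
  generalize A * B = C at AB ⊢
  field_simp
  ring

theorem hwa_symm (p : ℝ) : hwc (1 - p) = hwc p := by
  unfold hwc
  congr 2
  ring

theorem hwa_tan {a p : ℝ} (h0 : 0 < a) (h1 : a < 1) (hp0 : 0 ≤ p) (hp1 : p ≤ 1) :
    hwc p + 2 * (p - a) ^ 2 ≤ hwc a + (1 - 2 * a) / √(a * (1 - a)) * (p - a) := by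
  have h := hw_breg h0 h1 hp0 hp1
  have c0 : 0 < √(a * (1 - a)) := Real.sqrt_pos.2 (mul_pos h0 (by linarith))
  have c1 : √(a * (1 - a)) ≤ 1 / 2 := by
    apply Real.sqrt_le_iff.2 ⟨by norm_num, _⟩
    nlinarith [sq_nonneg (a - 1 / 2)]
  have x0 : 0 ≤ a * (1 - p) := mul_nonneg h0.le (by linarith)
  have y0 : 0 ≤ (1 - a) * p := mul_nonneg (by linarith) hp0
  have x2 := Real.sq_sqrt x0
  have y2 := Real.sq_sqrt y0
  have xn := Real.sqrt_nonneg (a * (1 - p))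
  have yn := Real.sqrt_nonneg ((1 - a) * p)
  generalize √(a * (1 - p)) = X at *
  generalize √((1 - a) * p) = Y at *
  have S0 : 0 < (X + Y) ^ 2 := by
    have : 0 < a * (1 - p) + (1 - a) * p := by
      rcases le_total p (1 / 2) with hh | hh
      · have := mul_pos h0 (show 0 < 1 - p by linarith); linarith
      · have := mul_pos (show 0 < 1 - a by linarith) (show 0 < p by linarith); linarith
    nlinarith [mul_nonneg xn yn]
  have S1 : (X + Y) ^ 2 ≤ 1 := by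
    have hxy : (2 * X * Y) ^ 2 ≤ (a * p + (1 - a) * (1 - p)) ^ 2 := by
      have : (2 * X * Y) ^ 2 = 4 * X ^ 2 * Y ^ 2 := by ring
      rw [this, x2, y2]
      nlinarith [sq_nonneg (a * p - (1 - a) * (1 - p))]
    have hn : 0 ≤ a * p + (1 - a) * (1 - p) :=
      add_nonneg (mul_nonneg h0.le hp0) (mul_nonneg (by linarith) (by linarith))
    have := abs_le_of_sq_le_sq' hxy hn
    nlinarith [this.2]
  have D : √(a * (1 - a)) * (X + Y) ^ 2 ≤ 1 / 2 := by nlinarith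
  have : 2 * (p - a) ^ 2 ≤ (p - a) ^ 2 / (√(a * (1 - a)) * (X + Y) ^ 2) := by
    rw [le_div_iff₀ (mul_pos c0 S0)]
    nlinarith [sq_nonneg (p - a)]
  linarith

theorem hwa_conc : ConcaveOn ℝ (Set.Icc 0 1) fun p : ℝ => hwc p + 2 * p ^ 2 := by
  refine ⟨convex_Icc 0 1, ?_⟩
  intro x hx y hy s t hs ht hst
  simp only [smul_eq_mul]
  have z0 : 0 ≤ s * x + t * y := add_nonneg (mul_nonneg hs hx.1) (mul_nonneg ht hy.1)
  have z1 : 0 ≤ s * (1 - x) + t * (1 - y) :=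
    add_nonneg (mul_nonneg hs (by linarith [hx.2])) (mul_nonneg ht (by linarith [hy.2]))
  have c0 : hwc 0 = 0 := by simp [hwc]
  have c1 : hwc 1 = 0 := by simp [hwc]
  rcases eq_or_lt_of_le z0 with h | h
  · have a1 : s * x = 0 := by nlinarith [mul_nonneg hs hx.1, mul_nonneg ht hy.1]
    have a2 : t * y = 0 := by linarith
    have b1 : s * (hwc x + 2 * x ^ 2) = 0 := by
      rcases mul_eq_zero.1 a1 with h' | h' <;> simp [h', c0]
    have b2 : t * (hwc y + 2 * y ^ 2) = 0 := by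
      rcases mul_eq_zero.1 a2 with h' | h' <;> simp [h', c0]
    rw [← h, b1, b2, c0]; norm_num
  rcases eq_or_lt_of_le z1 with h' | h'
  · have p1 := mul_nonneg hs (show 0 ≤ 1 - x by linarith [hx.2])
    have p2 := mul_nonneg ht (show 0 ≤ 1 - y by linarith [hy.2])
    have a1 : s * (1 - x) = 0 := by linarith
    have a2 : t * (1 - y) = 0 := by linarith
    have b1 : s * (hwc x + 2 * x ^ 2) = 2 * s := by
      rcases mul_eq_zero.1 a1 with h'' | h''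
      · simp [h'']
      · rw [show x = 1 by linarith, c1]; ring
    have b2 : t * (hwc y + 2 * y ^ 2) = 2 * t := by
      rcases mul_eq_zero.1 a2 with h'' | h''
      · simp [h'']
      · rw [show y = 1 by linarith, c1]; ring
    rw [show s * x + t * y = 1 by linarith, b1, b2, c1]; linarith
  · have hz : s * x + t * y < 1 := by linarith
    have k1 := mul_le_mul_of_nonneg_left (hwa_tan h hz hx.1 hx.2) hs
    have k2 := mul_le_mul_of_nonneg_left (hwa_tan h hz hy.1 hy.2) ht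
    obtain rfl : t = 1 - s := by linarith
    generalize (1 - 2 * (s * x + (1 - s) * y)) / √((s * x + (1 - s) * y) * (1 - (s * x + (1 - s) * y))) = L at k1 k2
    generalize hwc (s * x + (1 - s) * y) = C at k1 k2 ⊢
    nlinarith

theorem hwa_four {a A B : ℝ} (hA : 0 ≤ A) (hB : 0 ≤ B) (h0 : 0 ≤ a - B) (h1 : a + A ≤ 1) :
    hwc (a + A) + hwc (a - B) + 4 * (A * B) ≤ hwc (a + A - B) + hwc a := by
  have := xind_spread hwa_conc (x := a + A - B) (y := a) (x' := a + A) (y' := a - B) h0 h1 (by linarith)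
    (by linarith) (by ring)
  nlinarith

theorem hw_super {ρ u v : ℝ} (h0 : 0 ≤ ρ) (h1 : ρ ≤ 1) (hu0 : 0 ≤ u) (hu1 : u ≤ 1) (hv0 : 0 ≤ v) (hv1 : v ≤ 1) :
    hwG ρ u + hwG ρ v - √(1 - ρ ^ 2) + (1 - ρ ^ 2) * (u * v) ≤
      (hwc ((1 - ρ) / 2 * u + (1 + ρ) / 2 * (1 - v)) + hwc ((1 + ρ) / 2 * u + (1 - ρ) / 2 * (1 - v))) / 2 := by
  have al0 : 0 ≤ (1 + ρ) / 2 := by linarith
  have be0 : 0 ≤ (1 - ρ) / 2 := by linarith
  have k1 := hwa_four (a := (1 + ρ) / 2) (A := (1 - ρ) / 2 * u) (B := (1 + ρ) / 2 * v) (mul_nonneg be0 hu0)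
    (mul_nonneg al0 hv0) (by nlinarith) (by nlinarith)
  have k2 := hwa_four (a := (1 - ρ) / 2) (A := (1 + ρ) / 2 * u) (B := (1 - ρ) / 2 * v) (mul_nonneg al0 hu0)
    (mul_nonneg be0 hv0) (by nlinarith) (by nlinarith)
  have s1 : hwc ((1 + ρ) / 2) = √(1 - ρ ^ 2) := by
    have := xind_sqrt ((1 + ρ) / 2)
    unfold hwc
    rw [← this]; congr 1; ring
  have s2 : hwc ((1 - ρ) / 2) = √(1 - ρ ^ 2) := by
    rw [← s1, ← hwa_symm]; congr 1; ring
  have e1 : hwc ((1 + ρ) / 2 + (1 - ρ) / 2 * u) = hwc ((1 - ρ) / 2 * (1 - u)) := by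
    rw [← hwa_symm]; congr 1; ring
  have e2 : hwc ((1 - ρ) / 2 + (1 + ρ) / 2 * u) = hwc ((1 + ρ) / 2 * (1 - u)) := by
    rw [← hwa_symm]; congr 1; ring
  have e3 : (1 + ρ) / 2 - (1 + ρ) / 2 * v = (1 + ρ) / 2 * (1 - v) := by ring
  have e4 : (1 - ρ) / 2 - (1 - ρ) / 2 * v = (1 - ρ) / 2 * (1 - v) := by ring
  have e5 : (1 + ρ) / 2 + (1 - ρ) / 2 * u - (1 + ρ) / 2 * v = (1 - ρ) / 2 * u + (1 + ρ) / 2 * (1 - v) := by ring
  have e6 : (1 - ρ) / 2 + (1 + ρ) / 2 * u - (1 - ρ) / 2 * v = (1 + ρ) / 2 * u + (1 - ρ) / 2 * (1 - v) := by ring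
  rw [e1, e3, e5, s1] at k1
  rw [e2, e4, e6, s2] at k2
  unfold hwG
  nlinarith

theorem hwa_piece {c e u : ℝ} (c0 : 0 < c) (c1 : c < 1) (he0 : 0 ≤ e) (he1 : e < 1) (hu0 : 0 ≤ u) (hu1 : u ≤ 1) :
    hwc (c * (1 - u)) = hwc (c * (1 - e)) - c * ((1 - 2 * (c * (1 - e))) / √(c * (1 - e) * (1 - c * (1 - e)))) * (u - e) -
      c ^ 2 / (√(c * (1 - e) * (1 - c * (1 - e))) * (√(c * (1 - e) * (1 - c * √(1 - u) ^ 2)) +
        √(1 - u) * √((1 - c * (1 - e)) * c)) ^ 2) * (u - e) ^ 2 := by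
  have a0 : 0 < c * (1 - e) := mul_pos c0 (by linarith)
  have a1 : c * (1 - e) < 1 := by nlinarith
  have h := hw_breg a0 a1 (p := c * (1 - u)) (mul_nonneg c0.le (by linarith)) (by nlinarith)
  have w2 : √(1 - u) ^ 2 = 1 - u := Real.sq_sqrt (by linarith)
  have e1 : √((1 - c * (1 - e)) * (c * (1 - u))) = √(1 - u) * √((1 - c * (1 - e)) * c) := by
    rw [← Real.sqrt_mul (by linarith)]; congr 1; ring
  rw [w2, h, e1]
  ring

theorem hw_tan {ρ e : ℝ} (h0 : 3 / 10 ≤ ρ) (h1 : ρ ≤ 33 / 50) (he0 : 0 ≤ e) (he1 : e ≤ 19 / 100) :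
    0 ≤ HWcG.K ρ e 0 ∧ ∃ l : ℝ, ∀ u : ℝ, 0 ≤ u → u ≤ 1 →
      hwG ρ e + l * (u - e) - HWcG.K ρ e 0 * (u - e) ^ 2 ≤ hwG ρ u := by
  have c0 : 0 < (1 + ρ) / 2 := by linarith
  have c1 : (1 + ρ) / 2 < 1 := by linarith
  have d0 : 0 < (1 - ρ) / 2 := by linarith
  have d1 : (1 - ρ) / 2 < 1 := by linarith
  constructor
  · have h := HWcG.main ρ e 0 h0 h1 he0 he1 le_rfl zero_le_one
    unfold HWcG.Q at h
    refine le_trans ?_ (sub_pos.1 h).le
    positivity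
  · refine ⟨-((1 + ρ) / 2 * ((1 - 2 * ((1 + ρ) / 2 * (1 - e))) / √((1 + ρ) / 2 * (1 - e) * (1 - (1 + ρ) / 2 * (1 - e)))) +
      (1 - ρ) / 2 * ((1 - 2 * ((1 - ρ) / 2 * (1 - e))) / √((1 - ρ) / 2 * (1 - e) * (1 - (1 - ρ) / 2 * (1 - e))))) / 2, ?_⟩
    intro u hu0 hu1
    have w1 : √(1 - u) ≤ 1 := Real.sqrt_le_iff.2 ⟨zero_le_one, by linarith⟩
    have h := HWcG.main ρ e (√(1 - u)) h0 h1 he0 he1 (Real.sqrt_nonneg _) w1
    have hK : HWcG.K ρ e (√(1 - u)) = HWcG.K ρ e 0 := rfl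
    unfold HWcG.Q at h
    rw [hK] at h
    unfold HWcG.a1 HWcG.a2 HWcG.al HWcG.be at h
    have k1 := hwa_piece c0 c1 he0 (by linarith) hu0 hu1
    have k2 := hwa_piece d0 d1 he0 (by linarith) hu0 hu1
    have k3 := mul_le_mul_of_nonneg_right (sub_pos.1 h).le (sq_nonneg (u - e))
    unfold hwG
    rw [k1, k2]
    linarith

end Crest.Agent.R307
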