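import Crest.Agent.R307.HPp
import Crest.Agent.R307.HWa

/-!
# R307/HPJ: the joint corner step `J` and the half steps of the hyperbola scheme
-/

set_option autoImplicit false

namespace Crest.Agent.R307

open Crest.CubeNoise Set

/-- Joint pointwise step for `U p + U (1 - p)`. -/
def JStep (ρ : ℝ) (U : ℝ → ℝ) (k0 k1 l : ℝ) : Prop :=
  0 ≤ k0 ∧ 0 ≤ k1 ∧ ∀ p0 p1 : ℝ, 0 ≤ p0 → p0 ≤ p1 → p1 ≤ 1 →
    k0 * (U p0 + U (1 - p1)) + k1 * (U p1 + U (1 - p0)) + l * (p1 - p0) ≤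
      (U ((1 + ρ) / 2 * p1 + (1 - ρ) / 2 * p0) + U ((1 + ρ) / 2 * p0 + (1 - ρ) / 2 * p1)) +
      (U (1 - ((1 + ρ) / 2 * p1 + (1 - ρ) / 2 * p0)) + U (1 - ((1 + ρ) / 2 * p0 + (1 - ρ) / 2 * p1)))

theorem hpj_poly {s k z : ℝ} (s0 : 0 ≤ s) (s1 : s ≤ 2 / 3) (k0 : 0 ≤ k) (hk : k ^ 2 ≤ 1 + s) (z0 : 0 ≤ z) (z1 : z ≤ 1) :
    2 * s * k * (z * (2 + z)) + k ^ 2 / 4 * ((1 - z) ^ 2 * (2 + z) ^ 2) - (1 + z) ^ 2 ≤ s * (1 + z) := by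
  have k1 : k ≤ 4 / 3 := by nlinarith
  have a1 : 2 * s * k * (z * (2 + z)) ≤ 2 * s * (4 / 3) * (z * (2 + z)) :=
    mul_le_mul_of_nonneg_right (mul_le_mul_of_nonneg_left k1 (by positivity)) (by positivity)
  have a2 : k ^ 2 / 4 * ((1 - z) ^ 2 * (2 + z) ^ 2) ≤ (1 + s) / 4 * ((1 - z) ^ 2 * (2 + z) ^ 2) :=
    mul_le_mul_of_nonneg_right (by linarith) (by positivity)
  have h1 : (1 - z) * (2 + z) / 2 ≤ 1 := by nlinarith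
  have h0 : 0 ≤ (1 - z) * (2 + z) / 2 := by have := sub_nonneg.2 z1; positivity
  have h2 : (1 - z) ^ 2 * (2 + z) ^ 2 / 4 ≤ (1 - z) * (2 + z) / 2 := by nlinarith
  have b0 : 0 ≤ (1 + z) ^ 2 - (1 - z) ^ 2 * (2 + z) ^ 2 / 4 := by nlinarith
  have b1 : 0 ≤ (1 + z) ^ 2 - (1 - z) ^ 2 * (2 + z) ^ 2 / 4 -
      2 / 3 * (8 / 3 * (z * (2 + z)) + (1 - z) ^ 2 * (2 + z) ^ 2 / 4 - (1 + z)) := by
    nlinarith [mul_nonneg z0 (sub_nonneg.2 z1), mul_nonneg (mul_nonneg z0 z0) (sub_nonneg.2 z1),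
      mul_nonneg (mul_nonneg z0 (mul_nonneg z0 z0)) (sub_nonneg.2 z1)]
  nlinarith [mul_nonneg s0 b1, mul_nonneg (sub_nonneg.2 s1) b0]

theorem hpj_q3 {s z : ℝ} (s1 : s ≤ 2 / 3) (z0 : 0 ≤ z) (z1 : z ≤ 1) :
    (4 * z ^ 2 * (s * (2 * s * z ^ 2 + (1 - z) ^ 2 * (1 + z)))) ^ 2 ≤
      16 * s ^ 2 * z ^ 4 * ((1 + z ^ 2) ^ 2 * (1 - z ^ 2) ^ 2 + 4 * s ^ 2 * z ^ 4) := by
  have w0 := sub_nonneg.2 z1
  have i1 : 4 * s * z ^ 2 + (1 - z) ^ 2 * (1 + z) ≤ (1 + z) * (1 + z ^ 2) ^ 2 := by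
    have a1 := mul_nonneg z0 w0
    have a2 := mul_nonneg (mul_nonneg z0 z0) (sub_nonneg.2 s1)
    have a3 := pow_nonneg z0 3
    have a4 := pow_nonneg z0 4
    have a5 := pow_nonneg z0 5
    have a6 := sq_nonneg z
    linarith
  have i2 := mul_le_mul_of_nonneg_left i1 (by positivity : 0 ≤ 16 * s ^ 2 * z ^ 4 * ((1 - z) ^ 2 * (1 + z)))
  linarith

theorem hpj_q6 {s k z D A B : ℝ} (q1 : D ^ 2 * (A ^ 2 + B ^ 2) = 4 * z ^ 2 * (1 - z ^ 2) ^ 2 + 8 * s ^ 2 * z ^ 4)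
    (q4 : 4 * z ^ 2 * (s * (2 * s * z ^ 2 + (1 - z) ^ 2 * (1 + z))) ≤ 2 * D ^ 2 * (A * B))
    (q5 : 2 * s * k * (z * (2 + z)) + k ^ 2 / 4 * ((1 - z) ^ 2 * (2 + z) ^ 2) - (1 + z) ^ 2 ≤ s * (1 + z)) :
    (4 * s * z ^ 2 + k * z * ((1 - z) ^ 2 * (2 + z))) ^ 2 ≤ (D * (A + B)) ^ 2 := by
  have q5' := mul_le_mul_of_nonneg_left q5 (by positivity : 0 ≤ 4 * z ^ 2 * (1 - z) ^ 2)
  linarith

theorem hpj_G {ρ s k u : ℝ} (h0 : 0 ≤ ρ) (h1 : ρ ≤ 1) (s0 : 0 ≤ s) (hs : s ^ 2 = 1 - ρ ^ 2) (s1 : s ≤ 2 / 3)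
    (k0 : 0 ≤ k) (hk : k ^ 2 ≤ 1 + s) (u0 : 0 ≤ u) (u1 : u ≤ 1) :
    2 * s * (1 - u) + k * Uex u ≤ 2 * hwG ρ u := by
  obtain ⟨r, hr, r0, r2⟩ : ∃ r : ℝ, r = √u ∧ 0 ≤ r ∧ r ^ 2 = u := ⟨_, rfl, Real.sqrt_nonneg _, Real.sq_sqrt u0⟩
  obtain ⟨τ, hτ, t0, t2⟩ : ∃ τ : ℝ, τ = √(1 - u) ∧ 0 ≤ τ ∧ τ ^ 2 = 1 - u :=
    ⟨_, rfl, Real.sqrt_nonneg _, Real.sq_sqrt (by linarith)⟩
  have e1 : τ ^ 2 + r ^ 2 = 1 := by linarith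
  obtain ⟨z, hz⟩ : ∃ z : ℝ, z = τ / (1 + r) := ⟨_, rfl⟩
  have z0 : 0 ≤ z := by rw [hz]; positivity
  have zr : z * (1 + r) = τ := by rw [hz]; field_simp
  have z1 : z ≤ 1 := by
    rw [hz, div_le_one (by positivity)]
    nlinarith
  have dr : (1 + z ^ 2) * (1 + r) = 2 := by
    have : ((1 + z ^ 2) * (1 + r) - 2) * (1 + r) = 0 := by
      linear_combination (z * (1 + r) + τ) * zr + e1
    rcases mul_eq_zero.1 this with h | h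
    · linarith
    · exfalso; linarith
  have eτ : τ * (1 + z ^ 2) = 2 * z := by linear_combination z * dr - (1 + z ^ 2) * zr
  have er : r * (1 + z ^ 2) = 1 - z ^ 2 := by linear_combination dr
  have eU : Uex u * (1 + z ^ 2) ^ 2 = 2 * z * ((1 - z) ^ 2 * (2 + z)) := by
    unfold Uex
    rw [← hr, ← hτ, ← r2]
    linear_combination (r * (1 + z ^ 2) + (1 + z ^ 2)) * eτ +
      (2 * z - (1 + z ^ 2) + 2 * (r * (1 + z ^ 2) + (1 - z ^ 2))) * er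
  have et : (1 - u) * (1 + z ^ 2) ^ 2 = 4 * z ^ 2 := by
    rw [← t2]; linear_combination (τ * (1 + z ^ 2) + 2 * z) * eτ
  have eu : u * (1 + z ^ 2) ^ 2 = (1 - z ^ 2) ^ 2 := by linear_combination -et
  unfold hwG hwc
  have t1 : 0 ≤ 1 - u := by linarith
  have pa : 0 ≤ (1 + ρ) / 2 * (1 - u) * (1 - (1 + ρ) / 2 * (1 - u)) :=
    mul_nonneg (by positivity) (by nlinarith)
  have pb : 0 ≤ (1 - ρ) / 2 * (1 - u) * (1 - (1 - ρ) / 2 * (1 - u)) :=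
    mul_nonneg (mul_nonneg (by linarith) t1) (by nlinarith)
  obtain ⟨A, hA, A0, A2⟩ : ∃ A : ℝ, A = √((1 + ρ) / 2 * (1 - u) * (1 - (1 + ρ) / 2 * (1 - u))) ∧ 0 ≤ A ∧
    A ^ 2 = (1 + ρ) / 2 * (1 - u) * (1 - (1 + ρ) / 2 * (1 - u)) := ⟨_, rfl, Real.sqrt_nonneg _, Real.sq_sqrt pa⟩
  obtain ⟨B, hB, B0, B2⟩ : ∃ B : ℝ, B = √((1 - ρ) / 2 * (1 - u) * (1 - (1 - ρ) / 2 * (1 - u))) ∧ 0 ≤ B ∧
    B ^ 2 = (1 - ρ) / 2 * (1 - u) * (1 - (1 - ρ) / 2 * (1 - u)) := ⟨_, rfl, Real.sqrt_nonneg _, Real.sq_sqrt pb⟩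
  rw [← hA, ← hB]
  obtain ⟨D, hD⟩ : ∃ D : ℝ, D = (1 + z ^ 2) ^ 2 := ⟨_, rfl⟩
  have D0 : 0 < D := by rw [hD]; positivity
  rw [← hD] at eU et eu
  have sAB : A ^ 2 + B ^ 2 = (1 - u) * u + s ^ 2 * (1 - u) ^ 2 / 2 := by rw [A2, B2, hs]; ring
  have pAB : (A * B) ^ 2 = s ^ 2 / 4 * (1 - u) ^ 2 * (u + s ^ 2 * (1 - u) ^ 2 / 4) := by
    rw [mul_pow, A2, B2, hs]; ring
  have q1 : D ^ 2 * (A ^ 2 + B ^ 2) = 4 * z ^ 2 * (1 - z ^ 2) ^ 2 + 8 * s ^ 2 * z ^ 4 := by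
    rw [sAB]
    linear_combination (u * D + s ^ 2 / 2 * ((1 - u) * D + 4 * z ^ 2)) * et + 4 * z ^ 2 * eu
  have q2 : (2 * D ^ 2 * (A * B)) ^ 2 = 16 * s ^ 2 * z ^ 4 * (D * (1 - z ^ 2) ^ 2 + 4 * s ^ 2 * z ^ 4) := by
    have : (2 * D ^ 2 * (A * B)) ^ 2 = s ^ 2 * ((1 - u) * D) ^ 2 * (D * (u * D) + s ^ 2 * ((1 - u) * D) ^ 2 / 4) := by
      rw [mul_pow _ (A * B), pAB]; ring
    rw [this, et, eu]; ring
  have q3 : (4 * z ^ 2 * (s * (2 * s * z ^ 2 + (1 - z) ^ 2 * (1 + z)))) ^ 2 ≤ (2 * D ^ 2 * (A * B)) ^ 2 := by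
    rw [q2, hD]
    exact hpj_q3 s1 z0 z1
  have q4 : 4 * z ^ 2 * (s * (2 * s * z ^ 2 + (1 - z) ^ 2 * (1 + z))) ≤ 2 * D ^ 2 * (A * B) :=
    (abs_le_of_sq_le_sq' q3 (by positivity)).2
  have q6 := hpj_q6 q1 q4 (hpj_poly s0 s1 k0 hk z0 z1)
  have q7 := (abs_le_of_sq_le_sq' q6 (by positivity)).2
  have q8 : D * (2 * s * (1 - u) + k * Uex u) ≤ D * (2 * ((2 * A + 2 * B) / 2)) := by
    have : D * (2 * s * (1 - u) + k * Uex u) = 2 * (4 * s * z ^ 2 + k * z * ((1 - z) ^ 2 * (2 + z))) := by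
      linear_combination 2 * s * et + k * eU
    rw [this]; linarith
  exact le_of_mul_le_mul_left q8 D0

/-- The joint corner step: `k² ≤ 1 + s`, `s ≤ 2/3`. -/
theorem jstep {ρ s k : ℝ} (h0 : 0 ≤ ρ) (h1 : ρ ≤ 1) (s0 : 0 ≤ s) (hs : s ^ 2 = 1 - ρ ^ 2) (s1 : s ≤ 2 / 3)
    (k0 : 0 ≤ k) (hk : k ^ 2 ≤ 1 + s) : JStep ρ Uex k 0 (2 * s) := by
  refine ⟨k0, le_rfl, fun p0 p1 a b c => ?_⟩
  have g0 := hpj_G h0 h1 s0 hs s1 k0 hk a (b.trans c)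
  have g1 := hpj_G h0 h1 s0 hs s1 k0 hk (u := 1 - p1) (by linarith) (by linarith)
  have su := hw_super h0 h1 a (b.trans c) (v := 1 - p1) (by linarith) (by linarith)
  have es : √(1 - ρ ^ 2) = s := by rw [← hs, Real.sqrt_sq s0]
  have x0 : 0 ≤ (1 + ρ) / 2 * p1 + (1 - ρ) / 2 * p0 :=
    add_nonneg (mul_nonneg (by linarith) (a.trans b)) (mul_nonneg (by linarith) a)
  have y0 : 0 ≤ (1 + ρ) / 2 * p0 + (1 - ρ) / 2 * p1 :=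
    add_nonneg (mul_nonneg (by linarith) a) (mul_nonneg (by linarith) (a.trans b))
  have ex := Uex_split x0
  have ey := Uex_split y0
  have m : 0 ≤ (1 - ρ ^ 2) * (p0 * (1 - p1)) := mul_nonneg (hs ▸ sq_nonneg s) (mul_nonneg a (by linarith))
  rw [es, sub_sub_cancel, add_comm ((1 - ρ) / 2 * p0)] at su
  unfold hwc at su
  linarith

/-- Primal induction with the joint steps. -/
theorem pair_primalJ {ρ : ℝ} (hρ0 : 0 ≤ ρ) (hρ1 : ρ ≤ 1) {U : ℝ → ℝ} (hc : ConcaveOn ℝ (Icc 0 1) U)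
    (Rg : ℝ → ℝ → ℝ → Prop) (h0 : Rg 0 (U 0) (U 1)) (h1 : Rg 1 (U 1) (U 0))
    (step : ∀ a0 a1 X0 Y0 X1 Y1 X Y : ℝ, 0 ≤ a0 → a0 ≤ a1 → a1 ≤ 1 → Rg a0 X0 Y0 → Rg a1 X1 Y1 →
      (∀ K0 K1 l : ℝ, UStep ρ U K0 K1 l → K0 * X0 + K1 * X1 + l * (a1 - a0) ≤ 2 * X) →
      (∀ K0 K1 l : ℝ, UStep ρ U K0 K1 l → K0 * Y1 + K1 * Y0 + l * (a1 - a0) ≤ 2 * Y) →
      (∀ k0 k1 l : ℝ, JStep ρ U k0 k1 l → k0 * (X0 + Y1) + k1 * (X1 + Y0) + l * (a1 - a0) ≤ 2 * X + 2 * Y) →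
      Rg ((a0 + a1) / 2) X Y) :
    ∀ (n : ℕ) (u : (Fin n → Bool) → ℝ), (∀ y, u y = 0 ∨ u y = 1) →
      Rg (cubeAverage u) (cubeAverage fun x => U (noise ρ u x)) (cubeAverage fun x => U (1 - noise ρ u x)) := by
  intro n
  induction n with
  | zero =>
    intro u hu
    rw [avg_zero_dim, avg_zero_dim, avg_zero_dim, noise_zero_dim]
    rcases hu default with h | h <;> rw [h]
    · simpa using h0
    · simpa using h1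
  | succ n ih =>
    intro u hu
    obtain ⟨v, w, bv, bw, hP, hPQ, hQ, hav, hΦ⟩ := xind_split hρ0 hρ1 u hu
    have c2 : ConcaveOn ℝ (Icc 0 1) (fun p => U (1 - p)) := by
      simpa using hp_conc hc (A := 0) (B := 1) le_rfl zero_le_one
    have a0 : 0 ≤ cubeAverage v := by rw [← avg_noise ρ]; exact le_avg hP
    have a01 : cubeAverage v ≤ cubeAverage w := by rw [← avg_noise ρ v, ← avg_noise ρ w]; exact avg_mono hPQ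
    have a1 : cubeAverage w ≤ 1 := by rw [← avg_noise ρ]; exact avg_le hQ
    rw [hav]
    refine step _ _ _ _ _ _ _ _ a0 a01 a1 (ih v bv) (ih w bw) (fun K0 K1 l h => ?_) (fun K0 K1 l h => ?_)
      fun k0 k1 l h => ?_
    · refine le_trans ?_ ((avg_mono fun x => h.2.2 _ _ (hP x) (hPQ x) (hQ x)).trans (hΦ U hc))
      rw [avg_add, avg_add, avg_mul, avg_mul, avg_mul, avg_sub, avg_noise, avg_noise]
    · refine le_trans ?_ ((avg_mono (f := fun x => K0 * U (1 - noise ρ w x) + K1 * U (1 - noise ρ v x) +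
        l * (noise ρ w x - noise ρ v x)) fun x => ?_).trans (hΦ _ c2))
      · rw [avg_add, avg_add, avg_mul, avg_mul, avg_mul, avg_sub, avg_noise, avg_noise]
      · have b := h.2.2 (1 - noise ρ w x) (1 - noise ρ v x) (by linarith [hQ x]) (by linarith [hPQ x])
          (by linarith [hP x])
        generalize noise ρ w x = Q at *
        generalize noise ρ v x = P at *
        have f1 : (1 + ρ) / 2 * (1 - P) + (1 - ρ) / 2 * (1 - Q) = 1 - ((1 + ρ) / 2 * P + (1 - ρ) / 2 * Q) := by ring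
        have f2 : (1 + ρ) / 2 * (1 - Q) + (1 - ρ) / 2 * (1 - P) = 1 - ((1 + ρ) / 2 * Q + (1 - ρ) / 2 * P) := by ring
        rw [f1, f2] at b
        linarith
    · refine le_trans ?_ (add_le_add (hΦ U hc) (hΦ _ c2))
      refine le_trans ?_ ((avg_mono fun x => h.2.2 _ _ (hP x) (hPQ x) (hQ x)).trans (avg_add _ _).le)
      rw [avg_add, avg_add, avg_mul, avg_mul, avg_mul, avg_sub, avg_noise, avg_noise, avg_add, avg_add]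

theorem hpj_amgm {a b x y r w τ : ℝ} (ha : 0 ≤ a) (hb : 0 ≤ b) (hx : 0 ≤ x) (hy : 0 ≤ y) (hr : r ^ 2 ≤ a * b)
    (hw : w ^ 2 ≤ x * y) : 2 * τ * (r * w) ≤ a * x + τ ^ 2 * (b * y) := by
  have e : (r * w) ^ 2 ≤ (a * b) * (x * y) := by
    rw [mul_pow]
    exact mul_le_mul hr hw (sq_nonneg _) (mul_nonneg ha hb)
  have e2 := mul_le_mul_of_nonneg_left e (by positivity : 0 ≤ 4 * τ ^ 2)
  have : (2 * τ * (r * w)) ^ 2 ≤ (a * x + τ ^ 2 * (b * y)) ^ 2 := by nlinarith [sq_nonneg (a * x - τ ^ 2 * (b * y))]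
  exact (abs_le_of_sq_le_sq' this (by positivity)).2

/-- One half step. Slice `i` lies in the hyperbola with centre `(ci, ei)` and radius `wi`; `θ` is the weight of the
joint step. -/
theorem hpj_half {X0 Y0 X1 Y1 X Y c0 e0 w0 c1 e1 w1 K0 K1 M0 M1 k0 k1 L L' LJ c e w θ g0 g1 r0 r1 τ : ℝ}
    (m0 : 0 ≤ M0) (m1 : 0 ≤ M1) (j0 : 0 ≤ k0) (j1 : 0 ≤ k1) (θ0 : 0 ≤ θ) (θ1 : θ ≤ 1)
    (x0 : c0 ≤ X0) (y0 : e0 ≤ Y0) (z0 : w0 ^ 2 ≤ (X0 - c0) * (Y0 - e0))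
    (x1 : c1 ≤ X1) (y1 : e1 ≤ Y1) (z1 : w1 ^ 2 ≤ (X1 - c1) * (Y1 - e1))
    (hX : K0 * X0 + K1 * X1 + L ≤ 2 * X) (hY : M0 * Y1 + M1 * Y0 + L' ≤ 2 * Y)
    (hJ : k0 * (X0 + Y1) + k1 * (X1 + Y0) + LJ ≤ 2 * X + 2 * Y)
    (g00 : 0 ≤ g0) (g01 : g0 ≤ K0) (g02 : g0 ≤ (1 - θ) * K0 + θ * k0)
    (g10 : 0 ≤ g1) (g11 : g1 ≤ K1) (g12 : g1 ≤ (1 - θ) * K1 + θ * k1)
    (h0 : r0 ^ 2 ≤ g0 * ((1 - θ) * M1 + θ * k1)) (h1 : r1 ^ 2 ≤ g1 * ((1 - θ) * M0 + θ * k0))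
    (τ0 : 0 ≤ τ) (τ1 : τ ≤ 1)
    (hf : 2 * τ * (2 * w - r0 * w0 - r1 * w1) ≤ (K0 * c0 + K1 * c1 + L - 2 * c) +
      τ ^ 2 * ((1 - θ) * (M0 * e1 + M1 * e0 + L' - 2 * e) +
        θ * (k0 * (c0 + e1) + k1 * (c1 + e0) + LJ - 2 * e - (K0 * c0 + K1 * c1 + L)))) :
    2 * τ * w ≤ (X - c) + τ ^ 2 * (Y - e) := by
  have t0 : 0 ≤ τ ^ 2 := sq_nonneg τ
  have t1 : τ ^ 2 ≤ 1 := by nlinarith
  have θ2 := sub_nonneg.2 θ1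
  have n0 := sub_nonneg.2 x0
  have n1 := sub_nonneg.2 x1
  have A0 := hpj_amgm (τ := τ) g00 (by positivity) n0 (sub_nonneg.2 y0) h0 z0
  have A1 := hpj_amgm (τ := τ) g10 (by positivity) n1 (sub_nonneg.2 y1) h1 z1
  have B0 : g0 * (X0 - c0) ≤ ((1 - τ ^ 2) * K0 + τ ^ 2 * ((1 - θ) * K0 + θ * k0)) * (X0 - c0) :=
    mul_le_mul_of_nonneg_right
      (by linarith [mul_le_mul_of_nonneg_left g01 (sub_nonneg.2 t1), mul_le_mul_of_nonneg_left g02 t0]) n0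
  have B1 : g1 * (X1 - c1) ≤ ((1 - τ ^ 2) * K1 + τ ^ 2 * ((1 - θ) * K1 + θ * k1)) * (X1 - c1) :=
    mul_le_mul_of_nonneg_right
      (by linarith [mul_le_mul_of_nonneg_left g11 (sub_nonneg.2 t1), mul_le_mul_of_nonneg_left g12 t0]) n1
  have C1 := mul_le_mul_of_nonneg_left hX (by nlinarith [mul_le_mul_of_nonneg_left t1 θ0] : 0 ≤ 1 - θ * τ ^ 2)
  have C2 := mul_le_mul_of_nonneg_left hY (mul_nonneg θ2 t0)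
  have C3 := mul_le_mul_of_nonneg_left hJ (mul_nonneg θ0 t0)
  linarith

theorem hpj_two {x y w : ℝ} (hw : 0 ≤ w) (h1 : ∀ τ : ℝ, 0 ≤ τ → τ ≤ 1 → 2 * τ * w ≤ x + τ ^ 2 * y)
    (h2 : ∀ τ : ℝ, 0 ≤ τ → τ ≤ 1 → 2 * τ * w ≤ y + τ ^ 2 * x) : 0 ≤ x ∧ 0 ≤ y ∧ w ^ 2 ≤ x * y := by
  have x0 : 0 ≤ x := by simpa using h1 0 le_rfl zero_le_one
  have y0 : 0 ≤ y := by simpa using h2 0 le_rfl zero_le_one
  have k : ∀ {x y : ℝ}, 0 ≤ x → x ≤ y → (∀ τ : ℝ, 0 ≤ τ → τ ≤ 1 → 2 * τ * w ≤ x + τ ^ 2 * y) → w ^ 2 ≤ x * y := by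
    intro x y x0 xy h
    rcases le_total w y with e | e
    · rcases eq_or_lt_of_le (x0.trans xy) with f | f
      · have : w = 0 := by linarith
        rw [this, ← f]; simp
      · have a := mul_le_mul_of_nonneg_left (h (w / y) (by positivity) ((div_le_one f).2 e)) f.le
        have e1 : y * (2 * (w / y) * w) = 2 * w ^ 2 := by field_simp
        have e2 : y * (x + (w / y) ^ 2 * y) = x * y + w ^ 2 := by field_simp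
        rw [e1, e2] at a
        linarith
    · have := h 1 zero_le_one le_rfl
      have e1 : x = w := by linarith
      have e2 : y = w := by linarith
      rw [e1, e2, sq]
  refine ⟨x0, y0, ?_⟩
  rcases le_total x y with e | e
  · exact k x0 e h1
  · rw [mul_comm]; exact k y0 e h2

/-- The half step for the hyperbola hypothesis (`θ = 0`: no joint step, `θ = 1`: pure corner step). -/
def HJ (ρ : ℝ) (U b u v : ℝ → ℝ) (a0 a1 : ℝ) : Prop :=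
  ∃ K0 K1 l M0 M1 m k0 k1 j θ g0 g1 r0 r1 c0 e0 w0 c1 e1 w1 : ℝ,
    UStep ρ U K0 K1 l ∧ UStep ρ U M0 M1 m ∧ JStep ρ U k0 k1 j ∧ 0 ≤ θ ∧ θ ≤ 1 ∧
    HSel b u v a0 c0 e0 w0 ∧ HSel b u v a1 c1 e1 w1 ∧
    0 ≤ g0 ∧ g0 ≤ K0 ∧ g0 ≤ (1 - θ) * K0 + θ * k0 ∧ 0 ≤ g1 ∧ g1 ≤ K1 ∧ g1 ≤ (1 - θ) * K1 + θ * k1 ∧
    r0 ^ 2 ≤ g0 * ((1 - θ) * M1 + θ * k1) ∧ r1 ^ 2 ≤ g1 * ((1 - θ) * M0 + θ * k0) ∧
    ∀ τ : ℝ, 0 ≤ τ → τ ≤ 1 →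
      2 * τ * (2 * v ((a0 + a1) / 2) - r0 * w0 - r1 * w1) ≤
        (K0 * c0 + K1 * c1 + l * (a1 - a0) - 2 * u ((a0 + a1) / 2)) +
        τ ^ 2 * ((1 - θ) * (M0 * e1 + M1 * e0 + m * (a1 - a0) - 2 * u (1 - (a0 + a1) / 2)) +
          θ * (k0 * (c0 + e1) + k1 * (c1 + e0) + j * (a1 - a0) - 2 * u (1 - (a0 + a1) / 2) -
            (K0 * c0 + K1 * c1 + l * (a1 - a0))))

theorem HRg.symm {b u v : ℝ → ℝ} (hv : ∀ a, v (1 - a) = v a) {a X Y : ℝ} (R : HRg b u v a X Y) :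
    HRg b u v (1 - a) Y X := by
  obtain ⟨h1, h2, h3, h4, h5⟩ := R
  refine ⟨h2, by rwa [sub_sub_cancel], h4, by rwa [sub_sub_cancel], ?_⟩
  rwa [sub_sub_cancel, hv, mul_comm]

theorem HJ.use {ρ : ℝ} {U b u v : ℝ → ℝ} {a0 a1 X0 Y0 X1 Y1 X Y : ℝ} (h : HJ ρ U b u v a0 a1)
    (R0 : HRg b u v a0 X0 Y0) (R1 : HRg b u v a1 X1 Y1)
    (hX : ∀ K0 K1 l : ℝ, UStep ρ U K0 K1 l → K0 * X0 + K1 * X1 + l * (a1 - a0) ≤ 2 * X)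
    (hY : ∀ K0 K1 l : ℝ, UStep ρ U K0 K1 l → K0 * Y1 + K1 * Y0 + l * (a1 - a0) ≤ 2 * Y)
    (hJ : ∀ k0 k1 l : ℝ, JStep ρ U k0 k1 l → k0 * (X0 + Y1) + k1 * (X1 + Y0) + l * (a1 - a0) ≤ 2 * X + 2 * Y)
    (τ : ℝ) (τ0 : 0 ≤ τ) (τ1 : τ ≤ 1) :
    2 * τ * v ((a0 + a1) / 2) ≤ (X - u ((a0 + a1) / 2)) + τ ^ 2 * (Y - u (1 - (a0 + a1) / 2)) := by
  obtain ⟨K0, K1, l, M0, M1, m, k0, k1, j, θ, g0, g1, r0, r1, c0, e0, w0, c1, e1, w1, hK, hM, hj, θ0, θ1, s0, s1,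
    g00, g01, g02, g10, g11, g12, h0, h1, hf⟩ := h
  obtain ⟨x0, y0, z0⟩ := s0.ok R0
  obtain ⟨x1, y1, z1⟩ := s1.ok R1
  exact hpj_half hM.1 hM.2.1 hj.1 hj.2.1 θ0 θ1 x0 y0 z0 x1 y1 z1 (hX _ _ _ hK) (hY _ _ _ hM) (hJ _ _ _ hj)
    g00 g01 g02 g10 g11 g12 h0 h1 τ0 τ1 (hf τ τ0 τ1)

theorem HJ.both {ρ : ℝ} {U b u v : ℝ → ℝ} (hs : ∀ a, v (1 - a) = v a) {a0 a1 X0 Y0 X1 Y1 X Y : ℝ}
    (hv : 0 ≤ v ((a0 + a1) / 2)) (h : HJ ρ U b u v a0 a1) (h' : HJ ρ U b u v (1 - a1) (1 - a0))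
    (R0 : HRg b u v a0 X0 Y0) (R1 : HRg b u v a1 X1 Y1)
    (hX : ∀ K0 K1 l : ℝ, UStep ρ U K0 K1 l → K0 * X0 + K1 * X1 + l * (a1 - a0) ≤ 2 * X)
    (hY : ∀ K0 K1 l : ℝ, UStep ρ U K0 K1 l → K0 * Y1 + K1 * Y0 + l * (a1 - a0) ≤ 2 * Y)
    (hJ : ∀ k0 k1 l : ℝ, JStep ρ U k0 k1 l → k0 * (X0 + Y1) + k1 * (X1 + Y0) + l * (a1 - a0) ≤ 2 * X + 2 * Y) :
    u ((a0 + a1) / 2) ≤ X ∧ u (1 - (a0 + a1) / 2) ≤ Y ∧
      v ((a0 + a1) / 2) ^ 2 ≤ (X - u ((a0 + a1) / 2)) * (Y - u (1 - (a0 + a1) / 2)) := by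
  have d : 1 - a0 - (1 - a1) = a1 - a0 := by ring
  have m : (1 - a1 + (1 - a0)) / 2 = 1 - (a0 + a1) / 2 := by ring
  have k := h'.use (X := Y) (Y := X) (R1.symm hs) (R0.symm hs) (by rw [d]; exact hY) (by rw [d]; exact hX)
    (fun k0 k1 l e => by have := hJ k0 k1 l e; rw [d]; linarith)
  rw [m, hs, sub_sub_cancel] at k
  obtain ⟨x0, y0, z⟩ := hpj_two hv (h.use R0 R1 hX hY hJ) k
  exact ⟨sub_nonneg.1 x0, sub_nonneg.1 y0, z⟩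

/-- Induction with the linear hypothesis `b`, the hyperbola `(u, v)` and the joint steps. -/
theorem hypJ_ind {ρ : ℝ} (hρ0 : 0 ≤ ρ) (hρ1 : ρ ≤ 1) {U : ℝ → ℝ} (hc : ConcaveOn ℝ (Icc 0 1) U)
    {b u v : ℝ → ℝ} (hv : ∀ a, 0 ≤ a → a ≤ 1 → 0 ≤ v a) (hs : ∀ a, v (1 - a) = v a)
    (h0 : HRg b u v 0 (U 0) (U 1)) (h1 : HRg b u v 1 (U 1) (U 0))
    (sb : ∀ a0 a1 : ℝ, 0 ≤ a0 → a0 ≤ a1 → a1 ≤ 1 → BAt ρ U b a0 a1)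
    (sh : ∀ a0 a1 : ℝ, 0 ≤ a0 → a0 ≤ a1 → a1 ≤ 1 →
      (HJ ρ U b u v a0 a1 ∧ HJ ρ U b u v (1 - a1) (1 - a0)) ∨ HAt ρ U b u v a0 a1)
    (n : ℕ) (f : (Fin n → Bool) → ℝ) (hf : ∀ y, f y = 0 ∨ f y = 1) :
    HRg b u v (cubeAverage f) (cubeAverage fun x => U (noise ρ f x)) (cubeAverage fun x => U (1 - noise ρ f x)) := by
  refine pair_primalJ hρ0 hρ1 hc (HRg b u v) h0 h1 (fun a0 a1 X0 Y0 X1 Y1 X Y a00 a01 a11 R0 R1 hX hY hJ => ?_) n f hf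
  have bX : b ((a0 + a1) / 2) ≤ X := by
    obtain ⟨K0, K1, l, hK, hb⟩ := sb a0 a1 a00 a01 a11
    have := hX K0 K1 l hK
    have := mul_le_mul_of_nonneg_left R0.1 hK.1
    have := mul_le_mul_of_nonneg_left R1.1 hK.2.1
    linarith
  have bY : b (1 - (a0 + a1) / 2) ≤ Y := by
    obtain ⟨K0, K1, l, hK, hb⟩ := sb (1 - a1) (1 - a0) (by linarith) (by linarith) (by linarith)
    have := hY K0 K1 l hK
    have := mul_le_mul_of_nonneg_left R1.2.1 hK.1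
    have := mul_le_mul_of_nonneg_left R0.2.1 hK.2.1
    rw [show (1 - a1 + (1 - a0)) / 2 = 1 - (a0 + a1) / 2 by ring] at hb
    linarith
  refine ⟨bX, bY, ?_⟩
  have vm := hv ((a0 + a1) / 2) (by linarith) (by linarith)
  rcases sh a0 a1 a00 a01 a11 with ⟨h, h'⟩ | ⟨K0, K1, l, M0, M1, m, c0, e0, w0, c1, e1, w1, r0, r1, r, hK, hM, s0, s1,
    hP, hQ, g0, g1, gr, gf⟩ | ⟨g1, g2, g3⟩
  · exact h.both hs vm h' R0 R1 hX hY hJ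
  · obtain ⟨x0, y0, z0⟩ := s0.ok R0
    obtain ⟨x1, y1, z1⟩ := s1.ok R1
    exact hp_step hK.1 hK.2.1 hM.1 hM.2.1 x0 y0 z0 x1 y1 z1 (hX K0 K1 l hK) (hY M0 M1 m hM) hP hQ g0 g1 gr vm gf
  · exact ⟨g1.trans bX, g2.trans bY, g3.trans (mul_le_mul (by linarith) (by linarith) (by linarith) (by linarith))⟩

theorem xcore_of_rg {ρ : ℝ} (hρ0 : 0 ≤ ρ) (hρ1 : ρ ≤ 1) {b u v : ℝ → ℝ}
    (key : ∀ (n : ℕ) (f : (Fin n → Bool) → ℝ), (∀ y, f y = 0 ∨ f y = 1) →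
      HRg b u v (cubeAverage f) (cubeAverage fun x => Uex (noise ρ f x)) (cubeAverage fun x => Uex (1 - noise ρ f x)))
    (fin : ∀ a : ℝ, 0 ≤ a → a ≤ 1 → √(1 - ρ ^ 2) - 1 + 2 * √(a * (1 - a)) ≤ u a + u (1 - a) + 2 * v a ∨
      √(1 - ρ ^ 2) - 1 + 2 * √(a * (1 - a)) ≤ b a + b (1 - a)) : XCore ρ := by
  intro n f hf
  have hρ : |ρ| ≤ 1 := abs_le.2 ⟨by linarith, hρ1⟩
  have u0 : ∀ y, 0 ≤ f y := fun y => by rcases hf y with a | a <;> simp [a]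
  have u1 : ∀ y, f y ≤ 1 := fun y => by rcases hf y with a | a <;> simp [a]
  have key := key n f hf
  have e : cubeAverage (fun x => Uex (noise ρ f x)) + cubeAverage (fun x => Uex (1 - noise ρ f x)) ≤
      cubeAverage fun x => 2 * √(noise ρ f x * (1 - noise ρ f x)) := by
    rw [← avg_add]
    refine avg_mono fun x => (Uex_split ?_).le
    have := noise_mono hρ (u := fun _ => 0) (v := f) u0 x
    rwa [noise_const] at this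
  rcases fin _ (le_avg u0) (avg_le u1) with h | h
  · exact (h.trans key.sum).trans e
  · exact (h.trans (add_le_add key.1 key.2.1)).trans e

/-- `XCore` from `b`, the hyperbola and the joint steps. -/
theorem xcore_of_hypJ {ρ : ℝ} (hρ0 : 0 ≤ ρ) (hρ1 : ρ ≤ 1) {b u v : ℝ → ℝ} (hv : ∀ a, 0 ≤ a → a ≤ 1 → 0 ≤ v a)
    (hs : ∀ a, v (1 - a) = v a) (h0 : HRg b u v 0 0 0) (h1 : HRg b u v 1 0 0)
    (sb : ∀ a0 a1 : ℝ, 0 ≤ a0 → a0 ≤ a1 → a1 ≤ 1 → BAt ρ Uex b a0 a1)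
    (sh : ∀ a0 a1 : ℝ, 0 ≤ a0 → a0 ≤ a1 → a1 ≤ 1 →
      (HJ ρ Uex b u v a0 a1 ∧ HJ ρ Uex b u v (1 - a1) (1 - a0)) ∨ HAt ρ Uex b u v a0 a1)
    (fin : ∀ a : ℝ, 0 ≤ a → a ≤ 1 → √(1 - ρ ^ 2) - 1 + 2 * √(a * (1 - a)) ≤ u a + u (1 - a) + 2 * v a ∨
      √(1 - ρ ^ 2) - 1 + 2 * √(a * (1 - a)) ≤ b a + b (1 - a)) : XCore ρ :=
  xcore_of_rg hρ0 hρ1 (hypJ_ind hρ0 hρ1 Uex_conc hv hs (by simpa [Uex_zero, Uex_one] using h0)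
    (by simpa [Uex_zero, Uex_one] using h1) sb sh) fin

/-- The full (two-sided) step of the pure hyperbola scheme. -/
def HFull (ρ : ℝ) (U u v : ℝ → ℝ) (a0 a1 : ℝ) : Prop :=
  ∃ K0 K1 l M0 M1 m r0 r1 r : ℝ, UStep ρ U K0 K1 l ∧ UStep ρ U M0 M1 m ∧
    0 ≤ K0 * u a0 + K1 * u a1 + l * (a1 - a0) - 2 * u ((a0 + a1) / 2) ∧
    0 ≤ M0 * u (1 - a1) + M1 * u (1 - a0) + m * (a1 - a0) - 2 * u (1 - (a0 + a1) / 2) ∧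
    r0 ^ 2 ≤ K0 * M1 ∧ r1 ^ 2 ≤ K1 * M0 ∧
    r ^ 2 ≤ (K0 * u a0 + K1 * u a1 + l * (a1 - a0) - 2 * u ((a0 + a1) / 2)) *
      (M0 * u (1 - a1) + M1 * u (1 - a0) + m * (a1 - a0) - 2 * u (1 - (a0 + a1) / 2)) ∧
    2 * v ((a0 + a1) / 2) ≤ r0 * v a0 + r1 * v a1 + r

theorem HFull.symm {ρ : ℝ} {U u v : ℝ → ℝ} (hs : ∀ a, v (1 - a) = v a) {a0 a1 : ℝ}
    (h : HFull ρ U u v (1 - a1) (1 - a0)) : HFull ρ U u v a0 a1 := by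
  obtain ⟨K0, K1, l, M0, M1, m, r0, r1, r, hK, hM, hP, hQ, g0, g1, gr, gf⟩ := h
  have d : 1 - a0 - (1 - a1) = a1 - a0 := by ring
  have e : (1 - a1 + (1 - a0)) / 2 = 1 - (a0 + a1) / 2 := by ring
  simp only [d, e, sub_sub_cancel, hs] at hP hQ gr gf
  exact ⟨M0, M1, m, K0, K1, l, r1, r0, r, hM, hK, hQ, hP, by rwa [mul_comm], by rwa [mul_comm], by rwa [mul_comm],
    by linarith⟩

/-- `XCore` from the pure hyperbola: for `a0 + a1 ≤ 1` either the full step or the two half steps. -/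
theorem xcore_of_HJ {ρ : ℝ} (hρ0 : 0 ≤ ρ) (hρ1 : ρ ≤ 1) {u v : ℝ → ℝ} (hv : ∀ a, 0 ≤ a → a ≤ 1 → 0 ≤ v a)
    (hs : ∀ a, v (1 - a) = v a) (u0 : u 0 ≤ 0) (u1 : u 1 ≤ 0) (v0 : v 0 = 0)
    (sh : ∀ a0 a1 : ℝ, 0 ≤ a0 → a0 ≤ a1 → a0 + a1 ≤ 1 →
      HFull ρ Uex u v a0 a1 ∨ (HJ ρ Uex u u v a0 a1 ∧ HJ ρ Uex u u v (1 - a1) (1 - a0)))
    (fin : ∀ a : ℝ, 0 ≤ a → a ≤ 1 → √(1 - ρ ^ 2) - 1 + 2 * √(a * (1 - a)) ≤ u a + u (1 - a) + 2 * v a) :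
    XCore ρ := by
  have v1 : v 1 = 0 := by rw [← hs, sub_self, v0]
  have p := mul_nonneg (neg_nonneg.2 u0) (neg_nonneg.2 u1)
  have sh' : ∀ a0 a1 : ℝ, 0 ≤ a0 → a0 ≤ a1 → a1 ≤ 1 →
      HFull ρ Uex u v a0 a1 ∨ (HJ ρ Uex u u v a0 a1 ∧ HJ ρ Uex u u v (1 - a1) (1 - a0)) := by
    intro a0 a1 h0 h01 h1
    rcases le_total (a0 + a1) 1 with e | e
    · exact sh a0 a1 h0 h01 e
    · rcases sh (1 - a1) (1 - a0) (by linarith) (by linarith) (by linarith) with h | h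
      · exact Or.inl (h.symm hs)
      · rw [sub_sub_cancel, sub_sub_cancel] at h
        exact Or.inr h.symm
  refine xcore_of_rg (b := u) hρ0 hρ1 (pair_primalJ hρ0 hρ1 Uex_conc (HRg u u v) ?_ ?_
    fun a0 a1 X0 Y0 X1 Y1 X Y a00 a01 a11 R0 R1 hX hY hJ => ?_) fun a h0 h1 => Or.inl (fin a h0 h1)
  · rw [Uex_zero, Uex_one]
    refine ⟨u0, by simpa using u1, u0, by simpa using u1, ?_⟩
    rw [v0, sub_zero]; linarith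
  · rw [Uex_zero, Uex_one]
    refine ⟨u1, by simpa using u0, u1, by simpa using u0, ?_⟩
    rw [v1, sub_self]; linarith
  have vm := hv ((a0 + a1) / 2) (by linarith) (by linarith)
  have k : u ((a0 + a1) / 2) ≤ X ∧ u (1 - (a0 + a1) / 2) ≤ Y ∧
      v ((a0 + a1) / 2) ^ 2 ≤ (X - u ((a0 + a1) / 2)) * (Y - u (1 - (a0 + a1) / 2)) := by
    rcases sh' a0 a1 a00 a01 a11 with ⟨K0, K1, l, M0, M1, m, r0, r1, r, hK, hM, hP, hQ, g0, g1, gr, gf⟩ | ⟨h, h'⟩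
    · obtain ⟨x0, y0, z0⟩ := R0.2.2
      obtain ⟨x1, y1, z1⟩ := R1.2.2
      exact hp_step hK.1 hK.2.1 hM.1 hM.2.1 x0 y0 z0 x1 y1 z1 (hX K0 K1 l hK) (hY M0 M1 m hM) hP hQ g0 g1 gr vm gf
    · exact h.both hs vm h' R0 R1 hX hY hJ
  exact ⟨k.1, k.2.1, k⟩

/-- The pure corner step (`θ = 1`, no use of the slices' hyperbolas): one `UStep`, one `JStep`. -/
theorem HJ.corner {ρ : ℝ} {U u v : ℝ → ℝ} {a0 a1 K0 K1 l k j : ℝ} (hK : UStep ρ U K0 K1 l) (hj : JStep ρ U k 0 j)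
    (hf : ∀ τ : ℝ, 0 ≤ τ → τ ≤ 1 → 4 * τ * v ((a0 + a1) / 2) ≤
      (K0 * u a0 + K1 * u a1 + l * (a1 - a0) - 2 * u ((a0 + a1) / 2)) +
      τ ^ 2 * (k * (u a0 + u (1 - a1)) + j * (a1 - a0) - 2 * u (1 - (a0 + a1) / 2) -
        (K0 * u a0 + K1 * u a1 + l * (a1 - a0)))) : HJ ρ U u u v a0 a1 := by
  refine ⟨K0, K1, l, K0, K1, l, k, 0, j, 1, 0, 0, 0, 0, _, _, _, _, _, _, hK, hK, hj, zero_le_one, le_rfl,
    Or.inl ⟨rfl, rfl, rfl⟩, Or.inl ⟨rfl, rfl, rfl⟩, le_rfl, hK.1, by simpa using hj.1, le_rfl, hK.2.1, by simp,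
    by simp, by simp, fun τ τ0 τ1 => ?_⟩
  have := hf τ τ0 τ1
  linarith

/-- Sufficient conditions for the quadratic inequality on `[0, 1]`. -/
theorem hpj_quad {P Q Z τ : ℝ} (hP : 0 ≤ P) (h : (Z ^ 2 ≤ P * Q ∧ 0 ≤ Q) ∨ (2 * Z ≤ P + Q ∧ Q ≤ Z) ∨ (Z ≤ 0 ∧ 0 ≤ P + Q))
    (τ0 : 0 ≤ τ) (τ1 : τ ≤ 1) : 2 * τ * Z ≤ P + τ ^ 2 * Q := by
  rcases h with ⟨h, q⟩ | ⟨h, q⟩ | ⟨h, q⟩
  · simpa using hpj_amgm (τ := τ) (r := 1) zero_le_one zero_le_one hP q (by simp) h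
  · rcases le_total 0 Z with z | z
    · nlinarith [mul_nonneg (sub_nonneg.2 τ1) (sub_nonneg.2 q), mul_nonneg (sub_nonneg.2 τ1) (mul_nonneg τ0 (sub_nonneg.2 q)),
        mul_nonneg (mul_nonneg (sub_nonneg.2 τ1) (sub_nonneg.2 τ1)) z]
    · nlinarith [mul_nonneg (sq_nonneg τ) (sub_nonneg.2 h), mul_nonneg hP (mul_nonneg (sub_nonneg.2 τ1) (add_nonneg τ0 zero_le_one)),
        mul_nonneg (mul_nonneg τ0 (sub_nonneg.2 τ1)) (neg_nonneg.2 z)]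
  · nlinarith [mul_nonneg (sq_nonneg τ) q, mul_nonneg hP (mul_nonneg (sub_nonneg.2 τ1) (add_nonneg τ0 zero_le_one)),
      mul_nonneg τ0 (neg_nonneg.2 h)]

end Crest.Agent.R307
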