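import Crest.Agent.R307.HP

/-!
# R307/HPp: primal form of the pair scheme (any monotone region `Rg a X Y` for `X = E U(p)`, `Y = E U(1-p)`)
-/

set_option autoImplicit false

namespace Crest.Agent.R307

open Crest.CubeNoise Set

/-- Splitting off one coordinate, with compression. -/
theorem xind_split {ρ : ℝ} (hρ0 : 0 ≤ ρ) (hρ1 : ρ ≤ 1) {n : ℕ} (u : (Fin (n + 1) → Bool) → ℝ)
    (hu : ∀ y, u y = 0 ∨ u y = 1) :
    ∃ v w : (Fin n → Bool) → ℝ, (∀ y, v y = 0 ∨ v y = 1) ∧ (∀ y, w y = 0 ∨ w y = 1) ∧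
      (∀ x, 0 ≤ noise ρ v x) ∧ (∀ x, noise ρ v x ≤ noise ρ w x) ∧ (∀ x, noise ρ w x ≤ 1) ∧
      cubeAverage u = (cubeAverage v + cubeAverage w) / 2 ∧
      ∀ Φ : ℝ → ℝ, ConcaveOn ℝ (Icc 0 1) Φ →
        (cubeAverage fun x => Φ ((1 + ρ) / 2 * noise ρ w x + (1 - ρ) / 2 * noise ρ v x) +
          Φ ((1 + ρ) / 2 * noise ρ v x + (1 - ρ) / 2 * noise ρ w x)) ≤
        2 * cubeAverage fun x => Φ (noise ρ u x) := by
  have hρ : |ρ| ≤ 1 := abs_le.2 ⟨by linarith, hρ1⟩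
  set u0 := sl u false with hu0
  set u1 := sl u true with hu1
  have b0 : ∀ y, u0 y = 0 ∨ u0 y = 1 := fun y => hu _
  have b1 : ∀ y, u1 y = 0 ∨ u1 y = 1 := fun y => hu _
  let v : (Fin n → Bool) → ℝ := fun y => min (u0 y) (u1 y)
  let w : (Fin n → Bool) → ℝ := fun y => max (u0 y) (u1 y)
  have bv : ∀ y, v y = 0 ∨ v y = 1 := fun y => by
    rcases b0 y with a | a <;> rcases b1 y with c | c <;> simp [v, a, c]
  have bw : ∀ y, w y = 0 ∨ w y = 1 := fun y => by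
    rcases b0 y with a | a <;> rcases b1 y with c | c <;> simp [w, a, c]
  have hsum : ∀ y, v y + w y = u0 y + u1 y := fun y => min_add_max _ _
  have hP0 : ∀ x, 0 ≤ noise ρ v x := fun x => by
    have := noise_mono hρ (u := fun _ => 0) (v := v) (fun y => by rcases bv y with a | a <;> simp [a]) x
    rwa [noise_const] at this
  have hQ1 : ∀ x, noise ρ w x ≤ 1 := fun x => by
    have := noise_mono hρ (v := fun _ => 1) (u := w) (fun y => by rcases bw y with a | a <;> simp [a]) x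
    rwa [noise_const] at this
  have hv0 : ∀ x, noise ρ v x ≤ noise ρ u0 x := noise_mono hρ fun y => min_le_left _ _
  have hv1 : ∀ x, noise ρ v x ≤ noise ρ u1 x := noise_mono hρ fun y => min_le_right _ _
  have hns : ∀ x, noise ρ v x + noise ρ w x = noise ρ u0 x + noise ρ u1 x := fun x => by
    rw [← noise_add, ← noise_add]
    simp only [hsum]
  have hPQ : ∀ x, noise ρ v x ≤ noise ρ w x := fun x => by linarith [hv0 x, hv1 x, hns x]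
  have hav : cubeAverage v + cubeAverage w = cubeAverage u0 + cubeAverage u1 := by
    rw [← avg_add, ← avg_add]
    simp only [hsum]
  refine ⟨v, w, bv, bw, hP0, hPQ, hQ1, by rw [avg_succ u, hav], fun Φ hc => ?_⟩
  rw [avg_succ (fun x => Φ (noise ρ u x)), ← avg_add (sl (fun x => Φ (noise ρ u x)) false),
    mul_div_cancel₀ _ (by norm_num)]
  refine avg_mono fun x => ?_
  have e0 : sl (fun x => Φ (noise ρ u x)) false x =
      Φ ((1 + ρ) / 2 * noise ρ u0 x + (1 - ρ) / 2 * noise ρ u1 x) := by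
    have := noise_sl ρ u false x
    simp only [sl] at this ⊢
    rw [this]
    simp [spin, hu0, hu1]
    rfl
  have e1 : sl (fun x => Φ (noise ρ u x)) true x =
      Φ ((1 - ρ) / 2 * noise ρ u0 x + (1 + ρ) / 2 * noise ρ u1 x) := by
    have := noise_sl ρ u true x
    simp only [sl] at this ⊢
    rw [this]
    simp [spin, hu0, hu1]
  rw [e0, e1]
  have p0 := hP0 x
  have q1 := hQ1 x
  have a0 := hv0 x
  have a1 := hv1 x
  have a2 := hns x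
  have a3 := hPQ x
  set P := noise ρ v x
  set Q := noise ρ w x
  set X := noise ρ u0 x
  set Y := noise ρ u1 x
  have hQ : Q = X + Y - P := by linarith
  refine xind_spread hc ?_ ?_ ?_ ?_ ?_
  · nlinarith
  · nlinarith
  · rw [hQ]; nlinarith [mul_nonneg hρ0 (sub_nonneg.2 a1)]
  · rw [hQ]; nlinarith [mul_nonneg hρ0 (sub_nonneg.2 a0)]
  · rw [hQ]; ring

/-- Primal induction: `Rg a X Y` is any region; the step may use every valid `UStep`. -/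
theorem pair_primal {ρ : ℝ} (hρ0 : 0 ≤ ρ) (hρ1 : ρ ≤ 1) {U : ℝ → ℝ} (hc : ConcaveOn ℝ (Icc 0 1) U)
    (Rg : ℝ → ℝ → ℝ → Prop) (h0 : Rg 0 (U 0) (U 1)) (h1 : Rg 1 (U 1) (U 0))
    (step : ∀ a0 a1 X0 Y0 X1 Y1 X Y : ℝ, 0 ≤ a0 → a0 ≤ a1 → a1 ≤ 1 → Rg a0 X0 Y0 → Rg a1 X1 Y1 →
      (∀ K0 K1 l : ℝ, UStep ρ U K0 K1 l → K0 * X0 + K1 * X1 + l * (a1 - a0) ≤ 2 * X) →
      (∀ K0 K1 l : ℝ, UStep ρ U K0 K1 l → K0 * Y1 + K1 * Y0 + l * (a1 - a0) ≤ 2 * Y) →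
      Rg ((a0 + a1) / 2) X Y) :
    ∀ (n : ℕ) (u : (Fin n → Bool) → ℝ), (∀ y, u y = 0 ∨ u y = 1) →
      Rg (cubeAverage u) (cubeAverage fun x => U (noise ρ u x)) (cubeAverage fun x => U (1 - noise ρ u x)) := by
  intro n
  induction n with
  | zero =>
    intro u hu
    rw [avg_zero_dim, avg_zero_dim, avg_zero_dim, noise_zero_dim]
    rcases hu default with h | h <;> rw [h]
    · simpa using h0
    · simpa using h1
  | succ n ih =>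
    intro u hu
    obtain ⟨v, w, bv, bw, hP, hPQ, hQ, hav, hΦ⟩ := xind_split hρ0 hρ1 u hu
    have c2 : ConcaveOn ℝ (Icc 0 1) (fun p => U (1 - p)) := by
      simpa using hp_conc hc (A := 0) (B := 1) le_rfl zero_le_one
    have a0 : 0 ≤ cubeAverage v := by rw [← avg_noise ρ]; exact le_avg hP
    have a01 : cubeAverage v ≤ cubeAverage w := by rw [← avg_noise ρ v, ← avg_noise ρ w]; exact avg_mono hPQ
    have a1 : cubeAverage w ≤ 1 := by rw [← avg_noise ρ]; exact avg_le hQ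
    rw [hav]
    refine step _ _ _ _ _ _ _ _ a0 a01 a1 (ih v bv) (ih w bw) (fun K0 K1 l h => ?_) fun K0 K1 l h => ?_
    · refine le_trans ?_ ((avg_mono fun x => h.2.2 _ _ (hP x) (hPQ x) (hQ x)).trans (hΦ U hc))
      rw [avg_add, avg_add, avg_mul, avg_mul, avg_mul, avg_sub, avg_noise, avg_noise]
    · refine le_trans ?_ ((avg_mono (f := fun x => K0 * U (1 - noise ρ w x) + K1 * U (1 - noise ρ v x) +
        l * (noise ρ w x - noise ρ v x)) fun x => ?_).trans (hΦ _ c2))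
      · rw [avg_add, avg_add, avg_mul, avg_mul, avg_mul, avg_sub, avg_noise, avg_noise]
      · have b := h.2.2 (1 - noise ρ w x) (1 - noise ρ v x) (by linarith [hQ x]) (by linarith [hPQ x])
          (by linarith [hP x])
        generalize noise ρ w x = Q at *
        generalize noise ρ v x = P at *
        have f1 : (1 + ρ) / 2 * (1 - P) + (1 - ρ) / 2 * (1 - Q) = 1 - ((1 + ρ) / 2 * P + (1 - ρ) / 2 * Q) := by ring
        have f2 : (1 + ρ) / 2 * (1 - Q) + (1 - ρ) / 2 * (1 - P) = 1 - ((1 + ρ) / 2 * Q + (1 - ρ) / 2 * P) := by ring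
        rw [f1, f2] at b
        linarith

/-- `XCore` from the primal induction with the exact split potential. -/
theorem xcore_of_primal {ρ : ℝ} (hρ0 : 0 ≤ ρ) (hρ1 : ρ ≤ 1) (Rg : ℝ → ℝ → ℝ → Prop) (h0 : Rg 0 0 0) (h1 : Rg 1 0 0)
    (step : ∀ a0 a1 X0 Y0 X1 Y1 X Y : ℝ, 0 ≤ a0 → a0 ≤ a1 → a1 ≤ 1 → Rg a0 X0 Y0 → Rg a1 X1 Y1 →
      (∀ K0 K1 l : ℝ, UStep ρ Uex K0 K1 l → K0 * X0 + K1 * X1 + l * (a1 - a0) ≤ 2 * X) →
      (∀ K0 K1 l : ℝ, UStep ρ Uex K0 K1 l → K0 * Y1 + K1 * Y0 + l * (a1 - a0) ≤ 2 * Y) →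
      Rg ((a0 + a1) / 2) X Y)
    (fin : ∀ a X Y : ℝ, 0 ≤ a → a ≤ 1 → Rg a X Y → √(1 - ρ ^ 2) - 1 + 2 * √(a * (1 - a)) ≤ X + Y) : XCore ρ := by
  intro n u hu
  have hρ : |ρ| ≤ 1 := abs_le.2 ⟨by linarith, hρ1⟩
  have u0 : ∀ y, 0 ≤ u y := fun y => by rcases hu y with a | a <;> simp [a]
  have u1 : ∀ y, u y ≤ 1 := fun y => by rcases hu y with a | a <;> simp [a]
  have key := pair_primal hρ0 hρ1 Uex_conc Rg (by simpa [Uex_zero, Uex_one] using h0)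
    (by simpa [Uex_zero, Uex_one] using h1) step n u hu
  refine (fin _ _ _ (le_avg u0) (avg_le u1) key).trans ?_
  rw [← avg_add]
  refine avg_mono fun x => (Uex_split ?_).le
  have := noise_mono hρ (u := fun _ => 0) (v := u) u0 x
  rwa [noise_const] at this

/-- Cauchy–Schwarz for the hyperbola step (three terms). -/
theorem hp_cs {x0 y0 x1 y1 P Q w0 w1 r : ℝ} (hx0 : 0 ≤ x0) (hy0 : 0 ≤ y0) (hx1 : 0 ≤ x1) (hy1 : 0 ≤ y1)
    (hP : 0 ≤ P) (hQ : 0 ≤ Q) (h0 : w0 ^ 2 ≤ x0 * y0) (h1 : w1 ^ 2 ≤ x1 * y1) (hr : r ^ 2 ≤ P * Q) :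
    (w0 + w1 + r) ^ 2 ≤ (x0 + x1 + P) * (y0 + y1 + Q) := by
  have k : ∀ {a b c d s t : ℝ}, 0 ≤ a → 0 ≤ b → 0 ≤ c → 0 ≤ d → s ^ 2 ≤ a * b → t ^ 2 ≤ c * d →
      2 * (s * t) ≤ a * d + c * b := by
    intro a b c d s t ha hb hc hd e1 e2
    have e : (s * t) ^ 2 ≤ (a * b) * (c * d) := by
      rw [mul_pow]
      exact mul_le_mul e1 e2 (sq_nonneg _) (mul_nonneg ha hb)
    have : (2 * (s * t)) ^ 2 ≤ (a * d + c * b) ^ 2 := by nlinarith [sq_nonneg (a * d - c * b)]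
    exact (abs_le_of_sq_le_sq' this (by positivity)).2
  have k1 := k hx0 hy0 hx1 hy1 h0 h1
  have k2 := k hx0 hy0 hP hQ h0 hr
  have k3 := k hx1 hy1 hP hQ h1 hr
  nlinarith

/-- One hyperbola step: slice `i` lies in the hyperbola with centre `(ci, ei)` and radius `wi`. -/
theorem hp_step {X0 Y0 X1 Y1 X Y c0 e0 w0 c1 e1 w1 K0 K1 M0 M1 L L' c e w r0 r1 r : ℝ}
    (k0 : 0 ≤ K0) (k1 : 0 ≤ K1) (m0 : 0 ≤ M0) (m1 : 0 ≤ M1)
    (x0 : c0 ≤ X0) (y0 : e0 ≤ Y0) (z0 : w0 ^ 2 ≤ (X0 - c0) * (Y0 - e0))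
    (x1 : c1 ≤ X1) (y1 : e1 ≤ Y1) (z1 : w1 ^ 2 ≤ (X1 - c1) * (Y1 - e1))
    (hX : K0 * X0 + K1 * X1 + L ≤ 2 * X) (hY : M0 * Y1 + M1 * Y0 + L' ≤ 2 * Y)
    (hP : 0 ≤ K0 * c0 + K1 * c1 + L - 2 * c) (hQ : 0 ≤ M0 * e1 + M1 * e0 + L' - 2 * e)
    (h0 : r0 ^ 2 ≤ K0 * M1) (h1 : r1 ^ 2 ≤ K1 * M0)
    (hr : r ^ 2 ≤ (K0 * c0 + K1 * c1 + L - 2 * c) * (M0 * e1 + M1 * e0 + L' - 2 * e))
    (hw : 0 ≤ w) (hf : 2 * w ≤ r0 * w0 + r1 * w1 + r) :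
    c ≤ X ∧ e ≤ Y ∧ w ^ 2 ≤ (X - c) * (Y - e) := by
  have a0 := mul_nonneg k0 (sub_nonneg.2 x0)
  have a1 := mul_nonneg k1 (sub_nonneg.2 x1)
  have b0 := mul_nonneg m1 (sub_nonneg.2 y0)
  have b1 := mul_nonneg m0 (sub_nonneg.2 y1)
  have g0 : (r0 * w0) ^ 2 ≤ (K0 * (X0 - c0)) * (M1 * (Y0 - e0)) := by
    rw [mul_pow, mul_mul_mul_comm]
    exact mul_le_mul h0 z0 (sq_nonneg _) (mul_nonneg k0 m1)
  have g1 : (r1 * w1) ^ 2 ≤ (K1 * (X1 - c1)) * (M0 * (Y1 - e1)) := by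
    rw [mul_pow, mul_mul_mul_comm]
    exact mul_le_mul h1 z1 (sq_nonneg _) (mul_nonneg k1 m0)
  have cs := hp_cs a0 b0 a1 b1 hP hQ g0 g1 hr
  have eX : K0 * (X0 - c0) + K1 * (X1 - c1) + (K0 * c0 + K1 * c1 + L - 2 * c) ≤ 2 * (X - c) := by linarith
  have eY : M1 * (Y0 - e0) + M0 * (Y1 - e1) + (M0 * e1 + M1 * e0 + L' - 2 * e) ≤ 2 * (Y - e) := by linarith
  have nX : 0 ≤ 2 * (X - c) := le_trans (by positivity) eX
  refine ⟨by linarith, by linarith, ?_⟩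
  have t1 := mul_le_mul eX eY (by positivity) nX
  have t2 : (2 * w) ^ 2 ≤ (r0 * w0 + r1 * w1 + r) ^ 2 := pow_le_pow_left₀ (by linarith) hf 2
  linarith

/-- The step for the linear hypothesis `b a ≤ E U`. -/
def BAt (ρ : ℝ) (U b : ℝ → ℝ) (a0 a1 : ℝ) : Prop :=
  ∃ K0 K1 l : ℝ, UStep ρ U K0 K1 l ∧ 2 * b ((a0 + a1) / 2) ≤ K0 * b a0 + K1 * b a1 + l * (a1 - a0)

/-- A hyperbola (centre `(c, e)`, radius `w`) that contains the region at `a`: the `(u, v)` one or the corner `b`. -/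
def HSel (b u v : ℝ → ℝ) (a c e w : ℝ) : Prop :=
  (c = u a ∧ e = u (1 - a) ∧ w = v a) ∨ (c = b a ∧ e = b (1 - a) ∧ w = 0)

/-- The step for the hyperbola hypothesis. -/
def HAt (ρ : ℝ) (U b u v : ℝ → ℝ) (a0 a1 : ℝ) : Prop :=
  (∃ K0 K1 l M0 M1 m c0 e0 w0 c1 e1 w1 r0 r1 r : ℝ, UStep ρ U K0 K1 l ∧ UStep ρ U M0 M1 m ∧
    HSel b u v a0 c0 e0 w0 ∧ HSel b u v a1 c1 e1 w1 ∧
    0 ≤ K0 * c0 + K1 * c1 + l * (a1 - a0) - 2 * u ((a0 + a1) / 2) ∧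
    0 ≤ M0 * e1 + M1 * e0 + m * (a1 - a0) - 2 * u (1 - (a0 + a1) / 2) ∧
    r0 ^ 2 ≤ K0 * M1 ∧ r1 ^ 2 ≤ K1 * M0 ∧
    r ^ 2 ≤ (K0 * c0 + K1 * c1 + l * (a1 - a0) - 2 * u ((a0 + a1) / 2)) *
      (M0 * e1 + M1 * e0 + m * (a1 - a0) - 2 * u (1 - (a0 + a1) / 2)) ∧
    2 * v ((a0 + a1) / 2) ≤ r0 * w0 + r1 * w1 + r) ∨
  (u ((a0 + a1) / 2) ≤ b ((a0 + a1) / 2) ∧ u (1 - (a0 + a1) / 2) ≤ b (1 - (a0 + a1) / 2) ∧
    v ((a0 + a1) / 2) ^ 2 ≤ (b ((a0 + a1) / 2) - u ((a0 + a1) / 2)) *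
      (b (1 - (a0 + a1) / 2) - u (1 - (a0 + a1) / 2)))

/-- The region: two linear hypotheses and one hyperbola. -/
def HRg (b u v : ℝ → ℝ) (a X Y : ℝ) : Prop :=
  b a ≤ X ∧ b (1 - a) ≤ Y ∧ u a ≤ X ∧ u (1 - a) ≤ Y ∧ v a ^ 2 ≤ (X - u a) * (Y - u (1 - a))

theorem HSel.ok {b u v : ℝ → ℝ} {a c e w X Y : ℝ} (h : HSel b u v a c e w) (R : HRg b u v a X Y) :
    c ≤ X ∧ e ≤ Y ∧ w ^ 2 ≤ (X - c) * (Y - e) := by
  rcases h with ⟨rfl, rfl, rfl⟩ | ⟨rfl, rfl, rfl⟩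
  · exact R.2.2
  · exact ⟨R.1, R.2.1, by simpa using mul_nonneg (sub_nonneg.2 R.1) (sub_nonneg.2 R.2.1)⟩

/-- Induction for the scheme with linear hypothesis `b` and hyperbola `(u, v)` (geometric mean: `u = 0`;
pure hyperbola: `b = u`); the functions `b, u, v` contain the factor `s`. -/
theorem hyp_ind {ρ : ℝ} (hρ0 : 0 ≤ ρ) (hρ1 : ρ ≤ 1) {U : ℝ → ℝ} (hc : ConcaveOn ℝ (Icc 0 1) U)
    {b u v : ℝ → ℝ} (hv : ∀ a, 0 ≤ a → a ≤ 1 → 0 ≤ v a)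
    (h0 : HRg b u v 0 (U 0) (U 1)) (h1 : HRg b u v 1 (U 1) (U 0))
    (sb : ∀ a0 a1 : ℝ, 0 ≤ a0 → a0 ≤ a1 → a1 ≤ 1 → BAt ρ U b a0 a1)
    (sh : ∀ a0 a1 : ℝ, 0 ≤ a0 → a0 ≤ a1 → a1 ≤ 1 → HAt ρ U b u v a0 a1)
    (n : ℕ) (f : (Fin n → Bool) → ℝ) (hf : ∀ y, f y = 0 ∨ f y = 1) :
    HRg b u v (cubeAverage f) (cubeAverage fun x => U (noise ρ f x)) (cubeAverage fun x => U (1 - noise ρ f x)) := by
  refine pair_primal hρ0 hρ1 hc (HRg b u v) h0 h1 (fun a0 a1 X0 Y0 X1 Y1 X Y a00 a01 a11 R0 R1 hX hY => ?_) n f hf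
  have bX : b ((a0 + a1) / 2) ≤ X := by
    obtain ⟨K0, K1, l, hK, hb⟩ := sb a0 a1 a00 a01 a11
    have := hX K0 K1 l hK
    have := mul_le_mul_of_nonneg_left R0.1 hK.1
    have := mul_le_mul_of_nonneg_left R1.1 hK.2.1
    linarith
  have bY : b (1 - (a0 + a1) / 2) ≤ Y := by
    obtain ⟨K0, K1, l, hK, hb⟩ := sb (1 - a1) (1 - a0) (by linarith) (by linarith) (by linarith)
    have := hY K0 K1 l hK
    have := mul_le_mul_of_nonneg_left R1.2.1 hK.1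
    have := mul_le_mul_of_nonneg_left R0.2.1 hK.2.1
    rw [show (1 - a1 + (1 - a0)) / 2 = 1 - (a0 + a1) / 2 by ring] at hb
    linarith
  refine ⟨bX, bY, ?_⟩
  rcases sh a0 a1 a00 a01 a11 with ⟨K0, K1, l, M0, M1, m, c0, e0, w0, c1, e1, w1, r0, r1, r, hK, hM, s0, s1, hP, hQ,
    g0, g1, gr, gf⟩ | ⟨g1, g2, g3⟩
  · obtain ⟨x0, y0, z0⟩ := s0.ok R0
    obtain ⟨x1, y1, z1⟩ := s1.ok R1
    exact hp_step hK.1 hK.2.1 hM.1 hM.2.1 x0 y0 z0 x1 y1 z1 (hX K0 K1 l hK) (hY M0 M1 m hM) hP hQ g0 g1 gr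
      (hv _ (by linarith) (by linarith)) gf
  · exact ⟨g1.trans bX, g2.trans bY, g3.trans (mul_le_mul (by linarith) (by linarith) (by linarith) (by linarith))⟩

theorem HRg.sum {b u v : ℝ → ℝ} {a X Y : ℝ} (R : HRg b u v a X Y) : u a + u (1 - a) + 2 * v a ≤ X + Y := by
  obtain ⟨-, -, h1, h2, h3⟩ := R
  have : (2 * v a) ^ 2 ≤ ((X - u a) + (Y - u (1 - a))) ^ 2 := by nlinarith [sq_nonneg ((X - u a) - (Y - u (1 - a)))]
  have := (abs_le_of_sq_le_sq' this (by linarith)).2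
  linarith

/-- `XCore` from the scheme with the exact split potential. -/
theorem xcore_of_hyp {ρ : ℝ} (hρ0 : 0 ≤ ρ) (hρ1 : ρ ≤ 1) {b u v : ℝ → ℝ} (hv : ∀ a, 0 ≤ a → a ≤ 1 → 0 ≤ v a)
    (h0 : HRg b u v 0 0 0) (h1 : HRg b u v 1 0 0)
    (sb : ∀ a0 a1 : ℝ, 0 ≤ a0 → a0 ≤ a1 → a1 ≤ 1 → BAt ρ Uex b a0 a1)
    (sh : ∀ a0 a1 : ℝ, 0 ≤ a0 → a0 ≤ a1 → a1 ≤ 1 → HAt ρ Uex b u v a0 a1)
    (fin : ∀ a : ℝ, 0 ≤ a → a ≤ 1 → √(1 - ρ ^ 2) - 1 + 2 * √(a * (1 - a)) ≤ u a + u (1 - a) + 2 * v a ∨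
      √(1 - ρ ^ 2) - 1 + 2 * √(a * (1 - a)) ≤ b a + b (1 - a)) : XCore ρ := by
  intro n f hf
  have hρ : |ρ| ≤ 1 := abs_le.2 ⟨by linarith, hρ1⟩
  have u0 : ∀ y, 0 ≤ f y := fun y => by rcases hf y with a | a <;> simp [a]
  have u1 : ∀ y, f y ≤ 1 := fun y => by rcases hf y with a | a <;> simp [a]
  have key := hyp_ind hρ0 hρ1 Uex_conc hv (by simpa [Uex_zero, Uex_one] using h0)
    (by simpa [Uex_zero, Uex_one] using h1) sb sh n f hf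
  have e : cubeAverage (fun x => Uex (noise ρ f x)) + cubeAverage (fun x => Uex (1 - noise ρ f x)) ≤
      cubeAverage fun x => 2 * √(noise ρ f x * (1 - noise ρ f x)) := by
    rw [← avg_add]
    refine avg_mono fun x => (Uex_split ?_).le
    have := noise_mono hρ (u := fun _ => 0) (v := f) u0 x
    rwa [noise_const] at this
  rcases fin _ (le_avg u0) (avg_le u1) with h | h
  · exact (h.trans key.sum).trans e
  · exact (h.trans (add_le_add key.1 key.2.1)).trans e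

end Crest.Agent.R307
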