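import Crest.Agent.R307.HPe

/-!
# R307/HPs: end lemma for the potential `U = 2 √q - 1.8 q - 0.1 q² - 0.1 q⁵`, `q = 1 - p`
`U p + U (1-p) = sigG (c p)`, `sigG c = 2 √(1+c) - 2 + 0.175 c² - c⁴/32` is concave and increasing on `[0,1]`.
-/

set_option autoImplicit false

namespace Crest.Agent.R307

open Crest.CubeNoise Set

noncomputable def sigG (c : ℝ) : ℝ := 2 * √(1 + c) - 2 + 7 / 40 * c ^ 2 - c ^ 4 / 32

noncomputable def sigG1 (c : ℝ) : ℝ := 1 / √(1 + c) + 7 / 20 * c - c ^ 3 / 8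

theorem sigG_sqrt {c : ℝ} (hc : 0 ≤ c) : HasDerivAt (fun c => √(1 + c)) (1 / (2 * √(1 + c))) c := by
  have := ((hasDerivAt_id c).const_add 1).sqrt (by simp; linarith)
  simpa using this

theorem sigG_deriv {c : ℝ} (hc : 0 ≤ c) : HasDerivAt sigG (sigG1 c) c := by
  have r0 : 0 < √(1 + c) := Real.sqrt_pos.2 (by linarith)
  have := ((((sigG_sqrt hc).const_mul 2).sub_const 2).fun_add ((hasDerivAt_pow 2 c).const_mul (7 / 40))).fun_sub
    ((hasDerivAt_pow 4 c).div_const 32)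
  refine this.congr_deriv ?_
  unfold sigG1
  field_simp
  norm_num
  ring

theorem sigG_conc : ConcaveOn ℝ (Icc 0 1) sigG := by
  refine concaveOn_of_hasDerivWithinAt2_nonpos (convex_Icc 0 1) (f' := sigG1)
    (f'' := fun c => -(1 / (2 * √(1 + c) ^ 3)) + 7 / 20 - 3 * c ^ 2 / 8) (by unfold sigG; fun_prop) ?_ ?_ ?_
  · intro c hc
    rw [interior_Icc] at hc
    exact (sigG_deriv hc.1.le).hasDerivWithinAt
  · intro c hc
    rw [interior_Icc] at hc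
    have r0 : 0 < √(1 + c) := Real.sqrt_pos.2 (by linarith [hc.1])
    have := (((hasDerivAt_const c (1:ℝ)).fun_div (sigG_sqrt hc.1.le) r0.ne').fun_add
      ((hasDerivAt_id' c).const_mul (7 / 20))).fun_sub ((hasDerivAt_pow 3 c).div_const 8)
    refine (this.congr_deriv ?_).hasDerivWithinAt
    field_simp
    norm_num
    ring
  · intro c hc
    rw [interior_Icc] at hc
    have r0 : 0 < √(1 + c) := Real.sqrt_pos.2 (by linarith [hc.1])
    have r2 := Real.sq_sqrt (show 0 ≤ 1 + c by linarith [hc.1])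
    generalize √(1 + c) = r at *
    have h1 : r ^ 3 * (36 / 25 - 3 / 5 * r ^ 2) ≤ 1 := by
      have : 0 ≤ (r - 6 / 5) ^ 2 * (3 / 5 * r ^ 3 + 36 / 25 * r ^ 2 + 144 / 125 * r + 432 / 625) := by positivity
      nlinarith
    have h2 : (36 / 25 - 3 / 5 * r ^ 2) / 2 ≤ 1 / (2 * r ^ 3) := by
      rw [div_le_div_iff₀ (by norm_num) (by positivity)]
      nlinarith
    rw [r2] at h2
    nlinarith [sq_nonneg (c - 2 / 5)]

theorem sigG_tan {T c : ℝ} (T0 : 0 ≤ T) (T1 : T ≤ 1) (c0 : 0 ≤ c) (c1 : c ≤ 1) :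
    sigG c ≤ sigG T + sigG1 T * (c - T) := by
  rcases lt_trichotomy T c with h | h | h
  · have := sigG_conc.slope_le_of_hasDerivAt ⟨T0, T1⟩ ⟨c0, c1⟩ h (sigG_deriv T0)
    rw [slope_def_field, div_le_iff₀ (sub_pos.2 h)] at this
    linarith
  · simp [h]
  · have := sigG_conc.le_slope_of_hasDerivAt ⟨c0, c1⟩ ⟨T0, T1⟩ h (sigG_deriv T0)
    rw [slope_def_field, le_div_iff₀ (sub_pos.2 h)] at this
    linarith

theorem sigG1_pos {T : ℝ} (T0 : 0 ≤ T) (T1 : T ≤ 1) : 0 < sigG1 T := by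
  have r0 : 0 < √(1 + T) := Real.sqrt_pos.2 (by linarith)
  have : 0 < 1 / √(1 + T) := by positivity
  have : T ^ 3 ≤ T := by nlinarith [mul_nonneg T0 T0, mul_nonneg T0 (sub_nonneg.2 T1)]
  unfold sigG1
  linarith

/-- The split identity. -/
theorem sigG_split {U : ℝ → ℝ}
    (hU : ∀ p, U p = 2 * √(1 - p) - 9 / 5 * (1 - p) - (1 - p) ^ 2 / 10 - (1 - p) ^ 5 / 10) {p : ℝ}
    (h0 : 0 ≤ p) (h1 : p ≤ 1) : U p + U (1 - p) = sigG (2 * √(p * (1 - p))) := by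
  have a2 := Real.sq_sqrt h0
  have b2 := Real.sq_sqrt (sub_nonneg.2 h1)
  have c2 := Real.sq_sqrt (mul_nonneg h0 (sub_nonneg.2 h1))
  have e : √(1 + 2 * √(p * (1 - p))) = √p + √(1 - p) := by
    rw [Real.sqrt_eq_iff_mul_self_eq (by positivity) (by positivity), Real.sqrt_mul h0]
    nlinarith
  rw [hU, hU, sub_sub_cancel, sigG, e, show (2 * √(p * (1 - p))) ^ 4 = 16 * (√(p * (1 - p)) ^ 2) ^ 2 by ring,
    mul_pow, c2]
  ring

/-- End lemma: `sigG T ≤ X + Y` on the region gives `XCore`. -/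
theorem xcore_of_region_sig {ρ : ℝ} (hρ0 : 0 ≤ ρ) (hρ1 : ρ ≤ 1) {U : ℝ → ℝ}
    (hU : ∀ p, U p = 2 * √(1 - p) - 9 / 5 * (1 - p) - (1 - p) ^ 2 / 10 - (1 - p) ^ 5 / 10) (Rg : ℝ → ℝ → ℝ → Prop)
    (ind : ∀ (n : ℕ) (u : (Fin n → Bool) → ℝ), (∀ y, u y = 0 ∨ u y = 1) →
      Rg (cubeAverage u) (cubeAverage fun x => U (noise ρ u x)) (cubeAverage fun x => U (1 - noise ρ u x)))
    (fin : ∀ a T X Y : ℝ, 0 ≤ a → a ≤ 1 → T = √(1 - ρ ^ 2) - 1 + 2 * √(a * (1 - a)) → 0 < T → Rg a X Y →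
      sigG T ≤ X + Y) : XCore ρ := by
  refine xcore_of_region_cvx (R := fun c => c - sigG c) (R1 := fun c => 1 - sigG1 c) hρ0 hρ1 Rg ind
    (fun T c T0 T1 c0 c1 => ?_) (fun T T0 T1 => by linarith [sigG1_pos T0.le T1]) (fun p p0 p1 => ?_)
    fun a T X Y a0 a1 hT T0 R => ?_
  · linarith [sigG_tan T0.le T1 c0 c1]
  · rw [sigG_split hU p0 p1]
    linarith
  · linarith [fin a T X Y a0 a1 hT T0 R]

/-- Usable form of the target: `sigG (s - 1 + c) ≤ sigG s - sigG1 s * (1 - c)`. -/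
theorem sigG_end {s c : ℝ} (s0 : 0 ≤ s) (s1 : s ≤ 1) (c1 : c ≤ 1) (hT : 0 ≤ s - 1 + c) :
    sigG (s - 1 + c) ≤ sigG s - sigG1 s * (1 - c) := by
  have := sigG_tan s0 s1 hT (by linarith)
  linarith

end Crest.Agent.R307
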