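import Crest.Agent.R307.HWa
import Crest.Agent.R307.HWcFM

/-!
# R307/HWb: the numerical inequality at the dictator corner
-/

set_option autoImplicit false

namespace Crest.Agent.R307

open Crest.CubeNoise

/-- Variance bound for a slice of mass `e`. -/
noncomputable def hwV (ρ e : ℝ) : ℝ :=
  e * (ρ ^ 2 * (1 - ρ ^ 2) * min (1 / 2) (1531 / 1250 * √e) + (ρ ^ 2) ^ 2 * (1 - e))

theorem hwb_c (p : ℝ) : hwc p = √(4 * (p * (1 - p))) := by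
  rw [hwc, Real.sqrt_mul (by norm_num : (0 : ℝ) ≤ 4), show (4 : ℝ) = 2 ^ 2 by norm_num,
    Real.sqrt_sq (by norm_num : (0 : ℝ) ≤ 2)]

theorem hwb_sq {B D : ℝ} (hB : 0 < B) (hA : 0 ≤ B + D) : √(B + D) = √B + D / (√(B + D) + √B) := by
  have h1 : 0 < √B := Real.sqrt_pos.2 hB
  have h2 : 0 < √(B + D) + √B := by positivity
  have h3 := Real.sq_sqrt hA
  have h4 := Real.sq_sqrt hB.le
  rw [← sub_eq_iff_eq_add', eq_div_iff h2.ne']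
  linarith

theorem hwb_G {ρ e : ℝ} (h0 : 3 / 10 ≤ ρ) (h1 : ρ ≤ 33 / 50) (he0 : 0 ≤ e) (he1 : e ≤ 1) :
    hwG ρ e = √(1 - ρ ^ 2) + e * (2 * ((1 + ρ) / 2) * (ρ - (1 + ρ) / 2 * e) /
      (√(1 - ρ ^ 2 + 4 * ((1 + ρ) / 2) * e * (ρ - (1 + ρ) / 2 * e)) + √(1 - ρ ^ 2))
      - 2 * ((1 - ρ) / 2) * (ρ + (1 - ρ) / 2 * e) /
      (√(1 - ρ ^ 2 - 4 * ((1 - ρ) / 2) * e * (ρ + (1 - ρ) / 2 * e)) + √(1 - ρ ^ 2))) := by
  have hB : 0 < 1 - ρ ^ 2 := by nlinarith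
  have e1 : 4 * ((1 + ρ) / 2 * (1 - e) * (1 - (1 + ρ) / 2 * (1 - e)))
      = 1 - ρ ^ 2 + 4 * ((1 + ρ) / 2) * e * (ρ - (1 + ρ) / 2 * e) := by ring
  have e2 : 4 * ((1 - ρ) / 2 * (1 - e) * (1 - (1 - ρ) / 2 * (1 - e)))
      = 1 - ρ ^ 2 + -(4 * ((1 - ρ) / 2) * e * (ρ + (1 - ρ) / 2 * e)) := by ring
  have p1 : 0 ≤ 1 - ρ ^ 2 + 4 * ((1 + ρ) / 2) * e * (ρ - (1 + ρ) / 2 * e) := by
    rw [← e1]
    exact mul_nonneg (by norm_num) (mul_nonneg (mul_nonneg (by linarith) (by linarith)) (by nlinarith))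
  have p2 : 0 ≤ 1 - ρ ^ 2 + -(4 * ((1 - ρ) / 2) * e * (ρ + (1 - ρ) / 2 * e)) := by
    rw [← e2]
    exact mul_nonneg (by norm_num) (mul_nonneg (mul_nonneg (by linarith) (by linarith)) (by nlinarith))
  have q1 := hwb_sq hB p1
  have q2 := hwb_sq hB p2
  rw [hwG, hwb_c, hwb_c, e1, e2]
  rw [← sub_eq_add_neg] at q2 ⊢
  set A1 := √(1 - ρ ^ 2 + 4 * ((1 + ρ) / 2) * e * (ρ - (1 + ρ) / 2 * e)) with hA1
  set A2 := √(1 - ρ ^ 2 - 4 * ((1 - ρ) / 2) * e * (ρ + (1 - ρ) / 2 * e)) with hA2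
  have h5 : (A1 + A2) / 2 = (√(1 - ρ ^ 2) + 4 * ((1 + ρ) / 2) * e * (ρ - (1 + ρ) / 2 * e) / (A1 + √(1 - ρ ^ 2))
      + (√(1 - ρ ^ 2) + -(4 * ((1 - ρ) / 2) * e * (ρ + (1 - ρ) / 2 * e)) / (A2 + √(1 - ρ ^ 2)))) / 2 := by
    rw [← q1, ← q2]
  rw [h5]
  ring

theorem hw_num {ρ e0 e1 : ℝ} (h0 : 3 / 10 ≤ ρ) (h1 : ρ ≤ 33 / 50) (he0 : 0 ≤ e0) (he1 : 0 ≤ e1) (he : e0 + e1 ≤ 19 / 100) :
    ∃ l q : ℝ, 0 ≤ l ∧ l ≤ 1 - ρ ^ 2 ∧ 0 < q ∧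
      √(1 - (e0 - e1) ^ 2) - 1 + √(1 - ρ ^ 2) ≤ hwG ρ e0 + hwG ρ e1 - √(1 - ρ ^ 2) - HWcG.K ρ e0 0 * hwV ρ e0
        - HWcG.K ρ e1 0 * hwV ρ e1 + l * (e0 * e1 - (hwV ρ e0 / q + q * hwV ρ e1) / 2) := by
  have hη : 0 ≤ e0 + e1 := by linarith
  set r := √(e0 + e1) with hr
  set t := e0 / (e0 + e1) with ht
  have het : HWcF.et ρ r t = e0 + e1 := by rw [HWcF.et, hr, Real.sq_sqrt hη]
  have hηt : (e0 + e1) * t = e0 := by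
    rcases hη.eq_or_lt with h | h
    · rw [← h]; linarith
    · rw [ht]; field_simp
  have hee0 : HWcF.ee0 ρ r t = e0 := by rw [HWcF.ee0, het, hηt]
  have hee1 : HWcF.ee1 ρ r t = e1 := by rw [HWcF.ee1, het]; linarith
  have hm : HWcF.m ρ r t = e0 - e1 := by rw [HWcF.m, het, HWcF.mu]; linarith
  have hQ := HWcF.main ρ r t h0 h1 (Real.sqrt_nonneg _)
    (by rw [hr]; exact Real.sqrt_le_iff.2 ⟨by norm_num, by linarith⟩) (div_nonneg he0 hη)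
    (div_le_one_of_le₀ (by linarith) hη)
  have hG0 : hwG ρ e0 = √(1 - ρ ^ 2) + e0 * HWcF.Ga0 ρ r t := by
    rw [HWcF.Ga0, hee0]
    exact hwb_G h0 h1 he0 (by linarith)
  have hG1 : hwG ρ e1 = √(1 - ρ ^ 2) + e1 * HWcF.Ga1 ρ r t := by
    rw [HWcF.Ga1, hee1]
    exact hwb_G h0 h1 he1 (by linarith)
  have hK0 : HWcG.K ρ e0 0 = HWcF.K0 ρ r t := by rw [HWcF.K0, hee0]; rfl
  have hK1 : HWcG.K ρ e1 0 = HWcF.K1 ρ r t := by rw [HWcF.K1, hee1]; rfl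
  have hV0 : hwV ρ e0 = e0 * HWcF.v0 ρ r t := by rw [HWcF.v0, hee0]; rfl
  have hV1 : hwV ρ e1 = e1 * HWcF.v1 ρ r t := by rw [HWcF.v1, hee1]; rfl
  have hC : HWcF.C ρ r t = √(1 - (e0 - e1) ^ 2) := by rw [HWcF.C, hm]
  have hC2 : HWcF.C ρ r t ^ 2 = 1 - (e0 - e1) ^ 2 := by
    rw [hC, Real.sq_sqrt]; nlinarith
  have hC0 : 0 < 1 + HWcF.C ρ r t := by rw [hC]; positivity
  have hb : (e0 + e1) * HWcF.base ρ r t = e0 * (HWcF.Ga0 ρ r t - HWcF.K0 ρ r t * HWcF.v0 ρ r t)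
      + e1 * (HWcF.Ga1 ρ r t - HWcF.K1 ρ r t * HWcF.v1 ρ r t) + (1 - HWcF.C ρ r t) := by
    have h2 : (e0 + e1) * (HWcF.mu ρ r t * HWcF.m ρ r t / (1 + HWcF.C ρ r t)) = 1 - HWcF.C ρ r t := by
      have h3 : (e0 + e1) * HWcF.mu ρ r t = e0 - e1 := by rw [HWcF.mu]; linarith
      rw [← mul_div_assoc, ← mul_assoc, h3, hm, div_eq_iff hC0.ne']
      linarith
    have h4 : (e0 + e1) * (1 - t) = e1 := by linarith
    rw [HWcF.base, mul_add, mul_add, h2, ← mul_assoc, ← mul_assoc, hηt, h4]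
  have key : ∀ l q : ℝ, 0 < HWcF.base ρ r t + l * (HWcF.et ρ r t * t * (1 - t)
      - (t * HWcF.v0 ρ r t / q + q * (1 - t) * HWcF.v1 ρ r t) / 2) →
      √(1 - (e0 - e1) ^ 2) - 1 + √(1 - ρ ^ 2) ≤ hwG ρ e0 + hwG ρ e1 - √(1 - ρ ^ 2) - HWcG.K ρ e0 0 * hwV ρ e0
        - HWcG.K ρ e1 0 * hwV ρ e1 + l * (e0 * e1 - (hwV ρ e0 / q + q * hwV ρ e1) / 2) := by
    intro l q h
    have h2 := mul_nonneg hη h.le
    have h4 : (e0 + e1) * (1 - t) = e1 := by linarith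
    have h5 : (e0 + e1) * (l * (HWcF.et ρ r t * t * (1 - t)
        - (t * HWcF.v0 ρ r t / q + q * (1 - t) * HWcF.v1 ρ r t) / 2))
        = l * (((e0 + e1) * t) * ((e0 + e1) * (1 - t))
          - (((e0 + e1) * t) * HWcF.v0 ρ r t / q + q * (((e0 + e1) * (1 - t)) * HWcF.v1 ρ r t)) / 2) := by
      rw [het]; ring
    rw [mul_add, hb, h5, hηt, h4] at h2
    rw [hG0, hG1, hK0, hK1, hV0, hV1, ← hC]
    linarith
  have hx : 0 ≤ 1 - ρ ^ 2 := by nlinarith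
  rcases hQ with h | h | h | h
  · exact ⟨0, 1, le_rfl, hx, one_pos, key 0 1 (by simpa using h)⟩
  · exact ⟨1 - ρ ^ 2, 1, hx, le_rfl, one_pos, key _ _ h⟩
  · exact ⟨1 - ρ ^ 2, 2, hx, le_rfl, two_pos, key _ _ h⟩
  · exact ⟨1 - ρ ^ 2, 1 / 2, hx, le_rfl, one_half_pos, key _ _ h⟩

end Crest.Agent.R307
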