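import Crest.Agent.R307.HNc
import Crest.Agent.R307.HWb

/-!
# R307/HWc: the dictator corner for moderate noise
-/

set_option autoImplicit false

namespace Crest.Agent.R307

open Crest.CubeNoise

variable {n : ℕ}

theorem hw_var {ρ e : ℝ} (hρ : ρ ^ 2 ≤ 1) {f : (Fin n → Bool) → ℝ} (hf : ∀ x, f x = 1 ∨ f x = -1)
    (he : cubeAverage f = 1 - 2 * e) (he1 : e ≤ 19 / 100) :
    (cubeAverage fun x => ((1 - noise ρ f x) / 2 - e) ^ 2) ≤ hwV ρ e := by
  have hle : cubeAverage f ≤ 1 := avg_le fun x => by rcases hf x with h | h <;> rw [h] <;> norm_num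
  have he0 : 0 ≤ e := by linarith
  have h1 := hn_var hρ hf
  obtain ⟨h2, h3⟩ := W1_le_mean hf
  have hW := W1_nonneg f
  rw [he] at h1 h2 h3
  rw [abs_of_nonneg (by linarith)] at h2 h3
  have e1 : ∀ x, ((1 - noise ρ f x) / 2 - e) ^ 2 = (noise ρ f x - (1 - 2 * e)) ^ 2 / 4 :=
    fun x => by ring
  simp only [e1, avg_div]
  have hs := Real.sq_sqrt he0
  have hs0 := Real.sqrt_nonneg e
  have h4 : W1 f ≤ 4 * (e * (1531 / 1250 * √e)) := by
    refine (sq_le_sq₀ hW (by positivity)).1 (h3.trans ?_)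
    have : (4 * (e * (1531 / 1250 * √e))) ^ 2 = (4 * (1531 / 1250)) ^ 2 * e ^ 3 := by
      rw [mul_pow, mul_pow, mul_pow, hs]; ring
    rw [this]
    have : 0 ≤ e ^ 3 := by positivity
    nlinarith
  have h5 : W1 f ≤ 4 * (e * min (1 / 2) (1531 / 1250 * √e)) := by
    rcases min_choice (1 / 2 : ℝ) (1531 / 1250 * √e) with h | h <;> rw [h]
    · linarith
    · exact h4
  have h6 := mul_le_mul_of_nonneg_left h5 (mul_nonneg (sq_nonneg ρ) (sub_nonneg.2 hρ))
  unfold hwV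
  nlinarith

theorem hwc_sqrt (g : ℝ) : √(1 - g ^ 2) = hwc ((1 + g) / 2) := by
  rw [hwc, show 1 - g ^ 2 = 2 ^ 2 * ((1 + g) / 2 * (1 - (1 + g) / 2)) by ring,
    Real.sqrt_mul (by norm_num), Real.sqrt_sq (by norm_num)]

theorem hw_corner {ρ : ℝ} (h0 : 3 / 10 ≤ ρ) (h1 : ρ ≤ 33 / 50) {f : (Fin (n + 1) → Bool) → ℝ}
    (hf : ∀ x, f x = 1 ∨ f x = -1) (h : 81 / 100 ≤ co f 0) : HN ρ f := by
  set f0 := sl f false with hf0
  set f1 := sl f true with hf1
  have s0 : ∀ x, -f0 x = 1 ∨ -f0 x = -1 := fun x => by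
    rcases hf (Fin.cons false x) with e | e
    · right; rw [hf0, sl, e]
    · left; rw [hf0, sl, e, neg_neg]
  have s1 : ∀ x, f1 x = 1 ∨ f1 x = -1 := fun x => hf _
  have a0 : ∀ x, |f0 x| ≤ 1 := fun x => by
    rw [← abs_neg]; rcases s0 x with e | e <;> rw [e] <;> norm_num
  have a1 : ∀ x, |f1 x| ≤ 1 := fun x => by rcases s1 x with e | e <;> rw [e] <;> norm_num
  have hρ1 : |ρ| ≤ 1 := abs_le.2 ⟨by linarith, by linarith⟩
  have hρ2 : ρ ^ 2 ≤ 1 := by nlinarith
  set e0 := (1 + cubeAverage f0) / 2 with he0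
  set e1 := (1 - cubeAverage f1) / 2 with he1
  have p0 : 0 ≤ e0 := by
    have := le_avg fun x => (abs_le.1 (a0 x)).1
    linarith
  have p1 : 0 ≤ e1 := by
    have := avg_le fun x => (abs_le.1 (a1 x)).2
    linarith
  have hsum : e0 + e1 ≤ 19 / 100 := by
    rw [co_zero] at h
    linarith
  have hm : cubeAverage f = e0 - e1 := by rw [avg_succ]; linarith
  obtain ⟨l, q, hl0, hl1, hq, hnum⟩ := hw_num h0 h1 p0 p1 hsum
  obtain ⟨hK0, l0, ht0⟩ := hw_tan h0 h1 p0 (by linarith)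
  obtain ⟨hK1, l1, ht1⟩ := hw_tan h0 h1 p1 (by linarith)
  set K0 := HWcG.K ρ e0 0
  set K1 := HWcG.K ρ e1 0
  set z0 : (Fin n → Bool) → ℝ := fun x => (1 + noise ρ f0 x) / 2 - e0 with hz0
  set z1 : (Fin n → Bool) → ℝ := fun x => (1 - noise ρ f1 x) / 2 - e1 with hz1
  have m0 : cubeAverage z0 = 0 := by
    simp only [hz0, avg_sub, avg_div, avg_add, avg_const]
    rw [avg_noise]
    linarith
  have m1 : cubeAverage z1 = 0 := by
    simp only [hz1, avg_sub, avg_div, avg_const]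
    rw [avg_noise]
    linarith
  have v0 : (cubeAverage fun x => z0 x ^ 2) ≤ hwV ρ e0 := by
    have := hw_var (e := e0) hρ2 s0 (by rw [avg_neg]; linarith) (by linarith)
    have e : ∀ x, noise ρ (fun y => -f0 y) x = -noise ρ f0 x := fun x => by
      simpa using noise_affine ρ (-1) 0 f0 x
    simpa only [e, sub_neg_eq_add] using this
  have v1 : (cubeAverage fun x => z1 x ^ 2) ≤ hwV ρ e1 :=
    hw_var hρ2 s1 (by linarith) (by linarith)
  have pt : ∀ x, (hwG ρ e0 + hwG ρ e1 - √(1 - ρ ^ 2) + l * (e0 * e1)) + (l0 + l * e1) * z0 x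
      + (l1 + l * e0) * z1 x - (K0 + l / q / 2) * z0 x ^ 2 - (K1 + l * q / 2) * z1 x ^ 2 ≤
      (sl (fun x => √(1 - noise ρ f x ^ 2)) false x +
        sl (fun x => √(1 - noise ρ f x ^ 2)) true x) / 2 := by
    intro x
    have b0 := abs_le.1 (abs_noise_le hρ1 a0 x)
    have b1 := abs_le.1 (abs_noise_le hρ1 a1 x)
    have n0 := noise_sl ρ f false x
    have n1 := noise_sl ρ f true x
    rw [← hf0, ← hf1] at n0 n1
    simp only [sl, spin, if_true, Bool.false_eq_true, if_false] at n0 n1 ⊢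
    set u := (1 + noise ρ f0 x) / 2 with hu
    set v := (1 - noise ρ f1 x) / 2 with hv
    have u0 : 0 ≤ u := by linarith
    have u1 : u ≤ 1 := by linarith
    have w0 : 0 ≤ v := by linarith
    have w1 : v ≤ 1 := by linarith
    have g0 : (1 + noise ρ f (Fin.cons false x)) / 2 = (1 + ρ) / 2 * u + (1 - ρ) / 2 * (1 - v) := by
      rw [n0, hu, hv]; ring
    have g1 : (1 + noise ρ f (Fin.cons true x)) / 2 = (1 - ρ) / 2 * u + (1 + ρ) / 2 * (1 - v) := by
      rw [n1, hu, hv]; ring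
    rw [hwc_sqrt (noise ρ f _), hwc_sqrt (noise ρ f _), g0, g1]
    have c1 := hw_super (by linarith : 0 ≤ ρ) (by linarith) u0 u1 w0 w1
    have c2 := ht0 u u0 u1
    have c3 := ht1 v w0 w1
    have c4 : l * (u * v) ≤ (1 - ρ ^ 2) * (u * v) :=
      mul_le_mul_of_nonneg_right hl1 (mul_nonneg u0 w0)
    have c5 : 0 ≤ l / q / 2 * ((u - e0) + q * (v - e1)) ^ 2 := by positivity
    have c6 : l / q / 2 * ((u - e0) + q * (v - e1)) ^ 2 =
        l / q / 2 * (u - e0) ^ 2 + l * ((u - e0) * (v - e1)) + l * q / 2 * (v - e1) ^ 2 := by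
      field_simp
      ring
    have z0e : z0 x = u - e0 := rfl
    have z1e : z1 x = v - e1 := rfl
    rw [z0e, z1e]
    linear_combination c1 + c2 + c3 + c4 + c5 + c6
  have hav := avg_mono pt
  rw [avg_div, avg_add, ← avg_succ, avg_sub, avg_sub, avg_add, avg_add, avg_const, avg_mul, avg_mul,
    avg_mul, avg_mul, m0, m1] at hav
  have d0 := mul_le_mul_of_nonneg_left v0 (show 0 ≤ K0 + l / q / 2 by positivity)
  have d1 := mul_le_mul_of_nonneg_left v1 (show 0 ≤ K1 + l * q / 2 by positivity)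
  rw [HN, hm]
  refine hnum.trans (le_trans ?_ hav)
  have : l * (e0 * e1 - (hwV ρ e0 / q + q * hwV ρ e1) / 2) =
      l * (e0 * e1) - l / q / 2 * hwV ρ e0 - l * q / 2 * hwV ρ e1 := by ring
  rw [this]
  linarith

end Crest.Agent.R307
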