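import Crest.Agent.R307.IA3
import Crest.Agent.R307.IAx
set_option autoImplicit false
set_option linter.unusedVariables false
set_option maxRecDepth 20000
namespace Crest.Agent.R307.HWcF
open Crest.Agent.R307.IA Crest.Agent.R307.IA3

theorem In_cast {e1 e2 e3 : ℝ} {x y1 y2 y3 r : ℕ} {v w : ℝ}
    (h : In e1 e2 e3 x y1 y2 y3 r v) (e : v = w) : In e1 e2 e3 x y1 y2 y3 r w := e ▸ h

noncomputable def al (p r t : ℝ) : ℝ := (((1:ℝ) + p) / (2:ℝ))
noncomputable def et (p r t : ℝ) : ℝ := (r ^ 2)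
noncomputable def ee0 (p r t : ℝ) : ℝ := ((et p r t) * t)
noncomputable def x (p r t : ℝ) : ℝ := (p ^ 2)
noncomputable def s (p r t : ℝ) : ℝ := (√((1:ℝ) - (x p r t)))
noncomputable def be (p r t : ℝ) : ℝ := (((1:ℝ) - p) / (2:ℝ))
noncomputable def Ga0 (p r t : ℝ) : ℝ := (((((2:ℝ) * (al p r t)) * (p - ((al p r t) * (ee0 p r t)))) / ((√(((1:ℝ) - (x p r t)) + ((((4:ℝ) * (al p r t)) * (ee0 p r t)) * (p - ((al p r t) * (ee0 p r t)))))) + (s p r t))) - ((((2:ℝ) * (be p r t)) * (p + ((be p r t) * (ee0 p r t)))) / ((√(((1:ℝ) - (x p r t)) - ((((4:ℝ) * (be p r t)) * (ee0 p r t)) * (p + ((be p r t) * (ee0 p r t)))))) + (s p r t))))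
noncomputable def K0 (p r t : ℝ) : ℝ := ((((((1123/1000:ℝ) - ((457/1000:ℝ) * (p ^ 2))) + ((383/500:ℝ) * ((p ^ 2) ^ 2))) + ((1519/200:ℝ) * ((p ^ 2) ^ 3))) + ((ee0 p r t) * ((((-132/125:ℝ) + ((18177/1000:ℝ) * (p ^ 2))) - ((333/8:ℝ) * ((p ^ 2) ^ 2))) - ((9513/200:ℝ) * ((p ^ 2) ^ 3))))) + (((ee0 p r t) ^ 2) * (((10067/1000:ℝ) - ((10539/125:ℝ) * (p ^ 2))) + ((118263/500:ℝ) * ((p ^ 2) ^ 2)))))
noncomputable def v0 (p r t : ℝ) : ℝ := ((((x p r t) * ((1:ℝ) - (x p r t))) * (min (1/2:ℝ) ((1531/1250:ℝ) * (√(ee0 p r t))))) + (((x p r t) ^ 2) * ((1:ℝ) - (ee0 p r t))))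
noncomputable def ee1 (p r t : ℝ) : ℝ := ((et p r t) * ((1:ℝ) - t))
noncomputable def Ga1 (p r t : ℝ) : ℝ := (((((2:ℝ) * (al p r t)) * (p - ((al p r t) * (ee1 p r t)))) / ((√(((1:ℝ) - (x p r t)) + ((((4:ℝ) * (al p r t)) * (ee1 p r t)) * (p - ((al p r t) * (ee1 p r t)))))) + (s p r t))) - ((((2:ℝ) * (be p r t)) * (p + ((be p r t) * (ee1 p r t)))) / ((√(((1:ℝ) - (x p r t)) - ((((4:ℝ) * (be p r t)) * (ee1 p r t)) * (p + ((be p r t) * (ee1 p r t)))))) + (s p r t))))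
noncomputable def K1 (p r t : ℝ) : ℝ := ((((((1123/1000:ℝ) - ((457/1000:ℝ) * (p ^ 2))) + ((383/500:ℝ) * ((p ^ 2) ^ 2))) + ((1519/200:ℝ) * ((p ^ 2) ^ 3))) + ((ee1 p r t) * ((((-132/125:ℝ) + ((18177/1000:ℝ) * (p ^ 2))) - ((333/8:ℝ) * ((p ^ 2) ^ 2))) - ((9513/200:ℝ) * ((p ^ 2) ^ 3))))) + (((ee1 p r t) ^ 2) * (((10067/1000:ℝ) - ((10539/125:ℝ) * (p ^ 2))) + ((118263/500:ℝ) * ((p ^ 2) ^ 2)))))
noncomputable def v1 (p r t : ℝ) : ℝ := ((((x p r t) * ((1:ℝ) - (x p r t))) * (min (1/2:ℝ) ((1531/1250:ℝ) * (√(ee1 p r t))))) + (((x p r t) ^ 2) * ((1:ℝ) - (ee1 p r t))))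
noncomputable def mu (p r t : ℝ) : ℝ := (((2:ℝ) * t) - (1:ℝ))
noncomputable def m (p r t : ℝ) : ℝ := ((mu p r t) * (et p r t))
noncomputable def C (p r t : ℝ) : ℝ := (√((1:ℝ) - ((m p r t) ^ 2)))
noncomputable def base (p r t : ℝ) : ℝ := (((t * ((Ga0 p r t) - ((K0 p r t) * (v0 p r t)))) + (((1:ℝ) - t) * ((Ga1 p r t) - ((K1 p r t) * (v1 p r t))))) + (((mu p r t) * (m p r t)) / ((1:ℝ) + (C p r t))))

def Q (p r t : ℝ) : Prop :=
  (
  (0 < (base p r t)) ∨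
  (0 < ((base p r t) + (((1:ℝ) - (x p r t)) * ((((et p r t) * t) * ((1:ℝ) - t)) - ((((t * (v0 p r t)) / (1:ℝ)) + (((1:ℝ) * ((1:ℝ) - t)) * (v1 p r t))) / (2:ℝ)))))) ∨
  (0 < ((base p r t) + (((1:ℝ) - (x p r t)) * ((((et p r t) * t) * ((1:ℝ) - t)) - ((((t * (v0 p r t)) / (2:ℝ)) + (((2:ℝ) * ((1:ℝ) - t)) * (v1 p r t))) / (2:ℝ)))))) ∨
  (0 < ((base p r t) + (((1:ℝ) - (x p r t)) * ((((et p r t) * t) * ((1:ℝ) - t)) - ((((t * (v0 p r t)) / (1/2:ℝ)) + (((1/2:ℝ) * ((1:ℝ) - t)) * (v1 p r t))) / (2:ℝ)))))))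

noncomputable def alt0 (z1 w1 z2 w2 z3 w3 : ℕ) : Bool :=
  sqK z1 (Nat.add w1 1152921504606846976) 1152921504606846976 1152921504606846976 0 fun c1 a1_1 a1_2 a1_3 q1 =>
  negK c1 a1_1 a1_2 a1_3 q1 fun c3 a3_1 a3_2 a3_3 q3 =>
  addcK c3 a3_1 a3_2 a3_3 q3 1152922604118474752 0 fun c4 a4_1 a4_2 a4_3 q4 =>
  addcK z1 (Nat.add w1 1152921504606846976) 1152921504606846976 1152921504606846976 0 1152922604118474752 0 fun c6 a6_1 a6_2 a6_3 q6 =>
  smulK 1 2 2305843009213693954 1152921504606846976 c6 a6_1 a6_2 a6_3 q6 fun c8 a8_1 a8_2 a8_3 q8 =>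
  smulK 4 1 1152921504606846977 4611686018427387904 c8 a8_1 a8_2 a8_3 q8 fun c11 a11_1 a11_2 a11_3 q11 =>
  sqK z2 1152921504606846976 (Nat.add w2 1152921504606846976) 1152921504606846976 0 fun c12 a12_1 a12_2 a12_3 q12 =>
  mulK c12 a12_1 a12_2 a12_3 q12 z3 1152921504606846976 1152921504606846976 (Nat.add w3 1152921504606846976) 0 fun c14 a14_1 a14_2 a14_3 q14 =>
  mulK c11 a11_1 a11_2 a11_3 q11 c14 a14_1 a14_2 a14_3 q14 fun c16 a16_1 a16_2 a16_3 q16 =>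
  mulK c8 a8_1 a8_2 a8_3 q8 c14 a14_1 a14_2 a14_3 q14 fun c17 a17_1 a17_2 a17_3 q17 =>
  subK z1 (Nat.add w1 1152921504606846976) 1152921504606846976 1152921504606846976 0 c17 a17_1 a17_2 a17_3 q17 fun c18 a18_1 a18_2 a18_3 q18 =>
  mulK c16 a16_1 a16_2 a16_3 q16 c18 a18_1 a18_2 a18_3 q18 fun c19 a19_1 a19_2 a19_3 q19 =>
  addK c4 a4_1 a4_2 a4_3 q4 c19 a19_1 a19_2 a19_3 q19 fun c20 a20_1 a20_2 a20_3 q20 =>
  sqrtK c20 a20_1 a20_2 a20_3 q20 fun c21 a21_1 a21_2 a21_3 q21 =>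
  sqrtK c4 a4_1 a4_2 a4_3 q4 fun c22 a22_1 a22_2 a22_3 q22 =>
  addK c21 a21_1 a21_2 a21_3 q21 c22 a22_1 a22_2 a22_3 q22 fun c24 a24_1 a24_2 a24_3 q24 =>
  invK c24 a24_1 a24_2 a24_3 q24 fun c25 a25_1 a25_2 a25_3 q25 =>
  smulK 2 1 1152921504606846977 2305843009213693952 c8 a8_1 a8_2 a8_3 q8 fun c26 a26_1 a26_2 a26_3 q26 =>
  mulK c26 a26_1 a26_2 a26_3 q26 c18 a18_1 a18_2 a18_3 q18 fun c27 a27_1 a27_2 a27_3 q27 =>
  mulK c27 a27_1 a27_2 a27_3 q27 c25 a25_1 a25_2 a25_3 q25 fun c28 a28_1 a28_2 a28_3 q28 =>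
  negK z1 (Nat.add w1 1152921504606846976) 1152921504606846976 1152921504606846976 0 fun c30 a30_1 a30_2 a30_3 q30 =>
  addcK c30 a30_1 a30_2 a30_3 q30 1152922604118474752 0 fun c31 a31_1 a31_2 a31_3 q31 =>
  smulK 1 2 2305843009213693954 1152921504606846976 c31 a31_1 a31_2 a31_3 q31 fun c33 a33_1 a33_2 a33_3 q33 =>
  smulK 4 1 1152921504606846977 4611686018427387904 c33 a33_1 a33_2 a33_3 q33 fun c36 a36_1 a36_2 a36_3 q36 =>
  mulK c36 a36_1 a36_2 a36_3 q36 c14 a14_1 a14_2 a14_3 q14 fun c37 a37_1 a37_2 a37_3 q37 =>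
  mulK c33 a33_1 a33_2 a33_3 q33 c14 a14_1 a14_2 a14_3 q14 fun c38 a38_1 a38_2 a38_3 q38 =>
  addK z1 (Nat.add w1 1152921504606846976) 1152921504606846976 1152921504606846976 0 c38 a38_1 a38_2 a38_3 q38 fun c39 a39_1 a39_2 a39_3 q39 =>
  mulK c37 a37_1 a37_2 a37_3 q37 c39 a39_1 a39_2 a39_3 q39 fun c40 a40_1 a40_2 a40_3 q40 =>
  subK c4 a4_1 a4_2 a4_3 q4 c40 a40_1 a40_2 a40_3 q40 fun c41 a41_1 a41_2 a41_3 q41 =>
  sqrtK c41 a41_1 a41_2 a41_3 q41 fun c42 a42_1 a42_2 a42_3 q42 =>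
  addK c42 a42_1 a42_2 a42_3 q42 c22 a22_1 a22_2 a22_3 q22 fun c43 a43_1 a43_2 a43_3 q43 =>
  invK c43 a43_1 a43_2 a43_3 q43 fun c44 a44_1 a44_2 a44_3 q44 =>
  smulK 2 1 1152921504606846977 2305843009213693952 c33 a33_1 a33_2 a33_3 q33 fun c45 a45_1 a45_2 a45_3 q45 =>
  mulK c45 a45_1 a45_2 a45_3 q45 c39 a39_1 a39_2 a39_3 q39 fun c46 a46_1 a46_2 a46_3 q46 =>
  mulK c46 a46_1 a46_2 a46_3 q46 c44 a44_1 a44_2 a44_3 q44 fun c47 a47_1 a47_2 a47_3 q47 =>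
  subK c28 a28_1 a28_2 a28_3 q28 c47 a47_1 a47_2 a47_3 q47 fun c49 a49_1 a49_2 a49_3 q49 =>
  smulK 457 1000 1152921504606846977000 526885127605329068032 c1 a1_1 a1_2 a1_3 q1 fun c51 a51_1 a51_2 a51_3 q51 =>
  negK c51 a51_1 a51_2 a51_3 q51 fun c52 a52_1 a52_2 a52_3 q52 =>
  addcK c52 a52_1 a52_2 a52_3 q52 1152922739358404968 1 fun c53 a53_1 a53_2 a53_3 q53 =>
  sqK c1 a1_1 a1_2 a1_3 q1 fun c55 a55_1 a55_2 a55_3 q55 =>
  smulK 383 500 576460752303423488500 441568936264422391808 c55 a55_1 a55_2 a55_3 q55 fun c56 a56_1 a56_2 a56_3 q56 =>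
  addK c53 a53_1 a53_2 a53_3 q53 c56 a56_1 a56_2 a56_3 q56 fun c57 a57_1 a57_2 a57_3 q57 =>
  mulK c55 a55_1 a55_2 a55_3 q55 c1 a1_1 a1_2 a1_3 q1 fun c58 a58_1 a58_2 a58_3 q58 =>
  smulK 1519 200 230584300921369395400 1751287765497800556544 c58 a58_1 a58_2 a58_3 q58 fun c60 a60_1 a60_2 a60_3 q60 =>
  addK c57 a57_1 a57_2 a57_3 q57 c60 a60_1 a60_2 a60_3 q60 fun c61 a61_1 a61_2 a61_3 q61 =>
  smulK 18177 1000 1152921504606846977000 20956654189238657482752 c1 a1_1 a1_2 a1_3 q1 fun c62 a62_1 a62_2 a62_3 q62 =>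
  addcK c62 a62_1 a62_2 a62_3 q62 1152920343522568045 1 fun c63 a63_1 a63_2 a63_3 q63 =>
  smulK 333 8 9223372036854775816 383922861034080043008 c55 a55_1 a55_2 a55_3 q55 fun c65 a65_1 a65_2 a65_3 q65 =>
  subK c63 a63_1 a63_2 a63_3 q63 c65 a65_1 a65_2 a65_3 q65 fun c66 a66_1 a66_2 a66_3 q66 =>
  smulK 9513 200 230584300921369395400 10967742273324935282688 c58 a58_1 a58_2 a58_3 q58 fun c67 a67_1 a67_2 a67_3 q67 =>
  subK c66 a66_1 a66_2 a66_3 q66 c67 a67_1 a67_2 a67_3 q67 fun c68 a68_1 a68_2 a68_3 q68 =>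
  mulK c14 a14_1 a14_2 a14_3 q14 c68 a68_1 a68_2 a68_3 q68 fun c69 a69_1 a69_2 a69_3 q69 =>
  addK c61 a61_1 a61_2 a61_3 q61 c69 a69_1 a69_2 a69_3 q69 fun c70 a70_1 a70_2 a70_3 q70 =>
  sqK c14 a14_1 a14_2 a14_3 q14 fun c71 a71_1 a71_2 a71_3 q71 =>
  smulK 10539 125 144115188075855872125 12150639737051560280064 c1 a1_1 a1_2 a1_3 q1 fun c72 a72_1 a72_2 a72_3 q72 =>
  negK c72 a72_1 a72_2 a72_3 q72 fun c73 a73_1 a73_2 a73_3 q73 =>
  addcK c73 a73_1 a73_2 a73_3 q73 1152932573390403797 1 fun c74 a74_1 a74_2 a74_3 q74 =>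
  smulK 118263 500 576460752303423488500 136347955899319543922688 c55 a55_1 a55_2 a55_3 q55 fun c76 a76_1 a76_2 a76_3 q76 =>
  addK c74 a74_1 a74_2 a74_3 q74 c76 a76_1 a76_2 a76_3 q76 fun c77 a77_1 a77_2 a77_3 q77 =>
  mulK c71 a71_1 a71_2 a71_3 q71 c77 a77_1 a77_2 a77_3 q77 fun c78 a78_1 a78_2 a78_3 q78 =>
  addK c70 a70_1 a70_2 a70_3 q70 c78 a78_1 a78_2 a78_3 q78 fun c79 a79_1 a79_2 a79_3 q79 =>
  mulK c1 a1_1 a1_2 a1_3 q1 c4 a4_1 a4_2 a4_3 q4 fun c81 a81_1 a81_2 a81_3 q81 =>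
  sqrtK c14 a14_1 a14_2 a14_3 q14 fun c83 a83_1 a83_2 a83_3 q83 =>
  smulK 1531 1250 1441151880758558721250 1765122823553082720256 c83 a83_1 a83_2 a83_3 q83 fun c84 a84_1 a84_2 a84_3 q84 =>
  subK 1152922054362660864 1152921504606846976 1152921504606846976 1152921504606846976 0 c84 a84_1 a84_2 a84_3 q84 fun c85 a85_1 a85_2 a85_3 q85 =>
  reluK c85 a85_1 a85_2 a85_3 q85 fun c86 a86_1 a86_2 a86_3 q86 =>
  subK 1152922054362660864 1152921504606846976 1152921504606846976 1152921504606846976 0 c86 a86_1 a86_2 a86_3 q86 fun c87 a87_1 a87_2 a87_3 q87 =>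
  mulK c81 a81_1 a81_2 a81_3 q81 c87 a87_1 a87_2 a87_3 q87 fun c89 a89_1 a89_2 a89_3 q89 =>
  sqK c1 a1_1 a1_2 a1_3 q1 fun c90 a90_1 a90_2 a90_3 q90 =>
  negK c14 a14_1 a14_2 a14_3 q14 fun c91 a91_1 a91_2 a91_3 q91 =>
  addcK c91 a91_1 a91_2 a91_3 q91 1152922604118474752 0 fun c92 a92_1 a92_2 a92_3 q92 =>
  mulK c90 a90_1 a90_2 a90_3 q90 c92 a92_1 a92_2 a92_3 q92 fun c94 a94_1 a94_2 a94_3 q94 =>
  addK c89 a89_1 a89_2 a89_3 q89 c94 a94_1 a94_2 a94_3 q94 fun c95 a95_1 a95_2 a95_3 q95 =>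
  mulK c79 a79_1 a79_2 a79_3 q79 c95 a95_1 a95_2 a95_3 q95 fun c97 a97_1 a97_2 a97_3 q97 =>
  subK c49 a49_1 a49_2 a49_3 q49 c97 a97_1 a97_2 a97_3 q97 fun c98 a98_1 a98_2 a98_3 q98 =>
  mulK z3 1152921504606846976 1152921504606846976 (Nat.add w3 1152921504606846976) 0 c98 a98_1 a98_2 a98_3 q98 fun c99 a99_1 a99_2 a99_3 q99 =>
  negK z3 1152921504606846976 1152921504606846976 (Nat.add w3 1152921504606846976) 0 fun c100 a100_1 a100_2 a100_3 q100 =>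
  addcK c100 a100_1 a100_2 a100_3 q100 1152922604118474752 0 fun c101 a101_1 a101_2 a101_3 q101 =>
  mulK c12 a12_1 a12_2 a12_3 q12 c101 a101_1 a101_2 a101_3 q101 fun c103 a103_1 a103_2 a103_3 q103 =>
  mulK c11 a11_1 a11_2 a11_3 q11 c103 a103_1 a103_2 a103_3 q103 fun c105 a105_1 a105_2 a105_3 q105 =>
  mulK c8 a8_1 a8_2 a8_3 q8 c103 a103_1 a103_2 a103_3 q103 fun c106 a106_1 a106_2 a106_3 q106 =>
  subK z1 (Nat.add w1 1152921504606846976) 1152921504606846976 1152921504606846976 0 c106 a106_1 a106_2 a106_3 q106 fun c107 a107_1 a107_2 a107_3 q107 =>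
  mulK c105 a105_1 a105_2 a105_3 q105 c107 a107_1 a107_2 a107_3 q107 fun c108 a108_1 a108_2 a108_3 q108 =>
  addK c4 a4_1 a4_2 a4_3 q4 c108 a108_1 a108_2 a108_3 q108 fun c109 a109_1 a109_2 a109_3 q109 =>
  sqrtK c109 a109_1 a109_2 a109_3 q109 fun c110 a110_1 a110_2 a110_3 q110 =>
  addK c110 a110_1 a110_2 a110_3 q110 c22 a22_1 a22_2 a22_3 q22 fun c111 a111_1 a111_2 a111_3 q111 =>
  invK c111 a111_1 a111_2 a111_3 q111 fun c112 a112_1 a112_2 a112_3 q112 =>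
  mulK c26 a26_1 a26_2 a26_3 q26 c107 a107_1 a107_2 a107_3 q107 fun c113 a113_1 a113_2 a113_3 q113 =>
  mulK c113 a113_1 a113_2 a113_3 q113 c112 a112_1 a112_2 a112_3 q112 fun c114 a114_1 a114_2 a114_3 q114 =>
  mulK c36 a36_1 a36_2 a36_3 q36 c103 a103_1 a103_2 a103_3 q103 fun c116 a116_1 a116_2 a116_3 q116 =>
  mulK c33 a33_1 a33_2 a33_3 q33 c103 a103_1 a103_2 a103_3 q103 fun c117 a117_1 a117_2 a117_3 q117 =>
  addK z1 (Nat.add w1 1152921504606846976) 1152921504606846976 1152921504606846976 0 c117 a117_1 a117_2 a117_3 q117 fun c118 a118_1 a118_2 a118_3 q118 =>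
  mulK c116 a116_1 a116_2 a116_3 q116 c118 a118_1 a118_2 a118_3 q118 fun c119 a119_1 a119_2 a119_3 q119 =>
  subK c4 a4_1 a4_2 a4_3 q4 c119 a119_1 a119_2 a119_3 q119 fun c120 a120_1 a120_2 a120_3 q120 =>
  sqrtK c120 a120_1 a120_2 a120_3 q120 fun c121 a121_1 a121_2 a121_3 q121 =>
  addK c121 a121_1 a121_2 a121_3 q121 c22 a22_1 a22_2 a22_3 q22 fun c122 a122_1 a122_2 a122_3 q122 =>
  invK c122 a122_1 a122_2 a122_3 q122 fun c123 a123_1 a123_2 a123_3 q123 =>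
  mulK c45 a45_1 a45_2 a45_3 q45 c118 a118_1 a118_2 a118_3 q118 fun c124 a124_1 a124_2 a124_3 q124 =>
  mulK c124 a124_1 a124_2 a124_3 q124 c123 a123_1 a123_2 a123_3 q123 fun c125 a125_1 a125_2 a125_3 q125 =>
  subK c114 a114_1 a114_2 a114_3 q114 c125 a125_1 a125_2 a125_3 q125 fun c127 a127_1 a127_2 a127_3 q127 =>
  mulK c103 a103_1 a103_2 a103_3 q103 c68 a68_1 a68_2 a68_3 q68 fun c129 a129_1 a129_2 a129_3 q129 =>
  addK c61 a61_1 a61_2 a61_3 q61 c129 a129_1 a129_2 a129_3 q129 fun c130 a130_1 a130_2 a130_3 q130 =>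
  sqK c103 a103_1 a103_2 a103_3 q103 fun c131 a131_1 a131_2 a131_3 q131 =>
  mulK c131 a131_1 a131_2 a131_3 q131 c77 a77_1 a77_2 a77_3 q77 fun c132 a132_1 a132_2 a132_3 q132 =>
  addK c130 a130_1 a130_2 a130_3 q130 c132 a132_1 a132_2 a132_3 q132 fun c133 a133_1 a133_2 a133_3 q133 =>
  sqrtK c103 a103_1 a103_2 a103_3 q103 fun c135 a135_1 a135_2 a135_3 q135 =>
  smulK 1531 1250 1441151880758558721250 1765122823553082720256 c135 a135_1 a135_2 a135_3 q135 fun c136 a136_1 a136_2 a136_3 q136 =>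
  subK 1152922054362660864 1152921504606846976 1152921504606846976 1152921504606846976 0 c136 a136_1 a136_2 a136_3 q136 fun c137 a137_1 a137_2 a137_3 q137 =>
  reluK c137 a137_1 a137_2 a137_3 q137 fun c138 a138_1 a138_2 a138_3 q138 =>
  subK 1152922054362660864 1152921504606846976 1152921504606846976 1152921504606846976 0 c138 a138_1 a138_2 a138_3 q138 fun c139 a139_1 a139_2 a139_3 q139 =>
  mulK c81 a81_1 a81_2 a81_3 q81 c139 a139_1 a139_2 a139_3 q139 fun c141 a141_1 a141_2 a141_3 q141 =>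
  negK c103 a103_1 a103_2 a103_3 q103 fun c142 a142_1 a142_2 a142_3 q142 =>
  addcK c142 a142_1 a142_2 a142_3 q142 1152922604118474752 0 fun c143 a143_1 a143_2 a143_3 q143 =>
  mulK c90 a90_1 a90_2 a90_3 q90 c143 a143_1 a143_2 a143_3 q143 fun c145 a145_1 a145_2 a145_3 q145 =>
  addK c141 a141_1 a141_2 a141_3 q141 c145 a145_1 a145_2 a145_3 q145 fun c146 a146_1 a146_2 a146_3 q146 =>
  mulK c133 a133_1 a133_2 a133_3 q133 c146 a146_1 a146_2 a146_3 q146 fun c148 a148_1 a148_2 a148_3 q148 =>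
  subK c127 a127_1 a127_2 a127_3 q127 c148 a148_1 a148_2 a148_3 q148 fun c149 a149_1 a149_2 a149_3 q149 =>
  mulK c101 a101_1 a101_2 a101_3 q101 c149 a149_1 a149_2 a149_3 q149 fun c150 a150_1 a150_2 a150_3 q150 =>
  addK c99 a99_1 a99_2 a99_3 q99 c150 a150_1 a150_2 a150_3 q150 fun c151 a151_1 a151_2 a151_3 q151 =>
  smulK 2 1 1152921504606846977 2305843009213693952 z3 1152921504606846976 1152921504606846976 (Nat.add w3 1152921504606846976) 0 fun c152 a152_1 a152_2 a152_3 q152 =>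
  addcK c152 a152_1 a152_2 a152_3 q152 1152920405095219200 0 fun c153 a153_1 a153_2 a153_3 q153 =>
  mulK c153 a153_1 a153_2 a153_3 q153 c12 a12_1 a12_2 a12_3 q12 fun c156 a156_1 a156_2 a156_3 q156 =>
  sqK c156 a156_1 a156_2 a156_3 q156 fun c158 a158_1 a158_2 a158_3 q158 =>
  negK c158 a158_1 a158_2 a158_3 q158 fun c159 a159_1 a159_2 a159_3 q159 =>
  addcK c159 a159_1 a159_2 a159_3 q159 1152922604118474752 0 fun c160 a160_1 a160_2 a160_3 q160 =>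
  sqrtK c160 a160_1 a160_2 a160_3 q160 fun c162 a162_1 a162_2 a162_3 q162 =>
  addcK c162 a162_1 a162_2 a162_3 q162 1152922604118474752 0 fun c164 a164_1 a164_2 a164_3 q164 =>
  invK c164 a164_1 a164_2 a164_3 q164 fun c166 a166_1 a166_2 a166_3 q166 =>
  mulK c153 a153_1 a153_2 a153_3 q153 c156 a156_1 a156_2 a156_3 q156 fun c167 a167_1 a167_2 a167_3 q167 =>
  mulK c167 a167_1 a167_2 a167_3 q167 c166 a166_1 a166_2 a166_3 q166 fun c168 a168_1 a168_2 a168_3 q168 =>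
  addK c151 a151_1 a151_2 a151_3 q151 c168 a168_1 a168_2 a168_3 q168 fun c170 a170_1 a170_2 a170_3 q170 =>
  pos c170 a170_1 a170_2 a170_3 q170

theorem alt0_s {z1 w1 z2 w2 z3 w3 : ℕ} {e1 e2 e3 p r t : ℝ} (he : Ev e1 e2 e3)
    (hx1 : In e1 e2 e3 z1 (Nat.add w1 1152921504606846976) 1152921504606846976 1152921504606846976 0 p)
    (hx2 : In e1 e2 e3 z2 1152921504606846976 (Nat.add w2 1152921504606846976) 1152921504606846976 0 r)
    (hx3 : In e1 e2 e3 z3 1152921504606846976 1152921504606846976 (Nat.add w3 1152921504606846976) 0 t)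
    (H0 : alt0 z1 w1 z2 w2 z3 w3 = true) : 0 < (base p r t) := by
  unfold alt0 at H0
  refine sqK_s he hx1 (fun _ _ _ _ _ h1 H1 => ?_) H0
  have h2 := In_cast (w := (x p r t)) h1 rfl
  refine negK_s he h2 (fun _ _ _ _ _ h3 H2 => ?_) H1
  refine addcK_s he h3 (v' := (1:ℝ)) (by norm_num [SS, BB, abs_le]) (fun _ _ _ _ _ h4 H3 => ?_) H2
  have h5 := In_cast h4 (neg_add_eq_sub _ _)
  refine addcK_s he hx1 (v' := (1:ℝ)) (by norm_num [SS, BB, abs_le]) (fun _ _ _ _ _ h6 H4 => ?_) H3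
  have h7 := In_cast h6 (add_comm _ _)
  refine smulK_s he (w := (1/2:ℝ)) (by norm_num) (by norm_num) (by norm_num) (by norm_num) h7 (fun _ _ _ _ _ h8 H5 => ?_) H4
  have h9 := In_cast h8 (div_c (c := (2:ℝ)) (by norm_num))
  have h10 := In_cast (w := (al p r t)) h9 rfl
  refine smulK_s he (w := (4:ℝ)) (by norm_num) (by norm_num) (by norm_num) (by norm_num) h10 (fun _ _ _ _ _ h11 H6 => ?_) H5
  refine sqK_s he hx2 (fun _ _ _ _ _ h12 H7 => ?_) H6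
  have h13 := In_cast (w := (et p r t)) h12 rfl
  refine mulK_s he h13 hx3 (fun _ _ _ _ _ h14 H8 => ?_) H7
  have h15 := In_cast (w := (ee0 p r t)) h14 rfl
  refine mulK_s he h11 h15 (fun _ _ _ _ _ h16 H9 => ?_) H8
  refine mulK_s he h10 h15 (fun _ _ _ _ _ h17 H10 => ?_) H9
  refine subK_s he hx1 h17 (fun _ _ _ _ _ h18 H11 => ?_) H10
  refine mulK_s he h16 h18 (fun _ _ _ _ _ h19 H12 => ?_) H11
  refine addK_s he h5 h19 (fun _ _ _ _ _ h20 H13 => ?_) H12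
  refine sqrtK_s he h20 (fun _ _ _ _ _ h21 H14 => ?_) H13
  refine sqrtK_s he h5 (fun _ _ _ _ _ h22 H15 => ?_) H14
  have h23 := In_cast (w := (s p r t)) h22 rfl
  refine addK_s he h21 h23 (fun _ _ _ _ _ h24 H16 => ?_) H15
  refine invK_s he h24 (fun _ _ _ _ _ h25 H17 => ?_) H16
  refine smulK_s he (w := (2:ℝ)) (by norm_num) (by norm_num) (by norm_num) (by norm_num) h10 (fun _ _ _ _ _ h26 H18 => ?_) H17
  refine mulK_s he h26 h18 (fun _ _ _ _ _ h27 H19 => ?_) H18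
  refine mulK_s he h27 h25 (fun _ _ _ _ _ h28 H20 => ?_) H19
  have h29 := In_cast h28 ((div_eq_mul_inv _ _).symm)
  refine negK_s he hx1 (fun _ _ _ _ _ h30 H21 => ?_) H20
  refine addcK_s he h30 (v' := (1:ℝ)) (by norm_num [SS, BB, abs_le]) (fun _ _ _ _ _ h31 H22 => ?_) H21
  have h32 := In_cast h31 (neg_add_eq_sub _ _)
  refine smulK_s he (w := (1/2:ℝ)) (by norm_num) (by norm_num) (by norm_num) (by norm_num) h32 (fun _ _ _ _ _ h33 H23 => ?_) H22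
  have h34 := In_cast h33 (div_c (c := (2:ℝ)) (by norm_num))
  have h35 := In_cast (w := (be p r t)) h34 rfl
  refine smulK_s he (w := (4:ℝ)) (by norm_num) (by norm_num) (by norm_num) (by norm_num) h35 (fun _ _ _ _ _ h36 H24 => ?_) H23
  refine mulK_s he h36 h15 (fun _ _ _ _ _ h37 H25 => ?_) H24
  refine mulK_s he h35 h15 (fun _ _ _ _ _ h38 H26 => ?_) H25
  refine addK_s he hx1 h38 (fun _ _ _ _ _ h39 H27 => ?_) H26
  refine mulK_s he h37 h39 (fun _ _ _ _ _ h40 H28 => ?_) H27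
  refine subK_s he h5 h40 (fun _ _ _ _ _ h41 H29 => ?_) H28
  refine sqrtK_s he h41 (fun _ _ _ _ _ h42 H30 => ?_) H29
  refine addK_s he h42 h23 (fun _ _ _ _ _ h43 H31 => ?_) H30
  refine invK_s he h43 (fun _ _ _ _ _ h44 H32 => ?_) H31
  refine smulK_s he (w := (2:ℝ)) (by norm_num) (by norm_num) (by norm_num) (by norm_num) h35 (fun _ _ _ _ _ h45 H33 => ?_) H32
  refine mulK_s he h45 h39 (fun _ _ _ _ _ h46 H34 => ?_) H33
  refine mulK_s he h46 h44 (fun _ _ _ _ _ h47 H35 => ?_) H34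
  have h48 := In_cast h47 ((div_eq_mul_inv _ _).symm)
  refine subK_s he h29 h48 (fun _ _ _ _ _ h49 H36 => ?_) H35
  have h50 := In_cast (w := (Ga0 p r t)) h49 rfl
  refine smulK_s he (w := (457/1000:ℝ)) (by norm_num) (by norm_num) (by norm_num) (by norm_num) h1 (fun _ _ _ _ _ h51 H37 => ?_) H36
  refine negK_s he h51 (fun _ _ _ _ _ h52 H38 => ?_) H37
  refine addcK_s he h52 (v' := (1123/1000:ℝ)) (by norm_num [SS, BB, abs_le]) (fun _ _ _ _ _ h53 H39 => ?_) H38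
  have h54 := In_cast h53 (neg_add_eq_sub _ _)
  refine sqK_s he h1 (fun _ _ _ _ _ h55 H40 => ?_) H39
  refine smulK_s he (w := (383/500:ℝ)) (by norm_num) (by norm_num) (by norm_num) (by norm_num) h55 (fun _ _ _ _ _ h56 H41 => ?_) H40
  refine addK_s he h54 h56 (fun _ _ _ _ _ h57 H42 => ?_) H41
  refine mulK_s he h55 h1 (fun _ _ _ _ _ h58 H43 => ?_) H42
  have h59 := In_cast h58 (pow_sc (n := 3) rfl)
  refine smulK_s he (w := (1519/200:ℝ)) (by norm_num) (by norm_num) (by norm_num) (by norm_num) h59 (fun _ _ _ _ _ h60 H44 => ?_) H43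
  refine addK_s he h57 h60 (fun _ _ _ _ _ h61 H45 => ?_) H44
  refine smulK_s he (w := (18177/1000:ℝ)) (by norm_num) (by norm_num) (by norm_num) (by norm_num) h1 (fun _ _ _ _ _ h62 H46 => ?_) H45
  refine addcK_s he h62 (v' := (-132/125:ℝ)) (by norm_num [SS, BB, abs_le]) (fun _ _ _ _ _ h63 H47 => ?_) H46
  have h64 := In_cast h63 (add_comm _ _)
  refine smulK_s he (w := (333/8:ℝ)) (by norm_num) (by norm_num) (by norm_num) (by norm_num) h55 (fun _ _ _ _ _ h65 H48 => ?_) H47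
  refine subK_s he h64 h65 (fun _ _ _ _ _ h66 H49 => ?_) H48
  refine smulK_s he (w := (9513/200:ℝ)) (by norm_num) (by norm_num) (by norm_num) (by norm_num) h59 (fun _ _ _ _ _ h67 H50 => ?_) H49
  refine subK_s he h66 h67 (fun _ _ _ _ _ h68 H51 => ?_) H50
  refine mulK_s he h15 h68 (fun _ _ _ _ _ h69 H52 => ?_) H51
  refine addK_s he h61 h69 (fun _ _ _ _ _ h70 H53 => ?_) H52
  refine sqK_s he h15 (fun _ _ _ _ _ h71 H54 => ?_) H53
  refine smulK_s he (w := (10539/125:ℝ)) (by norm_num) (by norm_num) (by norm_num) (by norm_num) h1 (fun _ _ _ _ _ h72 H55 => ?_) H54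
  refine negK_s he h72 (fun _ _ _ _ _ h73 H56 => ?_) H55
  refine addcK_s he h73 (v' := (10067/1000:ℝ)) (by norm_num [SS, BB, abs_le]) (fun _ _ _ _ _ h74 H57 => ?_) H56
  have h75 := In_cast h74 (neg_add_eq_sub _ _)
  refine smulK_s he (w := (118263/500:ℝ)) (by norm_num) (by norm_num) (by norm_num) (by norm_num) h55 (fun _ _ _ _ _ h76 H58 => ?_) H57
  refine addK_s he h75 h76 (fun _ _ _ _ _ h77 H59 => ?_) H58
  refine mulK_s he h71 h77 (fun _ _ _ _ _ h78 H60 => ?_) H59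
  refine addK_s he h70 h78 (fun _ _ _ _ _ h79 H61 => ?_) H60
  have h80 := In_cast (w := (K0 p r t)) h79 rfl
  refine mulK_s he h2 h5 (fun _ _ _ _ _ h81 H62 => ?_) H61
  have h82 := cst (e1 := e1) (e2 := e2) (e3 := e3) 1152922054362660864 0 (1/2:ℝ) (by norm_num [SS, BB, abs_le])
  refine sqrtK_s he h15 (fun _ _ _ _ _ h83 H63 => ?_) H62
  refine smulK_s he (w := (1531/1250:ℝ)) (by norm_num) (by norm_num) (by norm_num) (by norm_num) h83 (fun _ _ _ _ _ h84 H64 => ?_) H63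
  refine subK_s he h82 h84 (fun _ _ _ _ _ h85 H65 => ?_) H64
  refine reluK_s he h85 (fun _ _ _ _ _ h86 H66 => ?_) H65
  refine subK_s he h82 h86 (fun _ _ _ _ _ h87 H67 => ?_) H66
  have h88 := In_cast h87 (min_rl _ _)
  refine mulK_s he h81 h88 (fun _ _ _ _ _ h89 H68 => ?_) H67
  refine sqK_s he h2 (fun _ _ _ _ _ h90 H69 => ?_) H68
  refine negK_s he h15 (fun _ _ _ _ _ h91 H70 => ?_) H69
  refine addcK_s he h91 (v' := (1:ℝ)) (by norm_num [SS, BB, abs_le]) (fun _ _ _ _ _ h92 H71 => ?_) H70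
  have h93 := In_cast h92 (neg_add_eq_sub _ _)
  refine mulK_s he h90 h93 (fun _ _ _ _ _ h94 H72 => ?_) H71
  refine addK_s he h89 h94 (fun _ _ _ _ _ h95 H73 => ?_) H72
  have h96 := In_cast (w := (v0 p r t)) h95 rfl
  refine mulK_s he h80 h96 (fun _ _ _ _ _ h97 H74 => ?_) H73
  refine subK_s he h50 h97 (fun _ _ _ _ _ h98 H75 => ?_) H74
  refine mulK_s he hx3 h98 (fun _ _ _ _ _ h99 H76 => ?_) H75
  refine negK_s he hx3 (fun _ _ _ _ _ h100 H77 => ?_) H76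
  refine addcK_s he h100 (v' := (1:ℝ)) (by norm_num [SS, BB, abs_le]) (fun _ _ _ _ _ h101 H78 => ?_) H77
  have h102 := In_cast h101 (neg_add_eq_sub _ _)
  refine mulK_s he h13 h102 (fun _ _ _ _ _ h103 H79 => ?_) H78
  have h104 := In_cast (w := (ee1 p r t)) h103 rfl
  refine mulK_s he h11 h104 (fun _ _ _ _ _ h105 H80 => ?_) H79
  refine mulK_s he h10 h104 (fun _ _ _ _ _ h106 H81 => ?_) H80
  refine subK_s he hx1 h106 (fun _ _ _ _ _ h107 H82 => ?_) H81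
  refine mulK_s he h105 h107 (fun _ _ _ _ _ h108 H83 => ?_) H82
  refine addK_s he h5 h108 (fun _ _ _ _ _ h109 H84 => ?_) H83
  refine sqrtK_s he h109 (fun _ _ _ _ _ h110 H85 => ?_) H84
  refine addK_s he h110 h23 (fun _ _ _ _ _ h111 H86 => ?_) H85
  refine invK_s he h111 (fun _ _ _ _ _ h112 H87 => ?_) H86
  refine mulK_s he h26 h107 (fun _ _ _ _ _ h113 H88 => ?_) H87
  refine mulK_s he h113 h112 (fun _ _ _ _ _ h114 H89 => ?_) H88
  have h115 := In_cast h114 ((div_eq_mul_inv _ _).symm)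
  refine mulK_s he h36 h104 (fun _ _ _ _ _ h116 H90 => ?_) H89
  refine mulK_s he h35 h104 (fun _ _ _ _ _ h117 H91 => ?_) H90
  refine addK_s he hx1 h117 (fun _ _ _ _ _ h118 H92 => ?_) H91
  refine mulK_s he h116 h118 (fun _ _ _ _ _ h119 H93 => ?_) H92
  refine subK_s he h5 h119 (fun _ _ _ _ _ h120 H94 => ?_) H93
  refine sqrtK_s he h120 (fun _ _ _ _ _ h121 H95 => ?_) H94
  refine addK_s he h121 h23 (fun _ _ _ _ _ h122 H96 => ?_) H95
  refine invK_s he h122 (fun _ _ _ _ _ h123 H97 => ?_) H96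
  refine mulK_s he h45 h118 (fun _ _ _ _ _ h124 H98 => ?_) H97
  refine mulK_s he h124 h123 (fun _ _ _ _ _ h125 H99 => ?_) H98
  have h126 := In_cast h125 ((div_eq_mul_inv _ _).symm)
  refine subK_s he h115 h126 (fun _ _ _ _ _ h127 H100 => ?_) H99
  have h128 := In_cast (w := (Ga1 p r t)) h127 rfl
  refine mulK_s he h104 h68 (fun _ _ _ _ _ h129 H101 => ?_) H100
  refine addK_s he h61 h129 (fun _ _ _ _ _ h130 H102 => ?_) H101
  refine sqK_s he h104 (fun _ _ _ _ _ h131 H103 => ?_) H102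
  refine mulK_s he h131 h77 (fun _ _ _ _ _ h132 H104 => ?_) H103
  refine addK_s he h130 h132 (fun _ _ _ _ _ h133 H105 => ?_) H104
  have h134 := In_cast (w := (K1 p r t)) h133 rfl
  refine sqrtK_s he h104 (fun _ _ _ _ _ h135 H106 => ?_) H105
  refine smulK_s he (w := (1531/1250:ℝ)) (by norm_num) (by norm_num) (by norm_num) (by norm_num) h135 (fun _ _ _ _ _ h136 H107 => ?_) H106
  refine subK_s he h82 h136 (fun _ _ _ _ _ h137 H108 => ?_) H107
  refine reluK_s he h137 (fun _ _ _ _ _ h138 H109 => ?_) H108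
  refine subK_s he h82 h138 (fun _ _ _ _ _ h139 H110 => ?_) H109
  have h140 := In_cast h139 (min_rl _ _)
  refine mulK_s he h81 h140 (fun _ _ _ _ _ h141 H111 => ?_) H110
  refine negK_s he h104 (fun _ _ _ _ _ h142 H112 => ?_) H111
  refine addcK_s he h142 (v' := (1:ℝ)) (by norm_num [SS, BB, abs_le]) (fun _ _ _ _ _ h143 H113 => ?_) H112
  have h144 := In_cast h143 (neg_add_eq_sub _ _)
  refine mulK_s he h90 h144 (fun _ _ _ _ _ h145 H114 => ?_) H113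
  refine addK_s he h141 h145 (fun _ _ _ _ _ h146 H115 => ?_) H114
  have h147 := In_cast (w := (v1 p r t)) h146 rfl
  refine mulK_s he h134 h147 (fun _ _ _ _ _ h148 H116 => ?_) H115
  refine subK_s he h128 h148 (fun _ _ _ _ _ h149 H117 => ?_) H116
  refine mulK_s he h102 h149 (fun _ _ _ _ _ h150 H118 => ?_) H117
  refine addK_s he h99 h150 (fun _ _ _ _ _ h151 H119 => ?_) H118
  refine smulK_s he (w := (2:ℝ)) (by norm_num) (by norm_num) (by norm_num) (by norm_num) hx3 (fun _ _ _ _ _ h152 H120 => ?_) H119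
  refine addcK_s he h152 (v' := (-1:ℝ)) (by norm_num [SS, BB, abs_le]) (fun _ _ _ _ _ h153 H121 => ?_) H120
  have h154 := In_cast h153 (sub_c (c := (1:ℝ)) (by norm_num))
  have h155 := In_cast (w := (mu p r t)) h154 rfl
  refine mulK_s he h155 h13 (fun _ _ _ _ _ h156 H122 => ?_) H121
  have h157 := In_cast (w := (m p r t)) h156 rfl
  refine sqK_s he h157 (fun _ _ _ _ _ h158 H123 => ?_) H122
  refine negK_s he h158 (fun _ _ _ _ _ h159 H124 => ?_) H123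
  refine addcK_s he h159 (v' := (1:ℝ)) (by norm_num [SS, BB, abs_le]) (fun _ _ _ _ _ h160 H125 => ?_) H124
  have h161 := In_cast h160 (neg_add_eq_sub _ _)
  refine sqrtK_s he h161 (fun _ _ _ _ _ h162 H126 => ?_) H125
  have h163 := In_cast (w := (C p r t)) h162 rfl
  refine addcK_s he h163 (v' := (1:ℝ)) (by norm_num [SS, BB, abs_le]) (fun _ _ _ _ _ h164 H127 => ?_) H126
  have h165 := In_cast h164 (add_comm _ _)
  refine invK_s he h165 (fun _ _ _ _ _ h166 H128 => ?_) H127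
  refine mulK_s he h155 h157 (fun _ _ _ _ _ h167 H129 => ?_) H128
  refine mulK_s he h167 h166 (fun _ _ _ _ _ h168 H130 => ?_) H129
  have h169 := In_cast h168 ((div_eq_mul_inv _ _).symm)
  refine addK_s he h151 h169 (fun _ _ _ _ _ h170 H131 => ?_) H130
  have h171 := In_cast (w := (base p r t)) h170 rfl
  exact pos_s he h171 H131

noncomputable def alt1 (z1 w1 z2 w2 z3 w3 : ℕ) : Bool :=
  sqK z1 (Nat.add w1 1152921504606846976) 1152921504606846976 1152921504606846976 0 fun c1 a1_1 a1_2 a1_3 q1 =>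
  negK c1 a1_1 a1_2 a1_3 q1 fun c3 a3_1 a3_2 a3_3 q3 =>
  addcK c3 a3_1 a3_2 a3_3 q3 1152922604118474752 0 fun c4 a4_1 a4_2 a4_3 q4 =>
  addcK z1 (Nat.add w1 1152921504606846976) 1152921504606846976 1152921504606846976 0 1152922604118474752 0 fun c6 a6_1 a6_2 a6_3 q6 =>
  smulK 1 2 2305843009213693954 1152921504606846976 c6 a6_1 a6_2 a6_3 q6 fun c8 a8_1 a8_2 a8_3 q8 =>
  smulK 4 1 1152921504606846977 4611686018427387904 c8 a8_1 a8_2 a8_3 q8 fun c11 a11_1 a11_2 a11_3 q11 =>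
  sqK z2 1152921504606846976 (Nat.add w2 1152921504606846976) 1152921504606846976 0 fun c12 a12_1 a12_2 a12_3 q12 =>
  mulK c12 a12_1 a12_2 a12_3 q12 z3 1152921504606846976 1152921504606846976 (Nat.add w3 1152921504606846976) 0 fun c14 a14_1 a14_2 a14_3 q14 =>
  mulK c11 a11_1 a11_2 a11_3 q11 c14 a14_1 a14_2 a14_3 q14 fun c16 a16_1 a16_2 a16_3 q16 =>
  mulK c8 a8_1 a8_2 a8_3 q8 c14 a14_1 a14_2 a14_3 q14 fun c17 a17_1 a17_2 a17_3 q17 =>
  subK z1 (Nat.add w1 1152921504606846976) 1152921504606846976 1152921504606846976 0 c17 a17_1 a17_2 a17_3 q17 fun c18 a18_1 a18_2 a18_3 q18 =>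
  mulK c16 a16_1 a16_2 a16_3 q16 c18 a18_1 a18_2 a18_3 q18 fun c19 a19_1 a19_2 a19_3 q19 =>
  addK c4 a4_1 a4_2 a4_3 q4 c19 a19_1 a19_2 a19_3 q19 fun c20 a20_1 a20_2 a20_3 q20 =>
  sqrtK c20 a20_1 a20_2 a20_3 q20 fun c21 a21_1 a21_2 a21_3 q21 =>
  sqrtK c4 a4_1 a4_2 a4_3 q4 fun c22 a22_1 a22_2 a22_3 q22 =>
  addK c21 a21_1 a21_2 a21_3 q21 c22 a22_1 a22_2 a22_3 q22 fun c24 a24_1 a24_2 a24_3 q24 =>
  invK c24 a24_1 a24_2 a24_3 q24 fun c25 a25_1 a25_2 a25_3 q25 =>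
  smulK 2 1 1152921504606846977 2305843009213693952 c8 a8_1 a8_2 a8_3 q8 fun c26 a26_1 a26_2 a26_3 q26 =>
  mulK c26 a26_1 a26_2 a26_3 q26 c18 a18_1 a18_2 a18_3 q18 fun c27 a27_1 a27_2 a27_3 q27 =>
  mulK c27 a27_1 a27_2 a27_3 q27 c25 a25_1 a25_2 a25_3 q25 fun c28 a28_1 a28_2 a28_3 q28 =>
  negK z1 (Nat.add w1 1152921504606846976) 1152921504606846976 1152921504606846976 0 fun c30 a30_1 a30_2 a30_3 q30 =>
  addcK c30 a30_1 a30_2 a30_3 q30 1152922604118474752 0 fun c31 a31_1 a31_2 a31_3 q31 =>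
  smulK 1 2 2305843009213693954 1152921504606846976 c31 a31_1 a31_2 a31_3 q31 fun c33 a33_1 a33_2 a33_3 q33 =>
  smulK 4 1 1152921504606846977 4611686018427387904 c33 a33_1 a33_2 a33_3 q33 fun c36 a36_1 a36_2 a36_3 q36 =>
  mulK c36 a36_1 a36_2 a36_3 q36 c14 a14_1 a14_2 a14_3 q14 fun c37 a37_1 a37_2 a37_3 q37 =>
  mulK c33 a33_1 a33_2 a33_3 q33 c14 a14_1 a14_2 a14_3 q14 fun c38 a38_1 a38_2 a38_3 q38 =>
  addK z1 (Nat.add w1 1152921504606846976) 1152921504606846976 1152921504606846976 0 c38 a38_1 a38_2 a38_3 q38 fun c39 a39_1 a39_2 a39_3 q39 =>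
  mulK c37 a37_1 a37_2 a37_3 q37 c39 a39_1 a39_2 a39_3 q39 fun c40 a40_1 a40_2 a40_3 q40 =>
  subK c4 a4_1 a4_2 a4_3 q4 c40 a40_1 a40_2 a40_3 q40 fun c41 a41_1 a41_2 a41_3 q41 =>
  sqrtK c41 a41_1 a41_2 a41_3 q41 fun c42 a42_1 a42_2 a42_3 q42 =>
  addK c42 a42_1 a42_2 a42_3 q42 c22 a22_1 a22_2 a22_3 q22 fun c43 a43_1 a43_2 a43_3 q43 =>
  invK c43 a43_1 a43_2 a43_3 q43 fun c44 a44_1 a44_2 a44_3 q44 =>
  smulK 2 1 1152921504606846977 2305843009213693952 c33 a33_1 a33_2 a33_3 q33 fun c45 a45_1 a45_2 a45_3 q45 =>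
  mulK c45 a45_1 a45_2 a45_3 q45 c39 a39_1 a39_2 a39_3 q39 fun c46 a46_1 a46_2 a46_3 q46 =>
  mulK c46 a46_1 a46_2 a46_3 q46 c44 a44_1 a44_2 a44_3 q44 fun c47 a47_1 a47_2 a47_3 q47 =>
  subK c28 a28_1 a28_2 a28_3 q28 c47 a47_1 a47_2 a47_3 q47 fun c49 a49_1 a49_2 a49_3 q49 =>
  smulK 457 1000 1152921504606846977000 526885127605329068032 c1 a1_1 a1_2 a1_3 q1 fun c51 a51_1 a51_2 a51_3 q51 =>
  negK c51 a51_1 a51_2 a51_3 q51 fun c52 a52_1 a52_2 a52_3 q52 =>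
  addcK c52 a52_1 a52_2 a52_3 q52 1152922739358404968 1 fun c53 a53_1 a53_2 a53_3 q53 =>
  sqK c1 a1_1 a1_2 a1_3 q1 fun c55 a55_1 a55_2 a55_3 q55 =>
  smulK 383 500 576460752303423488500 441568936264422391808 c55 a55_1 a55_2 a55_3 q55 fun c56 a56_1 a56_2 a56_3 q56 =>
  addK c53 a53_1 a53_2 a53_3 q53 c56 a56_1 a56_2 a56_3 q56 fun c57 a57_1 a57_2 a57_3 q57 =>
  mulK c55 a55_1 a55_2 a55_3 q55 c1 a1_1 a1_2 a1_3 q1 fun c58 a58_1 a58_2 a58_3 q58 =>
  smulK 1519 200 230584300921369395400 1751287765497800556544 c58 a58_1 a58_2 a58_3 q58 fun c60 a60_1 a60_2 a60_3 q60 =>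
  addK c57 a57_1 a57_2 a57_3 q57 c60 a60_1 a60_2 a60_3 q60 fun c61 a61_1 a61_2 a61_3 q61 =>
  smulK 18177 1000 1152921504606846977000 20956654189238657482752 c1 a1_1 a1_2 a1_3 q1 fun c62 a62_1 a62_2 a62_3 q62 =>
  addcK c62 a62_1 a62_2 a62_3 q62 1152920343522568045 1 fun c63 a63_1 a63_2 a63_3 q63 =>
  smulK 333 8 9223372036854775816 383922861034080043008 c55 a55_1 a55_2 a55_3 q55 fun c65 a65_1 a65_2 a65_3 q65 =>
  subK c63 a63_1 a63_2 a63_3 q63 c65 a65_1 a65_2 a65_3 q65 fun c66 a66_1 a66_2 a66_3 q66 =>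
  smulK 9513 200 230584300921369395400 10967742273324935282688 c58 a58_1 a58_2 a58_3 q58 fun c67 a67_1 a67_2 a67_3 q67 =>
  subK c66 a66_1 a66_2 a66_3 q66 c67 a67_1 a67_2 a67_3 q67 fun c68 a68_1 a68_2 a68_3 q68 =>
  mulK c14 a14_1 a14_2 a14_3 q14 c68 a68_1 a68_2 a68_3 q68 fun c69 a69_1 a69_2 a69_3 q69 =>
  addK c61 a61_1 a61_2 a61_3 q61 c69 a69_1 a69_2 a69_3 q69 fun c70 a70_1 a70_2 a70_3 q70 =>
  sqK c14 a14_1 a14_2 a14_3 q14 fun c71 a71_1 a71_2 a71_3 q71 =>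
  smulK 10539 125 144115188075855872125 12150639737051560280064 c1 a1_1 a1_2 a1_3 q1 fun c72 a72_1 a72_2 a72_3 q72 =>
  negK c72 a72_1 a72_2 a72_3 q72 fun c73 a73_1 a73_2 a73_3 q73 =>
  addcK c73 a73_1 a73_2 a73_3 q73 1152932573390403797 1 fun c74 a74_1 a74_2 a74_3 q74 =>
  smulK 118263 500 576460752303423488500 136347955899319543922688 c55 a55_1 a55_2 a55_3 q55 fun c76 a76_1 a76_2 a76_3 q76 =>
  addK c74 a74_1 a74_2 a74_3 q74 c76 a76_1 a76_2 a76_3 q76 fun c77 a77_1 a77_2 a77_3 q77 =>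
  mulK c71 a71_1 a71_2 a71_3 q71 c77 a77_1 a77_2 a77_3 q77 fun c78 a78_1 a78_2 a78_3 q78 =>
  addK c70 a70_1 a70_2 a70_3 q70 c78 a78_1 a78_2 a78_3 q78 fun c79 a79_1 a79_2 a79_3 q79 =>
  mulK c1 a1_1 a1_2 a1_3 q1 c4 a4_1 a4_2 a4_3 q4 fun c81 a81_1 a81_2 a81_3 q81 =>
  sqrtK c14 a14_1 a14_2 a14_3 q14 fun c83 a83_1 a83_2 a83_3 q83 =>
  smulK 1531 1250 1441151880758558721250 1765122823553082720256 c83 a83_1 a83_2 a83_3 q83 fun c84 a84_1 a84_2 a84_3 q84 =>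
  subK 1152922054362660864 1152921504606846976 1152921504606846976 1152921504606846976 0 c84 a84_1 a84_2 a84_3 q84 fun c85 a85_1 a85_2 a85_3 q85 =>
  reluK c85 a85_1 a85_2 a85_3 q85 fun c86 a86_1 a86_2 a86_3 q86 =>
  subK 1152922054362660864 1152921504606846976 1152921504606846976 1152921504606846976 0 c86 a86_1 a86_2 a86_3 q86 fun c87 a87_1 a87_2 a87_3 q87 =>
  mulK c81 a81_1 a81_2 a81_3 q81 c87 a87_1 a87_2 a87_3 q87 fun c89 a89_1 a89_2 a89_3 q89 =>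
  sqK c1 a1_1 a1_2 a1_3 q1 fun c90 a90_1 a90_2 a90_3 q90 =>
  negK c14 a14_1 a14_2 a14_3 q14 fun c91 a91_1 a91_2 a91_3 q91 =>
  addcK c91 a91_1 a91_2 a91_3 q91 1152922604118474752 0 fun c92 a92_1 a92_2 a92_3 q92 =>
  mulK c90 a90_1 a90_2 a90_3 q90 c92 a92_1 a92_2 a92_3 q92 fun c94 a94_1 a94_2 a94_3 q94 =>
  addK c89 a89_1 a89_2 a89_3 q89 c94 a94_1 a94_2 a94_3 q94 fun c95 a95_1 a95_2 a95_3 q95 =>
  mulK c79 a79_1 a79_2 a79_3 q79 c95 a95_1 a95_2 a95_3 q95 fun c97 a97_1 a97_2 a97_3 q97 =>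
  subK c49 a49_1 a49_2 a49_3 q49 c97 a97_1 a97_2 a97_3 q97 fun c98 a98_1 a98_2 a98_3 q98 =>
  mulK z3 1152921504606846976 1152921504606846976 (Nat.add w3 1152921504606846976) 0 c98 a98_1 a98_2 a98_3 q98 fun c99 a99_1 a99_2 a99_3 q99 =>
  negK z3 1152921504606846976 1152921504606846976 (Nat.add w3 1152921504606846976) 0 fun c100 a100_1 a100_2 a100_3 q100 =>
  addcK c100 a100_1 a100_2 a100_3 q100 1152922604118474752 0 fun c101 a101_1 a101_2 a101_3 q101 =>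
  mulK c12 a12_1 a12_2 a12_3 q12 c101 a101_1 a101_2 a101_3 q101 fun c103 a103_1 a103_2 a103_3 q103 =>
  mulK c11 a11_1 a11_2 a11_3 q11 c103 a103_1 a103_2 a103_3 q103 fun c105 a105_1 a105_2 a105_3 q105 =>
  mulK c8 a8_1 a8_2 a8_3 q8 c103 a103_1 a103_2 a103_3 q103 fun c106 a106_1 a106_2 a106_3 q106 =>
  subK z1 (Nat.add w1 1152921504606846976) 1152921504606846976 1152921504606846976 0 c106 a106_1 a106_2 a106_3 q106 fun c107 a107_1 a107_2 a107_3 q107 =>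
  mulK c105 a105_1 a105_2 a105_3 q105 c107 a107_1 a107_2 a107_3 q107 fun c108 a108_1 a108_2 a108_3 q108 =>
  addK c4 a4_1 a4_2 a4_3 q4 c108 a108_1 a108_2 a108_3 q108 fun c109 a109_1 a109_2 a109_3 q109 =>
  sqrtK c109 a109_1 a109_2 a109_3 q109 fun c110 a110_1 a110_2 a110_3 q110 =>
  addK c110 a110_1 a110_2 a110_3 q110 c22 a22_1 a22_2 a22_3 q22 fun c111 a111_1 a111_2 a111_3 q111 =>
  invK c111 a111_1 a111_2 a111_3 q111 fun c112 a112_1 a112_2 a112_3 q112 =>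
  mulK c26 a26_1 a26_2 a26_3 q26 c107 a107_1 a107_2 a107_3 q107 fun c113 a113_1 a113_2 a113_3 q113 =>
  mulK c113 a113_1 a113_2 a113_3 q113 c112 a112_1 a112_2 a112_3 q112 fun c114 a114_1 a114_2 a114_3 q114 =>
  mulK c36 a36_1 a36_2 a36_3 q36 c103 a103_1 a103_2 a103_3 q103 fun c116 a116_1 a116_2 a116_3 q116 =>
  mulK c33 a33_1 a33_2 a33_3 q33 c103 a103_1 a103_2 a103_3 q103 fun c117 a117_1 a117_2 a117_3 q117 =>
  addK z1 (Nat.add w1 1152921504606846976) 1152921504606846976 1152921504606846976 0 c117 a117_1 a117_2 a117_3 q117 fun c118 a118_1 a118_2 a118_3 q118 =>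
  mulK c116 a116_1 a116_2 a116_3 q116 c118 a118_1 a118_2 a118_3 q118 fun c119 a119_1 a119_2 a119_3 q119 =>
  subK c4 a4_1 a4_2 a4_3 q4 c119 a119_1 a119_2 a119_3 q119 fun c120 a120_1 a120_2 a120_3 q120 =>
  sqrtK c120 a120_1 a120_2 a120_3 q120 fun c121 a121_1 a121_2 a121_3 q121 =>
  addK c121 a121_1 a121_2 a121_3 q121 c22 a22_1 a22_2 a22_3 q22 fun c122 a122_1 a122_2 a122_3 q122 =>
  invK c122 a122_1 a122_2 a122_3 q122 fun c123 a123_1 a123_2 a123_3 q123 =>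
  mulK c45 a45_1 a45_2 a45_3 q45 c118 a118_1 a118_2 a118_3 q118 fun c124 a124_1 a124_2 a124_3 q124 =>
  mulK c124 a124_1 a124_2 a124_3 q124 c123 a123_1 a123_2 a123_3 q123 fun c125 a125_1 a125_2 a125_3 q125 =>
  subK c114 a114_1 a114_2 a114_3 q114 c125 a125_1 a125_2 a125_3 q125 fun c127 a127_1 a127_2 a127_3 q127 =>
  mulK c103 a103_1 a103_2 a103_3 q103 c68 a68_1 a68_2 a68_3 q68 fun c129 a129_1 a129_2 a129_3 q129 =>
  addK c61 a61_1 a61_2 a61_3 q61 c129 a129_1 a129_2 a129_3 q129 fun c130 a130_1 a130_2 a130_3 q130 =>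
  sqK c103 a103_1 a103_2 a103_3 q103 fun c131 a131_1 a131_2 a131_3 q131 =>
  mulK c131 a131_1 a131_2 a131_3 q131 c77 a77_1 a77_2 a77_3 q77 fun c132 a132_1 a132_2 a132_3 q132 =>
  addK c130 a130_1 a130_2 a130_3 q130 c132 a132_1 a132_2 a132_3 q132 fun c133 a133_1 a133_2 a133_3 q133 =>
  sqrtK c103 a103_1 a103_2 a103_3 q103 fun c135 a135_1 a135_2 a135_3 q135 =>
  smulK 1531 1250 1441151880758558721250 1765122823553082720256 c135 a135_1 a135_2 a135_3 q135 fun c136 a136_1 a136_2 a136_3 q136 =>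
  subK 1152922054362660864 1152921504606846976 1152921504606846976 1152921504606846976 0 c136 a136_1 a136_2 a136_3 q136 fun c137 a137_1 a137_2 a137_3 q137 =>
  reluK c137 a137_1 a137_2 a137_3 q137 fun c138 a138_1 a138_2 a138_3 q138 =>
  subK 1152922054362660864 1152921504606846976 1152921504606846976 1152921504606846976 0 c138 a138_1 a138_2 a138_3 q138 fun c139 a139_1 a139_2 a139_3 q139 =>
  mulK c81 a81_1 a81_2 a81_3 q81 c139 a139_1 a139_2 a139_3 q139 fun c141 a141_1 a141_2 a141_3 q141 =>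
  negK c103 a103_1 a103_2 a103_3 q103 fun c142 a142_1 a142_2 a142_3 q142 =>
  addcK c142 a142_1 a142_2 a142_3 q142 1152922604118474752 0 fun c143 a143_1 a143_2 a143_3 q143 =>
  mulK c90 a90_1 a90_2 a90_3 q90 c143 a143_1 a143_2 a143_3 q143 fun c145 a145_1 a145_2 a145_3 q145 =>
  addK c141 a141_1 a141_2 a141_3 q141 c145 a145_1 a145_2 a145_3 q145 fun c146 a146_1 a146_2 a146_3 q146 =>
  mulK c133 a133_1 a133_2 a133_3 q133 c146 a146_1 a146_2 a146_3 q146 fun c148 a148_1 a148_2 a148_3 q148 =>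
  subK c127 a127_1 a127_2 a127_3 q127 c148 a148_1 a148_2 a148_3 q148 fun c149 a149_1 a149_2 a149_3 q149 =>
  mulK c101 a101_1 a101_2 a101_3 q101 c149 a149_1 a149_2 a149_3 q149 fun c150 a150_1 a150_2 a150_3 q150 =>
  addK c99 a99_1 a99_2 a99_3 q99 c150 a150_1 a150_2 a150_3 q150 fun c151 a151_1 a151_2 a151_3 q151 =>
  smulK 2 1 1152921504606846977 2305843009213693952 z3 1152921504606846976 1152921504606846976 (Nat.add w3 1152921504606846976) 0 fun c152 a152_1 a152_2 a152_3 q152 =>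
  addcK c152 a152_1 a152_2 a152_3 q152 1152920405095219200 0 fun c153 a153_1 a153_2 a153_3 q153 =>
  mulK c153 a153_1 a153_2 a153_3 q153 c12 a12_1 a12_2 a12_3 q12 fun c156 a156_1 a156_2 a156_3 q156 =>
  sqK c156 a156_1 a156_2 a156_3 q156 fun c158 a158_1 a158_2 a158_3 q158 =>
  negK c158 a158_1 a158_2 a158_3 q158 fun c159 a159_1 a159_2 a159_3 q159 =>
  addcK c159 a159_1 a159_2 a159_3 q159 1152922604118474752 0 fun c160 a160_1 a160_2 a160_3 q160 =>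
  sqrtK c160 a160_1 a160_2 a160_3 q160 fun c162 a162_1 a162_2 a162_3 q162 =>
  addcK c162 a162_1 a162_2 a162_3 q162 1152922604118474752 0 fun c164 a164_1 a164_2 a164_3 q164 =>
  invK c164 a164_1 a164_2 a164_3 q164 fun c166 a166_1 a166_2 a166_3 q166 =>
  mulK c153 a153_1 a153_2 a153_3 q153 c156 a156_1 a156_2 a156_3 q156 fun c167 a167_1 a167_2 a167_3 q167 =>
  mulK c167 a167_1 a167_2 a167_3 q167 c166 a166_1 a166_2 a166_3 q166 fun c168 a168_1 a168_2 a168_3 q168 =>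
  addK c151 a151_1 a151_2 a151_3 q151 c168 a168_1 a168_2 a168_3 q168 fun c170 a170_1 a170_2 a170_3 q170 =>
  mulK c14 a14_1 a14_2 a14_3 q14 c101 a101_1 a101_2 a101_3 q101 fun c172 a172_1 a172_2 a172_3 q172 =>
  mulK z3 1152921504606846976 1152921504606846976 (Nat.add w3 1152921504606846976) 0 c95 a95_1 a95_2 a95_3 q95 fun c173 a173_1 a173_2 a173_3 q173 =>
  smulK 1 1 1152921504606846977 1152921504606846976 c173 a173_1 a173_2 a173_3 q173 fun c174 a174_1 a174_2 a174_3 q174 =>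
  smulK 1 1 1152921504606846977 1152921504606846976 c101 a101_1 a101_2 a101_3 q101 fun c176 a176_1 a176_2 a176_3 q176 =>
  mulK c176 a176_1 a176_2 a176_3 q176 c146 a146_1 a146_2 a146_3 q146 fun c177 a177_1 a177_2 a177_3 q177 =>
  addK c174 a174_1 a174_2 a174_3 q174 c177 a177_1 a177_2 a177_3 q177 fun c178 a178_1 a178_2 a178_3 q178 =>
  smulK 1 2 2305843009213693954 1152921504606846976 c178 a178_1 a178_2 a178_3 q178 fun c179 a179_1 a179_2 a179_3 q179 =>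
  subK c172 a172_1 a172_2 a172_3 q172 c179 a179_1 a179_2 a179_3 q179 fun c181 a181_1 a181_2 a181_3 q181 =>
  mulK c4 a4_1 a4_2 a4_3 q4 c181 a181_1 a181_2 a181_3 q181 fun c182 a182_1 a182_2 a182_3 q182 =>
  addK c170 a170_1 a170_2 a170_3 q170 c182 a182_1 a182_2 a182_3 q182 fun c183 a183_1 a183_2 a183_3 q183 =>
  pos c183 a183_1 a183_2 a183_3 q183

theorem alt1_s {z1 w1 z2 w2 z3 w3 : ℕ} {e1 e2 e3 p r t : ℝ} (he : Ev e1 e2 e3)
    (hx1 : In e1 e2 e3 z1 (Nat.add w1 1152921504606846976) 1152921504606846976 1152921504606846976 0 p)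
    (hx2 : In e1 e2 e3 z2 1152921504606846976 (Nat.add w2 1152921504606846976) 1152921504606846976 0 r)
    (hx3 : In e1 e2 e3 z3 1152921504606846976 1152921504606846976 (Nat.add w3 1152921504606846976) 0 t)
    (H0 : alt1 z1 w1 z2 w2 z3 w3 = true) : 0 < ((base p r t) + (((1:ℝ) - (x p r t)) * ((((et p r t) * t) * ((1:ℝ) - t)) - ((((t * (v0 p r t)) / (1:ℝ)) + (((1:ℝ) * ((1:ℝ) - t)) * (v1 p r t))) / (2:ℝ))))) := by
  unfold alt1 at H0
  refine sqK_s he hx1 (fun _ _ _ _ _ h1 H1 => ?_) H0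
  have h2 := In_cast (w := (x p r t)) h1 rfl
  refine negK_s he h2 (fun _ _ _ _ _ h3 H2 => ?_) H1
  refine addcK_s he h3 (v' := (1:ℝ)) (by norm_num [SS, BB, abs_le]) (fun _ _ _ _ _ h4 H3 => ?_) H2
  have h5 := In_cast h4 (neg_add_eq_sub _ _)
  refine addcK_s he hx1 (v' := (1:ℝ)) (by norm_num [SS, BB, abs_le]) (fun _ _ _ _ _ h6 H4 => ?_) H3
  have h7 := In_cast h6 (add_comm _ _)
  refine smulK_s he (w := (1/2:ℝ)) (by norm_num) (by norm_num) (by norm_num) (by norm_num) h7 (fun _ _ _ _ _ h8 H5 => ?_) H4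
  have h9 := In_cast h8 (div_c (c := (2:ℝ)) (by norm_num))
  have h10 := In_cast (w := (al p r t)) h9 rfl
  refine smulK_s he (w := (4:ℝ)) (by norm_num) (by norm_num) (by norm_num) (by norm_num) h10 (fun _ _ _ _ _ h11 H6 => ?_) H5
  refine sqK_s he hx2 (fun _ _ _ _ _ h12 H7 => ?_) H6
  have h13 := In_cast (w := (et p r t)) h12 rfl
  refine mulK_s he h13 hx3 (fun _ _ _ _ _ h14 H8 => ?_) H7
  have h15 := In_cast (w := (ee0 p r t)) h14 rfl
  refine mulK_s he h11 h15 (fun _ _ _ _ _ h16 H9 => ?_) H8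
  refine mulK_s he h10 h15 (fun _ _ _ _ _ h17 H10 => ?_) H9
  refine subK_s he hx1 h17 (fun _ _ _ _ _ h18 H11 => ?_) H10
  refine mulK_s he h16 h18 (fun _ _ _ _ _ h19 H12 => ?_) H11
  refine addK_s he h5 h19 (fun _ _ _ _ _ h20 H13 => ?_) H12
  refine sqrtK_s he h20 (fun _ _ _ _ _ h21 H14 => ?_) H13
  refine sqrtK_s he h5 (fun _ _ _ _ _ h22 H15 => ?_) H14
  have h23 := In_cast (w := (s p r t)) h22 rfl
  refine addK_s he h21 h23 (fun _ _ _ _ _ h24 H16 => ?_) H15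
  refine invK_s he h24 (fun _ _ _ _ _ h25 H17 => ?_) H16
  refine smulK_s he (w := (2:ℝ)) (by norm_num) (by norm_num) (by norm_num) (by norm_num) h10 (fun _ _ _ _ _ h26 H18 => ?_) H17
  refine mulK_s he h26 h18 (fun _ _ _ _ _ h27 H19 => ?_) H18
  refine mulK_s he h27 h25 (fun _ _ _ _ _ h28 H20 => ?_) H19
  have h29 := In_cast h28 ((div_eq_mul_inv _ _).symm)
  refine negK_s he hx1 (fun _ _ _ _ _ h30 H21 => ?_) H20
  refine addcK_s he h30 (v' := (1:ℝ)) (by norm_num [SS, BB, abs_le]) (fun _ _ _ _ _ h31 H22 => ?_) H21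
  have h32 := In_cast h31 (neg_add_eq_sub _ _)
  refine smulK_s he (w := (1/2:ℝ)) (by norm_num) (by norm_num) (by norm_num) (by norm_num) h32 (fun _ _ _ _ _ h33 H23 => ?_) H22
  have h34 := In_cast h33 (div_c (c := (2:ℝ)) (by norm_num))
  have h35 := In_cast (w := (be p r t)) h34 rfl
  refine smulK_s he (w := (4:ℝ)) (by norm_num) (by norm_num) (by norm_num) (by norm_num) h35 (fun _ _ _ _ _ h36 H24 => ?_) H23
  refine mulK_s he h36 h15 (fun _ _ _ _ _ h37 H25 => ?_) H24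
  refine mulK_s he h35 h15 (fun _ _ _ _ _ h38 H26 => ?_) H25
  refine addK_s he hx1 h38 (fun _ _ _ _ _ h39 H27 => ?_) H26
  refine mulK_s he h37 h39 (fun _ _ _ _ _ h40 H28 => ?_) H27
  refine subK_s he h5 h40 (fun _ _ _ _ _ h41 H29 => ?_) H28
  refine sqrtK_s he h41 (fun _ _ _ _ _ h42 H30 => ?_) H29
  refine addK_s he h42 h23 (fun _ _ _ _ _ h43 H31 => ?_) H30
  refine invK_s he h43 (fun _ _ _ _ _ h44 H32 => ?_) H31
  refine smulK_s he (w := (2:ℝ)) (by norm_num) (by norm_num) (by norm_num) (by norm_num) h35 (fun _ _ _ _ _ h45 H33 => ?_) H32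
  refine mulK_s he h45 h39 (fun _ _ _ _ _ h46 H34 => ?_) H33
  refine mulK_s he h46 h44 (fun _ _ _ _ _ h47 H35 => ?_) H34
  have h48 := In_cast h47 ((div_eq_mul_inv _ _).symm)
  refine subK_s he h29 h48 (fun _ _ _ _ _ h49 H36 => ?_) H35
  have h50 := In_cast (w := (Ga0 p r t)) h49 rfl
  refine smulK_s he (w := (457/1000:ℝ)) (by norm_num) (by norm_num) (by norm_num) (by norm_num) h1 (fun _ _ _ _ _ h51 H37 => ?_) H36
  refine negK_s he h51 (fun _ _ _ _ _ h52 H38 => ?_) H37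
  refine addcK_s he h52 (v' := (1123/1000:ℝ)) (by norm_num [SS, BB, abs_le]) (fun _ _ _ _ _ h53 H39 => ?_) H38
  have h54 := In_cast h53 (neg_add_eq_sub _ _)
  refine sqK_s he h1 (fun _ _ _ _ _ h55 H40 => ?_) H39
  refine smulK_s he (w := (383/500:ℝ)) (by norm_num) (by norm_num) (by norm_num) (by norm_num) h55 (fun _ _ _ _ _ h56 H41 => ?_) H40
  refine addK_s he h54 h56 (fun _ _ _ _ _ h57 H42 => ?_) H41
  refine mulK_s he h55 h1 (fun _ _ _ _ _ h58 H43 => ?_) H42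
  have h59 := In_cast h58 (pow_sc (n := 3) rfl)
  refine smulK_s he (w := (1519/200:ℝ)) (by norm_num) (by norm_num) (by norm_num) (by norm_num) h59 (fun _ _ _ _ _ h60 H44 => ?_) H43
  refine addK_s he h57 h60 (fun _ _ _ _ _ h61 H45 => ?_) H44
  refine smulK_s he (w := (18177/1000:ℝ)) (by norm_num) (by norm_num) (by norm_num) (by norm_num) h1 (fun _ _ _ _ _ h62 H46 => ?_) H45
  refine addcK_s he h62 (v' := (-132/125:ℝ)) (by norm_num [SS, BB, abs_le]) (fun _ _ _ _ _ h63 H47 => ?_) H46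
  have h64 := In_cast h63 (add_comm _ _)
  refine smulK_s he (w := (333/8:ℝ)) (by norm_num) (by norm_num) (by norm_num) (by norm_num) h55 (fun _ _ _ _ _ h65 H48 => ?_) H47
  refine subK_s he h64 h65 (fun _ _ _ _ _ h66 H49 => ?_) H48
  refine smulK_s he (w := (9513/200:ℝ)) (by norm_num) (by norm_num) (by norm_num) (by norm_num) h59 (fun _ _ _ _ _ h67 H50 => ?_) H49
  refine subK_s he h66 h67 (fun _ _ _ _ _ h68 H51 => ?_) H50
  refine mulK_s he h15 h68 (fun _ _ _ _ _ h69 H52 => ?_) H51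
  refine addK_s he h61 h69 (fun _ _ _ _ _ h70 H53 => ?_) H52
  refine sqK_s he h15 (fun _ _ _ _ _ h71 H54 => ?_) H53
  refine smulK_s he (w := (10539/125:ℝ)) (by norm_num) (by norm_num) (by norm_num) (by norm_num) h1 (fun _ _ _ _ _ h72 H55 => ?_) H54
  refine negK_s he h72 (fun _ _ _ _ _ h73 H56 => ?_) H55
  refine addcK_s he h73 (v' := (10067/1000:ℝ)) (by norm_num [SS, BB, abs_le]) (fun _ _ _ _ _ h74 H57 => ?_) H56
  have h75 := In_cast h74 (neg_add_eq_sub _ _)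
  refine smulK_s he (w := (118263/500:ℝ)) (by norm_num) (by norm_num) (by norm_num) (by norm_num) h55 (fun _ _ _ _ _ h76 H58 => ?_) H57
  refine addK_s he h75 h76 (fun _ _ _ _ _ h77 H59 => ?_) H58
  refine mulK_s he h71 h77 (fun _ _ _ _ _ h78 H60 => ?_) H59
  refine addK_s he h70 h78 (fun _ _ _ _ _ h79 H61 => ?_) H60
  have h80 := In_cast (w := (K0 p r t)) h79 rfl
  refine mulK_s he h2 h5 (fun _ _ _ _ _ h81 H62 => ?_) H61
  have h82 := cst (e1 := e1) (e2 := e2) (e3 := e3) 1152922054362660864 0 (1/2:ℝ) (by norm_num [SS, BB, abs_le])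
  refine sqrtK_s he h15 (fun _ _ _ _ _ h83 H63 => ?_) H62
  refine smulK_s he (w := (1531/1250:ℝ)) (by norm_num) (by norm_num) (by norm_num) (by norm_num) h83 (fun _ _ _ _ _ h84 H64 => ?_) H63
  refine subK_s he h82 h84 (fun _ _ _ _ _ h85 H65 => ?_) H64
  refine reluK_s he h85 (fun _ _ _ _ _ h86 H66 => ?_) H65
  refine subK_s he h82 h86 (fun _ _ _ _ _ h87 H67 => ?_) H66
  have h88 := In_cast h87 (min_rl _ _)
  refine mulK_s he h81 h88 (fun _ _ _ _ _ h89 H68 => ?_) H67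
  refine sqK_s he h2 (fun _ _ _ _ _ h90 H69 => ?_) H68
  refine negK_s he h15 (fun _ _ _ _ _ h91 H70 => ?_) H69
  refine addcK_s he h91 (v' := (1:ℝ)) (by norm_num [SS, BB, abs_le]) (fun _ _ _ _ _ h92 H71 => ?_) H70
  have h93 := In_cast h92 (neg_add_eq_sub _ _)
  refine mulK_s he h90 h93 (fun _ _ _ _ _ h94 H72 => ?_) H71
  refine addK_s he h89 h94 (fun _ _ _ _ _ h95 H73 => ?_) H72
  have h96 := In_cast (w := (v0 p r t)) h95 rfl
  refine mulK_s he h80 h96 (fun _ _ _ _ _ h97 H74 => ?_) H73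
  refine subK_s he h50 h97 (fun _ _ _ _ _ h98 H75 => ?_) H74
  refine mulK_s he hx3 h98 (fun _ _ _ _ _ h99 H76 => ?_) H75
  refine negK_s he hx3 (fun _ _ _ _ _ h100 H77 => ?_) H76
  refine addcK_s he h100 (v' := (1:ℝ)) (by norm_num [SS, BB, abs_le]) (fun _ _ _ _ _ h101 H78 => ?_) H77
  have h102 := In_cast h101 (neg_add_eq_sub _ _)
  refine mulK_s he h13 h102 (fun _ _ _ _ _ h103 H79 => ?_) H78
  have h104 := In_cast (w := (ee1 p r t)) h103 rfl
  refine mulK_s he h11 h104 (fun _ _ _ _ _ h105 H80 => ?_) H79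
  refine mulK_s he h10 h104 (fun _ _ _ _ _ h106 H81 => ?_) H80
  refine subK_s he hx1 h106 (fun _ _ _ _ _ h107 H82 => ?_) H81
  refine mulK_s he h105 h107 (fun _ _ _ _ _ h108 H83 => ?_) H82
  refine addK_s he h5 h108 (fun _ _ _ _ _ h109 H84 => ?_) H83
  refine sqrtK_s he h109 (fun _ _ _ _ _ h110 H85 => ?_) H84
  refine addK_s he h110 h23 (fun _ _ _ _ _ h111 H86 => ?_) H85
  refine invK_s he h111 (fun _ _ _ _ _ h112 H87 => ?_) H86
  refine mulK_s he h26 h107 (fun _ _ _ _ _ h113 H88 => ?_) H87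
  refine mulK_s he h113 h112 (fun _ _ _ _ _ h114 H89 => ?_) H88
  have h115 := In_cast h114 ((div_eq_mul_inv _ _).symm)
  refine mulK_s he h36 h104 (fun _ _ _ _ _ h116 H90 => ?_) H89
  refine mulK_s he h35 h104 (fun _ _ _ _ _ h117 H91 => ?_) H90
  refine addK_s he hx1 h117 (fun _ _ _ _ _ h118 H92 => ?_) H91
  refine mulK_s he h116 h118 (fun _ _ _ _ _ h119 H93 => ?_) H92
  refine subK_s he h5 h119 (fun _ _ _ _ _ h120 H94 => ?_) H93
  refine sqrtK_s he h120 (fun _ _ _ _ _ h121 H95 => ?_) H94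
  refine addK_s he h121 h23 (fun _ _ _ _ _ h122 H96 => ?_) H95
  refine invK_s he h122 (fun _ _ _ _ _ h123 H97 => ?_) H96
  refine mulK_s he h45 h118 (fun _ _ _ _ _ h124 H98 => ?_) H97
  refine mulK_s he h124 h123 (fun _ _ _ _ _ h125 H99 => ?_) H98
  have h126 := In_cast h125 ((div_eq_mul_inv _ _).symm)
  refine subK_s he h115 h126 (fun _ _ _ _ _ h127 H100 => ?_) H99
  have h128 := In_cast (w := (Ga1 p r t)) h127 rfl
  refine mulK_s he h104 h68 (fun _ _ _ _ _ h129 H101 => ?_) H100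
  refine addK_s he h61 h129 (fun _ _ _ _ _ h130 H102 => ?_) H101
  refine sqK_s he h104 (fun _ _ _ _ _ h131 H103 => ?_) H102
  refine mulK_s he h131 h77 (fun _ _ _ _ _ h132 H104 => ?_) H103
  refine addK_s he h130 h132 (fun _ _ _ _ _ h133 H105 => ?_) H104
  have h134 := In_cast (w := (K1 p r t)) h133 rfl
  refine sqrtK_s he h104 (fun _ _ _ _ _ h135 H106 => ?_) H105
  refine smulK_s he (w := (1531/1250:ℝ)) (by norm_num) (by norm_num) (by norm_num) (by norm_num) h135 (fun _ _ _ _ _ h136 H107 => ?_) H106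
  refine subK_s he h82 h136 (fun _ _ _ _ _ h137 H108 => ?_) H107
  refine reluK_s he h137 (fun _ _ _ _ _ h138 H109 => ?_) H108
  refine subK_s he h82 h138 (fun _ _ _ _ _ h139 H110 => ?_) H109
  have h140 := In_cast h139 (min_rl _ _)
  refine mulK_s he h81 h140 (fun _ _ _ _ _ h141 H111 => ?_) H110
  refine negK_s he h104 (fun _ _ _ _ _ h142 H112 => ?_) H111
  refine addcK_s he h142 (v' := (1:ℝ)) (by norm_num [SS, BB, abs_le]) (fun _ _ _ _ _ h143 H113 => ?_) H112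
  have h144 := In_cast h143 (neg_add_eq_sub _ _)
  refine mulK_s he h90 h144 (fun _ _ _ _ _ h145 H114 => ?_) H113
  refine addK_s he h141 h145 (fun _ _ _ _ _ h146 H115 => ?_) H114
  have h147 := In_cast (w := (v1 p r t)) h146 rfl
  refine mulK_s he h134 h147 (fun _ _ _ _ _ h148 H116 => ?_) H115
  refine subK_s he h128 h148 (fun _ _ _ _ _ h149 H117 => ?_) H116
  refine mulK_s he h102 h149 (fun _ _ _ _ _ h150 H118 => ?_) H117
  refine addK_s he h99 h150 (fun _ _ _ _ _ h151 H119 => ?_) H118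
  refine smulK_s he (w := (2:ℝ)) (by norm_num) (by norm_num) (by norm_num) (by norm_num) hx3 (fun _ _ _ _ _ h152 H120 => ?_) H119
  refine addcK_s he h152 (v' := (-1:ℝ)) (by norm_num [SS, BB, abs_le]) (fun _ _ _ _ _ h153 H121 => ?_) H120
  have h154 := In_cast h153 (sub_c (c := (1:ℝ)) (by norm_num))
  have h155 := In_cast (w := (mu p r t)) h154 rfl
  refine mulK_s he h155 h13 (fun _ _ _ _ _ h156 H122 => ?_) H121
  have h157 := In_cast (w := (m p r t)) h156 rfl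
  refine sqK_s he h157 (fun _ _ _ _ _ h158 H123 => ?_) H122
  refine negK_s he h158 (fun _ _ _ _ _ h159 H124 => ?_) H123
  refine addcK_s he h159 (v' := (1:ℝ)) (by norm_num [SS, BB, abs_le]) (fun _ _ _ _ _ h160 H125 => ?_) H124
  have h161 := In_cast h160 (neg_add_eq_sub _ _)
  refine sqrtK_s he h161 (fun _ _ _ _ _ h162 H126 => ?_) H125
  have h163 := In_cast (w := (C p r t)) h162 rfl
  refine addcK_s he h163 (v' := (1:ℝ)) (by norm_num [SS, BB, abs_le]) (fun _ _ _ _ _ h164 H127 => ?_) H126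
  have h165 := In_cast h164 (add_comm _ _)
  refine invK_s he h165 (fun _ _ _ _ _ h166 H128 => ?_) H127
  refine mulK_s he h155 h157 (fun _ _ _ _ _ h167 H129 => ?_) H128
  refine mulK_s he h167 h166 (fun _ _ _ _ _ h168 H130 => ?_) H129
  have h169 := In_cast h168 ((div_eq_mul_inv _ _).symm)
  refine addK_s he h151 h169 (fun _ _ _ _ _ h170 H131 => ?_) H130
  have h171 := In_cast (w := (base p r t)) h170 rfl
  refine mulK_s he h14 h102 (fun _ _ _ _ _ h172 H132 => ?_) H131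
  refine mulK_s he hx3 h96 (fun _ _ _ _ _ h173 H133 => ?_) H132
  refine smulK_s he (w := (1:ℝ)) (by norm_num) (by norm_num) (by norm_num) (by norm_num) h173 (fun _ _ _ _ _ h174 H134 => ?_) H133
  have h175 := In_cast h174 (div_c (c := (1:ℝ)) (by norm_num))
  refine smulK_s he (w := (1:ℝ)) (by norm_num) (by norm_num) (by norm_num) (by norm_num) h102 (fun _ _ _ _ _ h176 H135 => ?_) H134
  refine mulK_s he h176 h147 (fun _ _ _ _ _ h177 H136 => ?_) H135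
  refine addK_s he h175 h177 (fun _ _ _ _ _ h178 H137 => ?_) H136
  refine smulK_s he (w := (1/2:ℝ)) (by norm_num) (by norm_num) (by norm_num) (by norm_num) h178 (fun _ _ _ _ _ h179 H138 => ?_) H137
  have h180 := In_cast h179 (div_c (c := (2:ℝ)) (by norm_num))
  refine subK_s he h172 h180 (fun _ _ _ _ _ h181 H139 => ?_) H138
  refine mulK_s he h5 h181 (fun _ _ _ _ _ h182 H140 => ?_) H139
  refine addK_s he h171 h182 (fun _ _ _ _ _ h183 H141 => ?_) H140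
  exact pos_s he h183 H141

noncomputable def alt2 (z1 w1 z2 w2 z3 w3 : ℕ) : Bool :=
  sqK z1 (Nat.add w1 1152921504606846976) 1152921504606846976 1152921504606846976 0 fun c1 a1_1 a1_2 a1_3 q1 =>
  negK c1 a1_1 a1_2 a1_3 q1 fun c3 a3_1 a3_2 a3_3 q3 =>
  addcK c3 a3_1 a3_2 a3_3 q3 1152922604118474752 0 fun c4 a4_1 a4_2 a4_3 q4 =>
  addcK z1 (Nat.add w1 1152921504606846976) 1152921504606846976 1152921504606846976 0 1152922604118474752 0 fun c6 a6_1 a6_2 a6_3 q6 =>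
  smulK 1 2 2305843009213693954 1152921504606846976 c6 a6_1 a6_2 a6_3 q6 fun c8 a8_1 a8_2 a8_3 q8 =>
  smulK 4 1 1152921504606846977 4611686018427387904 c8 a8_1 a8_2 a8_3 q8 fun c11 a11_1 a11_2 a11_3 q11 =>
  sqK z2 1152921504606846976 (Nat.add w2 1152921504606846976) 1152921504606846976 0 fun c12 a12_1 a12_2 a12_3 q12 =>
  mulK c12 a12_1 a12_2 a12_3 q12 z3 1152921504606846976 1152921504606846976 (Nat.add w3 1152921504606846976) 0 fun c14 a14_1 a14_2 a14_3 q14 =>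
  mulK c11 a11_1 a11_2 a11_3 q11 c14 a14_1 a14_2 a14_3 q14 fun c16 a16_1 a16_2 a16_3 q16 =>
  mulK c8 a8_1 a8_2 a8_3 q8 c14 a14_1 a14_2 a14_3 q14 fun c17 a17_1 a17_2 a17_3 q17 =>
  subK z1 (Nat.add w1 1152921504606846976) 1152921504606846976 1152921504606846976 0 c17 a17_1 a17_2 a17_3 q17 fun c18 a18_1 a18_2 a18_3 q18 =>
  mulK c16 a16_1 a16_2 a16_3 q16 c18 a18_1 a18_2 a18_3 q18 fun c19 a19_1 a19_2 a19_3 q19 =>
  addK c4 a4_1 a4_2 a4_3 q4 c19 a19_1 a19_2 a19_3 q19 fun c20 a20_1 a20_2 a20_3 q20 =>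
  sqrtK c20 a20_1 a20_2 a20_3 q20 fun c21 a21_1 a21_2 a21_3 q21 =>
  sqrtK c4 a4_1 a4_2 a4_3 q4 fun c22 a22_1 a22_2 a22_3 q22 =>
  addK c21 a21_1 a21_2 a21_3 q21 c22 a22_1 a22_2 a22_3 q22 fun c24 a24_1 a24_2 a24_3 q24 =>
  invK c24 a24_1 a24_2 a24_3 q24 fun c25 a25_1 a25_2 a25_3 q25 =>
  smulK 2 1 1152921504606846977 2305843009213693952 c8 a8_1 a8_2 a8_3 q8 fun c26 a26_1 a26_2 a26_3 q26 =>
  mulK c26 a26_1 a26_2 a26_3 q26 c18 a18_1 a18_2 a18_3 q18 fun c27 a27_1 a27_2 a27_3 q27 =>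
  mulK c27 a27_1 a27_2 a27_3 q27 c25 a25_1 a25_2 a25_3 q25 fun c28 a28_1 a28_2 a28_3 q28 =>
  negK z1 (Nat.add w1 1152921504606846976) 1152921504606846976 1152921504606846976 0 fun c30 a30_1 a30_2 a30_3 q30 =>
  addcK c30 a30_1 a30_2 a30_3 q30 1152922604118474752 0 fun c31 a31_1 a31_2 a31_3 q31 =>
  smulK 1 2 2305843009213693954 1152921504606846976 c31 a31_1 a31_2 a31_3 q31 fun c33 a33_1 a33_2 a33_3 q33 =>
  smulK 4 1 1152921504606846977 4611686018427387904 c33 a33_1 a33_2 a33_3 q33 fun c36 a36_1 a36_2 a36_3 q36 =>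
  mulK c36 a36_1 a36_2 a36_3 q36 c14 a14_1 a14_2 a14_3 q14 fun c37 a37_1 a37_2 a37_3 q37 =>
  mulK c33 a33_1 a33_2 a33_3 q33 c14 a14_1 a14_2 a14_3 q14 fun c38 a38_1 a38_2 a38_3 q38 =>
  addK z1 (Nat.add w1 1152921504606846976) 1152921504606846976 1152921504606846976 0 c38 a38_1 a38_2 a38_3 q38 fun c39 a39_1 a39_2 a39_3 q39 =>
  mulK c37 a37_1 a37_2 a37_3 q37 c39 a39_1 a39_2 a39_3 q39 fun c40 a40_1 a40_2 a40_3 q40 =>
  subK c4 a4_1 a4_2 a4_3 q4 c40 a40_1 a40_2 a40_3 q40 fun c41 a41_1 a41_2 a41_3 q41 =>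
  sqrtK c41 a41_1 a41_2 a41_3 q41 fun c42 a42_1 a42_2 a42_3 q42 =>
  addK c42 a42_1 a42_2 a42_3 q42 c22 a22_1 a22_2 a22_3 q22 fun c43 a43_1 a43_2 a43_3 q43 =>
  invK c43 a43_1 a43_2 a43_3 q43 fun c44 a44_1 a44_2 a44_3 q44 =>
  smulK 2 1 1152921504606846977 2305843009213693952 c33 a33_1 a33_2 a33_3 q33 fun c45 a45_1 a45_2 a45_3 q45 =>
  mulK c45 a45_1 a45_2 a45_3 q45 c39 a39_1 a39_2 a39_3 q39 fun c46 a46_1 a46_2 a46_3 q46 =>
  mulK c46 a46_1 a46_2 a46_3 q46 c44 a44_1 a44_2 a44_3 q44 fun c47 a47_1 a47_2 a47_3 q47 =>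
  subK c28 a28_1 a28_2 a28_3 q28 c47 a47_1 a47_2 a47_3 q47 fun c49 a49_1 a49_2 a49_3 q49 =>
  smulK 457 1000 1152921504606846977000 526885127605329068032 c1 a1_1 a1_2 a1_3 q1 fun c51 a51_1 a51_2 a51_3 q51 =>
  negK c51 a51_1 a51_2 a51_3 q51 fun c52 a52_1 a52_2 a52_3 q52 =>
  addcK c52 a52_1 a52_2 a52_3 q52 1152922739358404968 1 fun c53 a53_1 a53_2 a53_3 q53 =>
  sqK c1 a1_1 a1_2 a1_3 q1 fun c55 a55_1 a55_2 a55_3 q55 =>
  smulK 383 500 576460752303423488500 441568936264422391808 c55 a55_1 a55_2 a55_3 q55 fun c56 a56_1 a56_2 a56_3 q56 =>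
  addK c53 a53_1 a53_2 a53_3 q53 c56 a56_1 a56_2 a56_3 q56 fun c57 a57_1 a57_2 a57_3 q57 =>
  mulK c55 a55_1 a55_2 a55_3 q55 c1 a1_1 a1_2 a1_3 q1 fun c58 a58_1 a58_2 a58_3 q58 =>
  smulK 1519 200 230584300921369395400 1751287765497800556544 c58 a58_1 a58_2 a58_3 q58 fun c60 a60_1 a60_2 a60_3 q60 =>
  addK c57 a57_1 a57_2 a57_3 q57 c60 a60_1 a60_2 a60_3 q60 fun c61 a61_1 a61_2 a61_3 q61 =>
  smulK 18177 1000 1152921504606846977000 20956654189238657482752 c1 a1_1 a1_2 a1_3 q1 fun c62 a62_1 a62_2 a62_3 q62 =>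
  addcK c62 a62_1 a62_2 a62_3 q62 1152920343522568045 1 fun c63 a63_1 a63_2 a63_3 q63 =>
  smulK 333 8 9223372036854775816 383922861034080043008 c55 a55_1 a55_2 a55_3 q55 fun c65 a65_1 a65_2 a65_3 q65 =>
  subK c63 a63_1 a63_2 a63_3 q63 c65 a65_1 a65_2 a65_3 q65 fun c66 a66_1 a66_2 a66_3 q66 =>
  smulK 9513 200 230584300921369395400 10967742273324935282688 c58 a58_1 a58_2 a58_3 q58 fun c67 a67_1 a67_2 a67_3 q67 =>
  subK c66 a66_1 a66_2 a66_3 q66 c67 a67_1 a67_2 a67_3 q67 fun c68 a68_1 a68_2 a68_3 q68 =>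
  mulK c14 a14_1 a14_2 a14_3 q14 c68 a68_1 a68_2 a68_3 q68 fun c69 a69_1 a69_2 a69_3 q69 =>
  addK c61 a61_1 a61_2 a61_3 q61 c69 a69_1 a69_2 a69_3 q69 fun c70 a70_1 a70_2 a70_3 q70 =>
  sqK c14 a14_1 a14_2 a14_3 q14 fun c71 a71_1 a71_2 a71_3 q71 =>
  smulK 10539 125 144115188075855872125 12150639737051560280064 c1 a1_1 a1_2 a1_3 q1 fun c72 a72_1 a72_2 a72_3 q72 =>
  negK c72 a72_1 a72_2 a72_3 q72 fun c73 a73_1 a73_2 a73_3 q73 =>
  addcK c73 a73_1 a73_2 a73_3 q73 1152932573390403797 1 fun c74 a74_1 a74_2 a74_3 q74 =>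
  smulK 118263 500 576460752303423488500 136347955899319543922688 c55 a55_1 a55_2 a55_3 q55 fun c76 a76_1 a76_2 a76_3 q76 =>
  addK c74 a74_1 a74_2 a74_3 q74 c76 a76_1 a76_2 a76_3 q76 fun c77 a77_1 a77_2 a77_3 q77 =>
  mulK c71 a71_1 a71_2 a71_3 q71 c77 a77_1 a77_2 a77_3 q77 fun c78 a78_1 a78_2 a78_3 q78 =>
  addK c70 a70_1 a70_2 a70_3 q70 c78 a78_1 a78_2 a78_3 q78 fun c79 a79_1 a79_2 a79_3 q79 =>
  mulK c1 a1_1 a1_2 a1_3 q1 c4 a4_1 a4_2 a4_3 q4 fun c81 a81_1 a81_2 a81_3 q81 =>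
  sqrtK c14 a14_1 a14_2 a14_3 q14 fun c83 a83_1 a83_2 a83_3 q83 =>
  smulK 1531 1250 1441151880758558721250 1765122823553082720256 c83 a83_1 a83_2 a83_3 q83 fun c84 a84_1 a84_2 a84_3 q84 =>
  subK 1152922054362660864 1152921504606846976 1152921504606846976 1152921504606846976 0 c84 a84_1 a84_2 a84_3 q84 fun c85 a85_1 a85_2 a85_3 q85 =>
  reluK c85 a85_1 a85_2 a85_3 q85 fun c86 a86_1 a86_2 a86_3 q86 =>
  subK 1152922054362660864 1152921504606846976 1152921504606846976 1152921504606846976 0 c86 a86_1 a86_2 a86_3 q86 fun c87 a87_1 a87_2 a87_3 q87 =>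
  mulK c81 a81_1 a81_2 a81_3 q81 c87 a87_1 a87_2 a87_3 q87 fun c89 a89_1 a89_2 a89_3 q89 =>
  sqK c1 a1_1 a1_2 a1_3 q1 fun c90 a90_1 a90_2 a90_3 q90 =>
  negK c14 a14_1 a14_2 a14_3 q14 fun c91 a91_1 a91_2 a91_3 q91 =>
  addcK c91 a91_1 a91_2 a91_3 q91 1152922604118474752 0 fun c92 a92_1 a92_2 a92_3 q92 =>
  mulK c90 a90_1 a90_2 a90_3 q90 c92 a92_1 a92_2 a92_3 q92 fun c94 a94_1 a94_2 a94_3 q94 =>
  addK c89 a89_1 a89_2 a89_3 q89 c94 a94_1 a94_2 a94_3 q94 fun c95 a95_1 a95_2 a95_3 q95 =>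
  mulK c79 a79_1 a79_2 a79_3 q79 c95 a95_1 a95_2 a95_3 q95 fun c97 a97_1 a97_2 a97_3 q97 =>
  subK c49 a49_1 a49_2 a49_3 q49 c97 a97_1 a97_2 a97_3 q97 fun c98 a98_1 a98_2 a98_3 q98 =>
  mulK z3 1152921504606846976 1152921504606846976 (Nat.add w3 1152921504606846976) 0 c98 a98_1 a98_2 a98_3 q98 fun c99 a99_1 a99_2 a99_3 q99 =>
  negK z3 1152921504606846976 1152921504606846976 (Nat.add w3 1152921504606846976) 0 fun c100 a100_1 a100_2 a100_3 q100 =>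
  addcK c100 a100_1 a100_2 a100_3 q100 1152922604118474752 0 fun c101 a101_1 a101_2 a101_3 q101 =>
  mulK c12 a12_1 a12_2 a12_3 q12 c101 a101_1 a101_2 a101_3 q101 fun c103 a103_1 a103_2 a103_3 q103 =>
  mulK c11 a11_1 a11_2 a11_3 q11 c103 a103_1 a103_2 a103_3 q103 fun c105 a105_1 a105_2 a105_3 q105 =>
  mulK c8 a8_1 a8_2 a8_3 q8 c103 a103_1 a103_2 a103_3 q103 fun c106 a106_1 a106_2 a106_3 q106 =>
  subK z1 (Nat.add w1 1152921504606846976) 1152921504606846976 1152921504606846976 0 c106 a106_1 a106_2 a106_3 q106 fun c107 a107_1 a107_2 a107_3 q107 =>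
  mulK c105 a105_1 a105_2 a105_3 q105 c107 a107_1 a107_2 a107_3 q107 fun c108 a108_1 a108_2 a108_3 q108 =>
  addK c4 a4_1 a4_2 a4_3 q4 c108 a108_1 a108_2 a108_3 q108 fun c109 a109_1 a109_2 a109_3 q109 =>
  sqrtK c109 a109_1 a109_2 a109_3 q109 fun c110 a110_1 a110_2 a110_3 q110 =>
  addK c110 a110_1 a110_2 a110_3 q110 c22 a22_1 a22_2 a22_3 q22 fun c111 a111_1 a111_2 a111_3 q111 =>
  invK c111 a111_1 a111_2 a111_3 q111 fun c112 a112_1 a112_2 a112_3 q112 =>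
  mulK c26 a26_1 a26_2 a26_3 q26 c107 a107_1 a107_2 a107_3 q107 fun c113 a113_1 a113_2 a113_3 q113 =>
  mulK c113 a113_1 a113_2 a113_3 q113 c112 a112_1 a112_2 a112_3 q112 fun c114 a114_1 a114_2 a114_3 q114 =>
  mulK c36 a36_1 a36_2 a36_3 q36 c103 a103_1 a103_2 a103_3 q103 fun c116 a116_1 a116_2 a116_3 q116 =>
  mulK c33 a33_1 a33_2 a33_3 q33 c103 a103_1 a103_2 a103_3 q103 fun c117 a117_1 a117_2 a117_3 q117 =>
  addK z1 (Nat.add w1 1152921504606846976) 1152921504606846976 1152921504606846976 0 c117 a117_1 a117_2 a117_3 q117 fun c118 a118_1 a118_2 a118_3 q118 =>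
  mulK c116 a116_1 a116_2 a116_3 q116 c118 a118_1 a118_2 a118_3 q118 fun c119 a119_1 a119_2 a119_3 q119 =>
  subK c4 a4_1 a4_2 a4_3 q4 c119 a119_1 a119_2 a119_3 q119 fun c120 a120_1 a120_2 a120_3 q120 =>
  sqrtK c120 a120_1 a120_2 a120_3 q120 fun c121 a121_1 a121_2 a121_3 q121 =>
  addK c121 a121_1 a121_2 a121_3 q121 c22 a22_1 a22_2 a22_3 q22 fun c122 a122_1 a122_2 a122_3 q122 =>
  invK c122 a122_1 a122_2 a122_3 q122 fun c123 a123_1 a123_2 a123_3 q123 =>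
  mulK c45 a45_1 a45_2 a45_3 q45 c118 a118_1 a118_2 a118_3 q118 fun c124 a124_1 a124_2 a124_3 q124 =>
  mulK c124 a124_1 a124_2 a124_3 q124 c123 a123_1 a123_2 a123_3 q123 fun c125 a125_1 a125_2 a125_3 q125 =>
  subK c114 a114_1 a114_2 a114_3 q114 c125 a125_1 a125_2 a125_3 q125 fun c127 a127_1 a127_2 a127_3 q127 =>
  mulK c103 a103_1 a103_2 a103_3 q103 c68 a68_1 a68_2 a68_3 q68 fun c129 a129_1 a129_2 a129_3 q129 =>
  addK c61 a61_1 a61_2 a61_3 q61 c129 a129_1 a129_2 a129_3 q129 fun c130 a130_1 a130_2 a130_3 q130 =>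
  sqK c103 a103_1 a103_2 a103_3 q103 fun c131 a131_1 a131_2 a131_3 q131 =>
  mulK c131 a131_1 a131_2 a131_3 q131 c77 a77_1 a77_2 a77_3 q77 fun c132 a132_1 a132_2 a132_3 q132 =>
  addK c130 a130_1 a130_2 a130_3 q130 c132 a132_1 a132_2 a132_3 q132 fun c133 a133_1 a133_2 a133_3 q133 =>
  sqrtK c103 a103_1 a103_2 a103_3 q103 fun c135 a135_1 a135_2 a135_3 q135 =>
  smulK 1531 1250 1441151880758558721250 1765122823553082720256 c135 a135_1 a135_2 a135_3 q135 fun c136 a136_1 a136_2 a136_3 q136 =>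
  subK 1152922054362660864 1152921504606846976 1152921504606846976 1152921504606846976 0 c136 a136_1 a136_2 a136_3 q136 fun c137 a137_1 a137_2 a137_3 q137 =>
  reluK c137 a137_1 a137_2 a137_3 q137 fun c138 a138_1 a138_2 a138_3 q138 =>
  subK 1152922054362660864 1152921504606846976 1152921504606846976 1152921504606846976 0 c138 a138_1 a138_2 a138_3 q138 fun c139 a139_1 a139_2 a139_3 q139 =>
  mulK c81 a81_1 a81_2 a81_3 q81 c139 a139_1 a139_2 a139_3 q139 fun c141 a141_1 a141_2 a141_3 q141 =>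
  negK c103 a103_1 a103_2 a103_3 q103 fun c142 a142_1 a142_2 a142_3 q142 =>
  addcK c142 a142_1 a142_2 a142_3 q142 1152922604118474752 0 fun c143 a143_1 a143_2 a143_3 q143 =>
  mulK c90 a90_1 a90_2 a90_3 q90 c143 a143_1 a143_2 a143_3 q143 fun c145 a145_1 a145_2 a145_3 q145 =>
  addK c141 a141_1 a141_2 a141_3 q141 c145 a145_1 a145_2 a145_3 q145 fun c146 a146_1 a146_2 a146_3 q146 =>
  mulK c133 a133_1 a133_2 a133_3 q133 c146 a146_1 a146_2 a146_3 q146 fun c148 a148_1 a148_2 a148_3 q148 =>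
  subK c127 a127_1 a127_2 a127_3 q127 c148 a148_1 a148_2 a148_3 q148 fun c149 a149_1 a149_2 a149_3 q149 =>
  mulK c101 a101_1 a101_2 a101_3 q101 c149 a149_1 a149_2 a149_3 q149 fun c150 a150_1 a150_2 a150_3 q150 =>
  addK c99 a99_1 a99_2 a99_3 q99 c150 a150_1 a150_2 a150_3 q150 fun c151 a151_1 a151_2 a151_3 q151 =>
  smulK 2 1 1152921504606846977 2305843009213693952 z3 1152921504606846976 1152921504606846976 (Nat.add w3 1152921504606846976) 0 fun c152 a152_1 a152_2 a152_3 q152 =>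
  addcK c152 a152_1 a152_2 a152_3 q152 1152920405095219200 0 fun c153 a153_1 a153_2 a153_3 q153 =>
  mulK c153 a153_1 a153_2 a153_3 q153 c12 a12_1 a12_2 a12_3 q12 fun c156 a156_1 a156_2 a156_3 q156 =>
  sqK c156 a156_1 a156_2 a156_3 q156 fun c158 a158_1 a158_2 a158_3 q158 =>
  negK c158 a158_1 a158_2 a158_3 q158 fun c159 a159_1 a159_2 a159_3 q159 =>
  addcK c159 a159_1 a159_2 a159_3 q159 1152922604118474752 0 fun c160 a160_1 a160_2 a160_3 q160 =>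
  sqrtK c160 a160_1 a160_2 a160_3 q160 fun c162 a162_1 a162_2 a162_3 q162 =>
  addcK c162 a162_1 a162_2 a162_3 q162 1152922604118474752 0 fun c164 a164_1 a164_2 a164_3 q164 =>
  invK c164 a164_1 a164_2 a164_3 q164 fun c166 a166_1 a166_2 a166_3 q166 =>
  mulK c153 a153_1 a153_2 a153_3 q153 c156 a156_1 a156_2 a156_3 q156 fun c167 a167_1 a167_2 a167_3 q167 =>
  mulK c167 a167_1 a167_2 a167_3 q167 c166 a166_1 a166_2 a166_3 q166 fun c168 a168_1 a168_2 a168_3 q168 =>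
  addK c151 a151_1 a151_2 a151_3 q151 c168 a168_1 a168_2 a168_3 q168 fun c170 a170_1 a170_2 a170_3 q170 =>
  mulK c14 a14_1 a14_2 a14_3 q14 c101 a101_1 a101_2 a101_3 q101 fun c172 a172_1 a172_2 a172_3 q172 =>
  mulK z3 1152921504606846976 1152921504606846976 (Nat.add w3 1152921504606846976) 0 c95 a95_1 a95_2 a95_3 q95 fun c173 a173_1 a173_2 a173_3 q173 =>
  smulK 1 2 2305843009213693954 1152921504606846976 c173 a173_1 a173_2 a173_3 q173 fun c174 a174_1 a174_2 a174_3 q174 =>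
  smulK 2 1 1152921504606846977 2305843009213693952 c101 a101_1 a101_2 a101_3 q101 fun c176 a176_1 a176_2 a176_3 q176 =>
  mulK c176 a176_1 a176_2 a176_3 q176 c146 a146_1 a146_2 a146_3 q146 fun c177 a177_1 a177_2 a177_3 q177 =>
  addK c174 a174_1 a174_2 a174_3 q174 c177 a177_1 a177_2 a177_3 q177 fun c178 a178_1 a178_2 a178_3 q178 =>
  smulK 1 2 2305843009213693954 1152921504606846976 c178 a178_1 a178_2 a178_3 q178 fun c179 a179_1 a179_2 a179_3 q179 =>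
  subK c172 a172_1 a172_2 a172_3 q172 c179 a179_1 a179_2 a179_3 q179 fun c181 a181_1 a181_2 a181_3 q181 =>
  mulK c4 a4_1 a4_2 a4_3 q4 c181 a181_1 a181_2 a181_3 q181 fun c182 a182_1 a182_2 a182_3 q182 =>
  addK c170 a170_1 a170_2 a170_3 q170 c182 a182_1 a182_2 a182_3 q182 fun c183 a183_1 a183_2 a183_3 q183 =>
  pos c183 a183_1 a183_2 a183_3 q183

theorem alt2_s {z1 w1 z2 w2 z3 w3 : ℕ} {e1 e2 e3 p r t : ℝ} (he : Ev e1 e2 e3)
    (hx1 : In e1 e2 e3 z1 (Nat.add w1 1152921504606846976) 1152921504606846976 1152921504606846976 0 p)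
    (hx2 : In e1 e2 e3 z2 1152921504606846976 (Nat.add w2 1152921504606846976) 1152921504606846976 0 r)
    (hx3 : In e1 e2 e3 z3 1152921504606846976 1152921504606846976 (Nat.add w3 1152921504606846976) 0 t)
    (H0 : alt2 z1 w1 z2 w2 z3 w3 = true) : 0 < ((base p r t) + (((1:ℝ) - (x p r t)) * ((((et p r t) * t) * ((1:ℝ) - t)) - ((((t * (v0 p r t)) / (2:ℝ)) + (((2:ℝ) * ((1:ℝ) - t)) * (v1 p r t))) / (2:ℝ))))) := by
  unfold alt2 at H0
  refine sqK_s he hx1 (fun _ _ _ _ _ h1 H1 => ?_) H0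
  have h2 := In_cast (w := (x p r t)) h1 rfl
  refine negK_s he h2 (fun _ _ _ _ _ h3 H2 => ?_) H1
  refine addcK_s he h3 (v' := (1:ℝ)) (by norm_num [SS, BB, abs_le]) (fun _ _ _ _ _ h4 H3 => ?_) H2
  have h5 := In_cast h4 (neg_add_eq_sub _ _)
  refine addcK_s he hx1 (v' := (1:ℝ)) (by norm_num [SS, BB, abs_le]) (fun _ _ _ _ _ h6 H4 => ?_) H3
  have h7 := In_cast h6 (add_comm _ _)
  refine smulK_s he (w := (1/2:ℝ)) (by norm_num) (by norm_num) (by norm_num) (by norm_num) h7 (fun _ _ _ _ _ h8 H5 => ?_) H4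
  have h9 := In_cast h8 (div_c (c := (2:ℝ)) (by norm_num))
  have h10 := In_cast (w := (al p r t)) h9 rfl
  refine smulK_s he (w := (4:ℝ)) (by norm_num) (by norm_num) (by norm_num) (by norm_num) h10 (fun _ _ _ _ _ h11 H6 => ?_) H5
  refine sqK_s he hx2 (fun _ _ _ _ _ h12 H7 => ?_) H6
  have h13 := In_cast (w := (et p r t)) h12 rfl
  refine mulK_s he h13 hx3 (fun _ _ _ _ _ h14 H8 => ?_) H7
  have h15 := In_cast (w := (ee0 p r t)) h14 rfl
  refine mulK_s he h11 h15 (fun _ _ _ _ _ h16 H9 => ?_) H8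
  refine mulK_s he h10 h15 (fun _ _ _ _ _ h17 H10 => ?_) H9
  refine subK_s he hx1 h17 (fun _ _ _ _ _ h18 H11 => ?_) H10
  refine mulK_s he h16 h18 (fun _ _ _ _ _ h19 H12 => ?_) H11
  refine addK_s he h5 h19 (fun _ _ _ _ _ h20 H13 => ?_) H12
  refine sqrtK_s he h20 (fun _ _ _ _ _ h21 H14 => ?_) H13
  refine sqrtK_s he h5 (fun _ _ _ _ _ h22 H15 => ?_) H14
  have h23 := In_cast (w := (s p r t)) h22 rfl
  refine addK_s he h21 h23 (fun _ _ _ _ _ h24 H16 => ?_) H15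
  refine invK_s he h24 (fun _ _ _ _ _ h25 H17 => ?_) H16
  refine smulK_s he (w := (2:ℝ)) (by norm_num) (by norm_num) (by norm_num) (by norm_num) h10 (fun _ _ _ _ _ h26 H18 => ?_) H17
  refine mulK_s he h26 h18 (fun _ _ _ _ _ h27 H19 => ?_) H18
  refine mulK_s he h27 h25 (fun _ _ _ _ _ h28 H20 => ?_) H19
  have h29 := In_cast h28 ((div_eq_mul_inv _ _).symm)
  refine negK_s he hx1 (fun _ _ _ _ _ h30 H21 => ?_) H20
  refine addcK_s he h30 (v' := (1:ℝ)) (by norm_num [SS, BB, abs_le]) (fun _ _ _ _ _ h31 H22 => ?_) H21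
  have h32 := In_cast h31 (neg_add_eq_sub _ _)
  refine smulK_s he (w := (1/2:ℝ)) (by norm_num) (by norm_num) (by norm_num) (by norm_num) h32 (fun _ _ _ _ _ h33 H23 => ?_) H22
  have h34 := In_cast h33 (div_c (c := (2:ℝ)) (by norm_num))
  have h35 := In_cast (w := (be p r t)) h34 rfl
  refine smulK_s he (w := (4:ℝ)) (by norm_num) (by norm_num) (by norm_num) (by norm_num) h35 (fun _ _ _ _ _ h36 H24 => ?_) H23
  refine mulK_s he h36 h15 (fun _ _ _ _ _ h37 H25 => ?_) H24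
  refine mulK_s he h35 h15 (fun _ _ _ _ _ h38 H26 => ?_) H25
  refine addK_s he hx1 h38 (fun _ _ _ _ _ h39 H27 => ?_) H26
  refine mulK_s he h37 h39 (fun _ _ _ _ _ h40 H28 => ?_) H27
  refine subK_s he h5 h40 (fun _ _ _ _ _ h41 H29 => ?_) H28
  refine sqrtK_s he h41 (fun _ _ _ _ _ h42 H30 => ?_) H29
  refine addK_s he h42 h23 (fun _ _ _ _ _ h43 H31 => ?_) H30
  refine invK_s he h43 (fun _ _ _ _ _ h44 H32 => ?_) H31
  refine smulK_s he (w := (2:ℝ)) (by norm_num) (by norm_num) (by norm_num) (by norm_num) h35 (fun _ _ _ _ _ h45 H33 => ?_) H32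
  refine mulK_s he h45 h39 (fun _ _ _ _ _ h46 H34 => ?_) H33
  refine mulK_s he h46 h44 (fun _ _ _ _ _ h47 H35 => ?_) H34
  have h48 := In_cast h47 ((div_eq_mul_inv _ _).symm)
  refine subK_s he h29 h48 (fun _ _ _ _ _ h49 H36 => ?_) H35
  have h50 := In_cast (w := (Ga0 p r t)) h49 rfl
  refine smulK_s he (w := (457/1000:ℝ)) (by norm_num) (by norm_num) (by norm_num) (by norm_num) h1 (fun _ _ _ _ _ h51 H37 => ?_) H36
  refine negK_s he h51 (fun _ _ _ _ _ h52 H38 => ?_) H37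
  refine addcK_s he h52 (v' := (1123/1000:ℝ)) (by norm_num [SS, BB, abs_le]) (fun _ _ _ _ _ h53 H39 => ?_) H38
  have h54 := In_cast h53 (neg_add_eq_sub _ _)
  refine sqK_s he h1 (fun _ _ _ _ _ h55 H40 => ?_) H39
  refine smulK_s he (w := (383/500:ℝ)) (by norm_num) (by norm_num) (by norm_num) (by norm_num) h55 (fun _ _ _ _ _ h56 H41 => ?_) H40
  refine addK_s he h54 h56 (fun _ _ _ _ _ h57 H42 => ?_) H41
  refine mulK_s he h55 h1 (fun _ _ _ _ _ h58 H43 => ?_) H42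
  have h59 := In_cast h58 (pow_sc (n := 3) rfl)
  refine smulK_s he (w := (1519/200:ℝ)) (by norm_num) (by norm_num) (by norm_num) (by norm_num) h59 (fun _ _ _ _ _ h60 H44 => ?_) H43
  refine addK_s he h57 h60 (fun _ _ _ _ _ h61 H45 => ?_) H44
  refine smulK_s he (w := (18177/1000:ℝ)) (by norm_num) (by norm_num) (by norm_num) (by norm_num) h1 (fun _ _ _ _ _ h62 H46 => ?_) H45
  refine addcK_s he h62 (v' := (-132/125:ℝ)) (by norm_num [SS, BB, abs_le]) (fun _ _ _ _ _ h63 H47 => ?_) H46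
  have h64 := In_cast h63 (add_comm _ _)
  refine smulK_s he (w := (333/8:ℝ)) (by norm_num) (by norm_num) (by norm_num) (by norm_num) h55 (fun _ _ _ _ _ h65 H48 => ?_) H47
  refine subK_s he h64 h65 (fun _ _ _ _ _ h66 H49 => ?_) H48
  refine smulK_s he (w := (9513/200:ℝ)) (by norm_num) (by norm_num) (by norm_num) (by norm_num) h59 (fun _ _ _ _ _ h67 H50 => ?_) H49
  refine subK_s he h66 h67 (fun _ _ _ _ _ h68 H51 => ?_) H50
  refine mulK_s he h15 h68 (fun _ _ _ _ _ h69 H52 => ?_) H51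
  refine addK_s he h61 h69 (fun _ _ _ _ _ h70 H53 => ?_) H52
  refine sqK_s he h15 (fun _ _ _ _ _ h71 H54 => ?_) H53
  refine smulK_s he (w := (10539/125:ℝ)) (by norm_num) (by norm_num) (by norm_num) (by norm_num) h1 (fun _ _ _ _ _ h72 H55 => ?_) H54
  refine negK_s he h72 (fun _ _ _ _ _ h73 H56 => ?_) H55
  refine addcK_s he h73 (v' := (10067/1000:ℝ)) (by norm_num [SS, BB, abs_le]) (fun _ _ _ _ _ h74 H57 => ?_) H56
  have h75 := In_cast h74 (neg_add_eq_sub _ _)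
  refine smulK_s he (w := (118263/500:ℝ)) (by norm_num) (by norm_num) (by norm_num) (by norm_num) h55 (fun _ _ _ _ _ h76 H58 => ?_) H57
  refine addK_s he h75 h76 (fun _ _ _ _ _ h77 H59 => ?_) H58
  refine mulK_s he h71 h77 (fun _ _ _ _ _ h78 H60 => ?_) H59
  refine addK_s he h70 h78 (fun _ _ _ _ _ h79 H61 => ?_) H60
  have h80 := In_cast (w := (K0 p r t)) h79 rfl
  refine mulK_s he h2 h5 (fun _ _ _ _ _ h81 H62 => ?_) H61
  have h82 := cst (e1 := e1) (e2 := e2) (e3 := e3) 1152922054362660864 0 (1/2:ℝ) (by norm_num [SS, BB, abs_le])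
  refine sqrtK_s he h15 (fun _ _ _ _ _ h83 H63 => ?_) H62
  refine smulK_s he (w := (1531/1250:ℝ)) (by norm_num) (by norm_num) (by norm_num) (by norm_num) h83 (fun _ _ _ _ _ h84 H64 => ?_) H63
  refine subK_s he h82 h84 (fun _ _ _ _ _ h85 H65 => ?_) H64
  refine reluK_s he h85 (fun _ _ _ _ _ h86 H66 => ?_) H65
  refine subK_s he h82 h86 (fun _ _ _ _ _ h87 H67 => ?_) H66
  have h88 := In_cast h87 (min_rl _ _)
  refine mulK_s he h81 h88 (fun _ _ _ _ _ h89 H68 => ?_) H67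
  refine sqK_s he h2 (fun _ _ _ _ _ h90 H69 => ?_) H68
  refine negK_s he h15 (fun _ _ _ _ _ h91 H70 => ?_) H69
  refine addcK_s he h91 (v' := (1:ℝ)) (by norm_num [SS, BB, abs_le]) (fun _ _ _ _ _ h92 H71 => ?_) H70
  have h93 := In_cast h92 (neg_add_eq_sub _ _)
  refine mulK_s he h90 h93 (fun _ _ _ _ _ h94 H72 => ?_) H71
  refine addK_s he h89 h94 (fun _ _ _ _ _ h95 H73 => ?_) H72
  have h96 := In_cast (w := (v0 p r t)) h95 rfl
  refine mulK_s he h80 h96 (fun _ _ _ _ _ h97 H74 => ?_) H73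
  refine subK_s he h50 h97 (fun _ _ _ _ _ h98 H75 => ?_) H74
  refine mulK_s he hx3 h98 (fun _ _ _ _ _ h99 H76 => ?_) H75
  refine negK_s he hx3 (fun _ _ _ _ _ h100 H77 => ?_) H76
  refine addcK_s he h100 (v' := (1:ℝ)) (by norm_num [SS, BB, abs_le]) (fun _ _ _ _ _ h101 H78 => ?_) H77
  have h102 := In_cast h101 (neg_add_eq_sub _ _)
  refine mulK_s he h13 h102 (fun _ _ _ _ _ h103 H79 => ?_) H78
  have h104 := In_cast (w := (ee1 p r t)) h103 rfl
  refine mulK_s he h11 h104 (fun _ _ _ _ _ h105 H80 => ?_) H79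
  refine mulK_s he h10 h104 (fun _ _ _ _ _ h106 H81 => ?_) H80
  refine subK_s he hx1 h106 (fun _ _ _ _ _ h107 H82 => ?_) H81
  refine mulK_s he h105 h107 (fun _ _ _ _ _ h108 H83 => ?_) H82
  refine addK_s he h5 h108 (fun _ _ _ _ _ h109 H84 => ?_) H83
  refine sqrtK_s he h109 (fun _ _ _ _ _ h110 H85 => ?_) H84
  refine addK_s he h110 h23 (fun _ _ _ _ _ h111 H86 => ?_) H85
  refine invK_s he h111 (fun _ _ _ _ _ h112 H87 => ?_) H86
  refine mulK_s he h26 h107 (fun _ _ _ _ _ h113 H88 => ?_) H87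
  refine mulK_s he h113 h112 (fun _ _ _ _ _ h114 H89 => ?_) H88
  have h115 := In_cast h114 ((div_eq_mul_inv _ _).symm)
  refine mulK_s he h36 h104 (fun _ _ _ _ _ h116 H90 => ?_) H89
  refine mulK_s he h35 h104 (fun _ _ _ _ _ h117 H91 => ?_) H90
  refine addK_s he hx1 h117 (fun _ _ _ _ _ h118 H92 => ?_) H91
  refine mulK_s he h116 h118 (fun _ _ _ _ _ h119 H93 => ?_) H92
  refine subK_s he h5 h119 (fun _ _ _ _ _ h120 H94 => ?_) H93
  refine sqrtK_s he h120 (fun _ _ _ _ _ h121 H95 => ?_) H94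
  refine addK_s he h121 h23 (fun _ _ _ _ _ h122 H96 => ?_) H95
  refine invK_s he h122 (fun _ _ _ _ _ h123 H97 => ?_) H96
  refine mulK_s he h45 h118 (fun _ _ _ _ _ h124 H98 => ?_) H97
  refine mulK_s he h124 h123 (fun _ _ _ _ _ h125 H99 => ?_) H98
  have h126 := In_cast h125 ((div_eq_mul_inv _ _).symm)
  refine subK_s he h115 h126 (fun _ _ _ _ _ h127 H100 => ?_) H99
  have h128 := In_cast (w := (Ga1 p r t)) h127 rfl
  refine mulK_s he h104 h68 (fun _ _ _ _ _ h129 H101 => ?_) H100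
  refine addK_s he h61 h129 (fun _ _ _ _ _ h130 H102 => ?_) H101
  refine sqK_s he h104 (fun _ _ _ _ _ h131 H103 => ?_) H102
  refine mulK_s he h131 h77 (fun _ _ _ _ _ h132 H104 => ?_) H103
  refine addK_s he h130 h132 (fun _ _ _ _ _ h133 H105 => ?_) H104
  have h134 := In_cast (w := (K1 p r t)) h133 rfl
  refine sqrtK_s he h104 (fun _ _ _ _ _ h135 H106 => ?_) H105
  refine smulK_s he (w := (1531/1250:ℝ)) (by norm_num) (by norm_num) (by norm_num) (by norm_num) h135 (fun _ _ _ _ _ h136 H107 => ?_) H106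
  refine subK_s he h82 h136 (fun _ _ _ _ _ h137 H108 => ?_) H107
  refine reluK_s he h137 (fun _ _ _ _ _ h138 H109 => ?_) H108
  refine subK_s he h82 h138 (fun _ _ _ _ _ h139 H110 => ?_) H109
  have h140 := In_cast h139 (min_rl _ _)
  refine mulK_s he h81 h140 (fun _ _ _ _ _ h141 H111 => ?_) H110
  refine negK_s he h104 (fun _ _ _ _ _ h142 H112 => ?_) H111
  refine addcK_s he h142 (v' := (1:ℝ)) (by norm_num [SS, BB, abs_le]) (fun _ _ _ _ _ h143 H113 => ?_) H112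
  have h144 := In_cast h143 (neg_add_eq_sub _ _)
  refine mulK_s he h90 h144 (fun _ _ _ _ _ h145 H114 => ?_) H113
  refine addK_s he h141 h145 (fun _ _ _ _ _ h146 H115 => ?_) H114
  have h147 := In_cast (w := (v1 p r t)) h146 rfl
  refine mulK_s he h134 h147 (fun _ _ _ _ _ h148 H116 => ?_) H115
  refine subK_s he h128 h148 (fun _ _ _ _ _ h149 H117 => ?_) H116
  refine mulK_s he h102 h149 (fun _ _ _ _ _ h150 H118 => ?_) H117
  refine addK_s he h99 h150 (fun _ _ _ _ _ h151 H119 => ?_) H118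
  refine smulK_s he (w := (2:ℝ)) (by norm_num) (by norm_num) (by norm_num) (by norm_num) hx3 (fun _ _ _ _ _ h152 H120 => ?_) H119
  refine addcK_s he h152 (v' := (-1:ℝ)) (by norm_num [SS, BB, abs_le]) (fun _ _ _ _ _ h153 H121 => ?_) H120
  have h154 := In_cast h153 (sub_c (c := (1:ℝ)) (by norm_num))
  have h155 := In_cast (w := (mu p r t)) h154 rfl
  refine mulK_s he h155 h13 (fun _ _ _ _ _ h156 H122 => ?_) H121
  have h157 := In_cast (w := (m p r t)) h156 rfl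
  refine sqK_s he h157 (fun _ _ _ _ _ h158 H123 => ?_) H122
  refine negK_s he h158 (fun _ _ _ _ _ h159 H124 => ?_) H123
  refine addcK_s he h159 (v' := (1:ℝ)) (by norm_num [SS, BB, abs_le]) (fun _ _ _ _ _ h160 H125 => ?_) H124
  have h161 := In_cast h160 (neg_add_eq_sub _ _)
  refine sqrtK_s he h161 (fun _ _ _ _ _ h162 H126 => ?_) H125
  have h163 := In_cast (w := (C p r t)) h162 rfl
  refine addcK_s he h163 (v' := (1:ℝ)) (by norm_num [SS, BB, abs_le]) (fun _ _ _ _ _ h164 H127 => ?_) H126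
  have h165 := In_cast h164 (add_comm _ _)
  refine invK_s he h165 (fun _ _ _ _ _ h166 H128 => ?_) H127
  refine mulK_s he h155 h157 (fun _ _ _ _ _ h167 H129 => ?_) H128
  refine mulK_s he h167 h166 (fun _ _ _ _ _ h168 H130 => ?_) H129
  have h169 := In_cast h168 ((div_eq_mul_inv _ _).symm)
  refine addK_s he h151 h169 (fun _ _ _ _ _ h170 H131 => ?_) H130
  have h171 := In_cast (w := (base p r t)) h170 rfl
  refine mulK_s he h14 h102 (fun _ _ _ _ _ h172 H132 => ?_) H131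
  refine mulK_s he hx3 h96 (fun _ _ _ _ _ h173 H133 => ?_) H132
  refine smulK_s he (w := (1/2:ℝ)) (by norm_num) (by norm_num) (by norm_num) (by norm_num) h173 (fun _ _ _ _ _ h174 H134 => ?_) H133
  have h175 := In_cast h174 (div_c (c := (2:ℝ)) (by norm_num))
  refine smulK_s he (w := (2:ℝ)) (by norm_num) (by norm_num) (by norm_num) (by norm_num) h102 (fun _ _ _ _ _ h176 H135 => ?_) H134
  refine mulK_s he h176 h147 (fun _ _ _ _ _ h177 H136 => ?_) H135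
  refine addK_s he h175 h177 (fun _ _ _ _ _ h178 H137 => ?_) H136
  refine smulK_s he (w := (1/2:ℝ)) (by norm_num) (by norm_num) (by norm_num) (by norm_num) h178 (fun _ _ _ _ _ h179 H138 => ?_) H137
  have h180 := In_cast h179 (div_c (c := (2:ℝ)) (by norm_num))
  refine subK_s he h172 h180 (fun _ _ _ _ _ h181 H139 => ?_) H138
  refine mulK_s he h5 h181 (fun _ _ _ _ _ h182 H140 => ?_) H139
  refine addK_s he h171 h182 (fun _ _ _ _ _ h183 H141 => ?_) H140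
  exact pos_s he h183 H141

noncomputable def alt3 (z1 w1 z2 w2 z3 w3 : ℕ) : Bool :=
  sqK z1 (Nat.add w1 1152921504606846976) 1152921504606846976 1152921504606846976 0 fun c1 a1_1 a1_2 a1_3 q1 =>
  negK c1 a1_1 a1_2 a1_3 q1 fun c3 a3_1 a3_2 a3_3 q3 =>
  addcK c3 a3_1 a3_2 a3_3 q3 1152922604118474752 0 fun c4 a4_1 a4_2 a4_3 q4 =>
  addcK z1 (Nat.add w1 1152921504606846976) 1152921504606846976 1152921504606846976 0 1152922604118474752 0 fun c6 a6_1 a6_2 a6_3 q6 =>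
  smulK 1 2 2305843009213693954 1152921504606846976 c6 a6_1 a6_2 a6_3 q6 fun c8 a8_1 a8_2 a8_3 q8 =>
  smulK 4 1 1152921504606846977 4611686018427387904 c8 a8_1 a8_2 a8_3 q8 fun c11 a11_1 a11_2 a11_3 q11 =>
  sqK z2 1152921504606846976 (Nat.add w2 1152921504606846976) 1152921504606846976 0 fun c12 a12_1 a12_2 a12_3 q12 =>
  mulK c12 a12_1 a12_2 a12_3 q12 z3 1152921504606846976 1152921504606846976 (Nat.add w3 1152921504606846976) 0 fun c14 a14_1 a14_2 a14_3 q14 =>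
  mulK c11 a11_1 a11_2 a11_3 q11 c14 a14_1 a14_2 a14_3 q14 fun c16 a16_1 a16_2 a16_3 q16 =>
  mulK c8 a8_1 a8_2 a8_3 q8 c14 a14_1 a14_2 a14_3 q14 fun c17 a17_1 a17_2 a17_3 q17 =>
  subK z1 (Nat.add w1 1152921504606846976) 1152921504606846976 1152921504606846976 0 c17 a17_1 a17_2 a17_3 q17 fun c18 a18_1 a18_2 a18_3 q18 =>
  mulK c16 a16_1 a16_2 a16_3 q16 c18 a18_1 a18_2 a18_3 q18 fun c19 a19_1 a19_2 a19_3 q19 =>
  addK c4 a4_1 a4_2 a4_3 q4 c19 a19_1 a19_2 a19_3 q19 fun c20 a20_1 a20_2 a20_3 q20 =>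
  sqrtK c20 a20_1 a20_2 a20_3 q20 fun c21 a21_1 a21_2 a21_3 q21 =>
  sqrtK c4 a4_1 a4_2 a4_3 q4 fun c22 a22_1 a22_2 a22_3 q22 =>
  addK c21 a21_1 a21_2 a21_3 q21 c22 a22_1 a22_2 a22_3 q22 fun c24 a24_1 a24_2 a24_3 q24 =>
  invK c24 a24_1 a24_2 a24_3 q24 fun c25 a25_1 a25_2 a25_3 q25 =>
  smulK 2 1 1152921504606846977 2305843009213693952 c8 a8_1 a8_2 a8_3 q8 fun c26 a26_1 a26_2 a26_3 q26 =>
  mulK c26 a26_1 a26_2 a26_3 q26 c18 a18_1 a18_2 a18_3 q18 fun c27 a27_1 a27_2 a27_3 q27 =>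
  mulK c27 a27_1 a27_2 a27_3 q27 c25 a25_1 a25_2 a25_3 q25 fun c28 a28_1 a28_2 a28_3 q28 =>
  negK z1 (Nat.add w1 1152921504606846976) 1152921504606846976 1152921504606846976 0 fun c30 a30_1 a30_2 a30_3 q30 =>
  addcK c30 a30_1 a30_2 a30_3 q30 1152922604118474752 0 fun c31 a31_1 a31_2 a31_3 q31 =>
  smulK 1 2 2305843009213693954 1152921504606846976 c31 a31_1 a31_2 a31_3 q31 fun c33 a33_1 a33_2 a33_3 q33 =>
  smulK 4 1 1152921504606846977 4611686018427387904 c33 a33_1 a33_2 a33_3 q33 fun c36 a36_1 a36_2 a36_3 q36 =>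
  mulK c36 a36_1 a36_2 a36_3 q36 c14 a14_1 a14_2 a14_3 q14 fun c37 a37_1 a37_2 a37_3 q37 =>
  mulK c33 a33_1 a33_2 a33_3 q33 c14 a14_1 a14_2 a14_3 q14 fun c38 a38_1 a38_2 a38_3 q38 =>
  addK z1 (Nat.add w1 1152921504606846976) 1152921504606846976 1152921504606846976 0 c38 a38_1 a38_2 a38_3 q38 fun c39 a39_1 a39_2 a39_3 q39 =>
  mulK c37 a37_1 a37_2 a37_3 q37 c39 a39_1 a39_2 a39_3 q39 fun c40 a40_1 a40_2 a40_3 q40 =>
  subK c4 a4_1 a4_2 a4_3 q4 c40 a40_1 a40_2 a40_3 q40 fun c41 a41_1 a41_2 a41_3 q41 =>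
  sqrtK c41 a41_1 a41_2 a41_3 q41 fun c42 a42_1 a42_2 a42_3 q42 =>
  addK c42 a42_1 a42_2 a42_3 q42 c22 a22_1 a22_2 a22_3 q22 fun c43 a43_1 a43_2 a43_3 q43 =>
  invK c43 a43_1 a43_2 a43_3 q43 fun c44 a44_1 a44_2 a44_3 q44 =>
  smulK 2 1 1152921504606846977 2305843009213693952 c33 a33_1 a33_2 a33_3 q33 fun c45 a45_1 a45_2 a45_3 q45 =>
  mulK c45 a45_1 a45_2 a45_3 q45 c39 a39_1 a39_2 a39_3 q39 fun c46 a46_1 a46_2 a46_3 q46 =>
  mulK c46 a46_1 a46_2 a46_3 q46 c44 a44_1 a44_2 a44_3 q44 fun c47 a47_1 a47_2 a47_3 q47 =>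
  subK c28 a28_1 a28_2 a28_3 q28 c47 a47_1 a47_2 a47_3 q47 fun c49 a49_1 a49_2 a49_3 q49 =>
  smulK 457 1000 1152921504606846977000 526885127605329068032 c1 a1_1 a1_2 a1_3 q1 fun c51 a51_1 a51_2 a51_3 q51 =>
  negK c51 a51_1 a51_2 a51_3 q51 fun c52 a52_1 a52_2 a52_3 q52 =>
  addcK c52 a52_1 a52_2 a52_3 q52 1152922739358404968 1 fun c53 a53_1 a53_2 a53_3 q53 =>
  sqK c1 a1_1 a1_2 a1_3 q1 fun c55 a55_1 a55_2 a55_3 q55 =>
  smulK 383 500 576460752303423488500 441568936264422391808 c55 a55_1 a55_2 a55_3 q55 fun c56 a56_1 a56_2 a56_3 q56 =>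
  addK c53 a53_1 a53_2 a53_3 q53 c56 a56_1 a56_2 a56_3 q56 fun c57 a57_1 a57_2 a57_3 q57 =>
  mulK c55 a55_1 a55_2 a55_3 q55 c1 a1_1 a1_2 a1_3 q1 fun c58 a58_1 a58_2 a58_3 q58 =>
  smulK 1519 200 230584300921369395400 1751287765497800556544 c58 a58_1 a58_2 a58_3 q58 fun c60 a60_1 a60_2 a60_3 q60 =>
  addK c57 a57_1 a57_2 a57_3 q57 c60 a60_1 a60_2 a60_3 q60 fun c61 a61_1 a61_2 a61_3 q61 =>
  smulK 18177 1000 1152921504606846977000 20956654189238657482752 c1 a1_1 a1_2 a1_3 q1 fun c62 a62_1 a62_2 a62_3 q62 =>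
  addcK c62 a62_1 a62_2 a62_3 q62 1152920343522568045 1 fun c63 a63_1 a63_2 a63_3 q63 =>
  smulK 333 8 9223372036854775816 383922861034080043008 c55 a55_1 a55_2 a55_3 q55 fun c65 a65_1 a65_2 a65_3 q65 =>
  subK c63 a63_1 a63_2 a63_3 q63 c65 a65_1 a65_2 a65_3 q65 fun c66 a66_1 a66_2 a66_3 q66 =>
  smulK 9513 200 230584300921369395400 10967742273324935282688 c58 a58_1 a58_2 a58_3 q58 fun c67 a67_1 a67_2 a67_3 q67 =>
  subK c66 a66_1 a66_2 a66_3 q66 c67 a67_1 a67_2 a67_3 q67 fun c68 a68_1 a68_2 a68_3 q68 =>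
  mulK c14 a14_1 a14_2 a14_3 q14 c68 a68_1 a68_2 a68_3 q68 fun c69 a69_1 a69_2 a69_3 q69 =>
  addK c61 a61_1 a61_2 a61_3 q61 c69 a69_1 a69_2 a69_3 q69 fun c70 a70_1 a70_2 a70_3 q70 =>
  sqK c14 a14_1 a14_2 a14_3 q14 fun c71 a71_1 a71_2 a71_3 q71 =>
  smulK 10539 125 144115188075855872125 12150639737051560280064 c1 a1_1 a1_2 a1_3 q1 fun c72 a72_1 a72_2 a72_3 q72 =>
  negK c72 a72_1 a72_2 a72_3 q72 fun c73 a73_1 a73_2 a73_3 q73 =>
  addcK c73 a73_1 a73_2 a73_3 q73 1152932573390403797 1 fun c74 a74_1 a74_2 a74_3 q74 =>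
  smulK 118263 500 576460752303423488500 136347955899319543922688 c55 a55_1 a55_2 a55_3 q55 fun c76 a76_1 a76_2 a76_3 q76 =>
  addK c74 a74_1 a74_2 a74_3 q74 c76 a76_1 a76_2 a76_3 q76 fun c77 a77_1 a77_2 a77_3 q77 =>
  mulK c71 a71_1 a71_2 a71_3 q71 c77 a77_1 a77_2 a77_3 q77 fun c78 a78_1 a78_2 a78_3 q78 =>
  addK c70 a70_1 a70_2 a70_3 q70 c78 a78_1 a78_2 a78_3 q78 fun c79 a79_1 a79_2 a79_3 q79 =>
  mulK c1 a1_1 a1_2 a1_3 q1 c4 a4_1 a4_2 a4_3 q4 fun c81 a81_1 a81_2 a81_3 q81 =>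
  sqrtK c14 a14_1 a14_2 a14_3 q14 fun c83 a83_1 a83_2 a83_3 q83 =>
  smulK 1531 1250 1441151880758558721250 1765122823553082720256 c83 a83_1 a83_2 a83_3 q83 fun c84 a84_1 a84_2 a84_3 q84 =>
  subK 1152922054362660864 1152921504606846976 1152921504606846976 1152921504606846976 0 c84 a84_1 a84_2 a84_3 q84 fun c85 a85_1 a85_2 a85_3 q85 =>
  reluK c85 a85_1 a85_2 a85_3 q85 fun c86 a86_1 a86_2 a86_3 q86 =>
  subK 1152922054362660864 1152921504606846976 1152921504606846976 1152921504606846976 0 c86 a86_1 a86_2 a86_3 q86 fun c87 a87_1 a87_2 a87_3 q87 =>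
  mulK c81 a81_1 a81_2 a81_3 q81 c87 a87_1 a87_2 a87_3 q87 fun c89 a89_1 a89_2 a89_3 q89 =>
  sqK c1 a1_1 a1_2 a1_3 q1 fun c90 a90_1 a90_2 a90_3 q90 =>
  negK c14 a14_1 a14_2 a14_3 q14 fun c91 a91_1 a91_2 a91_3 q91 =>
  addcK c91 a91_1 a91_2 a91_3 q91 1152922604118474752 0 fun c92 a92_1 a92_2 a92_3 q92 =>
  mulK c90 a90_1 a90_2 a90_3 q90 c92 a92_1 a92_2 a92_3 q92 fun c94 a94_1 a94_2 a94_3 q94 =>
  addK c89 a89_1 a89_2 a89_3 q89 c94 a94_1 a94_2 a94_3 q94 fun c95 a95_1 a95_2 a95_3 q95 =>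
  mulK c79 a79_1 a79_2 a79_3 q79 c95 a95_1 a95_2 a95_3 q95 fun c97 a97_1 a97_2 a97_3 q97 =>
  subK c49 a49_1 a49_2 a49_3 q49 c97 a97_1 a97_2 a97_3 q97 fun c98 a98_1 a98_2 a98_3 q98 =>
  mulK z3 1152921504606846976 1152921504606846976 (Nat.add w3 1152921504606846976) 0 c98 a98_1 a98_2 a98_3 q98 fun c99 a99_1 a99_2 a99_3 q99 =>
  negK z3 1152921504606846976 1152921504606846976 (Nat.add w3 1152921504606846976) 0 fun c100 a100_1 a100_2 a100_3 q100 =>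
  addcK c100 a100_1 a100_2 a100_3 q100 1152922604118474752 0 fun c101 a101_1 a101_2 a101_3 q101 =>
  mulK c12 a12_1 a12_2 a12_3 q12 c101 a101_1 a101_2 a101_3 q101 fun c103 a103_1 a103_2 a103_3 q103 =>
  mulK c11 a11_1 a11_2 a11_3 q11 c103 a103_1 a103_2 a103_3 q103 fun c105 a105_1 a105_2 a105_3 q105 =>
  mulK c8 a8_1 a8_2 a8_3 q8 c103 a103_1 a103_2 a103_3 q103 fun c106 a106_1 a106_2 a106_3 q106 =>
  subK z1 (Nat.add w1 1152921504606846976) 1152921504606846976 1152921504606846976 0 c106 a106_1 a106_2 a106_3 q106 fun c107 a107_1 a107_2 a107_3 q107 =>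
  mulK c105 a105_1 a105_2 a105_3 q105 c107 a107_1 a107_2 a107_3 q107 fun c108 a108_1 a108_2 a108_3 q108 =>
  addK c4 a4_1 a4_2 a4_3 q4 c108 a108_1 a108_2 a108_3 q108 fun c109 a109_1 a109_2 a109_3 q109 =>
  sqrtK c109 a109_1 a109_2 a109_3 q109 fun c110 a110_1 a110_2 a110_3 q110 =>
  addK c110 a110_1 a110_2 a110_3 q110 c22 a22_1 a22_2 a22_3 q22 fun c111 a111_1 a111_2 a111_3 q111 =>
  invK c111 a111_1 a111_2 a111_3 q111 fun c112 a112_1 a112_2 a112_3 q112 =>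
  mulK c26 a26_1 a26_2 a26_3 q26 c107 a107_1 a107_2 a107_3 q107 fun c113 a113_1 a113_2 a113_3 q113 =>
  mulK c113 a113_1 a113_2 a113_3 q113 c112 a112_1 a112_2 a112_3 q112 fun c114 a114_1 a114_2 a114_3 q114 =>
  mulK c36 a36_1 a36_2 a36_3 q36 c103 a103_1 a103_2 a103_3 q103 fun c116 a116_1 a116_2 a116_3 q116 =>
  mulK c33 a33_1 a33_2 a33_3 q33 c103 a103_1 a103_2 a103_3 q103 fun c117 a117_1 a117_2 a117_3 q117 =>
  addK z1 (Nat.add w1 1152921504606846976) 1152921504606846976 1152921504606846976 0 c117 a117_1 a117_2 a117_3 q117 fun c118 a118_1 a118_2 a118_3 q118 =>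
  mulK c116 a116_1 a116_2 a116_3 q116 c118 a118_1 a118_2 a118_3 q118 fun c119 a119_1 a119_2 a119_3 q119 =>
  subK c4 a4_1 a4_2 a4_3 q4 c119 a119_1 a119_2 a119_3 q119 fun c120 a120_1 a120_2 a120_3 q120 =>
  sqrtK c120 a120_1 a120_2 a120_3 q120 fun c121 a121_1 a121_2 a121_3 q121 =>
  addK c121 a121_1 a121_2 a121_3 q121 c22 a22_1 a22_2 a22_3 q22 fun c122 a122_1 a122_2 a122_3 q122 =>
  invK c122 a122_1 a122_2 a122_3 q122 fun c123 a123_1 a123_2 a123_3 q123 =>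
  mulK c45 a45_1 a45_2 a45_3 q45 c118 a118_1 a118_2 a118_3 q118 fun c124 a124_1 a124_2 a124_3 q124 =>
  mulK c124 a124_1 a124_2 a124_3 q124 c123 a123_1 a123_2 a123_3 q123 fun c125 a125_1 a125_2 a125_3 q125 =>
  subK c114 a114_1 a114_2 a114_3 q114 c125 a125_1 a125_2 a125_3 q125 fun c127 a127_1 a127_2 a127_3 q127 =>
  mulK c103 a103_1 a103_2 a103_3 q103 c68 a68_1 a68_2 a68_3 q68 fun c129 a129_1 a129_2 a129_3 q129 =>
  addK c61 a61_1 a61_2 a61_3 q61 c129 a129_1 a129_2 a129_3 q129 fun c130 a130_1 a130_2 a130_3 q130 =>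
  sqK c103 a103_1 a103_2 a103_3 q103 fun c131 a131_1 a131_2 a131_3 q131 =>
  mulK c131 a131_1 a131_2 a131_3 q131 c77 a77_1 a77_2 a77_3 q77 fun c132 a132_1 a132_2 a132_3 q132 =>
  addK c130 a130_1 a130_2 a130_3 q130 c132 a132_1 a132_2 a132_3 q132 fun c133 a133_1 a133_2 a133_3 q133 =>
  sqrtK c103 a103_1 a103_2 a103_3 q103 fun c135 a135_1 a135_2 a135_3 q135 =>
  smulK 1531 1250 1441151880758558721250 1765122823553082720256 c135 a135_1 a135_2 a135_3 q135 fun c136 a136_1 a136_2 a136_3 q136 =>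
  subK 1152922054362660864 1152921504606846976 1152921504606846976 1152921504606846976 0 c136 a136_1 a136_2 a136_3 q136 fun c137 a137_1 a137_2 a137_3 q137 =>
  reluK c137 a137_1 a137_2 a137_3 q137 fun c138 a138_1 a138_2 a138_3 q138 =>
  subK 1152922054362660864 1152921504606846976 1152921504606846976 1152921504606846976 0 c138 a138_1 a138_2 a138_3 q138 fun c139 a139_1 a139_2 a139_3 q139 =>
  mulK c81 a81_1 a81_2 a81_3 q81 c139 a139_1 a139_2 a139_3 q139 fun c141 a141_1 a141_2 a141_3 q141 =>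
  negK c103 a103_1 a103_2 a103_3 q103 fun c142 a142_1 a142_2 a142_3 q142 =>
  addcK c142 a142_1 a142_2 a142_3 q142 1152922604118474752 0 fun c143 a143_1 a143_2 a143_3 q143 =>
  mulK c90 a90_1 a90_2 a90_3 q90 c143 a143_1 a143_2 a143_3 q143 fun c145 a145_1 a145_2 a145_3 q145 =>
  addK c141 a141_1 a141_2 a141_3 q141 c145 a145_1 a145_2 a145_3 q145 fun c146 a146_1 a146_2 a146_3 q146 =>
  mulK c133 a133_1 a133_2 a133_3 q133 c146 a146_1 a146_2 a146_3 q146 fun c148 a148_1 a148_2 a148_3 q148 =>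
  subK c127 a127_1 a127_2 a127_3 q127 c148 a148_1 a148_2 a148_3 q148 fun c149 a149_1 a149_2 a149_3 q149 =>
  mulK c101 a101_1 a101_2 a101_3 q101 c149 a149_1 a149_2 a149_3 q149 fun c150 a150_1 a150_2 a150_3 q150 =>
  addK c99 a99_1 a99_2 a99_3 q99 c150 a150_1 a150_2 a150_3 q150 fun c151 a151_1 a151_2 a151_3 q151 =>
  smulK 2 1 1152921504606846977 2305843009213693952 z3 1152921504606846976 1152921504606846976 (Nat.add w3 1152921504606846976) 0 fun c152 a152_1 a152_2 a152_3 q152 =>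
  addcK c152 a152_1 a152_2 a152_3 q152 1152920405095219200 0 fun c153 a153_1 a153_2 a153_3 q153 =>
  mulK c153 a153_1 a153_2 a153_3 q153 c12 a12_1 a12_2 a12_3 q12 fun c156 a156_1 a156_2 a156_3 q156 =>
  sqK c156 a156_1 a156_2 a156_3 q156 fun c158 a158_1 a158_2 a158_3 q158 =>
  negK c158 a158_1 a158_2 a158_3 q158 fun c159 a159_1 a159_2 a159_3 q159 =>
  addcK c159 a159_1 a159_2 a159_3 q159 1152922604118474752 0 fun c160 a160_1 a160_2 a160_3 q160 =>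
  sqrtK c160 a160_1 a160_2 a160_3 q160 fun c162 a162_1 a162_2 a162_3 q162 =>
  addcK c162 a162_1 a162_2 a162_3 q162 1152922604118474752 0 fun c164 a164_1 a164_2 a164_3 q164 =>
  invK c164 a164_1 a164_2 a164_3 q164 fun c166 a166_1 a166_2 a166_3 q166 =>
  mulK c153 a153_1 a153_2 a153_3 q153 c156 a156_1 a156_2 a156_3 q156 fun c167 a167_1 a167_2 a167_3 q167 =>
  mulK c167 a167_1 a167_2 a167_3 q167 c166 a166_1 a166_2 a166_3 q166 fun c168 a168_1 a168_2 a168_3 q168 =>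
  addK c151 a151_1 a151_2 a151_3 q151 c168 a168_1 a168_2 a168_3 q168 fun c170 a170_1 a170_2 a170_3 q170 =>
  mulK c14 a14_1 a14_2 a14_3 q14 c101 a101_1 a101_2 a101_3 q101 fun c172 a172_1 a172_2 a172_3 q172 =>
  mulK z3 1152921504606846976 1152921504606846976 (Nat.add w3 1152921504606846976) 0 c95 a95_1 a95_2 a95_3 q95 fun c173 a173_1 a173_2 a173_3 q173 =>
  smulK 2 1 1152921504606846977 2305843009213693952 c173 a173_1 a173_2 a173_3 q173 fun c174 a174_1 a174_2 a174_3 q174 =>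
  smulK 1 2 2305843009213693954 1152921504606846976 c101 a101_1 a101_2 a101_3 q101 fun c176 a176_1 a176_2 a176_3 q176 =>
  mulK c176 a176_1 a176_2 a176_3 q176 c146 a146_1 a146_2 a146_3 q146 fun c177 a177_1 a177_2 a177_3 q177 =>
  addK c174 a174_1 a174_2 a174_3 q174 c177 a177_1 a177_2 a177_3 q177 fun c178 a178_1 a178_2 a178_3 q178 =>
  smulK 1 2 2305843009213693954 1152921504606846976 c178 a178_1 a178_2 a178_3 q178 fun c179 a179_1 a179_2 a179_3 q179 =>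
  subK c172 a172_1 a172_2 a172_3 q172 c179 a179_1 a179_2 a179_3 q179 fun c181 a181_1 a181_2 a181_3 q181 =>
  mulK c4 a4_1 a4_2 a4_3 q4 c181 a181_1 a181_2 a181_3 q181 fun c182 a182_1 a182_2 a182_3 q182 =>
  addK c170 a170_1 a170_2 a170_3 q170 c182 a182_1 a182_2 a182_3 q182 fun c183 a183_1 a183_2 a183_3 q183 =>
  pos c183 a183_1 a183_2 a183_3 q183

theorem alt3_s {z1 w1 z2 w2 z3 w3 : ℕ} {e1 e2 e3 p r t : ℝ} (he : Ev e1 e2 e3)
    (hx1 : In e1 e2 e3 z1 (Nat.add w1 1152921504606846976) 1152921504606846976 1152921504606846976 0 p)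
    (hx2 : In e1 e2 e3 z2 1152921504606846976 (Nat.add w2 1152921504606846976) 1152921504606846976 0 r)
    (hx3 : In e1 e2 e3 z3 1152921504606846976 1152921504606846976 (Nat.add w3 1152921504606846976) 0 t)
    (H0 : alt3 z1 w1 z2 w2 z3 w3 = true) : 0 < ((base p r t) + (((1:ℝ) - (x p r t)) * ((((et p r t) * t) * ((1:ℝ) - t)) - ((((t * (v0 p r t)) / (1/2:ℝ)) + (((1/2:ℝ) * ((1:ℝ) - t)) * (v1 p r t))) / (2:ℝ))))) := by
  unfold alt3 at H0
  refine sqK_s he hx1 (fun _ _ _ _ _ h1 H1 => ?_) H0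
  have h2 := In_cast (w := (x p r t)) h1 rfl
  refine negK_s he h2 (fun _ _ _ _ _ h3 H2 => ?_) H1
  refine addcK_s he h3 (v' := (1:ℝ)) (by norm_num [SS, BB, abs_le]) (fun _ _ _ _ _ h4 H3 => ?_) H2
  have h5 := In_cast h4 (neg_add_eq_sub _ _)
  refine addcK_s he hx1 (v' := (1:ℝ)) (by norm_num [SS, BB, abs_le]) (fun _ _ _ _ _ h6 H4 => ?_) H3
  have h7 := In_cast h6 (add_comm _ _)
  refine smulK_s he (w := (1/2:ℝ)) (by norm_num) (by norm_num) (by norm_num) (by norm_num) h7 (fun _ _ _ _ _ h8 H5 => ?_) H4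
  have h9 := In_cast h8 (div_c (c := (2:ℝ)) (by norm_num))
  have h10 := In_cast (w := (al p r t)) h9 rfl
  refine smulK_s he (w := (4:ℝ)) (by norm_num) (by norm_num) (by norm_num) (by norm_num) h10 (fun _ _ _ _ _ h11 H6 => ?_) H5
  refine sqK_s he hx2 (fun _ _ _ _ _ h12 H7 => ?_) H6
  have h13 := In_cast (w := (et p r t)) h12 rfl
  refine mulK_s he h13 hx3 (fun _ _ _ _ _ h14 H8 => ?_) H7
  have h15 := In_cast (w := (ee0 p r t)) h14 rfl
  refine mulK_s he h11 h15 (fun _ _ _ _ _ h16 H9 => ?_) H8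
  refine mulK_s he h10 h15 (fun _ _ _ _ _ h17 H10 => ?_) H9
  refine subK_s he hx1 h17 (fun _ _ _ _ _ h18 H11 => ?_) H10
  refine mulK_s he h16 h18 (fun _ _ _ _ _ h19 H12 => ?_) H11
  refine addK_s he h5 h19 (fun _ _ _ _ _ h20 H13 => ?_) H12
  refine sqrtK_s he h20 (fun _ _ _ _ _ h21 H14 => ?_) H13
  refine sqrtK_s he h5 (fun _ _ _ _ _ h22 H15 => ?_) H14
  have h23 := In_cast (w := (s p r t)) h22 rfl
  refine addK_s he h21 h23 (fun _ _ _ _ _ h24 H16 => ?_) H15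
  refine invK_s he h24 (fun _ _ _ _ _ h25 H17 => ?_) H16
  refine smulK_s he (w := (2:ℝ)) (by norm_num) (by norm_num) (by norm_num) (by norm_num) h10 (fun _ _ _ _ _ h26 H18 => ?_) H17
  refine mulK_s he h26 h18 (fun _ _ _ _ _ h27 H19 => ?_) H18
  refine mulK_s he h27 h25 (fun _ _ _ _ _ h28 H20 => ?_) H19
  have h29 := In_cast h28 ((div_eq_mul_inv _ _).symm)
  refine negK_s he hx1 (fun _ _ _ _ _ h30 H21 => ?_) H20
  refine addcK_s he h30 (v' := (1:ℝ)) (by norm_num [SS, BB, abs_le]) (fun _ _ _ _ _ h31 H22 => ?_) H21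
  have h32 := In_cast h31 (neg_add_eq_sub _ _)
  refine smulK_s he (w := (1/2:ℝ)) (by norm_num) (by norm_num) (by norm_num) (by norm_num) h32 (fun _ _ _ _ _ h33 H23 => ?_) H22
  have h34 := In_cast h33 (div_c (c := (2:ℝ)) (by norm_num))
  have h35 := In_cast (w := (be p r t)) h34 rfl
  refine smulK_s he (w := (4:ℝ)) (by norm_num) (by norm_num) (by norm_num) (by norm_num) h35 (fun _ _ _ _ _ h36 H24 => ?_) H23
  refine mulK_s he h36 h15 (fun _ _ _ _ _ h37 H25 => ?_) H24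
  refine mulK_s he h35 h15 (fun _ _ _ _ _ h38 H26 => ?_) H25
  refine addK_s he hx1 h38 (fun _ _ _ _ _ h39 H27 => ?_) H26
  refine mulK_s he h37 h39 (fun _ _ _ _ _ h40 H28 => ?_) H27
  refine subK_s he h5 h40 (fun _ _ _ _ _ h41 H29 => ?_) H28
  refine sqrtK_s he h41 (fun _ _ _ _ _ h42 H30 => ?_) H29
  refine addK_s he h42 h23 (fun _ _ _ _ _ h43 H31 => ?_) H30
  refine invK_s he h43 (fun _ _ _ _ _ h44 H32 => ?_) H31
  refine smulK_s he (w := (2:ℝ)) (by norm_num) (by norm_num) (by norm_num) (by norm_num) h35 (fun _ _ _ _ _ h45 H33 => ?_) H32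
  refine mulK_s he h45 h39 (fun _ _ _ _ _ h46 H34 => ?_) H33
  refine mulK_s he h46 h44 (fun _ _ _ _ _ h47 H35 => ?_) H34
  have h48 := In_cast h47 ((div_eq_mul_inv _ _).symm)
  refine subK_s he h29 h48 (fun _ _ _ _ _ h49 H36 => ?_) H35
  have h50 := In_cast (w := (Ga0 p r t)) h49 rfl
  refine smulK_s he (w := (457/1000:ℝ)) (by norm_num) (by norm_num) (by norm_num) (by norm_num) h1 (fun _ _ _ _ _ h51 H37 => ?_) H36
  refine negK_s he h51 (fun _ _ _ _ _ h52 H38 => ?_) H37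
  refine addcK_s he h52 (v' := (1123/1000:ℝ)) (by norm_num [SS, BB, abs_le]) (fun _ _ _ _ _ h53 H39 => ?_) H38
  have h54 := In_cast h53 (neg_add_eq_sub _ _)
  refine sqK_s he h1 (fun _ _ _ _ _ h55 H40 => ?_) H39
  refine smulK_s he (w := (383/500:ℝ)) (by norm_num) (by norm_num) (by norm_num) (by norm_num) h55 (fun _ _ _ _ _ h56 H41 => ?_) H40
  refine addK_s he h54 h56 (fun _ _ _ _ _ h57 H42 => ?_) H41
  refine mulK_s he h55 h1 (fun _ _ _ _ _ h58 H43 => ?_) H42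
  have h59 := In_cast h58 (pow_sc (n := 3) rfl)
  refine smulK_s he (w := (1519/200:ℝ)) (by norm_num) (by norm_num) (by norm_num) (by norm_num) h59 (fun _ _ _ _ _ h60 H44 => ?_) H43
  refine addK_s he h57 h60 (fun _ _ _ _ _ h61 H45 => ?_) H44
  refine smulK_s he (w := (18177/1000:ℝ)) (by norm_num) (by norm_num) (by norm_num) (by norm_num) h1 (fun _ _ _ _ _ h62 H46 => ?_) H45
  refine addcK_s he h62 (v' := (-132/125:ℝ)) (by norm_num [SS, BB, abs_le]) (fun _ _ _ _ _ h63 H47 => ?_) H46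
  have h64 := In_cast h63 (add_comm _ _)
  refine smulK_s he (w := (333/8:ℝ)) (by norm_num) (by norm_num) (by norm_num) (by norm_num) h55 (fun _ _ _ _ _ h65 H48 => ?_) H47
  refine subK_s he h64 h65 (fun _ _ _ _ _ h66 H49 => ?_) H48
  refine smulK_s he (w := (9513/200:ℝ)) (by norm_num) (by norm_num) (by norm_num) (by norm_num) h59 (fun _ _ _ _ _ h67 H50 => ?_) H49
  refine subK_s he h66 h67 (fun _ _ _ _ _ h68 H51 => ?_) H50
  refine mulK_s he h15 h68 (fun _ _ _ _ _ h69 H52 => ?_) H51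
  refine addK_s he h61 h69 (fun _ _ _ _ _ h70 H53 => ?_) H52
  refine sqK_s he h15 (fun _ _ _ _ _ h71 H54 => ?_) H53
  refine smulK_s he (w := (10539/125:ℝ)) (by norm_num) (by norm_num) (by norm_num) (by norm_num) h1 (fun _ _ _ _ _ h72 H55 => ?_) H54
  refine negK_s he h72 (fun _ _ _ _ _ h73 H56 => ?_) H55
  refine addcK_s he h73 (v' := (10067/1000:ℝ)) (by norm_num [SS, BB, abs_le]) (fun _ _ _ _ _ h74 H57 => ?_) H56
  have h75 := In_cast h74 (neg_add_eq_sub _ _)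
  refine smulK_s he (w := (118263/500:ℝ)) (by norm_num) (by norm_num) (by norm_num) (by norm_num) h55 (fun _ _ _ _ _ h76 H58 => ?_) H57
  refine addK_s he h75 h76 (fun _ _ _ _ _ h77 H59 => ?_) H58
  refine mulK_s he h71 h77 (fun _ _ _ _ _ h78 H60 => ?_) H59
  refine addK_s he h70 h78 (fun _ _ _ _ _ h79 H61 => ?_) H60
  have h80 := In_cast (w := (K0 p r t)) h79 rfl
  refine mulK_s he h2 h5 (fun _ _ _ _ _ h81 H62 => ?_) H61
  have h82 := cst (e1 := e1) (e2 := e2) (e3 := e3) 1152922054362660864 0 (1/2:ℝ) (by norm_num [SS, BB, abs_le])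
  refine sqrtK_s he h15 (fun _ _ _ _ _ h83 H63 => ?_) H62
  refine smulK_s he (w := (1531/1250:ℝ)) (by norm_num) (by norm_num) (by norm_num) (by norm_num) h83 (fun _ _ _ _ _ h84 H64 => ?_) H63
  refine subK_s he h82 h84 (fun _ _ _ _ _ h85 H65 => ?_) H64
  refine reluK_s he h85 (fun _ _ _ _ _ h86 H66 => ?_) H65
  refine subK_s he h82 h86 (fun _ _ _ _ _ h87 H67 => ?_) H66
  have h88 := In_cast h87 (min_rl _ _)
  refine mulK_s he h81 h88 (fun _ _ _ _ _ h89 H68 => ?_) H67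
  refine sqK_s he h2 (fun _ _ _ _ _ h90 H69 => ?_) H68
  refine negK_s he h15 (fun _ _ _ _ _ h91 H70 => ?_) H69
  refine addcK_s he h91 (v' := (1:ℝ)) (by norm_num [SS, BB, abs_le]) (fun _ _ _ _ _ h92 H71 => ?_) H70
  have h93 := In_cast h92 (neg_add_eq_sub _ _)
  refine mulK_s he h90 h93 (fun _ _ _ _ _ h94 H72 => ?_) H71
  refine addK_s he h89 h94 (fun _ _ _ _ _ h95 H73 => ?_) H72
  have h96 := In_cast (w := (v0 p r t)) h95 rfl
  refine mulK_s he h80 h96 (fun _ _ _ _ _ h97 H74 => ?_) H73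
  refine subK_s he h50 h97 (fun _ _ _ _ _ h98 H75 => ?_) H74
  refine mulK_s he hx3 h98 (fun _ _ _ _ _ h99 H76 => ?_) H75
  refine negK_s he hx3 (fun _ _ _ _ _ h100 H77 => ?_) H76
  refine addcK_s he h100 (v' := (1:ℝ)) (by norm_num [SS, BB, abs_le]) (fun _ _ _ _ _ h101 H78 => ?_) H77
  have h102 := In_cast h101 (neg_add_eq_sub _ _)
  refine mulK_s he h13 h102 (fun _ _ _ _ _ h103 H79 => ?_) H78
  have h104 := In_cast (w := (ee1 p r t)) h103 rfl
  refine mulK_s he h11 h104 (fun _ _ _ _ _ h105 H80 => ?_) H79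
  refine mulK_s he h10 h104 (fun _ _ _ _ _ h106 H81 => ?_) H80
  refine subK_s he hx1 h106 (fun _ _ _ _ _ h107 H82 => ?_) H81
  refine mulK_s he h105 h107 (fun _ _ _ _ _ h108 H83 => ?_) H82
  refine addK_s he h5 h108 (fun _ _ _ _ _ h109 H84 => ?_) H83
  refine sqrtK_s he h109 (fun _ _ _ _ _ h110 H85 => ?_) H84
  refine addK_s he h110 h23 (fun _ _ _ _ _ h111 H86 => ?_) H85
  refine invK_s he h111 (fun _ _ _ _ _ h112 H87 => ?_) H86
  refine mulK_s he h26 h107 (fun _ _ _ _ _ h113 H88 => ?_) H87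
  refine mulK_s he h113 h112 (fun _ _ _ _ _ h114 H89 => ?_) H88
  have h115 := In_cast h114 ((div_eq_mul_inv _ _).symm)
  refine mulK_s he h36 h104 (fun _ _ _ _ _ h116 H90 => ?_) H89
  refine mulK_s he h35 h104 (fun _ _ _ _ _ h117 H91 => ?_) H90
  refine addK_s he hx1 h117 (fun _ _ _ _ _ h118 H92 => ?_) H91
  refine mulK_s he h116 h118 (fun _ _ _ _ _ h119 H93 => ?_) H92
  refine subK_s he h5 h119 (fun _ _ _ _ _ h120 H94 => ?_) H93
  refine sqrtK_s he h120 (fun _ _ _ _ _ h121 H95 => ?_) H94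
  refine addK_s he h121 h23 (fun _ _ _ _ _ h122 H96 => ?_) H95
  refine invK_s he h122 (fun _ _ _ _ _ h123 H97 => ?_) H96
  refine mulK_s he h45 h118 (fun _ _ _ _ _ h124 H98 => ?_) H97
  refine mulK_s he h124 h123 (fun _ _ _ _ _ h125 H99 => ?_) H98
  have h126 := In_cast h125 ((div_eq_mul_inv _ _).symm)
  refine subK_s he h115 h126 (fun _ _ _ _ _ h127 H100 => ?_) H99
  have h128 := In_cast (w := (Ga1 p r t)) h127 rfl
  refine mulK_s he h104 h68 (fun _ _ _ _ _ h129 H101 => ?_) H100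
  refine addK_s he h61 h129 (fun _ _ _ _ _ h130 H102 => ?_) H101
  refine sqK_s he h104 (fun _ _ _ _ _ h131 H103 => ?_) H102
  refine mulK_s he h131 h77 (fun _ _ _ _ _ h132 H104 => ?_) H103
  refine addK_s he h130 h132 (fun _ _ _ _ _ h133 H105 => ?_) H104
  have h134 := In_cast (w := (K1 p r t)) h133 rfl
  refine sqrtK_s he h104 (fun _ _ _ _ _ h135 H106 => ?_) H105
  refine smulK_s he (w := (1531/1250:ℝ)) (by norm_num) (by norm_num) (by norm_num) (by norm_num) h135 (fun _ _ _ _ _ h136 H107 => ?_) H106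
  refine subK_s he h82 h136 (fun _ _ _ _ _ h137 H108 => ?_) H107
  refine reluK_s he h137 (fun _ _ _ _ _ h138 H109 => ?_) H108
  refine subK_s he h82 h138 (fun _ _ _ _ _ h139 H110 => ?_) H109
  have h140 := In_cast h139 (min_rl _ _)
  refine mulK_s he h81 h140 (fun _ _ _ _ _ h141 H111 => ?_) H110
  refine negK_s he h104 (fun _ _ _ _ _ h142 H112 => ?_) H111
  refine addcK_s he h142 (v' := (1:ℝ)) (by norm_num [SS, BB, abs_le]) (fun _ _ _ _ _ h143 H113 => ?_) H112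
  have h144 := In_cast h143 (neg_add_eq_sub _ _)
  refine mulK_s he h90 h144 (fun _ _ _ _ _ h145 H114 => ?_) H113
  refine addK_s he h141 h145 (fun _ _ _ _ _ h146 H115 => ?_) H114
  have h147 := In_cast (w := (v1 p r t)) h146 rfl
  refine mulK_s he h134 h147 (fun _ _ _ _ _ h148 H116 => ?_) H115
  refine subK_s he h128 h148 (fun _ _ _ _ _ h149 H117 => ?_) H116
  refine mulK_s he h102 h149 (fun _ _ _ _ _ h150 H118 => ?_) H117
  refine addK_s he h99 h150 (fun _ _ _ _ _ h151 H119 => ?_) H118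
  refine smulK_s he (w := (2:ℝ)) (by norm_num) (by norm_num) (by norm_num) (by norm_num) hx3 (fun _ _ _ _ _ h152 H120 => ?_) H119
  refine addcK_s he h152 (v' := (-1:ℝ)) (by norm_num [SS, BB, abs_le]) (fun _ _ _ _ _ h153 H121 => ?_) H120
  have h154 := In_cast h153 (sub_c (c := (1:ℝ)) (by norm_num))
  have h155 := In_cast (w := (mu p r t)) h154 rfl
  refine mulK_s he h155 h13 (fun _ _ _ _ _ h156 H122 => ?_) H121
  have h157 := In_cast (w := (m p r t)) h156 rfl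
  refine sqK_s he h157 (fun _ _ _ _ _ h158 H123 => ?_) H122
  refine negK_s he h158 (fun _ _ _ _ _ h159 H124 => ?_) H123
  refine addcK_s he h159 (v' := (1:ℝ)) (by norm_num [SS, BB, abs_le]) (fun _ _ _ _ _ h160 H125 => ?_) H124
  have h161 := In_cast h160 (neg_add_eq_sub _ _)
  refine sqrtK_s he h161 (fun _ _ _ _ _ h162 H126 => ?_) H125
  have h163 := In_cast (w := (C p r t)) h162 rfl
  refine addcK_s he h163 (v' := (1:ℝ)) (by norm_num [SS, BB, abs_le]) (fun _ _ _ _ _ h164 H127 => ?_) H126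
  have h165 := In_cast h164 (add_comm _ _)
  refine invK_s he h165 (fun _ _ _ _ _ h166 H128 => ?_) H127
  refine mulK_s he h155 h157 (fun _ _ _ _ _ h167 H129 => ?_) H128
  refine mulK_s he h167 h166 (fun _ _ _ _ _ h168 H130 => ?_) H129
  have h169 := In_cast h168 ((div_eq_mul_inv _ _).symm)
  refine addK_s he h151 h169 (fun _ _ _ _ _ h170 H131 => ?_) H130
  have h171 := In_cast (w := (base p r t)) h170 rfl
  refine mulK_s he h14 h102 (fun _ _ _ _ _ h172 H132 => ?_) H131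
  refine mulK_s he hx3 h96 (fun _ _ _ _ _ h173 H133 => ?_) H132
  refine smulK_s he (w := (2:ℝ)) (by norm_num) (by norm_num) (by norm_num) (by norm_num) h173 (fun _ _ _ _ _ h174 H134 => ?_) H133
  have h175 := In_cast h174 (div_c (c := (1/2:ℝ)) (by norm_num))
  refine smulK_s he (w := (1/2:ℝ)) (by norm_num) (by norm_num) (by norm_num) (by norm_num) h102 (fun _ _ _ _ _ h176 H135 => ?_) H134
  refine mulK_s he h176 h147 (fun _ _ _ _ _ h177 H136 => ?_) H135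
  refine addK_s he h175 h177 (fun _ _ _ _ _ h178 H137 => ?_) H136
  refine smulK_s he (w := (1/2:ℝ)) (by norm_num) (by norm_num) (by norm_num) (by norm_num) h178 (fun _ _ _ _ _ h179 H138 => ?_) H137
  have h180 := In_cast h179 (div_c (c := (2:ℝ)) (by norm_num))
  refine subK_s he h172 h180 (fun _ _ _ _ _ h181 H139 => ?_) H138
  refine mulK_s he h5 h181 (fun _ _ _ _ _ h182 H140 => ?_) H139
  refine addK_s he h171 h182 (fun _ _ _ _ _ h183 H141 => ?_) H140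
  exact pos_s he h183 H141

attribute [irreducible] alt0 alt1 alt2 alt3

noncomputable def leaf (j u z1 w1 z2 w2 z3 w3 : ℕ) : Bool :=
  sB j (alt0 z1 w1 z2 w2 z3 w3) fun j => sB j (alt1 z1 w1 z2 w2 z3 w3) fun j => sB j (alt2 z1 w1 z2 w2 z3 w3) fun j => alt3 z1 w1 z2 w2 z3 w3

theorem snd : Snd Q leaf := by
  intro j u z1 w1 z2 w2 z3 w3 e1 e2 e3 he H
  unfold leaf at H
  unfold Q
  replace H := sel H
  rcases H with H | ⟨j, H⟩
  · exact Or.inl (alt0_s he (var1 z1 w1) (var2 z2 w2) (var3 z3 w3) H)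
  replace H := sel H
  rcases H with H | ⟨j, H⟩
  · exact Or.inr (Or.inl (alt1_s he (var1 z1 w1) (var2 z2 w2) (var3 z3 w3) H))
  replace H := sel H
  rcases H with H | ⟨j, H⟩
  · exact Or.inr (Or.inr (Or.inl (alt2_s he (var1 z1 w1) (var2 z2 w2) (var3 z3 w3) H)))
  exact Or.inr (Or.inr (Or.inr (alt3_s he (var1 z1 w1) (var2 z2 w2) (var3 z3 w3) H)))

end Crest.Agent.R307.HWcF
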