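import Crest.Agent.R307.HWcF
set_option autoImplicit false
set_option maxRecDepth 100000
namespace Crest.Agent.R307.HWcF
open Crest.Agent.R307.IA Crest.Agent.R307.IA3

theorem k0 : Cov Q 1152921834460335308 1152922230284521309 1152921504606846976 1152921983993916687 1152921504606846976 1152922604118474752 :=
  cov_of snd 0 0 13 _ _ _ _ _ _ 0x3303133023301330330032310330133032332033012330330033013303300233013303300313120330301333023320330133033031233013330330023103301233033003131330330033033003301233012033030123303300313303303102330133302335023103301330525505203301233033021033253203301315550033014404410233210233033001332362033013144044106660033012332103303303103303300312330163302666020330133032360323103301233033021023303300120 (by decide +kernel)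

end Crest.Agent.R307.HWcF
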