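import Crest.Agent.R307.IA3
import Crest.Agent.R307.IAx
set_option autoImplicit false
set_option linter.unusedVariables false
set_option maxRecDepth 20000
namespace Crest.Agent.R307.HWcG
open Crest.Agent.R307.IA Crest.Agent.R307.IA3

theorem In_cast {e1 e2 e3 : ℝ} {x y1 y2 y3 r : ℕ} {v w : ℝ}
    (h : In e1 e2 e3 x y1 y2 y3 r v) (e : v = w) : In e1 e2 e3 x y1 y2 y3 r w := e ▸ h

noncomputable def K (p e w : ℝ) : ℝ := ((((((1123/1000:ℝ) - ((457/1000:ℝ) * (p ^ 2))) + ((383/500:ℝ) * ((p ^ 2) ^ 2))) + ((1519/200:ℝ) * ((p ^ 2) ^ 3))) + (e * ((((-132/125:ℝ) + ((18177/1000:ℝ) * (p ^ 2))) - ((333/8:ℝ) * ((p ^ 2) ^ 2))) - ((9513/200:ℝ) * ((p ^ 2) ^ 3))))) + ((e ^ 2) * (((10067/1000:ℝ) - ((10539/125:ℝ) * (p ^ 2))) + ((118263/500:ℝ) * ((p ^ 2) ^ 2)))))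
noncomputable def al (p e w : ℝ) : ℝ := (((1:ℝ) + p) / (2:ℝ))
noncomputable def a1 (p e w : ℝ) : ℝ := ((al p e w) * ((1:ℝ) - e))
noncomputable def be (p e w : ℝ) : ℝ := (((1:ℝ) - p) / (2:ℝ))
noncomputable def a2 (p e w : ℝ) : ℝ := ((be p e w) * ((1:ℝ) - e))

def Q (p e w : ℝ) : Prop :=
  (
  (0 < ((K p e w) - (((((al p e w) ^ 2) / ((√((a1 p e w) * ((1:ℝ) - (a1 p e w)))) * (((√((a1 p e w) * ((1:ℝ) - ((al p e w) * (w ^ 2))))) + (w * (√(((1:ℝ) - (a1 p e w)) * (al p e w))))) ^ 2))) + (((be p e w) ^ 2) / ((√((a2 p e w) * ((1:ℝ) - (a2 p e w)))) * (((√((a2 p e w) * ((1:ℝ) - ((be p e w) * (w ^ 2))))) + (w * (√(((1:ℝ) - (a2 p e w)) * (be p e w))))) ^ 2)))) / (2:ℝ)))))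

noncomputable def alt0 (z1 w1 z2 w2 z3 w3 : ℕ) : Bool :=
  sqK z1 (Nat.add w1 1152921504606846976) 1152921504606846976 1152921504606846976 0 fun c1 a1_1 a1_2 a1_3 q1 =>
  smulK 457 1000 1152921504606846977000 526885127605329068032 c1 a1_1 a1_2 a1_3 q1 fun c2 a2_1 a2_2 a2_3 q2 =>
  negK c2 a2_1 a2_2 a2_3 q2 fun c3 a3_1 a3_2 a3_3 q3 =>
  addcK c3 a3_1 a3_2 a3_3 q3 1152922739358404968 1 fun c4 a4_1 a4_2 a4_3 q4 =>
  sqK c1 a1_1 a1_2 a1_3 q1 fun c6 a6_1 a6_2 a6_3 q6 =>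
  smulK 383 500 576460752303423488500 441568936264422391808 c6 a6_1 a6_2 a6_3 q6 fun c7 a7_1 a7_2 a7_3 q7 =>
  addK c4 a4_1 a4_2 a4_3 q4 c7 a7_1 a7_2 a7_3 q7 fun c8 a8_1 a8_2 a8_3 q8 =>
  mulK c6 a6_1 a6_2 a6_3 q6 c1 a1_1 a1_2 a1_3 q1 fun c9 a9_1 a9_2 a9_3 q9 =>
  smulK 1519 200 230584300921369395400 1751287765497800556544 c9 a9_1 a9_2 a9_3 q9 fun c11 a11_1 a11_2 a11_3 q11 =>
  addK c8 a8_1 a8_2 a8_3 q8 c11 a11_1 a11_2 a11_3 q11 fun c12 a12_1 a12_2 a12_3 q12 =>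
  smulK 18177 1000 1152921504606846977000 20956654189238657482752 c1 a1_1 a1_2 a1_3 q1 fun c13 a13_1 a13_2 a13_3 q13 =>
  addcK c13 a13_1 a13_2 a13_3 q13 1152920343522568045 1 fun c14 a14_1 a14_2 a14_3 q14 =>
  smulK 333 8 9223372036854775816 383922861034080043008 c6 a6_1 a6_2 a6_3 q6 fun c16 a16_1 a16_2 a16_3 q16 =>
  subK c14 a14_1 a14_2 a14_3 q14 c16 a16_1 a16_2 a16_3 q16 fun c17 a17_1 a17_2 a17_3 q17 =>
  smulK 9513 200 230584300921369395400 10967742273324935282688 c9 a9_1 a9_2 a9_3 q9 fun c18 a18_1 a18_2 a18_3 q18 =>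
  subK c17 a17_1 a17_2 a17_3 q17 c18 a18_1 a18_2 a18_3 q18 fun c19 a19_1 a19_2 a19_3 q19 =>
  mulK z2 1152921504606846976 (Nat.add w2 1152921504606846976) 1152921504606846976 0 c19 a19_1 a19_2 a19_3 q19 fun c20 a20_1 a20_2 a20_3 q20 =>
  addK c12 a12_1 a12_2 a12_3 q12 c20 a20_1 a20_2 a20_3 q20 fun c21 a21_1 a21_2 a21_3 q21 =>
  sqK z2 1152921504606846976 (Nat.add w2 1152921504606846976) 1152921504606846976 0 fun c22 a22_1 a22_2 a22_3 q22 =>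
  smulK 10539 125 144115188075855872125 12150639737051560280064 c1 a1_1 a1_2 a1_3 q1 fun c23 a23_1 a23_2 a23_3 q23 =>
  negK c23 a23_1 a23_2 a23_3 q23 fun c24 a24_1 a24_2 a24_3 q24 =>
  addcK c24 a24_1 a24_2 a24_3 q24 1152932573390403797 1 fun c25 a25_1 a25_2 a25_3 q25 =>
  smulK 118263 500 576460752303423488500 136347955899319543922688 c6 a6_1 a6_2 a6_3 q6 fun c27 a27_1 a27_2 a27_3 q27 =>
  addK c25 a25_1 a25_2 a25_3 q25 c27 a27_1 a27_2 a27_3 q27 fun c28 a28_1 a28_2 a28_3 q28 =>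
  mulK c22 a22_1 a22_2 a22_3 q22 c28 a28_1 a28_2 a28_3 q28 fun c29 a29_1 a29_2 a29_3 q29 =>
  addK c21 a21_1 a21_2 a21_3 q21 c29 a29_1 a29_2 a29_3 q29 fun c30 a30_1 a30_2 a30_3 q30 =>
  addcK z1 (Nat.add w1 1152921504606846976) 1152921504606846976 1152921504606846976 0 1152922604118474752 0 fun c32 a32_1 a32_2 a32_3 q32 =>
  smulK 1 2 2305843009213693954 1152921504606846976 c32 a32_1 a32_2 a32_3 q32 fun c34 a34_1 a34_2 a34_3 q34 =>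
  negK z2 1152921504606846976 (Nat.add w2 1152921504606846976) 1152921504606846976 0 fun c37 a37_1 a37_2 a37_3 q37 =>
  addcK c37 a37_1 a37_2 a37_3 q37 1152922604118474752 0 fun c38 a38_1 a38_2 a38_3 q38 =>
  mulK c34 a34_1 a34_2 a34_3 q34 c38 a38_1 a38_2 a38_3 q38 fun c40 a40_1 a40_2 a40_3 q40 =>
  negK c40 a40_1 a40_2 a40_3 q40 fun c42 a42_1 a42_2 a42_3 q42 =>
  addcK c42 a42_1 a42_2 a42_3 q42 1152922604118474752 0 fun c43 a43_1 a43_2 a43_3 q43 =>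
  mulK c40 a40_1 a40_2 a40_3 q40 c43 a43_1 a43_2 a43_3 q43 fun c45 a45_1 a45_2 a45_3 q45 =>
  sqrtK c45 a45_1 a45_2 a45_3 q45 fun c46 a46_1 a46_2 a46_3 q46 =>
  sqK z3 1152921504606846976 1152921504606846976 (Nat.add w3 1152921504606846976) 0 fun c47 a47_1 a47_2 a47_3 q47 =>
  mulK c34 a34_1 a34_2 a34_3 q34 c47 a47_1 a47_2 a47_3 q47 fun c48 a48_1 a48_2 a48_3 q48 =>
  negK c48 a48_1 a48_2 a48_3 q48 fun c49 a49_1 a49_2 a49_3 q49 =>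
  addcK c49 a49_1 a49_2 a49_3 q49 1152922604118474752 0 fun c50 a50_1 a50_2 a50_3 q50 =>
  mulK c40 a40_1 a40_2 a40_3 q40 c50 a50_1 a50_2 a50_3 q50 fun c52 a52_1 a52_2 a52_3 q52 =>
  sqrtK c52 a52_1 a52_2 a52_3 q52 fun c53 a53_1 a53_2 a53_3 q53 =>
  mulK c43 a43_1 a43_2 a43_3 q43 c34 a34_1 a34_2 a34_3 q34 fun c54 a54_1 a54_2 a54_3 q54 =>
  sqrtK c54 a54_1 a54_2 a54_3 q54 fun c55 a55_1 a55_2 a55_3 q55 =>
  mulK z3 1152921504606846976 1152921504606846976 (Nat.add w3 1152921504606846976) 0 c55 a55_1 a55_2 a55_3 q55 fun c56 a56_1 a56_2 a56_3 q56 =>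
  addK c53 a53_1 a53_2 a53_3 q53 c56 a56_1 a56_2 a56_3 q56 fun c57 a57_1 a57_2 a57_3 q57 =>
  sqK c57 a57_1 a57_2 a57_3 q57 fun c58 a58_1 a58_2 a58_3 q58 =>
  mulK c46 a46_1 a46_2 a46_3 q46 c58 a58_1 a58_2 a58_3 q58 fun c59 a59_1 a59_2 a59_3 q59 =>
  invK c59 a59_1 a59_2 a59_3 q59 fun c60 a60_1 a60_2 a60_3 q60 =>
  sqK c34 a34_1 a34_2 a34_3 q34 fun c61 a61_1 a61_2 a61_3 q61 =>
  mulK c61 a61_1 a61_2 a61_3 q61 c60 a60_1 a60_2 a60_3 q60 fun c62 a62_1 a62_2 a62_3 q62 =>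
  negK z1 (Nat.add w1 1152921504606846976) 1152921504606846976 1152921504606846976 0 fun c64 a64_1 a64_2 a64_3 q64 =>
  addcK c64 a64_1 a64_2 a64_3 q64 1152922604118474752 0 fun c65 a65_1 a65_2 a65_3 q65 =>
  smulK 1 2 2305843009213693954 1152921504606846976 c65 a65_1 a65_2 a65_3 q65 fun c67 a67_1 a67_2 a67_3 q67 =>
  mulK c67 a67_1 a67_2 a67_3 q67 c38 a38_1 a38_2 a38_3 q38 fun c70 a70_1 a70_2 a70_3 q70 =>
  negK c70 a70_1 a70_2 a70_3 q70 fun c72 a72_1 a72_2 a72_3 q72 =>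
  addcK c72 a72_1 a72_2 a72_3 q72 1152922604118474752 0 fun c73 a73_1 a73_2 a73_3 q73 =>
  mulK c70 a70_1 a70_2 a70_3 q70 c73 a73_1 a73_2 a73_3 q73 fun c75 a75_1 a75_2 a75_3 q75 =>
  sqrtK c75 a75_1 a75_2 a75_3 q75 fun c76 a76_1 a76_2 a76_3 q76 =>
  mulK c67 a67_1 a67_2 a67_3 q67 c47 a47_1 a47_2 a47_3 q47 fun c77 a77_1 a77_2 a77_3 q77 =>
  negK c77 a77_1 a77_2 a77_3 q77 fun c78 a78_1 a78_2 a78_3 q78 =>
  addcK c78 a78_1 a78_2 a78_3 q78 1152922604118474752 0 fun c79 a79_1 a79_2 a79_3 q79 =>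
  mulK c70 a70_1 a70_2 a70_3 q70 c79 a79_1 a79_2 a79_3 q79 fun c81 a81_1 a81_2 a81_3 q81 =>
  sqrtK c81 a81_1 a81_2 a81_3 q81 fun c82 a82_1 a82_2 a82_3 q82 =>
  mulK c73 a73_1 a73_2 a73_3 q73 c67 a67_1 a67_2 a67_3 q67 fun c83 a83_1 a83_2 a83_3 q83 =>
  sqrtK c83 a83_1 a83_2 a83_3 q83 fun c84 a84_1 a84_2 a84_3 q84 =>
  mulK z3 1152921504606846976 1152921504606846976 (Nat.add w3 1152921504606846976) 0 c84 a84_1 a84_2 a84_3 q84 fun c85 a85_1 a85_2 a85_3 q85 =>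
  addK c82 a82_1 a82_2 a82_3 q82 c85 a85_1 a85_2 a85_3 q85 fun c86 a86_1 a86_2 a86_3 q86 =>
  sqK c86 a86_1 a86_2 a86_3 q86 fun c87 a87_1 a87_2 a87_3 q87 =>
  mulK c76 a76_1 a76_2 a76_3 q76 c87 a87_1 a87_2 a87_3 q87 fun c88 a88_1 a88_2 a88_3 q88 =>
  invK c88 a88_1 a88_2 a88_3 q88 fun c89 a89_1 a89_2 a89_3 q89 =>
  sqK c67 a67_1 a67_2 a67_3 q67 fun c90 a90_1 a90_2 a90_3 q90 =>
  mulK c90 a90_1 a90_2 a90_3 q90 c89 a89_1 a89_2 a89_3 q89 fun c91 a91_1 a91_2 a91_3 q91 =>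
  addK c62 a62_1 a62_2 a62_3 q62 c91 a91_1 a91_2 a91_3 q91 fun c93 a93_1 a93_2 a93_3 q93 =>
  smulK 1 2 2305843009213693954 1152921504606846976 c93 a93_1 a93_2 a93_3 q93 fun c94 a94_1 a94_2 a94_3 q94 =>
  subK c30 a30_1 a30_2 a30_3 q30 c94 a94_1 a94_2 a94_3 q94 fun c96 a96_1 a96_2 a96_3 q96 =>
  pos c96 a96_1 a96_2 a96_3 q96

theorem alt0_s {z1 w1 z2 w2 z3 w3 : ℕ} {e1 e2 e3 p e w : ℝ} (he : Ev e1 e2 e3)
    (hx1 : In e1 e2 e3 z1 (Nat.add w1 1152921504606846976) 1152921504606846976 1152921504606846976 0 p)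
    (hx2 : In e1 e2 e3 z2 1152921504606846976 (Nat.add w2 1152921504606846976) 1152921504606846976 0 e)
    (hx3 : In e1 e2 e3 z3 1152921504606846976 1152921504606846976 (Nat.add w3 1152921504606846976) 0 w)
    (H0 : alt0 z1 w1 z2 w2 z3 w3 = true) : 0 < ((K p e w) - (((((al p e w) ^ 2) / ((√((a1 p e w) * ((1:ℝ) - (a1 p e w)))) * (((√((a1 p e w) * ((1:ℝ) - ((al p e w) * (w ^ 2))))) + (w * (√(((1:ℝ) - (a1 p e w)) * (al p e w))))) ^ 2))) + (((be p e w) ^ 2) / ((√((a2 p e w) * ((1:ℝ) - (a2 p e w)))) * (((√((a2 p e w) * ((1:ℝ) - ((be p e w) * (w ^ 2))))) + (w * (√(((1:ℝ) - (a2 p e w)) * (be p e w))))) ^ 2)))) / (2:ℝ))) := by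
  unfold alt0 at H0
  refine sqK_s he hx1 (fun _ _ _ _ _ h1 H1 => ?_) H0
  refine smulK_s he (w := (457/1000:ℝ)) (by norm_num) (by norm_num) (by norm_num) (by norm_num) h1 (fun _ _ _ _ _ h2 H2 => ?_) H1
  refine negK_s he h2 (fun _ _ _ _ _ h3 H3 => ?_) H2
  refine addcK_s he h3 (v' := (1123/1000:ℝ)) (by norm_num [SS, BB, abs_le]) (fun _ _ _ _ _ h4 H4 => ?_) H3
  have h5 := In_cast h4 (neg_add_eq_sub _ _)
  refine sqK_s he h1 (fun _ _ _ _ _ h6 H5 => ?_) H4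
  refine smulK_s he (w := (383/500:ℝ)) (by norm_num) (by norm_num) (by norm_num) (by norm_num) h6 (fun _ _ _ _ _ h7 H6 => ?_) H5
  refine addK_s he h5 h7 (fun _ _ _ _ _ h8 H7 => ?_) H6
  refine mulK_s he h6 h1 (fun _ _ _ _ _ h9 H8 => ?_) H7
  have h10 := In_cast h9 (pow_sc (n := 3) rfl)
  refine smulK_s he (w := (1519/200:ℝ)) (by norm_num) (by norm_num) (by norm_num) (by norm_num) h10 (fun _ _ _ _ _ h11 H9 => ?_) H8
  refine addK_s he h8 h11 (fun _ _ _ _ _ h12 H10 => ?_) H9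
  refine smulK_s he (w := (18177/1000:ℝ)) (by norm_num) (by norm_num) (by norm_num) (by norm_num) h1 (fun _ _ _ _ _ h13 H11 => ?_) H10
  refine addcK_s he h13 (v' := (-132/125:ℝ)) (by norm_num [SS, BB, abs_le]) (fun _ _ _ _ _ h14 H12 => ?_) H11
  have h15 := In_cast h14 (add_comm _ _)
  refine smulK_s he (w := (333/8:ℝ)) (by norm_num) (by norm_num) (by norm_num) (by norm_num) h6 (fun _ _ _ _ _ h16 H13 => ?_) H12
  refine subK_s he h15 h16 (fun _ _ _ _ _ h17 H14 => ?_) H13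
  refine smulK_s he (w := (9513/200:ℝ)) (by norm_num) (by norm_num) (by norm_num) (by norm_num) h10 (fun _ _ _ _ _ h18 H15 => ?_) H14
  refine subK_s he h17 h18 (fun _ _ _ _ _ h19 H16 => ?_) H15
  refine mulK_s he hx2 h19 (fun _ _ _ _ _ h20 H17 => ?_) H16
  refine addK_s he h12 h20 (fun _ _ _ _ _ h21 H18 => ?_) H17
  refine sqK_s he hx2 (fun _ _ _ _ _ h22 H19 => ?_) H18
  refine smulK_s he (w := (10539/125:ℝ)) (by norm_num) (by norm_num) (by norm_num) (by norm_num) h1 (fun _ _ _ _ _ h23 H20 => ?_) H19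
  refine negK_s he h23 (fun _ _ _ _ _ h24 H21 => ?_) H20
  refine addcK_s he h24 (v' := (10067/1000:ℝ)) (by norm_num [SS, BB, abs_le]) (fun _ _ _ _ _ h25 H22 => ?_) H21
  have h26 := In_cast h25 (neg_add_eq_sub _ _)
  refine smulK_s he (w := (118263/500:ℝ)) (by norm_num) (by norm_num) (by norm_num) (by norm_num) h6 (fun _ _ _ _ _ h27 H23 => ?_) H22
  refine addK_s he h26 h27 (fun _ _ _ _ _ h28 H24 => ?_) H23
  refine mulK_s he h22 h28 (fun _ _ _ _ _ h29 H25 => ?_) H24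
  refine addK_s he h21 h29 (fun _ _ _ _ _ h30 H26 => ?_) H25
  have h31 := In_cast (w := (K p e w)) h30 rfl
  refine addcK_s he hx1 (v' := (1:ℝ)) (by norm_num [SS, BB, abs_le]) (fun _ _ _ _ _ h32 H27 => ?_) H26
  have h33 := In_cast h32 (add_comm _ _)
  refine smulK_s he (w := (1/2:ℝ)) (by norm_num) (by norm_num) (by norm_num) (by norm_num) h33 (fun _ _ _ _ _ h34 H28 => ?_) H27
  have h35 := In_cast h34 (div_c (c := (2:ℝ)) (by norm_num))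
  have h36 := In_cast (w := (al p e w)) h35 rfl
  refine negK_s he hx2 (fun _ _ _ _ _ h37 H29 => ?_) H28
  refine addcK_s he h37 (v' := (1:ℝ)) (by norm_num [SS, BB, abs_le]) (fun _ _ _ _ _ h38 H30 => ?_) H29
  have h39 := In_cast h38 (neg_add_eq_sub _ _)
  refine mulK_s he h36 h39 (fun _ _ _ _ _ h40 H31 => ?_) H30
  have h41 := In_cast (w := (a1 p e w)) h40 rfl
  refine negK_s he h41 (fun _ _ _ _ _ h42 H32 => ?_) H31
  refine addcK_s he h42 (v' := (1:ℝ)) (by norm_num [SS, BB, abs_le]) (fun _ _ _ _ _ h43 H33 => ?_) H32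
  have h44 := In_cast h43 (neg_add_eq_sub _ _)
  refine mulK_s he h41 h44 (fun _ _ _ _ _ h45 H34 => ?_) H33
  refine sqrtK_s he h45 (fun _ _ _ _ _ h46 H35 => ?_) H34
  refine sqK_s he hx3 (fun _ _ _ _ _ h47 H36 => ?_) H35
  refine mulK_s he h36 h47 (fun _ _ _ _ _ h48 H37 => ?_) H36
  refine negK_s he h48 (fun _ _ _ _ _ h49 H38 => ?_) H37
  refine addcK_s he h49 (v' := (1:ℝ)) (by norm_num [SS, BB, abs_le]) (fun _ _ _ _ _ h50 H39 => ?_) H38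
  have h51 := In_cast h50 (neg_add_eq_sub _ _)
  refine mulK_s he h41 h51 (fun _ _ _ _ _ h52 H40 => ?_) H39
  refine sqrtK_s he h52 (fun _ _ _ _ _ h53 H41 => ?_) H40
  refine mulK_s he h44 h36 (fun _ _ _ _ _ h54 H42 => ?_) H41
  refine sqrtK_s he h54 (fun _ _ _ _ _ h55 H43 => ?_) H42
  refine mulK_s he hx3 h55 (fun _ _ _ _ _ h56 H44 => ?_) H43
  refine addK_s he h53 h56 (fun _ _ _ _ _ h57 H45 => ?_) H44
  refine sqK_s he h57 (fun _ _ _ _ _ h58 H46 => ?_) H45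
  refine mulK_s he h46 h58 (fun _ _ _ _ _ h59 H47 => ?_) H46
  refine invK_s he h59 (fun _ _ _ _ _ h60 H48 => ?_) H47
  refine sqK_s he h36 (fun _ _ _ _ _ h61 H49 => ?_) H48
  refine mulK_s he h61 h60 (fun _ _ _ _ _ h62 H50 => ?_) H49
  have h63 := In_cast h62 ((div_eq_mul_inv _ _).symm)
  refine negK_s he hx1 (fun _ _ _ _ _ h64 H51 => ?_) H50
  refine addcK_s he h64 (v' := (1:ℝ)) (by norm_num [SS, BB, abs_le]) (fun _ _ _ _ _ h65 H52 => ?_) H51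
  have h66 := In_cast h65 (neg_add_eq_sub _ _)
  refine smulK_s he (w := (1/2:ℝ)) (by norm_num) (by norm_num) (by norm_num) (by norm_num) h66 (fun _ _ _ _ _ h67 H53 => ?_) H52
  have h68 := In_cast h67 (div_c (c := (2:ℝ)) (by norm_num))
  have h69 := In_cast (w := (be p e w)) h68 rfl
  refine mulK_s he h69 h39 (fun _ _ _ _ _ h70 H54 => ?_) H53
  have h71 := In_cast (w := (a2 p e w)) h70 rfl
  refine negK_s he h71 (fun _ _ _ _ _ h72 H55 => ?_) H54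
  refine addcK_s he h72 (v' := (1:ℝ)) (by norm_num [SS, BB, abs_le]) (fun _ _ _ _ _ h73 H56 => ?_) H55
  have h74 := In_cast h73 (neg_add_eq_sub _ _)
  refine mulK_s he h71 h74 (fun _ _ _ _ _ h75 H57 => ?_) H56
  refine sqrtK_s he h75 (fun _ _ _ _ _ h76 H58 => ?_) H57
  refine mulK_s he h69 h47 (fun _ _ _ _ _ h77 H59 => ?_) H58
  refine negK_s he h77 (fun _ _ _ _ _ h78 H60 => ?_) H59
  refine addcK_s he h78 (v' := (1:ℝ)) (by norm_num [SS, BB, abs_le]) (fun _ _ _ _ _ h79 H61 => ?_) H60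
  have h80 := In_cast h79 (neg_add_eq_sub _ _)
  refine mulK_s he h71 h80 (fun _ _ _ _ _ h81 H62 => ?_) H61
  refine sqrtK_s he h81 (fun _ _ _ _ _ h82 H63 => ?_) H62
  refine mulK_s he h74 h69 (fun _ _ _ _ _ h83 H64 => ?_) H63
  refine sqrtK_s he h83 (fun _ _ _ _ _ h84 H65 => ?_) H64
  refine mulK_s he hx3 h84 (fun _ _ _ _ _ h85 H66 => ?_) H65
  refine addK_s he h82 h85 (fun _ _ _ _ _ h86 H67 => ?_) H66
  refine sqK_s he h86 (fun _ _ _ _ _ h87 H68 => ?_) H67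
  refine mulK_s he h76 h87 (fun _ _ _ _ _ h88 H69 => ?_) H68
  refine invK_s he h88 (fun _ _ _ _ _ h89 H70 => ?_) H69
  refine sqK_s he h69 (fun _ _ _ _ _ h90 H71 => ?_) H70
  refine mulK_s he h90 h89 (fun _ _ _ _ _ h91 H72 => ?_) H71
  have h92 := In_cast h91 ((div_eq_mul_inv _ _).symm)
  refine addK_s he h63 h92 (fun _ _ _ _ _ h93 H73 => ?_) H72
  refine smulK_s he (w := (1/2:ℝ)) (by norm_num) (by norm_num) (by norm_num) (by norm_num) h93 (fun _ _ _ _ _ h94 H74 => ?_) H73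
  have h95 := In_cast h94 (div_c (c := (2:ℝ)) (by norm_num))
  refine subK_s he h31 h95 (fun _ _ _ _ _ h96 H75 => ?_) H74
  exact pos_s he h96 H75

attribute [irreducible] alt0

noncomputable def leaf (j u z1 w1 z2 w2 z3 w3 : ℕ) : Bool :=
  alt0 z1 w1 z2 w2 z3 w3

theorem snd : Snd Q leaf := by
  intro j u z1 w1 z2 w2 z3 w3 e1 e2 e3 he H
  unfold leaf at H
  unfold Q
  exact alt0_s he (var1 z1 w1) (var2 z2 w2) (var3 z3 w3) H

end Crest.Agent.R307.HWcG
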