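import Crest.Agent.R307.HWcG
set_option autoImplicit false
set_option maxRecDepth 100000
namespace Crest.Agent.R307.HWcG
open Crest.Agent.R307.IA Crest.Agent.R307.IA3

theorem k0 : Cov Q 1152921834460335308 1152922230284521309 1152921504606846976 1152921713514056254 1152921504606846976 1152922604118474752 :=
  cov_of snd 0 0 18 _ _ _ _ _ _ 0x333301133003233103303301330333323011330013310321323333011033023330301033021331330033033330330330013303133031013303303300133031330310102330313303103301123333033013303301033033003303300012330313303103301120233300330310330113333330133301033133103313310012330313303301033300112333033301333010330330133033010133031330330003330011220233330033031033012102331330330330333033033011330330330110233033003301330303301012333303303301133033110233033013330033010120233303133033010333001212330333330330133033010233033003301330330033010123333033013303301023330330133031021202333031330310330133313303102330330010212020233133003303033133303330330133033010233303133031021333031331033133101202233333133102333133102033313310233303301201220330330333133102330331013330330123330330021023333133002330330103303301330012021233033033330330123330330120333033012330330033010123303330330133033033001023303300330133033003301012023333033003303300033033001233031330310330102120220 (by decide +kernel)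

end Crest.Agent.R307.HWcG
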