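import Crest.Agent.R307.IA2
import Crest.Agent.R307.IAx
set_option autoImplicit false
set_option linter.unusedVariables false
set_option maxRecDepth 20000
namespace Crest.Agent.R307.HWcH
open Crest.Agent.R307.IA Crest.Agent.R307.IA2

theorem In_cast {e1 e2 : ℝ} {x y1 y2 r : ℕ} {v w : ℝ}
    (h : In e1 e2 x y1 y2 r v) (e : v = w) : In e1 e2 x y1 y2 r w := e ▸ h

noncomputable def al (p w : ℝ) : ℝ := (((1:ℝ) + p) / (2:ℝ))
noncomputable def u (p w : ℝ) : ℝ := ((1:ℝ) - (w ^ 2))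
noncomputable def s (p w : ℝ) : ℝ := (√((1:ℝ) - (p ^ 2)))
noncomputable def be (p w : ℝ) : ℝ := (((1:ℝ) - p) / (2:ℝ))
noncomputable def K (p w : ℝ) : ℝ := (((1137/1000:ℝ) - ((31/50:ℝ) * p)) + ((67/50:ℝ) * (p ^ 2)))

def Q (p w : ℝ) : Prop :=
  (
  (0 < (((((((2:ℝ) * (al p w)) * (p - ((al p w) * (u p w)))) / ((((2:ℝ) * w) * (√((al p w) * ((1:ℝ) - ((al p w) * (w ^ 2)))))) + (s p w))) - ((((2:ℝ) * (be p w)) * (p + ((be p w) * (u p w)))) / ((((2:ℝ) * w) * (√((be p w) * ((1:ℝ) - ((be p w) * (w ^ 2)))))) + (s p w)))) - (((K p w) - (s p w)) - (3/1000:ℝ))) + ((K p w) * (u p w)))))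

noncomputable def alt0 (z1 w1 z2 w2 : ℕ) : Bool :=
  smulK 2 1 1152921504606846977 2305843009213693952 z2 1152921504606846976 (Nat.add w2 1152921504606846976) 0 fun c1 a1_1 a1_2 q1 =>
  addcK z1 (Nat.add w1 1152921504606846976) 1152921504606846976 0 1152922604118474752 0 fun c2 a2_1 a2_2 q2 =>
  smulK 1 2 2305843009213693954 1152921504606846976 c2 a2_1 a2_2 q2 fun c4 a4_1 a4_2 q4 =>
  sqK z2 1152921504606846976 (Nat.add w2 1152921504606846976) 0 fun c7 a7_1 a7_2 q7 =>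
  mulK c4 a4_1 a4_2 q4 c7 a7_1 a7_2 q7 fun c8 a8_1 a8_2 q8 =>
  negK c8 a8_1 a8_2 q8 fun c9 a9_1 a9_2 q9 =>
  addcK c9 a9_1 a9_2 q9 1152922604118474752 0 fun c10 a10_1 a10_2 q10 =>
  mulK c4 a4_1 a4_2 q4 c10 a10_1 a10_2 q10 fun c12 a12_1 a12_2 q12 =>
  sqrtK c12 a12_1 a12_2 q12 fun c13 a13_1 a13_2 q13 =>
  mulK c1 a1_1 a1_2 q1 c13 a13_1 a13_2 q13 fun c14 a14_1 a14_2 q14 =>
  sqK z1 (Nat.add w1 1152921504606846976) 1152921504606846976 0 fun c15 a15_1 a15_2 q15 =>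
  negK c15 a15_1 a15_2 q15 fun c16 a16_1 a16_2 q16 =>
  addcK c16 a16_1 a16_2 q16 1152922604118474752 0 fun c17 a17_1 a17_2 q17 =>
  sqrtK c17 a17_1 a17_2 q17 fun c19 a19_1 a19_2 q19 =>
  addK c14 a14_1 a14_2 q14 c19 a19_1 a19_2 q19 fun c21 a21_1 a21_2 q21 =>
  invK c21 a21_1 a21_2 q21 fun c22 a22_1 a22_2 q22 =>
  smulK 2 1 1152921504606846977 2305843009213693952 c4 a4_1 a4_2 q4 fun c23 a23_1 a23_2 q23 =>
  negK c7 a7_1 a7_2 q7 fun c24 a24_1 a24_2 q24 =>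
  addcK c24 a24_1 a24_2 q24 1152922604118474752 0 fun c25 a25_1 a25_2 q25 =>
  mulK c4 a4_1 a4_2 q4 c25 a25_1 a25_2 q25 fun c28 a28_1 a28_2 q28 =>
  subK z1 (Nat.add w1 1152921504606846976) 1152921504606846976 0 c28 a28_1 a28_2 q28 fun c29 a29_1 a29_2 q29 =>
  mulK c23 a23_1 a23_2 q23 c29 a29_1 a29_2 q29 fun c30 a30_1 a30_2 q30 =>
  mulK c30 a30_1 a30_2 q30 c22 a22_1 a22_2 q22 fun c31 a31_1 a31_2 q31 =>
  negK z1 (Nat.add w1 1152921504606846976) 1152921504606846976 0 fun c33 a33_1 a33_2 q33 =>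
  addcK c33 a33_1 a33_2 q33 1152922604118474752 0 fun c34 a34_1 a34_2 q34 =>
  smulK 1 2 2305843009213693954 1152921504606846976 c34 a34_1 a34_2 q34 fun c36 a36_1 a36_2 q36 =>
  mulK c36 a36_1 a36_2 q36 c7 a7_1 a7_2 q7 fun c39 a39_1 a39_2 q39 =>
  negK c39 a39_1 a39_2 q39 fun c40 a40_1 a40_2 q40 =>
  addcK c40 a40_1 a40_2 q40 1152922604118474752 0 fun c41 a41_1 a41_2 q41 =>
  mulK c36 a36_1 a36_2 q36 c41 a41_1 a41_2 q41 fun c43 a43_1 a43_2 q43 =>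
  sqrtK c43 a43_1 a43_2 q43 fun c44 a44_1 a44_2 q44 =>
  mulK c1 a1_1 a1_2 q1 c44 a44_1 a44_2 q44 fun c45 a45_1 a45_2 q45 =>
  addK c45 a45_1 a45_2 q45 c19 a19_1 a19_2 q19 fun c46 a46_1 a46_2 q46 =>
  invK c46 a46_1 a46_2 q46 fun c47 a47_1 a47_2 q47 =>
  smulK 2 1 1152921504606846977 2305843009213693952 c36 a36_1 a36_2 q36 fun c48 a48_1 a48_2 q48 =>
  mulK c36 a36_1 a36_2 q36 c25 a25_1 a25_2 q25 fun c49 a49_1 a49_2 q49 =>
  addK z1 (Nat.add w1 1152921504606846976) 1152921504606846976 0 c49 a49_1 a49_2 q49 fun c50 a50_1 a50_2 q50 =>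
  mulK c48 a48_1 a48_2 q48 c50 a50_1 a50_2 q50 fun c51 a51_1 a51_2 q51 =>
  mulK c51 a51_1 a51_2 q51 c47 a47_1 a47_2 q47 fun c52 a52_1 a52_2 q52 =>
  subK c31 a31_1 a31_2 q31 c52 a52_1 a52_2 q52 fun c54 a54_1 a54_2 q54 =>
  smulK 31 50 57646075230342348850 35740566642812256256 z1 (Nat.add w1 1152921504606846976) 1152921504606846976 0 fun c55 a55_1 a55_2 q55 =>
  negK c55 a55_1 a55_2 q55 fun c56 a56_1 a56_2 q56 =>
  addcK c56 a56_1 a56_2 q56 1152922754751567757 1 fun c57 a57_1 a57_2 q57 =>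
  smulK 67 50 57646075230342348850 77245740808658747392 c15 a15_1 a15_2 q15 fun c59 a59_1 a59_2 q59 =>
  addK c57 a57_1 a57_2 q57 c59 a59_1 a59_2 q59 fun c60 a60_1 a60_2 q60 =>
  subK c60 a60_1 a60_2 q60 c19 a19_1 a19_2 q19 fun c62 a62_1 a62_2 q62 =>
  addcK c62 a62_1 a62_2 q62 1152921501308312093 1 fun c63 a63_1 a63_2 q63 =>
  subK c54 a54_1 a54_2 q54 c63 a63_1 a63_2 q63 fun c65 a65_1 a65_2 q65 =>
  mulK c60 a60_1 a60_2 q60 c25 a25_1 a25_2 q25 fun c66 a66_1 a66_2 q66 =>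
  addK c65 a65_1 a65_2 q65 c66 a66_1 a66_2 q66 fun c67 a67_1 a67_2 q67 =>
  pos c67 a67_1 a67_2 q67

theorem alt0_s {z1 w1 z2 w2 : ℕ} {e1 e2 p w : ℝ} (he : Ev e1 e2)
    (hx1 : In e1 e2 z1 (Nat.add w1 1152921504606846976) 1152921504606846976 0 p)
    (hx2 : In e1 e2 z2 1152921504606846976 (Nat.add w2 1152921504606846976) 0 w)
    (H0 : alt0 z1 w1 z2 w2 = true) : 0 < (((((((2:ℝ) * (al p w)) * (p - ((al p w) * (u p w)))) / ((((2:ℝ) * w) * (√((al p w) * ((1:ℝ) - ((al p w) * (w ^ 2)))))) + (s p w))) - ((((2:ℝ) * (be p w)) * (p + ((be p w) * (u p w)))) / ((((2:ℝ) * w) * (√((be p w) * ((1:ℝ) - ((be p w) * (w ^ 2)))))) + (s p w)))) - (((K p w) - (s p w)) - (3/1000:ℝ))) + ((K p w) * (u p w))) := by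
  unfold alt0 at H0
  refine smulK_s he (w := (2:ℝ)) (by norm_num) (by norm_num) (by norm_num) (by norm_num) hx2 (fun _ _ _ _ h1 H1 => ?_) H0
  refine addcK_s he hx1 (v' := (1:ℝ)) (by norm_num [SS, BB, abs_le]) (fun _ _ _ _ h2 H2 => ?_) H1
  have h3 := In_cast h2 (add_comm _ _)
  refine smulK_s he (w := (1/2:ℝ)) (by norm_num) (by norm_num) (by norm_num) (by norm_num) h3 (fun _ _ _ _ h4 H3 => ?_) H2
  have h5 := In_cast h4 (div_c (c := (2:ℝ)) (by norm_num))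
  have h6 := In_cast (w := (al p w)) h5 rfl
  refine sqK_s he hx2 (fun _ _ _ _ h7 H4 => ?_) H3
  refine mulK_s he h6 h7 (fun _ _ _ _ h8 H5 => ?_) H4
  refine negK_s he h8 (fun _ _ _ _ h9 H6 => ?_) H5
  refine addcK_s he h9 (v' := (1:ℝ)) (by norm_num [SS, BB, abs_le]) (fun _ _ _ _ h10 H7 => ?_) H6
  have h11 := In_cast h10 (neg_add_eq_sub _ _)
  refine mulK_s he h6 h11 (fun _ _ _ _ h12 H8 => ?_) H7
  refine sqrtK_s he h12 (fun _ _ _ _ h13 H9 => ?_) H8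
  refine mulK_s he h1 h13 (fun _ _ _ _ h14 H10 => ?_) H9
  refine sqK_s he hx1 (fun _ _ _ _ h15 H11 => ?_) H10
  refine negK_s he h15 (fun _ _ _ _ h16 H12 => ?_) H11
  refine addcK_s he h16 (v' := (1:ℝ)) (by norm_num [SS, BB, abs_le]) (fun _ _ _ _ h17 H13 => ?_) H12
  have h18 := In_cast h17 (neg_add_eq_sub _ _)
  refine sqrtK_s he h18 (fun _ _ _ _ h19 H14 => ?_) H13
  have h20 := In_cast (w := (s p w)) h19 rfl
  refine addK_s he h14 h20 (fun _ _ _ _ h21 H15 => ?_) H14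
  refine invK_s he h21 (fun _ _ _ _ h22 H16 => ?_) H15
  refine smulK_s he (w := (2:ℝ)) (by norm_num) (by norm_num) (by norm_num) (by norm_num) h6 (fun _ _ _ _ h23 H17 => ?_) H16
  refine negK_s he h7 (fun _ _ _ _ h24 H18 => ?_) H17
  refine addcK_s he h24 (v' := (1:ℝ)) (by norm_num [SS, BB, abs_le]) (fun _ _ _ _ h25 H19 => ?_) H18
  have h26 := In_cast h25 (neg_add_eq_sub _ _)
  have h27 := In_cast (w := (u p w)) h26 rfl
  refine mulK_s he h6 h27 (fun _ _ _ _ h28 H20 => ?_) H19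
  refine subK_s he hx1 h28 (fun _ _ _ _ h29 H21 => ?_) H20
  refine mulK_s he h23 h29 (fun _ _ _ _ h30 H22 => ?_) H21
  refine mulK_s he h30 h22 (fun _ _ _ _ h31 H23 => ?_) H22
  have h32 := In_cast h31 ((div_eq_mul_inv _ _).symm)
  refine negK_s he hx1 (fun _ _ _ _ h33 H24 => ?_) H23
  refine addcK_s he h33 (v' := (1:ℝ)) (by norm_num [SS, BB, abs_le]) (fun _ _ _ _ h34 H25 => ?_) H24
  have h35 := In_cast h34 (neg_add_eq_sub _ _)
  refine smulK_s he (w := (1/2:ℝ)) (by norm_num) (by norm_num) (by norm_num) (by norm_num) h35 (fun _ _ _ _ h36 H26 => ?_) H25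
  have h37 := In_cast h36 (div_c (c := (2:ℝ)) (by norm_num))
  have h38 := In_cast (w := (be p w)) h37 rfl
  refine mulK_s he h38 h7 (fun _ _ _ _ h39 H27 => ?_) H26
  refine negK_s he h39 (fun _ _ _ _ h40 H28 => ?_) H27
  refine addcK_s he h40 (v' := (1:ℝ)) (by norm_num [SS, BB, abs_le]) (fun _ _ _ _ h41 H29 => ?_) H28
  have h42 := In_cast h41 (neg_add_eq_sub _ _)
  refine mulK_s he h38 h42 (fun _ _ _ _ h43 H30 => ?_) H29
  refine sqrtK_s he h43 (fun _ _ _ _ h44 H31 => ?_) H30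
  refine mulK_s he h1 h44 (fun _ _ _ _ h45 H32 => ?_) H31
  refine addK_s he h45 h20 (fun _ _ _ _ h46 H33 => ?_) H32
  refine invK_s he h46 (fun _ _ _ _ h47 H34 => ?_) H33
  refine smulK_s he (w := (2:ℝ)) (by norm_num) (by norm_num) (by norm_num) (by norm_num) h38 (fun _ _ _ _ h48 H35 => ?_) H34
  refine mulK_s he h38 h27 (fun _ _ _ _ h49 H36 => ?_) H35
  refine addK_s he hx1 h49 (fun _ _ _ _ h50 H37 => ?_) H36
  refine mulK_s he h48 h50 (fun _ _ _ _ h51 H38 => ?_) H37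
  refine mulK_s he h51 h47 (fun _ _ _ _ h52 H39 => ?_) H38
  have h53 := In_cast h52 ((div_eq_mul_inv _ _).symm)
  refine subK_s he h32 h53 (fun _ _ _ _ h54 H40 => ?_) H39
  refine smulK_s he (w := (31/50:ℝ)) (by norm_num) (by norm_num) (by norm_num) (by norm_num) hx1 (fun _ _ _ _ h55 H41 => ?_) H40
  refine negK_s he h55 (fun _ _ _ _ h56 H42 => ?_) H41
  refine addcK_s he h56 (v' := (1137/1000:ℝ)) (by norm_num [SS, BB, abs_le]) (fun _ _ _ _ h57 H43 => ?_) H42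
  have h58 := In_cast h57 (neg_add_eq_sub _ _)
  refine smulK_s he (w := (67/50:ℝ)) (by norm_num) (by norm_num) (by norm_num) (by norm_num) h15 (fun _ _ _ _ h59 H44 => ?_) H43
  refine addK_s he h58 h59 (fun _ _ _ _ h60 H45 => ?_) H44
  have h61 := In_cast (w := (K p w)) h60 rfl
  refine subK_s he h61 h20 (fun _ _ _ _ h62 H46 => ?_) H45
  refine addcK_s he h62 (v' := (-3/1000:ℝ)) (by norm_num [SS, BB, abs_le]) (fun _ _ _ _ h63 H47 => ?_) H46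
  have h64 := In_cast h63 (sub_c (c := (3/1000:ℝ)) (by norm_num))
  refine subK_s he h54 h64 (fun _ _ _ _ h65 H48 => ?_) H47
  refine mulK_s he h61 h27 (fun _ _ _ _ h66 H49 => ?_) H48
  refine addK_s he h65 h66 (fun _ _ _ _ h67 H50 => ?_) H49
  exact pos_s he h67 H50

attribute [irreducible] alt0

noncomputable def leaf (j u z1 w1 z2 w2 : ℕ) : Bool :=
  alt0 z1 w1 z2 w2

theorem snd : Snd Q leaf := by
  intro j u z1 w1 z2 w2 e1 e2 he H
  unfold leaf at H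
  unfold Q
  exact alt0_s he (var1 z1 w1) (var2 z2 w2) H

end Crest.Agent.R307.HWcH
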