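import Crest.Agent.R307.HWcH
set_option autoImplicit false
set_option maxRecDepth 100000
namespace Crest.Agent.R307.HWcH
open Crest.Agent.R307.IA Crest.Agent.R307.IA2

theorem k0 : Cov Q 1152922219289405030 1152922461181963142 1152921504606846976 1152922604118474752 :=
  cov_of snd 0 0 11 _ _ _ _ 0x222012202220010222002220122022010122022002212200101221220022022001222002201022120122020220121012202202200122020220201122022002201220211022020202110220202122001220222220220012220220010122220122201010122222022001222022001011011 (by decide +kernel)

end Crest.Agent.R307.HWcH
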