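import Crest.Agent.R307.IA3
import Crest.Agent.R307.IAx
set_option autoImplicit false
set_option linter.unusedVariables false
set_option maxRecDepth 20000
namespace Crest.Agent.R307.HWcJ
open Crest.Agent.R307.IA Crest.Agent.R307.IA3

theorem In_cast {e1 e2 e3 : ℝ} {x y1 y2 y3 r : ℕ} {v w : ℝ}
    (h : In e1 e2 e3 x y1 y2 y3 r v) (e : v = w) : In e1 e2 e3 x y1 y2 y3 r w := e ▸ h

noncomputable def K (p r t : ℝ) : ℝ := (((1137/1000:ℝ) - ((31/50:ℝ) * p)) + ((67/50:ℝ) * (p ^ 2)))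
noncomputable def s (p r t : ℝ) : ℝ := (√((1:ℝ) - (p ^ 2)))
noncomputable def et (p r t : ℝ) : ℝ := (r ^ 2)
noncomputable def ee0 (p r t : ℝ) : ℝ := ((et p r t) * t)
noncomputable def x (p r t : ℝ) : ℝ := (p ^ 2)
noncomputable def v0 (p r t : ℝ) : ℝ := ((((x p r t) * ((1:ℝ) - (x p r t))) * (min (1/2:ℝ) ((1531/1250:ℝ) * (√(ee0 p r t))))) + (((x p r t) ^ 2) * ((1:ℝ) - (ee0 p r t))))
noncomputable def ee1 (p r t : ℝ) : ℝ := ((et p r t) * ((1:ℝ) - t))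
noncomputable def v1 (p r t : ℝ) : ℝ := ((((x p r t) * ((1:ℝ) - (x p r t))) * (min (1/2:ℝ) ((1531/1250:ℝ) * (√(ee1 p r t))))) + (((x p r t) ^ 2) * ((1:ℝ) - (ee1 p r t))))
noncomputable def mu (p r t : ℝ) : ℝ := (((2:ℝ) * t) - (1:ℝ))
noncomputable def m (p r t : ℝ) : ℝ := ((mu p r t) * (et p r t))
noncomputable def C (p r t : ℝ) : ℝ := (√((1:ℝ) - ((m p r t) ^ 2)))

def Q (p r t : ℝ) : Prop :=
  (
  (0 < (((((K p r t) - (s p r t)) - (3/1000:ℝ)) - ((K p r t) * ((t * ((ee0 p r t) + (v0 p r t))) + (((1:ℝ) - t) * ((ee1 p r t) + (v1 p r t)))))) + (((mu p r t) * (m p r t)) / ((1:ℝ) + (C p r t))))))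

noncomputable def alt0 (z1 w1 z2 w2 z3 w3 : ℕ) : Bool :=
  smulK 31 50 57646075230342348850 35740566642812256256 z1 (Nat.add w1 1152921504606846976) 1152921504606846976 1152921504606846976 0 fun c1 a1_1 a1_2 a1_3 q1 =>
  negK c1 a1_1 a1_2 a1_3 q1 fun c2 a2_1 a2_2 a2_3 q2 =>
  addcK c2 a2_1 a2_2 a2_3 q2 1152922754751567757 1 fun c3 a3_1 a3_2 a3_3 q3 =>
  sqK z1 (Nat.add w1 1152921504606846976) 1152921504606846976 1152921504606846976 0 fun c5 a5_1 a5_2 a5_3 q5 =>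
  smulK 67 50 57646075230342348850 77245740808658747392 c5 a5_1 a5_2 a5_3 q5 fun c6 a6_1 a6_2 a6_3 q6 =>
  addK c3 a3_1 a3_2 a3_3 q3 c6 a6_1 a6_2 a6_3 q6 fun c7 a7_1 a7_2 a7_3 q7 =>
  negK c5 a5_1 a5_2 a5_3 q5 fun c9 a9_1 a9_2 a9_3 q9 =>
  addcK c9 a9_1 a9_2 a9_3 q9 1152922604118474752 0 fun c10 a10_1 a10_2 a10_3 q10 =>
  sqrtK c10 a10_1 a10_2 a10_3 q10 fun c12 a12_1 a12_2 a12_3 q12 =>
  subK c7 a7_1 a7_2 a7_3 q7 c12 a12_1 a12_2 a12_3 q12 fun c14 a14_1 a14_2 a14_3 q14 =>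
  addcK c14 a14_1 a14_2 a14_3 q14 1152921501308312093 1 fun c15 a15_1 a15_2 a15_3 q15 =>
  sqK z2 1152921504606846976 (Nat.add w2 1152921504606846976) 1152921504606846976 0 fun c17 a17_1 a17_2 a17_3 q17 =>
  mulK c17 a17_1 a17_2 a17_3 q17 z3 1152921504606846976 1152921504606846976 (Nat.add w3 1152921504606846976) 0 fun c19 a19_1 a19_2 a19_3 q19 =>
  negK c5 a5_1 a5_2 a5_3 q5 fun c22 a22_1 a22_2 a22_3 q22 =>
  addcK c22 a22_1 a22_2 a22_3 q22 1152922604118474752 0 fun c23 a23_1 a23_2 a23_3 q23 =>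
  mulK c5 a5_1 a5_2 a5_3 q5 c23 a23_1 a23_2 a23_3 q23 fun c25 a25_1 a25_2 a25_3 q25 =>
  sqrtK c19 a19_1 a19_2 a19_3 q19 fun c27 a27_1 a27_2 a27_3 q27 =>
  smulK 1531 1250 1441151880758558721250 1765122823553082720256 c27 a27_1 a27_2 a27_3 q27 fun c28 a28_1 a28_2 a28_3 q28 =>
  subK 1152922054362660864 1152921504606846976 1152921504606846976 1152921504606846976 0 c28 a28_1 a28_2 a28_3 q28 fun c29 a29_1 a29_2 a29_3 q29 =>
  reluK c29 a29_1 a29_2 a29_3 q29 fun c30 a30_1 a30_2 a30_3 q30 =>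
  subK 1152922054362660864 1152921504606846976 1152921504606846976 1152921504606846976 0 c30 a30_1 a30_2 a30_3 q30 fun c31 a31_1 a31_2 a31_3 q31 =>
  mulK c25 a25_1 a25_2 a25_3 q25 c31 a31_1 a31_2 a31_3 q31 fun c33 a33_1 a33_2 a33_3 q33 =>
  sqK c5 a5_1 a5_2 a5_3 q5 fun c34 a34_1 a34_2 a34_3 q34 =>
  negK c19 a19_1 a19_2 a19_3 q19 fun c35 a35_1 a35_2 a35_3 q35 =>
  addcK c35 a35_1 a35_2 a35_3 q35 1152922604118474752 0 fun c36 a36_1 a36_2 a36_3 q36 =>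
  mulK c34 a34_1 a34_2 a34_3 q34 c36 a36_1 a36_2 a36_3 q36 fun c38 a38_1 a38_2 a38_3 q38 =>
  addK c33 a33_1 a33_2 a33_3 q33 c38 a38_1 a38_2 a38_3 q38 fun c39 a39_1 a39_2 a39_3 q39 =>
  addK c19 a19_1 a19_2 a19_3 q19 c39 a39_1 a39_2 a39_3 q39 fun c41 a41_1 a41_2 a41_3 q41 =>
  mulK z3 1152921504606846976 1152921504606846976 (Nat.add w3 1152921504606846976) 0 c41 a41_1 a41_2 a41_3 q41 fun c42 a42_1 a42_2 a42_3 q42 =>
  negK z3 1152921504606846976 1152921504606846976 (Nat.add w3 1152921504606846976) 0 fun c43 a43_1 a43_2 a43_3 q43 =>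
  addcK c43 a43_1 a43_2 a43_3 q43 1152922604118474752 0 fun c44 a44_1 a44_2 a44_3 q44 =>
  mulK c17 a17_1 a17_2 a17_3 q17 c44 a44_1 a44_2 a44_3 q44 fun c46 a46_1 a46_2 a46_3 q46 =>
  sqrtK c46 a46_1 a46_2 a46_3 q46 fun c48 a48_1 a48_2 a48_3 q48 =>
  smulK 1531 1250 1441151880758558721250 1765122823553082720256 c48 a48_1 a48_2 a48_3 q48 fun c49 a49_1 a49_2 a49_3 q49 =>
  subK 1152922054362660864 1152921504606846976 1152921504606846976 1152921504606846976 0 c49 a49_1 a49_2 a49_3 q49 fun c50 a50_1 a50_2 a50_3 q50 =>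
  reluK c50 a50_1 a50_2 a50_3 q50 fun c51 a51_1 a51_2 a51_3 q51 =>
  subK 1152922054362660864 1152921504606846976 1152921504606846976 1152921504606846976 0 c51 a51_1 a51_2 a51_3 q51 fun c52 a52_1 a52_2 a52_3 q52 =>
  mulK c25 a25_1 a25_2 a25_3 q25 c52 a52_1 a52_2 a52_3 q52 fun c54 a54_1 a54_2 a54_3 q54 =>
  negK c46 a46_1 a46_2 a46_3 q46 fun c55 a55_1 a55_2 a55_3 q55 =>
  addcK c55 a55_1 a55_2 a55_3 q55 1152922604118474752 0 fun c56 a56_1 a56_2 a56_3 q56 =>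
  mulK c34 a34_1 a34_2 a34_3 q34 c56 a56_1 a56_2 a56_3 q56 fun c58 a58_1 a58_2 a58_3 q58 =>
  addK c54 a54_1 a54_2 a54_3 q54 c58 a58_1 a58_2 a58_3 q58 fun c59 a59_1 a59_2 a59_3 q59 =>
  addK c46 a46_1 a46_2 a46_3 q46 c59 a59_1 a59_2 a59_3 q59 fun c61 a61_1 a61_2 a61_3 q61 =>
  mulK c44 a44_1 a44_2 a44_3 q44 c61 a61_1 a61_2 a61_3 q61 fun c62 a62_1 a62_2 a62_3 q62 =>
  addK c42 a42_1 a42_2 a42_3 q42 c62 a62_1 a62_2 a62_3 q62 fun c63 a63_1 a63_2 a63_3 q63 =>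
  mulK c7 a7_1 a7_2 a7_3 q7 c63 a63_1 a63_2 a63_3 q63 fun c64 a64_1 a64_2 a64_3 q64 =>
  subK c15 a15_1 a15_2 a15_3 q15 c64 a64_1 a64_2 a64_3 q64 fun c65 a65_1 a65_2 a65_3 q65 =>
  smulK 2 1 1152921504606846977 2305843009213693952 z3 1152921504606846976 1152921504606846976 (Nat.add w3 1152921504606846976) 0 fun c66 a66_1 a66_2 a66_3 q66 =>
  addcK c66 a66_1 a66_2 a66_3 q66 1152920405095219200 0 fun c67 a67_1 a67_2 a67_3 q67 =>
  mulK c67 a67_1 a67_2 a67_3 q67 c17 a17_1 a17_2 a17_3 q17 fun c70 a70_1 a70_2 a70_3 q70 =>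
  sqK c70 a70_1 a70_2 a70_3 q70 fun c72 a72_1 a72_2 a72_3 q72 =>
  negK c72 a72_1 a72_2 a72_3 q72 fun c73 a73_1 a73_2 a73_3 q73 =>
  addcK c73 a73_1 a73_2 a73_3 q73 1152922604118474752 0 fun c74 a74_1 a74_2 a74_3 q74 =>
  sqrtK c74 a74_1 a74_2 a74_3 q74 fun c76 a76_1 a76_2 a76_3 q76 =>
  addcK c76 a76_1 a76_2 a76_3 q76 1152922604118474752 0 fun c78 a78_1 a78_2 a78_3 q78 =>
  invK c78 a78_1 a78_2 a78_3 q78 fun c80 a80_1 a80_2 a80_3 q80 =>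
  mulK c67 a67_1 a67_2 a67_3 q67 c70 a70_1 a70_2 a70_3 q70 fun c81 a81_1 a81_2 a81_3 q81 =>
  mulK c81 a81_1 a81_2 a81_3 q81 c80 a80_1 a80_2 a80_3 q80 fun c82 a82_1 a82_2 a82_3 q82 =>
  addK c65 a65_1 a65_2 a65_3 q65 c82 a82_1 a82_2 a82_3 q82 fun c84 a84_1 a84_2 a84_3 q84 =>
  pos c84 a84_1 a84_2 a84_3 q84

theorem alt0_s {z1 w1 z2 w2 z3 w3 : ℕ} {e1 e2 e3 p r t : ℝ} (he : Ev e1 e2 e3)
    (hx1 : In e1 e2 e3 z1 (Nat.add w1 1152921504606846976) 1152921504606846976 1152921504606846976 0 p)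
    (hx2 : In e1 e2 e3 z2 1152921504606846976 (Nat.add w2 1152921504606846976) 1152921504606846976 0 r)
    (hx3 : In e1 e2 e3 z3 1152921504606846976 1152921504606846976 (Nat.add w3 1152921504606846976) 0 t)
    (H0 : alt0 z1 w1 z2 w2 z3 w3 = true) : 0 < (((((K p r t) - (s p r t)) - (3/1000:ℝ)) - ((K p r t) * ((t * ((ee0 p r t) + (v0 p r t))) + (((1:ℝ) - t) * ((ee1 p r t) + (v1 p r t)))))) + (((mu p r t) * (m p r t)) / ((1:ℝ) + (C p r t)))) := by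
  unfold alt0 at H0
  refine smulK_s he (w := (31/50:ℝ)) (by norm_num) (by norm_num) (by norm_num) (by norm_num) hx1 (fun _ _ _ _ _ h1 H1 => ?_) H0
  refine negK_s he h1 (fun _ _ _ _ _ h2 H2 => ?_) H1
  refine addcK_s he h2 (v' := (1137/1000:ℝ)) (by norm_num [SS, BB, abs_le]) (fun _ _ _ _ _ h3 H3 => ?_) H2
  have h4 := In_cast h3 (neg_add_eq_sub _ _)
  refine sqK_s he hx1 (fun _ _ _ _ _ h5 H4 => ?_) H3
  refine smulK_s he (w := (67/50:ℝ)) (by norm_num) (by norm_num) (by norm_num) (by norm_num) h5 (fun _ _ _ _ _ h6 H5 => ?_) H4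
  refine addK_s he h4 h6 (fun _ _ _ _ _ h7 H6 => ?_) H5
  have h8 := In_cast (w := (K p r t)) h7 rfl
  refine negK_s he h5 (fun _ _ _ _ _ h9 H7 => ?_) H6
  refine addcK_s he h9 (v' := (1:ℝ)) (by norm_num [SS, BB, abs_le]) (fun _ _ _ _ _ h10 H8 => ?_) H7
  have h11 := In_cast h10 (neg_add_eq_sub _ _)
  refine sqrtK_s he h11 (fun _ _ _ _ _ h12 H9 => ?_) H8
  have h13 := In_cast (w := (s p r t)) h12 rfl
  refine subK_s he h8 h13 (fun _ _ _ _ _ h14 H10 => ?_) H9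
  refine addcK_s he h14 (v' := (-3/1000:ℝ)) (by norm_num [SS, BB, abs_le]) (fun _ _ _ _ _ h15 H11 => ?_) H10
  have h16 := In_cast h15 (sub_c (c := (3/1000:ℝ)) (by norm_num))
  refine sqK_s he hx2 (fun _ _ _ _ _ h17 H12 => ?_) H11
  have h18 := In_cast (w := (et p r t)) h17 rfl
  refine mulK_s he h18 hx3 (fun _ _ _ _ _ h19 H13 => ?_) H12
  have h20 := In_cast (w := (ee0 p r t)) h19 rfl
  have h21 := In_cast (w := (x p r t)) h5 rfl
  refine negK_s he h21 (fun _ _ _ _ _ h22 H14 => ?_) H13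
  refine addcK_s he h22 (v' := (1:ℝ)) (by norm_num [SS, BB, abs_le]) (fun _ _ _ _ _ h23 H15 => ?_) H14
  have h24 := In_cast h23 (neg_add_eq_sub _ _)
  refine mulK_s he h21 h24 (fun _ _ _ _ _ h25 H16 => ?_) H15
  have h26 := cst (e1 := e1) (e2 := e2) (e3 := e3) 1152922054362660864 0 (1/2:ℝ) (by norm_num [SS, BB, abs_le])
  refine sqrtK_s he h20 (fun _ _ _ _ _ h27 H17 => ?_) H16
  refine smulK_s he (w := (1531/1250:ℝ)) (by norm_num) (by norm_num) (by norm_num) (by norm_num) h27 (fun _ _ _ _ _ h28 H18 => ?_) H17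
  refine subK_s he h26 h28 (fun _ _ _ _ _ h29 H19 => ?_) H18
  refine reluK_s he h29 (fun _ _ _ _ _ h30 H20 => ?_) H19
  refine subK_s he h26 h30 (fun _ _ _ _ _ h31 H21 => ?_) H20
  have h32 := In_cast h31 (min_rl _ _)
  refine mulK_s he h25 h32 (fun _ _ _ _ _ h33 H22 => ?_) H21
  refine sqK_s he h21 (fun _ _ _ _ _ h34 H23 => ?_) H22
  refine negK_s he h20 (fun _ _ _ _ _ h35 H24 => ?_) H23
  refine addcK_s he h35 (v' := (1:ℝ)) (by norm_num [SS, BB, abs_le]) (fun _ _ _ _ _ h36 H25 => ?_) H24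
  have h37 := In_cast h36 (neg_add_eq_sub _ _)
  refine mulK_s he h34 h37 (fun _ _ _ _ _ h38 H26 => ?_) H25
  refine addK_s he h33 h38 (fun _ _ _ _ _ h39 H27 => ?_) H26
  have h40 := In_cast (w := (v0 p r t)) h39 rfl
  refine addK_s he h20 h40 (fun _ _ _ _ _ h41 H28 => ?_) H27
  refine mulK_s he hx3 h41 (fun _ _ _ _ _ h42 H29 => ?_) H28
  refine negK_s he hx3 (fun _ _ _ _ _ h43 H30 => ?_) H29
  refine addcK_s he h43 (v' := (1:ℝ)) (by norm_num [SS, BB, abs_le]) (fun _ _ _ _ _ h44 H31 => ?_) H30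
  have h45 := In_cast h44 (neg_add_eq_sub _ _)
  refine mulK_s he h18 h45 (fun _ _ _ _ _ h46 H32 => ?_) H31
  have h47 := In_cast (w := (ee1 p r t)) h46 rfl
  refine sqrtK_s he h47 (fun _ _ _ _ _ h48 H33 => ?_) H32
  refine smulK_s he (w := (1531/1250:ℝ)) (by norm_num) (by norm_num) (by norm_num) (by norm_num) h48 (fun _ _ _ _ _ h49 H34 => ?_) H33
  refine subK_s he h26 h49 (fun _ _ _ _ _ h50 H35 => ?_) H34
  refine reluK_s he h50 (fun _ _ _ _ _ h51 H36 => ?_) H35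
  refine subK_s he h26 h51 (fun _ _ _ _ _ h52 H37 => ?_) H36
  have h53 := In_cast h52 (min_rl _ _)
  refine mulK_s he h25 h53 (fun _ _ _ _ _ h54 H38 => ?_) H37
  refine negK_s he h47 (fun _ _ _ _ _ h55 H39 => ?_) H38
  refine addcK_s he h55 (v' := (1:ℝ)) (by norm_num [SS, BB, abs_le]) (fun _ _ _ _ _ h56 H40 => ?_) H39
  have h57 := In_cast h56 (neg_add_eq_sub _ _)
  refine mulK_s he h34 h57 (fun _ _ _ _ _ h58 H41 => ?_) H40
  refine addK_s he h54 h58 (fun _ _ _ _ _ h59 H42 => ?_) H41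
  have h60 := In_cast (w := (v1 p r t)) h59 rfl
  refine addK_s he h47 h60 (fun _ _ _ _ _ h61 H43 => ?_) H42
  refine mulK_s he h45 h61 (fun _ _ _ _ _ h62 H44 => ?_) H43
  refine addK_s he h42 h62 (fun _ _ _ _ _ h63 H45 => ?_) H44
  refine mulK_s he h8 h63 (fun _ _ _ _ _ h64 H46 => ?_) H45
  refine subK_s he h16 h64 (fun _ _ _ _ _ h65 H47 => ?_) H46
  refine smulK_s he (w := (2:ℝ)) (by norm_num) (by norm_num) (by norm_num) (by norm_num) hx3 (fun _ _ _ _ _ h66 H48 => ?_) H47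
  refine addcK_s he h66 (v' := (-1:ℝ)) (by norm_num [SS, BB, abs_le]) (fun _ _ _ _ _ h67 H49 => ?_) H48
  have h68 := In_cast h67 (sub_c (c := (1:ℝ)) (by norm_num))
  have h69 := In_cast (w := (mu p r t)) h68 rfl
  refine mulK_s he h69 h18 (fun _ _ _ _ _ h70 H50 => ?_) H49
  have h71 := In_cast (w := (m p r t)) h70 rfl
  refine sqK_s he h71 (fun _ _ _ _ _ h72 H51 => ?_) H50
  refine negK_s he h72 (fun _ _ _ _ _ h73 H52 => ?_) H51
  refine addcK_s he h73 (v' := (1:ℝ)) (by norm_num [SS, BB, abs_le]) (fun _ _ _ _ _ h74 H53 => ?_) H52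
  have h75 := In_cast h74 (neg_add_eq_sub _ _)
  refine sqrtK_s he h75 (fun _ _ _ _ _ h76 H54 => ?_) H53
  have h77 := In_cast (w := (C p r t)) h76 rfl
  refine addcK_s he h77 (v' := (1:ℝ)) (by norm_num [SS, BB, abs_le]) (fun _ _ _ _ _ h78 H55 => ?_) H54
  have h79 := In_cast h78 (add_comm _ _)
  refine invK_s he h79 (fun _ _ _ _ _ h80 H56 => ?_) H55
  refine mulK_s he h69 h71 (fun _ _ _ _ _ h81 H57 => ?_) H56
  refine mulK_s he h81 h80 (fun _ _ _ _ _ h82 H58 => ?_) H57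
  have h83 := In_cast h82 ((div_eq_mul_inv _ _).symm)
  refine addK_s he h65 h83 (fun _ _ _ _ _ h84 H59 => ?_) H58
  exact pos_s he h84 H59

attribute [irreducible] alt0

noncomputable def leaf (j u z1 w1 z2 w2 z3 w3 : ℕ) : Bool :=
  alt0 z1 w1 z2 w2 z3 w3

theorem snd : Snd Q leaf := by
  intro j u z1 w1 z2 w2 z3 w3 e1 e2 e3 he H
  unfold leaf at H
  unfold Q
  exact alt0_s he (var1 z1 w1) (var2 z2 w2) (var3 z3 w3) H

end Crest.Agent.R307.HWcJ
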