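import Crest.Agent.R307.HWcJ
set_option autoImplicit false
set_option maxRecDepth 100000
namespace Crest.Agent.R307.HWcJ
open Crest.Agent.R307.IA Crest.Agent.R307.IA3

theorem k0 : Cov Q 1152922219289405030 1152922461181963142 1152921504606846976 1152921983993916687 1152921504606846976 1152922604118474752 :=
  cov_of snd 0 0 14 _ _ _ _ _ _ 0x3303302313303031233032033030133033023130330123313302330203303230133033023133003323130233203303012330330213303300330231330330223103323130330330231330023320330301330330231303301330303133033023123330203303012330330331220333023012330330213303302330330330023123102 (by decide +kernel)

end Crest.Agent.R307.HWcJ
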