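import Crest.Agent.R307.HWc
import Crest.Agent.R307.HWcHM
import Crest.Agent.R307.HWcJM

/-!
# R307/HWd: the dictator corner for lower noise
-/

set_option autoImplicit false

namespace Crest.Agent.R307

open Crest.CubeNoise

variable {n : ℕ}

noncomputable def hwK (ρ : ℝ) : ℝ := 1137 / 1000 - 31 / 50 * ρ + 67 / 50 * ρ ^ 2

theorem hwd_c {a w : ℝ} (hw : 0 ≤ w) : hwc (a * w ^ 2) = 2 * w * √(a * (1 - a * w ^ 2)) := by
  rw [hwc, show a * w ^ 2 * (1 - a * w ^ 2) = w ^ 2 * (a * (1 - a * w ^ 2)) by ring,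
    Real.sqrt_mul (sq_nonneg w), Real.sqrt_sq hw]
  ring

theorem hwd_d {c s D : ℝ} (hc : 0 ≤ c) (hs : 0 < s) (h : c ^ 2 - s ^ 2 = D) : c = s + D / (c + s) := by
  have : 0 < c + s := by linarith
  rw [← sub_eq_iff_eq_add', eq_div_iff this.ne']
  linarith

theorem hw_quad {ρ u : ℝ} (h0 : 13 / 20 ≤ ρ) (h1 : ρ ≤ 87 / 100) (hu0 : 0 ≤ u) (hu1 : u ≤ 1) :
    √(1 - ρ ^ 2) + (hwK ρ - √(1 - ρ ^ 2) - 3 / 1000) * u - hwK ρ * u ^ 2 ≤ hwG ρ u := by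
  set w := √(1 - u) with hw
  have w0 : 0 ≤ w := Real.sqrt_nonneg _
  have w2 : w ^ 2 = 1 - u := Real.sq_sqrt (by linarith)
  have w1 : w ≤ 1 := by nlinarith
  have hQ := HWcH.main ρ w h0 h1 w0 w1
  have hB : 0 < 1 - ρ ^ 2 := by nlinarith
  have hs : 0 < √(1 - ρ ^ 2) := Real.sqrt_pos.2 hB
  have hs2 : √(1 - ρ ^ 2) ^ 2 = 1 - ρ ^ 2 := Real.sq_sqrt hB.le
  have hu : HWcH.u ρ w = u := by rw [HWcH.u, w2]; ring
  unfold HWcH.Q at hQ
  rw [hu] at hQ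
  simp only [HWcH.al, HWcH.be, HWcH.s, HWcH.K] at hQ
  rw [hwG, ← w2, hwd_c w0, hwd_c w0, hwK]
  have p1 : 0 ≤ (1 + ρ) / 2 * (1 - (1 + ρ) / 2 * w ^ 2) := mul_nonneg (by linarith) (by nlinarith)
  have p2 : 0 ≤ (1 - ρ) / 2 * (1 - (1 - ρ) / 2 * w ^ 2) := mul_nonneg (by linarith) (by nlinarith)
  have q1 := Real.sq_sqrt p1
  have q2 := Real.sq_sqrt p2
  have r1 := Real.sqrt_nonneg ((1 + ρ) / 2 * (1 - (1 + ρ) / 2 * w ^ 2))
  have r2 := Real.sqrt_nonneg ((1 - ρ) / 2 * (1 - (1 - ρ) / 2 * w ^ 2))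
  set A := √((1 + ρ) / 2 * (1 - (1 + ρ) / 2 * w ^ 2)) with hA
  set B := √((1 - ρ) / 2 * (1 - (1 - ρ) / 2 * w ^ 2)) with hBd
  set s := √(1 - ρ ^ 2) with hsd
  have c1 : 2 * w * A = s + u * (4 * ((1 + ρ) / 2) * (ρ - (1 + ρ) / 2 * u)) / (2 * w * A + s) :=
    hwd_d (by positivity) hs (by rw [mul_pow, mul_pow, q1, hs2, w2]; ring)
  have c2 : 2 * w * B = s + -(u * (4 * ((1 - ρ) / 2) * (ρ + (1 - ρ) / 2 * u))) / (2 * w * B + s) :=
    hwd_d (by positivity) hs (by rw [mul_pow, mul_pow, q2, hs2, w2]; ring)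
  have h2 := mul_nonneg hu0 hQ.le
  have e : u * (2 * ((1 + ρ) / 2) * (ρ - (1 + ρ) / 2 * u) / (2 * w * A + s)
      - 2 * ((1 - ρ) / 2) * (ρ + (1 - ρ) / 2 * u) / (2 * w * B + s)
      - (1137 / 1000 - 31 / 50 * ρ + 67 / 50 * ρ ^ 2 - s - 3 / 1000)
      + (1137 / 1000 - 31 / 50 * ρ + 67 / 50 * ρ ^ 2) * u)
      = (u * (4 * ((1 + ρ) / 2) * (ρ - (1 + ρ) / 2 * u)) / (2 * w * A + s)
        + -(u * (4 * ((1 - ρ) / 2) * (ρ + (1 - ρ) / 2 * u))) / (2 * w * B + s)) / 2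
      - (1137 / 1000 - 31 / 50 * ρ + 67 / 50 * ρ ^ 2 - s - 3 / 1000) * u
      + (1137 / 1000 - 31 / 50 * ρ + 67 / 50 * ρ ^ 2) * u ^ 2 := by ring
  rw [e] at h2
  linarith

theorem hw_num2 {ρ e0 e1 : ℝ} (h0 : 13 / 20 ≤ ρ) (h1 : ρ ≤ 87 / 100) (he0 : 0 ≤ e0) (he1 : 0 ≤ e1)
    (he : e0 + e1 ≤ 19 / 100) :
    √(1 - (e0 - e1) ^ 2) - 1 ≤ (hwK ρ - √(1 - ρ ^ 2) - 3 / 1000) * (e0 + e1)
      - hwK ρ * (e0 ^ 2 + hwV ρ e0 + (e1 ^ 2 + hwV ρ e1)) := by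
  have hη : 0 ≤ e0 + e1 := by linarith
  set r := √(e0 + e1) with hr
  set t := e0 / (e0 + e1) with ht
  have het : HWcJ.et ρ r t = e0 + e1 := by rw [HWcJ.et, hr, Real.sq_sqrt hη]
  have hηt : (e0 + e1) * t = e0 := by
    rcases hη.eq_or_lt with h | h
    · rw [← h]; linarith
    · rw [ht]; field_simp
  have h4 : (e0 + e1) * (1 - t) = e1 := by linarith
  have hee0 : HWcJ.ee0 ρ r t = e0 := by rw [HWcJ.ee0, het, hηt]
  have hee1 : HWcJ.ee1 ρ r t = e1 := by rw [HWcJ.ee1, het]; linarith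
  have hm : HWcJ.m ρ r t = e0 - e1 := by rw [HWcJ.m, het, HWcJ.mu]; linarith
  have hQ := HWcJ.main ρ r t h0 h1 (Real.sqrt_nonneg _)
    (by rw [hr]; exact Real.sqrt_le_iff.2 ⟨by norm_num, by linarith⟩) (div_nonneg he0 hη)
    (div_le_one_of_le₀ (by linarith) hη)
  have hV0 : hwV ρ e0 = e0 * HWcJ.v0 ρ r t := by rw [HWcJ.v0, hee0]; rfl
  have hV1 : hwV ρ e1 = e1 * HWcJ.v1 ρ r t := by rw [HWcJ.v1, hee1]; rfl
  have hC : HWcJ.C ρ r t = √(1 - (e0 - e1) ^ 2) := by rw [HWcJ.C, hm]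
  have hC2 : HWcJ.C ρ r t ^ 2 = 1 - (e0 - e1) ^ 2 := by
    rw [hC, Real.sq_sqrt]; nlinarith
  have hC0 : 0 < 1 + HWcJ.C ρ r t := by rw [hC]; positivity
  have h2 : (e0 + e1) * (HWcJ.mu ρ r t * HWcJ.m ρ r t / (1 + HWcJ.C ρ r t)) = 1 - HWcJ.C ρ r t := by
    have h3 : (e0 + e1) * HWcJ.mu ρ r t = e0 - e1 := by rw [HWcJ.mu]; linarith
    rw [← mul_div_assoc, ← mul_assoc, h3, hm, div_eq_iff hC0.ne']
    linarith
  unfold HWcJ.Q at hQ
  have h5 := mul_nonneg hη hQ.le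
  have hK : HWcJ.K ρ r t = hwK ρ := rfl
  have hs : HWcJ.s ρ r t = √(1 - ρ ^ 2) := rfl
  rw [hK, hs, hee0, hee1, mul_add, h2] at h5
  have e : (e0 + e1) * (hwK ρ - √(1 - ρ ^ 2) - 3 / 1000
      - hwK ρ * (t * (e0 + HWcJ.v0 ρ r t) + (1 - t) * (e1 + HWcJ.v1 ρ r t)))
      = (hwK ρ - √(1 - ρ ^ 2) - 3 / 1000) * (e0 + e1) - hwK ρ * (((e0 + e1) * t) * (e0 + HWcJ.v0 ρ r t)
        + ((e0 + e1) * (1 - t)) * (e1 + HWcJ.v1 ρ r t)) := by ring
  rw [e, hηt, h4] at h5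
  rw [hV0, hV1, ← hC]
  linarith

theorem hw_corner2 {ρ : ℝ} (h0 : 13 / 20 ≤ ρ) (h1 : ρ ≤ 87 / 100) {f : (Fin (n + 1) → Bool) → ℝ}
    (hf : ∀ x, f x = 1 ∨ f x = -1) (h : 81 / 100 ≤ co f 0) : HN ρ f := by
  set f0 := sl f false with hf0
  set f1 := sl f true with hf1
  have s0 : ∀ x, -f0 x = 1 ∨ -f0 x = -1 := fun x => by
    rcases hf (Fin.cons false x) with e | e
    · right; rw [hf0, sl, e]
    · left; rw [hf0, sl, e, neg_neg]
  have s1 : ∀ x, f1 x = 1 ∨ f1 x = -1 := fun x => hf _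
  have a0 : ∀ x, |f0 x| ≤ 1 := fun x => by
    rw [← abs_neg]; rcases s0 x with e | e <;> rw [e] <;> norm_num
  have a1 : ∀ x, |f1 x| ≤ 1 := fun x => by rcases s1 x with e | e <;> rw [e] <;> norm_num
  have hρ1 : |ρ| ≤ 1 := abs_le.2 ⟨by linarith, by linarith⟩
  have hρ2 : ρ ^ 2 ≤ 1 := by nlinarith
  set e0 := (1 + cubeAverage f0) / 2 with he0
  set e1 := (1 - cubeAverage f1) / 2 with he1
  have p0 : 0 ≤ e0 := by
    have := le_avg fun x => (abs_le.1 (a0 x)).1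
    linarith
  have p1 : 0 ≤ e1 := by
    have := avg_le fun x => (abs_le.1 (a1 x)).2
    linarith
  have hsum : e0 + e1 ≤ 19 / 100 := by
    rw [co_zero] at h
    linarith
  have hm : cubeAverage f = e0 - e1 := by rw [avg_succ]; linarith
  have hnum := hw_num2 h0 h1 p0 p1 hsum
  have hK0 : 0 ≤ hwK ρ := by unfold hwK; nlinarith
  set K := hwK ρ
  set L := K - √(1 - ρ ^ 2) - 3 / 1000 with hL
  set z0 : (Fin n → Bool) → ℝ := fun x => (1 + noise ρ f0 x) / 2 - e0 with hz0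
  set z1 : (Fin n → Bool) → ℝ := fun x => (1 - noise ρ f1 x) / 2 - e1 with hz1
  have m0 : cubeAverage z0 = 0 := by
    simp only [hz0, avg_sub, avg_div, avg_add, avg_const]
    rw [avg_noise]
    linarith
  have m1 : cubeAverage z1 = 0 := by
    simp only [hz1, avg_sub, avg_div, avg_const]
    rw [avg_noise]
    linarith
  have v0 : (cubeAverage fun x => z0 x ^ 2) ≤ hwV ρ e0 := by
    have := hw_var (e := e0) hρ2 s0 (by rw [avg_neg]; linarith) (by linarith)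
    have e : ∀ x, noise ρ (fun y => -f0 y) x = -noise ρ f0 x := fun x => by
      simpa using noise_affine ρ (-1) 0 f0 x
    simpa only [e, sub_neg_eq_add] using this
  have v1 : (cubeAverage fun x => z1 x ^ 2) ≤ hwV ρ e1 :=
    hw_var hρ2 s1 (by linarith) (by linarith)
  have pt : ∀ x, (√(1 - ρ ^ 2) + L * (e0 + e1) - K * (e0 ^ 2 + e1 ^ 2)) + (L - 2 * K * e0) * z0 x
      + (L - 2 * K * e1) * z1 x - K * z0 x ^ 2 - K * z1 x ^ 2 ≤
      (sl (fun x => √(1 - noise ρ f x ^ 2)) false x +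
        sl (fun x => √(1 - noise ρ f x ^ 2)) true x) / 2 := by
    intro x
    have b0 := abs_le.1 (abs_noise_le hρ1 a0 x)
    have b1 := abs_le.1 (abs_noise_le hρ1 a1 x)
    have n0 := noise_sl ρ f false x
    have n1 := noise_sl ρ f true x
    rw [← hf0, ← hf1] at n0 n1
    simp only [sl, spin, if_true, Bool.false_eq_true, if_false] at n0 n1 ⊢
    set u := (1 + noise ρ f0 x) / 2 with hu
    set v := (1 - noise ρ f1 x) / 2 with hv
    have u0 : 0 ≤ u := by linarith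
    have u1 : u ≤ 1 := by linarith
    have w0 : 0 ≤ v := by linarith
    have w1 : v ≤ 1 := by linarith
    have g0 : (1 + noise ρ f (Fin.cons false x)) / 2 = (1 + ρ) / 2 * u + (1 - ρ) / 2 * (1 - v) := by
      rw [n0, hu, hv]; ring
    have g1 : (1 + noise ρ f (Fin.cons true x)) / 2 = (1 - ρ) / 2 * u + (1 + ρ) / 2 * (1 - v) := by
      rw [n1, hu, hv]; ring
    rw [hwc_sqrt (noise ρ f _), hwc_sqrt (noise ρ f _), g0, g1]
    have c1 := hw_super (by linarith : 0 ≤ ρ) (by linarith) u0 u1 w0 w1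
    have c2 := hw_quad h0 h1 u0 u1
    have c3 := hw_quad h0 h1 w0 w1
    have c4 : 0 ≤ (1 - ρ ^ 2) * (u * v) := mul_nonneg (by linarith) (mul_nonneg u0 w0)
    have z0e : z0 x = u - e0 := rfl
    have z1e : z1 x = v - e1 := rfl
    rw [z0e, z1e]
    linear_combination c1 + c2 + c3 + c4
  have hav := avg_mono pt
  rw [avg_div, avg_add, ← avg_succ, avg_sub, avg_sub, avg_add, avg_add, avg_const, avg_mul, avg_mul,
    avg_mul, avg_mul, m0, m1] at hav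
  have d0 := mul_le_mul_of_nonneg_left v0 hK0
  have d1 := mul_le_mul_of_nonneg_left v1 hK0
  rw [HN, hm]
  refine le_trans ?_ hav
  linarith

end Crest.Agent.R307
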