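import Crest.Agent.R307.HWd
import Crest.Agent.R307.HNz

/-!
# R307/HWz: reduction of the window to small level-one weight
-/

set_option autoImplicit false

namespace Crest.Agent.R307

open Crest.CubeNoise

theorem hwz_corner {ρ : ℝ} (h0 : 3 / 10 ≤ ρ) (h1 : ρ ≤ 87 / 100) {n : ℕ} {f : (Fin (n + 1) → Bool) → ℝ}
    (hf : ∀ x, f x = 1 ∨ f x = -1) (h : 81 / 100 ≤ co f 0) : HN ρ f := by
  rcases le_total ρ (13 / 20) with h2 | h2
  · exact hw_corner h0 (by linarith) hf h
  · exact hw_corner2 h2 h1 hf h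

/-- For `3/10 ≤ ρ ≤ 87/100` it is enough to treat functions with small level-one weight and nonnegative mean. -/
theorem hw_core {ρ : ℝ} (h0 : 3 / 10 ≤ ρ) (h1 : ρ ≤ 87 / 100)
    (main : ∀ (n : ℕ) (f : (Fin n → Bool) → ℝ), (∀ x, f x = 1 ∨ f x = -1) → 0 ≤ cubeAverage f → W1 f ≤ 4 / 5 → HN ρ f) :
    XCore ρ := by
  have small : ∀ (n : ℕ) (f : (Fin n → Bool) → ℝ), (∀ x, f x = 1 ∨ f x = -1) → W1 f ≤ 4 / 5 → HN ρ f := by
    intro n f hf hW
    rcases le_total 0 (cubeAverage f) with h | h
    · exact main n f hf h hW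
    · refine HN_neg (main n _ (hnz_neg hf) ?_ ?_)
      · rw [avg_neg]; linarith
      · rwa [W1_neg]
  have all : ∀ (n : ℕ) (f : (Fin n → Bool) → ℝ), (∀ x, f x = 1 ∨ f x = -1) → HN ρ f := by
    intro n f hf
    cases n with
    | zero => exact small 0 f hf (by simp [W1]; norm_num)
    | succ n =>
      obtain ⟨i, -, hi⟩ := Finset.exists_max_image Finset.univ (fun i => |co f i|) Finset.univ_nonempty
      refine HN_swap (Equiv.swap 0 i) ?_
      have hf' : ∀ x : Fin (n + 1) → Bool, f (x ∘ Equiv.swap 0 i) = 1 ∨ f (x ∘ Equiv.swap 0 i) = -1 := fun x => hf _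
      have e0 : co (fun x => f (x ∘ Equiv.swap 0 i)) 0 = co f i := by
        have := co_swap (Equiv.swap 0 i) f i
        rwa [Equiv.swap_apply_right] at this
      have hmax : ∀ j, |co (fun x => f (x ∘ Equiv.swap 0 i)) j| ≤ |co (fun x => f (x ∘ Equiv.swap 0 i)) 0| := fun j => by
        have := co_swap (Equiv.swap 0 i) f (Equiv.swap 0 i j)
        rw [Equiv.swap_apply_self] at this
        rw [this, e0]
        exact hi _ (Finset.mem_univ _)
      rcases le_total |co (fun x => f (x ∘ Equiv.swap 0 i)) 0| (81 / 100) with h | h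
      · exact small _ _ hf' (W1_case hf' hmax h)
      · rcases le_abs.1 h with h | h
        · exact hwz_corner h0 h1 hf' h
        · refine HN_neg (hwz_corner h0 h1 (hnz_neg hf') ?_)
          rwa [co_neg]
  intro n u hu
  have h := all n (fun y => 2 * u y + -1) fun y => by
    rcases hu y with a | a <;> rw [a] <;> norm_num
  unfold HN at h
  rw [avg_add, avg_mul, avg_const, xind_sqrt] at h
  simp only [noise_affine, xind_sqrt] at h
  linarith

end Crest.Agent.R307
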