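import Mathlib.Analysis.SpecialFunctions.Log.Basic
import Mathlib.Analysis.SpecialFunctions.Pow.Real
import Mathlib.Analysis.Complex.ExponentialBounds
import Mathlib.Tactic

set_option autoImplicit false
set_option linter.unusedVariables false
namespace Crest.Agent.R307.IA

noncomputable def SS : ℝ := 1099511627776
noncomputable def BB : ℝ := 1152921504606846976
noncomputable def val (x : ℕ) : ℝ := ((x:ℝ) - BB) / SS
theorem SS_pos : 0 < SS := by unfold SS; norm_num
theorem BB_cast : ((1152921504606846976 : ℕ) : ℝ) = BB := by unfold BB; norm_num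
theorem SS_cast : ((1099511627776 : ℕ) : ℝ) = SS := by unfold SS; norm_num

noncomputable def fB (z : ℕ) (k : ℕ → Bool) : Bool := @Nat.rec (fun _ => Bool) false (fun m _ => k m) z
noncomputable def sB (z : ℕ) (a : Bool) (k : ℕ → Bool) : Bool := @Nat.rec (fun _ => Bool) a (fun m _ => k m) z
noncomputable def iB (b k l : Bool) : Bool := @Bool.rec (fun _ => Bool) k l b
noncomputable def fN (z : ℕ) (k : ℕ → ℕ) : ℕ := @Nat.rec (fun _ => ℕ) 0 (fun m _ => k m) z
noncomputable def sN (z a : ℕ) (k : ℕ → ℕ) : ℕ := @Nat.rec (fun _ => ℕ) a (fun m _ => k m) z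
noncomputable def iN (b : Bool) (k : ℕ) : ℕ := @Bool.rec (fun _ => ℕ) 0 k b

theorem frc {z : ℕ} {k : ℕ → Bool} (H : fB z k = true) : ∃ m, z = m + 1 ∧ k m = true := by
  cases z with
  | zero => exact absurd H (by simp [fB])
  | succ m => exact ⟨m, rfl, H⟩

theorem brc {b k : Bool} (H : iB b false k = true) : b = true ∧ k = true := by
  cases b
  · exact absurd H (by simp [iB])
  · exact ⟨rfl, H⟩

theorem brc2 {b k l : Bool} (H : iB b k l = true) :
    (b = false ∧ k = true) ∨ (b = true ∧ l = true) := by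
  cases b
  · exact Or.inl ⟨rfl, H⟩
  · exact Or.inr ⟨rfl, H⟩

theorem sel {z : ℕ} {a : Bool} {k : ℕ → Bool} (H : sB z a k = true) :
    a = true ∨ ∃ m, k m = true := by
  cases z with
  | zero => exact Or.inl H
  | succ m => exact Or.inr ⟨m, H⟩

theorem frc2 {z : ℕ} {a : Bool} {k : ℕ → Bool} (H : sB z a k = true) :
    (z = 0 ∧ a = true) ∨ ∃ m, z = m + 1 ∧ k m = true := by
  cases z with
  | zero => exact Or.inl ⟨rfl, H⟩
  | succ m => exact Or.inr ⟨m, rfl, H⟩

theorem nrc {z a : ℕ} {k : ℕ → ℕ} (H : sN z a k ≠ 0) : a ≠ 0 ∨ ∃ m, k m ≠ 0 := by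
  cases z with
  | zero => exact Or.inl H
  | succ m => exact Or.inr ⟨m, H⟩

theorem nrc1 {z : ℕ} {k : ℕ → ℕ} (H : fN z k ≠ 0) : ∃ m, z = m + 1 ∧ k m ≠ 0 := by
  cases z with
  | zero => exact absurd rfl H
  | succ m => exact ⟨m, rfl, H⟩

theorem nrc0 {z : ℕ} {k : ℕ → ℕ} (H : fN z k ≠ 0) : ∃ m, k m ≠ 0 := by
  obtain ⟨m, _, h⟩ := nrc1 H; exact ⟨m, h⟩

theorem brc0 {b : Bool} {k : ℕ} (H : iN b k ≠ 0) : b = true := by
  cases b
  · exact absurd rfl H
  · rfl

attribute [irreducible] fB sB iB fN sN iN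

theorem lane_le {a e s : ℝ} (h : |a| ≤ s) (he : |e| ≤ 1) : |a * e| ≤ s := by
  rw [abs_mul]; nlinarith [abs_nonneg a, abs_nonneg e]

theorem lane_le2 {a b s t : ℝ} (h : |a| ≤ s) (h' : |b| ≤ t) : |a * b| ≤ s * t := by
  rw [abs_mul]; exact mul_le_mul h h' (abs_nonneg _) ((abs_nonneg _).trans h)

theorem scal_le {w a r : ℝ} (hw : 0 ≤ w) (h : |a| ≤ r) : |w * a| ≤ w * r := by
  rw [abs_mul, abs_of_nonneg hw]; exact mul_le_mul_of_nonneg_left h hw

theorem abs_le_of_SS {a q : ℝ} (h : |SS * a| ≤ SS * q) : |a| ≤ q := by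
  rw [abs_mul, abs_of_pos SS_pos] at h; exact le_of_mul_le_mul_left h SS_pos

theorem ab_ge (y : ℕ) : |(y:ℝ) - BB| ≤ ((Nat.add (Nat.sub y 1152921504606846976) (Nat.sub 1152921504606846976 y) : ℕ) : ℝ) := by
  rw [← BB_cast]
  generalize 1152921504606846976 = b
  simp only [Nat.add_eq, Nat.sub_eq]
  rcases le_total y b with h | h
  · rw [Nat.sub_eq_zero_of_le h, zero_add, Nat.cast_sub h, abs_sub_comm, abs_of_nonneg]
    exact sub_nonneg.2 (by exact_mod_cast h)
  · rw [Nat.sub_eq_zero_of_le h, add_zero, Nat.cast_sub h, abs_of_nonneg]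
    exact sub_nonneg.2 (by exact_mod_cast h)

theorem add_spec {x x' c : ℕ} (h : Nat.sub (Nat.add x x') 1152921504606846975 = c + 1) : (c:ℝ) = x + x' - BB := by
  simp only [Nat.add_eq, Nat.sub_eq] at h
  have : c + 1152921504606846976 = x + x' := by omega
  have : (c:ℝ) + (1152921504606846976:ℕ) = x + x' := by exact_mod_cast this
  rw [BB_cast] at this; linarith

theorem addq_spec {r r' q : ℕ} (h : Nat.add (Nat.add r r') 1 = q + 1) : (q:ℝ) = r + r' := by
  simp only [Nat.add_eq] at h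
  have : q = r + r' := by omega
  exact_mod_cast this

theorem succ_spec {a p : ℕ} (h : Nat.add a 1 = p + 1) : a = p := by
  simp only [Nat.add_eq] at h; omega

theorem sub_spec {x x' c : ℕ} (h : Nat.sub (Nat.add x 1152921504606846977) x' = c + 1) : (c:ℝ) = x - x' + BB := by
  simp only [Nat.add_eq, Nat.sub_eq] at h
  have : c + x' = x + 1152921504606846976 := by omega
  have : (c:ℝ) + x' = x + (1152921504606846976:ℕ) := by exact_mod_cast this
  rw [BB_cast] at this; linarith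

theorem neg_spec {x c : ℕ} (h : Nat.sub 2305843009213693953 x = c + 1) : (c:ℝ) = 2 * BB - x := by
  simp only [Nat.sub_eq] at h
  have : c + x = 2 * 1152921504606846976 := by omega
  have : (c:ℝ) + x = 2 * (1152921504606846976:ℕ) := by exact_mod_cast this
  rw [BB_cast] at this; linarith

theorem div_spec {A D m c : ℕ} (hm : 0 < m) (h : (A - D) / m = c + 1) :
    (m:ℝ) * (c + 1) ≤ A - D ∧ (A:ℝ) - D ≤ m * (c + 2) := by
  have h1 := Nat.div_add_mod (A - D) m
  have h2 := Nat.mod_lt (A - D) hm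
  rw [h] at h1
  have h3 : D ≤ A := by
    by_contra hh
    have : A - D = 0 := by omega
    rw [this] at h; simp at h
  have h4 : ((A - D : ℕ) : ℝ) = A - D := Nat.cast_sub h3
  rw [← h4, ← h1]
  have h5 : (((A - D) % m : ℕ) : ℝ) < m := by exact_mod_cast h2
  have h6 : (0:ℝ) ≤ ((A - D) % m : ℕ) := Nat.cast_nonneg _
  push_cast [-Nat.cast_sub]
  constructor <;> nlinarith

theorem div_ge {A m : ℕ} (hm : 0 < m) : (A:ℝ) ≤ m * ((A / m : ℕ) + 1) := by
  have h1 := Nat.div_add_mod A m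
  have h2 := Nat.mod_lt A hm
  have h5 : ((A % m : ℕ) : ℝ) < m := by exact_mod_cast h2
  have h4 : (A:ℝ) = m * (A / m : ℕ) + (A % m : ℕ) := by exact_mod_cast h1.symm
  nlinarith

theorem shr_eq (a k : ℕ) : Nat.shiftRight a k = a / 2 ^ k := Nat.shiftRight_eq_div_pow a k

theorem smul_spec {n m K D y c : ℕ} {w : ℝ} (hm : 0 < m) (hK : K = m * 1152921504606846976 + m) (hD : D = n * 1152921504606846976)
    (hw : w = (n:ℝ) / m) (h : Nat.div (Nat.sub (Nat.add (Nat.mul n y) K) D) m = c + 1) :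
    |w * ((y:ℝ) - BB) - ((c:ℝ) - BB)| ≤ 1 := by
  have h' := div_spec hm (A := n * y + K) (D := D) h
  have hm' : (0:ℝ) < m := by exact_mod_cast hm
  subst hK hD
  push_cast at h'
  rw [show (1152921504606846976:ℝ) = BB from rfl] at h'
  have e : w * ((y:ℝ) - BB) - ((c:ℝ) - BB) = (n * (y - BB) - m * (c - BB)) / m := by rw [hw]; field_simp
  rw [e, abs_le, le_div_iff₀ hm', div_le_iff₀ hm']
  constructor <;> nlinarith [h'.1, h'.2]

theorem nsmul_spec {n m K y c : ℕ} {w : ℝ} (hm : 0 < m) (hK : K = m * 1152921504606846976 + m + n * 1152921504606846976)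
    (hw : w = (n:ℝ) / m) (h : Nat.div (Nat.sub K (Nat.mul n y)) m = c + 1) :
    |-w * ((y:ℝ) - BB) - ((c:ℝ) - BB)| ≤ 1 := by
  have h' := div_spec hm (A := K) (D := n * y) h
  have hm' : (0:ℝ) < m := by exact_mod_cast hm
  subst hK
  push_cast at h'
  rw [show (1152921504606846976:ℝ) = BB from rfl] at h'
  have e : -w * ((y:ℝ) - BB) - ((c:ℝ) - BB) = (-n * (y - BB) - m * (c - BB)) / m := by rw [hw]; field_simp
  rw [e, abs_le, le_div_iff₀ hm', div_le_iff₀ hm']
  constructor <;> nlinarith [h'.1, h'.2]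

theorem divq {n m r : ℕ} {w : ℝ} (hm : 0 < m) (hw : w = (n:ℝ) / m) :
    w * r ≤ ((Nat.div (Nat.mul n r) m : ℕ) : ℝ) + 1 := by
  have h := div_ge (A := n * r) hm
  have hm' : (0:ℝ) < m := by exact_mod_cast hm
  rw [hw, div_mul_eq_mul_div, div_le_iff₀ hm']
  rw [Nat.cast_mul] at h
  have e : Nat.div (Nat.mul n r) m = n * r / m := rfl
  rw [e]; linarith

theorem smulq_spec {n m r j q : ℕ} {w : ℝ} (hm : 0 < m) (hw : w = (n:ℝ) / m)
    (h : Nat.add (Nat.div (Nat.mul n r) m) j = q + 1) : w * r + j - 2 ≤ q := by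
  have h1 := divq (r := r) hm hw
  have h2 : ((Nat.div (Nat.mul n r) m : ℕ) : ℝ) + j = q + 1 := by exact_mod_cast h
  linarith

theorem linq_spec {n m r s j q : ℕ} {w : ℝ} (hm : 0 < m) (hw : w = (n:ℝ) / m)
    (h : Nat.add (Nat.add (Nat.div (Nat.mul n r) m) s) j = q + 1) : w * r + s + j - 2 ≤ q := by
  have h1 := divq (r := r) hm hw
  have h2 : ((Nat.div (Nat.mul n r) m : ℕ) : ℝ) + s + j = q + 1 := by exact_mod_cast h
  linarith

theorem K_spec {m K : ℕ} (h : Nat.add (Nat.mul m 1152921504606846977) 1 = K + 1) : K = m * 1152921504606846976 + m := by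
  simp only [Nat.add_eq, Nat.mul_eq] at h; omega
theorem D_spec {n D : ℕ} (h : Nat.add (Nat.mul n 1152921504606846976) 1 = D + 1) : D = n * 1152921504606846976 := by
  simp only [Nat.add_eq, Nat.mul_eq] at h; omega
theorem K2_spec {n m K : ℕ} (h : Nat.add (Nat.add (Nat.mul m 1152921504606846977) (Nat.mul n 1152921504606846976)) 1 = K + 1) :
    K = m * 1152921504606846976 + m + n * 1152921504606846976 := by
  simp only [Nat.add_eq, Nat.mul_eq] at h; omega

theorem mulc_spec {x x' c : ℕ}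
    (h : Nat.shiftRight (Nat.sub (Nat.add (Nat.mul x x') 1329229263435516101133209656495177728) (Nat.mul 1152921504606846976 (Nat.add x x'))) 40 = c + 1) :
    |((x:ℝ) - BB) * (x' - BB) - SS * (c - BB)| ≤ SS := by
  rw [shr_eq] at h
  have h' := div_spec (by norm_num) (A := x * x' + 1329229263435516101133209656495177728) (D := 1152921504606846976 * (x + x')) h
  push_cast at h'
  unfold SS BB
  rw [abs_le]; constructor <;> nlinarith [h'.1, h'.2]

theorem mula_spec {x x' y z a : ℕ}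
    (h : Nat.shiftRight (Nat.sub (Nat.add (Nat.add (Nat.mul x z) (Nat.mul x' y)) 2658457259220431974037016716775522304)
      (Nat.mul 1152921504606846976 (Nat.add (Nat.add x x') (Nat.add y z)))) 40 = a + 1) :
    |((x:ℝ) - BB) * (z - BB) + (x' - BB) * (y - BB) - SS * (a - BB)| ≤ SS := by
  rw [shr_eq] at h
  have h' := div_spec (by norm_num) (A := x * z + x' * y + 2658457259220431974037016716775522304) (D := 1152921504606846976 * (x + x' + (y + z))) h
  push_cast at h'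
  unfold SS BB
  rw [abs_le]; constructor <;> nlinarith [h'.1, h'.2]

theorem mulq_spec {A A' r r' R R' j q : ℕ}
    (h : Nat.add (Nat.shiftRight (Nat.add (Nat.add (Nat.mul A r') (Nat.mul A' r)) (Nat.mul R R')) 40) j = q + 1) :
    (A:ℝ) * r' + A' * r + R * R' + SS * (j - 2) ≤ SS * q := by
  rw [shr_eq] at h
  have h1 := div_ge (A := A * r' + A' * r + R * R') (m := 2 ^ 40) (by norm_num)
  have h2 : (((A * r' + A' * r + R * R') / 2 ^ 40 : ℕ) : ℝ) + j = q + 1 := by exact_mod_cast h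
  generalize (A * r' + A' * r + R * R') / 2 ^ 40 = u at h1 h2
  push_cast at h1
  unfold SS; nlinarith

theorem sqq_spec {A r g j q : ℕ}
    (h : Nat.add (Nat.add (Nat.shiftRight (Nat.mul A r) 39) g) j = q + 1) :
    2 * ((A:ℝ) * r) + SS * g + SS * (j - 2) ≤ SS * q := by
  rw [shr_eq] at h
  have h1 := div_ge (A := A * r) (m := 2 ^ 39) (by norm_num)
  have h2 : (((A * r) / 2 ^ 39 : ℕ) : ℝ) + g + j = q + 1 := by exact_mod_cast h
  generalize (A * r) / 2 ^ 39 = u at h1 h2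
  push_cast at h1
  unfold SS; nlinarith

theorem sqg_spec {p g : ℕ} {a : ℝ} (h : Nat.add (Nat.shiftRight (Nat.mul p p) 41) 2 = g + 1)
    (ha : |a| ≤ p) : -(SS * g) ≤ a * a - SS * g ∧ a * a - SS * g ≤ SS * g := by
  rw [shr_eq] at h
  have h1 := div_ge (A := p * p) (m := 2 ^ 41) (by norm_num)
  have h2 : (((p * p) / 2 ^ 41 : ℕ) : ℝ) + 2 = g + 1 := by exact_mod_cast h
  generalize (p * p) / 2 ^ 41 = u at h1 h2
  push_cast at h1
  have h3 := abs_le.1 (lane_le2 ha ha)
  unfold SS; constructor <;> nlinarith [mul_self_nonneg a, h3.2]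

theorem pos_spec {x p : ℕ} {v : ℝ} (h : |SS * v - ((x:ℝ) - BB)| ≤ p)
    (H : Nat.ble (Nat.add p 1152921504606846977) x = true) : 0 < v := by
  have h1 : p + 1152921504606846977 ≤ x := Nat.le_of_ble_eq_true H
  have h2 : (p:ℝ) + 1152921504606846977 ≤ x := by exact_mod_cast h1
  have h3 := (abs_le.1 h).1
  have : 0 < SS * v := by unfold BB at h3; linarith
  exact pos_of_mul_pos_left' this
where pos_of_mul_pos_left' {v : ℝ} (h : 0 < SS * v) : 0 < v := (pos_iff_pos_of_mul_pos h).1 SS_pos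

theorem mid_spec {l h : ℕ} {x : ℝ} (p : val l ≤ x) (q : x ≤ val h) :
    ∃ e : ℝ, |e| ≤ 1 ∧ x = val (Nat.shiftRight (Nat.add l h) 1) +
      ((Nat.sub h (Nat.shiftRight (Nat.add l h) 1) : ℕ) : ℝ) / SS * e := by
  have hS := SS_pos
  have hlh : l ≤ h := by
    have : val l ≤ val h := p.trans q
    unfold val at this
    have := (div_le_div_iff_of_pos_right hS).1 this
    have : (l:ℝ) ≤ h := by linarith
    exact_mod_cast this
  rw [shr_eq]
  simp only [Nat.add_eq, Nat.sub_eq, pow_one]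
  obtain ⟨c, hc⟩ : ∃ c, c = (l + h) / 2 := ⟨_, rfl⟩
  rw [← hc]
  obtain ⟨a, ha⟩ : ∃ a, a = h - c := ⟨_, rfl⟩
  rw [← ha]
  have h1 : (h:ℝ) = c + a := by exact_mod_cast (by omega : h = c + a)
  have h2 : (c:ℝ) ≤ l + a := by exact_mod_cast (by omega : c ≤ l + a)
  unfold val at *
  rw [div_le_iff₀ hS] at p
  rw [le_div_iff₀ hS] at q
  rcases Nat.eq_zero_or_pos a with h0 | h0
  · refine ⟨0, by simp, ?_⟩
    subst h0
    simp only [Nat.cast_zero, add_zero, mul_zero] at *
    rw [eq_div_iff hS.ne']; linarith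
  · have ha' : (0:ℝ) < a := by exact_mod_cast h0
    refine ⟨(x * SS - (c - BB)) / a, ?_, by field_simp; ring⟩
    rw [abs_le, le_div_iff₀ ha', div_le_iff₀ ha']
    constructor <;> linarith

/-! ### scalar parts of the unary nodes -/

noncomputable def invS (x p : ℕ) (k : ℕ → ℕ → ℕ → ℕ → Bool) : Bool :=
  fB (Nat.sub x (Nat.add p 1152921504606846976)) fun l =>
  fB (Nat.add (Nat.div 1208925819614629174706176 (Nat.sub x 1152921504606846976)) 1) fun t =>
  fB (Nat.sub 1208925819614629174706177 (Nat.mul t (Nat.add l 1))) fun M =>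
  fB (Nat.add (Nat.div (Nat.mul M M) (Nat.mul 2417851639229258349412352 (Nat.add l 1))) 2) fun g =>
  fB (Nat.add (Nat.mul t t) 1) fun n =>
    k n 1208925819614629174706176 (Nat.add (Nat.add 1152921504606846976 (Nat.add t t)) g) g

theorem invS_s {x p : ℕ} {v : ℝ} {k : ℕ → ℕ → ℕ → ℕ → Bool} {G : Prop}
    (h : |SS * v - ((x:ℝ) - BB)| ≤ p)
    (hk : ∀ n m u s : ℕ, 0 < m → |SS * v⁻¹ + (n:ℝ) / m * (SS * v) - ((u:ℝ) - BB)| ≤ s → k n m u s = true → G)
    (H : invS x p k = true) : G := by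
  unfold invS at H
  generalize h1 : (1208925819614629174706177:ℕ) = s1 at H
  generalize h2 : (2417851639229258349412352:ℕ) = s2 at H
  generalize h0 : (1208925819614629174706176:ℕ) = s0 at H
  generalize hB : (1152921504606846976:ℕ) = b at H
  have hb : (b:ℝ) = BB := by rw [← hB]; exact BB_cast
  have hs0 : (s0:ℝ) = SS * SS := by rw [← h0]; unfold SS; norm_num
  have h1' : s1 = s0 + 1 := by rw [← h1, ← h0]
  have h2' : s2 = 2 * s0 := by rw [← h2, ← h0]
  have hs0p : 0 < s0 := by rw [← h0]; norm_num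
  clear h0 h1 h2 hB
  subst h1' h2'
  replace H := frc H
  obtain ⟨l, hl, H⟩ := H
  replace H := frc H
  obtain ⟨t, ht, H⟩ := H
  replace H := frc H
  obtain ⟨M, hM, H⟩ := H
  replace H := frc H
  obtain ⟨g, hg, H⟩ := H
  replace H := frc H
  obtain ⟨n, hn, H⟩ := H
  refine hk _ _ _ _ hs0p ?_ H
  clear H hk
  simp only [Nat.add_eq, Nat.sub_eq, Nat.mul_eq] at hl ht hM hg hn ⊢
  have hx : x - b = l + 1 + p := by omega
  have hxr : (x:ℝ) - BB = l + 1 + p := by
    have : x = b + (l + 1 + p) := by omega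
    rw [this]; push_cast; rw [hb]; ring
  have ht' : t * (l + 1 + p) ≤ s0 := by
    have : t = s0 / (l + 1 + p) := by rw [← hx]; exact (Nat.succ.inj ht).symm
    rw [this]; exact Nat.div_mul_le_self _ _
  have ht2 : (t:ℝ) * (l + 1 + p) ≤ SS * SS := by rw [← hs0]; exact_mod_cast ht'
  have hM2 : (M:ℝ) = SS * SS - t * (l + 1) := by
    have : M + t * (l + 1) = s0 := by omega
    have : (M:ℝ) + t * (l + 1) = s0 := by exact_mod_cast this
    linarith
  have hn2 : (n:ℝ) = t * t := by exact_mod_cast (by omega : n = t * t)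
  have hg1 := div_ge (A := M * M) (m := 2 * s0 * (l + 1)) (by positivity)
  have hg2 : ((M * M / (2 * s0 * (l + 1)) : ℕ) : ℝ) + 1 = g := by
    have : Nat.div (M * M) (2 * s0 * (l + 1)) + 1 = g := by omega
    exact_mod_cast this
  rw [hg2] at hg1
  have hg3 : (M:ℝ) * M ≤ 2 * (SS * SS) * (l + 1) * g := by
    push_cast at hg1; rw [hs0] at hg1; linarith
  rw [hxr] at h
  obtain ⟨h1, h2⟩ := abs_le.1 h
  have hS := SS_pos
  have hl0 : (0:ℝ) ≤ l := Nat.cast_nonneg _
  have ht0 : (0:ℝ) ≤ t := Nat.cast_nonneg _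
  have hg0 : (0:ℝ) ≤ g := Nat.cast_nonneg _
  obtain ⟨V, hV⟩ : ∃ V, V = SS * v := ⟨_, rfl⟩
  have hV0 : l + 1 ≤ V := by rw [hV]; linarith
  have hVp : 0 < V := by linarith
  have hv : v = V / SS := by rw [hV]; field_simp
  have e : SS * v⁻¹ + (n:ℝ) / (s0:ℕ) * (SS * v) - (((b + (t + t) + g : ℕ):ℝ) - BB)
      = (SS * SS - t * V) ^ 2 / (SS * SS * V) - g := by
    rw [hs0, hv, hn2]; push_cast; rw [hb]; field_simp; ring
  rw [e]
  rw [← hV] at h1 h2
  have b1 : |SS * SS - t * V| ≤ M := by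
    have a1 := mul_le_mul_of_nonneg_left hV0 ht0
    have a2 : (t:ℝ) * V ≤ t * (l + 1 + p + p) := mul_le_mul_of_nonneg_left (by linarith) ht0
    rw [abs_le, hM2]; constructor <;> linarith
  have b2 : (SS * SS - t * V) ^ 2 ≤ M * M := by
    have := (abs_le.1 (lane_le2 b1 b1)).2; linarith
  have b3 : (SS * SS - t * V) ^ 2 / (SS * SS * V) ≤ 2 * g := by
    rw [div_le_iff₀ (by positivity)]
    have : 2 * (SS * SS) * (l + 1) * g ≤ 2 * g * (SS * SS * V) := by
      have := mul_le_mul_of_nonneg_left hV0 (by positivity : 0 ≤ 2 * g * (SS * SS))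
      linarith
    linarith
  have b4 : 0 ≤ (SS * SS - t * V) ^ 2 / (SS * SS * V) := by positivity
  rw [abs_le]; constructor <;> linarith

noncomputable def nw0 (N : ℕ) : ℕ := (@Bool.rec (fun _ => ℕ) (@Bool.rec (fun _ => ℕ) (@Bool.rec (fun _ => ℕ) (@Bool.rec (fun _ => ℕ) 1572864 3145728 (Nat.ble 4398046511104 N)) (@Bool.rec (fun _ => ℕ) 6291456 12582912 (Nat.ble 70368744177664 N)) (Nat.ble 17592186044416 N)) (@Bool.rec (fun _ => ℕ) (@Bool.rec (fun _ => ℕ) 25165824 50331648 (Nat.ble 1125899906842624 N)) (@Bool.rec (fun _ => ℕ) 100663296 201326592 (Nat.ble 18014398509481984 N)) (Nat.ble 4503599627370496 N)) (Nat.ble 281474976710656 N)) (@Bool.rec (fun _ => ℕ) (@Bool.rec (fun _ => ℕ) (@Bool.rec (fun _ => ℕ) 402653184 805306368 (Nat.ble 288230376151711744 N)) (@Bool.rec (fun _ => ℕ) 1610612736 3221225472 (Nat.ble 4611686018427387904 N)) (Nat.ble 1152921504606846976 N)) (@Bool.rec (fun _ => ℕ) (@Bool.rec (fun _ => ℕ) 6442450944 12884901888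 (Nat.ble 73786976294838206464 N)) (@Bool.rec (fun _ => ℕ) 25769803776 51539607552 (Nat.ble 1180591620717411303424 N)) (Nat.ble 295147905179352825856 N)) (Nat.ble 18446744073709551616 N)) (Nat.ble 72057594037927936 N))
noncomputable def nw1 (N : ℕ) : ℕ := (@Bool.rec (fun _ => ℕ) (@Bool.rec (fun _ => ℕ) (@Bool.rec (fun _ => ℕ) 103079215104 206158430208 (Nat.ble 18889465931478580854784 N)) (@Bool.rec (fun _ => ℕ) 412316860416 824633720832 (Nat.ble 302231454903657293676544 N)) (Nat.ble 75557863725914323419136 N)) (@Bool.rec (fun _ => ℕ) (@Bool.rec (fun _ => ℕ) 1649267441664 3298534883328 (Nat.ble 4835703278458516698824704 N)) (@Bool.rec (fun _ => ℕ) 6597069766656 13194139533312 (Nat.ble 77371252455336267181195264 N)) (Nat.ble 19342813113834066795298816 N)) (Nat.ble 1208925819614629174706176 N))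
noncomputable def nw2 (N : ℕ) : ℕ := (@Bool.rec (fun _ => ℕ) (@Bool.rec (fun _ => ℕ) (@Bool.rec (fun _ => ℕ) 26388279066624 52776558133248 (Nat.ble 1237940039285380274899124224 N)) (@Bool.rec (fun _ => ℕ) 105553116266496 211106232532992 (Nat.ble 19807040628566084398385987584 N)) (Nat.ble 4951760157141521099596496896 N)) (@Bool.rec (fun _ => ℕ) (@Bool.rec (fun _ => ℕ) 422212465065984 844424930131968 (Nat.ble 316912650057057350374175801344 N)) (@Bool.rec (fun _ => ℕ) 1688849860263936 3377699720527872 (Nat.ble 5070602400912917605986812821504 N)) (Nat.ble 1267650600228229401496703205376 N)) (Nat.ble 79228162514264337593543950336 N))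
noncomputable def nwt (N : ℕ) : ℕ :=
  @Nat.rec (fun _ => ℕ) 1 (fun g _ =>
  @Nat.rec (fun _ => ℕ) 1 (fun g _ =>
  @Nat.rec (fun _ => ℕ) 1 (fun g _ =>
  @Nat.rec (fun _ => ℕ) 1 (fun g _ =>
    Nat.add (Nat.shiftRight (Nat.add g (Nat.div N g)) 1) 2)
    (Nat.add (Nat.shiftRight (Nat.add g (Nat.div N g)) 1) 1))
    (Nat.add (Nat.shiftRight (Nat.add g (Nat.div N g)) 1) 1))
    (Nat.add (Nat.shiftRight (Nat.add g (Nat.div N g)) 1) 1))
    (@Bool.rec (fun _ => ℕ) (nw0 N) (@Bool.rec (fun _ => ℕ) (nw1 N) (nw2 N) (Nat.ble 309485009821345068724781056 N)) (Nat.ble 4722366482869645213696 N))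

attribute [irreducible] nwt

noncomputable def sqrtF (x p : ℕ) (k : ℕ → ℕ → ℕ → ℕ → Bool) : Bool :=
  fB (Nat.add (Nat.mul 1099511627776 (Nat.sub (Nat.add x p) 1152921504606846976)) 1) fun N =>
  fB (nwt N) fun t =>
  fB (Nat.add (Nat.shiftRight (Nat.add (Nat.add t 1) (Nat.div N (Nat.add t 1))) 2) 3) fun g =>
    k 0 1 (Nat.add 1152921504606846976 g) g

theorem sqrtF_s {x p : ℕ} {v : ℝ} {k : ℕ → ℕ → ℕ → ℕ → Bool} {G : Prop}
    (h : |SS * v - ((x:ℝ) - BB)| ≤ p)
    (hk : ∀ n m u s : ℕ, 0 < m → |SS * √v - (n:ℝ) / m * (SS * v) - ((u:ℝ) - BB)| ≤ s → k n m u s = true → G)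
    (H : sqrtF x p k = true) : G := by
  unfold sqrtF at H
  generalize hB : (1152921504606846976:ℕ) = b0 at H
  generalize hS0 : (1099511627776:ℕ) = s0 at H
  have hb : (b0:ℝ) = BB := by rw [← hB]; exact BB_cast
  have hs : (s0:ℝ) = SS := by rw [← hS0]; exact SS_cast
  clear hB hS0
  replace H := frc H
  obtain ⟨N, hN, H⟩ := H
  replace H := frc H
  obtain ⟨t, ht, H⟩ := H
  replace H := frc H
  obtain ⟨g, hg, H⟩ := H
  refine hk _ _ _ _ (by norm_num) ?_ H
  clear H hk
  rw [shr_eq] at hg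
  simp only [Nat.add_eq, Nat.sub_eq, Nat.mul_eq] at hN hg ⊢
  have hS := SS_pos
  have h1 : SS * (SS * v) ≤ N := by
    have a : N = s0 * (x + p - b0) := by omega
    have b : (x:ℝ) + p - BB ≤ ((x + p - b0 : ℕ) : ℝ) := by
      rw [← hb]
      have : x + p ≤ (x + p - b0) + b0 := by omega
      have : (x:ℝ) + p ≤ (x + p - b0 : ℕ) + (b0:ℕ) := by exact_mod_cast this
      linarith
    rw [a, Nat.cast_mul, hs]
    exact mul_le_mul_of_nonneg_left (by linarith [(abs_le.1 h).2]) hS.le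
  have h2 := div_ge (A := N) (m := t + 1) (by omega)
  have h3 := div_ge (A := t + 1 + N / (t + 1)) (m := 2 ^ 2) (by norm_num)
  have h4 : (((t + 1 + N / (t + 1)) / 2 ^ 2 : ℕ) : ℝ) + 2 = g := by
    have : (t + 1 + Nat.div N (t + 1)) / 2 ^ 2 + 2 = g := by omega
    exact_mod_cast this
  generalize (t + 1 + N / (t + 1)) / 2 ^ 2 = u at h3 h4
  generalize N / (t + 1) = w at h2 h3
  push_cast at h2 h3
  have ht0 : (0:ℝ) ≤ t := Nat.cast_nonneg _
  have hW0 : 0 ≤ SS * √v := by positivity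
  have hW : (SS * √v) * (SS * √v) ≤ N := by
    rcases le_total v 0 with hv | hv
    · rw [Real.sqrt_eq_zero'.2 hv]; simp
    · have := Real.mul_self_sqrt hv
      have e : SS * √v * (SS * √v) = SS * (SS * (√v * √v)) := by ring
      rw [e, this]; exact h1
  have hW2 : SS * √v ≤ 2 * g := by
    have : (t + 1) * (2 * (SS * √v)) ≤ (t + 1) * (t + 1 + (w + 1)) := by
      nlinarith [sq_nonneg (SS * √v - (t + 1))]
    have := le_of_mul_le_mul_left this (by linarith)
    linarith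
  rw [Nat.cast_add, hb]
  rw [abs_le]; constructor <;> simp <;> linarith

noncomputable def sqrtS (x p : ℕ) (k : ℕ → ℕ → ℕ → ℕ → Bool) : Bool :=
  iB (Nat.ble (Nat.add p 1152921504606846976) x) (sqrtF x p k) (
  fB (Nat.add (Nat.mul 1099511627776 (Nat.sub x 1152921504606846976)) 1) fun N =>
  fB (nwt N) fun t =>
  fB (Nat.add (Nat.mul t t) 1) fun T =>
  fB (Nat.add (Nat.add (Nat.add (Nat.sub N T) (Nat.sub T N)) (Nat.mul 1099511627776 p)) 1) fun M =>
  iB (Nat.blt M T) (sqrtF x p k) (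
  fB (Nat.sub (Nat.add (Nat.add T T) 1) M) fun E =>
  fB (Nat.add (Nat.div (Nat.mul t (Nat.mul M M)) (Nat.mul 4 (Nat.mul E E))) 2) fun R =>
  fB (Nat.sub (Nat.add (Nat.shiftRight t 1) 1152921504606846977) R) fun u =>
    k 1099511627776 (Nat.add t t) u (Nat.add R 1)))

theorem sqrt_aux {W t M : ℝ} (hW : 0 ≤ W) (ht : 0 < t) (hM : |W * W - t * t| ≤ M) (hMT : M < t * t) :
    (W - t) ^ 2 * (2 * (t * t) - M) ^ 2 ≤ (t * M) ^ 2 := by
  obtain ⟨h1, h2⟩ := abs_le.1 hM
  have hM0 : 0 ≤ M := (abs_nonneg _).trans hM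
  rw [← mul_pow]
  apply sq_le_sq'
  · rcases le_total W t with h | h
    · -- (t - W)(2 t² - M) ≤ t M
      have a : t * t - W * W ≤ M := by linarith
      nlinarith [mul_nonneg hW (sub_nonneg.2 h), mul_nonneg (sub_nonneg.2 h) (sub_nonneg.2 a),
        mul_nonneg ht.le (sub_nonneg.2 a), mul_nonneg (mul_nonneg hW (sub_nonneg.2 h)) (sub_nonneg.2 h)]
    · nlinarith [mul_nonneg (sub_nonneg.2 h) (by linarith : 0 ≤ 2 * (t * t) - M), mul_nonneg ht.le hM0]
  · rcases le_total W t with h | h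
    · nlinarith [mul_nonneg (sub_nonneg.2 h) (by linarith : 0 ≤ 2 * (t * t) - M), mul_nonneg ht.le hM0]
    · have a : W * W - t * t ≤ M := by linarith
      nlinarith [mul_nonneg (sub_nonneg.2 h) hM0, mul_nonneg ht.le (sub_nonneg.2 a),
        mul_nonneg ht.le (mul_self_nonneg (W - t))]

theorem sqrtS_s {x p : ℕ} {v : ℝ} {k : ℕ → ℕ → ℕ → ℕ → Bool} {G : Prop}
    (h : |SS * v - ((x:ℝ) - BB)| ≤ p)
    (hk : ∀ n m u s : ℕ, 0 < m → |SS * √v - (n:ℝ) / m * (SS * v) - ((u:ℝ) - BB)| ≤ s → k n m u s = true → G)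
    (H : sqrtS x p k = true) : G := by
  unfold sqrtS at H
  generalize hB1 : (1152921504606846977:ℕ) = b1 at H
  generalize hB : (1152921504606846976:ℕ) = b0 at H
  generalize hS0 : (1099511627776:ℕ) = s0 at H
  have hb : (b0:ℝ) = BB := by rw [← hB]; exact BB_cast
  have hs : (s0:ℝ) = SS := by rw [← hS0]; exact SS_cast
  have hb1 : b1 = b0 + 1 := by rw [← hB1, ← hB]
  clear hB hS0 hB1
  subst hb1
  replace H := brc2 H
  rcases H with ⟨_, H⟩ | ⟨hx, H⟩
  · exact sqrtF_s h hk H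
  replace H := frc H
  obtain ⟨N, hN, H⟩ := H
  replace H := frc H
  obtain ⟨t, ht, H⟩ := H
  replace H := frc H
  obtain ⟨T, hT, H⟩ := H
  replace H := frc H
  obtain ⟨M, hM, H⟩ := H
  replace H := brc2 H
  rcases H with ⟨_, H⟩ | ⟨hMT, H⟩
  · exact sqrtF_s h hk H
  replace H := frc H
  obtain ⟨E, hE, H⟩ := H
  replace H := frc H
  obtain ⟨R, hR, H⟩ := H
  replace H := frc H
  obtain ⟨u, hu, H⟩ := H
  have hx : p + b0 ≤ x := Nat.le_of_ble_eq_true hx
  have hMT : M < T := by simpa [Nat.blt_eq] using hMT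
  rw [shr_eq] at hu
  simp only [Nat.add_eq, Nat.sub_eq, Nat.mul_eq, pow_one] at hN hT hM hE hR hu ⊢
  have hT' : T = t * t := by omega
  have ht0 : 0 < t := by
    rcases Nat.eq_zero_or_pos t with h0 | h0
    · subst h0; omega
    · exact h0
  refine hk _ _ _ _ (by simp only [Nat.add_eq]; omega) ?_ H
  clear H hk
  have hS := SS_pos
  have htr : (0:ℝ) < t := by exact_mod_cast ht0
  have hNr : (N:ℝ) = SS * (x - BB) := by
    have a : N = s0 * (x - b0) := by omega
    rw [a, Nat.cast_mul, Nat.cast_sub (by omega), hs, hb]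
  have hTr : (T:ℝ) = t * t := by exact_mod_cast hT'
  have hMr : |(N:ℝ) - T| + SS * p ≤ M := by
    rw [← hs]
    rcases le_total N T with a | a
    · have b : N + M = T + s0 * p := by omega
      have b : (N:ℝ) + M = T + (s0:ℕ) * p := by exact_mod_cast b
      have a : (N:ℝ) ≤ T := by exact_mod_cast a
      rw [abs_of_nonpos (by linarith)]; linarith
    · have b : T + M = N + s0 * p := by omega
      have b : (T:ℝ) + M = N + (s0:ℕ) * p := by exact_mod_cast b
      have a : (T:ℝ) ≤ N := by exact_mod_cast a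
      rw [abs_of_nonneg (by linarith)]; linarith
  have hEr : (E:ℝ) = 2 * (t * t) - M := by
    have b : E + M = T + T := by omega
    have b : (E:ℝ) + M = T + T := by exact_mod_cast b
    linarith
  have hMTr : (M:ℝ) < t * t := by rw [← hTr]; exact_mod_cast hMT
  have hE0 : 0 < E := by omega
  have hR1 := div_ge (A := t * (M * M)) (m := 4 * (E * E)) (by positivity)
  have hR2 : ((t * (M * M) / (4 * (E * E)) : ℕ) : ℝ) + 1 = R := by
    have : Nat.div (t * (M * M)) (4 * (E * E)) + 1 = R := by omega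
    exact_mod_cast this
  rw [hR2] at hR1
  push_cast at hR1
  have hu1 : (2:ℝ) * (u - BB + R) ≤ t ∧ (t:ℝ) ≤ 2 * (u - BB + R) + 1 := by
    rw [← hb]
    have a : 2 * (u + R) ≤ t + 2 * b0 := by omega
    have b : t + 2 * b0 ≤ 2 * (u + R) + 1 := by omega
    have a : (2:ℝ) * (u + R) ≤ t + 2 * (b0:ℕ) := by exact_mod_cast a
    have b : (t:ℝ) + 2 * (b0:ℕ) ≤ 2 * (u + R) + 1 := by exact_mod_cast b
    constructor <;> linarith
  obtain ⟨h1, h2⟩ := abs_le.1 h
  have hxr : (p:ℝ) ≤ x - BB := by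
    rw [← hb]
    have : (p:ℝ) + (b0:ℕ) ≤ x := by exact_mod_cast hx
    linarith
  have hv : 0 ≤ v := by
    have : 0 ≤ SS * v := by linarith
    exact nonneg_of_mul_nonneg_right' this hS
  obtain ⟨W, hW⟩ : ∃ W, W = SS * √v := ⟨_, rfl⟩
  have hW0 : 0 ≤ W := by rw [hW]; positivity
  have hWW : W * W = SS * (SS * v) := by
    have := Real.mul_self_sqrt hv
    have e : SS * √v * (SS * √v) = SS * (SS * (√v * √v)) := by ring
    rw [hW, e, this]
  have hM3 : |W * W - t * t| ≤ M := by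
    have a := abs_le.1 (le_refl |(N:ℝ) - T|)
    have a1 := mul_le_mul_of_nonneg_left h1 hS.le
    have a2 := mul_le_mul_of_nonneg_left h2 hS.le
    rw [hWW, ← hTr, abs_le]
    constructor <;> linarith [a.1, a.2]
  have key := sqrt_aux hW0 htr hM3 hMTr
  rw [← hEr] at key
  have hEr0 : (0:ℝ) < E := by exact_mod_cast hE0
  have k2 : (W - t) ^ 2 ≤ 4 * t * R := by
    have : (W - t) ^ 2 * (E * E) ≤ 4 * t * R * (E * E) := by
      have := mul_le_mul_of_nonneg_left hR1 htr.le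
      linarith
    exact le_of_mul_le_mul_right this (by positivity)
  have e : W - ((s0:ℕ):ℝ) / ((t + t : ℕ) : ℝ) * (SS * v) = t / 2 - (W - t) ^ 2 / (2 * t) := by
    rw [hs]; push_cast; field_simp; linarith
  have k3 : (W - t) ^ 2 / (2 * t) ≤ 2 * R := by rw [div_le_iff₀ (by positivity)]; linarith
  have k4 : 0 ≤ (W - t) ^ 2 / (2 * t) := by positivity
  simp only [Nat.add_eq]
  rw [← hW, e]; push_cast
  rw [abs_le]; constructor <;> linarith [hu1.1, hu1.2]
where nonneg_of_mul_nonneg_right' {a b : ℝ} (h : 0 ≤ a * b) (ha : 0 < a) : 0 ≤ b :=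
  (mul_nonneg_iff_of_pos_left ha).1 h

noncomputable def reluS (x p : ℕ) (k : ℕ → ℕ → ℕ → ℕ → Bool) : Bool :=
  sB (Nat.sub (Nat.add p 1152921504606846976) x) (k 1 1 1152921504606846976 0) fun lo =>
  sB (Nat.sub (Nat.add x p) 1152921504606846976) (k 0 1 1152921504606846976 0) fun hi =>
  fB (Nat.add (Nat.div (Nat.mul (Nat.add hi 1) (Nat.add lo 1)) (Nat.mul 4 p)) 2) fun g =>
    k (Nat.add hi 1) (Nat.add p p) (Nat.add 1152921504606846976 g) g

theorem reluS_s {x p : ℕ} {v : ℝ} {k : ℕ → ℕ → ℕ → ℕ → Bool} {G : Prop}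
    (h : |SS * v - ((x:ℝ) - BB)| ≤ p)
    (hk : ∀ n m u s : ℕ, 0 < m → |SS * max v 0 - (n:ℝ) / m * (SS * v) - ((u:ℝ) - BB)| ≤ s → k n m u s = true → G)
    (H : reluS x p k = true) : G := by
  unfold reluS at H
  generalize hB : (1152921504606846976:ℕ) = b0 at H
  have hb : (b0:ℝ) = BB := by rw [← hB]; exact BB_cast
  clear hB
  have hS := SS_pos
  obtain ⟨h1, h2⟩ := abs_le.1 h
  replace H := frc2 H
  rcases H with ⟨hlo, H⟩ | ⟨lo, hlo, H⟩
  · refine hk _ _ _ _ (by norm_num) ?_ H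
    simp only [Nat.add_eq, Nat.sub_eq] at hlo
    have a : p + b0 ≤ x := by omega
    have a : (p:ℝ) + (b0:ℕ) ≤ x := by exact_mod_cast a
    rw [hb] at a ⊢
    have : 0 ≤ SS * v := by linarith
    rw [max_eq_left ((mul_nonneg_iff_of_pos_left hS).1 this)]; simp
  replace H := frc2 H
  rcases H with ⟨hhi, H⟩ | ⟨hi, hhi, H⟩
  · refine hk _ _ _ _ (by norm_num) ?_ H
    simp only [Nat.add_eq, Nat.sub_eq] at hhi
    have a : x + p ≤ b0 := by omega
    have a : (x:ℝ) + p ≤ (b0:ℕ) := by exact_mod_cast a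
    rw [hb] at a ⊢
    have : SS * v ≤ 0 := by linarith
    have : v ≤ 0 := by by_contra hh; push Not at hh; linarith [mul_pos hS hh]
    rw [max_eq_right this]; simp
  replace H := frc H
  obtain ⟨g, hg, H⟩ := H
  simp only [Nat.add_eq, Nat.sub_eq, Nat.mul_eq] at hlo hhi hg
  have hp : 0 < p := by omega
  refine hk _ _ _ _ (by simp only [Nat.add_eq]; omega) ?_ H
  clear H hk
  have hg1 := div_ge (A := (hi + 1) * (lo + 1)) (m := 4 * p) (by omega)
  have hg2 : (((hi + 1) * (lo + 1) / (4 * p) : ℕ) : ℝ) + 1 = g := by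
    have : Nat.div ((hi + 1) * (lo + 1)) (4 * p) + 1 = g := by omega
    exact_mod_cast this
  rw [hg2] at hg1
  have a : (x:ℝ) + (lo + 1) = p + (b0:ℕ) := by exact_mod_cast (by omega : x + (lo + 1) = p + b0)
  have b : (x:ℝ) + p = (hi + 1) + (b0:ℕ) := by exact_mod_cast (by omega : x + p = (hi + 1) + b0)
  rw [hb] at a b
  simp only [Nat.add_eq]
  push_cast at hg1 ⊢
  rw [hb]
  have hp' : (0:ℝ) < p := by exact_mod_cast hp
  have hhi0 : (0:ℝ) ≤ hi := Nat.cast_nonneg _
  have hlo0 : (0:ℝ) ≤ lo := Nat.cast_nonneg _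
  have e : SS * max v 0 - ((hi:ℝ) + 1) / (p + p) * (SS * v) - (BB + g - BB)
      = (SS * max v 0 * (p + p) - (hi + 1) * (SS * v) - g * (p + p)) / (p + p) := by field_simp; ring
  rw [e, abs_le, le_div_iff₀ (by linarith), div_le_iff₀ (by linarith)]
  have c : (p:ℝ) + p = (hi + 1) + (lo + 1) := by linarith
  rcases le_total v 0 with hv | hv
  · rw [max_eq_right hv]
    have a0 : SS * v ≤ 0 := mul_nonpos_of_nonneg_of_nonpos hS.le hv
    have a1 : 0 ≤ (hi + 1) * (-(SS * v)) := mul_nonneg (by linarith) (by linarith)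
    have a2 : (hi + 1) * (-(SS * v)) ≤ (hi + 1) * (lo + 1) := mul_le_mul_of_nonneg_left (by linarith) (by linarith)
    constructor <;> linarith
  · rw [max_eq_left hv]
    have a0 : 0 ≤ SS * v := by positivity
    have a1 : 0 ≤ (lo + 1) * (SS * v) := mul_nonneg (by linarith) a0
    have a2 : (lo + 1) * (SS * v) ≤ (lo + 1) * (hi + 1) := mul_le_mul_of_nonneg_left (by linarith) (by linarith)
    have a3 : SS * v * (p + p) = SS * v * ((hi + 1) + (lo + 1)) := by rw [c]
    constructor <;> linarith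

end Crest.Agent.R307.IA
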