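import Crest.Agent.R307.IA0

set_option autoImplicit false
set_option linter.unusedVariables false
namespace Crest.Agent.R307.IA6
open Crest.Agent.R307.IA

/-- `v` lies in the affine form with biased fixed-point centre `x`, coefficients `y i`, radius `r`. -/
def In (e1 e2 e3 e4 e5 e6 : ℝ) (x y1 y2 y3 y4 y5 y6 r : ℕ) (v : ℝ) : Prop :=
  |SS * v - ((x:ℝ) - BB + ((y1:ℝ) - BB) * e1 + ((y2:ℝ) - BB) * e2 + ((y3:ℝ) - BB) * e3 + ((y4:ℝ) - BB) * e4 + ((y5:ℝ) - BB) * e5 + ((y6:ℝ) - BB) * e6)| ≤ r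

structure Ev (e1 e2 e3 e4 e5 e6 : ℝ) : Prop where
  h1 : |e1| ≤ 1
  h2 : |e2| ≤ 1
  h3 : |e3| ≤ 1
  h4 : |e4| ≤ 1
  h5 : |e5| ≤ 1
  h6 : |e6| ≤ 1

theorem rho_le {e1 e2 e3 e4 e5 e6 : ℝ} (he : Ev e1 e2 e3 e4 e5 e6) {x y1 y2 y3 y4 y5 y6 r : ℕ} {v : ℝ} (h : In e1 e2 e3 e4 e5 e6 x y1 y2 y3 y4 y5 y6 r v) :
    |SS * v - ((x:ℝ) - BB)| ≤ (((Nat.add (Nat.add (Nat.add (Nat.add (Nat.add (Nat.add (Nat.add (Nat.sub y1 1152921504606846976) (Nat.sub 1152921504606846976 y1)) (Nat.add (Nat.sub y2 1152921504606846976) (Nat.sub 1152921504606846976 y2))) (Nat.add (Nat.sub y3 1152921504606846976) (Nat.sub 1152921504606846976 y3))) (Nat.add (Nat.sub y4 1152921504606846976) (Nat.sub 1152921504606846976 y4))) (Nat.add (Nat.sub y5 1152921504606846976) (Nat.sub 1152921504606846976 y5))) (Nat.add (Nat.sub y6 1152921504606846976) (Nat.sub 1152921504606846976 y6))) r) : ℕ) : ℝ) := by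
  unfold In at h
  simp only [Nat.add_eq, Nat.cast_add]
  have g1 := abs_le.1 (lane_le (ab_ge y1) he.h1)
  have g2 := abs_le.1 (lane_le (ab_ge y2) he.h2)
  have g3 := abs_le.1 (lane_le (ab_ge y3) he.h3)
  have g4 := abs_le.1 (lane_le (ab_ge y4) he.h4)
  have g5 := abs_le.1 (lane_le (ab_ge y5) he.h5)
  have g6 := abs_le.1 (lane_le (ab_ge y6) he.h6)
  simp only [Nat.add_eq, Nat.cast_add] at g1 g2 g3 g4 g5 g6
  have h' := abs_le.1 h
  rw [abs_le]; constructor <;> linarith [g1.1, g1.2, g2.1, g2.2, g3.1, g3.2, g4.1, g4.2, g5.1, g5.2, g6.1, g6.2, h'.1, h'.2]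

theorem var1 {e1 e2 e3 e4 e5 e6 : ℝ} (c a : ℕ) : In e1 e2 e3 e4 e5 e6 c (Nat.add a 1152921504606846976) 1152921504606846976 1152921504606846976 1152921504606846976 1152921504606846976 1152921504606846976 0 (val c + (a:ℝ) / SS * e1) := by
  unfold In val
  have := SS_pos
  have e : SS * (((c:ℝ) - BB) / SS + (a:ℝ) / SS * e1) = (c:ℝ) - BB + a * e1 := by field_simp
  rw [e]; simp only [Nat.add_eq, Nat.cast_add, BB_cast]; simp

theorem var2 {e1 e2 e3 e4 e5 e6 : ℝ} (c a : ℕ) : In e1 e2 e3 e4 e5 e6 c 1152921504606846976 (Nat.add a 1152921504606846976) 1152921504606846976 1152921504606846976 1152921504606846976 1152921504606846976 0 (val c + (a:ℝ) / SS * e2) := by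
  unfold In val
  have := SS_pos
  have e : SS * (((c:ℝ) - BB) / SS + (a:ℝ) / SS * e2) = (c:ℝ) - BB + a * e2 := by field_simp
  rw [e]; simp only [Nat.add_eq, Nat.cast_add, BB_cast]; simp

theorem var3 {e1 e2 e3 e4 e5 e6 : ℝ} (c a : ℕ) : In e1 e2 e3 e4 e5 e6 c 1152921504606846976 1152921504606846976 (Nat.add a 1152921504606846976) 1152921504606846976 1152921504606846976 1152921504606846976 0 (val c + (a:ℝ) / SS * e3) := by
  unfold In val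
  have := SS_pos
  have e : SS * (((c:ℝ) - BB) / SS + (a:ℝ) / SS * e3) = (c:ℝ) - BB + a * e3 := by field_simp
  rw [e]; simp only [Nat.add_eq, Nat.cast_add, BB_cast]; simp

theorem var4 {e1 e2 e3 e4 e5 e6 : ℝ} (c a : ℕ) : In e1 e2 e3 e4 e5 e6 c 1152921504606846976 1152921504606846976 1152921504606846976 (Nat.add a 1152921504606846976) 1152921504606846976 1152921504606846976 0 (val c + (a:ℝ) / SS * e4) := by
  unfold In val
  have := SS_pos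
  have e : SS * (((c:ℝ) - BB) / SS + (a:ℝ) / SS * e4) = (c:ℝ) - BB + a * e4 := by field_simp
  rw [e]; simp only [Nat.add_eq, Nat.cast_add, BB_cast]; simp

theorem var5 {e1 e2 e3 e4 e5 e6 : ℝ} (c a : ℕ) : In e1 e2 e3 e4 e5 e6 c 1152921504606846976 1152921504606846976 1152921504606846976 1152921504606846976 (Nat.add a 1152921504606846976) 1152921504606846976 0 (val c + (a:ℝ) / SS * e5) := by
  unfold In val
  have := SS_pos
  have e : SS * (((c:ℝ) - BB) / SS + (a:ℝ) / SS * e5) = (c:ℝ) - BB + a * e5 := by field_simp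
  rw [e]; simp only [Nat.add_eq, Nat.cast_add, BB_cast]; simp

theorem var6 {e1 e2 e3 e4 e5 e6 : ℝ} (c a : ℕ) : In e1 e2 e3 e4 e5 e6 c 1152921504606846976 1152921504606846976 1152921504606846976 1152921504606846976 1152921504606846976 (Nat.add a 1152921504606846976) 0 (val c + (a:ℝ) / SS * e6) := by
  unfold In val
  have := SS_pos
  have e : SS * (((c:ℝ) - BB) / SS + (a:ℝ) / SS * e6) = (c:ℝ) - BB + a * e6 := by field_simp
  rw [e]; simp only [Nat.add_eq, Nat.cast_add, BB_cast]; simp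

theorem cst {e1 e2 e3 e4 e5 e6 : ℝ} (c r : ℕ) (v : ℝ) (h : |SS * v - ((c:ℝ) - BB)| ≤ r) :
    In e1 e2 e3 e4 e5 e6 c 1152921504606846976 1152921504606846976 1152921504606846976 1152921504606846976 1152921504606846976 1152921504606846976 r v := by
  unfold In; simp only [BB_cast]; simpa using h

theorem par {e1 e2 e3 e4 e5 e6 : ℝ} {z n p : ℕ} (hn : Nat.add (Nat.land z 65535) 1 = n + 1)
    (hp : Nat.add (Nat.mul n 16777216) 1152921504606846977 = p + 1) :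
    In e1 e2 e3 e4 e5 e6 p 1152921504606846976 1152921504606846976 1152921504606846976 1152921504606846976 1152921504606846976 1152921504606846976 0 ((n:ℝ) / 65536) ∧ 0 ≤ (n:ℝ) / 65536 ∧ (n:ℝ) / 65536 ≤ 1 := by
  have h1 : n ≤ 65535 := by rw [← succ_spec hn]; exact Nat.and_le_right
  have h2 : p = n * 16777216 + 1152921504606846976 := by simp only [Nat.add_eq, Nat.mul_eq] at hp; omega
  have h3 : (n:ℝ) ≤ 65535 := by exact_mod_cast h1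
  have h4 : (p:ℝ) = n * 16777216 + 1152921504606846976 := by exact_mod_cast h2
  clear hn hp h1 h2
  refine ⟨cst _ _ _ ?_, by positivity, by linarith⟩
  rw [h4]; unfold SS BB
  rw [abs_le]; constructor <;> simp <;> linarith

noncomputable def addK (x y1 y2 y3 y4 y5 y6 r x' z1 z2 z3 z4 z5 z6 r' : ℕ) (k : Nat → Nat → Nat → Nat → Nat → Nat → Nat → Nat → Bool) : Bool :=
  fB (Nat.sub (Nat.add x x') 1152921504606846975) fun c =>
  fB (Nat.sub (Nat.add y1 z1) 1152921504606846975) fun a1 =>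
  fB (Nat.sub (Nat.add y2 z2) 1152921504606846975) fun a2 =>
  fB (Nat.sub (Nat.add y3 z3) 1152921504606846975) fun a3 =>
  fB (Nat.sub (Nat.add y4 z4) 1152921504606846975) fun a4 =>
  fB (Nat.sub (Nat.add y5 z5) 1152921504606846975) fun a5 =>
  fB (Nat.sub (Nat.add y6 z6) 1152921504606846975) fun a6 =>
  fB (Nat.add (Nat.add r r') 1) fun q =>
  k c a1 a2 a3 a4 a5 a6 q

theorem addK_s {e1 e2 e3 e4 e5 e6 : ℝ} (he : Ev e1 e2 e3 e4 e5 e6) {x y1 y2 y3 y4 y5 y6 r x' z1 z2 z3 z4 z5 z6 r' : ℕ} {v v' : ℝ} {k : Nat → Nat → Nat → Nat → Nat → Nat → Nat → Nat → Bool} {G : Prop}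
    (h : In e1 e2 e3 e4 e5 e6 x y1 y2 y3 y4 y5 y6 r v) (h' : In e1 e2 e3 e4 e5 e6 x' z1 z2 z3 z4 z5 z6 r' v') (hk : ∀ c a1 a2 a3 a4 a5 a6 q, In e1 e2 e3 e4 e5 e6 c a1 a2 a3 a4 a5 a6 q (v + v') → k c a1 a2 a3 a4 a5 a6 q = true → G)
    (H : addK x y1 y2 y3 y4 y5 y6 r x' z1 z2 z3 z4 z5 z6 r' k = true) : G := by
  unfold addK at H
  replace H := frc H
  obtain ⟨c, hc, H⟩ := H
  replace H := frc H
  obtain ⟨a1, ha1, H⟩ := H
  replace H := frc H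
  obtain ⟨a2, ha2, H⟩ := H
  replace H := frc H
  obtain ⟨a3, ha3, H⟩ := H
  replace H := frc H
  obtain ⟨a4, ha4, H⟩ := H
  replace H := frc H
  obtain ⟨a5, ha5, H⟩ := H
  replace H := frc H
  obtain ⟨a6, ha6, H⟩ := H
  replace H := frc H
  obtain ⟨q, hq, H⟩ := H
  refine hk _ _ _ _ _ _ _ _ ?_ H
  clear H hk
  have hc := add_spec hc
  have ha1 := add_spec ha1
  have ha2 := add_spec ha2
  have ha3 := add_spec ha3
  have ha4 := add_spec ha4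
  have ha5 := add_spec ha5
  have ha6 := add_spec ha6
  have hq := addq_spec hq
  unfold In at *
  rw [hc, ha1, ha2, ha3, ha4, ha5, ha6, hq]
  have h1 := abs_le.1 h; have h2 := abs_le.1 h'
  rw [abs_le]; constructor <;> linarith [h1.1, h1.2, h2.1, h2.2]

noncomputable def subK (x y1 y2 y3 y4 y5 y6 r x' z1 z2 z3 z4 z5 z6 r' : ℕ) (k : Nat → Nat → Nat → Nat → Nat → Nat → Nat → Nat → Bool) : Bool :=
  fB (Nat.sub (Nat.add x 1152921504606846977) x') fun c =>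
  fB (Nat.sub (Nat.add y1 1152921504606846977) z1) fun a1 =>
  fB (Nat.sub (Nat.add y2 1152921504606846977) z2) fun a2 =>
  fB (Nat.sub (Nat.add y3 1152921504606846977) z3) fun a3 =>
  fB (Nat.sub (Nat.add y4 1152921504606846977) z4) fun a4 =>
  fB (Nat.sub (Nat.add y5 1152921504606846977) z5) fun a5 =>
  fB (Nat.sub (Nat.add y6 1152921504606846977) z6) fun a6 =>
  fB (Nat.add (Nat.add r r') 1) fun q =>
  k c a1 a2 a3 a4 a5 a6 q

theorem subK_s {e1 e2 e3 e4 e5 e6 : ℝ} (he : Ev e1 e2 e3 e4 e5 e6) {x y1 y2 y3 y4 y5 y6 r x' z1 z2 z3 z4 z5 z6 r' : ℕ} {v v' : ℝ} {k : Nat → Nat → Nat → Nat → Nat → Nat → Nat → Nat → Bool} {G : Prop}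
    (h : In e1 e2 e3 e4 e5 e6 x y1 y2 y3 y4 y5 y6 r v) (h' : In e1 e2 e3 e4 e5 e6 x' z1 z2 z3 z4 z5 z6 r' v') (hk : ∀ c a1 a2 a3 a4 a5 a6 q, In e1 e2 e3 e4 e5 e6 c a1 a2 a3 a4 a5 a6 q (v - v') → k c a1 a2 a3 a4 a5 a6 q = true → G)
    (H : subK x y1 y2 y3 y4 y5 y6 r x' z1 z2 z3 z4 z5 z6 r' k = true) : G := by
  unfold subK at H
  replace H := frc H
  obtain ⟨c, hc, H⟩ := H
  replace H := frc H
  obtain ⟨a1, ha1, H⟩ := H
  replace H := frc H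
  obtain ⟨a2, ha2, H⟩ := H
  replace H := frc H
  obtain ⟨a3, ha3, H⟩ := H
  replace H := frc H
  obtain ⟨a4, ha4, H⟩ := H
  replace H := frc H
  obtain ⟨a5, ha5, H⟩ := H
  replace H := frc H
  obtain ⟨a6, ha6, H⟩ := H
  replace H := frc H
  obtain ⟨q, hq, H⟩ := H
  refine hk _ _ _ _ _ _ _ _ ?_ H
  clear H hk
  have hc := sub_spec hc
  have ha1 := sub_spec ha1
  have ha2 := sub_spec ha2
  have ha3 := sub_spec ha3
  have ha4 := sub_spec ha4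
  have ha5 := sub_spec ha5
  have ha6 := sub_spec ha6
  have hq := addq_spec hq
  unfold In at *
  rw [hc, ha1, ha2, ha3, ha4, ha5, ha6, hq]
  have h1 := abs_le.1 h; have h2 := abs_le.1 h'
  rw [abs_le]; constructor <;> linarith [h1.1, h1.2, h2.1, h2.2]

noncomputable def addcK (x y1 y2 y3 y4 y5 y6 r x' r' : ℕ) (k : Nat → Nat → Nat → Nat → Nat → Nat → Nat → Nat → Bool) : Bool :=
  fB (Nat.sub (Nat.add x x') 1152921504606846975) fun c =>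
  fB (Nat.add (Nat.add r r') 1) fun q =>
  k c y1 y2 y3 y4 y5 y6 q

theorem addcK_s {e1 e2 e3 e4 e5 e6 : ℝ} (he : Ev e1 e2 e3 e4 e5 e6) {x y1 y2 y3 y4 y5 y6 r x' r' : ℕ} {v v' : ℝ} {k : Nat → Nat → Nat → Nat → Nat → Nat → Nat → Nat → Bool} {G : Prop}
    (h : In e1 e2 e3 e4 e5 e6 x y1 y2 y3 y4 y5 y6 r v) (h' : |SS * v' - ((x':ℝ) - BB)| ≤ r') (hk : ∀ c a1 a2 a3 a4 a5 a6 q, In e1 e2 e3 e4 e5 e6 c a1 a2 a3 a4 a5 a6 q (v + v') → k c a1 a2 a3 a4 a5 a6 q = true → G)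
    (H : addcK x y1 y2 y3 y4 y5 y6 r x' r' k = true) : G := by
  unfold addcK at H
  replace H := frc H
  obtain ⟨c, hc, H⟩ := H
  replace H := frc H
  obtain ⟨q, hq, H⟩ := H
  refine hk _ _ _ _ _ _ _ _ ?_ H
  clear H hk
  have hc := add_spec hc
  have hq := addq_spec hq
  unfold In at *
  rw [hc, hq]
  have h1 := abs_le.1 h; have h2 := abs_le.1 h'
  rw [abs_le]; constructor <;> linarith [h1.1, h1.2, h2.1, h2.2]

noncomputable def negK (x y1 y2 y3 y4 y5 y6 r : ℕ) (k : Nat → Nat → Nat → Nat → Nat → Nat → Nat → Nat → Bool) : Bool :=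
  fB (Nat.sub 2305843009213693953 x) fun c =>
  fB (Nat.sub 2305843009213693953 y1) fun a1 =>
  fB (Nat.sub 2305843009213693953 y2) fun a2 =>
  fB (Nat.sub 2305843009213693953 y3) fun a3 =>
  fB (Nat.sub 2305843009213693953 y4) fun a4 =>
  fB (Nat.sub 2305843009213693953 y5) fun a5 =>
  fB (Nat.sub 2305843009213693953 y6) fun a6 =>
  k c a1 a2 a3 a4 a5 a6 r

theorem negK_s {e1 e2 e3 e4 e5 e6 : ℝ} (he : Ev e1 e2 e3 e4 e5 e6) {x y1 y2 y3 y4 y5 y6 r : ℕ} {v : ℝ} {k : Nat → Nat → Nat → Nat → Nat → Nat → Nat → Nat → Bool} {G : Prop}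
    (h : In e1 e2 e3 e4 e5 e6 x y1 y2 y3 y4 y5 y6 r v) (hk : ∀ c a1 a2 a3 a4 a5 a6 q, In e1 e2 e3 e4 e5 e6 c a1 a2 a3 a4 a5 a6 q (-v) → k c a1 a2 a3 a4 a5 a6 q = true → G)
    (H : negK x y1 y2 y3 y4 y5 y6 r k = true) : G := by
  unfold negK at H
  replace H := frc H
  obtain ⟨c, hc, H⟩ := H
  replace H := frc H
  obtain ⟨a1, ha1, H⟩ := H
  replace H := frc H
  obtain ⟨a2, ha2, H⟩ := H
  replace H := frc H
  obtain ⟨a3, ha3, H⟩ := H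
  replace H := frc H
  obtain ⟨a4, ha4, H⟩ := H
  replace H := frc H
  obtain ⟨a5, ha5, H⟩ := H
  replace H := frc H
  obtain ⟨a6, ha6, H⟩ := H
  refine hk _ _ _ _ _ _ _ _ ?_ H
  clear H hk
  have hc := neg_spec hc
  have ha1 := neg_spec ha1
  have ha2 := neg_spec ha2
  have ha3 := neg_spec ha3
  have ha4 := neg_spec ha4
  have ha5 := neg_spec ha5
  have ha6 := neg_spec ha6
  unfold In at *
  rw [hc, ha1, ha2, ha3, ha4, ha5, ha6]
  have h1 := abs_le.1 h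
  rw [abs_le]; constructor <;> linarith [h1.1, h1.2]

/-- multiplication by the rational `n / m`; `K = m * B + m`, `D = n * B`. -/
noncomputable def smulK (n m K D x y1 y2 y3 y4 y5 y6 r : ℕ) (k : Nat → Nat → Nat → Nat → Nat → Nat → Nat → Nat → Bool) : Bool :=
  fB (Nat.div (Nat.sub (Nat.add (Nat.mul n x) K) D) m) fun c =>
  fB (Nat.div (Nat.sub (Nat.add (Nat.mul n y1) K) D) m) fun a1 =>
  fB (Nat.div (Nat.sub (Nat.add (Nat.mul n y2) K) D) m) fun a2 =>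
  fB (Nat.div (Nat.sub (Nat.add (Nat.mul n y3) K) D) m) fun a3 =>
  fB (Nat.div (Nat.sub (Nat.add (Nat.mul n y4) K) D) m) fun a4 =>
  fB (Nat.div (Nat.sub (Nat.add (Nat.mul n y5) K) D) m) fun a5 =>
  fB (Nat.div (Nat.sub (Nat.add (Nat.mul n y6) K) D) m) fun a6 =>
  fB (Nat.add (Nat.div (Nat.mul n r) m) 9) fun q =>
  k c a1 a2 a3 a4 a5 a6 q

theorem smulK_s {e1 e2 e3 e4 e5 e6 : ℝ} (he : Ev e1 e2 e3 e4 e5 e6) {n m K D x y1 y2 y3 y4 y5 y6 r : ℕ} {v w : ℝ} {k : Nat → Nat → Nat → Nat → Nat → Nat → Nat → Nat → Bool} {G : Prop}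
    (hm : 0 < m) (hK : K = m * 1152921504606846976 + m) (hD : D = n * 1152921504606846976) (hw : w = (n:ℝ) / m)
    (h : In e1 e2 e3 e4 e5 e6 x y1 y2 y3 y4 y5 y6 r v) (hk : ∀ c a1 a2 a3 a4 a5 a6 q, In e1 e2 e3 e4 e5 e6 c a1 a2 a3 a4 a5 a6 q (w * v) → k c a1 a2 a3 a4 a5 a6 q = true → G)
    (H : smulK n m K D x y1 y2 y3 y4 y5 y6 r k = true) : G := by
  unfold smulK at H
  replace H := frc H
  obtain ⟨c, hc, H⟩ := H
  replace H := frc H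
  obtain ⟨a1, ha1, H⟩ := H
  replace H := frc H
  obtain ⟨a2, ha2, H⟩ := H
  replace H := frc H
  obtain ⟨a3, ha3, H⟩ := H
  replace H := frc H
  obtain ⟨a4, ha4, H⟩ := H
  replace H := frc H
  obtain ⟨a5, ha5, H⟩ := H
  replace H := frc H
  obtain ⟨a6, ha6, H⟩ := H
  replace H := frc H
  obtain ⟨q, hq, H⟩ := H
  refine hk _ _ _ _ _ _ _ _ ?_ H
  clear H hk
  replace hc := abs_le.1 (smul_spec hm hK hD hw hc)
  replace ha1 := abs_le.1 (lane_le (smul_spec hm hK hD hw ha1) he.h1)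
  replace ha2 := abs_le.1 (lane_le (smul_spec hm hK hD hw ha2) he.h2)
  replace ha3 := abs_le.1 (lane_le (smul_spec hm hK hD hw ha3) he.h3)
  replace ha4 := abs_le.1 (lane_le (smul_spec hm hK hD hw ha4) he.h4)
  replace ha5 := abs_le.1 (lane_le (smul_spec hm hK hD hw ha5) he.h5)
  replace ha6 := abs_le.1 (lane_le (smul_spec hm hK hD hw ha6) he.h6)
  have hq := smulq_spec hm hw hq
  have hw0 : 0 ≤ w := by rw [hw]; positivity
  unfold In at *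
  have h1 := abs_le.1 (scal_le hw0 h)
  simp only [Nat.cast_ofNat] at hq
  rw [abs_le]; constructor <;> linarith [h1.1, h1.2, hc.1, hc.2, ha1.1, ha1.2, ha2.1, ha2.2, ha3.1, ha3.2, ha4.1, ha4.2, ha5.1, ha5.2, ha6.1, ha6.2]

noncomputable def mulK (x y1 y2 y3 y4 y5 y6 r x' z1 z2 z3 z4 z5 z6 r' : ℕ) (k : Nat → Nat → Nat → Nat → Nat → Nat → Nat → Nat → Bool) : Bool :=
  fB (Nat.shiftRight (Nat.sub (Nat.add (Nat.mul x x') 1329229263435516101133209656495177728) (Nat.mul 1152921504606846976 (Nat.add x x'))) 40) fun c =>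
  fB (Nat.shiftRight (Nat.sub (Nat.add (Nat.add (Nat.mul x z1) (Nat.mul x' y1)) 2658457259220431974037016716775522304) (Nat.mul 1152921504606846976 (Nat.add (Nat.add x x') (Nat.add y1 z1)))) 40) fun a1 =>
  fB (Nat.shiftRight (Nat.sub (Nat.add (Nat.add (Nat.mul x z2) (Nat.mul x' y2)) 2658457259220431974037016716775522304) (Nat.mul 1152921504606846976 (Nat.add (Nat.add x x') (Nat.add y2 z2)))) 40) fun a2 =>
  fB (Nat.shiftRight (Nat.sub (Nat.add (Nat.add (Nat.mul x z3) (Nat.mul x' y3)) 2658457259220431974037016716775522304) (Nat.mul 1152921504606846976 (Nat.add (Nat.add x x') (Nat.add y3 z3)))) 40) fun a3 =>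
  fB (Nat.shiftRight (Nat.sub (Nat.add (Nat.add (Nat.mul x z4) (Nat.mul x' y4)) 2658457259220431974037016716775522304) (Nat.mul 1152921504606846976 (Nat.add (Nat.add x x') (Nat.add y4 z4)))) 40) fun a4 =>
  fB (Nat.shiftRight (Nat.sub (Nat.add (Nat.add (Nat.mul x z5) (Nat.mul x' y5)) 2658457259220431974037016716775522304) (Nat.mul 1152921504606846976 (Nat.add (Nat.add x x') (Nat.add y5 z5)))) 40) fun a5 =>
  fB (Nat.shiftRight (Nat.sub (Nat.add (Nat.add (Nat.mul x z6) (Nat.mul x' y6)) 2658457259220431974037016716775522304) (Nat.mul 1152921504606846976 (Nat.add (Nat.add x x') (Nat.add y6 z6)))) 40) fun a6 =>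
  fB (Nat.add (Nat.shiftRight (Nat.add (Nat.add (Nat.mul (Nat.add (Nat.sub x 1152921504606846976) (Nat.sub 1152921504606846976 x)) r') (Nat.mul (Nat.add (Nat.sub x' 1152921504606846976) (Nat.sub 1152921504606846976 x')) r)) (Nat.mul (Nat.add (Nat.add (Nat.add (Nat.add (Nat.add (Nat.add (Nat.add (Nat.sub y1 1152921504606846976) (Nat.sub 1152921504606846976 y1)) (Nat.add (Nat.sub y2 1152921504606846976) (Nat.sub 1152921504606846976 y2))) (Nat.add (Nat.sub y3 1152921504606846976) (Nat.sub 1152921504606846976 y3))) (Nat.add (Nat.sub y4 1152921504606846976) (Nat.sub 1152921504606846976 y4))) (Nat.add (Nat.sub y5 1152921504606846976) (Nat.sub 1152921504606846976 y5))) (Nat.add (Nat.sub y6 1152921504606846976) (Nat.sub 1152921504606846976 y6))) r) (Nat.add (Nat.add (Nat.add (Nat.add (Nat.add (Nat.add (Nat.add (Nat.sub z1 1152921504606846976) (Nat.sub 1152921504606846976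 z1)) (Nat.add (Nat.sub z2 1152921504606846976) (Nat.sub 1152921504606846976 z2))) (Nat.add (Nat.sub z3 1152921504606846976) (Nat.sub 1152921504606846976 z3))) (Nat.add (Nat.sub z4 1152921504606846976) (Nat.sub 1152921504606846976 z4))) (Nat.add (Nat.sub z5 1152921504606846976) (Nat.sub 1152921504606846976 z5))) (Nat.add (Nat.sub z6 1152921504606846976) (Nat.sub 1152921504606846976 z6))) r'))) 40) 9) fun q =>
  k c a1 a2 a3 a4 a5 a6 q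

theorem mulK_s {e1 e2 e3 e4 e5 e6 : ℝ} (he : Ev e1 e2 e3 e4 e5 e6) {x y1 y2 y3 y4 y5 y6 r x' z1 z2 z3 z4 z5 z6 r' : ℕ} {v v' : ℝ} {k : Nat → Nat → Nat → Nat → Nat → Nat → Nat → Nat → Bool} {G : Prop}
    (h : In e1 e2 e3 e4 e5 e6 x y1 y2 y3 y4 y5 y6 r v) (h' : In e1 e2 e3 e4 e5 e6 x' z1 z2 z3 z4 z5 z6 r' v') (hk : ∀ c a1 a2 a3 a4 a5 a6 q, In e1 e2 e3 e4 e5 e6 c a1 a2 a3 a4 a5 a6 q (v * v') → k c a1 a2 a3 a4 a5 a6 q = true → G)
    (H : mulK x y1 y2 y3 y4 y5 y6 r x' z1 z2 z3 z4 z5 z6 r' k = true) : G := by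
  unfold mulK at H
  replace H := frc H
  obtain ⟨c, hc, H⟩ := H
  replace H := frc H
  obtain ⟨a1, ha1, H⟩ := H
  replace H := frc H
  obtain ⟨a2, ha2, H⟩ := H
  replace H := frc H
  obtain ⟨a3, ha3, H⟩ := H
  replace H := frc H
  obtain ⟨a4, ha4, H⟩ := H
  replace H := frc H
  obtain ⟨a5, ha5, H⟩ := H
  replace H := frc H
  obtain ⟨a6, ha6, H⟩ := H
  replace H := frc H
  obtain ⟨q, hq, H⟩ := H
  refine hk _ _ _ _ _ _ _ _ ?_ H
  clear H hk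
  have hc := abs_le.1 (mulc_spec hc)
  have ha1 := abs_le.1 (lane_le (mula_spec ha1) he.h1)
  have ha2 := abs_le.1 (lane_le (mula_spec ha2) he.h2)
  have ha3 := abs_le.1 (lane_le (mula_spec ha3) he.h3)
  have ha4 := abs_le.1 (lane_le (mula_spec ha4) he.h4)
  have ha5 := abs_le.1 (lane_le (mula_spec ha5) he.h5)
  have ha6 := abs_le.1 (lane_le (mula_spec ha6) he.h6)
  have hq := mulq_spec hq
  have r1 := rho_le he h
  have r2 := rho_le he h'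
  have p1 := abs_le.1 (lane_le2 (ab_ge x) h')
  have p2 := abs_le.1 (lane_le2 (ab_ge x') h)
  have p3 := abs_le.1 (lane_le2 r1 r2)
  unfold In
  refine abs_le_of_SS ?_
  simp only [Nat.cast_ofNat] at hq
  rw [abs_le]; constructor <;> linarith [p1.1, p1.2, p2.1, p2.2, p3.1, p3.2, hc.1, hc.2, ha1.1, ha1.2, ha2.1, ha2.2, ha3.1, ha3.2, ha4.1, ha4.2, ha5.1, ha5.2, ha6.1, ha6.2]

noncomputable def sqK (x y1 y2 y3 y4 y5 y6 r : ℕ) (k : Nat → Nat → Nat → Nat → Nat → Nat → Nat → Nat → Bool) : Bool :=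
  fB (Nat.add (Nat.add (Nat.add (Nat.add (Nat.add (Nat.add (Nat.add (Nat.add (Nat.sub y1 1152921504606846976) (Nat.sub 1152921504606846976 y1)) (Nat.add (Nat.sub y2 1152921504606846976) (Nat.sub 1152921504606846976 y2))) (Nat.add (Nat.sub y3 1152921504606846976) (Nat.sub 1152921504606846976 y3))) (Nat.add (Nat.sub y4 1152921504606846976) (Nat.sub 1152921504606846976 y4))) (Nat.add (Nat.sub y5 1152921504606846976) (Nat.sub 1152921504606846976 y5))) (Nat.add (Nat.sub y6 1152921504606846976) (Nat.sub 1152921504606846976 y6))) r) 1) fun p =>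
  fB (Nat.add (Nat.shiftRight (Nat.mul p p) 41) 2) fun g =>
  fB (Nat.shiftRight (Nat.sub (Nat.add (Nat.mul x x) 1329229263435516101133209656495177728) (Nat.mul 1152921504606846976 (Nat.add x x))) 40) fun c =>
  fB (Nat.shiftRight (Nat.sub (Nat.add (Nat.add (Nat.mul x y1) (Nat.mul x y1)) 2658457259220431974037016716775522304) (Nat.mul 1152921504606846976 (Nat.add (Nat.add x x) (Nat.add y1 y1)))) 40) fun a1 =>
  fB (Nat.shiftRight (Nat.sub (Nat.add (Nat.add (Nat.mul x y2) (Nat.mul x y2)) 2658457259220431974037016716775522304) (Nat.mul 1152921504606846976 (Nat.add (Nat.add x x) (Nat.add y2 y2)))) 40) fun a2 =>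
  fB (Nat.shiftRight (Nat.sub (Nat.add (Nat.add (Nat.mul x y3) (Nat.mul x y3)) 2658457259220431974037016716775522304) (Nat.mul 1152921504606846976 (Nat.add (Nat.add x x) (Nat.add y3 y3)))) 40) fun a3 =>
  fB (Nat.shiftRight (Nat.sub (Nat.add (Nat.add (Nat.mul x y4) (Nat.mul x y4)) 2658457259220431974037016716775522304) (Nat.mul 1152921504606846976 (Nat.add (Nat.add x x) (Nat.add y4 y4)))) 40) fun a4 =>
  fB (Nat.shiftRight (Nat.sub (Nat.add (Nat.add (Nat.mul x y5) (Nat.mul x y5)) 2658457259220431974037016716775522304) (Nat.mul 1152921504606846976 (Nat.add (Nat.add x x) (Nat.add y5 y5)))) 40) fun a5 =>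
  fB (Nat.shiftRight (Nat.sub (Nat.add (Nat.add (Nat.mul x y6) (Nat.mul x y6)) 2658457259220431974037016716775522304) (Nat.mul 1152921504606846976 (Nat.add (Nat.add x x) (Nat.add y6 y6)))) 40) fun a6 =>
  fB (Nat.add (Nat.add c g) 1) fun c' =>
  fB (Nat.add (Nat.add (Nat.shiftRight (Nat.mul (Nat.add (Nat.sub x 1152921504606846976) (Nat.sub 1152921504606846976 x)) r) 39) g) 9) fun q =>
  k c' a1 a2 a3 a4 a5 a6 q

theorem sqK_s {e1 e2 e3 e4 e5 e6 : ℝ} (he : Ev e1 e2 e3 e4 e5 e6) {x y1 y2 y3 y4 y5 y6 r : ℕ} {v : ℝ} {k : Nat → Nat → Nat → Nat → Nat → Nat → Nat → Nat → Bool} {G : Prop}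
    (h : In e1 e2 e3 e4 e5 e6 x y1 y2 y3 y4 y5 y6 r v) (hk : ∀ c a1 a2 a3 a4 a5 a6 q, In e1 e2 e3 e4 e5 e6 c a1 a2 a3 a4 a5 a6 q (v ^ 2) → k c a1 a2 a3 a4 a5 a6 q = true → G)
    (H : sqK x y1 y2 y3 y4 y5 y6 r k = true) : G := by
  unfold sqK at H
  replace H := frc H
  obtain ⟨p, hp, H⟩ := H
  replace H := frc H
  obtain ⟨g, hg, H⟩ := H
  replace H := frc H
  obtain ⟨c, hc, H⟩ := H
  replace H := frc H
  obtain ⟨a1, ha1, H⟩ := H
  replace H := frc H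
  obtain ⟨a2, ha2, H⟩ := H
  replace H := frc H
  obtain ⟨a3, ha3, H⟩ := H
  replace H := frc H
  obtain ⟨a4, ha4, H⟩ := H
  replace H := frc H
  obtain ⟨a5, ha5, H⟩ := H
  replace H := frc H
  obtain ⟨a6, ha6, H⟩ := H
  replace H := frc H
  obtain ⟨c', hc', H⟩ := H
  replace H := frc H
  obtain ⟨q, hq, H⟩ := H
  refine hk _ _ _ _ _ _ _ _ ?_ H
  clear H hk
  have hc := abs_le.1 (mulc_spec hc)
  have ha1 := abs_le.1 (lane_le (mula_spec ha1) he.h1)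
  have ha2 := abs_le.1 (lane_le (mula_spec ha2) he.h2)
  have ha3 := abs_le.1 (lane_le (mula_spec ha3) he.h3)
  have ha4 := abs_le.1 (lane_le (mula_spec ha4) he.h4)
  have ha5 := abs_le.1 (lane_le (mula_spec ha5) he.h5)
  have ha6 := abs_le.1 (lane_le (mula_spec ha6) he.h6)
  have hq := sqq_spec hq
  have hc' := addq_spec hc'
  have r1 := rho_le he h
  rw [succ_spec hp] at r1
  have hg := sqg_spec hg r1
  have p1 := abs_le.1 (lane_le2 (ab_ge x) h)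
  unfold In
  refine abs_le_of_SS ?_
  simp only [Nat.cast_ofNat] at hq
  rw [hc']
  rw [abs_le]; constructor <;> linarith [p1.1, p1.2, hg.1, hg.2, hc.1, hc.2, ha1.1, ha1.2, ha2.1, ha2.2, ha3.1, ha3.2, ha4.1, ha4.2, ha5.1, ha5.2, ha6.1, ha6.2]

/-- output `(n/m) v + (u - B ± s)/S`. -/
noncomputable def linK (n m u s x y1 y2 y3 y4 y5 y6 r : ℕ) (k : Nat → Nat → Nat → Nat → Nat → Nat → Nat → Nat → Bool) : Bool :=
  fB (Nat.add (Nat.mul m 1152921504606846977) 1) fun K =>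
  fB (Nat.add (Nat.mul n 1152921504606846976) 1) fun D =>
  fB (Nat.div (Nat.sub (Nat.add (Nat.mul n x) K) D) m) fun c =>
  fB (Nat.div (Nat.sub (Nat.add (Nat.mul n y1) K) D) m) fun a1 =>
  fB (Nat.div (Nat.sub (Nat.add (Nat.mul n y2) K) D) m) fun a2 =>
  fB (Nat.div (Nat.sub (Nat.add (Nat.mul n y3) K) D) m) fun a3 =>
  fB (Nat.div (Nat.sub (Nat.add (Nat.mul n y4) K) D) m) fun a4 =>
  fB (Nat.div (Nat.sub (Nat.add (Nat.mul n y5) K) D) m) fun a5 =>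
  fB (Nat.div (Nat.sub (Nat.add (Nat.mul n y6) K) D) m) fun a6 =>
  fB (Nat.sub (Nat.add c u) 1152921504606846975) fun c' =>
  fB (Nat.add (Nat.add (Nat.div (Nat.mul n r) m) s) 9) fun q =>
  k c' a1 a2 a3 a4 a5 a6 q

theorem linK_s {e1 e2 e3 e4 e5 e6 : ℝ} (he : Ev e1 e2 e3 e4 e5 e6) {n m u s x y1 y2 y3 y4 y5 y6 r : ℕ} {v f : ℝ} {k : Nat → Nat → Nat → Nat → Nat → Nat → Nat → Nat → Bool} {G : Prop}
    (hm : 0 < m) (h : In e1 e2 e3 e4 e5 e6 x y1 y2 y3 y4 y5 y6 r v) (hf : |SS * f - (n:ℝ) / m * (SS * v) - ((u:ℝ) - BB)| ≤ s) (hk : ∀ c a1 a2 a3 a4 a5 a6 q, In e1 e2 e3 e4 e5 e6 c a1 a2 a3 a4 a5 a6 q (f) → k c a1 a2 a3 a4 a5 a6 q = true → G)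
    (H : linK n m u s x y1 y2 y3 y4 y5 y6 r k = true) : G := by
  unfold linK at H
  replace H := frc H
  obtain ⟨K, hK, H⟩ := H
  replace H := frc H
  obtain ⟨D, hD, H⟩ := H
  replace H := frc H
  obtain ⟨c, hc, H⟩ := H
  replace H := frc H
  obtain ⟨a1, ha1, H⟩ := H
  replace H := frc H
  obtain ⟨a2, ha2, H⟩ := H
  replace H := frc H
  obtain ⟨a3, ha3, H⟩ := H
  replace H := frc H
  obtain ⟨a4, ha4, H⟩ := H
  replace H := frc H
  obtain ⟨a5, ha5, H⟩ := H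
  replace H := frc H
  obtain ⟨a6, ha6, H⟩ := H
  replace H := frc H
  obtain ⟨c', hc', H⟩ := H
  replace H := frc H
  obtain ⟨q, hq, H⟩ := H
  refine hk _ _ _ _ _ _ _ _ ?_ H
  clear H hk
  replace hK := K_spec hK
  replace hD := D_spec hD
  generalize hw : (n:ℝ) / m = w at hf
  have hw := hw.symm
  replace hc := abs_le.1 (smul_spec hm hK hD hw hc)
  replace ha1 := abs_le.1 (lane_le (smul_spec hm hK hD hw ha1) he.h1)
  replace ha2 := abs_le.1 (lane_le (smul_spec hm hK hD hw ha2) he.h2)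
  replace ha3 := abs_le.1 (lane_le (smul_spec hm hK hD hw ha3) he.h3)
  replace ha4 := abs_le.1 (lane_le (smul_spec hm hK hD hw ha4) he.h4)
  replace ha5 := abs_le.1 (lane_le (smul_spec hm hK hD hw ha5) he.h5)
  replace ha6 := abs_le.1 (lane_le (smul_spec hm hK hD hw ha6) he.h6)
  replace hq := linq_spec hm hw hq
  replace hc' := add_spec hc'
  have hw0 : 0 ≤ w := by rw [hw]; positivity
  clear hK
  try clear hD
  unfold In at *
  have h1 := abs_le.1 (scal_le hw0 h)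
  have h2 := abs_le.1 hf
  simp only [Nat.cast_ofNat] at hq
  rw [hc']
  rw [abs_le]; constructor <;> linarith [h1.1, h1.2, h2.1, h2.2, hc.1, hc.2, ha1.1, ha1.2, ha2.1, ha2.2, ha3.1, ha3.2, ha4.1, ha4.2, ha5.1, ha5.2, ha6.1, ha6.2]

/-- output `-(n/m) v + (u - B ± s)/S`. -/
noncomputable def nlinK (n m u s x y1 y2 y3 y4 y5 y6 r : ℕ) (k : Nat → Nat → Nat → Nat → Nat → Nat → Nat → Nat → Bool) : Bool :=
  fB (Nat.add (Nat.add (Nat.mul m 1152921504606846977) (Nat.mul n 1152921504606846976)) 1) fun K =>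
  fB (Nat.div (Nat.sub K (Nat.mul n x)) m) fun c =>
  fB (Nat.div (Nat.sub K (Nat.mul n y1)) m) fun a1 =>
  fB (Nat.div (Nat.sub K (Nat.mul n y2)) m) fun a2 =>
  fB (Nat.div (Nat.sub K (Nat.mul n y3)) m) fun a3 =>
  fB (Nat.div (Nat.sub K (Nat.mul n y4)) m) fun a4 =>
  fB (Nat.div (Nat.sub K (Nat.mul n y5)) m) fun a5 =>
  fB (Nat.div (Nat.sub K (Nat.mul n y6)) m) fun a6 =>
  fB (Nat.sub (Nat.add c u) 1152921504606846975) fun c' =>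
  fB (Nat.add (Nat.add (Nat.div (Nat.mul n r) m) s) 9) fun q =>
  k c' a1 a2 a3 a4 a5 a6 q

theorem nlinK_s {e1 e2 e3 e4 e5 e6 : ℝ} (he : Ev e1 e2 e3 e4 e5 e6) {n m u s x y1 y2 y3 y4 y5 y6 r : ℕ} {v f : ℝ} {k : Nat → Nat → Nat → Nat → Nat → Nat → Nat → Nat → Bool} {G : Prop}
    (hm : 0 < m) (h : In e1 e2 e3 e4 e5 e6 x y1 y2 y3 y4 y5 y6 r v) (hf : |SS * f + (n:ℝ) / m * (SS * v) - ((u:ℝ) - BB)| ≤ s) (hk : ∀ c a1 a2 a3 a4 a5 a6 q, In e1 e2 e3 e4 e5 e6 c a1 a2 a3 a4 a5 a6 q (f) → k c a1 a2 a3 a4 a5 a6 q = true → G)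
    (H : nlinK n m u s x y1 y2 y3 y4 y5 y6 r k = true) : G := by
  unfold nlinK at H
  replace H := frc H
  obtain ⟨K, hK, H⟩ := H
  replace H := frc H
  obtain ⟨c, hc, H⟩ := H
  replace H := frc H
  obtain ⟨a1, ha1, H⟩ := H
  replace H := frc H
  obtain ⟨a2, ha2, H⟩ := H
  replace H := frc H
  obtain ⟨a3, ha3, H⟩ := H
  replace H := frc H
  obtain ⟨a4, ha4, H⟩ := H
  replace H := frc H
  obtain ⟨a5, ha5, H⟩ := H
  replace H := frc H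
  obtain ⟨a6, ha6, H⟩ := H
  replace H := frc H
  obtain ⟨c', hc', H⟩ := H
  replace H := frc H
  obtain ⟨q, hq, H⟩ := H
  refine hk _ _ _ _ _ _ _ _ ?_ H
  clear H hk
  replace hK := K2_spec hK
  generalize hw : (n:ℝ) / m = w at hf
  have hw := hw.symm
  replace hc := abs_le.1 (nsmul_spec hm hK hw hc)
  replace ha1 := abs_le.1 (lane_le (nsmul_spec hm hK hw ha1) he.h1)
  replace ha2 := abs_le.1 (lane_le (nsmul_spec hm hK hw ha2) he.h2)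
  replace ha3 := abs_le.1 (lane_le (nsmul_spec hm hK hw ha3) he.h3)
  replace ha4 := abs_le.1 (lane_le (nsmul_spec hm hK hw ha4) he.h4)
  replace ha5 := abs_le.1 (lane_le (nsmul_spec hm hK hw ha5) he.h5)
  replace ha6 := abs_le.1 (lane_le (nsmul_spec hm hK hw ha6) he.h6)
  replace hq := linq_spec hm hw hq
  replace hc' := add_spec hc'
  have hw0 : 0 ≤ w := by rw [hw]; positivity
  clear hK
  try clear hD
  unfold In at *
  have h1 := abs_le.1 (scal_le hw0 h)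
  have h2 := abs_le.1 hf
  simp only [Nat.cast_ofNat] at hq
  rw [hc']
  rw [abs_le]; constructor <;> linarith [h1.1, h1.2, h2.1, h2.2, hc.1, hc.2, ha1.1, ha1.2, ha2.1, ha2.2, ha3.1, ha3.2, ha4.1, ha4.2, ha5.1, ha5.2, ha6.1, ha6.2]

noncomputable def invK (x y1 y2 y3 y4 y5 y6 r : ℕ) (k : Nat → Nat → Nat → Nat → Nat → Nat → Nat → Nat → Bool) : Bool :=
  fB (Nat.add (Nat.add (Nat.add (Nat.add (Nat.add (Nat.add (Nat.add (Nat.add (Nat.sub y1 1152921504606846976) (Nat.sub 1152921504606846976 y1)) (Nat.add (Nat.sub y2 1152921504606846976) (Nat.sub 1152921504606846976 y2))) (Nat.add (Nat.sub y3 1152921504606846976) (Nat.sub 1152921504606846976 y3))) (Nat.add (Nat.sub y4 1152921504606846976) (Nat.sub 1152921504606846976 y4))) (Nat.add (Nat.sub y5 1152921504606846976) (Nat.sub 1152921504606846976 y5))) (Nat.add (Nat.sub y6 1152921504606846976) (Nat.sub 1152921504606846976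 y6))) r) 1) fun p =>
  invS x p (fun n m u s => nlinK n m u s x y1 y2 y3 y4 y5 y6 r k)

theorem invK_s {e1 e2 e3 e4 e5 e6 : ℝ} (he : Ev e1 e2 e3 e4 e5 e6) {x y1 y2 y3 y4 y5 y6 r : ℕ} {v : ℝ} {k : Nat → Nat → Nat → Nat → Nat → Nat → Nat → Nat → Bool} {G : Prop}
    (h : In e1 e2 e3 e4 e5 e6 x y1 y2 y3 y4 y5 y6 r v) (hk : ∀ c a1 a2 a3 a4 a5 a6 q, In e1 e2 e3 e4 e5 e6 c a1 a2 a3 a4 a5 a6 q (v⁻¹) → k c a1 a2 a3 a4 a5 a6 q = true → G)
    (H : invK x y1 y2 y3 y4 y5 y6 r k = true) : G := by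
  unfold invK at H
  replace H := frc H
  obtain ⟨p, hp, H⟩ := H
  have r1 := rho_le he h
  rw [succ_spec hp] at r1
  exact invS_s r1 (fun n m u s hm hf H => nlinK_s he hm h hf hk H) H

noncomputable def sqrtK (x y1 y2 y3 y4 y5 y6 r : ℕ) (k : Nat → Nat → Nat → Nat → Nat → Nat → Nat → Nat → Bool) : Bool :=
  fB (Nat.add (Nat.add (Nat.add (Nat.add (Nat.add (Nat.add (Nat.add (Nat.add (Nat.sub y1 1152921504606846976) (Nat.sub 1152921504606846976 y1)) (Nat.add (Nat.sub y2 1152921504606846976) (Nat.sub 1152921504606846976 y2))) (Nat.add (Nat.sub y3 1152921504606846976) (Nat.sub 1152921504606846976 y3))) (Nat.add (Nat.sub y4 1152921504606846976) (Nat.sub 1152921504606846976 y4))) (Nat.add (Nat.sub y5 1152921504606846976) (Nat.sub 1152921504606846976 y5))) (Nat.add (Nat.sub y6 1152921504606846976) (Nat.sub 1152921504606846976 y6))) r) 1) fun p =>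
  sqrtS x p (fun n m u s => linK n m u s x y1 y2 y3 y4 y5 y6 r k)

theorem sqrtK_s {e1 e2 e3 e4 e5 e6 : ℝ} (he : Ev e1 e2 e3 e4 e5 e6) {x y1 y2 y3 y4 y5 y6 r : ℕ} {v : ℝ} {k : Nat → Nat → Nat → Nat → Nat → Nat → Nat → Nat → Bool} {G : Prop}
    (h : In e1 e2 e3 e4 e5 e6 x y1 y2 y3 y4 y5 y6 r v) (hk : ∀ c a1 a2 a3 a4 a5 a6 q, In e1 e2 e3 e4 e5 e6 c a1 a2 a3 a4 a5 a6 q (√v) → k c a1 a2 a3 a4 a5 a6 q = true → G)
    (H : sqrtK x y1 y2 y3 y4 y5 y6 r k = true) : G := by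
  unfold sqrtK at H
  replace H := frc H
  obtain ⟨p, hp, H⟩ := H
  have r1 := rho_le he h
  rw [succ_spec hp] at r1
  exact sqrtS_s r1 (fun n m u s hm hf H => linK_s he hm h hf hk H) H

noncomputable def reluK (x y1 y2 y3 y4 y5 y6 r : ℕ) (k : Nat → Nat → Nat → Nat → Nat → Nat → Nat → Nat → Bool) : Bool :=
  fB (Nat.add (Nat.add (Nat.add (Nat.add (Nat.add (Nat.add (Nat.add (Nat.add (Nat.sub y1 1152921504606846976) (Nat.sub 1152921504606846976 y1)) (Nat.add (Nat.sub y2 1152921504606846976) (Nat.sub 1152921504606846976 y2))) (Nat.add (Nat.sub y3 1152921504606846976) (Nat.sub 1152921504606846976 y3))) (Nat.add (Nat.sub y4 1152921504606846976) (Nat.sub 1152921504606846976 y4))) (Nat.add (Nat.sub y5 1152921504606846976) (Nat.sub 1152921504606846976 y5))) (Nat.add (Nat.sub y6 1152921504606846976) (Nat.sub 1152921504606846976 y6))) r) 1) fun p =>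
  reluS x p (fun n m u s => linK n m u s x y1 y2 y3 y4 y5 y6 r k)

theorem reluK_s {e1 e2 e3 e4 e5 e6 : ℝ} (he : Ev e1 e2 e3 e4 e5 e6) {x y1 y2 y3 y4 y5 y6 r : ℕ} {v : ℝ} {k : Nat → Nat → Nat → Nat → Nat → Nat → Nat → Nat → Bool} {G : Prop}
    (h : In e1 e2 e3 e4 e5 e6 x y1 y2 y3 y4 y5 y6 r v) (hk : ∀ c a1 a2 a3 a4 a5 a6 q, In e1 e2 e3 e4 e5 e6 c a1 a2 a3 a4 a5 a6 q (max v 0) → k c a1 a2 a3 a4 a5 a6 q = true → G)
    (H : reluK x y1 y2 y3 y4 y5 y6 r k = true) : G := by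
  unfold reluK at H
  replace H := frc H
  obtain ⟨p, hp, H⟩ := H
  have r1 := rho_le he h
  rw [succ_spec hp] at r1
  exact reluS_s r1 (fun n m u s hm hf H => linK_s he hm h hf hk H) H

noncomputable def pos (x y1 y2 y3 y4 y5 y6 r : ℕ) : Bool := Nat.ble (Nat.add (Nat.add (Nat.add (Nat.add (Nat.add (Nat.add (Nat.add (Nat.add (Nat.sub y1 1152921504606846976) (Nat.sub 1152921504606846976 y1)) (Nat.add (Nat.sub y2 1152921504606846976) (Nat.sub 1152921504606846976 y2))) (Nat.add (Nat.sub y3 1152921504606846976) (Nat.sub 1152921504606846976 y3))) (Nat.add (Nat.sub y4 1152921504606846976) (Nat.sub 1152921504606846976 y4))) (Nat.add (Nat.sub y5 1152921504606846976) (Nat.sub 1152921504606846976 y5))) (Nat.add (Nat.sub y6 1152921504606846976) (Nat.sub 1152921504606846976 y6))) r) 1152921504606846977) x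

theorem pos_s {e1 e2 e3 e4 e5 e6 : ℝ} (he : Ev e1 e2 e3 e4 e5 e6) {x y1 y2 y3 y4 y5 y6 r : ℕ} {v : ℝ} (h : In e1 e2 e3 e4 e5 e6 x y1 y2 y3 y4 y5 y6 r v) (H : pos x y1 y2 y3 y4 y5 y6 r = true) : 0 < v :=
  pos_spec (rho_le he h) H

/-- check positivity, then continue -/
noncomputable def posK (x y1 y2 y3 y4 y5 y6 r : ℕ) (k : Bool) : Bool := iB (Nat.ble (Nat.add (Nat.add (Nat.add (Nat.add (Nat.add (Nat.add (Nat.add (Nat.add (Nat.sub y1 1152921504606846976) (Nat.sub 1152921504606846976 y1)) (Nat.add (Nat.sub y2 1152921504606846976) (Nat.sub 1152921504606846976 y2))) (Nat.add (Nat.sub y3 1152921504606846976) (Nat.sub 1152921504606846976 y3))) (Nat.add (Nat.sub y4 1152921504606846976) (Nat.sub 1152921504606846976 y4))) (Nat.add (Nat.sub y5 1152921504606846976) (Nat.sub 1152921504606846976 y5))) (Nat.add (Nat.sub y6 1152921504606846976) (Nat.sub 1152921504606846976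 y6))) r) 1152921504606846977) x) false k

theorem posK_s {e1 e2 e3 e4 e5 e6 : ℝ} (he : Ev e1 e2 e3 e4 e5 e6) {x y1 y2 y3 y4 y5 y6 r : ℕ} {v : ℝ} {k : Bool} {G : Prop} (h : In e1 e2 e3 e4 e5 e6 x y1 y2 y3 y4 y5 y6 r v)
    (hk : 0 < v → k = true → G) (H : posK x y1 y2 y3 y4 y5 y6 r k = true) : G := by
  unfold posK at H
  obtain ⟨h1, h2⟩ := brc H
  exact hk (pos_spec (rho_le he h) h1) h2

noncomputable def go (leaf : Nat → Nat → Nat → Nat → Nat → Nat → Nat → Nat → Nat → Nat → Nat → Nat → Nat → Nat → Bool) (w mask fuel : ℕ) : Nat → Nat → Nat → Nat → Nat → Nat → Nat → Nat → Nat → Nat → Nat → Nat → Nat → Nat :=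
  @Nat.rec (fun _ => Nat → Nat → Nat → Nat → Nat → Nat → Nat → Nat → Nat → Nat → Nat → Nat → Nat → Nat) (fun _ _ _ _ _ _ _ _ _ _ _ _ _ => 0) (fun _ ih l1 h1 l2 h2 l3 h3 l4 h4 l5 h5 l6 h6 s =>
    fN (Nat.add (Nat.shiftRight s 4) 1) fun t =>
    sN (Nat.land s 15) (fN (Nat.add (Nat.add (Nat.shiftRight (Nat.add l1 h1) 1) (Nat.mod (Nat.shiftRight (Nat.add l1 h1) 13) 4093)) 1) fun m => fN (ih l1 m l2 h2 l3 h3 l4 h4 l5 h5 l6 h6 t) fun s1 => ih m h1 l2 h2 l3 h3 l4 h4 l5 h5 l6 h6 s1) fun j1 =>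
    sN j1 (fN (Nat.add (Nat.add (Nat.shiftRight (Nat.add l2 h2) 1) (Nat.mod (Nat.shiftRight (Nat.add l2 h2) 13) 4093)) 1) fun m => fN (ih l1 h1 l2 m l3 h3 l4 h4 l5 h5 l6 h6 t) fun s1 => ih l1 h1 m h2 l3 h3 l4 h4 l5 h5 l6 h6 s1) fun j2 =>
    sN j2 (fN (Nat.add (Nat.add (Nat.shiftRight (Nat.add l3 h3) 1) (Nat.mod (Nat.shiftRight (Nat.add l3 h3) 13) 4093)) 1) fun m => fN (ih l1 h1 l2 h2 l3 m l4 h4 l5 h5 l6 h6 t) fun s1 => ih l1 h1 l2 h2 m h3 l4 h4 l5 h5 l6 h6 s1) fun j3 =>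
    sN j3 (fN (Nat.add (Nat.add (Nat.shiftRight (Nat.add l4 h4) 1) (Nat.mod (Nat.shiftRight (Nat.add l4 h4) 13) 4093)) 1) fun m => fN (ih l1 h1 l2 h2 l3 h3 l4 m l5 h5 l6 h6 t) fun s1 => ih l1 h1 l2 h2 l3 h3 m h4 l5 h5 l6 h6 s1) fun j4 =>
    sN j4 (fN (Nat.add (Nat.add (Nat.shiftRight (Nat.add l5 h5) 1) (Nat.mod (Nat.shiftRight (Nat.add l5 h5) 13) 4093)) 1) fun m => fN (ih l1 h1 l2 h2 l3 h3 l4 h4 l5 m l6 h6 t) fun s1 => ih l1 h1 l2 h2 l3 h3 l4 h4 m h5 l6 h6 s1) fun j5 =>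
    sN j5 (fN (Nat.add (Nat.add (Nat.shiftRight (Nat.add l6 h6) 1) (Nat.mod (Nat.shiftRight (Nat.add l6 h6) 13) 4093)) 1) fun m => fN (ih l1 h1 l2 h2 l3 h3 l4 h4 l5 h5 l6 m t) fun s1 => ih l1 h1 l2 h2 l3 h3 l4 h4 l5 h5 m h6 s1) fun j6 =>
    fN (Nat.add (Nat.land t mask) 1) fun u => iN (leaf j6 u (Nat.shiftRight (Nat.add l1 h1) 1) (Nat.sub h1 (Nat.shiftRight (Nat.add l1 h1) 1)) (Nat.shiftRight (Nat.add l2 h2) 1) (Nat.sub h2 (Nat.shiftRight (Nat.add l2 h2) 1)) (Nat.shiftRight (Nat.add l3 h3) 1) (Nat.sub h3 (Nat.shiftRight (Nat.add l3 h3) 1)) (Nat.shiftRight (Nat.add l4 h4) 1) (Nat.sub h4 (Nat.shiftRight (Nat.add l4 h4) 1)) (Nat.shiftRight (Nat.add l5 h5) 1) (Nat.sub h5 (Nat.shiftRight (Nat.add l5 h5) 1)) (Nat.shiftRight (Nat.add l6 h6) 1) (Nat.sub h6 (Nat.shiftRight (Nat.add l6 h6) 1))) (Nat.add (Nat.shiftRight t w) 1)) fuel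

def Cov (Q : ℝ → ℝ → ℝ → ℝ → ℝ → ℝ → Prop) (l1 h1 l2 h2 l3 h3 l4 h4 l5 h5 l6 h6 : ℕ) : Prop := ∀ x1 x2 x3 x4 x5 x6 : ℝ, val l1 ≤ x1 → x1 ≤ val h1 → val l2 ≤ x2 → x2 ≤ val h2 → val l3 ≤ x3 → x3 ≤ val h3 → val l4 ≤ x4 → x4 ≤ val h4 → val l5 ≤ x5 → x5 ≤ val h5 → val l6 ≤ x6 → x6 ≤ val h6 → Q x1 x2 x3 x4 x5 x6

def Snd (Q : ℝ → ℝ → ℝ → ℝ → ℝ → ℝ → Prop) (leaf : Nat → Nat → Nat → Nat → Nat → Nat → Nat → Nat → Nat → Nat → Nat → Nat → Nat → Nat → Bool) : Prop :=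
  ∀ (j u c1 a1 c2 a2 c3 a3 c4 a4 c5 a5 c6 a6 : ℕ) (e1 e2 e3 e4 e5 e6 : ℝ), Ev e1 e2 e3 e4 e5 e6 → leaf j u c1 a1 c2 a2 c3 a3 c4 a4 c5 a5 c6 a6 = true →
    Q (val c1 + (a1:ℝ) / SS * e1) (val c2 + (a2:ℝ) / SS * e2) (val c3 + (a3:ℝ) / SS * e3) (val c4 + (a4:ℝ) / SS * e4) (val c5 + (a5:ℝ) / SS * e5) (val c6 + (a6:ℝ) / SS * e6)

theorem join1 {Q : ℝ → ℝ → ℝ → ℝ → ℝ → ℝ → Prop} {l1 h1 l2 h2 l3 h3 l4 h4 l5 h5 l6 h6 : ℕ} (m : ℕ) (H1 : Cov Q l1 m l2 h2 l3 h3 l4 h4 l5 h5 l6 h6) (H2 : Cov Q m h1 l2 h2 l3 h3 l4 h4 l5 h5 l6 h6) :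
    Cov Q l1 h1 l2 h2 l3 h3 l4 h4 l5 h5 l6 h6 := by
  intro x1 x2 x3 x4 x5 x6 p1 q1 p2 q2 p3 q3 p4 q4 p5 q5 p6 q6
  rcases le_total x1 (val m) with h | h
  · exact H1 x1 x2 x3 x4 x5 x6 p1 h p2 q2 p3 q3 p4 q4 p5 q5 p6 q6
  · exact H2 x1 x2 x3 x4 x5 x6 h q1 p2 q2 p3 q3 p4 q4 p5 q5 p6 q6

theorem join2 {Q : ℝ → ℝ → ℝ → ℝ → ℝ → ℝ → Prop} {l1 h1 l2 h2 l3 h3 l4 h4 l5 h5 l6 h6 : ℕ} (m : ℕ) (H1 : Cov Q l1 h1 l2 m l3 h3 l4 h4 l5 h5 l6 h6) (H2 : Cov Q l1 h1 m h2 l3 h3 l4 h4 l5 h5 l6 h6) :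
    Cov Q l1 h1 l2 h2 l3 h3 l4 h4 l5 h5 l6 h6 := by
  intro x1 x2 x3 x4 x5 x6 p1 q1 p2 q2 p3 q3 p4 q4 p5 q5 p6 q6
  rcases le_total x2 (val m) with h | h
  · exact H1 x1 x2 x3 x4 x5 x6 p1 q1 p2 h p3 q3 p4 q4 p5 q5 p6 q6
  · exact H2 x1 x2 x3 x4 x5 x6 p1 q1 h q2 p3 q3 p4 q4 p5 q5 p6 q6

theorem join3 {Q : ℝ → ℝ → ℝ → ℝ → ℝ → ℝ → Prop} {l1 h1 l2 h2 l3 h3 l4 h4 l5 h5 l6 h6 : ℕ} (m : ℕ) (H1 : Cov Q l1 h1 l2 h2 l3 m l4 h4 l5 h5 l6 h6) (H2 : Cov Q l1 h1 l2 h2 m h3 l4 h4 l5 h5 l6 h6) :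
    Cov Q l1 h1 l2 h2 l3 h3 l4 h4 l5 h5 l6 h6 := by
  intro x1 x2 x3 x4 x5 x6 p1 q1 p2 q2 p3 q3 p4 q4 p5 q5 p6 q6
  rcases le_total x3 (val m) with h | h
  · exact H1 x1 x2 x3 x4 x5 x6 p1 q1 p2 q2 p3 h p4 q4 p5 q5 p6 q6
  · exact H2 x1 x2 x3 x4 x5 x6 p1 q1 p2 q2 h q3 p4 q4 p5 q5 p6 q6

theorem join4 {Q : ℝ → ℝ → ℝ → ℝ → ℝ → ℝ → Prop} {l1 h1 l2 h2 l3 h3 l4 h4 l5 h5 l6 h6 : ℕ} (m : ℕ) (H1 : Cov Q l1 h1 l2 h2 l3 h3 l4 m l5 h5 l6 h6) (H2 : Cov Q l1 h1 l2 h2 l3 h3 m h4 l5 h5 l6 h6) :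
    Cov Q l1 h1 l2 h2 l3 h3 l4 h4 l5 h5 l6 h6 := by
  intro x1 x2 x3 x4 x5 x6 p1 q1 p2 q2 p3 q3 p4 q4 p5 q5 p6 q6
  rcases le_total x4 (val m) with h | h
  · exact H1 x1 x2 x3 x4 x5 x6 p1 q1 p2 q2 p3 q3 p4 h p5 q5 p6 q6
  · exact H2 x1 x2 x3 x4 x5 x6 p1 q1 p2 q2 p3 q3 h q4 p5 q5 p6 q6

theorem join5 {Q : ℝ → ℝ → ℝ → ℝ → ℝ → ℝ → Prop} {l1 h1 l2 h2 l3 h3 l4 h4 l5 h5 l6 h6 : ℕ} (m : ℕ) (H1 : Cov Q l1 h1 l2 h2 l3 h3 l4 h4 l5 m l6 h6) (H2 : Cov Q l1 h1 l2 h2 l3 h3 l4 h4 m h5 l6 h6) :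
    Cov Q l1 h1 l2 h2 l3 h3 l4 h4 l5 h5 l6 h6 := by
  intro x1 x2 x3 x4 x5 x6 p1 q1 p2 q2 p3 q3 p4 q4 p5 q5 p6 q6
  rcases le_total x5 (val m) with h | h
  · exact H1 x1 x2 x3 x4 x5 x6 p1 q1 p2 q2 p3 q3 p4 q4 p5 h p6 q6
  · exact H2 x1 x2 x3 x4 x5 x6 p1 q1 p2 q2 p3 q3 p4 q4 h q5 p6 q6

theorem join6 {Q : ℝ → ℝ → ℝ → ℝ → ℝ → ℝ → Prop} {l1 h1 l2 h2 l3 h3 l4 h4 l5 h5 l6 h6 : ℕ} (m : ℕ) (H1 : Cov Q l1 h1 l2 h2 l3 h3 l4 h4 l5 h5 l6 m) (H2 : Cov Q l1 h1 l2 h2 l3 h3 l4 h4 l5 h5 m h6) :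
    Cov Q l1 h1 l2 h2 l3 h3 l4 h4 l5 h5 l6 h6 := by
  intro x1 x2 x3 x4 x5 x6 p1 q1 p2 q2 p3 q3 p4 q4 p5 q5 p6 q6
  rcases le_total x6 (val m) with h | h
  · exact H1 x1 x2 x3 x4 x5 x6 p1 q1 p2 q2 p3 q3 p4 q4 p5 q5 p6 h
  · exact H2 x1 x2 x3 x4 x5 x6 p1 q1 p2 q2 p3 q3 p4 q4 p5 q5 h q6

theorem go_s {Q : ℝ → ℝ → ℝ → ℝ → ℝ → ℝ → Prop} {leaf : Nat → Nat → Nat → Nat → Nat → Nat → Nat → Nat → Nat → Nat → Nat → Nat → Nat → Nat → Bool} (hl : Snd Q leaf) (w mask fuel : ℕ) :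
    ∀ l1 h1 l2 h2 l3 h3 l4 h4 l5 h5 l6 h6 s : ℕ, go leaf w mask fuel l1 h1 l2 h2 l3 h3 l4 h4 l5 h5 l6 h6 s ≠ 0 → Cov Q l1 h1 l2 h2 l3 h3 l4 h4 l5 h5 l6 h6 := by
  induction fuel with
  | zero => intro l1 h1 l2 h2 l3 h3 l4 h4 l5 h5 l6 h6 s H; exact absurd rfl H
  | succ n ih =>
    intro l1 h1 l2 h2 l3 h3 l4 h4 l5 h5 l6 h6 s H
    replace H := nrc0 H
    obtain ⟨t, H⟩ := H
    rcases nrc H with H | ⟨j1, H⟩
    · obtain ⟨m, H⟩ := nrc0 H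
      replace H := nrc1 H
      obtain ⟨s1, g1, H⟩ := H
      exact join1 m (ih _ _ _ _ _ _ _ _ _ _ _ _ _ (ne_of_eq_of_ne g1 (Nat.succ_ne_zero _))) (ih _ _ _ _ _ _ _ _ _ _ _ _ _ H)
    rcases nrc H with H | ⟨j2, H⟩
    · obtain ⟨m, H⟩ := nrc0 H
      replace H := nrc1 H
      obtain ⟨s1, g1, H⟩ := H
      exact join2 m (ih _ _ _ _ _ _ _ _ _ _ _ _ _ (ne_of_eq_of_ne g1 (Nat.succ_ne_zero _))) (ih _ _ _ _ _ _ _ _ _ _ _ _ _ H)
    rcases nrc H with H | ⟨j3, H⟩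
    · obtain ⟨m, H⟩ := nrc0 H
      replace H := nrc1 H
      obtain ⟨s1, g1, H⟩ := H
      exact join3 m (ih _ _ _ _ _ _ _ _ _ _ _ _ _ (ne_of_eq_of_ne g1 (Nat.succ_ne_zero _))) (ih _ _ _ _ _ _ _ _ _ _ _ _ _ H)
    rcases nrc H with H | ⟨j4, H⟩
    · obtain ⟨m, H⟩ := nrc0 H
      replace H := nrc1 H
      obtain ⟨s1, g1, H⟩ := H
      exact join4 m (ih _ _ _ _ _ _ _ _ _ _ _ _ _ (ne_of_eq_of_ne g1 (Nat.succ_ne_zero _))) (ih _ _ _ _ _ _ _ _ _ _ _ _ _ H)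
    rcases nrc H with H | ⟨j5, H⟩
    · obtain ⟨m, H⟩ := nrc0 H
      replace H := nrc1 H
      obtain ⟨s1, g1, H⟩ := H
      exact join5 m (ih _ _ _ _ _ _ _ _ _ _ _ _ _ (ne_of_eq_of_ne g1 (Nat.succ_ne_zero _))) (ih _ _ _ _ _ _ _ _ _ _ _ _ _ H)
    rcases nrc H with H | ⟨j6, H⟩
    · obtain ⟨m, H⟩ := nrc0 H
      replace H := nrc1 H
      obtain ⟨s1, g1, H⟩ := H
      exact join6 m (ih _ _ _ _ _ _ _ _ _ _ _ _ _ (ne_of_eq_of_ne g1 (Nat.succ_ne_zero _))) (ih _ _ _ _ _ _ _ _ _ _ _ _ _ H)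
    replace H := nrc0 H
    obtain ⟨u, H⟩ := H
    have H := brc0 H
    intro x1 x2 x3 x4 x5 x6 p1 q1 p2 q2 p3 q3 p4 q4 p5 q5 p6 q6
    obtain ⟨e1, he1, hx1⟩ := mid_spec p1 q1
    obtain ⟨e2, he2, hx2⟩ := mid_spec p2 q2
    obtain ⟨e3, he3, hx3⟩ := mid_spec p3 q3
    obtain ⟨e4, he4, hx4⟩ := mid_spec p4 q4
    obtain ⟨e5, he5, hx5⟩ := mid_spec p5 q5
    obtain ⟨e6, he6, hx6⟩ := mid_spec p6 q6
    rw [hx1, hx2, hx3, hx4, hx5, hx6]
    exact hl _ _ _ _ _ _ _ _ _ _ _ _ _ _ e1 e2 e3 e4 e5 e6 ⟨he1, he2, he3, he4, he5, he6⟩ H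

theorem cov_of {Q : ℝ → ℝ → ℝ → ℝ → ℝ → ℝ → Prop} {leaf : Nat → Nat → Nat → Nat → Nat → Nat → Nat → Nat → Nat → Nat → Nat → Nat → Nat → Nat → Bool} (hl : Snd Q leaf) (w mask fuel l1 h1 l2 h2 l3 h3 l4 h4 l5 h5 l6 h6 s : ℕ)
    (H : Nat.beq (go leaf w mask fuel l1 h1 l2 h2 l3 h3 l4 h4 l5 h5 l6 h6 s) 1 = true) : Cov Q l1 h1 l2 h2 l3 h3 l4 h4 l5 h5 l6 h6 :=
  go_s hl w mask fuel l1 h1 l2 h2 l3 h3 l4 h4 l5 h5 l6 h6 s (by rw [Nat.eq_of_beq_eq_true H]; exact Nat.one_ne_zero)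

end Crest.Agent.R307.IA6
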