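import Crest.Agent.R307.IA0
import Mathlib.Analysis.SpecialFunctions.Log.Deriv
import Mathlib.Analysis.SpecialFunctions.Trigonometric.DerivHyp

/-!
# R307/IAl: the scalar part of the logarithm node of the box certifier
-/

set_option autoImplicit false
set_option linter.unusedVariables false
namespace Crest.Agent.R307.IA

theorem log_low_neg {y : ℝ} (h0 : -1 < y) (h1 : y ≤ 0) : y - y ^ 2 / (2 * (1 + y)) ≤ Real.log (1 + y) := by
  have hp : 0 < 1 + y := by linarith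
  have hi : 0 < (1 + y)⁻¹ := inv_pos.2 hp
  have h2 : 0 ≤ Real.log (1 + y)⁻¹ := Real.log_nonneg ((one_le_inv₀ hp).2 (by linarith))
  have h3 := Real.self_le_sinh_iff.2 h2
  rw [Real.sinh_log hi, Real.log_inv, inv_inv] at h3
  have e : y - y ^ 2 / (2 * (1 + y)) = -(((1 + y)⁻¹ - (1 + y)) / 2) := by field_simp; ring
  rw [e]; linarith

theorem log_low_mu {y μ : ℝ} (h0 : |y| ≤ μ) (h1 : μ < 1) : y - μ ^ 2 / (2 * (1 - μ)) ≤ Real.log (1 + y) := by
  obtain ⟨a, b⟩ := abs_le.1 h0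
  have hμ : 0 ≤ μ := (abs_nonneg _).trans h0
  have hs : y ^ 2 ≤ μ ^ 2 := sq_le_sq' a b
  rcases le_total y 0 with h | h
  · refine le_trans ?_ (log_low_neg (by linarith) h)
    have : y ^ 2 / (2 * (1 + y)) ≤ μ ^ 2 / (2 * (1 - μ)) :=
      div_le_div₀ (sq_nonneg _) hs (by linarith) (by linarith)
    linarith
  · refine le_trans ?_ (Real.le_log_one_add_of_nonneg h)
    have e : 2 * y / (y + 2) = y - y ^ 2 / (y + 2) := by field_simp; ring
    have : y ^ 2 / (y + 2) ≤ μ ^ 2 / (2 * (1 - μ)) :=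
      div_le_div₀ (sq_nonneg _) hs (by linarith) (by linarith)
    rw [e]; linarith

theorem log_ser {N D : ℝ} (hN : 0 ≤ N) (hD : 0 < D) (h : 3 * N ≤ D) :
    |Real.log ((D + N) / (D - N)) - 2 * (N * (fun A Q : ℝ => ((((((((((692835 * A + 765765 * Q ^ 1) * A + 855855 * Q ^ 2) * A + 969969 * Q ^ 3) * A + 1119195 * Q ^ 4) * A + 1322685 * Q ^ 5) * A + 1616615 * Q ^ 6) * A + 2078505 * Q ^ 7) * A + 2909907 * Q ^ 8) * A + 4849845 * Q ^ 9) * A + 14549535 * Q ^ 10)) (N * N) (D * D)) / (14549535 * D * (D * D) ^ 10)| ≤ 25 / 10 ^ 12 := by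
  have z0 : 0 ≤ N / D := div_nonneg hN hD.le
  have z1 : N / D ≤ 1 / 3 := by rw [div_le_iff₀ hD]; linarith
  have l1 := Real.sum_range_le_log_div z0 (by linarith) 11
  have l2 := Real.log_div_le_sum_range_add z0 (by linarith) 11
  have e1 : (1 + N / D) / (1 - N / D) = (D + N) / (D - N) := by
    have : D - N ≠ 0 := by linarith [show 0 < D - N by linarith] |> fun (h : 0 < D - N) => h.ne'
    field_simp
  have e2 : 2 * (N * (fun A Q : ℝ => ((((((((((692835 * A + 765765 * Q ^ 1) * A + 855855 * Q ^ 2) * A + 969969 * Q ^ 3) * A + 1119195 * Q ^ 4) * A + 1322685 * Q ^ 5) * A + 1616615 * Q ^ 6) * A + 2078505 * Q ^ 7) * A + 2909907 * Q ^ 8) * A + 4849845 * Q ^ 9) * A + 14549535 * Q ^ 10)) (N * N) (D * D)) / (14549535 * D * (D * D) ^ 10) =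
      2 * ∑ i ∈ Finset.range 11, (N / D) ^ (2 * i + 1) / (2 * i + 1) := by
    simp only [Finset.sum_range_succ, Finset.sum_range_zero]
    push_cast
    field_simp
    ring
  rw [e1] at l1 l2
  rw [e2]
  have p1 : (N / D) ^ (2 * 11 + 1) ≤ (1 / 3) ^ (2 * 11 + 1) := pow_le_pow_left₀ z0 z1 _
  have p2 : (N / D) ^ 2 ≤ (1 / 3) ^ 2 := pow_le_pow_left₀ z0 z1 _
  have p3 : (N / D) ^ (2 * 11 + 1) / (1 - (N / D) ^ 2) ≤ (1 / 3) ^ (2 * 11 + 1) / (1 - (1 / 3) ^ 2) :=
    div_le_div₀ (by positivity) p1 (by norm_num) (by linarith)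
  have p4 : ((1:ℝ) / 3) ^ (2 * 11 + 1) / (1 - (1 / 3) ^ 2) ≤ 12 / 10 ^ 12 := by norm_num
  rw [abs_le]; constructor <;> linarith

noncomputable def logS (x p : ℕ) (k : ℕ → ℕ → ℕ → ℕ → Bool) : Bool :=
  fB (Nat.sub x (Nat.add p 1152921504606846976)) fun l =>
  fB (Nat.sub x 1152921504606846975) fun X =>
  fB (Nat.add (Nat.log2 X) 1) fun j =>
  fB (Nat.add (Nat.pow 2 j) 1) fun P =>
  fB (Nat.sub (Nat.add X 1) P) fun N =>
  iB (Nat.ble X (Nat.add P P)) false (
  fB (Nat.add (Nat.add X P) 1) fun D =>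
  fB (Nat.add (Nat.mul N N) 1) fun A =>
  fB (Nat.add (Nat.mul D D) 1) fun Q =>
  fB (Nat.add (Nat.div (Nat.mul 2199023255552 (Nat.mul N (Nat.add (Nat.mul (Nat.add (Nat.mul (Nat.add (Nat.mul (Nat.add (Nat.mul (Nat.add (Nat.mul (Nat.add (Nat.mul (Nat.add (Nat.mul (Nat.add (Nat.mul (Nat.add (Nat.mul (Nat.add (Nat.mul 692835 A) (Nat.mul 765765 (Nat.pow Q 1))) A) (Nat.mul 855855 (Nat.pow Q 2))) A) (Nat.mul 969969 (Nat.pow Q 3))) A) (Nat.mul 1119195 (Nat.pow Q 4))) A) (Nat.mul 1322685 (Nat.pow Q 5))) A) (Nat.mul 1616615 (Nat.pow Q 6))) A) (Nat.mul 2078505 (Nat.pow Q 7))) A) (Nat.mul 2909907 (Nat.pow Q 8))) A) (Nat.mul 4849845 (Nat.pow Q 9))) A) (Nat.mul 14549535 (Nat.pow Q 10))))) (Nat.mul (Nat.mul 14549535 D) (Nat.pow Q 10))) 1) fun F =>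
  fB (Nat.add (Nat.div (Nat.mul 274877906944 (Nat.mul p p)) (Nat.mul X (Nat.add l 1))) 2) fun g =>
  fB (Nat.sub (Nat.add (Nat.add 1152921504606846977 F) (Nat.mul j 762123384783)) (Nat.add 31584447019096 g)) fun u =>
    k 1099511627776 X u (Nat.add (Nat.add g 40) (Nat.mul 120 (Nat.add (Nat.sub j 40) (Nat.sub 40 j)))))

theorem logS_s {x p : ℕ} {v : ℝ} {k : ℕ → ℕ → ℕ → ℕ → Bool} {G : Prop}
    (h : |SS * v - ((x:ℝ) - BB)| ≤ p)
    (hk : ∀ n m u s : ℕ, 0 < m → |SS * Real.log v - (n:ℝ) / m * (SS * v) - ((u:ℝ) - BB)| ≤ s → k n m u s = true → G)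
    (H : logS x p k = true) : G := by
  unfold logS at H
  replace H := frc H
  obtain ⟨l, hl, H⟩ := H
  replace H := frc H
  obtain ⟨X, hX, H⟩ := H
  replace H := frc H
  obtain ⟨j, -, H⟩ := H
  replace H := frc H
  obtain ⟨P, hP, H⟩ := H
  replace H := frc H
  obtain ⟨N, hN, H⟩ := H
  replace H := brc H
  obtain ⟨hb, H⟩ := H
  replace H := frc H
  obtain ⟨D, hD, H⟩ := H
  replace H := frc H
  obtain ⟨A, hA, H⟩ := H
  replace H := frc H
  obtain ⟨Q, hQ, H⟩ := H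
  replace H := frc H
  obtain ⟨F, hF, H⟩ := H
  replace H := frc H
  obtain ⟨g, hg, H⟩ := H
  replace H := frc H
  obtain ⟨u, hu, H⟩ := H
  replace hb : X ≤ P + P := Nat.le_of_ble_eq_true hb
  replace hP : 2 ^ j = P := succ_spec hP
  replace hD : X + P = D := succ_spec hD
  replace hA : N * N = A := succ_spec hA
  replace hQ : D * D = Q := succ_spec hQ
  replace hF := succ_spec hF
  have hX1 : X = l + 1 + p ∧ x = X + 1152921504606846976 := by
    simp only [Nat.add_eq, Nat.sub_eq] at hl hX; omega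
  have hN1 : X = N + P := by simp only [Nat.add_eq, Nat.sub_eq] at hN; omega
  have hu1 : u + 31584447019096 + g = 1152921504606846976 + F + j * 762123384783 := by
    simp only [Nat.add_eq, Nat.sub_eq, Nat.mul_eq] at hu; omega
  have hP0 : 0 < P := by rw [← hP]; positivity
  refine hk _ _ _ _ (by omega) ?_ H
  clear H hk hl hX hN hu
  have hS := SS_pos
  have rX : (X:ℝ) = l + 1 + p := by exact_mod_cast hX1.1
  have rx : (x:ℝ) - BB = X := by rw [hX1.2, ← BB_cast]; push_cast; ring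
  have rN : (X:ℝ) = N + P := by exact_mod_cast hN1
  have rD : (D:ℝ) = X + P := by exact_mod_cast hD.symm
  have rb : (X:ℝ) ≤ P + P := by exact_mod_cast hb
  have rP : (0:ℝ) < P := by exact_mod_cast hP0
  have l0 : (0:ℝ) ≤ l := Nat.cast_nonneg _
  have p0 : (0:ℝ) ≤ p := Nat.cast_nonneg _
  have N0 : (0:ℝ) ≤ N := Nat.cast_nonneg _
  have X0 : (0:ℝ) < X := by linarith
  have D0 : (0:ℝ) < D := by linarith
  have ru : (u:ℝ) - BB = F + ((j:ℝ) - 40) * 762123384783 - SS - g := by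
    have : (u:ℝ) + 31584447019096 + g = 1152921504606846976 + F + j * 762123384783 := by exact_mod_cast hu1
    unfold BB SS; linarith
  -- the series
  have s1 := log_ser N0 D0 (by linarith)
  have e1 : ((D:ℝ) + N) / (D - N) = X / P := by
    rw [show (D:ℝ) + N = 2 * X by linarith, show (D:ℝ) - N = 2 * P by linarith]; field_simp
  rw [e1] at s1
  obtain ⟨T, hT⟩ : ∃ T : ℕ, T = (Nat.add (Nat.mul (Nat.add (Nat.mul (Nat.add (Nat.mul (Nat.add (Nat.mul (Nat.add (Nat.mul (Nat.add (Nat.mul (Nat.add (Nat.mul (Nat.add (Nat.mul (Nat.add (Nat.mul (Nat.add (Nat.mul 692835 A) (Nat.mul 765765 (Nat.pow Q 1))) A) (Nat.mul 855855 (Nat.pow Q 2))) A) (Nat.mul 969969 (Nat.pow Q 3))) A) (Nat.mul 1119195 (Nat.pow Q 4))) A) (Nat.mul 1322685 (Nat.pow Q 5))) A) (Nat.mul 1616615 (Nat.pow Q 6))) A) (Nat.mul 2078505 (Nat.pow Q 7))) A) (Nat.mul 2909907 (Nat.pow Q 8))) A) (Nat.mul 4849845 (Nat.pow Q 9))) A) (Nat.mul 14549535 (Nat.pow Q 10))) :=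 ⟨_, rfl⟩
  rw [← hT] at hF
  have rT : (fun A Q : ℝ => ((((((((((692835 * A + 765765 * Q ^ 1) * A + 855855 * Q ^ 2) * A + 969969 * Q ^ 3) * A + 1119195 * Q ^ 4) * A + 1322685 * Q ^ 5) * A + 1616615 * Q ^ 6) * A + 2078505 * Q ^ 7) * A + 2909907 * Q ^ 8) * A + 4849845 * Q ^ 9) * A + 14549535 * Q ^ 10)) ((N:ℝ) * N) ((D:ℝ) * D) = (T:ℝ) := by
    rw [hT, ← hA, ← hQ]; simp only [Nat.add_eq, Nat.mul_eq, Nat.pow_eq]; push_cast; ring
  rw [rT] at s1
  have hm : 0 < 14549535 * D * Q ^ 10 := by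
    have : 0 < D := by omega
    rw [← hQ]; positivity
  have f1 : (2199023255552 * (N * T) : ℕ) / (14549535 * D * Q ^ 10) = F := hF
  have f2 := div_ge (A := 2199023255552 * (N * T)) hm
  have f3 := Nat.div_mul_le_self (2199023255552 * (N * T)) (14549535 * D * Q ^ 10)
  rw [f1] at f2 f3
  have f4 : (F:ℝ) * (14549535 * D * (D * D) ^ 10) ≤ 2199023255552 * (N * T) := by
    rw [← hQ] at f3; exact_mod_cast f3
  have f5 : (2199023255552:ℝ) * (N * T) ≤ (14549535 * D * (D * D) ^ 10) * (F + 1) := by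
    rw [← hQ] at f2; exact_mod_cast f2
  have hm' : (0:ℝ) < 14549535 * D * (D * D) ^ 10 := by positivity
  generalize (14549535:ℝ) * D * (D * D) ^ 10 = W at s1 f4 f5 hm'
  have f6 : (F:ℝ) ≤ SS * (2 * (N * T) / W) ∧ SS * (2 * (N * T) / W) ≤ F + 1 := by
    rw [← mul_div_assoc, le_div_iff₀ hm', div_le_iff₀ hm']
    unfold SS; constructor <;> linarith
  generalize 2 * ((N:ℝ) * T) / W = Z at s1 f6
  clear hT rT hF f1 f2 f3 f4 f5 hm hm'
  -- the quadratic error
  have g1 := div_ge (A := 274877906944 * (p * p)) (m := X * (l + 1)) (Nat.mul_pos (by omega) (by omega))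
  have g2 : (274877906944 * (p * p) : ℕ) / (X * (l + 1)) + 1 = g := by
    simp only [Nat.add_eq, Nat.mul_eq] at hg
    have : Nat.div (274877906944 * (p * p)) (X * (l + 1)) = 274877906944 * (p * p) / (X * (l + 1)) := rfl
    omega
  have g3 : (274877906944:ℝ) * (p * p) ≤ X * (l + 1) * g := by
    rw [← g2]; exact_mod_cast g1
  rw [rx] at h
  obtain ⟨y, hy⟩ : ∃ y : ℝ, y = (SS * v - X) / X := ⟨_, rfl⟩
  have y1 : |y| ≤ p / X := by rw [hy, abs_div, abs_of_pos X0]; exact div_le_div_of_nonneg_right h X0.le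
  have m1 : (p:ℝ) / X < 1 := by rw [div_lt_one X0]; linarith
  have y2 := log_low_mu y1 m1
  have y0 : 0 < 1 + y := by linarith [(abs_le.1 y1).1]
  have y3 : Real.log (1 + y) ≤ y := by linarith [Real.log_le_sub_one_of_pos y0]
  have y4 : SS * (((p:ℝ) / X) ^ 2 / (2 * (1 - p / X))) ≤ 2 * g := by
    have e : SS * (((p:ℝ) / X) ^ 2 / (2 * (1 - p / X))) = 2 * (274877906944 * (p * p) / (X * (l + 1))) := by
      have : (1:ℝ) - p / X = (l + 1) / X := by rw [eq_div_iff X0.ne', sub_mul, div_mul_cancel₀ _ X0.ne']; linarith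
      rw [this]; unfold SS; field_simp; ring
    rw [e]
    have : (274877906944:ℝ) * (p * p) / (X * (l + 1)) ≤ g := by
      rw [div_le_iff₀ (by positivity)]; linarith
    linarith
  have ev : v = X / P * 2 ^ j / 2 ^ 40 * (1 + y) := by
    have : (P:ℝ) = 2 ^ j := by exact_mod_cast hP.symm
    rw [hy, ← this]; unfold SS; field_simp; ring
  have lv : Real.log v = Real.log (X / P) + ((j:ℝ) - 40) * Real.log 2 + Real.log (1 + y) := by
    conv_lhs => rw [ev]
    rw [Real.log_mul (by positivity) y0.ne', Real.log_div (by positivity) (by positivity),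
      Real.log_mul (by positivity) (by positivity), Real.log_pow, Real.log_pow]
    push_cast; ring
  have e2 : ((1099511627776:ℕ):ℝ) / X * (SS * v) = SS + SS * y := by
    rw [SS_cast, hy]; field_simp; ring
  have t2 : |SS * Real.log 2 - 762123384783| ≤ 120 := by
    have := abs_le.1 Real.log_two_near_10
    unfold SS; rw [abs_le]; constructor <;> linarith [this.1, this.2]
  have t3 : |(j:ℝ) - 40| ≤ ((Nat.add (Nat.sub j 40) (Nat.sub 40 j) : ℕ) : ℝ) := by
    simp only [Nat.add_eq, Nat.sub_eq]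
    rcases le_total j 40 with a | a
    · rw [Nat.sub_eq_zero_of_le a, zero_add, Nat.cast_sub a, abs_sub_comm, abs_of_nonneg]
      · norm_num
      · exact sub_nonneg.2 (by exact_mod_cast a)
    · rw [Nat.sub_eq_zero_of_le a, add_zero, Nat.cast_sub a, abs_of_nonneg]
      · norm_num
      · exact sub_nonneg.2 (by exact_mod_cast a)
  have t4 := abs_le.1 (lane_le2 t3 t2)
  generalize Nat.add (Nat.sub j 40) (Nat.sub 40 j) = J at t4 ⊢
  rw [e2, ru, lv]
  simp only [Nat.add_eq, Nat.mul_eq]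
  push_cast
  have s2 := abs_le.1 (scal_le hS.le s1)
  have s3 : SS * (25 / 10 ^ 12) ≤ 28 := by unfold SS; norm_num
  have y5 := mul_le_mul_of_nonneg_left y2 hS.le
  have y6 := mul_le_mul_of_nonneg_left y3 hS.le
  rw [abs_le]; constructor <;> linarith [s2.1, s2.2, t4.1, t4.2, f6.1, f6.2]

end Crest.Agent.R307.IA
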