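import Crest.Agent.R307.IA1
import Crest.Agent.R307.IAl

set_option autoImplicit false
set_option linter.unusedVariables false
namespace Crest.Agent.R307.IA1
open Crest.Agent.R307.IA

noncomputable def logK (x y1 r : ℕ) (k : Nat → Nat → Nat → Bool) : Bool :=
  fB (Nat.add (Nat.add (Nat.add (Nat.sub y1 1152921504606846976) (Nat.sub 1152921504606846976 y1)) r) 1) fun p =>
  logS x p (fun n m u s => linK n m u s x y1 r k)

theorem logK_s {e1 : ℝ} (he : Ev e1) {x y1 r : ℕ} {v : ℝ} {k : Nat → Nat → Nat → Bool} {G : Prop}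
    (h : In e1 x y1 r v) (hk : ∀ c a1 q, In e1 c a1 q (Real.log v) → k c a1 q = true → G)
    (H : logK x y1 r k = true) : G := by
  unfold logK at H
  replace H := frc H
  obtain ⟨p, hp, H⟩ := H
  have r1 := rho_le he h
  rw [succ_spec hp] at r1
  exact logS_s r1 (fun n m u s hm hf H => linK_s he hm h hf hk H) H

end Crest.Agent.R307.IA1
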