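import Crest.Agent.R307.IA4
import Crest.Agent.R307.IAl

set_option autoImplicit false
set_option linter.unusedVariables false
namespace Crest.Agent.R307.IA4
open Crest.Agent.R307.IA

noncomputable def logK (x y1 y2 y3 y4 r : ℕ) (k : Nat → Nat → Nat → Nat → Nat → Nat → Bool) : Bool :=
  fB (Nat.add (Nat.add (Nat.add (Nat.add (Nat.add (Nat.add (Nat.sub y1 1152921504606846976) (Nat.sub 1152921504606846976 y1)) (Nat.add (Nat.sub y2 1152921504606846976) (Nat.sub 1152921504606846976 y2))) (Nat.add (Nat.sub y3 1152921504606846976) (Nat.sub 1152921504606846976 y3))) (Nat.add (Nat.sub y4 1152921504606846976) (Nat.sub 1152921504606846976 y4))) r) 1) fun p =>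
  logS x p (fun n m u s => linK n m u s x y1 y2 y3 y4 r k)

theorem logK_s {e1 e2 e3 e4 : ℝ} (he : Ev e1 e2 e3 e4) {x y1 y2 y3 y4 r : ℕ} {v : ℝ} {k : Nat → Nat → Nat → Nat → Nat → Nat → Bool} {G : Prop}
    (h : In e1 e2 e3 e4 x y1 y2 y3 y4 r v) (hk : ∀ c a1 a2 a3 a4 q, In e1 e2 e3 e4 c a1 a2 a3 a4 q (Real.log v) → k c a1 a2 a3 a4 q = true → G)
    (H : logK x y1 y2 y3 y4 r k = true) : G := by
  unfold logK at H
  replace H := frc H
  obtain ⟨p, hp, H⟩ := H
  have r1 := rho_le he h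
  rw [succ_spec hp] at r1
  exact logS_s r1 (fun n m u s hm hf H => linK_s he hm h hf hk H) H

end Crest.Agent.R307.IA4
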