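import Crest.Agent.R307.IAl

/-!
# R307/LGa: the one-variable quadratic minorant for the logarithmic potential
-/

set_option autoImplicit false

namespace Crest.Agent.R307

open Real

noncomputable def lgPsi (x κ z : ℝ) : ℝ := log (1 - x * z ^ 2) - (1 - κ) * log (1 - z) - (1 + κ) * log (1 + z)

noncomputable def lgX (x τ : ℝ) : ℝ := x / (1 - x * τ ^ 2)
noncomputable def lgY (x τ : ℝ) : ℝ := 2 * (lgX x τ * x)
noncomputable def lgc0 (x τ e : ℝ) : ℝ := 2 + e * τ - 2 * lgX x τ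
noncomputable def lgc1 (x τ e : ℝ) : ℝ := e - lgY x τ * τ
noncomputable def lgc2 (x τ e : ℝ) : ℝ := 2 + e * τ - lgY x τ
noncomputable def lgc3 (x τ e : ℝ) : ℝ := e - lgY x τ * (x * τ)
noncomputable def lgc4 (x τ e : ℝ) : ℝ := 2 + e * τ - max (-e) 0 - lgY x τ * (x * (1 + x * τ) / (1 - x))
noncomputable def lgaq (x τ e : ℝ) : ℝ :=
  lgc2 x τ e / 4 - max (-lgc3 x τ e) 0 / 5 + τ * (lgc3 x τ e * (3/20) + τ * (lgc4 x τ e / 10))
noncomputable def lgb (x τ e : ℝ) : ℝ :=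
  lgc1 x τ e / 3 + τ * (lgc2 x τ e / 6 + τ * (lgc3 x τ e / 10 + τ * (lgc4 x τ e / 15)))
noncomputable def lgq (x τ e : ℝ) : ℝ :=
  lgc0 x τ e / 2 + τ * (lgc1 x τ e / 6 + τ * (lgc2 x τ e / 12 + τ * (lgc3 x τ e / 20 + τ * (lgc4 x τ e / 30))))
    - max (-lgb x τ e) 0 ^ 2 / (4 * lgaq x τ e)

theorem lg_min {g h : ℝ → ℝ} {τ θ : ℝ} (hτ0 : 0 ≤ τ) (hτ1 : τ < 1) (hθ0 : 0 ≤ θ) (hθ1 : θ < 1)
    (hd : ∀ z, 0 ≤ z → z < 1 → HasDerivAt g ((z - τ) * h z) z) (hh : ∀ z, 0 ≤ z → z < 1 → 0 ≤ h z) : g τ ≤ g θ := by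
  rcases lt_trichotomy τ θ with c | c | c
  · obtain ⟨z, hz, e⟩ := exists_hasDerivAt_eq_slope g (fun z => (z - τ) * h z) c
      (fun z hz => (hd z (by linarith [hz.1]) (by linarith [hz.2])).continuousAt.continuousWithinAt)
      (fun z hz => hd z (by linarith [hz.1]) (by linarith [hz.2]))
    have : 0 ≤ (z - τ) * h z := mul_nonneg (by linarith [hz.1]) (hh z (by linarith [hz.1]) (by linarith [hz.2]))
    rw [e, le_div_iff₀ (by linarith)] at this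
    linarith
  · rw [c]
  · obtain ⟨z, hz, e⟩ := exists_hasDerivAt_eq_slope g (fun z => (z - τ) * h z) c
      (fun z hz => (hd z (by linarith [hz.1]) (by linarith [hz.2])).continuousAt.continuousWithinAt)
      (fun z hz => hd z (by linarith [hz.1]) (by linarith [hz.2]))
    have : (z - τ) * h z ≤ 0 :=
      mul_nonpos_of_nonpos_of_nonneg (by linarith [hz.2]) (hh z (by linarith [hz.1]) (by linarith [hz.2]))
    rw [e, div_le_iff₀ (by linarith)] at this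
    linarith

theorem lg_den {x z : ℝ} (hx0 : 0 ≤ x) (_hx1 : x < 1) (h0 : 0 ≤ z) (h1 : z ≤ 1) : 1 - x ≤ 1 - x * z ^ 2 := by
  have : z ^ 2 ≤ 1 := by nlinarith
  nlinarith

theorem lg_psi_deriv {x κ z : ℝ} (hx0 : 0 ≤ x) (hx1 : x < 1) (h0 : 0 ≤ z) (h1 : z < 1) :
    HasDerivAt (lgPsi x κ) (-(x * (2 * z)) / (1 - x * z ^ 2) + (1 - κ) / (1 - z) - (1 + κ) / (1 + z)) z := by
  have d0 : 0 < 1 - x * z ^ 2 := by linarith [lg_den hx0 hx1 h0 h1.le]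
  have a1 : HasDerivAt (fun z : ℝ => 1 - x * z ^ 2) (-(x * (2 * z))) z := by
    simpa using ((hasDerivAt_pow 2 z).const_mul x).const_sub 1
  have a2 : HasDerivAt (fun z : ℝ => 1 - z) (-1) z := by simpa using (hasDerivAt_id z).const_sub 1
  have a3 : HasDerivAt (fun z : ℝ => 1 + z) 1 z := by simpa using (hasDerivAt_id z).const_add 1
  have b1 := a1.log d0.ne'
  have b2 := (a2.log (by linarith : (1:ℝ) - z ≠ 0)).const_mul (1 - κ)
  have b3 := (a3.log (by linarith : (1:ℝ) + z ≠ 0)).const_mul (1 + κ)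
  have := (b1.sub b2).sub b3
  refine this.congr_deriv ?_
  ring

theorem lg_br {x τ e z : ℝ} (hx0 : 0 ≤ x) (hx1 : x < 1) (hτ0 : 0 ≤ τ) (hτ1 : τ < 1) (hc4 : 0 < lgc4 x τ e)
    (h0 : 0 ≤ z) (h1 : z < 1) :
    lgc0 x τ e + lgc1 x τ e * z + lgc2 x τ e * z ^ 2 + lgc3 x τ e * z ^ 3 + lgc4 x τ e * z ^ 4 ≤
      (2 + e * τ + e * z) / (1 - z ^ 2) - 2 * lgX x τ * ((1 + x * τ * z) / (1 - x * z ^ 2)) := by
  have d1 : 0 < 1 - x := by linarith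
  have d0 := lg_den hx0 hx1 h0 h1.le
  have dτ := lg_den hx0 hx1 hτ0 hτ1.le
  have hX : 0 ≤ lgX x τ := div_nonneg hx0 (by linarith)
  have z2 : 0 < 1 - z ^ 2 := by nlinarith
  have hY : 0 ≤ lgY x τ * (x * (1 + x * τ) / (1 - x)) := by unfold lgY; positivity
  have m1 : 2 + e * τ - max (-e) 0 ≤ 2 + e * τ + e * z := by
    have a := le_max_left (-e) 0
    have b := le_max_right (-e) 0
    nlinarith
  have m0 : 0 ≤ 2 + e * τ - max (-e) 0 := by unfold lgc4 at hc4; linarith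
  have m2 : 2 + e * τ - max (-e) 0 ≤ (2 + e * τ + e * z) / (1 - z ^ 2) := by
    rw [le_div_iff₀ z2]; nlinarith [sq_nonneg z]
  have e1 : (2 + e * τ + e * z) / (1 - z ^ 2) =
      (2 + e * τ + e * z) * (1 + z ^ 2) + z ^ 4 * ((2 + e * τ + e * z) / (1 - z ^ 2)) := by
    field_simp; ring
  have e2 : (1 + x * τ * z) / (1 - x * z ^ 2) =
      (1 + x * τ * z) * (1 + x * z ^ 2) + x ^ 2 * z ^ 4 * ((1 + x * τ * z) / (1 - x * z ^ 2)) := by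
    have : 1 - x * z ^ 2 ≠ 0 := by linarith
    field_simp; ring
  have m3 : (1 + x * τ * z) / (1 - x * z ^ 2) ≤ (1 + x * τ) / (1 - x) :=
    div_le_div₀ (by positivity) (by nlinarith [mul_nonneg hx0 hτ0]) d1 d0
  have z4 : 0 ≤ z ^ 4 := by positivity
  have m4 := mul_le_mul_of_nonneg_left m2 z4
  have m5 := mul_le_mul_of_nonneg_left m3 (by positivity : 0 ≤ 2 * lgX x τ * (x ^ 2 * z ^ 4))
  have e3 : x * (1 + x * τ) / (1 - x) = x * ((1 + x * τ) / (1 - x)) := mul_div_assoc _ _ _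
  unfold lgc0 lgc1 lgc2 lgc3 lgc4 lgY
  rw [e3]
  generalize (1 + x * τ) / (1 - x) = R at m5
  generalize (1 + x * τ * z) / (1 - x * z ^ 2) = V at e2 m5
  generalize (2 + e * τ + e * z) / (1 - z ^ 2) = U at e1 m4
  have e4 : 2 * lgX x τ * V = 2 * lgX x τ * ((1 + x * τ * z) * (1 + x * z ^ 2) + x ^ 2 * z ^ 4 * V) := by rw [← e2]
  linarith

theorem lg_poly {c0 c1 c2 c3 c4 τ θ aq b : ℝ} (hτ0 : 0 ≤ τ) (h0 : 0 ≤ θ) (h1 : θ ≤ 1) (hc4 : 0 < c4)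
    (ha : aq = c2 / 4 - max (-c3) 0 / 5 + τ * (c3 * (3/20) + τ * (c4 / 10))) (haq : 0 < aq)
    (hb : b = c1 / 3 + τ * (c2 / 6 + τ * (c3 / 10 + τ * (c4 / 15)))) :
    c0 / 2 + τ * (c1 / 6 + τ * (c2 / 12 + τ * (c3 / 20 + τ * (c4 / 30)))) - max (-b) 0 ^ 2 / (4 * aq) ≤
      c0 / 2 + c1 * (τ + 2 * θ) / 6 + c2 * (τ ^ 2 + 2 * τ * θ + 3 * θ ^ 2) / 12
        + c3 * (τ ^ 3 + 2 * τ ^ 2 * θ + 3 * τ * θ ^ 2 + 4 * θ ^ 3) / 20
        + c4 * (τ ^ 4 + 2 * τ ^ 3 * θ + 3 * τ ^ 2 * θ ^ 2 + 4 * τ * θ ^ 3 + 5 * θ ^ 4) / 30 := by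
  have a1 := le_max_left (-c3) 0
  have a2 := le_max_right (-c3) 0
  have a3 := le_max_left (-b) 0
  generalize max (-c3) 0 = M at ha a1 a2
  generalize max (-b) 0 = N at a3
  have k1 : -(N ^ 2 / (4 * aq)) ≤ aq * θ ^ 2 - N * θ := by
    have : aq * θ ^ 2 - N * θ + N ^ 2 / (4 * aq) = (2 * aq * θ - N) ^ 2 / (4 * aq) := by field_simp; ring
    have h : 0 ≤ (2 * aq * θ - N) ^ 2 / (4 * aq) := by positivity
    linarith
  have k2 : -N * θ ≤ b * θ := mul_le_mul_of_nonneg_right (by linarith) h0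
  have k3 : -M * θ ^ 2 ≤ c3 * θ ^ 3 := by
    have t2 : 0 ≤ θ ^ 2 := by positivity
    have : -M ≤ c3 * θ := by nlinarith
    nlinarith
  have k4 : 0 ≤ c4 * (τ * θ ^ 3) := by positivity
  have k5 : 0 ≤ c4 * θ ^ 4 := by positivity
  generalize N ^ 2 / (4 * aq) = Z at k1
  subst ha hb
  linarith

/-- The quadratic minorant of `Ψ` with tangent point `τ`. -/
theorem lg_pt {x κ τ e θ : ℝ} (hx0 : 0 ≤ x) (hx1 : x < 1) (hτ0 : 0 ≤ τ) (hτ1 : τ < 1)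
    (he : e * (1 - τ ^ 2) = 2 * (τ - κ)) (hc4 : 0 < lgc4 x τ e) (haq : 0 < lgaq x τ e) (h0 : 0 ≤ θ) (h1 : θ < 1) :
    lgPsi x κ τ + (e - 2 * (lgX x τ * τ)) * (θ - τ) + lgq x τ e * (θ - τ) ^ 2 ≤ lgPsi x κ θ := by
  obtain ⟨c0, h0'⟩ : ∃ c, c = lgc0 x τ e := ⟨_, rfl⟩
  obtain ⟨c1, h1'⟩ : ∃ c, c = lgc1 x τ e := ⟨_, rfl⟩
  obtain ⟨c2, h2'⟩ : ∃ c, c = lgc2 x τ e := ⟨_, rfl⟩
  obtain ⟨c3, h3'⟩ : ∃ c, c = lgc3 x τ e := ⟨_, rfl⟩
  obtain ⟨c4, h4'⟩ : ∃ c, c = lgc4 x τ e := ⟨_, rfl⟩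
  have hκ : κ = τ - e * (1 - τ ^ 2) / 2 := by linarith
  have dτ : 0 < 1 - x * τ ^ 2 := by linarith [lg_den hx0 hx1 hτ0 hτ1.le]
  have key := lg_min (τ := τ) (θ := θ)
    (g := fun z => lgPsi x κ z - ((e - 2 * (lgX x τ * τ) - c0 * τ) * z + (c0 - c1 * τ) / 2 * z ^ 2
      + (c1 - c2 * τ) / 3 * z ^ 3 + (c2 - c3 * τ) / 4 * z ^ 4 + (c3 - c4 * τ) / 5 * z ^ 5 + c4 / 6 * z ^ 6))
    (h := fun z => (2 + e * τ + e * z) / (1 - z ^ 2) - 2 * lgX x τ * ((1 + x * τ * z) / (1 - x * z ^ 2))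
      - (c0 + c1 * z + c2 * z ^ 2 + c3 * z ^ 3 + c4 * z ^ 4)) hτ0 hτ1 h0 h1
    (fun z z0 z1 => by
      have a := lg_psi_deriv (κ := κ) hx0 hx1 z0 z1
      have b := (((((((hasDerivAt_id z).const_mul (e - 2 * (lgX x τ * τ) - c0 * τ)).add
        ((hasDerivAt_pow 2 z).const_mul ((c0 - c1 * τ) / 2))).add
        ((hasDerivAt_pow 3 z).const_mul ((c1 - c2 * τ) / 3))).add
        ((hasDerivAt_pow 4 z).const_mul ((c2 - c3 * τ) / 4))).add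
        ((hasDerivAt_pow 5 z).const_mul ((c3 - c4 * τ) / 5))).add
        ((hasDerivAt_pow 6 z).const_mul (c4 / 6)))
      refine (a.sub b).congr_deriv ?_
      have d0 : 1 - x * z ^ 2 ≠ 0 := by linarith [lg_den hx0 hx1 z0 z1.le]
      have d1 : 1 - z ≠ 0 := by linarith
      have d2 : 1 + z ≠ 0 := by linarith
      have d3 : 1 - z ^ 2 = (1 - z) * (1 + z) := by ring
      have i1 : (1 - κ) / (1 - z) - (1 + κ) / (1 + z) - e = (z - τ) * ((2 + e * τ + e * z) / (1 - z ^ 2)) := by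
        rw [d3, hκ]; field_simp; ring
      have i2 : -(x * (2 * z)) / (1 - x * z ^ 2) + 2 * (lgX x τ * τ) =
          -((z - τ) * (2 * lgX x τ * ((1 + x * τ * z) / (1 - x * z ^ 2)))) := by
        unfold lgX; field_simp; ring
      simp only [Nat.cast_ofNat, Nat.add_one_sub_one]
      linear_combination i1 + i2)
    (fun z z0 z1 => by
      have := lg_br hx0 hx1 hτ0 hτ1 hc4 z0 z1
      rw [← h0', ← h1', ← h2', ← h3', ← h4'] at this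
      linarith)
  have p := lg_poly (c0 := c0) (c1 := c1) (c2 := c2) (c3 := c3) (c4 := c4) (aq := lgaq x τ e) (b := lgb x τ e) hτ0 h0 h1.le
    (h4' ▸ hc4) (by rw [h2', h3', h4']; rfl) haq (by rw [h1', h2', h3', h4']; rfl)
  have eq : lgq x τ e = c0 / 2 + τ * (c1 / 6 + τ * (c2 / 12 + τ * (c3 / 20 + τ * (c4 / 30)))) -
      max (-lgb x τ e) 0 ^ 2 / (4 * lgaq x τ e) := by rw [h0', h1', h2', h3', h4']; rfl
  rw [← eq] at p
  have p2 := mul_le_mul_of_nonneg_right p (sq_nonneg (θ - τ))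
  beta_reduce at key
  linarith

end Crest.Agent.R307
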