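import Crest.Agent.R307.XInd
import Crest.Agent.R307.HNa

/-!
# R307/XVar: the induction of `XInd` with the variance input (ideas 1228, 1243)

`xind_set`: the step sees the two nested sets `v ≤ w` themselves.  `xind_var`: the step may use
`E (λ P + μ Q)² ≤ (λ a0 + μ a1)² + ρ² Var(λ 1_{A0} + μ 1_{A1})`.  `xind_vmul`: multiplier form.
`xcore_of_sqrt`: `XCore` from a lower bound of `E √(T 1_A)`.
-/

set_option autoImplicit false

namespace Crest.Agent.R307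

open Crest.CubeNoise Set

theorem xv_noise_nonneg {n : ℕ} {ρ : ℝ} (hρ : |ρ| ≤ 1) {v : (Fin n → Bool) → ℝ} (bv : ∀ y, v y = 0 ∨ v y = 1)
    (x : Fin n → Bool) : 0 ≤ noise ρ v x := by
  have := noise_mono hρ (u := fun _ => 0) (v := v) (fun y => by rcases bv y with a | a <;> simp [a]) x
  rwa [noise_const] at this

theorem xv_noise_le {n : ℕ} {ρ : ℝ} (hρ : |ρ| ≤ 1) {v : (Fin n → Bool) → ℝ} (bv : ∀ y, v y = 0 ∨ v y = 1)
    (x : Fin n → Bool) : noise ρ v x ≤ 1 := by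
  have := noise_mono hρ (v := fun _ => 1) (u := v) (fun y => by rcases bv y with a | a <;> simp [a]) x
  rwa [noise_const] at this

/-- Induction in which the step sees the nested sets. -/
theorem xind_set {ι : Type} {ρ : ℝ} (hρ0 : 0 ≤ ρ) (hρ1 : ρ ≤ 1) (Φ b : ι → ℝ → ℝ)
    (hc : ∀ j, ConcaveOn ℝ (Icc 0 1) (Φ j)) (h0 : ∀ j, b j 0 ≤ Φ j 0) (h1 : ∀ j, b j 1 ≤ Φ j 1)
    (step : ∀ (n : ℕ) (v w : (Fin n → Bool) → ℝ), (∀ y, v y = 0 ∨ v y = 1) → (∀ y, w y = 0 ∨ w y = 1) →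
      (∀ y, v y ≤ w y) →
      (∀ i, b i (cubeAverage v) ≤ cubeAverage fun x => Φ i (noise ρ v x)) →
      (∀ i, b i (cubeAverage w) ≤ cubeAverage fun x => Φ i (noise ρ w x)) →
      ∀ j, 2 * b j ((cubeAverage v + cubeAverage w) / 2) ≤
        cubeAverage fun x => Φ j ((1 + ρ) / 2 * noise ρ w x + (1 - ρ) / 2 * noise ρ v x) +
          Φ j ((1 + ρ) / 2 * noise ρ v x + (1 - ρ) / 2 * noise ρ w x)) :
    ∀ (n : ℕ) (u : (Fin n → Bool) → ℝ), (∀ y, u y = 0 ∨ u y = 1) →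
      ∀ j, b j (cubeAverage u) ≤ cubeAverage fun x => Φ j (noise ρ u x) := by
  have hρ : |ρ| ≤ 1 := abs_le.2 ⟨by linarith, hρ1⟩
  intro n
  induction n with
  | zero =>
    intro u hu j
    rw [avg_zero_dim, avg_zero_dim, noise_zero_dim]
    rcases hu default with h | h <;> rw [h]
    · exact h0 j
    · exact h1 j
  | succ n ih =>
    intro u hu j
    set u0 := sl u false with hu0
    set u1 := sl u true with hu1
    have b0 : ∀ y, u0 y = 0 ∨ u0 y = 1 := fun y => hu _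
    have b1 : ∀ y, u1 y = 0 ∨ u1 y = 1 := fun y => hu _
    let v : (Fin n → Bool) → ℝ := fun y => min (u0 y) (u1 y)
    let w : (Fin n → Bool) → ℝ := fun y => max (u0 y) (u1 y)
    have bv : ∀ y, v y = 0 ∨ v y = 1 := fun y => by
      rcases b0 y with a | a <;> rcases b1 y with c | c <;> simp [v, a, c]
    have bw : ∀ y, w y = 0 ∨ w y = 1 := fun y => by
      rcases b0 y with a | a <;> rcases b1 y with c | c <;> simp [w, a, c]
    have hsum : ∀ y, v y + w y = u0 y + u1 y := fun y => min_add_max _ _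
    have hP0 : ∀ x, 0 ≤ noise ρ v x := xv_noise_nonneg hρ bv
    have hQ1 : ∀ x, noise ρ w x ≤ 1 := xv_noise_le hρ bw
    have hv0 : ∀ x, noise ρ v x ≤ noise ρ u0 x := noise_mono hρ fun y => min_le_left _ _
    have hv1 : ∀ x, noise ρ v x ≤ noise ρ u1 x := noise_mono hρ fun y => min_le_right _ _
    have hns : ∀ x, noise ρ v x + noise ρ w x = noise ρ u0 x + noise ρ u1 x := fun x => by
      rw [← noise_add, ← noise_add]
      simp only [hsum]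
    have hPQ : ∀ x, noise ρ v x ≤ noise ρ w x := fun x => by linarith [hv0 x, hv1 x, hns x]
    have hav : cubeAverage v + cubeAverage w = cubeAverage u0 + cubeAverage u1 := by
      rw [← avg_add, ← avg_add]
      simp only [hsum]
    have key := step n v w bv bw (fun y => min_le_max) (ih v bv) (ih w bw) j
    rw [hav] at key
    rw [avg_succ u, avg_succ (fun x => Φ j (noise ρ u x)), ← avg_add (sl (fun x => Φ j (noise ρ u x)) false),
      ← hu0, ← hu1, le_div_iff₀ (by norm_num), mul_comm]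
    refine key.trans (avg_mono fun x => ?_)
    have e0 : sl (fun x => Φ j (noise ρ u x)) false x =
        Φ j ((1 + ρ) / 2 * noise ρ u0 x + (1 - ρ) / 2 * noise ρ u1 x) := by
      have := noise_sl ρ u false x
      simp only [sl] at this ⊢
      rw [this]
      simp [spin, hu0, hu1]
      rfl
    have e1 : sl (fun x => Φ j (noise ρ u x)) true x =
        Φ j ((1 - ρ) / 2 * noise ρ u0 x + (1 + ρ) / 2 * noise ρ u1 x) := by
      have := noise_sl ρ u true x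
      simp only [sl] at this ⊢
      rw [this]
      simp [spin, hu0, hu1]
    rw [e0, e1]
    have p0 := hP0 x
    have q1 := hQ1 x
    have a0 := hv0 x
    have a1 := hv1 x
    have a2 := hns x
    have a3 := hPQ x
    set P := noise ρ v x
    set Q := noise ρ w x
    set X := noise ρ u0 x
    set Y := noise ρ u1 x
    have hQ : Q = X + Y - P := by linarith
    refine xind_spread (hc j) ?_ ?_ ?_ ?_ ?_
    · nlinarith
    · nlinarith
    · rw [hQ]; nlinarith [mul_nonneg hρ0 (sub_nonneg.2 a1)]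
    · rw [hQ]; nlinarith [mul_nonneg hρ0 (sub_nonneg.2 a0)]
    · rw [hQ]; ring

/-- `Var (λ 1_{A0} + μ 1_{A1})` for `A0 ⊆ A1` of measures `a0, a1` -/
def xvV (lam mu a0 a1 : ℝ) : ℝ := lam ^ 2 * (a0 * (1 - a0)) + mu ^ 2 * (a1 * (1 - a1)) + 2 * lam * mu * (a0 * (1 - a1))

theorem xv_var {n : ℕ} {ρ : ℝ} (hρ : ρ ^ 2 ≤ 1) {v w : (Fin n → Bool) → ℝ} (bv : ∀ y, v y = 0 ∨ v y = 1)
    (bw : ∀ y, w y = 0 ∨ w y = 1) (hvw : ∀ y, v y ≤ w y) (lam mu : ℝ) :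
    (cubeAverage fun x => (lam * (noise ρ v x - cubeAverage v) + mu * (noise ρ w x - cubeAverage w)) ^ 2) ≤
      ρ ^ 2 * xvV lam mu (cubeAverage v) (cubeAverage w) := by
  have h := hn_var1 hρ fun y => lam * v y + mu * w y
  have e1 : (fun y => (lam * v y + mu * w y) ^ 2) = fun y => (lam ^ 2 + 2 * lam * mu) * v y + mu ^ 2 * w y := by
    funext y
    have := hvw y
    rcases bv y with a | a <;> rcases bw y with c | c <;> rw [a, c] at this <;> rw [a, c]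
    · ring
    · ring
    · norm_num at this
    · ring
  simp only [hna_lin] at h
  rw [e1, avg_add, avg_add, avg_mul, avg_mul, avg_mul, avg_mul] at h
  have e2 : (fun x => (lam * (noise ρ v x - cubeAverage v) + mu * (noise ρ w x - cubeAverage w)) ^ 2) = fun x =>
      ((lam * noise ρ v x + mu * noise ρ w x) ^ 2 +
        (-2 * (lam * cubeAverage v + mu * cubeAverage w)) * (lam * noise ρ v x + mu * noise ρ w x)) +
        (lam * cubeAverage v + mu * cubeAverage w) ^ 2 := by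
    funext x; ring
  have h4 : (cubeAverage fun x => noise ρ v x) = cubeAverage v := avg_noise ρ v
  have h5 : (cubeAverage fun x => noise ρ w x) = cubeAverage w := avg_noise ρ w
  rw [e2, avg_add, avg_add, avg_mul, avg_add, avg_mul, avg_mul, avg_const, h4, h5]
  change _ ≤ (lam * cubeAverage v + mu * cubeAverage w) ^ 2 + ρ ^ 2 * ((lam ^ 2 + 2 * lam * mu) * cubeAverage v +
    mu ^ 2 * cubeAverage w - (lam * cubeAverage v + mu * cubeAverage w) ^ 2) at h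
  unfold xvV
  nlinarith

/-- Induction with the variance input. -/
theorem xind_var {ι : Type} {ρ : ℝ} (hρ0 : 0 ≤ ρ) (hρ1 : ρ ≤ 1) (Φ b : ι → ℝ → ℝ)
    (hc : ∀ j, ConcaveOn ℝ (Icc 0 1) (Φ j)) (h0 : ∀ j, b j 0 ≤ Φ j 0) (h1 : ∀ j, b j 1 ≤ Φ j 1)
    (step : ∀ (n : ℕ) (P Q : (Fin n → Bool) → ℝ), (∀ x, 0 ≤ P x) → (∀ x, P x ≤ Q x) → (∀ x, Q x ≤ 1) →
      (∀ i, b i (cubeAverage P) ≤ cubeAverage fun x => Φ i (P x)) →
      (∀ i, b i (cubeAverage Q) ≤ cubeAverage fun x => Φ i (Q x)) →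
      (∀ lam mu : ℝ, (cubeAverage fun x => (lam * (P x - cubeAverage P) + mu * (Q x - cubeAverage Q)) ^ 2) ≤
        ρ ^ 2 * xvV lam mu (cubeAverage P) (cubeAverage Q)) →
      ∀ j, 2 * b j ((cubeAverage P + cubeAverage Q) / 2) ≤
        cubeAverage fun x => Φ j ((1 + ρ) / 2 * Q x + (1 - ρ) / 2 * P x) + Φ j ((1 + ρ) / 2 * P x + (1 - ρ) / 2 * Q x)) :
    ∀ (n : ℕ) (u : (Fin n → Bool) → ℝ), (∀ y, u y = 0 ∨ u y = 1) →
      ∀ j, b j (cubeAverage u) ≤ cubeAverage fun x => Φ j (noise ρ u x) := by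
  have hρ : |ρ| ≤ 1 := abs_le.2 ⟨by linarith, hρ1⟩
  refine xind_set hρ0 hρ1 Φ b hc h0 h1 fun n v w bv bw hvw iv iw j => ?_
  have key := step n (noise ρ v) (noise ρ w) (xv_noise_nonneg hρ bv) (noise_mono hρ hvw) (xv_noise_le hρ bw)
    (fun i => by rw [avg_noise]; exact iv i) (fun i => by rw [avg_noise]; exact iw i)
    (fun lam mu => by rw [avg_noise, avg_noise]; exact xv_var (by nlinarith) bv bw hvw lam mu) j
  rwa [avg_noise, avg_noise] at key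

/-- Multiplier form with one variance term (`nu ≥ 0`, direction `(lam, mu)`). -/
theorem xind_vmul {ι : Type} [Fintype ι] {ρ : ℝ} (hρ0 : 0 ≤ ρ) (hρ1 : ρ ≤ 1) (Φ b : ι → ℝ → ℝ)
    (hc : ∀ j, ConcaveOn ℝ (Icc 0 1) (Φ j)) (h0 : ∀ j, b j 0 ≤ Φ j 0) (h1 : ∀ j, b j 1 ≤ Φ j 1)
    (step : ∀ j (a0 a1 : ℝ), 0 ≤ a0 → a0 ≤ a1 → a1 ≤ 1 → ∃ (k0 k1 : ι → ℝ) (l0 l1 c nu lam mu : ℝ),
      (∀ i, 0 ≤ k0 i) ∧ (∀ i, 0 ≤ k1 i) ∧ 0 ≤ nu ∧
      (∀ p0 p1 : ℝ, 0 ≤ p0 → p0 ≤ p1 → p1 ≤ 1 →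
        ∑ i, k0 i * Φ i p0 + ∑ i, k1 i * Φ i p1 + l0 * p0 + l1 * p1 + c -
            nu * (lam * (p0 - a0) + mu * (p1 - a1)) ^ 2 ≤
          Φ j ((1 + ρ) / 2 * p1 + (1 - ρ) / 2 * p0) + Φ j ((1 + ρ) / 2 * p0 + (1 - ρ) / 2 * p1)) ∧
      2 * b j ((a0 + a1) / 2) ≤ ∑ i, k0 i * b i a0 + ∑ i, k1 i * b i a1 + l0 * a0 + l1 * a1 + c -
        nu * (ρ ^ 2 * xvV lam mu a0 a1)) :
    ∀ (n : ℕ) (u : (Fin n → Bool) → ℝ), (∀ y, u y = 0 ∨ u y = 1) →
      ∀ j, b j (cubeAverage u) ≤ cubeAverage fun x => Φ j (noise ρ u x) := by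
  refine xind_var hρ0 hρ1 Φ b hc h0 h1 fun n P Q hP hPQ hQ iP iQ hV j => ?_
  obtain ⟨k0, k1, l0, l1, c, nu, lam, mu, hk0, hk1, hnu, hpt, hb⟩ := step j (cubeAverage P) (cubeAverage Q)
    (le_avg hP) (avg_mono hPQ) (avg_le hQ)
  refine hb.trans (le_trans ?_ (avg_mono fun x => hpt (P x) (Q x) (hP x) (hPQ x) (hQ x)))
  rw [avg_sub, avg_add, avg_add, avg_add, avg_add, avg_const, avg_mul, avg_mul, avg_mul,
    xind_avg_sum k0 fun i x => Φ i (P x), xind_avg_sum k1 fun i x => Φ i (Q x)]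
  have s0 : ∑ i, k0 i * b i (cubeAverage P) ≤ ∑ i, k0 i * cubeAverage fun x => Φ i (P x) :=
    Finset.sum_le_sum fun i _ => mul_le_mul_of_nonneg_left (iP i) (hk0 i)
  have s1 : ∑ i, k1 i * b i (cubeAverage Q) ≤ ∑ i, k1 i * cubeAverage fun x => Φ i (Q x) :=
    Finset.sum_le_sum fun i _ => mul_le_mul_of_nonneg_left (iQ i) (hk1 i)
  have s2 := mul_le_mul_of_nonneg_left (hV lam mu) hnu
  change _ ≤ _ + _ + l0 * cubeAverage P + l1 * cubeAverage Q + c - _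
  linarith

/-- One potential. -/
theorem xind_vone {ρ : ℝ} (hρ0 : 0 ≤ ρ) (hρ1 : ρ ≤ 1) (Φ b : ℝ → ℝ)
    (hc : ConcaveOn ℝ (Icc 0 1) Φ) (h0 : b 0 ≤ Φ 0) (h1 : b 1 ≤ Φ 1)
    (step : ∀ a0 a1 : ℝ, 0 ≤ a0 → a0 ≤ a1 → a1 ≤ 1 → ∃ k0 k1 l0 l1 c nu lam mu : ℝ,
      0 ≤ k0 ∧ 0 ≤ k1 ∧ 0 ≤ nu ∧
      (∀ p0 p1 : ℝ, 0 ≤ p0 → p0 ≤ p1 → p1 ≤ 1 →
        k0 * Φ p0 + k1 * Φ p1 + l0 * p0 + l1 * p1 + c - nu * (lam * (p0 - a0) + mu * (p1 - a1)) ^ 2 ≤
          Φ ((1 + ρ) / 2 * p1 + (1 - ρ) / 2 * p0) + Φ ((1 + ρ) / 2 * p0 + (1 - ρ) / 2 * p1)) ∧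
      2 * b ((a0 + a1) / 2) ≤ k0 * b a0 + k1 * b a1 + l0 * a0 + l1 * a1 + c - nu * (ρ ^ 2 * xvV lam mu a0 a1))
    (n : ℕ) (u : (Fin n → Bool) → ℝ) (hu : ∀ y, u y = 0 ∨ u y = 1) :
    b (cubeAverage u) ≤ cubeAverage fun x => Φ (noise ρ u x) := by
  refine xind_vmul (ι := Unit) hρ0 hρ1 (fun _ => Φ) (fun _ => b) (fun _ => hc) (fun _ => h0) (fun _ => h1)
    (fun _ a0 a1 e0 e1 e2 => ?_) n u hu ()
  obtain ⟨k0, k1, l0, l1, c, nu, lam, mu, g0, g1, g2, hpt, hb⟩ := step a0 a1 e0 e1 e2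
  exact ⟨fun _ => k0, fun _ => k1, l0, l1, c, nu, lam, mu, fun _ => g0, fun _ => g1, g2,
    fun p0 p1 i0 i1 i2 => by simpa using hpt p0 p1 i0 i1 i2, by simpa using hb⟩

/-- `XCore` from `E √(T 1_A) ≥ B |A|` and `(√p + √q)² = 1 + 2 √(pq)`. -/
theorem xcore_of_sqrt {ρ : ℝ} (hρ0 : 0 ≤ ρ) (hρ1 : ρ ≤ 1) {B : ℝ → ℝ}
    (hB : ∀ (n : ℕ) (u : (Fin n → Bool) → ℝ), (∀ y, u y = 0 ∨ u y = 1) →
      B (cubeAverage u) ≤ cubeAverage fun x => √(noise ρ u x))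
    (fin : ∀ a : ℝ, 0 ≤ a → a ≤ 1 → 0 ≤ B a + B (1 - a) ∧
      √(1 - ρ ^ 2) + 2 * √(a * (1 - a)) ≤ (B a + B (1 - a)) ^ 2) : XCore ρ := by
  intro n u hu
  have hρ : |ρ| ≤ 1 := abs_le.2 ⟨by linarith, hρ1⟩
  have u0 : 0 ≤ cubeAverage u := le_avg fun y => by rcases hu y with h | h <;> rw [h]; norm_num
  have u1 : cubeAverage u ≤ 1 := avg_le fun y => by rcases hu y with h | h <;> rw [h]; norm_num
  have h1 := hB n u hu
  have h2 := hB n (fun y => -1 * u y + 1) fun y => by rcases hu y with h | h <;> rw [h] <;> norm_num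
  rw [avg_add, avg_mul, avg_const] at h2
  simp only [noise_affine] at h2
  have e : -1 * cubeAverage u + 1 = 1 - cubeAverage u := by ring
  change B (-1 * cubeAverage u + 1) ≤ _ at h2
  rw [e] at h2
  obtain ⟨f0, f1⟩ := fin _ u0 u1
  have h3 := add_le_add h1 h2
  rw [← avg_add] at h3
  have h4 := (pow_le_pow_left₀ f0 h3 2).trans (hna_cs _)
  have h5 : (cubeAverage fun x => (√(noise ρ u x) + √(-1 * noise ρ u x + 1)) ^ 2) =
      cubeAverage fun x => 2 * √(noise ρ u x * (1 - noise ρ u x)) + 1 := by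
    congr 1
    funext x
    have p0 := xv_noise_nonneg hρ hu x
    have p1 := xv_noise_le hρ hu x
    rw [show -1 * noise ρ u x + 1 = 1 - noise ρ u x by ring, add_sq, Real.sq_sqrt p0, Real.sq_sqrt (by linarith),
      Real.sqrt_mul p0]
    ring
  rw [h5, avg_add, avg_const] at h4
  linarith

theorem xv_sqrt_conc : ConcaveOn ℝ (Icc (0:ℝ) 1) fun p => √p :=
  Real.strictConcaveOn_sqrt.concaveOn.subset (fun _ h => h.1) (convex_Icc 0 1)

end Crest.Agent.R307
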