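import Crest.Agent.R307.LGa
import Crest.Agent.R307.XVar

/-!
# R307/LGb: the induction for `E log (T 1_A)`
-/

set_option autoImplicit false

namespace Crest.Agent.R307

open Crest.CubeNoise Real

/-- One step of the induction for the logarithmic potential. -/
def LStep (x : ℝ) (B : ℝ → ℝ) (a0 a1 : ℝ) : Prop :=
  2 * B ((a0 + a1) / 2) ≤ 2 * B a1 + log ((1 - x) / 4) ∨
  (0 < a0 ∧ ∃ κ c D q τ lam : ℝ, -1 ≤ κ ∧ κ ≤ 1 ∧ 0 < q ∧
    (∀ θ : ℝ, 0 ≤ θ → θ < 1 → c + D * (θ - τ) + q * (θ - τ) ^ 2 ≤ lgPsi x κ θ) ∧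
    2 * B ((a0 + a1) / 2) ≤ (1 - κ) * B a0 + (1 + κ) * B a1 + c + lam * ((a1 - a0) - τ * (a0 + a1)) -
      (D ^ 2 - 2 * D * lam * (a0 + a1) + lam ^ 2 * ((a0 + a1) ^ 2 + x * (a1 + 3 * a0 - (a0 + a1) ^ 2))) / (4 * q))

theorem lg_pos {n : ℕ} {ρ : ℝ} (hρ : |ρ| < 1) {u : (Fin n → Bool) → ℝ} (hu : ∀ y, u y = 0 ∨ u y = 1)
    (h : 0 < cubeAverage u) (x : Fin n → Bool) : 0 < noise ρ u x := by
  have := noise_lt hρ (u := fun _ => 0) (v := u) (fun y => by rcases hu y with a | a <;> simp [a]) (by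
    by_contra hc
    have : cubeAverage u ≤ 0 := avg_le fun y => not_lt.1 fun a => hc ⟨y, a⟩
    linarith) x
  rwa [noise_const] at this

theorem lg_ptE {x p0 p1 : ℝ} (hx0 : 0 ≤ x) (hx1 : x < 1) (h0 : 0 ≤ p0) (h1 : 0 < p1) :
    2 * log p1 + log ((1 - x) / 4) ≤ log (((p0 + p1) ^ 2 - x * (p1 - p0) ^ 2) / 4) := by
  have a : 0 < (1 - x) / 4 := by linarith
  have e : 2 * log p1 + log ((1 - x) / 4) = log (p1 ^ 2 * ((1 - x) / 4)) := by
    rw [log_mul (by positivity) a.ne', log_pow]; norm_num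
  rw [e]
  refine log_le_log (by positivity) ?_
  nlinarith [mul_nonneg h0 h1.le, mul_nonneg (mul_nonneg h0 h1.le) hx0, mul_nonneg (sq_nonneg p0) a.le]

theorem lg_ptQ {x κ c D q τ lam p0 p1 : ℝ} (hx0 : 0 ≤ x) (hx1 : x < 1) (hq : 0 < q)
    (hpt : ∀ θ : ℝ, 0 ≤ θ → θ < 1 → c + D * (θ - τ) + q * (θ - τ) ^ 2 ≤ lgPsi x κ θ) (h0 : 0 < p0) (h1 : p0 ≤ p1) :
    (1 - κ) * log p0 + (1 + κ) * log p1 + (c - D ^ 2 / (4 * q)) + (lam * (1 - τ) + 2 * D * lam / (4 * q)) * p1
      + (-lam * (1 + τ) + 2 * D * lam / (4 * q)) * p0 - lam ^ 2 / (4 * q) * (p0 + p1) ^ 2 ≤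
      log (((p0 + p1) ^ 2 - x * (p1 - p0) ^ 2) / 4) := by
  have hS : 0 < p0 + p1 := by linarith
  obtain ⟨θ, hθ⟩ : ∃ θ, θ = (p1 - p0) / (p0 + p1) := ⟨_, rfl⟩
  have t0 : 0 ≤ θ := by rw [hθ]; exact div_nonneg (by linarith) hS.le
  have t1 : θ < 1 := by rw [hθ, div_lt_one hS]; linarith
  have eθ : θ * (p0 + p1) = p1 - p0 := by rw [hθ]; field_simp
  obtain ⟨m, hm⟩ : ∃ m, m = (p0 + p1) / 2 := ⟨_, rfl⟩
  have m0 : 0 < m := by linarith
  have e0 : p0 = m * (1 - θ) := by rw [hm]; linarith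
  have e1 : p1 = m * (1 + θ) := by rw [hm]; linarith
  have d0 : 0 < 1 - x * θ ^ 2 := by linarith [lg_den hx0 hx1 t0 t1.le]
  have l0 : log p0 = log m + log (1 - θ) := by rw [e0, log_mul m0.ne' (by linarith)]
  have l1 : log p1 = log m + log (1 + θ) := by rw [e1, log_mul m0.ne' (by linarith)]
  have l2 : log (((p0 + p1) ^ 2 - x * (p1 - p0) ^ 2) / 4) = 2 * log m + log (1 - x * θ ^ 2) := by
    rw [show ((p0 + p1) ^ 2 - x * (p1 - p0) ^ 2) / 4 = m ^ 2 * (1 - x * θ ^ 2) by rw [e0, e1]; ring,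
      log_mul (by positivity) d0.ne', log_pow]
    norm_num
  have k := hpt θ t0 t1
  unfold lgPsi at k
  have sq : 0 ≤ (2 * q * (θ - τ) + (D - lam * (p0 + p1))) ^ 2 / (4 * q) := by positivity
  have e2 : (2 * q * (θ - τ) + (D - lam * (p0 + p1))) ^ 2 / (4 * q) = q * (θ - τ) ^ 2 + (θ - τ) * D
      - lam * (θ * (p0 + p1)) + lam * τ * (p0 + p1) + D ^ 2 / (4 * q) - 2 * D * lam / (4 * q) * (p0 + p1)
      + lam ^ 2 / (4 * q) * (p0 + p1) ^ 2 := by
    field_simp; ring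
  rw [e2, eθ] at sq
  rw [l0, l1, l2]
  linarith

theorem lg_avg {n : ℕ} {ρ : ℝ} (hρ : |ρ| < 1) {B : ℝ → ℝ} {v w : (Fin n → Bool) → ℝ}
    (bv : ∀ y, v y = 0 ∨ v y = 1) (bw : ∀ y, w y = 0 ∨ w y = 1) (hvw : ∀ y, v y ≤ w y) (hw : 0 < cubeAverage w)
    (iv : 0 < cubeAverage v → B (cubeAverage v) ≤ cubeAverage fun x => log (noise ρ v x))
    (iw : B (cubeAverage w) ≤ cubeAverage fun x => log (noise ρ w x))
    (st : LStep (ρ ^ 2) B (cubeAverage v) (cubeAverage w)) :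
    2 * B ((cubeAverage v + cubeAverage w) / 2) ≤ cubeAverage fun x =>
      log (((noise ρ v x + noise ρ w x) ^ 2 - ρ ^ 2 * (noise ρ w x - noise ρ v x) ^ 2) / 4) := by
  have hx1 : ρ ^ 2 < 1 := by nlinarith [abs_lt.1 hρ]
  rcases st with st | ⟨h0, κ, c, D, q, τ, lam, k0, k1, hq, hpt, st⟩
  · refine st.trans (le_trans ?_ (avg_mono fun x =>
      lg_ptE (sq_nonneg ρ) hx1 (xv_noise_nonneg hρ.le bv x) (lg_pos hρ bw hw x)))
    rw [avg_add, avg_mul, avg_const]
    linarith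
  · refine st.trans (le_trans ?_ (avg_mono fun x =>
      lg_ptQ (lam := lam) (sq_nonneg ρ) hx1 hq hpt (lg_pos hρ bv h0 x) (noise_mono hρ.le hvw x)))
    have h4 : (cubeAverage fun x => noise ρ v x) = cubeAverage v := avg_noise ρ v
    have h5 : (cubeAverage fun x => noise ρ w x) = cubeAverage w := avg_noise ρ w
    have hV := xv_var hx1.le bv bw hvw 1 1
    have e2 : (fun x => (1 * (noise ρ v x - cubeAverage v) + 1 * (noise ρ w x - cubeAverage w)) ^ 2) = fun x =>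
        ((noise ρ v x + noise ρ w x) ^ 2 + (-2 * (cubeAverage v + cubeAverage w)) * (noise ρ v x + noise ρ w x)) +
          (cubeAverage v + cubeAverage w) ^ 2 := by
      funext x; ring
    rw [e2, avg_add, avg_add, avg_mul, avg_add, avg_const, h4, h5] at hV
    unfold xvV at hV
    rw [avg_sub, avg_add, avg_add, avg_add, avg_add, avg_mul, avg_mul, avg_mul, avg_mul, avg_mul, avg_const, h4, h5]
    have s0 := mul_le_mul_of_nonneg_left (iv h0) (by linarith : 0 ≤ 1 - κ)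
    have s1 := mul_le_mul_of_nonneg_left iw (by linarith : 0 ≤ 1 + κ)
    generalize (cubeAverage fun x => (noise ρ v x + noise ρ w x) ^ 2) = M at hV
    generalize cubeAverage v = a0 at *
    generalize cubeAverage w = a1 at *
    have s2 : M ≤ (a0 + a1) ^ 2 + ρ ^ 2 * (a1 + 3 * a0 - (a0 + a1) ^ 2) := by linarith
    have s3 := mul_le_mul_of_nonneg_left s2 (by positivity : 0 ≤ lam ^ 2 / (4 * q))
    have e3 : (D ^ 2 - 2 * D * lam * (a0 + a1) + lam ^ 2 * ((a0 + a1) ^ 2 + ρ ^ 2 * (a1 + 3 * a0 - (a0 + a1) ^ 2))) / (4 * q)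
        = D ^ 2 / (4 * q) - 2 * D * lam / (4 * q) * (a0 + a1) +
          lam ^ 2 / (4 * q) * ((a0 + a1) ^ 2 + ρ ^ 2 * (a1 + 3 * a0 - (a0 + a1) ^ 2)) := by ring
    rw [e3]
    linarith

theorem lg_ind {ρ : ℝ} (hρ : |ρ| < 1) {B : ℝ → ℝ} (h1 : B 1 ≤ 0)
    (step : ∀ a0 a1 : ℝ, 0 ≤ a0 → a0 ≤ a1 → a1 ≤ 1 → 0 < a1 → LStep (ρ ^ 2) B a0 a1) :
    ∀ (n : ℕ) (u : (Fin n → Bool) → ℝ), (∀ y, u y = 0 ∨ u y = 1) → 0 < cubeAverage u →
      B (cubeAverage u) ≤ cubeAverage fun x => log (noise ρ u x) := by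
  obtain ⟨r0, r1⟩ := abs_lt.1 hρ
  intro n
  induction n with
  | zero =>
    intro u hu h
    rw [avg_zero_dim] at h
    rw [avg_zero_dim, avg_zero_dim, noise_zero_dim]
    rcases hu default with a | a
    · rw [a] at h; exact absurd h (lt_irrefl _)
    · rw [a, log_one]; exact h1
  | succ n ih =>
    intro u hu hpos
    set u0 := sl u false with hu0
    set u1 := sl u true with hu1
    have b0 : ∀ y, u0 y = 0 ∨ u0 y = 1 := fun y => hu _
    have b1 : ∀ y, u1 y = 0 ∨ u1 y = 1 := fun y => hu _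
    let v : (Fin n → Bool) → ℝ := fun y => min (u0 y) (u1 y)
    let w : (Fin n → Bool) → ℝ := fun y => max (u0 y) (u1 y)
    have bv : ∀ y, v y = 0 ∨ v y = 1 := fun y => by
      rcases b0 y with a | a <;> rcases b1 y with c | c <;> simp [v, a, c]
    have bw : ∀ y, w y = 0 ∨ w y = 1 := fun y => by
      rcases b0 y with a | a <;> rcases b1 y with c | c <;> simp [w, a, c]
    have hsum : ∀ y, v y + w y = u0 y + u1 y := fun y => min_add_max _ _
    have hP0 : ∀ x, 0 ≤ noise ρ v x := xv_noise_nonneg hρ.le bv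
    have hv0 : ∀ x, noise ρ v x ≤ noise ρ u0 x := noise_mono hρ.le fun y => min_le_left _ _
    have hv1 : ∀ x, noise ρ v x ≤ noise ρ u1 x := noise_mono hρ.le fun y => min_le_right _ _
    have hns : ∀ x, noise ρ v x + noise ρ w x = noise ρ u0 x + noise ρ u1 x := fun x => by
      rw [← noise_add, ← noise_add]
      simp only [hsum]
    have hav : cubeAverage v + cubeAverage w = cubeAverage u0 + cubeAverage u1 := by
      rw [← avg_add, ← avg_add]
      simp only [hsum]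
    have hvw : ∀ y, v y ≤ w y := fun y => min_le_max
    have a0 : 0 ≤ cubeAverage v := le_avg fun y => by rcases bv y with a | a <;> rw [a]; norm_num
    have a1 : cubeAverage w ≤ 1 := avg_le fun y => by rcases bw y with a | a <;> rw [a]; norm_num
    have a2 : cubeAverage v ≤ cubeAverage w := avg_mono hvw
    rw [avg_succ u, ← hu0, ← hu1] at hpos
    have a3 : 0 < cubeAverage w := by linarith
    have hQ0 := lg_pos hρ bw a3
    have key := lg_avg hρ bv bw hvw a3 (ih v bv) (ih w bw a3) (step _ _ a0 a2 a1 a3)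
    rw [hav] at key
    rw [avg_succ u, avg_succ (fun x => log (noise ρ u x)), ← avg_add (sl (fun x => log (noise ρ u x)) false),
      ← hu0, ← hu1, le_div_iff₀ (by norm_num), mul_comm]
    refine key.trans (avg_mono fun x => ?_)
    have e0 : sl (fun x => log (noise ρ u x)) false x =
        log ((1 + ρ) / 2 * noise ρ u0 x + (1 - ρ) / 2 * noise ρ u1 x) := by
      have := noise_sl ρ u false x
      simp only [sl] at this ⊢
      rw [this]
      simp [spin, hu0, hu1]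
      rfl
    have e1 : sl (fun x => log (noise ρ u x)) true x =
        log ((1 - ρ) / 2 * noise ρ u0 x + (1 + ρ) / 2 * noise ρ u1 x) := by
      have := noise_sl ρ u true x
      simp only [sl] at this ⊢
      rw [this]
      simp [spin, hu0, hu1]
    rw [e0, e1]
    have p0 := hP0 x
    have q0 := hQ0 x
    have c0 := hv0 x
    have c1 := hv1 x
    have c2 := hns x
    generalize noise ρ v x = P at *
    generalize noise ρ w x = Q at *
    generalize noise ρ u0 x = X at *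
    generalize noise ρ u1 x = Y at *
    have hQ : Q = X + Y - P := by linarith
    have hx1 : ρ ^ 2 < 1 := by nlinarith
    have g : ∀ α β : ℝ, 0 < α → 0 < β → 0 < α * X + β * Y := fun α β ha hb => by
      rcases lt_or_ge 0 X with h | h
      · nlinarith [mul_pos ha h, mul_nonneg hb.le (by linarith : 0 ≤ Y)]
      · nlinarith [mul_pos hb (by linarith : 0 < Y), mul_nonneg ha.le (by linarith : 0 ≤ X)]
    rw [← log_mul (g _ _ (by linarith) (by linarith)).ne' (g _ _ (by linarith) (by linarith)).ne']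
    refine log_le_log ?_ ?_
    · have : (Q - P) ^ 2 ≤ (P + Q) ^ 2 := by nlinarith [mul_nonneg p0 q0.le]
      have h2 : 0 < (P + Q) ^ 2 := by positivity
      nlinarith [sq_nonneg ρ]
    · have : (X - Y) ^ 2 ≤ (Q - P) ^ 2 := by rw [hQ]; nlinarith [mul_nonneg (sub_nonneg.2 c0) (sub_nonneg.2 c1)]
      rw [c2]
      nlinarith [mul_le_mul_of_nonneg_left this (sq_nonneg ρ)]

end Crest.Agent.R307
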