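import Crest.Agent.R307.IAl3
import Crest.Agent.R307.IAx
set_option autoImplicit false
set_option linter.unusedVariables false
set_option maxRecDepth 20000
namespace Crest.Agent.R307.LGcA
open Crest.Agent.R307.IA Crest.Agent.R307.IA3

theorem In_cast {e1 e2 e3 : ℝ} {x y1 y2 y3 r : ℕ} {v w : ℝ}
    (h : In e1 e2 e3 x y1 y2 y3 r v) (e : v = w) : In e1 e2 e3 x y1 y2 y3 r w := e ▸ h

noncomputable def fk (x m th r1 r2 : ℝ) : ℝ := ((12:ℝ) * r2)
noncomputable def ft (x m th r1 r2 : ℝ) : ℝ := ((3:ℝ) * r1)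
noncomputable def ftau (x m th r1 r2 : ℝ) : ℝ := ((ft x m th r1 r2) * th)
noncomputable def feps (x m th r1 r2 : ℝ) : ℝ := (((2:ℝ) * ((ft x m th r1 r2) - (fk x m th r1 r2))) / ((1:ℝ) - ((ftau x m th r1 r2) ^ 2)))
noncomputable def fe (x m th r1 r2 : ℝ) : ℝ := ((feps x m th r1 r2) * th)
noncomputable def fS (x m th r1 r2 : ℝ) : ℝ := ((2:ℝ) + ((fe x m th r1 r2) * (ftau x m th r1 r2)))
noncomputable def ft2 (x m th r1 r2 : ℝ) : ℝ := ((ftau x m th r1 r2) ^ 2)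
noncomputable def fX (x m th r1 r2 : ℝ) : ℝ := (x / ((1:ℝ) - (x * (ft2 x m th r1 r2))))
noncomputable def fY (x m th r1 r2 : ℝ) : ℝ := ((2:ℝ) * ((fX x m th r1 r2) * x))
noncomputable def fxt (x m th r1 r2 : ℝ) : ℝ := (x * (ftau x m th r1 r2))
noncomputable def fc4 (x m th r1 r2 : ℝ) : ℝ := (((fS x m th r1 r2) - (max (-(fe x m th r1 r2)) (0:ℝ))) - ((fY x m th r1 r2) * ((x * ((1:ℝ) + (fxt x m th r1 r2))) / ((1:ℝ) - x))))
noncomputable def fc2 (x m th r1 r2 : ℝ) : ℝ := ((fS x m th r1 r2) - (fY x m th r1 r2))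
noncomputable def fc3 (x m th r1 r2 : ℝ) : ℝ := ((fe x m th r1 r2) - ((fY x m th r1 r2) * (fxt x m th r1 r2)))
noncomputable def faq (x m th r1 r2 : ℝ) : ℝ := ((((fc2 x m th r1 r2) / (4:ℝ)) - ((max (-(fc3 x m th r1 r2)) (0:ℝ)) / (5:ℝ))) + ((ftau x m th r1 r2) * (((fc3 x m th r1 r2) * (3/20:ℝ)) + ((ftau x m th r1 r2) * ((fc4 x m th r1 r2) / (10:ℝ))))))
noncomputable def fc0 (x m th r1 r2 : ℝ) : ℝ := ((fS x m th r1 r2) - ((2:ℝ) * (fX x m th r1 r2)))
noncomputable def fc1 (x m th r1 r2 : ℝ) : ℝ := ((fe x m th r1 r2) - ((fY x m th r1 r2) * (ftau x m th r1 r2)))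
noncomputable def fb (x m th r1 r2 : ℝ) : ℝ := (((fc1 x m th r1 r2) / (3:ℝ)) + ((ftau x m th r1 r2) * (((fc2 x m th r1 r2) / (6:ℝ)) + ((ftau x m th r1 r2) * (((fc3 x m th r1 r2) / (10:ℝ)) + ((ftau x m th r1 r2) * ((fc4 x m th r1 r2) / (15:ℝ))))))))
noncomputable def fq (x m th r1 r2 : ℝ) : ℝ := ((((fc0 x m th r1 r2) / (2:ℝ)) + ((ftau x m th r1 r2) * (((fc1 x m th r1 r2) / (6:ℝ)) + ((ftau x m th r1 r2) * (((fc2 x m th r1 r2) / (12:ℝ)) + ((ftau x m th r1 r2) * (((fc3 x m th r1 r2) / (20:ℝ)) + ((ftau x m th r1 r2) * ((fc4 x m th r1 r2) / (30:ℝ)))))))))) - (((max (-(fb x m th r1 r2)) (0:ℝ)) ^ 2) / ((4:ℝ) * (faq x m th r1 r2))))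
noncomputable def fy (x m th r1 r2 : ℝ) : ℝ := (x * (ft2 x m th r1 r2))
noncomputable def fL1 (x m th r1 r2 : ℝ) : ℝ := (-(((fX x m th r1 r2) * ((ft x m th r1 r2) ^ 2)) * ((1:ℝ) - ((fy x m th r1 r2) / (2:ℝ)))))
noncomputable def fL2 (x m th r1 r2 : ℝ) : ℝ := ((((ft x m th r1 r2) ^ 2) * ((1:ℝ) + ((ft2 x m th r1 r2) * ((1/2:ℝ) + ((ft2 x m th r1 r2) / (3:ℝ)))))) - (((2:ℝ) * ((fk x m th r1 r2) * (ft x m th r1 r2))) * ((1:ℝ) + ((ft2 x m th r1 r2) * ((1/3:ℝ) + ((ft2 x m th r1 r2) * ((1/5:ℝ) + ((ft2 x m th r1 r2) * ((1/7:ℝ) + ((ft2 x m th r1 r2) / ((1:ℝ) - (ft2 x m th r1 r2))))))))))))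
noncomputable def fN (x m th r1 r2 : ℝ) : ℝ := (x * (((2:ℝ) - th) - ((2:ℝ) * m)))
noncomputable def fden (x m th r1 r2 : ℝ) : ℝ := (((2:ℝ) * m) + (fN x m th r1 r2))
noncomputable def fjv (x m th r1 r2 : ℝ) : ℝ := ((fN x m th r1 r2) / (fden x m th r1 r2))
noncomputable def fd (x m th r1 r2 : ℝ) : ℝ := ((feps x m th r1 r2) - ((2:ℝ) * ((fX x m th r1 r2) * (ft x m th r1 r2))))
noncomputable def fquad (x m th r1 r2 : ℝ) : ℝ := ((((1:ℝ) - (fjv x m th r1 r2)) * (((1:ℝ) - (ft x m th r1 r2)) * ((fd x m th r1 r2) + ((fq x m th r1 r2) * ((1:ℝ) - (ft x m th r1 r2)))))) - (((fjv x m th r1 r2) * ((fd x m th r1 r2) ^ 2)) / ((4:ℝ) * (fq x m th r1 r2))))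
noncomputable def fcc (x m th r1 r2 : ℝ) : ℝ := ((923/1000:ℝ) + ((2139/1000:ℝ) * x))
noncomputable def fh2 (x m th r1 r2 : ℝ) : ℝ := (th ^ 2)
noncomputable def fL3 (x m th r1 r2 : ℝ) : ℝ := ((((2:ℝ) * (fk x m th r1 r2)) * (((1:ℝ) + ((fh2 x m th r1 r2) / (3:ℝ))) + (((fh2 x m th r1 r2) ^ 2) / (5:ℝ)))) - (((1:ℝ) - ((fh2 x m th r1 r2) / (2:ℝ))) / ((1:ℝ) - (fh2 x m th r1 r2))))
noncomputable def fg1 (x m th r1 r2 : ℝ) : ℝ := ((2957/1000:ℝ) - ((1959/200:ℝ) * x))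
noncomputable def fg2 (x m th r1 r2 : ℝ) : ℝ := (((2829/250:ℝ) * x) - (1123/250:ℝ))
noncomputable def fg3 (x m th r1 r2 : ℝ) : ℝ := ((1013/500:ℝ) - ((5303/1000:ℝ) * x))
noncomputable def fhA (x m th r1 r2 : ℝ) : ℝ := (m * ((((2:ℝ) * (fk x m th r1 r2)) * (fg1 x m th r1 r2)) + (m * (((fg2 x m th r1 r2) * ((2:ℝ) + ((4:ℝ) * (fk x m th r1 r2)))) + (m * ((fg3 x m th r1 r2) * ((6:ℝ) + ((fk x m th r1 r2) * ((6:ℝ) + ((2:ℝ) * (fh2 x m th r1 r2)))))))))))

def Q (x m th : ℝ) : Prop :=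
  ∃ r1 : ℝ, 0 ≤ r1 ∧ r1 ≤ 1 ∧ ∃ r2 : ℝ, 0 ≤ r2 ∧ r2 ≤ 1 ∧ (
  (0 < ((10000:ℝ) * ((m * ((1:ℝ) + th)) - (1:ℝ)))) ∨
  (0 < ((1:ℝ) - ((fk x m th r1 r2) * th)) ∧ 0 < ((1:ℝ) - (ftau x m th r1 r2)) ∧ 0 < (fc4 x m th r1 r2) ∧ 0 < (faq x m th r1 r2) ∧ 0 < (fq x m th r1 r2) ∧ 0 < (((((fL1 x m th r1 r2) + (fL2 x m th r1 r2)) + (fquad x m th r1 r2)) + (((1:ℝ) + (x * (fcc x m th r1 r2))) * (fL3 x m th r1 r2))) + (x * (fhA x m th r1 r2)))))

noncomputable def alt0 (p1 p2 z1 w1 z2 w2 z3 w3 : ℕ) : Bool :=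
  addcK z3 1152921504606846976 1152921504606846976 (Nat.add w3 1152921504606846976) 0 1152922604118474752 0 fun c1 a1_1 a1_2 a1_3 q1 =>
  mulK z2 1152921504606846976 (Nat.add w2 1152921504606846976) 1152921504606846976 0 c1 a1_1 a1_2 a1_3 q1 fun c3 a3_1 a3_2 a3_3 q3 =>
  addcK c3 a3_1 a3_2 a3_3 q3 1152920405095219200 0 fun c4 a4_1 a4_2 a4_3 q4 =>
  smulK 10000 1 1152921504606846977 11529215046068469760000 c4 a4_1 a4_2 a4_3 q4 fun c6 a6_1 a6_2 a6_3 q6 =>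
  pos c6 a6_1 a6_2 a6_3 q6

theorem alt0_s {p1 p2 z1 w1 z2 w2 z3 w3 : ℕ} {e1 e2 e3 x m th r1 r2 : ℝ} (he : Ev e1 e2 e3)
    (hp1 : In e1 e2 e3 p1 1152921504606846976 1152921504606846976 1152921504606846976 0 r1)
    (hp2 : In e1 e2 e3 p2 1152921504606846976 1152921504606846976 1152921504606846976 0 r2)
    (hx1 : In e1 e2 e3 z1 (Nat.add w1 1152921504606846976) 1152921504606846976 1152921504606846976 0 x)
    (hx2 : In e1 e2 e3 z2 1152921504606846976 (Nat.add w2 1152921504606846976) 1152921504606846976 0 m)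
    (hx3 : In e1 e2 e3 z3 1152921504606846976 1152921504606846976 (Nat.add w3 1152921504606846976) 0 th)
    (H0 : alt0 p1 p2 z1 w1 z2 w2 z3 w3 = true) : 0 < ((10000:ℝ) * ((m * ((1:ℝ) + th)) - (1:ℝ))) := by
  unfold alt0 at H0
  refine addcK_s he hx3 (v' := (1:ℝ)) (by norm_num [SS, BB, abs_le]) (fun _ _ _ _ _ h1 H1 => ?_) H0
  have h2 := In_cast h1 (add_comm _ _)
  refine mulK_s he hx2 h2 (fun _ _ _ _ _ h3 H2 => ?_) H1
  refine addcK_s he h3 (v' := (-1:ℝ)) (by norm_num [SS, BB, abs_le]) (fun _ _ _ _ _ h4 H3 => ?_) H2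
  have h5 := In_cast h4 (sub_c (c := (1:ℝ)) (by norm_num))
  refine smulK_s he (w := (10000:ℝ)) (by norm_num) (by norm_num) (by norm_num) (by norm_num) h5 (fun _ _ _ _ _ h6 H4 => ?_) H3
  exact pos_s he h6 H4

noncomputable def alt1 (p1 p2 z1 w1 z2 w2 z3 w3 : ℕ) : Bool :=
  smulK 12 1 1152921504606846977 13835058055282163712 p2 1152921504606846976 1152921504606846976 1152921504606846976 0 fun c1 a1_1 a1_2 a1_3 q1 =>
  mulK c1 a1_1 a1_2 a1_3 q1 z3 1152921504606846976 1152921504606846976 (Nat.add w3 1152921504606846976) 0 fun c3 a3_1 a3_2 a3_3 q3 =>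
  negK c3 a3_1 a3_2 a3_3 q3 fun c4 a4_1 a4_2 a4_3 q4 =>
  addcK c4 a4_1 a4_2 a4_3 q4 1152922604118474752 0 fun c5 a5_1 a5_2 a5_3 q5 =>
  posK c5 a5_1 a5_2 a5_3 q5 <|
  smulK 3 1 1152921504606846977 3458764513820540928 p1 1152921504606846976 1152921504606846976 1152921504606846976 0 fun c7 a7_1 a7_2 a7_3 q7 =>
  mulK c7 a7_1 a7_2 a7_3 q7 z3 1152921504606846976 1152921504606846976 (Nat.add w3 1152921504606846976) 0 fun c9 a9_1 a9_2 a9_3 q9 =>
  negK c9 a9_1 a9_2 a9_3 q9 fun c11 a11_1 a11_2 a11_3 q11 =>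
  addcK c11 a11_1 a11_2 a11_3 q11 1152922604118474752 0 fun c12 a12_1 a12_2 a12_3 q12 =>
  posK c12 a12_1 a12_2 a12_3 q12 <|
  sqK c9 a9_1 a9_2 a9_3 q9 fun c14 a14_1 a14_2 a14_3 q14 =>
  negK c14 a14_1 a14_2 a14_3 q14 fun c15 a15_1 a15_2 a15_3 q15 =>
  addcK c15 a15_1 a15_2 a15_3 q15 1152922604118474752 0 fun c16 a16_1 a16_2 a16_3 q16 =>
  invK c16 a16_1 a16_2 a16_3 q16 fun c18 a18_1 a18_2 a18_3 q18 =>
  subK c7 a7_1 a7_2 a7_3 q7 c1 a1_1 a1_2 a1_3 q1 fun c19 a19_1 a19_2 a19_3 q19 =>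
  smulK 2 1 1152921504606846977 2305843009213693952 c19 a19_1 a19_2 a19_3 q19 fun c20 a20_1 a20_2 a20_3 q20 =>
  mulK c20 a20_1 a20_2 a20_3 q20 c18 a18_1 a18_2 a18_3 q18 fun c21 a21_1 a21_2 a21_3 q21 =>
  mulK c21 a21_1 a21_2 a21_3 q21 z3 1152921504606846976 1152921504606846976 (Nat.add w3 1152921504606846976) 0 fun c24 a24_1 a24_2 a24_3 q24 =>
  mulK c24 a24_1 a24_2 a24_3 q24 c9 a9_1 a9_2 a9_3 q9 fun c26 a26_1 a26_2 a26_3 q26 =>
  addcK c26 a26_1 a26_2 a26_3 q26 1152923703630102528 0 fun c27 a27_1 a27_2 a27_3 q27 =>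
  negK c24 a24_1 a24_2 a24_3 q24 fun c30 a30_1 a30_2 a30_3 q30 =>
  reluK c30 a30_1 a30_2 a30_3 q30 fun c31 a31_1 a31_2 a31_3 q31 =>
  subK c27 a27_1 a27_2 a27_3 q27 c31 a31_1 a31_2 a31_3 q31 fun c32 a32_1 a32_2 a32_3 q32 =>
  mulK z1 (Nat.add w1 1152921504606846976) 1152921504606846976 1152921504606846976 0 c14 a14_1 a14_2 a14_3 q14 fun c34 a34_1 a34_2 a34_3 q34 =>
  negK c34 a34_1 a34_2 a34_3 q34 fun c35 a35_1 a35_2 a35_3 q35 =>
  addcK c35 a35_1 a35_2 a35_3 q35 1152922604118474752 0 fun c36 a36_1 a36_2 a36_3 q36 =>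
  invK c36 a36_1 a36_2 a36_3 q36 fun c38 a38_1 a38_2 a38_3 q38 =>
  mulK z1 (Nat.add w1 1152921504606846976) 1152921504606846976 1152921504606846976 0 c38 a38_1 a38_2 a38_3 q38 fun c39 a39_1 a39_2 a39_3 q39 =>
  mulK c39 a39_1 a39_2 a39_3 q39 z1 (Nat.add w1 1152921504606846976) 1152921504606846976 1152921504606846976 0 fun c42 a42_1 a42_2 a42_3 q42 =>
  smulK 2 1 1152921504606846977 2305843009213693952 c42 a42_1 a42_2 a42_3 q42 fun c43 a43_1 a43_2 a43_3 q43 =>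
  negK z1 (Nat.add w1 1152921504606846976) 1152921504606846976 1152921504606846976 0 fun c45 a45_1 a45_2 a45_3 q45 =>
  addcK c45 a45_1 a45_2 a45_3 q45 1152922604118474752 0 fun c46 a46_1 a46_2 a46_3 q46 =>
  invK c46 a46_1 a46_2 a46_3 q46 fun c48 a48_1 a48_2 a48_3 q48 =>
  mulK z1 (Nat.add w1 1152921504606846976) 1152921504606846976 1152921504606846976 0 c9 a9_1 a9_2 a9_3 q9 fun c49 a49_1 a49_2 a49_3 q49 =>
  addcK c49 a49_1 a49_2 a49_3 q49 1152922604118474752 0 fun c51 a51_1 a51_2 a51_3 q51 =>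
  mulK z1 (Nat.add w1 1152921504606846976) 1152921504606846976 1152921504606846976 0 c51 a51_1 a51_2 a51_3 q51 fun c53 a53_1 a53_2 a53_3 q53 =>
  mulK c53 a53_1 a53_2 a53_3 q53 c48 a48_1 a48_2 a48_3 q48 fun c54 a54_1 a54_2 a54_3 q54 =>
  mulK c43 a43_1 a43_2 a43_3 q43 c54 a54_1 a54_2 a54_3 q54 fun c56 a56_1 a56_2 a56_3 q56 =>
  subK c32 a32_1 a32_2 a32_3 q32 c56 a56_1 a56_2 a56_3 q56 fun c57 a57_1 a57_2 a57_3 q57 =>
  posK c57 a57_1 a57_2 a57_3 q57 <|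
  subK c27 a27_1 a27_2 a27_3 q27 c43 a43_1 a43_2 a43_3 q43 fun c59 a59_1 a59_2 a59_3 q59 =>
  smulK 1 4 4611686018427387908 1152921504606846976 c59 a59_1 a59_2 a59_3 q59 fun c61 a61_1 a61_2 a61_3 q61 =>
  mulK c43 a43_1 a43_2 a43_3 q43 c49 a49_1 a49_2 a49_3 q49 fun c63 a63_1 a63_2 a63_3 q63 =>
  subK c24 a24_1 a24_2 a24_3 q24 c63 a63_1 a63_2 a63_3 q63 fun c64 a64_1 a64_2 a64_3 q64 =>
  negK c64 a64_1 a64_2 a64_3 q64 fun c66 a66_1 a66_2 a66_3 q66 =>
  reluK c66 a66_1 a66_2 a66_3 q66 fun c67 a67_1 a67_2 a67_3 q67 =>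
  smulK 1 5 5764607523034234885 1152921504606846976 c67 a67_1 a67_2 a67_3 q67 fun c68 a68_1 a68_2 a68_3 q68 =>
  subK c61 a61_1 a61_2 a61_3 q61 c68 a68_1 a68_2 a68_3 q68 fun c70 a70_1 a70_2 a70_3 q70 =>
  smulK 3 20 23058430092136939540 3458764513820540928 c64 a64_1 a64_2 a64_3 q64 fun c71 a71_1 a71_2 a71_3 q71 =>
  smulK 1 10 11529215046068469770 1152921504606846976 c57 a57_1 a57_2 a57_3 q57 fun c73 a73_1 a73_2 a73_3 q73 =>
  mulK c9 a9_1 a9_2 a9_3 q9 c73 a73_1 a73_2 a73_3 q73 fun c75 a75_1 a75_2 a75_3 q75 =>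
  addK c71 a71_1 a71_2 a71_3 q71 c75 a75_1 a75_2 a75_3 q75 fun c76 a76_1 a76_2 a76_3 q76 =>
  mulK c9 a9_1 a9_2 a9_3 q9 c76 a76_1 a76_2 a76_3 q76 fun c77 a77_1 a77_2 a77_3 q77 =>
  addK c70 a70_1 a70_2 a70_3 q70 c77 a77_1 a77_2 a77_3 q77 fun c78 a78_1 a78_2 a78_3 q78 =>
  posK c78 a78_1 a78_2 a78_3 q78 <|
  smulK 2 1 1152921504606846977 2305843009213693952 c39 a39_1 a39_2 a39_3 q39 fun c80 a80_1 a80_2 a80_3 q80 =>
  subK c27 a27_1 a27_2 a27_3 q27 c80 a80_1 a80_2 a80_3 q80 fun c81 a81_1 a81_2 a81_3 q81 =>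
  smulK 1 2 2305843009213693954 1152921504606846976 c81 a81_1 a81_2 a81_3 q81 fun c83 a83_1 a83_2 a83_3 q83 =>
  mulK c43 a43_1 a43_2 a43_3 q43 c9 a9_1 a9_2 a9_3 q9 fun c85 a85_1 a85_2 a85_3 q85 =>
  subK c24 a24_1 a24_2 a24_3 q24 c85 a85_1 a85_2 a85_3 q85 fun c86 a86_1 a86_2 a86_3 q86 =>
  smulK 1 6 6917529027641081862 1152921504606846976 c86 a86_1 a86_2 a86_3 q86 fun c88 a88_1 a88_2 a88_3 q88 =>
  smulK 1 12 13835058055282163724 1152921504606846976 c59 a59_1 a59_2 a59_3 q59 fun c90 a90_1 a90_2 a90_3 q90 =>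
  smulK 1 20 23058430092136939540 1152921504606846976 c64 a64_1 a64_2 a64_3 q64 fun c92 a92_1 a92_2 a92_3 q92 =>
  smulK 1 30 34587645138205409310 1152921504606846976 c57 a57_1 a57_2 a57_3 q57 fun c94 a94_1 a94_2 a94_3 q94 =>
  mulK c9 a9_1 a9_2 a9_3 q9 c94 a94_1 a94_2 a94_3 q94 fun c96 a96_1 a96_2 a96_3 q96 =>
  addK c92 a92_1 a92_2 a92_3 q92 c96 a96_1 a96_2 a96_3 q96 fun c97 a97_1 a97_2 a97_3 q97 =>
  mulK c9 a9_1 a9_2 a9_3 q9 c97 a97_1 a97_2 a97_3 q97 fun c98 a98_1 a98_2 a98_3 q98 =>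
  addK c90 a90_1 a90_2 a90_3 q90 c98 a98_1 a98_2 a98_3 q98 fun c99 a99_1 a99_2 a99_3 q99 =>
  mulK c9 a9_1 a9_2 a9_3 q9 c99 a99_1 a99_2 a99_3 q99 fun c100 a100_1 a100_2 a100_3 q100 =>
  addK c88 a88_1 a88_2 a88_3 q88 c100 a100_1 a100_2 a100_3 q100 fun c101 a101_1 a101_2 a101_3 q101 =>
  mulK c9 a9_1 a9_2 a9_3 q9 c101 a101_1 a101_2 a101_3 q101 fun c102 a102_1 a102_2 a102_3 q102 =>
  addK c83 a83_1 a83_2 a83_3 q83 c102 a102_1 a102_2 a102_3 q102 fun c103 a103_1 a103_2 a103_3 q103 =>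
  smulK 4 1 1152921504606846977 4611686018427387904 c78 a78_1 a78_2 a78_3 q78 fun c104 a104_1 a104_2 a104_3 q104 =>
  invK c104 a104_1 a104_2 a104_3 q104 fun c105 a105_1 a105_2 a105_3 q105 =>
  smulK 1 3 3458764513820540931 1152921504606846976 c86 a86_1 a86_2 a86_3 q86 fun c106 a106_1 a106_2 a106_3 q106 =>
  smulK 1 6 6917529027641081862 1152921504606846976 c59 a59_1 a59_2 a59_3 q59 fun c108 a108_1 a108_2 a108_3 q108 =>
  smulK 1 10 11529215046068469770 1152921504606846976 c64 a64_1 a64_2 a64_3 q64 fun c110 a110_1 a110_2 a110_3 q110 =>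
  smulK 1 15 17293822569102704655 1152921504606846976 c57 a57_1 a57_2 a57_3 q57 fun c112 a112_1 a112_2 a112_3 q112 =>
  mulK c9 a9_1 a9_2 a9_3 q9 c112 a112_1 a112_2 a112_3 q112 fun c114 a114_1 a114_2 a114_3 q114 =>
  addK c110 a110_1 a110_2 a110_3 q110 c114 a114_1 a114_2 a114_3 q114 fun c115 a115_1 a115_2 a115_3 q115 =>
  mulK c9 a9_1 a9_2 a9_3 q9 c115 a115_1 a115_2 a115_3 q115 fun c116 a116_1 a116_2 a116_3 q116 =>
  addK c108 a108_1 a108_2 a108_3 q108 c116 a116_1 a116_2 a116_3 q116 fun c117 a117_1 a117_2 a117_3 q117 =>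
  mulK c9 a9_1 a9_2 a9_3 q9 c117 a117_1 a117_2 a117_3 q117 fun c118 a118_1 a118_2 a118_3 q118 =>
  addK c106 a106_1 a106_2 a106_3 q106 c118 a118_1 a118_2 a118_3 q118 fun c119 a119_1 a119_2 a119_3 q119 =>
  negK c119 a119_1 a119_2 a119_3 q119 fun c121 a121_1 a121_2 a121_3 q121 =>
  reluK c121 a121_1 a121_2 a121_3 q121 fun c122 a122_1 a122_2 a122_3 q122 =>
  sqK c122 a122_1 a122_2 a122_3 q122 fun c123 a123_1 a123_2 a123_3 q123 =>
  mulK c123 a123_1 a123_2 a123_3 q123 c105 a105_1 a105_2 a105_3 q105 fun c124 a124_1 a124_2 a124_3 q124 =>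
  subK c103 a103_1 a103_2 a103_3 q103 c124 a124_1 a124_2 a124_3 q124 fun c126 a126_1 a126_2 a126_3 q126 =>
  posK c126 a126_1 a126_2 a126_3 q126 <|
  sqK c7 a7_1 a7_2 a7_3 q7 fun c128 a128_1 a128_2 a128_3 q128 =>
  mulK c39 a39_1 a39_2 a39_3 q39 c128 a128_1 a128_2 a128_3 q128 fun c129 a129_1 a129_2 a129_3 q129 =>
  smulK 1 2 2305843009213693954 1152921504606846976 c34 a34_1 a34_2 a34_3 q34 fun c131 a131_1 a131_2 a131_3 q131 =>
  negK c131 a131_1 a131_2 a131_3 q131 fun c133 a133_1 a133_2 a133_3 q133 =>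
  addcK c133 a133_1 a133_2 a133_3 q133 1152922604118474752 0 fun c134 a134_1 a134_2 a134_3 q134 =>
  mulK c129 a129_1 a129_2 a129_3 q129 c134 a134_1 a134_2 a134_3 q134 fun c136 a136_1 a136_2 a136_3 q136 =>
  negK c136 a136_1 a136_2 a136_3 q136 fun c137 a137_1 a137_2 a137_3 q137 =>
  smulK 1 3 3458764513820540931 1152921504606846976 c14 a14_1 a14_2 a14_3 q14 fun c139 a139_1 a139_2 a139_3 q139 =>
  addcK c139 a139_1 a139_2 a139_3 q139 1152922054362660864 0 fun c141 a141_1 a141_2 a141_3 q141 =>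
  mulK c14 a14_1 a14_2 a14_3 q14 c141 a141_1 a141_2 a141_3 q141 fun c143 a143_1 a143_2 a143_3 q143 =>
  addcK c143 a143_1 a143_2 a143_3 q143 1152922604118474752 0 fun c144 a144_1 a144_2 a144_3 q144 =>
  mulK c128 a128_1 a128_2 a128_3 q128 c144 a144_1 a144_2 a144_3 q144 fun c146 a146_1 a146_2 a146_3 q146 =>
  mulK c1 a1_1 a1_2 a1_3 q1 c7 a7_1 a7_2 a7_3 q7 fun c147 a147_1 a147_2 a147_3 q147 =>
  smulK 2 1 1152921504606846977 2305843009213693952 c147 a147_1 a147_2 a147_3 q147 fun c148 a148_1 a148_2 a148_3 q148 =>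
  negK c14 a14_1 a14_2 a14_3 q14 fun c149 a149_1 a149_2 a149_3 q149 =>
  addcK c149 a149_1 a149_2 a149_3 q149 1152922604118474752 0 fun c150 a150_1 a150_2 a150_3 q150 =>
  invK c150 a150_1 a150_2 a150_3 q150 fun c152 a152_1 a152_2 a152_3 q152 =>
  mulK c14 a14_1 a14_2 a14_3 q14 c152 a152_1 a152_2 a152_3 q152 fun c153 a153_1 a153_2 a153_3 q153 =>
  addcK c153 a153_1 a153_2 a153_3 q153 1152921661679936658 1 fun c155 a155_1 a155_2 a155_3 q155 =>
  mulK c14 a14_1 a14_2 a14_3 q14 c155 a155_1 a155_2 a155_3 q155 fun c157 a157_1 a157_2 a157_3 q157 =>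
  addcK c157 a157_1 a157_2 a157_3 q157 1152921724509172531 1 fun c158 a158_1 a158_2 a158_3 q158 =>
  mulK c14 a14_1 a14_2 a14_3 q14 c158 a158_1 a158_2 a158_3 q158 fun c160 a160_1 a160_2 a160_3 q160 =>
  addcK c160 a160_1 a160_2 a160_3 q160 1152921871110722901 1 fun c161 a161_1 a161_2 a161_3 q161 =>
  mulK c14 a14_1 a14_2 a14_3 q14 c161 a161_1 a161_2 a161_3 q161 fun c163 a163_1 a163_2 a163_3 q163 =>
  addcK c163 a163_1 a163_2 a163_3 q163 1152922604118474752 0 fun c164 a164_1 a164_2 a164_3 q164 =>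
  mulK c148 a148_1 a148_2 a148_3 q148 c164 a164_1 a164_2 a164_3 q164 fun c166 a166_1 a166_2 a166_3 q166 =>
  subK c146 a146_1 a146_2 a146_3 q146 c166 a166_1 a166_2 a166_3 q166 fun c167 a167_1 a167_2 a167_3 q167 =>
  addK c137 a137_1 a137_2 a137_3 q137 c167 a167_1 a167_2 a167_3 q167 fun c169 a169_1 a169_2 a169_3 q169 =>
  smulK 2 1 1152921504606846977 2305843009213693952 z2 1152921504606846976 (Nat.add w2 1152921504606846976) 1152921504606846976 0 fun c170 a170_1 a170_2 a170_3 q170 =>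
  negK z3 1152921504606846976 1152921504606846976 (Nat.add w3 1152921504606846976) 0 fun c171 a171_1 a171_2 a171_3 q171 =>
  addcK c171 a171_1 a171_2 a171_3 q171 1152923703630102528 0 fun c172 a172_1 a172_2 a172_3 q172 =>
  subK c172 a172_1 a172_2 a172_3 q172 c170 a170_1 a170_2 a170_3 q170 fun c174 a174_1 a174_2 a174_3 q174 =>
  mulK z1 (Nat.add w1 1152921504606846976) 1152921504606846976 1152921504606846976 0 c174 a174_1 a174_2 a174_3 q174 fun c175 a175_1 a175_2 a175_3 q175 =>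
  addK c170 a170_1 a170_2 a170_3 q170 c175 a175_1 a175_2 a175_3 q175 fun c177 a177_1 a177_2 a177_3 q177 =>
  invK c177 a177_1 a177_2 a177_3 q177 fun c179 a179_1 a179_2 a179_3 q179 =>
  mulK c175 a175_1 a175_2 a175_3 q175 c179 a179_1 a179_2 a179_3 q179 fun c180 a180_1 a180_2 a180_3 q180 =>
  negK c180 a180_1 a180_2 a180_3 q180 fun c183 a183_1 a183_2 a183_3 q183 =>
  addcK c183 a183_1 a183_2 a183_3 q183 1152922604118474752 0 fun c184 a184_1 a184_2 a184_3 q184 =>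
  negK c7 a7_1 a7_2 a7_3 q7 fun c186 a186_1 a186_2 a186_3 q186 =>
  addcK c186 a186_1 a186_2 a186_3 q186 1152922604118474752 0 fun c187 a187_1 a187_2 a187_3 q187 =>
  mulK c39 a39_1 a39_2 a39_3 q39 c7 a7_1 a7_2 a7_3 q7 fun c189 a189_1 a189_2 a189_3 q189 =>
  smulK 2 1 1152921504606846977 2305843009213693952 c189 a189_1 a189_2 a189_3 q189 fun c190 a190_1 a190_2 a190_3 q190 =>
  subK c21 a21_1 a21_2 a21_3 q21 c190 a190_1 a190_2 a190_3 q190 fun c191 a191_1 a191_2 a191_3 q191 =>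
  mulK c126 a126_1 a126_2 a126_3 q126 c187 a187_1 a187_2 a187_3 q187 fun c193 a193_1 a193_2 a193_3 q193 =>
  addK c191 a191_1 a191_2 a191_3 q191 c193 a193_1 a193_2 a193_3 q193 fun c194 a194_1 a194_2 a194_3 q194 =>
  mulK c187 a187_1 a187_2 a187_3 q187 c194 a194_1 a194_2 a194_3 q194 fun c195 a195_1 a195_2 a195_3 q195 =>
  mulK c184 a184_1 a184_2 a184_3 q184 c195 a195_1 a195_2 a195_3 q195 fun c196 a196_1 a196_2 a196_3 q196 =>
  smulK 4 1 1152921504606846977 4611686018427387904 c126 a126_1 a126_2 a126_3 q126 fun c197 a197_1 a197_2 a197_3 q197 =>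
  invK c197 a197_1 a197_2 a197_3 q197 fun c198 a198_1 a198_2 a198_3 q198 =>
  sqK c191 a191_1 a191_2 a191_3 q191 fun c199 a199_1 a199_2 a199_3 q199 =>
  mulK c180 a180_1 a180_2 a180_3 q180 c199 a199_1 a199_2 a199_3 q199 fun c200 a200_1 a200_2 a200_3 q200 =>
  mulK c200 a200_1 a200_2 a200_3 q200 c198 a198_1 a198_2 a198_3 q198 fun c201 a201_1 a201_2 a201_3 q201 =>
  subK c196 a196_1 a196_2 a196_3 q196 c201 a201_1 a201_2 a201_3 q201 fun c203 a203_1 a203_2 a203_3 q203 =>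
  addK c169 a169_1 a169_2 a169_3 q169 c203 a203_1 a203_2 a203_3 q203 fun c205 a205_1 a205_2 a205_3 q205 =>
  smulK 2139 1000 1152921504606846977000 2466099098354045681664 z1 (Nat.add w1 1152921504606846976) 1152921504606846976 1152921504606846976 0 fun c206 a206_1 a206_2 a206_3 q206 =>
  addcK c206 a206_1 a206_2 a206_3 q206 1152922519456079413 1 fun c207 a207_1 a207_2 a207_3 q207 =>
  mulK z1 (Nat.add w1 1152921504606846976) 1152921504606846976 1152921504606846976 0 c207 a207_1 a207_2 a207_3 q207 fun c210 a210_1 a210_2 a210_3 q210 =>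
  addcK c210 a210_1 a210_2 a210_3 q210 1152922604118474752 0 fun c211 a211_1 a211_2 a211_3 q211 =>
  smulK 2 1 1152921504606846977 2305843009213693952 c1 a1_1 a1_2 a1_3 q1 fun c213 a213_1 a213_2 a213_3 q213 =>
  sqK z3 1152921504606846976 1152921504606846976 (Nat.add w3 1152921504606846976) 0 fun c214 a214_1 a214_2 a214_3 q214 =>
  smulK 1 3 3458764513820540931 1152921504606846976 c214 a214_1 a214_2 a214_3 q214 fun c216 a216_1 a216_2 a216_3 q216 =>
  addcK c216 a216_1 a216_2 a216_3 q216 1152922604118474752 0 fun c218 a218_1 a218_2 a218_3 q218 =>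
  sqK c214 a214_1 a214_2 a214_3 q214 fun c220 a220_1 a220_2 a220_3 q220 =>
  smulK 1 5 5764607523034234885 1152921504606846976 c220 a220_1 a220_2 a220_3 q220 fun c221 a221_1 a221_2 a221_3 q221 =>
  addK c218 a218_1 a218_2 a218_3 q218 c221 a221_1 a221_2 a221_3 q221 fun c223 a223_1 a223_2 a223_3 q223 =>
  mulK c213 a213_1 a213_2 a213_3 q213 c223 a223_1 a223_2 a223_3 q223 fun c224 a224_1 a224_2 a224_3 q224 =>
  negK c214 a214_1 a214_2 a214_3 q214 fun c225 a225_1 a225_2 a225_3 q225 =>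
  addcK c225 a225_1 a225_2 a225_3 q225 1152922604118474752 0 fun c226 a226_1 a226_2 a226_3 q226 =>
  invK c226 a226_1 a226_2 a226_3 q226 fun c228 a228_1 a228_2 a228_3 q228 =>
  smulK 1 2 2305843009213693954 1152921504606846976 c214 a214_1 a214_2 a214_3 q214 fun c229 a229_1 a229_2 a229_3 q229 =>
  negK c229 a229_1 a229_2 a229_3 q229 fun c231 a231_1 a231_2 a231_3 q231 =>
  addcK c231 a231_1 a231_2 a231_3 q231 1152922604118474752 0 fun c232 a232_1 a232_2 a232_3 q232 =>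
  mulK c232 a232_1 a232_2 a232_3 q232 c228 a228_1 a228_2 a228_3 q228 fun c234 a234_1 a234_2 a234_3 q234 =>
  subK c224 a224_1 a224_2 a224_3 q224 c234 a234_1 a234_2 a234_3 q234 fun c236 a236_1 a236_2 a236_3 q236 =>
  mulK c211 a211_1 a211_2 a211_3 q211 c236 a236_1 a236_2 a236_3 q236 fun c238 a238_1 a238_2 a238_3 q238 =>
  addK c205 a205_1 a205_2 a205_3 q205 c238 a238_1 a238_2 a238_3 q238 fun c239 a239_1 a239_2 a239_3 q239 =>
  smulK 1959 200 230584300921369395400 2258573227524813225984 z1 (Nat.add w1 1152921504606846976) 1152921504606846976 1152921504606846976 0 fun c240 a240_1 a240_2 a240_3 q240 =>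
  negK c240 a240_1 a240_2 a240_3 q240 fun c241 a241_1 a241_2 a241_3 q241 =>
  addcK c241 a241_1 a241_2 a241_3 q241 1152924755862730310 1 fun c242 a242_1 a242_2 a242_3 q242 =>
  mulK c213 a213_1 a213_2 a213_3 q213 c242 a242_1 a242_2 a242_3 q242 fun c245 a245_1 a245_2 a245_3 q245 =>
  smulK 2829 250 288230376151711744250 3261614936532770095104 z1 (Nat.add w1 1152921504606846976) 1152921504606846976 1152921504606846976 0 fun c246 a246_1 a246_2 a246_3 q246 =>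
  addcK c246 a246_1 a246_2 a246_3 q246 1152916565600615006 1 fun c247 a247_1 a247_2 a247_3 q247 =>
  smulK 4 1 1152921504606846977 4611686018427387904 c1 a1_1 a1_2 a1_3 q1 fun c250 a250_1 a250_2 a250_3 q250 =>
  addcK c250 a250_1 a250_2 a250_3 q250 1152923703630102528 0 fun c251 a251_1 a251_2 a251_3 q251 =>
  mulK c247 a247_1 a247_2 a247_3 q247 c251 a251_1 a251_2 a251_3 q251 fun c253 a253_1 a253_2 a253_3 q253 =>
  smulK 5303 1000 1152921504606846977000 6113942738930109513728 z1 (Nat.add w1 1152921504606846976) 1152921504606846976 1152921504606846976 0 fun c254 a254_1 a254_2 a254_3 q254 =>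
  negK c254 a254_1 a254_2 a254_3 q254 fun c255 a255_1 a255_2 a255_3 q255 =>
  addcK c255 a255_1 a255_2 a255_3 q255 1152923732217404850 1 fun c256 a256_1 a256_2 a256_3 q256 =>
  smulK 2 1 1152921504606846977 2305843009213693952 c214 a214_1 a214_2 a214_3 q214 fun c259 a259_1 a259_2 a259_3 q259 =>
  addcK c259 a259_1 a259_2 a259_3 q259 1152928101676613632 0 fun c260 a260_1 a260_2 a260_3 q260 =>
  mulK c1 a1_1 a1_2 a1_3 q1 c260 a260_1 a260_2 a260_3 q260 fun c262 a262_1 a262_2 a262_3 q262 =>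
  addcK c262 a262_1 a262_2 a262_3 q262 1152928101676613632 0 fun c263 a263_1 a263_2 a263_3 q263 =>
  mulK c256 a256_1 a256_2 a256_3 q256 c263 a263_1 a263_2 a263_3 q263 fun c265 a265_1 a265_2 a265_3 q265 =>
  mulK z2 1152921504606846976 (Nat.add w2 1152921504606846976) 1152921504606846976 0 c265 a265_1 a265_2 a265_3 q265 fun c266 a266_1 a266_2 a266_3 q266 =>
  addK c253 a253_1 a253_2 a253_3 q253 c266 a266_1 a266_2 a266_3 q266 fun c267 a267_1 a267_2 a267_3 q267 =>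
  mulK z2 1152921504606846976 (Nat.add w2 1152921504606846976) 1152921504606846976 0 c267 a267_1 a267_2 a267_3 q267 fun c268 a268_1 a268_2 a268_3 q268 =>
  addK c245 a245_1 a245_2 a245_3 q245 c268 a268_1 a268_2 a268_3 q268 fun c269 a269_1 a269_2 a269_3 q269 =>
  mulK z2 1152921504606846976 (Nat.add w2 1152921504606846976) 1152921504606846976 0 c269 a269_1 a269_2 a269_3 q269 fun c270 a270_1 a270_2 a270_3 q270 =>
  mulK z1 (Nat.add w1 1152921504606846976) 1152921504606846976 1152921504606846976 0 c270 a270_1 a270_2 a270_3 q270 fun c272 a272_1 a272_2 a272_3 q272 =>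
  addK c239 a239_1 a239_2 a239_3 q239 c272 a272_1 a272_2 a272_3 q272 fun c273 a273_1 a273_2 a273_3 q273 =>
  pos c273 a273_1 a273_2 a273_3 q273

theorem alt1_s {p1 p2 z1 w1 z2 w2 z3 w3 : ℕ} {e1 e2 e3 x m th r1 r2 : ℝ} (he : Ev e1 e2 e3)
    (hp1 : In e1 e2 e3 p1 1152921504606846976 1152921504606846976 1152921504606846976 0 r1)
    (hp2 : In e1 e2 e3 p2 1152921504606846976 1152921504606846976 1152921504606846976 0 r2)
    (hx1 : In e1 e2 e3 z1 (Nat.add w1 1152921504606846976) 1152921504606846976 1152921504606846976 0 x)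
    (hx2 : In e1 e2 e3 z2 1152921504606846976 (Nat.add w2 1152921504606846976) 1152921504606846976 0 m)
    (hx3 : In e1 e2 e3 z3 1152921504606846976 1152921504606846976 (Nat.add w3 1152921504606846976) 0 th)
    (H0 : alt1 p1 p2 z1 w1 z2 w2 z3 w3 = true) : 0 < ((1:ℝ) - ((fk x m th r1 r2) * th)) ∧ 0 < ((1:ℝ) - (ftau x m th r1 r2)) ∧ 0 < (fc4 x m th r1 r2) ∧ 0 < (faq x m th r1 r2) ∧ 0 < (fq x m th r1 r2) ∧ 0 < (((((fL1 x m th r1 r2) + (fL2 x m th r1 r2)) + (fquad x m th r1 r2)) + (((1:ℝ) + (x * (fcc x m th r1 r2))) * (fL3 x m th r1 r2))) + (x * (fhA x m th r1 r2))) := by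
  unfold alt1 at H0
  refine smulK_s he (w := (12:ℝ)) (by norm_num) (by norm_num) (by norm_num) (by norm_num) hp2 (fun _ _ _ _ _ h1 H1 => ?_) H0
  have h2 := In_cast (w := (fk x m th r1 r2)) h1 rfl
  refine mulK_s he h2 hx3 (fun _ _ _ _ _ h3 H2 => ?_) H1
  refine negK_s he h3 (fun _ _ _ _ _ h4 H3 => ?_) H2
  refine addcK_s he h4 (v' := (1:ℝ)) (by norm_num [SS, BB, abs_le]) (fun _ _ _ _ _ h5 H4 => ?_) H3
  have h6 := In_cast h5 (neg_add_eq_sub _ _)
  refine posK_s he h6 (fun p0 H5 => ?_) H4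
  refine smulK_s he (w := (3:ℝ)) (by norm_num) (by norm_num) (by norm_num) (by norm_num) hp1 (fun _ _ _ _ _ h7 H6 => ?_) H5
  have h8 := In_cast (w := (ft x m th r1 r2)) h7 rfl
  refine mulK_s he h8 hx3 (fun _ _ _ _ _ h9 H7 => ?_) H6
  have h10 := In_cast (w := (ftau x m th r1 r2)) h9 rfl
  refine negK_s he h10 (fun _ _ _ _ _ h11 H8 => ?_) H7
  refine addcK_s he h11 (v' := (1:ℝ)) (by norm_num [SS, BB, abs_le]) (fun _ _ _ _ _ h12 H9 => ?_) H8
  have h13 := In_cast h12 (neg_add_eq_sub _ _)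
  refine posK_s he h13 (fun p1 H10 => ?_) H9
  refine sqK_s he h10 (fun _ _ _ _ _ h14 H11 => ?_) H10
  refine negK_s he h14 (fun _ _ _ _ _ h15 H12 => ?_) H11
  refine addcK_s he h15 (v' := (1:ℝ)) (by norm_num [SS, BB, abs_le]) (fun _ _ _ _ _ h16 H13 => ?_) H12
  have h17 := In_cast h16 (neg_add_eq_sub _ _)
  refine invK_s he h17 (fun _ _ _ _ _ h18 H14 => ?_) H13
  refine subK_s he h8 h2 (fun _ _ _ _ _ h19 H15 => ?_) H14
  refine smulK_s he (w := (2:ℝ)) (by norm_num) (by norm_num) (by norm_num) (by norm_num) h19 (fun _ _ _ _ _ h20 H16 => ?_) H15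
  refine mulK_s he h20 h18 (fun _ _ _ _ _ h21 H17 => ?_) H16
  have h22 := In_cast h21 ((div_eq_mul_inv _ _).symm)
  have h23 := In_cast (w := (feps x m th r1 r2)) h22 rfl
  refine mulK_s he h23 hx3 (fun _ _ _ _ _ h24 H18 => ?_) H17
  have h25 := In_cast (w := (fe x m th r1 r2)) h24 rfl
  refine mulK_s he h25 h10 (fun _ _ _ _ _ h26 H19 => ?_) H18
  refine addcK_s he h26 (v' := (2:ℝ)) (by norm_num [SS, BB, abs_le]) (fun _ _ _ _ _ h27 H20 => ?_) H19
  have h28 := In_cast h27 (add_comm _ _)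
  have h29 := In_cast (w := (fS x m th r1 r2)) h28 rfl
  refine negK_s he h25 (fun _ _ _ _ _ h30 H21 => ?_) H20
  refine reluK_s he h30 (fun _ _ _ _ _ h31 H22 => ?_) H21
  refine subK_s he h29 h31 (fun _ _ _ _ _ h32 H23 => ?_) H22
  have h33 := In_cast (w := (ft2 x m th r1 r2)) h14 rfl
  refine mulK_s he hx1 h33 (fun _ _ _ _ _ h34 H24 => ?_) H23
  refine negK_s he h34 (fun _ _ _ _ _ h35 H25 => ?_) H24
  refine addcK_s he h35 (v' := (1:ℝ)) (by norm_num [SS, BB, abs_le]) (fun _ _ _ _ _ h36 H26 => ?_) H25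
  have h37 := In_cast h36 (neg_add_eq_sub _ _)
  refine invK_s he h37 (fun _ _ _ _ _ h38 H27 => ?_) H26
  refine mulK_s he hx1 h38 (fun _ _ _ _ _ h39 H28 => ?_) H27
  have h40 := In_cast h39 ((div_eq_mul_inv _ _).symm)
  have h41 := In_cast (w := (fX x m th r1 r2)) h40 rfl
  refine mulK_s he h41 hx1 (fun _ _ _ _ _ h42 H29 => ?_) H28
  refine smulK_s he (w := (2:ℝ)) (by norm_num) (by norm_num) (by norm_num) (by norm_num) h42 (fun _ _ _ _ _ h43 H30 => ?_) H29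
  have h44 := In_cast (w := (fY x m th r1 r2)) h43 rfl
  refine negK_s he hx1 (fun _ _ _ _ _ h45 H31 => ?_) H30
  refine addcK_s he h45 (v' := (1:ℝ)) (by norm_num [SS, BB, abs_le]) (fun _ _ _ _ _ h46 H32 => ?_) H31
  have h47 := In_cast h46 (neg_add_eq_sub _ _)
  refine invK_s he h47 (fun _ _ _ _ _ h48 H33 => ?_) H32
  refine mulK_s he hx1 h10 (fun _ _ _ _ _ h49 H34 => ?_) H33
  have h50 := In_cast (w := (fxt x m th r1 r2)) h49 rfl
  refine addcK_s he h50 (v' := (1:ℝ)) (by norm_num [SS, BB, abs_le]) (fun _ _ _ _ _ h51 H35 => ?_) H34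
  have h52 := In_cast h51 (add_comm _ _)
  refine mulK_s he hx1 h52 (fun _ _ _ _ _ h53 H36 => ?_) H35
  refine mulK_s he h53 h48 (fun _ _ _ _ _ h54 H37 => ?_) H36
  have h55 := In_cast h54 ((div_eq_mul_inv _ _).symm)
  refine mulK_s he h44 h55 (fun _ _ _ _ _ h56 H38 => ?_) H37
  refine subK_s he h32 h56 (fun _ _ _ _ _ h57 H39 => ?_) H38
  have h58 := In_cast (w := (fc4 x m th r1 r2)) h57 rfl
  refine posK_s he h58 (fun p2 H40 => ?_) H39
  refine subK_s he h29 h44 (fun _ _ _ _ _ h59 H41 => ?_) H40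
  have h60 := In_cast (w := (fc2 x m th r1 r2)) h59 rfl
  refine smulK_s he (w := (1/4:ℝ)) (by norm_num) (by norm_num) (by norm_num) (by norm_num) h60 (fun _ _ _ _ _ h61 H42 => ?_) H41
  have h62 := In_cast h61 (div_c (c := (4:ℝ)) (by norm_num))
  refine mulK_s he h44 h50 (fun _ _ _ _ _ h63 H43 => ?_) H42
  refine subK_s he h25 h63 (fun _ _ _ _ _ h64 H44 => ?_) H43
  have h65 := In_cast (w := (fc3 x m th r1 r2)) h64 rfl
  refine negK_s he h65 (fun _ _ _ _ _ h66 H45 => ?_) H44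
  refine reluK_s he h66 (fun _ _ _ _ _ h67 H46 => ?_) H45
  refine smulK_s he (w := (1/5:ℝ)) (by norm_num) (by norm_num) (by norm_num) (by norm_num) h67 (fun _ _ _ _ _ h68 H47 => ?_) H46
  have h69 := In_cast h68 (div_c (c := (5:ℝ)) (by norm_num))
  refine subK_s he h62 h69 (fun _ _ _ _ _ h70 H48 => ?_) H47
  refine smulK_s he (w := (3/20:ℝ)) (by norm_num) (by norm_num) (by norm_num) (by norm_num) h65 (fun _ _ _ _ _ h71 H49 => ?_) H48
  have h72 := In_cast h71 (mul_comm _ _)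
  refine smulK_s he (w := (1/10:ℝ)) (by norm_num) (by norm_num) (by norm_num) (by norm_num) h58 (fun _ _ _ _ _ h73 H50 => ?_) H49
  have h74 := In_cast h73 (div_c (c := (10:ℝ)) (by norm_num))
  refine mulK_s he h10 h74 (fun _ _ _ _ _ h75 H51 => ?_) H50
  refine addK_s he h72 h75 (fun _ _ _ _ _ h76 H52 => ?_) H51
  refine mulK_s he h10 h76 (fun _ _ _ _ _ h77 H53 => ?_) H52
  refine addK_s he h70 h77 (fun _ _ _ _ _ h78 H54 => ?_) H53
  have h79 := In_cast (w := (faq x m th r1 r2)) h78 rfl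
  refine posK_s he h79 (fun p3 H55 => ?_) H54
  refine smulK_s he (w := (2:ℝ)) (by norm_num) (by norm_num) (by norm_num) (by norm_num) h41 (fun _ _ _ _ _ h80 H56 => ?_) H55
  refine subK_s he h29 h80 (fun _ _ _ _ _ h81 H57 => ?_) H56
  have h82 := In_cast (w := (fc0 x m th r1 r2)) h81 rfl
  refine smulK_s he (w := (1/2:ℝ)) (by norm_num) (by norm_num) (by norm_num) (by norm_num) h82 (fun _ _ _ _ _ h83 H58 => ?_) H57
  have h84 := In_cast h83 (div_c (c := (2:ℝ)) (by norm_num))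
  refine mulK_s he h44 h10 (fun _ _ _ _ _ h85 H59 => ?_) H58
  refine subK_s he h25 h85 (fun _ _ _ _ _ h86 H60 => ?_) H59
  have h87 := In_cast (w := (fc1 x m th r1 r2)) h86 rfl
  refine smulK_s he (w := (1/6:ℝ)) (by norm_num) (by norm_num) (by norm_num) (by norm_num) h87 (fun _ _ _ _ _ h88 H61 => ?_) H60
  have h89 := In_cast h88 (div_c (c := (6:ℝ)) (by norm_num))
  refine smulK_s he (w := (1/12:ℝ)) (by norm_num) (by norm_num) (by norm_num) (by norm_num) h60 (fun _ _ _ _ _ h90 H62 => ?_) H61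
  have h91 := In_cast h90 (div_c (c := (12:ℝ)) (by norm_num))
  refine smulK_s he (w := (1/20:ℝ)) (by norm_num) (by norm_num) (by norm_num) (by norm_num) h65 (fun _ _ _ _ _ h92 H63 => ?_) H62
  have h93 := In_cast h92 (div_c (c := (20:ℝ)) (by norm_num))
  refine smulK_s he (w := (1/30:ℝ)) (by norm_num) (by norm_num) (by norm_num) (by norm_num) h58 (fun _ _ _ _ _ h94 H64 => ?_) H63
  have h95 := In_cast h94 (div_c (c := (30:ℝ)) (by norm_num))
  refine mulK_s he h10 h95 (fun _ _ _ _ _ h96 H65 => ?_) H64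
  refine addK_s he h93 h96 (fun _ _ _ _ _ h97 H66 => ?_) H65
  refine mulK_s he h10 h97 (fun _ _ _ _ _ h98 H67 => ?_) H66
  refine addK_s he h91 h98 (fun _ _ _ _ _ h99 H68 => ?_) H67
  refine mulK_s he h10 h99 (fun _ _ _ _ _ h100 H69 => ?_) H68
  refine addK_s he h89 h100 (fun _ _ _ _ _ h101 H70 => ?_) H69
  refine mulK_s he h10 h101 (fun _ _ _ _ _ h102 H71 => ?_) H70
  refine addK_s he h84 h102 (fun _ _ _ _ _ h103 H72 => ?_) H71
  refine smulK_s he (w := (4:ℝ)) (by norm_num) (by norm_num) (by norm_num) (by norm_num) h79 (fun _ _ _ _ _ h104 H73 => ?_) H72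
  refine invK_s he h104 (fun _ _ _ _ _ h105 H74 => ?_) H73
  refine smulK_s he (w := (1/3:ℝ)) (by norm_num) (by norm_num) (by norm_num) (by norm_num) h87 (fun _ _ _ _ _ h106 H75 => ?_) H74
  have h107 := In_cast h106 (div_c (c := (3:ℝ)) (by norm_num))
  refine smulK_s he (w := (1/6:ℝ)) (by norm_num) (by norm_num) (by norm_num) (by norm_num) h60 (fun _ _ _ _ _ h108 H76 => ?_) H75
  have h109 := In_cast h108 (div_c (c := (6:ℝ)) (by norm_num))
  refine smulK_s he (w := (1/10:ℝ)) (by norm_num) (by norm_num) (by norm_num) (by norm_num) h65 (fun _ _ _ _ _ h110 H77 => ?_) H76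
  have h111 := In_cast h110 (div_c (c := (10:ℝ)) (by norm_num))
  refine smulK_s he (w := (1/15:ℝ)) (by norm_num) (by norm_num) (by norm_num) (by norm_num) h58 (fun _ _ _ _ _ h112 H78 => ?_) H77
  have h113 := In_cast h112 (div_c (c := (15:ℝ)) (by norm_num))
  refine mulK_s he h10 h113 (fun _ _ _ _ _ h114 H79 => ?_) H78
  refine addK_s he h111 h114 (fun _ _ _ _ _ h115 H80 => ?_) H79
  refine mulK_s he h10 h115 (fun _ _ _ _ _ h116 H81 => ?_) H80
  refine addK_s he h109 h116 (fun _ _ _ _ _ h117 H82 => ?_) H81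
  refine mulK_s he h10 h117 (fun _ _ _ _ _ h118 H83 => ?_) H82
  refine addK_s he h107 h118 (fun _ _ _ _ _ h119 H84 => ?_) H83
  have h120 := In_cast (w := (fb x m th r1 r2)) h119 rfl
  refine negK_s he h120 (fun _ _ _ _ _ h121 H85 => ?_) H84
  refine reluK_s he h121 (fun _ _ _ _ _ h122 H86 => ?_) H85
  refine sqK_s he h122 (fun _ _ _ _ _ h123 H87 => ?_) H86
  refine mulK_s he h123 h105 (fun _ _ _ _ _ h124 H88 => ?_) H87
  have h125 := In_cast h124 ((div_eq_mul_inv _ _).symm)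
  refine subK_s he h103 h125 (fun _ _ _ _ _ h126 H89 => ?_) H88
  have h127 := In_cast (w := (fq x m th r1 r2)) h126 rfl
  refine posK_s he h127 (fun p4 H90 => ?_) H89
  refine sqK_s he h8 (fun _ _ _ _ _ h128 H91 => ?_) H90
  refine mulK_s he h41 h128 (fun _ _ _ _ _ h129 H92 => ?_) H91
  have h130 := In_cast (w := (fy x m th r1 r2)) h34 rfl
  refine smulK_s he (w := (1/2:ℝ)) (by norm_num) (by norm_num) (by norm_num) (by norm_num) h130 (fun _ _ _ _ _ h131 H93 => ?_) H92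
  have h132 := In_cast h131 (div_c (c := (2:ℝ)) (by norm_num))
  refine negK_s he h132 (fun _ _ _ _ _ h133 H94 => ?_) H93
  refine addcK_s he h133 (v' := (1:ℝ)) (by norm_num [SS, BB, abs_le]) (fun _ _ _ _ _ h134 H95 => ?_) H94
  have h135 := In_cast h134 (neg_add_eq_sub _ _)
  refine mulK_s he h129 h135 (fun _ _ _ _ _ h136 H96 => ?_) H95
  refine negK_s he h136 (fun _ _ _ _ _ h137 H97 => ?_) H96
  have h138 := In_cast (w := (fL1 x m th r1 r2)) h137 rfl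
  refine smulK_s he (w := (1/3:ℝ)) (by norm_num) (by norm_num) (by norm_num) (by norm_num) h33 (fun _ _ _ _ _ h139 H98 => ?_) H97
  have h140 := In_cast h139 (div_c (c := (3:ℝ)) (by norm_num))
  refine addcK_s he h140 (v' := (1/2:ℝ)) (by norm_num [SS, BB, abs_le]) (fun _ _ _ _ _ h141 H99 => ?_) H98
  have h142 := In_cast h141 (add_comm _ _)
  refine mulK_s he h33 h142 (fun _ _ _ _ _ h143 H100 => ?_) H99
  refine addcK_s he h143 (v' := (1:ℝ)) (by norm_num [SS, BB, abs_le]) (fun _ _ _ _ _ h144 H101 => ?_) H100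
  have h145 := In_cast h144 (add_comm _ _)
  refine mulK_s he h128 h145 (fun _ _ _ _ _ h146 H102 => ?_) H101
  refine mulK_s he h2 h8 (fun _ _ _ _ _ h147 H103 => ?_) H102
  refine smulK_s he (w := (2:ℝ)) (by norm_num) (by norm_num) (by norm_num) (by norm_num) h147 (fun _ _ _ _ _ h148 H104 => ?_) H103
  refine negK_s he h33 (fun _ _ _ _ _ h149 H105 => ?_) H104
  refine addcK_s he h149 (v' := (1:ℝ)) (by norm_num [SS, BB, abs_le]) (fun _ _ _ _ _ h150 H106 => ?_) H105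
  have h151 := In_cast h150 (neg_add_eq_sub _ _)
  refine invK_s he h151 (fun _ _ _ _ _ h152 H107 => ?_) H106
  refine mulK_s he h33 h152 (fun _ _ _ _ _ h153 H108 => ?_) H107
  have h154 := In_cast h153 ((div_eq_mul_inv _ _).symm)
  refine addcK_s he h154 (v' := (1/7:ℝ)) (by norm_num [SS, BB, abs_le]) (fun _ _ _ _ _ h155 H109 => ?_) H108
  have h156 := In_cast h155 (add_comm _ _)
  refine mulK_s he h33 h156 (fun _ _ _ _ _ h157 H110 => ?_) H109
  refine addcK_s he h157 (v' := (1/5:ℝ)) (by norm_num [SS, BB, abs_le]) (fun _ _ _ _ _ h158 H111 => ?_) H110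
  have h159 := In_cast h158 (add_comm _ _)
  refine mulK_s he h33 h159 (fun _ _ _ _ _ h160 H112 => ?_) H111
  refine addcK_s he h160 (v' := (1/3:ℝ)) (by norm_num [SS, BB, abs_le]) (fun _ _ _ _ _ h161 H113 => ?_) H112
  have h162 := In_cast h161 (add_comm _ _)
  refine mulK_s he h33 h162 (fun _ _ _ _ _ h163 H114 => ?_) H113
  refine addcK_s he h163 (v' := (1:ℝ)) (by norm_num [SS, BB, abs_le]) (fun _ _ _ _ _ h164 H115 => ?_) H114
  have h165 := In_cast h164 (add_comm _ _)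
  refine mulK_s he h148 h165 (fun _ _ _ _ _ h166 H116 => ?_) H115
  refine subK_s he h146 h166 (fun _ _ _ _ _ h167 H117 => ?_) H116
  have h168 := In_cast (w := (fL2 x m th r1 r2)) h167 rfl
  refine addK_s he h138 h168 (fun _ _ _ _ _ h169 H118 => ?_) H117
  refine smulK_s he (w := (2:ℝ)) (by norm_num) (by norm_num) (by norm_num) (by norm_num) hx2 (fun _ _ _ _ _ h170 H119 => ?_) H118
  refine negK_s he hx3 (fun _ _ _ _ _ h171 H120 => ?_) H119
  refine addcK_s he h171 (v' := (2:ℝ)) (by norm_num [SS, BB, abs_le]) (fun _ _ _ _ _ h172 H121 => ?_) H120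
  have h173 := In_cast h172 (neg_add_eq_sub _ _)
  refine subK_s he h173 h170 (fun _ _ _ _ _ h174 H122 => ?_) H121
  refine mulK_s he hx1 h174 (fun _ _ _ _ _ h175 H123 => ?_) H122
  have h176 := In_cast (w := (fN x m th r1 r2)) h175 rfl
  refine addK_s he h170 h176 (fun _ _ _ _ _ h177 H124 => ?_) H123
  have h178 := In_cast (w := (fden x m th r1 r2)) h177 rfl
  refine invK_s he h178 (fun _ _ _ _ _ h179 H125 => ?_) H124
  refine mulK_s he h176 h179 (fun _ _ _ _ _ h180 H126 => ?_) H125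
  have h181 := In_cast h180 ((div_eq_mul_inv _ _).symm)
  have h182 := In_cast (w := (fjv x m th r1 r2)) h181 rfl
  refine negK_s he h182 (fun _ _ _ _ _ h183 H127 => ?_) H126
  refine addcK_s he h183 (v' := (1:ℝ)) (by norm_num [SS, BB, abs_le]) (fun _ _ _ _ _ h184 H128 => ?_) H127
  have h185 := In_cast h184 (neg_add_eq_sub _ _)
  refine negK_s he h8 (fun _ _ _ _ _ h186 H129 => ?_) H128
  refine addcK_s he h186 (v' := (1:ℝ)) (by norm_num [SS, BB, abs_le]) (fun _ _ _ _ _ h187 H130 => ?_) H129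
  have h188 := In_cast h187 (neg_add_eq_sub _ _)
  refine mulK_s he h41 h8 (fun _ _ _ _ _ h189 H131 => ?_) H130
  refine smulK_s he (w := (2:ℝ)) (by norm_num) (by norm_num) (by norm_num) (by norm_num) h189 (fun _ _ _ _ _ h190 H132 => ?_) H131
  refine subK_s he h23 h190 (fun _ _ _ _ _ h191 H133 => ?_) H132
  have h192 := In_cast (w := (fd x m th r1 r2)) h191 rfl
  refine mulK_s he h127 h188 (fun _ _ _ _ _ h193 H134 => ?_) H133
  refine addK_s he h192 h193 (fun _ _ _ _ _ h194 H135 => ?_) H134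
  refine mulK_s he h188 h194 (fun _ _ _ _ _ h195 H136 => ?_) H135
  refine mulK_s he h185 h195 (fun _ _ _ _ _ h196 H137 => ?_) H136
  refine smulK_s he (w := (4:ℝ)) (by norm_num) (by norm_num) (by norm_num) (by norm_num) h127 (fun _ _ _ _ _ h197 H138 => ?_) H137
  refine invK_s he h197 (fun _ _ _ _ _ h198 H139 => ?_) H138
  refine sqK_s he h192 (fun _ _ _ _ _ h199 H140 => ?_) H139
  refine mulK_s he h182 h199 (fun _ _ _ _ _ h200 H141 => ?_) H140
  refine mulK_s he h200 h198 (fun _ _ _ _ _ h201 H142 => ?_) H141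
  have h202 := In_cast h201 ((div_eq_mul_inv _ _).symm)
  refine subK_s he h196 h202 (fun _ _ _ _ _ h203 H143 => ?_) H142
  have h204 := In_cast (w := (fquad x m th r1 r2)) h203 rfl
  refine addK_s he h169 h204 (fun _ _ _ _ _ h205 H144 => ?_) H143
  refine smulK_s he (w := (2139/1000:ℝ)) (by norm_num) (by norm_num) (by norm_num) (by norm_num) hx1 (fun _ _ _ _ _ h206 H145 => ?_) H144
  refine addcK_s he h206 (v' := (923/1000:ℝ)) (by norm_num [SS, BB, abs_le]) (fun _ _ _ _ _ h207 H146 => ?_) H145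
  have h208 := In_cast h207 (add_comm _ _)
  have h209 := In_cast (w := (fcc x m th r1 r2)) h208 rfl
  refine mulK_s he hx1 h209 (fun _ _ _ _ _ h210 H147 => ?_) H146
  refine addcK_s he h210 (v' := (1:ℝ)) (by norm_num [SS, BB, abs_le]) (fun _ _ _ _ _ h211 H148 => ?_) H147
  have h212 := In_cast h211 (add_comm _ _)
  refine smulK_s he (w := (2:ℝ)) (by norm_num) (by norm_num) (by norm_num) (by norm_num) h2 (fun _ _ _ _ _ h213 H149 => ?_) H148
  refine sqK_s he hx3 (fun _ _ _ _ _ h214 H150 => ?_) H149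
  have h215 := In_cast (w := (fh2 x m th r1 r2)) h214 rfl
  refine smulK_s he (w := (1/3:ℝ)) (by norm_num) (by norm_num) (by norm_num) (by norm_num) h215 (fun _ _ _ _ _ h216 H151 => ?_) H150
  have h217 := In_cast h216 (div_c (c := (3:ℝ)) (by norm_num))
  refine addcK_s he h217 (v' := (1:ℝ)) (by norm_num [SS, BB, abs_le]) (fun _ _ _ _ _ h218 H152 => ?_) H151
  have h219 := In_cast h218 (add_comm _ _)
  refine sqK_s he h215 (fun _ _ _ _ _ h220 H153 => ?_) H152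
  refine smulK_s he (w := (1/5:ℝ)) (by norm_num) (by norm_num) (by norm_num) (by norm_num) h220 (fun _ _ _ _ _ h221 H154 => ?_) H153
  have h222 := In_cast h221 (div_c (c := (5:ℝ)) (by norm_num))
  refine addK_s he h219 h222 (fun _ _ _ _ _ h223 H155 => ?_) H154
  refine mulK_s he h213 h223 (fun _ _ _ _ _ h224 H156 => ?_) H155
  refine negK_s he h215 (fun _ _ _ _ _ h225 H157 => ?_) H156
  refine addcK_s he h225 (v' := (1:ℝ)) (by norm_num [SS, BB, abs_le]) (fun _ _ _ _ _ h226 H158 => ?_) H157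
  have h227 := In_cast h226 (neg_add_eq_sub _ _)
  refine invK_s he h227 (fun _ _ _ _ _ h228 H159 => ?_) H158
  refine smulK_s he (w := (1/2:ℝ)) (by norm_num) (by norm_num) (by norm_num) (by norm_num) h215 (fun _ _ _ _ _ h229 H160 => ?_) H159
  have h230 := In_cast h229 (div_c (c := (2:ℝ)) (by norm_num))
  refine negK_s he h230 (fun _ _ _ _ _ h231 H161 => ?_) H160
  refine addcK_s he h231 (v' := (1:ℝ)) (by norm_num [SS, BB, abs_le]) (fun _ _ _ _ _ h232 H162 => ?_) H161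
  have h233 := In_cast h232 (neg_add_eq_sub _ _)
  refine mulK_s he h233 h228 (fun _ _ _ _ _ h234 H163 => ?_) H162
  have h235 := In_cast h234 ((div_eq_mul_inv _ _).symm)
  refine subK_s he h224 h235 (fun _ _ _ _ _ h236 H164 => ?_) H163
  have h237 := In_cast (w := (fL3 x m th r1 r2)) h236 rfl
  refine mulK_s he h212 h237 (fun _ _ _ _ _ h238 H165 => ?_) H164
  refine addK_s he h205 h238 (fun _ _ _ _ _ h239 H166 => ?_) H165
  refine smulK_s he (w := (1959/200:ℝ)) (by norm_num) (by norm_num) (by norm_num) (by norm_num) hx1 (fun _ _ _ _ _ h240 H167 => ?_) H166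
  refine negK_s he h240 (fun _ _ _ _ _ h241 H168 => ?_) H167
  refine addcK_s he h241 (v' := (2957/1000:ℝ)) (by norm_num [SS, BB, abs_le]) (fun _ _ _ _ _ h242 H169 => ?_) H168
  have h243 := In_cast h242 (neg_add_eq_sub _ _)
  have h244 := In_cast (w := (fg1 x m th r1 r2)) h243 rfl
  refine mulK_s he h213 h244 (fun _ _ _ _ _ h245 H170 => ?_) H169
  refine smulK_s he (w := (2829/250:ℝ)) (by norm_num) (by norm_num) (by norm_num) (by norm_num) hx1 (fun _ _ _ _ _ h246 H171 => ?_) H170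
  refine addcK_s he h246 (v' := (-1123/250:ℝ)) (by norm_num [SS, BB, abs_le]) (fun _ _ _ _ _ h247 H172 => ?_) H171
  have h248 := In_cast h247 (sub_c (c := (1123/250:ℝ)) (by norm_num))
  have h249 := In_cast (w := (fg2 x m th r1 r2)) h248 rfl
  refine smulK_s he (w := (4:ℝ)) (by norm_num) (by norm_num) (by norm_num) (by norm_num) h2 (fun _ _ _ _ _ h250 H173 => ?_) H172
  refine addcK_s he h250 (v' := (2:ℝ)) (by norm_num [SS, BB, abs_le]) (fun _ _ _ _ _ h251 H174 => ?_) H173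
  have h252 := In_cast h251 (add_comm _ _)
  refine mulK_s he h249 h252 (fun _ _ _ _ _ h253 H175 => ?_) H174
  refine smulK_s he (w := (5303/1000:ℝ)) (by norm_num) (by norm_num) (by norm_num) (by norm_num) hx1 (fun _ _ _ _ _ h254 H176 => ?_) H175
  refine negK_s he h254 (fun _ _ _ _ _ h255 H177 => ?_) H176
  refine addcK_s he h255 (v' := (1013/500:ℝ)) (by norm_num [SS, BB, abs_le]) (fun _ _ _ _ _ h256 H178 => ?_) H177
  have h257 := In_cast h256 (neg_add_eq_sub _ _)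
  have h258 := In_cast (w := (fg3 x m th r1 r2)) h257 rfl
  refine smulK_s he (w := (2:ℝ)) (by norm_num) (by norm_num) (by norm_num) (by norm_num) h215 (fun _ _ _ _ _ h259 H179 => ?_) H178
  refine addcK_s he h259 (v' := (6:ℝ)) (by norm_num [SS, BB, abs_le]) (fun _ _ _ _ _ h260 H180 => ?_) H179
  have h261 := In_cast h260 (add_comm _ _)
  refine mulK_s he h2 h261 (fun _ _ _ _ _ h262 H181 => ?_) H180
  refine addcK_s he h262 (v' := (6:ℝ)) (by norm_num [SS, BB, abs_le]) (fun _ _ _ _ _ h263 H182 => ?_) H181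
  have h264 := In_cast h263 (add_comm _ _)
  refine mulK_s he h258 h264 (fun _ _ _ _ _ h265 H183 => ?_) H182
  refine mulK_s he hx2 h265 (fun _ _ _ _ _ h266 H184 => ?_) H183
  refine addK_s he h253 h266 (fun _ _ _ _ _ h267 H185 => ?_) H184
  refine mulK_s he hx2 h267 (fun _ _ _ _ _ h268 H186 => ?_) H185
  refine addK_s he h245 h268 (fun _ _ _ _ _ h269 H187 => ?_) H186
  refine mulK_s he hx2 h269 (fun _ _ _ _ _ h270 H188 => ?_) H187
  have h271 := In_cast (w := (fhA x m th r1 r2)) h270 rfl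
  refine mulK_s he hx1 h271 (fun _ _ _ _ _ h272 H189 => ?_) H188
  refine addK_s he h239 h272 (fun _ _ _ _ _ h273 H190 => ?_) H189
  exact ⟨p0, p1, p2, p3, p4, pos_s he h273 H190⟩

attribute [irreducible] alt0 alt1

noncomputable def leaf (j u z1 w1 z2 w2 z3 w3 : ℕ) : Bool :=
  fB (Nat.add (Nat.land (Nat.shiftRight u 0) 65535) 1) fun n1 =>
  fB (Nat.add (Nat.mul n1 16777216) 1152921504606846977) fun p1 =>
  fB (Nat.add (Nat.land (Nat.shiftRight u 16) 65535) 1) fun n2 =>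
  fB (Nat.add (Nat.mul n2 16777216) 1152921504606846977) fun p2 =>
  sB j (alt0 p1 p2 z1 w1 z2 w2 z3 w3) fun j => alt1 p1 p2 z1 w1 z2 w2 z3 w3

theorem snd : Snd Q leaf := by
  intro j u z1 w1 z2 w2 z3 w3 e1 e2 e3 he H
  unfold leaf at H
  unfold Q
  replace H := frc H
  obtain ⟨n1, hn1, H⟩ := H
  replace H := frc H
  obtain ⟨p1, hp1, H⟩ := H
  obtain ⟨hp1, ha, hb⟩ := par (e1 := e1) (e2 := e2) (e3 := e3) hn1 hp1
  refine ⟨_, ha, hb, ?_⟩
  replace H := frc H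
  obtain ⟨n2, hn2, H⟩ := H
  replace H := frc H
  obtain ⟨p2, hp2, H⟩ := H
  obtain ⟨hp2, ha, hb⟩ := par (e1 := e1) (e2 := e2) (e3 := e3) hn2 hp2
  refine ⟨_, ha, hb, ?_⟩
  replace H := sel H
  rcases H with H | ⟨j, H⟩
  · exact Or.inl (alt0_s he hp1 hp2 (var1 z1 w1) (var2 z2 w2) (var3 z3 w3) H)
  exact Or.inr (alt1_s he hp1 hp2 (var1 z1 w1) (var2 z2 w2) (var3 z3 w3) H)

end Crest.Agent.R307.LGcA
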