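import Crest.Agent.R307.IAl3
import Crest.Agent.R307.IAx
set_option autoImplicit false
set_option linter.unusedVariables false
set_option maxRecDepth 20000
namespace Crest.Agent.R307.LGcB
open Crest.Agent.R307.IA Crest.Agent.R307.IA3

theorem In_cast {e1 e2 e3 : ℝ} {x y1 y2 y3 r : ℕ} {v w : ℝ}
    (h : In e1 e2 e3 x y1 y2 y3 r v) (e : v = w) : In e1 e2 e3 x y1 y2 y3 r w := e ▸ h

noncomputable def fcc (x m n r1 r2 : ℝ) : ℝ := ((923/1000:ℝ) + ((2139/1000:ℝ) * x))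
noncomputable def fxc (x m n r1 r2 : ℝ) : ℝ := (x * (fcc x m n r1 r2))
noncomputable def flp (x m n r1 r2 : ℝ) : ℝ := (Real.log ((2:ℝ) - n))
noncomputable def fth (x m n r1 r2 : ℝ) : ℝ := ((1:ℝ) - n)
noncomputable def fg1 (x m n r1 r2 : ℝ) : ℝ := ((2957/1000:ℝ) - ((1959/200:ℝ) * x))
noncomputable def fg2 (x m n r1 r2 : ℝ) : ℝ := (((2829/250:ℝ) * x) - (1123/250:ℝ))
noncomputable def fh2 (x m n r1 r2 : ℝ) : ℝ := ((fth x m n r1 r2) ^ 2)
noncomputable def fg3 (x m n r1 r2 : ℝ) : ℝ := ((1013/500:ℝ) - ((5303/1000:ℝ) * x))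
noncomputable def fhE (x m n r1 r2 : ℝ) : ℝ := (m * (((fth x m n r1 r2) * (fg1 x m n r1 r2)) + (m * (((fg2 x m n r1 r2) * ((fh2 x m n r1 r2) + ((2:ℝ) * (fth x m n r1 r2)))) + (m * ((fg3 x m n r1 r2) * ((fth x m n r1 r2) * (((3:ℝ) + ((3:ℝ) * (fth x m n r1 r2))) + (fh2 x m n r1 r2)))))))))
noncomputable def fgg (x m n r1 r2 : ℝ) : ℝ := ((11/10:ℝ) * r1)
noncomputable def fv (x m n r1 r2 : ℝ) : ℝ := ((fgg x m n r1 r2) * n)
noncomputable def ftau (x m n r1 r2 : ℝ) : ℝ := ((1:ℝ) - (fv x m n r1 r2))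
noncomputable def fal (x m n r1 r2 : ℝ) : ℝ := ((2:ℝ) * r2)
noncomputable def fk0 (x m n r1 r2 : ℝ) : ℝ := ((fal x m n r1 r2) * (fv x m n r1 r2))
noncomputable def fe (x m n r1 r2 : ℝ) : ℝ := (((2:ℝ) * ((fal x m n r1 r2) - (1:ℝ))) / ((2:ℝ) - (fv x m n r1 r2)))
noncomputable def fS (x m n r1 r2 : ℝ) : ℝ := ((2:ℝ) + ((fe x m n r1 r2) * (ftau x m n r1 r2)))
noncomputable def ft2 (x m n r1 r2 : ℝ) : ℝ := ((ftau x m n r1 r2) ^ 2)
noncomputable def fX (x m n r1 r2 : ℝ) : ℝ := (x / ((1:ℝ) - (x * (ft2 x m n r1 r2))))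
noncomputable def fY (x m n r1 r2 : ℝ) : ℝ := ((2:ℝ) * ((fX x m n r1 r2) * x))
noncomputable def fxt (x m n r1 r2 : ℝ) : ℝ := (x * (ftau x m n r1 r2))
noncomputable def fc4 (x m n r1 r2 : ℝ) : ℝ := (((fS x m n r1 r2) - (max (-(fe x m n r1 r2)) (0:ℝ))) - ((fY x m n r1 r2) * ((x * ((1:ℝ) + (fxt x m n r1 r2))) / ((1:ℝ) - x))))
noncomputable def fc2 (x m n r1 r2 : ℝ) : ℝ := ((fS x m n r1 r2) - (fY x m n r1 r2))
noncomputable def fc3 (x m n r1 r2 : ℝ) : ℝ := ((fe x m n r1 r2) - ((fY x m n r1 r2) * (fxt x m n r1 r2)))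
noncomputable def faq (x m n r1 r2 : ℝ) : ℝ := ((((fc2 x m n r1 r2) / (4:ℝ)) - ((max (-(fc3 x m n r1 r2)) (0:ℝ)) / (5:ℝ))) + ((ftau x m n r1 r2) * (((fc3 x m n r1 r2) * (3/20:ℝ)) + ((ftau x m n r1 r2) * ((fc4 x m n r1 r2) / (10:ℝ))))))
noncomputable def fc0 (x m n r1 r2 : ℝ) : ℝ := ((fS x m n r1 r2) - ((2:ℝ) * (fX x m n r1 r2)))
noncomputable def fc1 (x m n r1 r2 : ℝ) : ℝ := ((fe x m n r1 r2) - ((fY x m n r1 r2) * (ftau x m n r1 r2)))
noncomputable def fb (x m n r1 r2 : ℝ) : ℝ := (((fc1 x m n r1 r2) / (3:ℝ)) + ((ftau x m n r1 r2) * (((fc2 x m n r1 r2) / (6:ℝ)) + ((ftau x m n r1 r2) * (((fc3 x m n r1 r2) / (10:ℝ)) + ((ftau x m n r1 r2) * ((fc4 x m n r1 r2) / (15:ℝ))))))))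
noncomputable def fq (x m n r1 r2 : ℝ) : ℝ := ((((fc0 x m n r1 r2) / (2:ℝ)) + ((ftau x m n r1 r2) * (((fc1 x m n r1 r2) / (6:ℝ)) + ((ftau x m n r1 r2) * (((fc2 x m n r1 r2) / (12:ℝ)) + ((ftau x m n r1 r2) * (((fc3 x m n r1 r2) / (20:ℝ)) + ((ftau x m n r1 r2) * ((fc4 x m n r1 r2) / (30:ℝ)))))))))) - (((max (-(fb x m n r1 r2)) (0:ℝ)) ^ 2) / ((4:ℝ) * (faq x m n r1 r2))))
noncomputable def fN (x m n r1 r2 : ℝ) : ℝ := (x * (((2:ℝ) - (fth x m n r1 r2)) - ((2:ℝ) * m)))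
noncomputable def fden (x m n r1 r2 : ℝ) : ℝ := (((2:ℝ) * m) + (fN x m n r1 r2))
noncomputable def fjv (x m n r1 r2 : ℝ) : ℝ := ((fN x m n r1 r2) / (fden x m n r1 r2))
noncomputable def fw (x m n r1 r2 : ℝ) : ℝ := ((fv x m n r1 r2) - n)
noncomputable def fD (x m n r1 r2 : ℝ) : ℝ := ((fe x m n r1 r2) - ((2:ℝ) * ((fX x m n r1 r2) * (ftau x m n r1 r2))))
noncomputable def fquad (x m n r1 r2 : ℝ) : ℝ := ((((1:ℝ) - (fjv x m n r1 r2)) * ((fw x m n r1 r2) * ((fD x m n r1 r2) + ((fq x m n r1 r2) * (fw x m n r1 r2))))) - (((fjv x m n r1 r2) * ((fD x m n r1 r2) ^ 2)) / ((4:ℝ) * (fq x m n r1 r2))))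
noncomputable def fka (x m n r1 r2 : ℝ) : ℝ := ((1:ℝ) - (fk0 x m n r1 r2))
noncomputable def fkt (x m n r1 r2 : ℝ) : ℝ := ((fka x m n r1 r2) * (fth x m n r1 r2))
noncomputable def fhB (x m n r1 r2 : ℝ) : ℝ := (m * ((((2:ℝ) * (fkt x m n r1 r2)) * (fg1 x m n r1 r2)) + (m * (((fg2 x m n r1 r2) * (((2:ℝ) * (fh2 x m n r1 r2)) + ((4:ℝ) * (fkt x m n r1 r2)))) + (m * ((fg3 x m n r1 r2) * (((6:ℝ) * (fh2 x m n r1 r2)) + ((fkt x m n r1 r2) * ((6:ℝ) + ((2:ℝ) * (fh2 x m n r1 r2)))))))))))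

def Q (x m n : ℝ) : Prop :=
  ∃ r1 : ℝ, 0 ≤ r1 ∧ r1 ≤ 1 ∧ ∃ r2 : ℝ, 0 ≤ r2 ∧ r2 ≤ 1 ∧ (
  (0 < ((10000:ℝ) * ((m * ((2:ℝ) - n)) - (1:ℝ)))) ∨
  (0 < (((((2:ℝ) * ((1:ℝ) + (fxc x m n r1 r2))) * (flp x m n r1 r2)) + (((2:ℝ) * x) * (fhE x m n r1 r2))) + (Real.log (((1:ℝ) - x) / (4:ℝ))))) ∨
  (0 < n ∧ 0 < (fgg x m n r1 r2) ∧ 0 < (ftau x m n r1 r2) ∧ 0 < ((2:ℝ) - (fk0 x m n r1 r2)) ∧ 0 < (fc4 x m n r1 r2) ∧ 0 < (faq x m n r1 r2) ∧ 0 < (fq x m n r1 r2) ∧ 0 < (((((Real.log ((1:ℝ) - (x * (ft2 x m n r1 r2)))) + ((fk0 x m n r1 r2) * (((fxc x m n r1 r2) * (Real.log n)) - (Real.log (fgg x m n r1 r2))))) + (((2:ℝ) - (fk0 x m n r1 r2)) * (((fxc x m n r1 r2) * (flp x m n r1 r2)) + (Real.log (((2:ℝ) - n) / ((2:ℝ) - (fv x m n r1 r2))))))) + (fquad x m n r1 r2)) + (x * (fhB x m n r1 r2)))))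

noncomputable def alt0 (p1 p2 z1 w1 z2 w2 z3 w3 : ℕ) : Bool :=
  negK z3 1152921504606846976 1152921504606846976 (Nat.add w3 1152921504606846976) 0 fun c1 a1_1 a1_2 a1_3 q1 =>
  addcK c1 a1_1 a1_2 a1_3 q1 1152923703630102528 0 fun c2 a2_1 a2_2 a2_3 q2 =>
  mulK z2 1152921504606846976 (Nat.add w2 1152921504606846976) 1152921504606846976 0 c2 a2_1 a2_2 a2_3 q2 fun c4 a4_1 a4_2 a4_3 q4 =>
  addcK c4 a4_1 a4_2 a4_3 q4 1152920405095219200 0 fun c5 a5_1 a5_2 a5_3 q5 =>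
  smulK 10000 1 1152921504606846977 11529215046068469760000 c5 a5_1 a5_2 a5_3 q5 fun c7 a7_1 a7_2 a7_3 q7 =>
  pos c7 a7_1 a7_2 a7_3 q7

theorem alt0_s {p1 p2 z1 w1 z2 w2 z3 w3 : ℕ} {e1 e2 e3 x m n r1 r2 : ℝ} (he : Ev e1 e2 e3)
    (hp1 : In e1 e2 e3 p1 1152921504606846976 1152921504606846976 1152921504606846976 0 r1)
    (hp2 : In e1 e2 e3 p2 1152921504606846976 1152921504606846976 1152921504606846976 0 r2)
    (hx1 : In e1 e2 e3 z1 (Nat.add w1 1152921504606846976) 1152921504606846976 1152921504606846976 0 x)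
    (hx2 : In e1 e2 e3 z2 1152921504606846976 (Nat.add w2 1152921504606846976) 1152921504606846976 0 m)
    (hx3 : In e1 e2 e3 z3 1152921504606846976 1152921504606846976 (Nat.add w3 1152921504606846976) 0 n)
    (H0 : alt0 p1 p2 z1 w1 z2 w2 z3 w3 = true) : 0 < ((10000:ℝ) * ((m * ((2:ℝ) - n)) - (1:ℝ))) := by
  unfold alt0 at H0
  refine negK_s he hx3 (fun _ _ _ _ _ h1 H1 => ?_) H0
  refine addcK_s he h1 (v' := (2:ℝ)) (by norm_num [SS, BB, abs_le]) (fun _ _ _ _ _ h2 H2 => ?_) H1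
  have h3 := In_cast h2 (neg_add_eq_sub _ _)
  refine mulK_s he hx2 h3 (fun _ _ _ _ _ h4 H3 => ?_) H2
  refine addcK_s he h4 (v' := (-1:ℝ)) (by norm_num [SS, BB, abs_le]) (fun _ _ _ _ _ h5 H4 => ?_) H3
  have h6 := In_cast h5 (sub_c (c := (1:ℝ)) (by norm_num))
  refine smulK_s he (w := (10000:ℝ)) (by norm_num) (by norm_num) (by norm_num) (by norm_num) h6 (fun _ _ _ _ _ h7 H5 => ?_) H4
  exact pos_s he h7 H5

noncomputable def alt1 (p1 p2 z1 w1 z2 w2 z3 w3 : ℕ) : Bool :=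
  smulK 2139 1000 1152921504606846977000 2466099098354045681664 z1 (Nat.add w1 1152921504606846976) 1152921504606846976 1152921504606846976 0 fun c1 a1_1 a1_2 a1_3 q1 =>
  addcK c1 a1_1 a1_2 a1_3 q1 1152922519456079413 1 fun c2 a2_1 a2_2 a2_3 q2 =>
  mulK z1 (Nat.add w1 1152921504606846976) 1152921504606846976 1152921504606846976 0 c2 a2_1 a2_2 a2_3 q2 fun c5 a5_1 a5_2 a5_3 q5 =>
  addcK c5 a5_1 a5_2 a5_3 q5 1152922604118474752 0 fun c7 a7_1 a7_2 a7_3 q7 =>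
  smulK 2 1 1152921504606846977 2305843009213693952 c7 a7_1 a7_2 a7_3 q7 fun c9 a9_1 a9_2 a9_3 q9 =>
  negK z3 1152921504606846976 1152921504606846976 (Nat.add w3 1152921504606846976) 0 fun c10 a10_1 a10_2 a10_3 q10 =>
  addcK c10 a10_1 a10_2 a10_3 q10 1152923703630102528 0 fun c11 a11_1 a11_2 a11_3 q11 =>
  logK c11 a11_1 a11_2 a11_3 q11 fun c13 a13_1 a13_2 a13_3 q13 =>
  mulK c9 a9_1 a9_2 a9_3 q9 c13 a13_1 a13_2 a13_3 q13 fun c15 a15_1 a15_2 a15_3 q15 =>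
  smulK 2 1 1152921504606846977 2305843009213693952 z1 (Nat.add w1 1152921504606846976) 1152921504606846976 1152921504606846976 0 fun c16 a16_1 a16_2 a16_3 q16 =>
  negK z3 1152921504606846976 1152921504606846976 (Nat.add w3 1152921504606846976) 0 fun c17 a17_1 a17_2 a17_3 q17 =>
  addcK c17 a17_1 a17_2 a17_3 q17 1152922604118474752 0 fun c18 a18_1 a18_2 a18_3 q18 =>
  smulK 1959 200 230584300921369395400 2258573227524813225984 z1 (Nat.add w1 1152921504606846976) 1152921504606846976 1152921504606846976 0 fun c21 a21_1 a21_2 a21_3 q21 =>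
  negK c21 a21_1 a21_2 a21_3 q21 fun c22 a22_1 a22_2 a22_3 q22 =>
  addcK c22 a22_1 a22_2 a22_3 q22 1152924755862730310 1 fun c23 a23_1 a23_2 a23_3 q23 =>
  mulK c18 a18_1 a18_2 a18_3 q18 c23 a23_1 a23_2 a23_3 q23 fun c26 a26_1 a26_2 a26_3 q26 =>
  smulK 2829 250 288230376151711744250 3261614936532770095104 z1 (Nat.add w1 1152921504606846976) 1152921504606846976 1152921504606846976 0 fun c27 a27_1 a27_2 a27_3 q27 =>
  addcK c27 a27_1 a27_2 a27_3 q27 1152916565600615006 1 fun c28 a28_1 a28_2 a28_3 q28 =>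
  sqK c18 a18_1 a18_2 a18_3 q18 fun c31 a31_1 a31_2 a31_3 q31 =>
  smulK 2 1 1152921504606846977 2305843009213693952 c18 a18_1 a18_2 a18_3 q18 fun c33 a33_1 a33_2 a33_3 q33 =>
  addK c31 a31_1 a31_2 a31_3 q31 c33 a33_1 a33_2 a33_3 q33 fun c34 a34_1 a34_2 a34_3 q34 =>
  mulK c28 a28_1 a28_2 a28_3 q28 c34 a34_1 a34_2 a34_3 q34 fun c35 a35_1 a35_2 a35_3 q35 =>
  smulK 5303 1000 1152921504606846977000 6113942738930109513728 z1 (Nat.add w1 1152921504606846976) 1152921504606846976 1152921504606846976 0 fun c36 a36_1 a36_2 a36_3 q36 =>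
  negK c36 a36_1 a36_2 a36_3 q36 fun c37 a37_1 a37_2 a37_3 q37 =>
  addcK c37 a37_1 a37_2 a37_3 q37 1152923732217404850 1 fun c38 a38_1 a38_2 a38_3 q38 =>
  smulK 3 1 1152921504606846977 3458764513820540928 c18 a18_1 a18_2 a18_3 q18 fun c41 a41_1 a41_2 a41_3 q41 =>
  addcK c41 a41_1 a41_2 a41_3 q41 1152924803141730304 0 fun c42 a42_1 a42_2 a42_3 q42 =>
  addK c42 a42_1 a42_2 a42_3 q42 c31 a31_1 a31_2 a31_3 q31 fun c44 a44_1 a44_2 a44_3 q44 =>
  mulK c18 a18_1 a18_2 a18_3 q18 c44 a44_1 a44_2 a44_3 q44 fun c45 a45_1 a45_2 a45_3 q45 =>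
  mulK c38 a38_1 a38_2 a38_3 q38 c45 a45_1 a45_2 a45_3 q45 fun c46 a46_1 a46_2 a46_3 q46 =>
  mulK z2 1152921504606846976 (Nat.add w2 1152921504606846976) 1152921504606846976 0 c46 a46_1 a46_2 a46_3 q46 fun c47 a47_1 a47_2 a47_3 q47 =>
  addK c35 a35_1 a35_2 a35_3 q35 c47 a47_1 a47_2 a47_3 q47 fun c48 a48_1 a48_2 a48_3 q48 =>
  mulK z2 1152921504606846976 (Nat.add w2 1152921504606846976) 1152921504606846976 0 c48 a48_1 a48_2 a48_3 q48 fun c49 a49_1 a49_2 a49_3 q49 =>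
  addK c26 a26_1 a26_2 a26_3 q26 c49 a49_1 a49_2 a49_3 q49 fun c50 a50_1 a50_2 a50_3 q50 =>
  mulK z2 1152921504606846976 (Nat.add w2 1152921504606846976) 1152921504606846976 0 c50 a50_1 a50_2 a50_3 q50 fun c51 a51_1 a51_2 a51_3 q51 =>
  mulK c16 a16_1 a16_2 a16_3 q16 c51 a51_1 a51_2 a51_3 q51 fun c53 a53_1 a53_2 a53_3 q53 =>
  addK c15 a15_1 a15_2 a15_3 q15 c53 a53_1 a53_2 a53_3 q53 fun c54 a54_1 a54_2 a54_3 q54 =>
  negK z1 (Nat.add w1 1152921504606846976) 1152921504606846976 1152921504606846976 0 fun c55 a55_1 a55_2 a55_3 q55 =>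
  addcK c55 a55_1 a55_2 a55_3 q55 1152922604118474752 0 fun c56 a56_1 a56_2 a56_3 q56 =>
  smulK 1 4 4611686018427387908 1152921504606846976 c56 a56_1 a56_2 a56_3 q56 fun c58 a58_1 a58_2 a58_3 q58 =>
  logK c58 a58_1 a58_2 a58_3 q58 fun c60 a60_1 a60_2 a60_3 q60 =>
  addK c54 a54_1 a54_2 a54_3 q54 c60 a60_1 a60_2 a60_3 q60 fun c61 a61_1 a61_2 a61_3 q61 =>
  pos c61 a61_1 a61_2 a61_3 q61

theorem alt1_s {p1 p2 z1 w1 z2 w2 z3 w3 : ℕ} {e1 e2 e3 x m n r1 r2 : ℝ} (he : Ev e1 e2 e3)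
    (hp1 : In e1 e2 e3 p1 1152921504606846976 1152921504606846976 1152921504606846976 0 r1)
    (hp2 : In e1 e2 e3 p2 1152921504606846976 1152921504606846976 1152921504606846976 0 r2)
    (hx1 : In e1 e2 e3 z1 (Nat.add w1 1152921504606846976) 1152921504606846976 1152921504606846976 0 x)
    (hx2 : In e1 e2 e3 z2 1152921504606846976 (Nat.add w2 1152921504606846976) 1152921504606846976 0 m)
    (hx3 : In e1 e2 e3 z3 1152921504606846976 1152921504606846976 (Nat.add w3 1152921504606846976) 0 n)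
    (H0 : alt1 p1 p2 z1 w1 z2 w2 z3 w3 = true) : 0 < (((((2:ℝ) * ((1:ℝ) + (fxc x m n r1 r2))) * (flp x m n r1 r2)) + (((2:ℝ) * x) * (fhE x m n r1 r2))) + (Real.log (((1:ℝ) - x) / (4:ℝ)))) := by
  unfold alt1 at H0
  refine smulK_s he (w := (2139/1000:ℝ)) (by norm_num) (by norm_num) (by norm_num) (by norm_num) hx1 (fun _ _ _ _ _ h1 H1 => ?_) H0
  refine addcK_s he h1 (v' := (923/1000:ℝ)) (by norm_num [SS, BB, abs_le]) (fun _ _ _ _ _ h2 H2 => ?_) H1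
  have h3 := In_cast h2 (add_comm _ _)
  have h4 := In_cast (w := (fcc x m n r1 r2)) h3 rfl
  refine mulK_s he hx1 h4 (fun _ _ _ _ _ h5 H3 => ?_) H2
  have h6 := In_cast (w := (fxc x m n r1 r2)) h5 rfl
  refine addcK_s he h6 (v' := (1:ℝ)) (by norm_num [SS, BB, abs_le]) (fun _ _ _ _ _ h7 H4 => ?_) H3
  have h8 := In_cast h7 (add_comm _ _)
  refine smulK_s he (w := (2:ℝ)) (by norm_num) (by norm_num) (by norm_num) (by norm_num) h8 (fun _ _ _ _ _ h9 H5 => ?_) H4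
  refine negK_s he hx3 (fun _ _ _ _ _ h10 H6 => ?_) H5
  refine addcK_s he h10 (v' := (2:ℝ)) (by norm_num [SS, BB, abs_le]) (fun _ _ _ _ _ h11 H7 => ?_) H6
  have h12 := In_cast h11 (neg_add_eq_sub _ _)
  refine logK_s he h12 (fun _ _ _ _ _ h13 H8 => ?_) H7
  have h14 := In_cast (w := (flp x m n r1 r2)) h13 rfl
  refine mulK_s he h9 h14 (fun _ _ _ _ _ h15 H9 => ?_) H8
  refine smulK_s he (w := (2:ℝ)) (by norm_num) (by norm_num) (by norm_num) (by norm_num) hx1 (fun _ _ _ _ _ h16 H10 => ?_) H9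
  refine negK_s he hx3 (fun _ _ _ _ _ h17 H11 => ?_) H10
  refine addcK_s he h17 (v' := (1:ℝ)) (by norm_num [SS, BB, abs_le]) (fun _ _ _ _ _ h18 H12 => ?_) H11
  have h19 := In_cast h18 (neg_add_eq_sub _ _)
  have h20 := In_cast (w := (fth x m n r1 r2)) h19 rfl
  refine smulK_s he (w := (1959/200:ℝ)) (by norm_num) (by norm_num) (by norm_num) (by norm_num) hx1 (fun _ _ _ _ _ h21 H13 => ?_) H12
  refine negK_s he h21 (fun _ _ _ _ _ h22 H14 => ?_) H13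
  refine addcK_s he h22 (v' := (2957/1000:ℝ)) (by norm_num [SS, BB, abs_le]) (fun _ _ _ _ _ h23 H15 => ?_) H14
  have h24 := In_cast h23 (neg_add_eq_sub _ _)
  have h25 := In_cast (w := (fg1 x m n r1 r2)) h24 rfl
  refine mulK_s he h20 h25 (fun _ _ _ _ _ h26 H16 => ?_) H15
  refine smulK_s he (w := (2829/250:ℝ)) (by norm_num) (by norm_num) (by norm_num) (by norm_num) hx1 (fun _ _ _ _ _ h27 H17 => ?_) H16
  refine addcK_s he h27 (v' := (-1123/250:ℝ)) (by norm_num [SS, BB, abs_le]) (fun _ _ _ _ _ h28 H18 => ?_) H17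
  have h29 := In_cast h28 (sub_c (c := (1123/250:ℝ)) (by norm_num))
  have h30 := In_cast (w := (fg2 x m n r1 r2)) h29 rfl
  refine sqK_s he h20 (fun _ _ _ _ _ h31 H19 => ?_) H18
  have h32 := In_cast (w := (fh2 x m n r1 r2)) h31 rfl
  refine smulK_s he (w := (2:ℝ)) (by norm_num) (by norm_num) (by norm_num) (by norm_num) h20 (fun _ _ _ _ _ h33 H20 => ?_) H19
  refine addK_s he h32 h33 (fun _ _ _ _ _ h34 H21 => ?_) H20
  refine mulK_s he h30 h34 (fun _ _ _ _ _ h35 H22 => ?_) H21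
  refine smulK_s he (w := (5303/1000:ℝ)) (by norm_num) (by norm_num) (by norm_num) (by norm_num) hx1 (fun _ _ _ _ _ h36 H23 => ?_) H22
  refine negK_s he h36 (fun _ _ _ _ _ h37 H24 => ?_) H23
  refine addcK_s he h37 (v' := (1013/500:ℝ)) (by norm_num [SS, BB, abs_le]) (fun _ _ _ _ _ h38 H25 => ?_) H24
  have h39 := In_cast h38 (neg_add_eq_sub _ _)
  have h40 := In_cast (w := (fg3 x m n r1 r2)) h39 rfl
  refine smulK_s he (w := (3:ℝ)) (by norm_num) (by norm_num) (by norm_num) (by norm_num) h20 (fun _ _ _ _ _ h41 H26 => ?_) H25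
  refine addcK_s he h41 (v' := (3:ℝ)) (by norm_num [SS, BB, abs_le]) (fun _ _ _ _ _ h42 H27 => ?_) H26
  have h43 := In_cast h42 (add_comm _ _)
  refine addK_s he h43 h32 (fun _ _ _ _ _ h44 H28 => ?_) H27
  refine mulK_s he h20 h44 (fun _ _ _ _ _ h45 H29 => ?_) H28
  refine mulK_s he h40 h45 (fun _ _ _ _ _ h46 H30 => ?_) H29
  refine mulK_s he hx2 h46 (fun _ _ _ _ _ h47 H31 => ?_) H30
  refine addK_s he h35 h47 (fun _ _ _ _ _ h48 H32 => ?_) H31
  refine mulK_s he hx2 h48 (fun _ _ _ _ _ h49 H33 => ?_) H32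
  refine addK_s he h26 h49 (fun _ _ _ _ _ h50 H34 => ?_) H33
  refine mulK_s he hx2 h50 (fun _ _ _ _ _ h51 H35 => ?_) H34
  have h52 := In_cast (w := (fhE x m n r1 r2)) h51 rfl
  refine mulK_s he h16 h52 (fun _ _ _ _ _ h53 H36 => ?_) H35
  refine addK_s he h15 h53 (fun _ _ _ _ _ h54 H37 => ?_) H36
  refine negK_s he hx1 (fun _ _ _ _ _ h55 H38 => ?_) H37
  refine addcK_s he h55 (v' := (1:ℝ)) (by norm_num [SS, BB, abs_le]) (fun _ _ _ _ _ h56 H39 => ?_) H38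
  have h57 := In_cast h56 (neg_add_eq_sub _ _)
  refine smulK_s he (w := (1/4:ℝ)) (by norm_num) (by norm_num) (by norm_num) (by norm_num) h57 (fun _ _ _ _ _ h58 H40 => ?_) H39
  have h59 := In_cast h58 (div_c (c := (4:ℝ)) (by norm_num))
  refine logK_s he h59 (fun _ _ _ _ _ h60 H41 => ?_) H40
  refine addK_s he h54 h60 (fun _ _ _ _ _ h61 H42 => ?_) H41
  exact pos_s he h61 H42

noncomputable def alt2 (p1 p2 z1 w1 z2 w2 z3 w3 : ℕ) : Bool :=
  posK z3 1152921504606846976 1152921504606846976 (Nat.add w3 1152921504606846976) 0 <|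
  smulK 11 10 11529215046068469770 12682136550675316736 p1 1152921504606846976 1152921504606846976 1152921504606846976 0 fun c1 a1_1 a1_2 a1_3 q1 =>
  posK c1 a1_1 a1_2 a1_3 q1 <|
  mulK c1 a1_1 a1_2 a1_3 q1 z3 1152921504606846976 1152921504606846976 (Nat.add w3 1152921504606846976) 0 fun c3 a3_1 a3_2 a3_3 q3 =>
  negK c3 a3_1 a3_2 a3_3 q3 fun c5 a5_1 a5_2 a5_3 q5 =>
  addcK c5 a5_1 a5_2 a5_3 q5 1152922604118474752 0 fun c6 a6_1 a6_2 a6_3 q6 =>
  posK c6 a6_1 a6_2 a6_3 q6 <|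
  smulK 2 1 1152921504606846977 2305843009213693952 p2 1152921504606846976 1152921504606846976 1152921504606846976 0 fun c9 a9_1 a9_2 a9_3 q9 =>
  mulK c9 a9_1 a9_2 a9_3 q9 c3 a3_1 a3_2 a3_3 q3 fun c11 a11_1 a11_2 a11_3 q11 =>
  negK c11 a11_1 a11_2 a11_3 q11 fun c13 a13_1 a13_2 a13_3 q13 =>
  addcK c13 a13_1 a13_2 a13_3 q13 1152923703630102528 0 fun c14 a14_1 a14_2 a14_3 q14 =>
  posK c14 a14_1 a14_2 a14_3 q14 <|
  negK c3 a3_1 a3_2 a3_3 q3 fun c16 a16_1 a16_2 a16_3 q16 =>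
  addcK c16 a16_1 a16_2 a16_3 q16 1152923703630102528 0 fun c17 a17_1 a17_2 a17_3 q17 =>
  invK c17 a17_1 a17_2 a17_3 q17 fun c19 a19_1 a19_2 a19_3 q19 =>
  addcK c9 a9_1 a9_2 a9_3 q9 1152920405095219200 0 fun c20 a20_1 a20_2 a20_3 q20 =>
  smulK 2 1 1152921504606846977 2305843009213693952 c20 a20_1 a20_2 a20_3 q20 fun c22 a22_1 a22_2 a22_3 q22 =>
  mulK c22 a22_1 a22_2 a22_3 q22 c19 a19_1 a19_2 a19_3 q19 fun c23 a23_1 a23_2 a23_3 q23 =>
  mulK c23 a23_1 a23_2 a23_3 q23 c6 a6_1 a6_2 a6_3 q6 fun c26 a26_1 a26_2 a26_3 q26 =>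
  addcK c26 a26_1 a26_2 a26_3 q26 1152923703630102528 0 fun c27 a27_1 a27_2 a27_3 q27 =>
  negK c23 a23_1 a23_2 a23_3 q23 fun c30 a30_1 a30_2 a30_3 q30 =>
  reluK c30 a30_1 a30_2 a30_3 q30 fun c31 a31_1 a31_2 a31_3 q31 =>
  subK c27 a27_1 a27_2 a27_3 q27 c31 a31_1 a31_2 a31_3 q31 fun c32 a32_1 a32_2 a32_3 q32 =>
  sqK c6 a6_1 a6_2 a6_3 q6 fun c33 a33_1 a33_2 a33_3 q33 =>
  mulK z1 (Nat.add w1 1152921504606846976) 1152921504606846976 1152921504606846976 0 c33 a33_1 a33_2 a33_3 q33 fun c35 a35_1 a35_2 a35_3 q35 =>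
  negK c35 a35_1 a35_2 a35_3 q35 fun c36 a36_1 a36_2 a36_3 q36 =>
  addcK c36 a36_1 a36_2 a36_3 q36 1152922604118474752 0 fun c37 a37_1 a37_2 a37_3 q37 =>
  invK c37 a37_1 a37_2 a37_3 q37 fun c39 a39_1 a39_2 a39_3 q39 =>
  mulK z1 (Nat.add w1 1152921504606846976) 1152921504606846976 1152921504606846976 0 c39 a39_1 a39_2 a39_3 q39 fun c40 a40_1 a40_2 a40_3 q40 =>
  mulK c40 a40_1 a40_2 a40_3 q40 z1 (Nat.add w1 1152921504606846976) 1152921504606846976 1152921504606846976 0 fun c43 a43_1 a43_2 a43_3 q43 =>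
  smulK 2 1 1152921504606846977 2305843009213693952 c43 a43_1 a43_2 a43_3 q43 fun c44 a44_1 a44_2 a44_3 q44 =>
  negK z1 (Nat.add w1 1152921504606846976) 1152921504606846976 1152921504606846976 0 fun c46 a46_1 a46_2 a46_3 q46 =>
  addcK c46 a46_1 a46_2 a46_3 q46 1152922604118474752 0 fun c47 a47_1 a47_2 a47_3 q47 =>
  invK c47 a47_1 a47_2 a47_3 q47 fun c49 a49_1 a49_2 a49_3 q49 =>
  mulK z1 (Nat.add w1 1152921504606846976) 1152921504606846976 1152921504606846976 0 c6 a6_1 a6_2 a6_3 q6 fun c50 a50_1 a50_2 a50_3 q50 =>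
  addcK c50 a50_1 a50_2 a50_3 q50 1152922604118474752 0 fun c52 a52_1 a52_2 a52_3 q52 =>
  mulK z1 (Nat.add w1 1152921504606846976) 1152921504606846976 1152921504606846976 0 c52 a52_1 a52_2 a52_3 q52 fun c54 a54_1 a54_2 a54_3 q54 =>
  mulK c54 a54_1 a54_2 a54_3 q54 c49 a49_1 a49_2 a49_3 q49 fun c55 a55_1 a55_2 a55_3 q55 =>
  mulK c44 a44_1 a44_2 a44_3 q44 c55 a55_1 a55_2 a55_3 q55 fun c57 a57_1 a57_2 a57_3 q57 =>
  subK c32 a32_1 a32_2 a32_3 q32 c57 a57_1 a57_2 a57_3 q57 fun c58 a58_1 a58_2 a58_3 q58 =>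
  posK c58 a58_1 a58_2 a58_3 q58 <|
  subK c27 a27_1 a27_2 a27_3 q27 c44 a44_1 a44_2 a44_3 q44 fun c60 a60_1 a60_2 a60_3 q60 =>
  smulK 1 4 4611686018427387908 1152921504606846976 c60 a60_1 a60_2 a60_3 q60 fun c62 a62_1 a62_2 a62_3 q62 =>
  mulK c44 a44_1 a44_2 a44_3 q44 c50 a50_1 a50_2 a50_3 q50 fun c64 a64_1 a64_2 a64_3 q64 =>
  subK c23 a23_1 a23_2 a23_3 q23 c64 a64_1 a64_2 a64_3 q64 fun c65 a65_1 a65_2 a65_3 q65 =>
  negK c65 a65_1 a65_2 a65_3 q65 fun c67 a67_1 a67_2 a67_3 q67 =>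
  reluK c67 a67_1 a67_2 a67_3 q67 fun c68 a68_1 a68_2 a68_3 q68 =>
  smulK 1 5 5764607523034234885 1152921504606846976 c68 a68_1 a68_2 a68_3 q68 fun c69 a69_1 a69_2 a69_3 q69 =>
  subK c62 a62_1 a62_2 a62_3 q62 c69 a69_1 a69_2 a69_3 q69 fun c71 a71_1 a71_2 a71_3 q71 =>
  smulK 3 20 23058430092136939540 3458764513820540928 c65 a65_1 a65_2 a65_3 q65 fun c72 a72_1 a72_2 a72_3 q72 =>
  smulK 1 10 11529215046068469770 1152921504606846976 c58 a58_1 a58_2 a58_3 q58 fun c74 a74_1 a74_2 a74_3 q74 =>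
  mulK c6 a6_1 a6_2 a6_3 q6 c74 a74_1 a74_2 a74_3 q74 fun c76 a76_1 a76_2 a76_3 q76 =>
  addK c72 a72_1 a72_2 a72_3 q72 c76 a76_1 a76_2 a76_3 q76 fun c77 a77_1 a77_2 a77_3 q77 =>
  mulK c6 a6_1 a6_2 a6_3 q6 c77 a77_1 a77_2 a77_3 q77 fun c78 a78_1 a78_2 a78_3 q78 =>
  addK c71 a71_1 a71_2 a71_3 q71 c78 a78_1 a78_2 a78_3 q78 fun c79 a79_1 a79_2 a79_3 q79 =>
  posK c79 a79_1 a79_2 a79_3 q79 <|
  smulK 2 1 1152921504606846977 2305843009213693952 c40 a40_1 a40_2 a40_3 q40 fun c81 a81_1 a81_2 a81_3 q81 =>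
  subK c27 a27_1 a27_2 a27_3 q27 c81 a81_1 a81_2 a81_3 q81 fun c82 a82_1 a82_2 a82_3 q82 =>
  smulK 1 2 2305843009213693954 1152921504606846976 c82 a82_1 a82_2 a82_3 q82 fun c84 a84_1 a84_2 a84_3 q84 =>
  mulK c44 a44_1 a44_2 a44_3 q44 c6 a6_1 a6_2 a6_3 q6 fun c86 a86_1 a86_2 a86_3 q86 =>
  subK c23 a23_1 a23_2 a23_3 q23 c86 a86_1 a86_2 a86_3 q86 fun c87 a87_1 a87_2 a87_3 q87 =>
  smulK 1 6 6917529027641081862 1152921504606846976 c87 a87_1 a87_2 a87_3 q87 fun c89 a89_1 a89_2 a89_3 q89 =>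
  smulK 1 12 13835058055282163724 1152921504606846976 c60 a60_1 a60_2 a60_3 q60 fun c91 a91_1 a91_2 a91_3 q91 =>
  smulK 1 20 23058430092136939540 1152921504606846976 c65 a65_1 a65_2 a65_3 q65 fun c93 a93_1 a93_2 a93_3 q93 =>
  smulK 1 30 34587645138205409310 1152921504606846976 c58 a58_1 a58_2 a58_3 q58 fun c95 a95_1 a95_2 a95_3 q95 =>
  mulK c6 a6_1 a6_2 a6_3 q6 c95 a95_1 a95_2 a95_3 q95 fun c97 a97_1 a97_2 a97_3 q97 =>
  addK c93 a93_1 a93_2 a93_3 q93 c97 a97_1 a97_2 a97_3 q97 fun c98 a98_1 a98_2 a98_3 q98 =>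
  mulK c6 a6_1 a6_2 a6_3 q6 c98 a98_1 a98_2 a98_3 q98 fun c99 a99_1 a99_2 a99_3 q99 =>
  addK c91 a91_1 a91_2 a91_3 q91 c99 a99_1 a99_2 a99_3 q99 fun c100 a100_1 a100_2 a100_3 q100 =>
  mulK c6 a6_1 a6_2 a6_3 q6 c100 a100_1 a100_2 a100_3 q100 fun c101 a101_1 a101_2 a101_3 q101 =>
  addK c89 a89_1 a89_2 a89_3 q89 c101 a101_1 a101_2 a101_3 q101 fun c102 a102_1 a102_2 a102_3 q102 =>
  mulK c6 a6_1 a6_2 a6_3 q6 c102 a102_1 a102_2 a102_3 q102 fun c103 a103_1 a103_2 a103_3 q103 =>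
  addK c84 a84_1 a84_2 a84_3 q84 c103 a103_1 a103_2 a103_3 q103 fun c104 a104_1 a104_2 a104_3 q104 =>
  smulK 4 1 1152921504606846977 4611686018427387904 c79 a79_1 a79_2 a79_3 q79 fun c105 a105_1 a105_2 a105_3 q105 =>
  invK c105 a105_1 a105_2 a105_3 q105 fun c106 a106_1 a106_2 a106_3 q106 =>
  smulK 1 3 3458764513820540931 1152921504606846976 c87 a87_1 a87_2 a87_3 q87 fun c107 a107_1 a107_2 a107_3 q107 =>
  smulK 1 6 6917529027641081862 1152921504606846976 c60 a60_1 a60_2 a60_3 q60 fun c109 a109_1 a109_2 a109_3 q109 =>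
  smulK 1 10 11529215046068469770 1152921504606846976 c65 a65_1 a65_2 a65_3 q65 fun c111 a111_1 a111_2 a111_3 q111 =>
  smulK 1 15 17293822569102704655 1152921504606846976 c58 a58_1 a58_2 a58_3 q58 fun c113 a113_1 a113_2 a113_3 q113 =>
  mulK c6 a6_1 a6_2 a6_3 q6 c113 a113_1 a113_2 a113_3 q113 fun c115 a115_1 a115_2 a115_3 q115 =>
  addK c111 a111_1 a111_2 a111_3 q111 c115 a115_1 a115_2 a115_3 q115 fun c116 a116_1 a116_2 a116_3 q116 =>
  mulK c6 a6_1 a6_2 a6_3 q6 c116 a116_1 a116_2 a116_3 q116 fun c117 a117_1 a117_2 a117_3 q117 =>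
  addK c109 a109_1 a109_2 a109_3 q109 c117 a117_1 a117_2 a117_3 q117 fun c118 a118_1 a118_2 a118_3 q118 =>
  mulK c6 a6_1 a6_2 a6_3 q6 c118 a118_1 a118_2 a118_3 q118 fun c119 a119_1 a119_2 a119_3 q119 =>
  addK c107 a107_1 a107_2 a107_3 q107 c119 a119_1 a119_2 a119_3 q119 fun c120 a120_1 a120_2 a120_3 q120 =>
  negK c120 a120_1 a120_2 a120_3 q120 fun c122 a122_1 a122_2 a122_3 q122 =>
  reluK c122 a122_1 a122_2 a122_3 q122 fun c123 a123_1 a123_2 a123_3 q123 =>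
  sqK c123 a123_1 a123_2 a123_3 q123 fun c124 a124_1 a124_2 a124_3 q124 =>
  mulK c124 a124_1 a124_2 a124_3 q124 c106 a106_1 a106_2 a106_3 q106 fun c125 a125_1 a125_2 a125_3 q125 =>
  subK c104 a104_1 a104_2 a104_3 q104 c125 a125_1 a125_2 a125_3 q125 fun c127 a127_1 a127_2 a127_3 q127 =>
  posK c127 a127_1 a127_2 a127_3 q127 <|
  logK c37 a37_1 a37_2 a37_3 q37 fun c129 a129_1 a129_2 a129_3 q129 =>
  smulK 2139 1000 1152921504606846977000 2466099098354045681664 z1 (Nat.add w1 1152921504606846976) 1152921504606846976 1152921504606846976 0 fun c130 a130_1 a130_2 a130_3 q130 =>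
  addcK c130 a130_1 a130_2 a130_3 q130 1152922519456079413 1 fun c131 a131_1 a131_2 a131_3 q131 =>
  mulK z1 (Nat.add w1 1152921504606846976) 1152921504606846976 1152921504606846976 0 c131 a131_1 a131_2 a131_3 q131 fun c134 a134_1 a134_2 a134_3 q134 =>
  logK z3 1152921504606846976 1152921504606846976 (Nat.add w3 1152921504606846976) 0 fun c136 a136_1 a136_2 a136_3 q136 =>
  mulK c134 a134_1 a134_2 a134_3 q134 c136 a136_1 a136_2 a136_3 q136 fun c137 a137_1 a137_2 a137_3 q137 =>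
  logK c1 a1_1 a1_2 a1_3 q1 fun c138 a138_1 a138_2 a138_3 q138 =>
  subK c137 a137_1 a137_2 a137_3 q137 c138 a138_1 a138_2 a138_3 q138 fun c139 a139_1 a139_2 a139_3 q139 =>
  mulK c11 a11_1 a11_2 a11_3 q11 c139 a139_1 a139_2 a139_3 q139 fun c140 a140_1 a140_2 a140_3 q140 =>
  addK c129 a129_1 a129_2 a129_3 q129 c140 a140_1 a140_2 a140_3 q140 fun c141 a141_1 a141_2 a141_3 q141 =>
  negK z3 1152921504606846976 1152921504606846976 (Nat.add w3 1152921504606846976) 0 fun c142 a142_1 a142_2 a142_3 q142 =>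
  addcK c142 a142_1 a142_2 a142_3 q142 1152923703630102528 0 fun c143 a143_1 a143_2 a143_3 q143 =>
  logK c143 a143_1 a143_2 a143_3 q143 fun c145 a145_1 a145_2 a145_3 q145 =>
  mulK c134 a134_1 a134_2 a134_3 q134 c145 a145_1 a145_2 a145_3 q145 fun c147 a147_1 a147_2 a147_3 q147 =>
  mulK c143 a143_1 a143_2 a143_3 q143 c19 a19_1 a19_2 a19_3 q19 fun c148 a148_1 a148_2 a148_3 q148 =>
  logK c148 a148_1 a148_2 a148_3 q148 fun c150 a150_1 a150_2 a150_3 q150 =>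
  addK c147 a147_1 a147_2 a147_3 q147 c150 a150_1 a150_2 a150_3 q150 fun c151 a151_1 a151_2 a151_3 q151 =>
  mulK c14 a14_1 a14_2 a14_3 q14 c151 a151_1 a151_2 a151_3 q151 fun c152 a152_1 a152_2 a152_3 q152 =>
  addK c141 a141_1 a141_2 a141_3 q141 c152 a152_1 a152_2 a152_3 q152 fun c153 a153_1 a153_2 a153_3 q153 =>
  smulK 2 1 1152921504606846977 2305843009213693952 z2 1152921504606846976 (Nat.add w2 1152921504606846976) 1152921504606846976 0 fun c154 a154_1 a154_2 a154_3 q154 =>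
  negK z3 1152921504606846976 1152921504606846976 (Nat.add w3 1152921504606846976) 0 fun c155 a155_1 a155_2 a155_3 q155 =>
  addcK c155 a155_1 a155_2 a155_3 q155 1152922604118474752 0 fun c156 a156_1 a156_2 a156_3 q156 =>
  negK c156 a156_1 a156_2 a156_3 q156 fun c159 a159_1 a159_2 a159_3 q159 =>
  addcK c159 a159_1 a159_2 a159_3 q159 1152923703630102528 0 fun c160 a160_1 a160_2 a160_3 q160 =>
  subK c160 a160_1 a160_2 a160_3 q160 c154 a154_1 a154_2 a154_3 q154 fun c162 a162_1 a162_2 a162_3 q162 =>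
  mulK z1 (Nat.add w1 1152921504606846976) 1152921504606846976 1152921504606846976 0 c162 a162_1 a162_2 a162_3 q162 fun c163 a163_1 a163_2 a163_3 q163 =>
  addK c154 a154_1 a154_2 a154_3 q154 c163 a163_1 a163_2 a163_3 q163 fun c165 a165_1 a165_2 a165_3 q165 =>
  invK c165 a165_1 a165_2 a165_3 q165 fun c167 a167_1 a167_2 a167_3 q167 =>
  mulK c163 a163_1 a163_2 a163_3 q163 c167 a167_1 a167_2 a167_3 q167 fun c168 a168_1 a168_2 a168_3 q168 =>
  negK c168 a168_1 a168_2 a168_3 q168 fun c171 a171_1 a171_2 a171_3 q171 =>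
  addcK c171 a171_1 a171_2 a171_3 q171 1152922604118474752 0 fun c172 a172_1 a172_2 a172_3 q172 =>
  subK c3 a3_1 a3_2 a3_3 q3 z3 1152921504606846976 1152921504606846976 (Nat.add w3 1152921504606846976) 0 fun c174 a174_1 a174_2 a174_3 q174 =>
  mulK c40 a40_1 a40_2 a40_3 q40 c6 a6_1 a6_2 a6_3 q6 fun c176 a176_1 a176_2 a176_3 q176 =>
  smulK 2 1 1152921504606846977 2305843009213693952 c176 a176_1 a176_2 a176_3 q176 fun c177 a177_1 a177_2 a177_3 q177 =>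
  subK c23 a23_1 a23_2 a23_3 q23 c177 a177_1 a177_2 a177_3 q177 fun c178 a178_1 a178_2 a178_3 q178 =>
  mulK c127 a127_1 a127_2 a127_3 q127 c174 a174_1 a174_2 a174_3 q174 fun c180 a180_1 a180_2 a180_3 q180 =>
  addK c178 a178_1 a178_2 a178_3 q178 c180 a180_1 a180_2 a180_3 q180 fun c181 a181_1 a181_2 a181_3 q181 =>
  mulK c174 a174_1 a174_2 a174_3 q174 c181 a181_1 a181_2 a181_3 q181 fun c182 a182_1 a182_2 a182_3 q182 =>
  mulK c172 a172_1 a172_2 a172_3 q172 c182 a182_1 a182_2 a182_3 q182 fun c183 a183_1 a183_2 a183_3 q183 =>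
  smulK 4 1 1152921504606846977 4611686018427387904 c127 a127_1 a127_2 a127_3 q127 fun c184 a184_1 a184_2 a184_3 q184 =>
  invK c184 a184_1 a184_2 a184_3 q184 fun c185 a185_1 a185_2 a185_3 q185 =>
  sqK c178 a178_1 a178_2 a178_3 q178 fun c186 a186_1 a186_2 a186_3 q186 =>
  mulK c168 a168_1 a168_2 a168_3 q168 c186 a186_1 a186_2 a186_3 q186 fun c187 a187_1 a187_2 a187_3 q187 =>
  mulK c187 a187_1 a187_2 a187_3 q187 c185 a185_1 a185_2 a185_3 q185 fun c188 a188_1 a188_2 a188_3 q188 =>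
  subK c183 a183_1 a183_2 a183_3 q183 c188 a188_1 a188_2 a188_3 q188 fun c190 a190_1 a190_2 a190_3 q190 =>
  addK c153 a153_1 a153_2 a153_3 q153 c190 a190_1 a190_2 a190_3 q190 fun c192 a192_1 a192_2 a192_3 q192 =>
  negK c11 a11_1 a11_2 a11_3 q11 fun c193 a193_1 a193_2 a193_3 q193 =>
  addcK c193 a193_1 a193_2 a193_3 q193 1152922604118474752 0 fun c194 a194_1 a194_2 a194_3 q194 =>
  mulK c194 a194_1 a194_2 a194_3 q194 c156 a156_1 a156_2 a156_3 q156 fun c197 a197_1 a197_2 a197_3 q197 =>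
  smulK 2 1 1152921504606846977 2305843009213693952 c197 a197_1 a197_2 a197_3 q197 fun c199 a199_1 a199_2 a199_3 q199 =>
  smulK 1959 200 230584300921369395400 2258573227524813225984 z1 (Nat.add w1 1152921504606846976) 1152921504606846976 1152921504606846976 0 fun c200 a200_1 a200_2 a200_3 q200 =>
  negK c200 a200_1 a200_2 a200_3 q200 fun c201 a201_1 a201_2 a201_3 q201 =>
  addcK c201 a201_1 a201_2 a201_3 q201 1152924755862730310 1 fun c202 a202_1 a202_2 a202_3 q202 =>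
  mulK c199 a199_1 a199_2 a199_3 q199 c202 a202_1 a202_2 a202_3 q202 fun c205 a205_1 a205_2 a205_3 q205 =>
  smulK 2829 250 288230376151711744250 3261614936532770095104 z1 (Nat.add w1 1152921504606846976) 1152921504606846976 1152921504606846976 0 fun c206 a206_1 a206_2 a206_3 q206 =>
  addcK c206 a206_1 a206_2 a206_3 q206 1152916565600615006 1 fun c207 a207_1 a207_2 a207_3 q207 =>
  sqK c156 a156_1 a156_2 a156_3 q156 fun c210 a210_1 a210_2 a210_3 q210 =>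
  smulK 2 1 1152921504606846977 2305843009213693952 c210 a210_1 a210_2 a210_3 q210 fun c212 a212_1 a212_2 a212_3 q212 =>
  smulK 4 1 1152921504606846977 4611686018427387904 c197 a197_1 a197_2 a197_3 q197 fun c213 a213_1 a213_2 a213_3 q213 =>
  addK c212 a212_1 a212_2 a212_3 q212 c213 a213_1 a213_2 a213_3 q213 fun c214 a214_1 a214_2 a214_3 q214 =>
  mulK c207 a207_1 a207_2 a207_3 q207 c214 a214_1 a214_2 a214_3 q214 fun c215 a215_1 a215_2 a215_3 q215 =>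
  smulK 5303 1000 1152921504606846977000 6113942738930109513728 z1 (Nat.add w1 1152921504606846976) 1152921504606846976 1152921504606846976 0 fun c216 a216_1 a216_2 a216_3 q216 =>
  negK c216 a216_1 a216_2 a216_3 q216 fun c217 a217_1 a217_2 a217_3 q217 =>
  addcK c217 a217_1 a217_2 a217_3 q217 1152923732217404850 1 fun c218 a218_1 a218_2 a218_3 q218 =>
  smulK 6 1 1152921504606846977 6917529027641081856 c210 a210_1 a210_2 a210_3 q210 fun c221 a221_1 a221_2 a221_3 q221 =>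
  addcK c212 a212_1 a212_2 a212_3 q212 1152928101676613632 0 fun c222 a222_1 a222_2 a222_3 q222 =>
  mulK c197 a197_1 a197_2 a197_3 q197 c222 a222_1 a222_2 a222_3 q222 fun c224 a224_1 a224_2 a224_3 q224 =>
  addK c221 a221_1 a221_2 a221_3 q221 c224 a224_1 a224_2 a224_3 q224 fun c225 a225_1 a225_2 a225_3 q225 =>
  mulK c218 a218_1 a218_2 a218_3 q218 c225 a225_1 a225_2 a225_3 q225 fun c226 a226_1 a226_2 a226_3 q226 =>
  mulK z2 1152921504606846976 (Nat.add w2 1152921504606846976) 1152921504606846976 0 c226 a226_1 a226_2 a226_3 q226 fun c227 a227_1 a227_2 a227_3 q227 =>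
  addK c215 a215_1 a215_2 a215_3 q215 c227 a227_1 a227_2 a227_3 q227 fun c228 a228_1 a228_2 a228_3 q228 =>
  mulK z2 1152921504606846976 (Nat.add w2 1152921504606846976) 1152921504606846976 0 c228 a228_1 a228_2 a228_3 q228 fun c229 a229_1 a229_2 a229_3 q229 =>
  addK c205 a205_1 a205_2 a205_3 q205 c229 a229_1 a229_2 a229_3 q229 fun c230 a230_1 a230_2 a230_3 q230 =>
  mulK z2 1152921504606846976 (Nat.add w2 1152921504606846976) 1152921504606846976 0 c230 a230_1 a230_2 a230_3 q230 fun c231 a231_1 a231_2 a231_3 q231 =>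
  mulK z1 (Nat.add w1 1152921504606846976) 1152921504606846976 1152921504606846976 0 c231 a231_1 a231_2 a231_3 q231 fun c233 a233_1 a233_2 a233_3 q233 =>
  addK c192 a192_1 a192_2 a192_3 q192 c233 a233_1 a233_2 a233_3 q233 fun c234 a234_1 a234_2 a234_3 q234 =>
  pos c234 a234_1 a234_2 a234_3 q234

theorem alt2_s {p1 p2 z1 w1 z2 w2 z3 w3 : ℕ} {e1 e2 e3 x m n r1 r2 : ℝ} (he : Ev e1 e2 e3)
    (hp1 : In e1 e2 e3 p1 1152921504606846976 1152921504606846976 1152921504606846976 0 r1)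
    (hp2 : In e1 e2 e3 p2 1152921504606846976 1152921504606846976 1152921504606846976 0 r2)
    (hx1 : In e1 e2 e3 z1 (Nat.add w1 1152921504606846976) 1152921504606846976 1152921504606846976 0 x)
    (hx2 : In e1 e2 e3 z2 1152921504606846976 (Nat.add w2 1152921504606846976) 1152921504606846976 0 m)
    (hx3 : In e1 e2 e3 z3 1152921504606846976 1152921504606846976 (Nat.add w3 1152921504606846976) 0 n)
    (H0 : alt2 p1 p2 z1 w1 z2 w2 z3 w3 = true) : 0 < n ∧ 0 < (fgg x m n r1 r2) ∧ 0 < (ftau x m n r1 r2) ∧ 0 < ((2:ℝ) - (fk0 x m n r1 r2)) ∧ 0 < (fc4 x m n r1 r2) ∧ 0 < (faq x m n r1 r2) ∧ 0 < (fq x m n r1 r2) ∧ 0 < (((((Real.log ((1:ℝ) - (x * (ft2 x m n r1 r2)))) + ((fk0 x m n r1 r2) * (((fxc x m n r1 r2) * (Real.log n)) - (Real.log (fgg x m n r1 r2))))) + (((2:ℝ) - (fk0 x m n r1 r2)) * (((fxc x m n r1 r2) * (flp x m n r1 r2)) + (Real.log (((2:ℝ) - n) / ((2:ℝ) - (fv x m n r1 r2))))))) + (fquad x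 m n r1 r2)) + (x * (fhB x m n r1 r2))) := by
  unfold alt2 at H0
  refine posK_s he hx3 (fun p0 H1 => ?_) H0
  refine smulK_s he (w := (11/10:ℝ)) (by norm_num) (by norm_num) (by norm_num) (by norm_num) hp1 (fun _ _ _ _ _ h1 H2 => ?_) H1
  have h2 := In_cast (w := (fgg x m n r1 r2)) h1 rfl
  refine posK_s he h2 (fun p1 H3 => ?_) H2
  refine mulK_s he h2 hx3 (fun _ _ _ _ _ h3 H4 => ?_) H3
  have h4 := In_cast (w := (fv x m n r1 r2)) h3 rfl
  refine negK_s he h4 (fun _ _ _ _ _ h5 H5 => ?_) H4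
  refine addcK_s he h5 (v' := (1:ℝ)) (by norm_num [SS, BB, abs_le]) (fun _ _ _ _ _ h6 H6 => ?_) H5
  have h7 := In_cast h6 (neg_add_eq_sub _ _)
  have h8 := In_cast (w := (ftau x m n r1 r2)) h7 rfl
  refine posK_s he h8 (fun p2 H7 => ?_) H6
  refine smulK_s he (w := (2:ℝ)) (by norm_num) (by norm_num) (by norm_num) (by norm_num) hp2 (fun _ _ _ _ _ h9 H8 => ?_) H7
  have h10 := In_cast (w := (fal x m n r1 r2)) h9 rfl
  refine mulK_s he h10 h4 (fun _ _ _ _ _ h11 H9 => ?_) H8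
  have h12 := In_cast (w := (fk0 x m n r1 r2)) h11 rfl
  refine negK_s he h12 (fun _ _ _ _ _ h13 H10 => ?_) H9
  refine addcK_s he h13 (v' := (2:ℝ)) (by norm_num [SS, BB, abs_le]) (fun _ _ _ _ _ h14 H11 => ?_) H10
  have h15 := In_cast h14 (neg_add_eq_sub _ _)
  refine posK_s he h15 (fun p3 H12 => ?_) H11
  refine negK_s he h4 (fun _ _ _ _ _ h16 H13 => ?_) H12
  refine addcK_s he h16 (v' := (2:ℝ)) (by norm_num [SS, BB, abs_le]) (fun _ _ _ _ _ h17 H14 => ?_) H13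
  have h18 := In_cast h17 (neg_add_eq_sub _ _)
  refine invK_s he h18 (fun _ _ _ _ _ h19 H15 => ?_) H14
  refine addcK_s he h10 (v' := (-1:ℝ)) (by norm_num [SS, BB, abs_le]) (fun _ _ _ _ _ h20 H16 => ?_) H15
  have h21 := In_cast h20 (sub_c (c := (1:ℝ)) (by norm_num))
  refine smulK_s he (w := (2:ℝ)) (by norm_num) (by norm_num) (by norm_num) (by norm_num) h21 (fun _ _ _ _ _ h22 H17 => ?_) H16
  refine mulK_s he h22 h19 (fun _ _ _ _ _ h23 H18 => ?_) H17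
  have h24 := In_cast h23 ((div_eq_mul_inv _ _).symm)
  have h25 := In_cast (w := (fe x m n r1 r2)) h24 rfl
  refine mulK_s he h25 h8 (fun _ _ _ _ _ h26 H19 => ?_) H18
  refine addcK_s he h26 (v' := (2:ℝ)) (by norm_num [SS, BB, abs_le]) (fun _ _ _ _ _ h27 H20 => ?_) H19
  have h28 := In_cast h27 (add_comm _ _)
  have h29 := In_cast (w := (fS x m n r1 r2)) h28 rfl
  refine negK_s he h25 (fun _ _ _ _ _ h30 H21 => ?_) H20
  refine reluK_s he h30 (fun _ _ _ _ _ h31 H22 => ?_) H21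
  refine subK_s he h29 h31 (fun _ _ _ _ _ h32 H23 => ?_) H22
  refine sqK_s he h8 (fun _ _ _ _ _ h33 H24 => ?_) H23
  have h34 := In_cast (w := (ft2 x m n r1 r2)) h33 rfl
  refine mulK_s he hx1 h34 (fun _ _ _ _ _ h35 H25 => ?_) H24
  refine negK_s he h35 (fun _ _ _ _ _ h36 H26 => ?_) H25
  refine addcK_s he h36 (v' := (1:ℝ)) (by norm_num [SS, BB, abs_le]) (fun _ _ _ _ _ h37 H27 => ?_) H26
  have h38 := In_cast h37 (neg_add_eq_sub _ _)
  refine invK_s he h38 (fun _ _ _ _ _ h39 H28 => ?_) H27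
  refine mulK_s he hx1 h39 (fun _ _ _ _ _ h40 H29 => ?_) H28
  have h41 := In_cast h40 ((div_eq_mul_inv _ _).symm)
  have h42 := In_cast (w := (fX x m n r1 r2)) h41 rfl
  refine mulK_s he h42 hx1 (fun _ _ _ _ _ h43 H30 => ?_) H29
  refine smulK_s he (w := (2:ℝ)) (by norm_num) (by norm_num) (by norm_num) (by norm_num) h43 (fun _ _ _ _ _ h44 H31 => ?_) H30
  have h45 := In_cast (w := (fY x m n r1 r2)) h44 rfl
  refine negK_s he hx1 (fun _ _ _ _ _ h46 H32 => ?_) H31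
  refine addcK_s he h46 (v' := (1:ℝ)) (by norm_num [SS, BB, abs_le]) (fun _ _ _ _ _ h47 H33 => ?_) H32
  have h48 := In_cast h47 (neg_add_eq_sub _ _)
  refine invK_s he h48 (fun _ _ _ _ _ h49 H34 => ?_) H33
  refine mulK_s he hx1 h8 (fun _ _ _ _ _ h50 H35 => ?_) H34
  have h51 := In_cast (w := (fxt x m n r1 r2)) h50 rfl
  refine addcK_s he h51 (v' := (1:ℝ)) (by norm_num [SS, BB, abs_le]) (fun _ _ _ _ _ h52 H36 => ?_) H35
  have h53 := In_cast h52 (add_comm _ _)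
  refine mulK_s he hx1 h53 (fun _ _ _ _ _ h54 H37 => ?_) H36
  refine mulK_s he h54 h49 (fun _ _ _ _ _ h55 H38 => ?_) H37
  have h56 := In_cast h55 ((div_eq_mul_inv _ _).symm)
  refine mulK_s he h45 h56 (fun _ _ _ _ _ h57 H39 => ?_) H38
  refine subK_s he h32 h57 (fun _ _ _ _ _ h58 H40 => ?_) H39
  have h59 := In_cast (w := (fc4 x m n r1 r2)) h58 rfl
  refine posK_s he h59 (fun p4 H41 => ?_) H40
  refine subK_s he h29 h45 (fun _ _ _ _ _ h60 H42 => ?_) H41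
  have h61 := In_cast (w := (fc2 x m n r1 r2)) h60 rfl
  refine smulK_s he (w := (1/4:ℝ)) (by norm_num) (by norm_num) (by norm_num) (by norm_num) h61 (fun _ _ _ _ _ h62 H43 => ?_) H42
  have h63 := In_cast h62 (div_c (c := (4:ℝ)) (by norm_num))
  refine mulK_s he h45 h51 (fun _ _ _ _ _ h64 H44 => ?_) H43
  refine subK_s he h25 h64 (fun _ _ _ _ _ h65 H45 => ?_) H44
  have h66 := In_cast (w := (fc3 x m n r1 r2)) h65 rfl
  refine negK_s he h66 (fun _ _ _ _ _ h67 H46 => ?_) H45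
  refine reluK_s he h67 (fun _ _ _ _ _ h68 H47 => ?_) H46
  refine smulK_s he (w := (1/5:ℝ)) (by norm_num) (by norm_num) (by norm_num) (by norm_num) h68 (fun _ _ _ _ _ h69 H48 => ?_) H47
  have h70 := In_cast h69 (div_c (c := (5:ℝ)) (by norm_num))
  refine subK_s he h63 h70 (fun _ _ _ _ _ h71 H49 => ?_) H48
  refine smulK_s he (w := (3/20:ℝ)) (by norm_num) (by norm_num) (by norm_num) (by norm_num) h66 (fun _ _ _ _ _ h72 H50 => ?_) H49
  have h73 := In_cast h72 (mul_comm _ _)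
  refine smulK_s he (w := (1/10:ℝ)) (by norm_num) (by norm_num) (by norm_num) (by norm_num) h59 (fun _ _ _ _ _ h74 H51 => ?_) H50
  have h75 := In_cast h74 (div_c (c := (10:ℝ)) (by norm_num))
  refine mulK_s he h8 h75 (fun _ _ _ _ _ h76 H52 => ?_) H51
  refine addK_s he h73 h76 (fun _ _ _ _ _ h77 H53 => ?_) H52
  refine mulK_s he h8 h77 (fun _ _ _ _ _ h78 H54 => ?_) H53
  refine addK_s he h71 h78 (fun _ _ _ _ _ h79 H55 => ?_) H54
  have h80 := In_cast (w := (faq x m n r1 r2)) h79 rfl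
  refine posK_s he h80 (fun p5 H56 => ?_) H55
  refine smulK_s he (w := (2:ℝ)) (by norm_num) (by norm_num) (by norm_num) (by norm_num) h42 (fun _ _ _ _ _ h81 H57 => ?_) H56
  refine subK_s he h29 h81 (fun _ _ _ _ _ h82 H58 => ?_) H57
  have h83 := In_cast (w := (fc0 x m n r1 r2)) h82 rfl
  refine smulK_s he (w := (1/2:ℝ)) (by norm_num) (by norm_num) (by norm_num) (by norm_num) h83 (fun _ _ _ _ _ h84 H59 => ?_) H58
  have h85 := In_cast h84 (div_c (c := (2:ℝ)) (by norm_num))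
  refine mulK_s he h45 h8 (fun _ _ _ _ _ h86 H60 => ?_) H59
  refine subK_s he h25 h86 (fun _ _ _ _ _ h87 H61 => ?_) H60
  have h88 := In_cast (w := (fc1 x m n r1 r2)) h87 rfl
  refine smulK_s he (w := (1/6:ℝ)) (by norm_num) (by norm_num) (by norm_num) (by norm_num) h88 (fun _ _ _ _ _ h89 H62 => ?_) H61
  have h90 := In_cast h89 (div_c (c := (6:ℝ)) (by norm_num))
  refine smulK_s he (w := (1/12:ℝ)) (by norm_num) (by norm_num) (by norm_num) (by norm_num) h61 (fun _ _ _ _ _ h91 H63 => ?_) H62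
  have h92 := In_cast h91 (div_c (c := (12:ℝ)) (by norm_num))
  refine smulK_s he (w := (1/20:ℝ)) (by norm_num) (by norm_num) (by norm_num) (by norm_num) h66 (fun _ _ _ _ _ h93 H64 => ?_) H63
  have h94 := In_cast h93 (div_c (c := (20:ℝ)) (by norm_num))
  refine smulK_s he (w := (1/30:ℝ)) (by norm_num) (by norm_num) (by norm_num) (by norm_num) h59 (fun _ _ _ _ _ h95 H65 => ?_) H64
  have h96 := In_cast h95 (div_c (c := (30:ℝ)) (by norm_num))
  refine mulK_s he h8 h96 (fun _ _ _ _ _ h97 H66 => ?_) H65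
  refine addK_s he h94 h97 (fun _ _ _ _ _ h98 H67 => ?_) H66
  refine mulK_s he h8 h98 (fun _ _ _ _ _ h99 H68 => ?_) H67
  refine addK_s he h92 h99 (fun _ _ _ _ _ h100 H69 => ?_) H68
  refine mulK_s he h8 h100 (fun _ _ _ _ _ h101 H70 => ?_) H69
  refine addK_s he h90 h101 (fun _ _ _ _ _ h102 H71 => ?_) H70
  refine mulK_s he h8 h102 (fun _ _ _ _ _ h103 H72 => ?_) H71
  refine addK_s he h85 h103 (fun _ _ _ _ _ h104 H73 => ?_) H72
  refine smulK_s he (w := (4:ℝ)) (by norm_num) (by norm_num) (by norm_num) (by norm_num) h80 (fun _ _ _ _ _ h105 H74 => ?_) H73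
  refine invK_s he h105 (fun _ _ _ _ _ h106 H75 => ?_) H74
  refine smulK_s he (w := (1/3:ℝ)) (by norm_num) (by norm_num) (by norm_num) (by norm_num) h88 (fun _ _ _ _ _ h107 H76 => ?_) H75
  have h108 := In_cast h107 (div_c (c := (3:ℝ)) (by norm_num))
  refine smulK_s he (w := (1/6:ℝ)) (by norm_num) (by norm_num) (by norm_num) (by norm_num) h61 (fun _ _ _ _ _ h109 H77 => ?_) H76
  have h110 := In_cast h109 (div_c (c := (6:ℝ)) (by norm_num))
  refine smulK_s he (w := (1/10:ℝ)) (by norm_num) (by norm_num) (by norm_num) (by norm_num) h66 (fun _ _ _ _ _ h111 H78 => ?_) H77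
  have h112 := In_cast h111 (div_c (c := (10:ℝ)) (by norm_num))
  refine smulK_s he (w := (1/15:ℝ)) (by norm_num) (by norm_num) (by norm_num) (by norm_num) h59 (fun _ _ _ _ _ h113 H79 => ?_) H78
  have h114 := In_cast h113 (div_c (c := (15:ℝ)) (by norm_num))
  refine mulK_s he h8 h114 (fun _ _ _ _ _ h115 H80 => ?_) H79
  refine addK_s he h112 h115 (fun _ _ _ _ _ h116 H81 => ?_) H80
  refine mulK_s he h8 h116 (fun _ _ _ _ _ h117 H82 => ?_) H81
  refine addK_s he h110 h117 (fun _ _ _ _ _ h118 H83 => ?_) H82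
  refine mulK_s he h8 h118 (fun _ _ _ _ _ h119 H84 => ?_) H83
  refine addK_s he h108 h119 (fun _ _ _ _ _ h120 H85 => ?_) H84
  have h121 := In_cast (w := (fb x m n r1 r2)) h120 rfl
  refine negK_s he h121 (fun _ _ _ _ _ h122 H86 => ?_) H85
  refine reluK_s he h122 (fun _ _ _ _ _ h123 H87 => ?_) H86
  refine sqK_s he h123 (fun _ _ _ _ _ h124 H88 => ?_) H87
  refine mulK_s he h124 h106 (fun _ _ _ _ _ h125 H89 => ?_) H88
  have h126 := In_cast h125 ((div_eq_mul_inv _ _).symm)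
  refine subK_s he h104 h126 (fun _ _ _ _ _ h127 H90 => ?_) H89
  have h128 := In_cast (w := (fq x m n r1 r2)) h127 rfl
  refine posK_s he h128 (fun p6 H91 => ?_) H90
  refine logK_s he h38 (fun _ _ _ _ _ h129 H92 => ?_) H91
  refine smulK_s he (w := (2139/1000:ℝ)) (by norm_num) (by norm_num) (by norm_num) (by norm_num) hx1 (fun _ _ _ _ _ h130 H93 => ?_) H92
  refine addcK_s he h130 (v' := (923/1000:ℝ)) (by norm_num [SS, BB, abs_le]) (fun _ _ _ _ _ h131 H94 => ?_) H93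
  have h132 := In_cast h131 (add_comm _ _)
  have h133 := In_cast (w := (fcc x m n r1 r2)) h132 rfl
  refine mulK_s he hx1 h133 (fun _ _ _ _ _ h134 H95 => ?_) H94
  have h135 := In_cast (w := (fxc x m n r1 r2)) h134 rfl
  refine logK_s he hx3 (fun _ _ _ _ _ h136 H96 => ?_) H95
  refine mulK_s he h135 h136 (fun _ _ _ _ _ h137 H97 => ?_) H96
  refine logK_s he h2 (fun _ _ _ _ _ h138 H98 => ?_) H97
  refine subK_s he h137 h138 (fun _ _ _ _ _ h139 H99 => ?_) H98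
  refine mulK_s he h12 h139 (fun _ _ _ _ _ h140 H100 => ?_) H99
  refine addK_s he h129 h140 (fun _ _ _ _ _ h141 H101 => ?_) H100
  refine negK_s he hx3 (fun _ _ _ _ _ h142 H102 => ?_) H101
  refine addcK_s he h142 (v' := (2:ℝ)) (by norm_num [SS, BB, abs_le]) (fun _ _ _ _ _ h143 H103 => ?_) H102
  have h144 := In_cast h143 (neg_add_eq_sub _ _)
  refine logK_s he h144 (fun _ _ _ _ _ h145 H104 => ?_) H103
  have h146 := In_cast (w := (flp x m n r1 r2)) h145 rfl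
  refine mulK_s he h135 h146 (fun _ _ _ _ _ h147 H105 => ?_) H104
  refine mulK_s he h144 h19 (fun _ _ _ _ _ h148 H106 => ?_) H105
  have h149 := In_cast h148 ((div_eq_mul_inv _ _).symm)
  refine logK_s he h149 (fun _ _ _ _ _ h150 H107 => ?_) H106
  refine addK_s he h147 h150 (fun _ _ _ _ _ h151 H108 => ?_) H107
  refine mulK_s he h15 h151 (fun _ _ _ _ _ h152 H109 => ?_) H108
  refine addK_s he h141 h152 (fun _ _ _ _ _ h153 H110 => ?_) H109
  refine smulK_s he (w := (2:ℝ)) (by norm_num) (by norm_num) (by norm_num) (by norm_num) hx2 (fun _ _ _ _ _ h154 H111 => ?_) H110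
  refine negK_s he hx3 (fun _ _ _ _ _ h155 H112 => ?_) H111
  refine addcK_s he h155 (v' := (1:ℝ)) (by norm_num [SS, BB, abs_le]) (fun _ _ _ _ _ h156 H113 => ?_) H112
  have h157 := In_cast h156 (neg_add_eq_sub _ _)
  have h158 := In_cast (w := (fth x m n r1 r2)) h157 rfl
  refine negK_s he h158 (fun _ _ _ _ _ h159 H114 => ?_) H113
  refine addcK_s he h159 (v' := (2:ℝ)) (by norm_num [SS, BB, abs_le]) (fun _ _ _ _ _ h160 H115 => ?_) H114
  have h161 := In_cast h160 (neg_add_eq_sub _ _)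
  refine subK_s he h161 h154 (fun _ _ _ _ _ h162 H116 => ?_) H115
  refine mulK_s he hx1 h162 (fun _ _ _ _ _ h163 H117 => ?_) H116
  have h164 := In_cast (w := (fN x m n r1 r2)) h163 rfl
  refine addK_s he h154 h164 (fun _ _ _ _ _ h165 H118 => ?_) H117
  have h166 := In_cast (w := (fden x m n r1 r2)) h165 rfl
  refine invK_s he h166 (fun _ _ _ _ _ h167 H119 => ?_) H118
  refine mulK_s he h164 h167 (fun _ _ _ _ _ h168 H120 => ?_) H119
  have h169 := In_cast h168 ((div_eq_mul_inv _ _).symm)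
  have h170 := In_cast (w := (fjv x m n r1 r2)) h169 rfl
  refine negK_s he h170 (fun _ _ _ _ _ h171 H121 => ?_) H120
  refine addcK_s he h171 (v' := (1:ℝ)) (by norm_num [SS, BB, abs_le]) (fun _ _ _ _ _ h172 H122 => ?_) H121
  have h173 := In_cast h172 (neg_add_eq_sub _ _)
  refine subK_s he h4 hx3 (fun _ _ _ _ _ h174 H123 => ?_) H122
  have h175 := In_cast (w := (fw x m n r1 r2)) h174 rfl
  refine mulK_s he h42 h8 (fun _ _ _ _ _ h176 H124 => ?_) H123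
  refine smulK_s he (w := (2:ℝ)) (by norm_num) (by norm_num) (by norm_num) (by norm_num) h176 (fun _ _ _ _ _ h177 H125 => ?_) H124
  refine subK_s he h25 h177 (fun _ _ _ _ _ h178 H126 => ?_) H125
  have h179 := In_cast (w := (fD x m n r1 r2)) h178 rfl
  refine mulK_s he h128 h175 (fun _ _ _ _ _ h180 H127 => ?_) H126
  refine addK_s he h179 h180 (fun _ _ _ _ _ h181 H128 => ?_) H127
  refine mulK_s he h175 h181 (fun _ _ _ _ _ h182 H129 => ?_) H128
  refine mulK_s he h173 h182 (fun _ _ _ _ _ h183 H130 => ?_) H129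
  refine smulK_s he (w := (4:ℝ)) (by norm_num) (by norm_num) (by norm_num) (by norm_num) h128 (fun _ _ _ _ _ h184 H131 => ?_) H130
  refine invK_s he h184 (fun _ _ _ _ _ h185 H132 => ?_) H131
  refine sqK_s he h179 (fun _ _ _ _ _ h186 H133 => ?_) H132
  refine mulK_s he h170 h186 (fun _ _ _ _ _ h187 H134 => ?_) H133
  refine mulK_s he h187 h185 (fun _ _ _ _ _ h188 H135 => ?_) H134
  have h189 := In_cast h188 ((div_eq_mul_inv _ _).symm)
  refine subK_s he h183 h189 (fun _ _ _ _ _ h190 H136 => ?_) H135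
  have h191 := In_cast (w := (fquad x m n r1 r2)) h190 rfl
  refine addK_s he h153 h191 (fun _ _ _ _ _ h192 H137 => ?_) H136
  refine negK_s he h12 (fun _ _ _ _ _ h193 H138 => ?_) H137
  refine addcK_s he h193 (v' := (1:ℝ)) (by norm_num [SS, BB, abs_le]) (fun _ _ _ _ _ h194 H139 => ?_) H138
  have h195 := In_cast h194 (neg_add_eq_sub _ _)
  have h196 := In_cast (w := (fka x m n r1 r2)) h195 rfl
  refine mulK_s he h196 h158 (fun _ _ _ _ _ h197 H140 => ?_) H139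
  have h198 := In_cast (w := (fkt x m n r1 r2)) h197 rfl
  refine smulK_s he (w := (2:ℝ)) (by norm_num) (by norm_num) (by norm_num) (by norm_num) h198 (fun _ _ _ _ _ h199 H141 => ?_) H140
  refine smulK_s he (w := (1959/200:ℝ)) (by norm_num) (by norm_num) (by norm_num) (by norm_num) hx1 (fun _ _ _ _ _ h200 H142 => ?_) H141
  refine negK_s he h200 (fun _ _ _ _ _ h201 H143 => ?_) H142
  refine addcK_s he h201 (v' := (2957/1000:ℝ)) (by norm_num [SS, BB, abs_le]) (fun _ _ _ _ _ h202 H144 => ?_) H143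
  have h203 := In_cast h202 (neg_add_eq_sub _ _)
  have h204 := In_cast (w := (fg1 x m n r1 r2)) h203 rfl
  refine mulK_s he h199 h204 (fun _ _ _ _ _ h205 H145 => ?_) H144
  refine smulK_s he (w := (2829/250:ℝ)) (by norm_num) (by norm_num) (by norm_num) (by norm_num) hx1 (fun _ _ _ _ _ h206 H146 => ?_) H145
  refine addcK_s he h206 (v' := (-1123/250:ℝ)) (by norm_num [SS, BB, abs_le]) (fun _ _ _ _ _ h207 H147 => ?_) H146
  have h208 := In_cast h207 (sub_c (c := (1123/250:ℝ)) (by norm_num))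
  have h209 := In_cast (w := (fg2 x m n r1 r2)) h208 rfl
  refine sqK_s he h158 (fun _ _ _ _ _ h210 H148 => ?_) H147
  have h211 := In_cast (w := (fh2 x m n r1 r2)) h210 rfl
  refine smulK_s he (w := (2:ℝ)) (by norm_num) (by norm_num) (by norm_num) (by norm_num) h211 (fun _ _ _ _ _ h212 H149 => ?_) H148
  refine smulK_s he (w := (4:ℝ)) (by norm_num) (by norm_num) (by norm_num) (by norm_num) h198 (fun _ _ _ _ _ h213 H150 => ?_) H149
  refine addK_s he h212 h213 (fun _ _ _ _ _ h214 H151 => ?_) H150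
  refine mulK_s he h209 h214 (fun _ _ _ _ _ h215 H152 => ?_) H151
  refine smulK_s he (w := (5303/1000:ℝ)) (by norm_num) (by norm_num) (by norm_num) (by norm_num) hx1 (fun _ _ _ _ _ h216 H153 => ?_) H152
  refine negK_s he h216 (fun _ _ _ _ _ h217 H154 => ?_) H153
  refine addcK_s he h217 (v' := (1013/500:ℝ)) (by norm_num [SS, BB, abs_le]) (fun _ _ _ _ _ h218 H155 => ?_) H154
  have h219 := In_cast h218 (neg_add_eq_sub _ _)
  have h220 := In_cast (w := (fg3 x m n r1 r2)) h219 rfl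
  refine smulK_s he (w := (6:ℝ)) (by norm_num) (by norm_num) (by norm_num) (by norm_num) h211 (fun _ _ _ _ _ h221 H156 => ?_) H155
  refine addcK_s he h212 (v' := (6:ℝ)) (by norm_num [SS, BB, abs_le]) (fun _ _ _ _ _ h222 H157 => ?_) H156
  have h223 := In_cast h222 (add_comm _ _)
  refine mulK_s he h198 h223 (fun _ _ _ _ _ h224 H158 => ?_) H157
  refine addK_s he h221 h224 (fun _ _ _ _ _ h225 H159 => ?_) H158
  refine mulK_s he h220 h225 (fun _ _ _ _ _ h226 H160 => ?_) H159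
  refine mulK_s he hx2 h226 (fun _ _ _ _ _ h227 H161 => ?_) H160
  refine addK_s he h215 h227 (fun _ _ _ _ _ h228 H162 => ?_) H161
  refine mulK_s he hx2 h228 (fun _ _ _ _ _ h229 H163 => ?_) H162
  refine addK_s he h205 h229 (fun _ _ _ _ _ h230 H164 => ?_) H163
  refine mulK_s he hx2 h230 (fun _ _ _ _ _ h231 H165 => ?_) H164
  have h232 := In_cast (w := (fhB x m n r1 r2)) h231 rfl
  refine mulK_s he hx1 h232 (fun _ _ _ _ _ h233 H166 => ?_) H165
  refine addK_s he h192 h233 (fun _ _ _ _ _ h234 H167 => ?_) H166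
  exact ⟨p0, p1, p2, p3, p4, p5, p6, pos_s he h234 H167⟩

attribute [irreducible] alt0 alt1 alt2

noncomputable def leaf (j u z1 w1 z2 w2 z3 w3 : ℕ) : Bool :=
  fB (Nat.add (Nat.land (Nat.shiftRight u 0) 65535) 1) fun n1 =>
  fB (Nat.add (Nat.mul n1 16777216) 1152921504606846977) fun p1 =>
  fB (Nat.add (Nat.land (Nat.shiftRight u 16) 65535) 1) fun n2 =>
  fB (Nat.add (Nat.mul n2 16777216) 1152921504606846977) fun p2 =>
  sB j (alt0 p1 p2 z1 w1 z2 w2 z3 w3) fun j => sB j (alt1 p1 p2 z1 w1 z2 w2 z3 w3) fun j => alt2 p1 p2 z1 w1 z2 w2 z3 w3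

theorem snd : Snd Q leaf := by
  intro j u z1 w1 z2 w2 z3 w3 e1 e2 e3 he H
  unfold leaf at H
  unfold Q
  replace H := frc H
  obtain ⟨n1, hn1, H⟩ := H
  replace H := frc H
  obtain ⟨p1, hp1, H⟩ := H
  obtain ⟨hp1, ha, hb⟩ := par (e1 := e1) (e2 := e2) (e3 := e3) hn1 hp1
  refine ⟨_, ha, hb, ?_⟩
  replace H := frc H
  obtain ⟨n2, hn2, H⟩ := H
  replace H := frc H
  obtain ⟨p2, hp2, H⟩ := H
  obtain ⟨hp2, ha, hb⟩ := par (e1 := e1) (e2 := e2) (e3 := e3) hn2 hp2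
  refine ⟨_, ha, hb, ?_⟩
  replace H := sel H
  rcases H with H | ⟨j, H⟩
  · exact Or.inl (alt0_s he hp1 hp2 (var1 z1 w1) (var2 z2 w2) (var3 z3 w3) H)
  replace H := sel H
  rcases H with H | ⟨j, H⟩
  · exact Or.inr (Or.inl (alt1_s he hp1 hp2 (var1 z1 w1) (var2 z2 w2) (var3 z3 w3) H))
  exact Or.inr (Or.inr (alt2_s he hp1 hp2 (var1 z1 w1) (var2 z2 w2) (var3 z3 w3) H))

end Crest.Agent.R307.LGcB
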