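import Crest.Agent.R307.LGcBC0
import Crest.Agent.R307.LGcBC1
set_option autoImplicit false
set_option maxRecDepth 100000
namespace Crest.Agent.R307.LGcB
open Crest.Agent.R307.IA Crest.Agent.R307.IA3

theorem cov : Cov Q 1152921603562893475 1152921983554112036 1152921504606846976 1152922604118474752 1152921504606846976 1152922329240567808 :=
  (join1 1152921793558504818 (join2 1152922054362661017 (join3 1152921916923707527 k0 (join3 1152922123082137829 k1 k2)) k3) (join2 1152922054362661017 k4 (join3 1152921916923707527 k5 k6)))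

theorem main (x m n : ℝ) (l0 : (9/100:ℝ) ≤ x) (u0 : x ≤ (1089/2500:ℝ)) (l1 : (0:ℝ) ≤ m) (u1 : m ≤ (1:ℝ)) (l2 : (0:ℝ) ≤ n) (u2 : n ≤ (3/4:ℝ)) : Q x m n :=
  cov x m n (le_trans (by norm_num [val, SS, BB]) l0) (le_trans u0 (by norm_num [val, SS, BB])) (le_trans (by norm_num [val, SS, BB]) l1) (le_trans u1 (by norm_num [val, SS, BB])) (le_trans (by norm_num [val, SS, BB]) l2) (le_trans u2 (by norm_num [val, SS, BB]))

end Crest.Agent.R307.LGcB
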