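import Crest.Agent.R307.IAl2
import Crest.Agent.R307.IAx
set_option autoImplicit false
set_option linter.unusedVariables false
set_option maxRecDepth 20000
namespace Crest.Agent.R307.LGcF
open Crest.Agent.R307.IA Crest.Agent.R307.IA2

theorem In_cast {e1 e2 : ℝ} {x y1 y2 r : ℕ} {v w : ℝ}
    (h : In e1 e2 x y1 y2 r v) (e : v = w) : In e1 e2 x y1 y2 r w := e ▸ h

noncomputable def fet (x u : ℝ) : ℝ := ((1:ℝ) - (√((1:ℝ) - x)))
noncomputable def fcc (x u : ℝ) : ℝ := ((923/1000:ℝ) + ((2139/1000:ℝ) * x))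
noncomputable def fa (x u : ℝ) : ℝ := (u ^ 2)
noncomputable def fh0 (x u : ℝ) : ℝ := (((1891/500:ℝ) * x) - (491/1000:ℝ))
noncomputable def fh1 (x u : ℝ) : ℝ := ((1233/500:ℝ) - ((6013/1000:ℝ) * x))
noncomputable def fh2 (x u : ℝ) : ℝ := (((5303/1000:ℝ) * x) - (1013/500:ℝ))
noncomputable def fga (x u : ℝ) : ℝ := ((-(((2:ℝ) * (fcc x u)) * (Real.log u))) - (((1:ℝ) - (fa x u)) * ((fh0 x u) + ((fa x u) * ((fh1 x u) + ((fa x u) * (fh2 x u)))))))
noncomputable def fA (x u : ℝ) : ℝ := ((407/10000:ℝ) + (u * (((1029/1250:ℝ) * u) - (3/80:ℝ))))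
noncomputable def fmu (x u : ℝ) : ℝ := ((4113/10000:ℝ) + (u * (((3031/10000:ℝ) * u) - (2/5:ℝ))))
noncomputable def fnu (x u : ℝ) : ℝ := ((15219/10000:ℝ) - ((6439/5000:ℝ) * u))
noncomputable def fK (x u : ℝ) : ℝ := ((127/2000:ℝ) + (u * (((1269/10000:ℝ) * u) - (353/2000:ℝ))))
noncomputable def fW (x u : ℝ) : ℝ := (min (min ((4/5:ℝ) / (u ^ 3)) ((2:ℝ) / u)) (4899/1000:ℝ))
noncomputable def fV (x u : ℝ) : ℝ := (x * (((((1:ℝ) - x) * (fW x u)) / (4:ℝ)) + ((x * ((1:ℝ) - (fa x u))) / u)))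
noncomputable def fgb (x u : ℝ) : ℝ := ((-((fcc x u) * (Real.log ((1:ℝ) - (fa x u))))) - ((fa x u) * ((fh0 x u) + (((1:ℝ) - (fa x u)) * ((fh1 x u) + (((1:ℝ) - (fa x u)) * (fh2 x u)))))))

def Q (x u : ℝ) : Prop :=
  (
  (0 < ((fet x u) - ((2:ℝ) * u))) ∨
  (0 < u ∧ 0 < (((fet x u) - (u * (x * (fga x u)))) - ((2:ℝ) * (fa x u)))) ∨
  (0 < (u - (547/10000:ℝ)) ∧ 0 < (fA x u) ∧ 0 < (fmu x u) ∧ 0 < (fnu x u) ∧ 0 < (((((fet x u) - (u * (fK x u))) - ((fA x u) * (fV x u))) - ((u * (fmu x u)) * (x * (fga x u)))) - (((u * (fa x u)) * (fnu x u)) * (x * (fgb x u))))))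

noncomputable def alt0 (z1 w1 z2 w2 : ℕ) : Bool :=
  negK z1 (Nat.add w1 1152921504606846976) 1152921504606846976 0 fun c1 a1_1 a1_2 q1 =>
  addcK c1 a1_1 a1_2 q1 1152922604118474752 0 fun c2 a2_1 a2_2 q2 =>
  sqrtK c2 a2_1 a2_2 q2 fun c4 a4_1 a4_2 q4 =>
  negK c4 a4_1 a4_2 q4 fun c5 a5_1 a5_2 q5 =>
  addcK c5 a5_1 a5_2 q5 1152922604118474752 0 fun c6 a6_1 a6_2 q6 =>
  smulK 2 1 1152921504606846977 2305843009213693952 z2 1152921504606846976 (Nat.add w2 1152921504606846976) 0 fun c9 a9_1 a9_2 q9 =>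
  subK c6 a6_1 a6_2 q6 c9 a9_1 a9_2 q9 fun c10 a10_1 a10_2 q10 =>
  pos c10 a10_1 a10_2 q10

theorem alt0_s {z1 w1 z2 w2 : ℕ} {e1 e2 x u : ℝ} (he : Ev e1 e2)
    (hx1 : In e1 e2 z1 (Nat.add w1 1152921504606846976) 1152921504606846976 0 x)
    (hx2 : In e1 e2 z2 1152921504606846976 (Nat.add w2 1152921504606846976) 0 u)
    (H0 : alt0 z1 w1 z2 w2 = true) : 0 < ((fet x u) - ((2:ℝ) * u)) := by
  unfold alt0 at H0
  refine negK_s he hx1 (fun _ _ _ _ h1 H1 => ?_) H0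
  refine addcK_s he h1 (v' := (1:ℝ)) (by norm_num [SS, BB, abs_le]) (fun _ _ _ _ h2 H2 => ?_) H1
  have h3 := In_cast h2 (neg_add_eq_sub _ _)
  refine sqrtK_s he h3 (fun _ _ _ _ h4 H3 => ?_) H2
  refine negK_s he h4 (fun _ _ _ _ h5 H4 => ?_) H3
  refine addcK_s he h5 (v' := (1:ℝ)) (by norm_num [SS, BB, abs_le]) (fun _ _ _ _ h6 H5 => ?_) H4
  have h7 := In_cast h6 (neg_add_eq_sub _ _)
  have h8 := In_cast (w := (fet x u)) h7 rfl
  refine smulK_s he (w := (2:ℝ)) (by norm_num) (by norm_num) (by norm_num) (by norm_num) hx2 (fun _ _ _ _ h9 H6 => ?_) H5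
  refine subK_s he h8 h9 (fun _ _ _ _ h10 H7 => ?_) H6
  exact pos_s he h10 H7

noncomputable def alt1 (z1 w1 z2 w2 : ℕ) : Bool :=
  posK z2 1152921504606846976 (Nat.add w2 1152921504606846976) 0 <|
  negK z1 (Nat.add w1 1152921504606846976) 1152921504606846976 0 fun c1 a1_1 a1_2 q1 =>
  addcK c1 a1_1 a1_2 q1 1152922604118474752 0 fun c2 a2_1 a2_2 q2 =>
  sqrtK c2 a2_1 a2_2 q2 fun c4 a4_1 a4_2 q4 =>
  negK c4 a4_1 a4_2 q4 fun c5 a5_1 a5_2 q5 =>
  addcK c5 a5_1 a5_2 q5 1152922604118474752 0 fun c6 a6_1 a6_2 q6 =>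
  smulK 2139 1000 1152921504606846977000 2466099098354045681664 z1 (Nat.add w1 1152921504606846976) 1152921504606846976 0 fun c9 a9_1 a9_2 q9 =>
  addcK c9 a9_1 a9_2 q9 1152922519456079413 1 fun c10 a10_1 a10_2 q10 =>
  smulK 2 1 1152921504606846977 2305843009213693952 c10 a10_1 a10_2 q10 fun c13 a13_1 a13_2 q13 =>
  logK z2 1152921504606846976 (Nat.add w2 1152921504606846976) 0 fun c14 a14_1 a14_2 q14 =>
  mulK c13 a13_1 a13_2 q13 c14 a14_1 a14_2 q14 fun c15 a15_1 a15_2 q15 =>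
  negK c15 a15_1 a15_2 q15 fun c16 a16_1 a16_2 q16 =>
  sqK z2 1152921504606846976 (Nat.add w2 1152921504606846976) 0 fun c17 a17_1 a17_2 q17 =>
  negK c17 a17_1 a17_2 q17 fun c19 a19_1 a19_2 q19 =>
  addcK c19 a19_1 a19_2 q19 1152922604118474752 0 fun c20 a20_1 a20_2 q20 =>
  smulK 1891 500 576460752303423488500 2180174565211547631616 z1 (Nat.add w1 1152921504606846976) 1152921504606846976 0 fun c22 a22_1 a22_2 q22 =>
  addcK c22 a22_1 a22_2 q22 1152920964746637738 1 fun c23 a23_1 a23_2 q23 =>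
  smulK 6013 1000 1152921504606846977000 6932517007200970866688 z1 (Nat.add w1 1152921504606846976) 1152921504606846976 0 fun c26 a26_1 a26_2 q26 =>
  negK c26 a26_1 a26_2 q26 fun c27 a27_1 a27_2 q27 =>
  addcK c27 a27_1 a27_2 q27 1152924216002521072 1 fun c28 a28_1 a28_2 q28 =>
  smulK 5303 1000 1152921504606846977000 6113942738930109513728 z1 (Nat.add w1 1152921504606846976) 1152921504606846976 0 fun c31 a31_1 a31_2 q31 =>
  addcK c31 a31_1 a31_2 q31 1152919276996289102 1 fun c32 a32_1 a32_2 q32 =>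
  mulK c17 a17_1 a17_2 q17 c32 a32_1 a32_2 q32 fun c35 a35_1 a35_2 q35 =>
  addK c28 a28_1 a28_2 q28 c35 a35_1 a35_2 q35 fun c36 a36_1 a36_2 q36 =>
  mulK c17 a17_1 a17_2 q17 c36 a36_1 a36_2 q36 fun c37 a37_1 a37_2 q37 =>
  addK c23 a23_1 a23_2 q23 c37 a37_1 a37_2 q37 fun c38 a38_1 a38_2 q38 =>
  mulK c20 a20_1 a20_2 q20 c38 a38_1 a38_2 q38 fun c39 a39_1 a39_2 q39 =>
  subK c16 a16_1 a16_2 q16 c39 a39_1 a39_2 q39 fun c40 a40_1 a40_2 q40 =>
  mulK z1 (Nat.add w1 1152921504606846976) 1152921504606846976 0 c40 a40_1 a40_2 q40 fun c42 a42_1 a42_2 q42 =>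
  mulK z2 1152921504606846976 (Nat.add w2 1152921504606846976) 0 c42 a42_1 a42_2 q42 fun c43 a43_1 a43_2 q43 =>
  subK c6 a6_1 a6_2 q6 c43 a43_1 a43_2 q43 fun c44 a44_1 a44_2 q44 =>
  smulK 2 1 1152921504606846977 2305843009213693952 c17 a17_1 a17_2 q17 fun c45 a45_1 a45_2 q45 =>
  subK c44 a44_1 a44_2 q44 c45 a45_1 a45_2 q45 fun c46 a46_1 a46_2 q46 =>
  pos c46 a46_1 a46_2 q46

theorem alt1_s {z1 w1 z2 w2 : ℕ} {e1 e2 x u : ℝ} (he : Ev e1 e2)
    (hx1 : In e1 e2 z1 (Nat.add w1 1152921504606846976) 1152921504606846976 0 x)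
    (hx2 : In e1 e2 z2 1152921504606846976 (Nat.add w2 1152921504606846976) 0 u)
    (H0 : alt1 z1 w1 z2 w2 = true) : 0 < u ∧ 0 < (((fet x u) - (u * (x * (fga x u)))) - ((2:ℝ) * (fa x u))) := by
  unfold alt1 at H0
  refine posK_s he hx2 (fun p0 H1 => ?_) H0
  refine negK_s he hx1 (fun _ _ _ _ h1 H2 => ?_) H1
  refine addcK_s he h1 (v' := (1:ℝ)) (by norm_num [SS, BB, abs_le]) (fun _ _ _ _ h2 H3 => ?_) H2
  have h3 := In_cast h2 (neg_add_eq_sub _ _)
  refine sqrtK_s he h3 (fun _ _ _ _ h4 H4 => ?_) H3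
  refine negK_s he h4 (fun _ _ _ _ h5 H5 => ?_) H4
  refine addcK_s he h5 (v' := (1:ℝ)) (by norm_num [SS, BB, abs_le]) (fun _ _ _ _ h6 H6 => ?_) H5
  have h7 := In_cast h6 (neg_add_eq_sub _ _)
  have h8 := In_cast (w := (fet x u)) h7 rfl
  refine smulK_s he (w := (2139/1000:ℝ)) (by norm_num) (by norm_num) (by norm_num) (by norm_num) hx1 (fun _ _ _ _ h9 H7 => ?_) H6
  refine addcK_s he h9 (v' := (923/1000:ℝ)) (by norm_num [SS, BB, abs_le]) (fun _ _ _ _ h10 H8 => ?_) H7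
  have h11 := In_cast h10 (add_comm _ _)
  have h12 := In_cast (w := (fcc x u)) h11 rfl
  refine smulK_s he (w := (2:ℝ)) (by norm_num) (by norm_num) (by norm_num) (by norm_num) h12 (fun _ _ _ _ h13 H9 => ?_) H8
  refine logK_s he hx2 (fun _ _ _ _ h14 H10 => ?_) H9
  refine mulK_s he h13 h14 (fun _ _ _ _ h15 H11 => ?_) H10
  refine negK_s he h15 (fun _ _ _ _ h16 H12 => ?_) H11
  refine sqK_s he hx2 (fun _ _ _ _ h17 H13 => ?_) H12
  have h18 := In_cast (w := (fa x u)) h17 rfl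
  refine negK_s he h18 (fun _ _ _ _ h19 H14 => ?_) H13
  refine addcK_s he h19 (v' := (1:ℝ)) (by norm_num [SS, BB, abs_le]) (fun _ _ _ _ h20 H15 => ?_) H14
  have h21 := In_cast h20 (neg_add_eq_sub _ _)
  refine smulK_s he (w := (1891/500:ℝ)) (by norm_num) (by norm_num) (by norm_num) (by norm_num) hx1 (fun _ _ _ _ h22 H16 => ?_) H15
  refine addcK_s he h22 (v' := (-491/1000:ℝ)) (by norm_num [SS, BB, abs_le]) (fun _ _ _ _ h23 H17 => ?_) H16
  have h24 := In_cast h23 (sub_c (c := (491/1000:ℝ)) (by norm_num))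
  have h25 := In_cast (w := (fh0 x u)) h24 rfl
  refine smulK_s he (w := (6013/1000:ℝ)) (by norm_num) (by norm_num) (by norm_num) (by norm_num) hx1 (fun _ _ _ _ h26 H18 => ?_) H17
  refine negK_s he h26 (fun _ _ _ _ h27 H19 => ?_) H18
  refine addcK_s he h27 (v' := (1233/500:ℝ)) (by norm_num [SS, BB, abs_le]) (fun _ _ _ _ h28 H20 => ?_) H19
  have h29 := In_cast h28 (neg_add_eq_sub _ _)
  have h30 := In_cast (w := (fh1 x u)) h29 rfl
  refine smulK_s he (w := (5303/1000:ℝ)) (by norm_num) (by norm_num) (by norm_num) (by norm_num) hx1 (fun _ _ _ _ h31 H21 => ?_) H20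
  refine addcK_s he h31 (v' := (-1013/500:ℝ)) (by norm_num [SS, BB, abs_le]) (fun _ _ _ _ h32 H22 => ?_) H21
  have h33 := In_cast h32 (sub_c (c := (1013/500:ℝ)) (by norm_num))
  have h34 := In_cast (w := (fh2 x u)) h33 rfl
  refine mulK_s he h18 h34 (fun _ _ _ _ h35 H23 => ?_) H22
  refine addK_s he h30 h35 (fun _ _ _ _ h36 H24 => ?_) H23
  refine mulK_s he h18 h36 (fun _ _ _ _ h37 H25 => ?_) H24
  refine addK_s he h25 h37 (fun _ _ _ _ h38 H26 => ?_) H25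
  refine mulK_s he h21 h38 (fun _ _ _ _ h39 H27 => ?_) H26
  refine subK_s he h16 h39 (fun _ _ _ _ h40 H28 => ?_) H27
  have h41 := In_cast (w := (fga x u)) h40 rfl
  refine mulK_s he hx1 h41 (fun _ _ _ _ h42 H29 => ?_) H28
  refine mulK_s he hx2 h42 (fun _ _ _ _ h43 H30 => ?_) H29
  refine subK_s he h8 h43 (fun _ _ _ _ h44 H31 => ?_) H30
  refine smulK_s he (w := (2:ℝ)) (by norm_num) (by norm_num) (by norm_num) (by norm_num) h18 (fun _ _ _ _ h45 H32 => ?_) H31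
  refine subK_s he h44 h45 (fun _ _ _ _ h46 H33 => ?_) H32
  exact ⟨p0, pos_s he h46 H33⟩

noncomputable def alt2 (z1 w1 z2 w2 : ℕ) : Bool :=
  addcK z2 1152921504606846976 (Nat.add w2 1152921504606846976) 0 1152921444463560937 1 fun c1 a1_1 a1_2 q1 =>
  posK c1 a1_1 a1_2 q1 <|
  smulK 1029 1250 1441151880758558721250 1186356228240445538304 z2 1152921504606846976 (Nat.add w2 1152921504606846976) 0 fun c3 a3_1 a3_2 q3 =>
  addcK c3 a3_1 a3_2 q3 1152921463375160934 1 fun c4 a4_1 a4_2 q4 =>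
  mulK z2 1152921504606846976 (Nat.add w2 1152921504606846976) 0 c4 a4_1 a4_2 q4 fun c6 a6_1 a6_2 q6 =>
  addcK c6 a6_1 a6_2 q6 1152921549356970226 1 fun c7 a7_1 a7_2 q7 =>
  posK c7 a7_1 a7_2 q7 <|
  smulK 3031 10000 11529215046068469770000 3494505080463353184256 z2 1152921504606846976 (Nat.add w2 1152921504606846976) 0 fun c10 a10_1 a10_2 q10 =>
  addcK c10 a10_1 a10_2 q10 1152921064802195866 1 fun c11 a11_1 a11_2 q11 =>
  mulK z2 1152921504606846976 (Nat.add w2 1152921504606846976) 0 c11 a11_1 a11_2 q11 fun c13 a13_1 a13_2 q13 =>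
  addcK c13 a13_1 a13_2 q13 1152921956835979480 1 fun c14 a14_1 a14_2 q14 =>
  posK c14 a14_1 a14_2 q14 <|
  smulK 6439 5000 5764607523034234885000 7423661568163487678464 z2 1152921504606846976 (Nat.add w2 1152921504606846976) 0 fun c17 a17_1 a17_2 q17 =>
  negK c17 a17_1 a17_2 q17 fun c18 a18_1 a18_2 q18 =>
  addcK c18 a18_1 a18_2 q18 1152923177953593288 1 fun c19 a19_1 a19_2 q19 =>
  posK c19 a19_1 a19_2 q19 <|
  negK z1 (Nat.add w1 1152921504606846976) 1152921504606846976 0 fun c22 a22_1 a22_2 q22 =>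
  addcK c22 a22_1 a22_2 q22 1152922604118474752 0 fun c23 a23_1 a23_2 q23 =>
  sqrtK c23 a23_1 a23_2 q23 fun c25 a25_1 a25_2 q25 =>
  negK c25 a25_1 a25_2 q25 fun c26 a26_1 a26_2 q26 =>
  addcK c26 a26_1 a26_2 q26 1152922604118474752 0 fun c27 a27_1 a27_2 q27 =>
  smulK 1269 10000 11529215046068469770000 1463057389346088812544 z2 1152921504606846976 (Nat.add w2 1152921504606846976) 0 fun c30 a30_1 a30_2 q30 =>
  addcK c30 a30_1 a30_2 q30 1152921310543044674 1 fun c31 a31_1 a31_2 q31 =>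
  mulK z2 1152921504606846976 (Nat.add w2 1152921504606846976) 0 c31 a31_1 a31_2 q31 fun c33 a33_1 a33_2 q33 =>
  addcK c33 a33_1 a33_2 q33 1152921574425835340 1 fun c34 a34_1 a34_2 q34 =>
  mulK z2 1152921504606846976 (Nat.add w2 1152921504606846976) 0 c34 a34_1 a34_2 q34 fun c37 a37_1 a37_2 q37 =>
  subK c27 a27_1 a27_2 q27 c37 a37_1 a37_2 q37 fun c38 a38_1 a38_2 q38 =>
  sqK z2 1152921504606846976 (Nat.add w2 1152921504606846976) 0 fun c39 a39_1 a39_2 q39 =>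
  mulK c39 a39_1 a39_2 q39 z2 1152921504606846976 (Nat.add w2 1152921504606846976) 0 fun c40 a40_1 a40_2 q40 =>
  invK c40 a40_1 a40_2 q40 fun c42 a42_1 a42_2 q42 =>
  smulK 4 5 5764607523034234885 4611686018427387904 c42 a42_1 a42_2 q42 fun c43 a43_1 a43_2 q43 =>
  invK z2 1152921504606846976 (Nat.add w2 1152921504606846976) 0 fun c45 a45_1 a45_2 q45 =>
  smulK 2 1 1152921504606846977 2305843009213693952 c45 a45_1 a45_2 q45 fun c46 a46_1 a46_2 q46 =>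
  subK c43 a43_1 a43_2 q43 c46 a46_1 a46_2 q46 fun c48 a48_1 a48_2 q48 =>
  reluK c48 a48_1 a48_2 q48 fun c49 a49_1 a49_2 q49 =>
  subK c43 a43_1 a43_2 q43 c49 a49_1 a49_2 q49 fun c50 a50_1 a50_2 q50 =>
  subK c50 a50_1 a50_2 q50 1152926891114311451 1152921504606846976 1152921504606846976 1 fun c53 a53_1 a53_2 q53 =>
  reluK c53 a53_1 a53_2 q53 fun c54 a54_1 a54_2 q54 =>
  subK c50 a50_1 a50_2 q50 c54 a54_1 a54_2 q54 fun c55 a55_1 a55_2 q55 =>
  mulK c23 a23_1 a23_2 q23 c55 a55_1 a55_2 q55 fun c58 a58_1 a58_2 q58 =>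
  smulK 1 4 4611686018427387908 1152921504606846976 c58 a58_1 a58_2 q58 fun c59 a59_1 a59_2 q59 =>
  negK c39 a39_1 a39_2 q39 fun c62 a62_1 a62_2 q62 =>
  addcK c62 a62_1 a62_2 q62 1152922604118474752 0 fun c63 a63_1 a63_2 q63 =>
  mulK z1 (Nat.add w1 1152921504606846976) 1152921504606846976 0 c63 a63_1 a63_2 q63 fun c65 a65_1 a65_2 q65 =>
  mulK c65 a65_1 a65_2 q65 c45 a45_1 a45_2 q45 fun c66 a66_1 a66_2 q66 =>
  addK c59 a59_1 a59_2 q59 c66 a66_1 a66_2 q66 fun c68 a68_1 a68_2 q68 =>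
  mulK z1 (Nat.add w1 1152921504606846976) 1152921504606846976 0 c68 a68_1 a68_2 q68 fun c69 a69_1 a69_2 q69 =>
  mulK c7 a7_1 a7_2 q7 c69 a69_1 a69_2 q69 fun c71 a71_1 a71_2 q71 =>
  subK c38 a38_1 a38_2 q38 c71 a71_1 a71_2 q71 fun c72 a72_1 a72_2 q72 =>
  mulK z2 1152921504606846976 (Nat.add w2 1152921504606846976) 0 c14 a14_1 a14_2 q14 fun c73 a73_1 a73_2 q73 =>
  smulK 2139 1000 1152921504606846977000 2466099098354045681664 z1 (Nat.add w1 1152921504606846976) 1152921504606846976 0 fun c74 a74_1 a74_2 q74 =>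
  addcK c74 a74_1 a74_2 q74 1152922519456079413 1 fun c75 a75_1 a75_2 q75 =>
  smulK 2 1 1152921504606846977 2305843009213693952 c75 a75_1 a75_2 q75 fun c78 a78_1 a78_2 q78 =>
  logK z2 1152921504606846976 (Nat.add w2 1152921504606846976) 0 fun c79 a79_1 a79_2 q79 =>
  mulK c78 a78_1 a78_2 q78 c79 a79_1 a79_2 q79 fun c80 a80_1 a80_2 q80 =>
  negK c80 a80_1 a80_2 q80 fun c81 a81_1 a81_2 q81 =>
  smulK 1891 500 576460752303423488500 2180174565211547631616 z1 (Nat.add w1 1152921504606846976) 1152921504606846976 0 fun c82 a82_1 a82_2 q82 =>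
  addcK c82 a82_1 a82_2 q82 1152920964746637738 1 fun c83 a83_1 a83_2 q83 =>
  smulK 6013 1000 1152921504606846977000 6932517007200970866688 z1 (Nat.add w1 1152921504606846976) 1152921504606846976 0 fun c86 a86_1 a86_2 q86 =>
  negK c86 a86_1 a86_2 q86 fun c87 a87_1 a87_2 q87 =>
  addcK c87 a87_1 a87_2 q87 1152924216002521072 1 fun c88 a88_1 a88_2 q88 =>
  smulK 5303 1000 1152921504606846977000 6113942738930109513728 z1 (Nat.add w1 1152921504606846976) 1152921504606846976 0 fun c91 a91_1 a91_2 q91 =>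
  addcK c91 a91_1 a91_2 q91 1152919276996289102 1 fun c92 a92_1 a92_2 q92 =>
  mulK c39 a39_1 a39_2 q39 c92 a92_1 a92_2 q92 fun c95 a95_1 a95_2 q95 =>
  addK c88 a88_1 a88_2 q88 c95 a95_1 a95_2 q95 fun c96 a96_1 a96_2 q96 =>
  mulK c39 a39_1 a39_2 q39 c96 a96_1 a96_2 q96 fun c97 a97_1 a97_2 q97 =>
  addK c83 a83_1 a83_2 q83 c97 a97_1 a97_2 q97 fun c98 a98_1 a98_2 q98 =>
  mulK c63 a63_1 a63_2 q63 c98 a98_1 a98_2 q98 fun c99 a99_1 a99_2 q99 =>
  subK c81 a81_1 a81_2 q81 c99 a99_1 a99_2 q99 fun c100 a100_1 a100_2 q100 =>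
  mulK z1 (Nat.add w1 1152921504606846976) 1152921504606846976 0 c100 a100_1 a100_2 q100 fun c102 a102_1 a102_2 q102 =>
  mulK c73 a73_1 a73_2 q73 c102 a102_1 a102_2 q102 fun c103 a103_1 a103_2 q103 =>
  subK c72 a72_1 a72_2 q72 c103 a103_1 a103_2 q103 fun c104 a104_1 a104_2 q104 =>
  mulK z2 1152921504606846976 (Nat.add w2 1152921504606846976) 0 c39 a39_1 a39_2 q39 fun c105 a105_1 a105_2 q105 =>
  mulK c105 a105_1 a105_2 q105 c19 a19_1 a19_2 q19 fun c106 a106_1 a106_2 q106 =>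
  logK c63 a63_1 a63_2 q63 fun c107 a107_1 a107_2 q107 =>
  mulK c75 a75_1 a75_2 q75 c107 a107_1 a107_2 q107 fun c108 a108_1 a108_2 q108 =>
  negK c108 a108_1 a108_2 q108 fun c109 a109_1 a109_2 q109 =>
  mulK c63 a63_1 a63_2 q63 c92 a92_1 a92_2 q92 fun c110 a110_1 a110_2 q110 =>
  addK c88 a88_1 a88_2 q88 c110 a110_1 a110_2 q110 fun c111 a111_1 a111_2 q111 =>
  mulK c63 a63_1 a63_2 q63 c111 a111_1 a111_2 q111 fun c112 a112_1 a112_2 q112 =>
  addK c83 a83_1 a83_2 q83 c112 a112_1 a112_2 q112 fun c113 a113_1 a113_2 q113 =>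
  mulK c39 a39_1 a39_2 q39 c113 a113_1 a113_2 q113 fun c114 a114_1 a114_2 q114 =>
  subK c109 a109_1 a109_2 q109 c114 a114_1 a114_2 q114 fun c115 a115_1 a115_2 q115 =>
  mulK z1 (Nat.add w1 1152921504606846976) 1152921504606846976 0 c115 a115_1 a115_2 q115 fun c117 a117_1 a117_2 q117 =>
  mulK c106 a106_1 a106_2 q106 c117 a117_1 a117_2 q117 fun c118 a118_1 a118_2 q118 =>
  subK c104 a104_1 a104_2 q104 c118 a118_1 a118_2 q118 fun c119 a119_1 a119_2 q119 =>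
  pos c119 a119_1 a119_2 q119

theorem alt2_s {z1 w1 z2 w2 : ℕ} {e1 e2 x u : ℝ} (he : Ev e1 e2)
    (hx1 : In e1 e2 z1 (Nat.add w1 1152921504606846976) 1152921504606846976 0 x)
    (hx2 : In e1 e2 z2 1152921504606846976 (Nat.add w2 1152921504606846976) 0 u)
    (H0 : alt2 z1 w1 z2 w2 = true) : 0 < (u - (547/10000:ℝ)) ∧ 0 < (fA x u) ∧ 0 < (fmu x u) ∧ 0 < (fnu x u) ∧ 0 < (((((fet x u) - (u * (fK x u))) - ((fA x u) * (fV x u))) - ((u * (fmu x u)) * (x * (fga x u)))) - (((u * (fa x u)) * (fnu x u)) * (x * (fgb x u)))) := by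
  unfold alt2 at H0
  refine addcK_s he hx2 (v' := (-547/10000:ℝ)) (by norm_num [SS, BB, abs_le]) (fun _ _ _ _ h1 H1 => ?_) H0
  have h2 := In_cast h1 (sub_c (c := (547/10000:ℝ)) (by norm_num))
  refine posK_s he h2 (fun p0 H2 => ?_) H1
  refine smulK_s he (w := (1029/1250:ℝ)) (by norm_num) (by norm_num) (by norm_num) (by norm_num) hx2 (fun _ _ _ _ h3 H3 => ?_) H2
  refine addcK_s he h3 (v' := (-3/80:ℝ)) (by norm_num [SS, BB, abs_le]) (fun _ _ _ _ h4 H4 => ?_) H3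
  have h5 := In_cast h4 (sub_c (c := (3/80:ℝ)) (by norm_num))
  refine mulK_s he hx2 h5 (fun _ _ _ _ h6 H5 => ?_) H4
  refine addcK_s he h6 (v' := (407/10000:ℝ)) (by norm_num [SS, BB, abs_le]) (fun _ _ _ _ h7 H6 => ?_) H5
  have h8 := In_cast h7 (add_comm _ _)
  have h9 := In_cast (w := (fA x u)) h8 rfl
  refine posK_s he h9 (fun p1 H7 => ?_) H6
  refine smulK_s he (w := (3031/10000:ℝ)) (by norm_num) (by norm_num) (by norm_num) (by norm_num) hx2 (fun _ _ _ _ h10 H8 => ?_) H7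
  refine addcK_s he h10 (v' := (-2/5:ℝ)) (by norm_num [SS, BB, abs_le]) (fun _ _ _ _ h11 H9 => ?_) H8
  have h12 := In_cast h11 (sub_c (c := (2/5:ℝ)) (by norm_num))
  refine mulK_s he hx2 h12 (fun _ _ _ _ h13 H10 => ?_) H9
  refine addcK_s he h13 (v' := (4113/10000:ℝ)) (by norm_num [SS, BB, abs_le]) (fun _ _ _ _ h14 H11 => ?_) H10
  have h15 := In_cast h14 (add_comm _ _)
  have h16 := In_cast (w := (fmu x u)) h15 rfl
  refine posK_s he h16 (fun p2 H12 => ?_) H11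
  refine smulK_s he (w := (6439/5000:ℝ)) (by norm_num) (by norm_num) (by norm_num) (by norm_num) hx2 (fun _ _ _ _ h17 H13 => ?_) H12
  refine negK_s he h17 (fun _ _ _ _ h18 H14 => ?_) H13
  refine addcK_s he h18 (v' := (15219/10000:ℝ)) (by norm_num [SS, BB, abs_le]) (fun _ _ _ _ h19 H15 => ?_) H14
  have h20 := In_cast h19 (neg_add_eq_sub _ _)
  have h21 := In_cast (w := (fnu x u)) h20 rfl
  refine posK_s he h21 (fun p3 H16 => ?_) H15
  refine negK_s he hx1 (fun _ _ _ _ h22 H17 => ?_) H16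
  refine addcK_s he h22 (v' := (1:ℝ)) (by norm_num [SS, BB, abs_le]) (fun _ _ _ _ h23 H18 => ?_) H17
  have h24 := In_cast h23 (neg_add_eq_sub _ _)
  refine sqrtK_s he h24 (fun _ _ _ _ h25 H19 => ?_) H18
  refine negK_s he h25 (fun _ _ _ _ h26 H20 => ?_) H19
  refine addcK_s he h26 (v' := (1:ℝ)) (by norm_num [SS, BB, abs_le]) (fun _ _ _ _ h27 H21 => ?_) H20
  have h28 := In_cast h27 (neg_add_eq_sub _ _)
  have h29 := In_cast (w := (fet x u)) h28 rfl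
  refine smulK_s he (w := (1269/10000:ℝ)) (by norm_num) (by norm_num) (by norm_num) (by norm_num) hx2 (fun _ _ _ _ h30 H22 => ?_) H21
  refine addcK_s he h30 (v' := (-353/2000:ℝ)) (by norm_num [SS, BB, abs_le]) (fun _ _ _ _ h31 H23 => ?_) H22
  have h32 := In_cast h31 (sub_c (c := (353/2000:ℝ)) (by norm_num))
  refine mulK_s he hx2 h32 (fun _ _ _ _ h33 H24 => ?_) H23
  refine addcK_s he h33 (v' := (127/2000:ℝ)) (by norm_num [SS, BB, abs_le]) (fun _ _ _ _ h34 H25 => ?_) H24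
  have h35 := In_cast h34 (add_comm _ _)
  have h36 := In_cast (w := (fK x u)) h35 rfl
  refine mulK_s he hx2 h36 (fun _ _ _ _ h37 H26 => ?_) H25
  refine subK_s he h29 h37 (fun _ _ _ _ h38 H27 => ?_) H26
  refine sqK_s he hx2 (fun _ _ _ _ h39 H28 => ?_) H27
  refine mulK_s he h39 hx2 (fun _ _ _ _ h40 H29 => ?_) H28
  have h41 := In_cast h40 (pow_sc (n := 3) rfl)
  refine invK_s he h41 (fun _ _ _ _ h42 H30 => ?_) H29
  refine smulK_s he (w := (4/5:ℝ)) (by norm_num) (by norm_num) (by norm_num) (by norm_num) h42 (fun _ _ _ _ h43 H31 => ?_) H30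
  have h44 := In_cast h43 ((div_eq_mul_inv _ _).symm)
  refine invK_s he hx2 (fun _ _ _ _ h45 H32 => ?_) H31
  refine smulK_s he (w := (2:ℝ)) (by norm_num) (by norm_num) (by norm_num) (by norm_num) h45 (fun _ _ _ _ h46 H33 => ?_) H32
  have h47 := In_cast h46 ((div_eq_mul_inv _ _).symm)
  refine subK_s he h44 h47 (fun _ _ _ _ h48 H34 => ?_) H33
  refine reluK_s he h48 (fun _ _ _ _ h49 H35 => ?_) H34
  refine subK_s he h44 h49 (fun _ _ _ _ h50 H36 => ?_) H35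
  have h51 := In_cast h50 (min_rl _ _)
  have h52 := cst (e1 := e1) (e2 := e2) 1152926891114311451 1 (4899/1000:ℝ) (by norm_num [SS, BB, abs_le])
  refine subK_s he h51 h52 (fun _ _ _ _ h53 H37 => ?_) H36
  refine reluK_s he h53 (fun _ _ _ _ h54 H38 => ?_) H37
  refine subK_s he h51 h54 (fun _ _ _ _ h55 H39 => ?_) H38
  have h56 := In_cast h55 (min_rl _ _)
  have h57 := In_cast (w := (fW x u)) h56 rfl
  refine mulK_s he h24 h57 (fun _ _ _ _ h58 H40 => ?_) H39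
  refine smulK_s he (w := (1/4:ℝ)) (by norm_num) (by norm_num) (by norm_num) (by norm_num) h58 (fun _ _ _ _ h59 H41 => ?_) H40
  have h60 := In_cast h59 (div_c (c := (4:ℝ)) (by norm_num))
  have h61 := In_cast (w := (fa x u)) h39 rfl
  refine negK_s he h61 (fun _ _ _ _ h62 H42 => ?_) H41
  refine addcK_s he h62 (v' := (1:ℝ)) (by norm_num [SS, BB, abs_le]) (fun _ _ _ _ h63 H43 => ?_) H42
  have h64 := In_cast h63 (neg_add_eq_sub _ _)
  refine mulK_s he hx1 h64 (fun _ _ _ _ h65 H44 => ?_) H43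
  refine mulK_s he h65 h45 (fun _ _ _ _ h66 H45 => ?_) H44
  have h67 := In_cast h66 ((div_eq_mul_inv _ _).symm)
  refine addK_s he h60 h67 (fun _ _ _ _ h68 H46 => ?_) H45
  refine mulK_s he hx1 h68 (fun _ _ _ _ h69 H47 => ?_) H46
  have h70 := In_cast (w := (fV x u)) h69 rfl
  refine mulK_s he h9 h70 (fun _ _ _ _ h71 H48 => ?_) H47
  refine subK_s he h38 h71 (fun _ _ _ _ h72 H49 => ?_) H48
  refine mulK_s he hx2 h16 (fun _ _ _ _ h73 H50 => ?_) H49
  refine smulK_s he (w := (2139/1000:ℝ)) (by norm_num) (by norm_num) (by norm_num) (by norm_num) hx1 (fun _ _ _ _ h74 H51 => ?_) H50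
  refine addcK_s he h74 (v' := (923/1000:ℝ)) (by norm_num [SS, BB, abs_le]) (fun _ _ _ _ h75 H52 => ?_) H51
  have h76 := In_cast h75 (add_comm _ _)
  have h77 := In_cast (w := (fcc x u)) h76 rfl
  refine smulK_s he (w := (2:ℝ)) (by norm_num) (by norm_num) (by norm_num) (by norm_num) h77 (fun _ _ _ _ h78 H53 => ?_) H52
  refine logK_s he hx2 (fun _ _ _ _ h79 H54 => ?_) H53
  refine mulK_s he h78 h79 (fun _ _ _ _ h80 H55 => ?_) H54
  refine negK_s he h80 (fun _ _ _ _ h81 H56 => ?_) H55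
  refine smulK_s he (w := (1891/500:ℝ)) (by norm_num) (by norm_num) (by norm_num) (by norm_num) hx1 (fun _ _ _ _ h82 H57 => ?_) H56
  refine addcK_s he h82 (v' := (-491/1000:ℝ)) (by norm_num [SS, BB, abs_le]) (fun _ _ _ _ h83 H58 => ?_) H57
  have h84 := In_cast h83 (sub_c (c := (491/1000:ℝ)) (by norm_num))
  have h85 := In_cast (w := (fh0 x u)) h84 rfl
  refine smulK_s he (w := (6013/1000:ℝ)) (by norm_num) (by norm_num) (by norm_num) (by norm_num) hx1 (fun _ _ _ _ h86 H59 => ?_) H58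
  refine negK_s he h86 (fun _ _ _ _ h87 H60 => ?_) H59
  refine addcK_s he h87 (v' := (1233/500:ℝ)) (by norm_num [SS, BB, abs_le]) (fun _ _ _ _ h88 H61 => ?_) H60
  have h89 := In_cast h88 (neg_add_eq_sub _ _)
  have h90 := In_cast (w := (fh1 x u)) h89 rfl
  refine smulK_s he (w := (5303/1000:ℝ)) (by norm_num) (by norm_num) (by norm_num) (by norm_num) hx1 (fun _ _ _ _ h91 H62 => ?_) H61
  refine addcK_s he h91 (v' := (-1013/500:ℝ)) (by norm_num [SS, BB, abs_le]) (fun _ _ _ _ h92 H63 => ?_) H62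
  have h93 := In_cast h92 (sub_c (c := (1013/500:ℝ)) (by norm_num))
  have h94 := In_cast (w := (fh2 x u)) h93 rfl
  refine mulK_s he h61 h94 (fun _ _ _ _ h95 H64 => ?_) H63
  refine addK_s he h90 h95 (fun _ _ _ _ h96 H65 => ?_) H64
  refine mulK_s he h61 h96 (fun _ _ _ _ h97 H66 => ?_) H65
  refine addK_s he h85 h97 (fun _ _ _ _ h98 H67 => ?_) H66
  refine mulK_s he h64 h98 (fun _ _ _ _ h99 H68 => ?_) H67
  refine subK_s he h81 h99 (fun _ _ _ _ h100 H69 => ?_) H68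
  have h101 := In_cast (w := (fga x u)) h100 rfl
  refine mulK_s he hx1 h101 (fun _ _ _ _ h102 H70 => ?_) H69
  refine mulK_s he h73 h102 (fun _ _ _ _ h103 H71 => ?_) H70
  refine subK_s he h72 h103 (fun _ _ _ _ h104 H72 => ?_) H71
  refine mulK_s he hx2 h61 (fun _ _ _ _ h105 H73 => ?_) H72
  refine mulK_s he h105 h21 (fun _ _ _ _ h106 H74 => ?_) H73
  refine logK_s he h64 (fun _ _ _ _ h107 H75 => ?_) H74
  refine mulK_s he h77 h107 (fun _ _ _ _ h108 H76 => ?_) H75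
  refine negK_s he h108 (fun _ _ _ _ h109 H77 => ?_) H76
  refine mulK_s he h64 h94 (fun _ _ _ _ h110 H78 => ?_) H77
  refine addK_s he h90 h110 (fun _ _ _ _ h111 H79 => ?_) H78
  refine mulK_s he h64 h111 (fun _ _ _ _ h112 H80 => ?_) H79
  refine addK_s he h85 h112 (fun _ _ _ _ h113 H81 => ?_) H80
  refine mulK_s he h61 h113 (fun _ _ _ _ h114 H82 => ?_) H81
  refine subK_s he h109 h114 (fun _ _ _ _ h115 H83 => ?_) H82
  have h116 := In_cast (w := (fgb x u)) h115 rfl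
  refine mulK_s he hx1 h116 (fun _ _ _ _ h117 H84 => ?_) H83
  refine mulK_s he h106 h117 (fun _ _ _ _ h118 H85 => ?_) H84
  refine subK_s he h104 h118 (fun _ _ _ _ h119 H86 => ?_) H85
  exact ⟨p0, p1, p2, p3, pos_s he h119 H86⟩

attribute [irreducible] alt0 alt1 alt2

noncomputable def leaf (j u z1 w1 z2 w2 : ℕ) : Bool :=
  sB j (alt0 z1 w1 z2 w2) fun j => sB j (alt1 z1 w1 z2 w2) fun j => alt2 z1 w1 z2 w2

theorem snd : Snd Q leaf := by
  intro j u z1 w1 z2 w2 e1 e2 he H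
  unfold leaf at H
  unfold Q
  replace H := sel H
  rcases H with H | ⟨j, H⟩
  · exact Or.inl (alt0_s he (var1 z1 w1) (var2 z2 w2) H)
  replace H := sel H
  rcases H with H | ⟨j, H⟩
  · exact Or.inr (Or.inl (alt1_s he (var1 z1 w1) (var2 z2 w2) H))
  exact Or.inr (Or.inr (alt2_s he (var1 z1 w1) (var2 z2 w2) H))

end Crest.Agent.R307.LGcF
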