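import Crest.Agent.R307.LGcF
set_option autoImplicit false
set_option maxRecDepth 100000
namespace Crest.Agent.R307.LGcF
open Crest.Agent.R307.IA Crest.Agent.R307.IA2

theorem k0 : Cov Q 1152921603562893475 1152921983554112036 1152921504606846976 1152922282181470140 :=
  cov_of snd 0 0 18 _ _ _ _ 0x44044004404400144044014404440010044401444010440440144044010144044004404440100440440144041444014401001014404400440401440440441004404440001044044014414404401001144044014414404440110044040440401444400044441001014414400440444044010004404401441044044440104440410100144040440144044400441100440440144044044010011114404401440440410044041440440101444004440014440044400111444004440014440044400114404400440441014404401440440111114414411441441114414414411122222421212100000441441122441210010144144401144144114414411144144114414411101014414411444014404401114404411441441114414411441441114414411441441110110224412121044144411144144110222242121210000441441122421210010102121044144044111444014404411104414411441441104414411441441101133031330333003100330112302110111 (by decide +kernel)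

end Crest.Agent.R307.LGcF
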