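import Crest.Agent.R307.LGcFC0
set_option autoImplicit false
set_option maxRecDepth 100000
namespace Crest.Agent.R307.LGcF
open Crest.Agent.R307.IA Crest.Agent.R307.IA2

theorem cov : Cov Q 1152921603562893475 1152921983554112036 1152921504606846976 1152922282181470140 :=
  k0

theorem main (x u : ℝ) (l0 : (9/100:ℝ) ≤ x) (u0 : x ≤ (1089/2500:ℝ)) (l1 : (0:ℝ) ≤ u) (u1 : u ≤ (442/625:ℝ)) : Q x u :=
  cov x u (le_trans (by norm_num [val, SS, BB]) l0) (le_trans u0 (by norm_num [val, SS, BB])) (le_trans (by norm_num [val, SS, BB]) l1) (le_trans u1 (by norm_num [val, SS, BB]))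

end Crest.Agent.R307.LGcF
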