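import Crest.Agent.R307.IAl2
import Crest.Agent.R307.IAx
set_option autoImplicit false
set_option linter.unusedVariables false
set_option maxRecDepth 20000
namespace Crest.Agent.R307.LGcP
open Crest.Agent.R307.IA Crest.Agent.R307.IA2

theorem In_cast {e1 e2 : ℝ} {x y1 y2 r : ℕ} {v w : ℝ}
    (h : In e1 e2 x y1 y2 r v) (e : v = w) : In e1 e2 x y1 y2 r w := e ▸ h

noncomputable def fK (u y : ℝ) : ℝ := ((127/2000:ℝ) + (u * (((1269/10000:ℝ) * u) - (353/2000:ℝ))))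
noncomputable def fl (u y : ℝ) : ℝ := ((17/1250:ℝ) + (u * (((1497/10000:ℝ) * u) - (261/2000:ℝ))))
noncomputable def fw (u y : ℝ) : ℝ := ((y ^ 2) - (1:ℝ))
noncomputable def fA (u y : ℝ) : ℝ := ((407/10000:ℝ) + (u * (((1029/1250:ℝ) * u) - (3/80:ℝ))))
noncomputable def fmu (u y : ℝ) : ℝ := ((4113/10000:ℝ) + (u * (((3031/10000:ℝ) * u) - (2/5:ℝ))))
noncomputable def fa (u y : ℝ) : ℝ := (u ^ 2)
noncomputable def fnu (u y : ℝ) : ℝ := ((15219/10000:ℝ) - ((6439/5000:ℝ) * u))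
noncomputable def fz (u y : ℝ) : ℝ := (((fa u y) * (fw u y)) / ((1:ℝ) - (fa u y)))
noncomputable def fr (u y : ℝ) : ℝ := (√((1:ℝ) - (fa u y)))

def Q (u y : ℝ) : Prop :=
  (
  (0 < ((10000:ℝ) * ((u * y) - (1:ℝ)))) ∨
  (0 < ((((((fK u y) + ((fl u y) * (fw u y))) + ((fA u y) * ((fw u y) ^ 2))) + ((fmu u y) * ((fw u y) - ((2:ℝ) * (Real.log (max y (1/50:ℝ))))))) - (((fa u y) * (fnu u y)) * ((fz u y) + (Real.log (max ((1:ℝ) - (fz u y)) (1/1000:ℝ)))))) - ((((2:ℝ) * (fr u y)) + ((((1:ℝ) - ((2:ℝ) * (fa u y))) * (fw u y)) / (fr u y))) - (((2:ℝ) * y) * (√((1:ℝ) - ((fa u y) * (y ^ 2)))))))))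

noncomputable def alt0 (z1 w1 z2 w2 : ℕ) : Bool :=
  mulK z1 (Nat.add w1 1152921504606846976) 1152921504606846976 0 z2 1152921504606846976 (Nat.add w2 1152921504606846976) 0 fun c1 a1_1 a1_2 q1 =>
  addcK c1 a1_1 a1_2 q1 1152920405095219200 0 fun c2 a2_1 a2_2 q2 =>
  smulK 10000 1 1152921504606846977 11529215046068469760000 c2 a2_1 a2_2 q2 fun c4 a4_1 a4_2 q4 =>
  pos c4 a4_1 a4_2 q4

theorem alt0_s {z1 w1 z2 w2 : ℕ} {e1 e2 u y : ℝ} (he : Ev e1 e2)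
    (hx1 : In e1 e2 z1 (Nat.add w1 1152921504606846976) 1152921504606846976 0 u)
    (hx2 : In e1 e2 z2 1152921504606846976 (Nat.add w2 1152921504606846976) 0 y)
    (H0 : alt0 z1 w1 z2 w2 = true) : 0 < ((10000:ℝ) * ((u * y) - (1:ℝ))) := by
  unfold alt0 at H0
  refine mulK_s he hx1 hx2 (fun _ _ _ _ h1 H1 => ?_) H0
  refine addcK_s he h1 (v' := (-1:ℝ)) (by norm_num [SS, BB, abs_le]) (fun _ _ _ _ h2 H2 => ?_) H1
  have h3 := In_cast h2 (sub_c (c := (1:ℝ)) (by norm_num))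
  refine smulK_s he (w := (10000:ℝ)) (by norm_num) (by norm_num) (by norm_num) (by norm_num) h3 (fun _ _ _ _ h4 H3 => ?_) H2
  exact pos_s he h4 H3

noncomputable def alt1 (z1 w1 z2 w2 : ℕ) : Bool :=
  smulK 1269 10000 11529215046068469770000 1463057389346088812544 z1 (Nat.add w1 1152921504606846976) 1152921504606846976 0 fun c1 a1_1 a1_2 q1 =>
  addcK c1 a1_1 a1_2 q1 1152921310543044674 1 fun c2 a2_1 a2_2 q2 =>
  mulK z1 (Nat.add w1 1152921504606846976) 1152921504606846976 0 c2 a2_1 a2_2 q2 fun c4 a4_1 a4_2 q4 =>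
  addcK c4 a4_1 a4_2 q4 1152921574425835340 1 fun c5 a5_1 a5_2 q5 =>
  smulK 1497 10000 11529215046068469770000 1725923492396449923072 z1 (Nat.add w1 1152921504606846976) 1152921504606846976 0 fun c8 a8_1 a8_2 q8 =>
  addcK c8 a8_1 a8_2 q8 1152921361120579551 1 fun c9 a9_1 a9_2 q9 =>
  mulK z1 (Nat.add w1 1152921504606846976) 1152921504606846976 0 c9 a9_1 a9_2 q9 fun c11 a11_1 a11_2 q11 =>
  addcK c11 a11_1 a11_2 q11 1152921519560205114 1 fun c12 a12_1 a12_2 q12 =>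
  sqK z2 1152921504606846976 (Nat.add w2 1152921504606846976) 0 fun c15 a15_1 a15_2 q15 =>
  addcK c15 a15_1 a15_2 q15 1152920405095219200 0 fun c16 a16_1 a16_2 q16 =>
  mulK c12 a12_1 a12_2 q12 c16 a16_1 a16_2 q16 fun c19 a19_1 a19_2 q19 =>
  addK c5 a5_1 a5_2 q5 c19 a19_1 a19_2 q19 fun c20 a20_1 a20_2 q20 =>
  smulK 1029 1250 1441151880758558721250 1186356228240445538304 z1 (Nat.add w1 1152921504606846976) 1152921504606846976 0 fun c21 a21_1 a21_2 q21 =>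
  addcK c21 a21_1 a21_2 q21 1152921463375160934 1 fun c22 a22_1 a22_2 q22 =>
  mulK z1 (Nat.add w1 1152921504606846976) 1152921504606846976 0 c22 a22_1 a22_2 q22 fun c24 a24_1 a24_2 q24 =>
  addcK c24 a24_1 a24_2 q24 1152921549356970226 1 fun c25 a25_1 a25_2 q25 =>
  sqK c16 a16_1 a16_2 q16 fun c28 a28_1 a28_2 q28 =>
  mulK c25 a25_1 a25_2 q25 c28 a28_1 a28_2 q28 fun c29 a29_1 a29_2 q29 =>
  addK c20 a20_1 a20_2 q20 c29 a29_1 a29_2 q29 fun c30 a30_1 a30_2 q30 =>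
  smulK 3031 10000 11529215046068469770000 3494505080463353184256 z1 (Nat.add w1 1152921504606846976) 1152921504606846976 0 fun c31 a31_1 a31_2 q31 =>
  addcK c31 a31_1 a31_2 q31 1152921064802195866 1 fun c32 a32_1 a32_2 q32 =>
  mulK z1 (Nat.add w1 1152921504606846976) 1152921504606846976 0 c32 a32_1 a32_2 q32 fun c34 a34_1 a34_2 q34 =>
  addcK c34 a34_1 a34_2 q34 1152921956835979480 1 fun c35 a35_1 a35_2 q35 =>
  subK 1152921526597079532 1152921504606846976 1152921504606846976 1 z2 1152921504606846976 (Nat.add w2 1152921504606846976) 0 fun c39 a39_1 a39_2 q39 =>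
  reluK c39 a39_1 a39_2 q39 fun c40 a40_1 a40_2 q40 =>
  addK z2 1152921504606846976 (Nat.add w2 1152921504606846976) 0 c40 a40_1 a40_2 q40 fun c41 a41_1 a41_2 q41 =>
  logK c41 a41_1 a41_2 q41 fun c43 a43_1 a43_2 q43 =>
  smulK 2 1 1152921504606846977 2305843009213693952 c43 a43_1 a43_2 q43 fun c44 a44_1 a44_2 q44 =>
  subK c16 a16_1 a16_2 q16 c44 a44_1 a44_2 q44 fun c45 a45_1 a45_2 q45 =>
  mulK c35 a35_1 a35_2 q35 c45 a45_1 a45_2 q45 fun c46 a46_1 a46_2 q46 =>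
  addK c30 a30_1 a30_2 q30 c46 a46_1 a46_2 q46 fun c47 a47_1 a47_2 q47 =>
  sqK z1 (Nat.add w1 1152921504606846976) 1152921504606846976 0 fun c48 a48_1 a48_2 q48 =>
  smulK 6439 5000 5764607523034234885000 7423661568163487678464 z1 (Nat.add w1 1152921504606846976) 1152921504606846976 0 fun c50 a50_1 a50_2 q50 =>
  negK c50 a50_1 a50_2 q50 fun c51 a51_1 a51_2 q51 =>
  addcK c51 a51_1 a51_2 q51 1152923177953593288 1 fun c52 a52_1 a52_2 q52 =>
  mulK c48 a48_1 a48_2 q48 c52 a52_1 a52_2 q52 fun c55 a55_1 a55_2 q55 =>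
  negK c48 a48_1 a48_2 q48 fun c56 a56_1 a56_2 q56 =>
  addcK c56 a56_1 a56_2 q56 1152922604118474752 0 fun c57 a57_1 a57_2 q57 =>
  invK c57 a57_1 a57_2 q57 fun c59 a59_1 a59_2 q59 =>
  mulK c48 a48_1 a48_2 q48 c16 a16_1 a16_2 q16 fun c60 a60_1 a60_2 q60 =>
  mulK c60 a60_1 a60_2 q60 c59 a59_1 a59_2 q59 fun c61 a61_1 a61_2 q61 =>
  negK c61 a61_1 a61_2 q61 fun c64 a64_1 a64_2 q64 =>
  addcK c64 a64_1 a64_2 q64 1152922604118474752 0 fun c65 a65_1 a65_2 q65 =>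
  subK 1152921505706358604 1152921504606846976 1152921504606846976 1 c65 a65_1 a65_2 q65 fun c68 a68_1 a68_2 q68 =>
  reluK c68 a68_1 a68_2 q68 fun c69 a69_1 a69_2 q69 =>
  addK c65 a65_1 a65_2 q65 c69 a69_1 a69_2 q69 fun c70 a70_1 a70_2 q70 =>
  logK c70 a70_1 a70_2 q70 fun c72 a72_1 a72_2 q72 =>
  addK c61 a61_1 a61_2 q61 c72 a72_1 a72_2 q72 fun c73 a73_1 a73_2 q73 =>
  mulK c55 a55_1 a55_2 q55 c73 a73_1 a73_2 q73 fun c74 a74_1 a74_2 q74 =>
  subK c47 a47_1 a47_2 q47 c74 a74_1 a74_2 q74 fun c75 a75_1 a75_2 q75 =>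
  sqrtK c57 a57_1 a57_2 q57 fun c76 a76_1 a76_2 q76 =>
  smulK 2 1 1152921504606846977 2305843009213693952 c76 a76_1 a76_2 q76 fun c78 a78_1 a78_2 q78 =>
  invK c76 a76_1 a76_2 q76 fun c79 a79_1 a79_2 q79 =>
  smulK 2 1 1152921504606846977 2305843009213693952 c48 a48_1 a48_2 q48 fun c80 a80_1 a80_2 q80 =>
  negK c80 a80_1 a80_2 q80 fun c81 a81_1 a81_2 q81 =>
  addcK c81 a81_1 a81_2 q81 1152922604118474752 0 fun c82 a82_1 a82_2 q82 =>
  mulK c82 a82_1 a82_2 q82 c16 a16_1 a16_2 q16 fun c84 a84_1 a84_2 q84 =>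
  mulK c84 a84_1 a84_2 q84 c79 a79_1 a79_2 q79 fun c85 a85_1 a85_2 q85 =>
  addK c78 a78_1 a78_2 q78 c85 a85_1 a85_2 q85 fun c87 a87_1 a87_2 q87 =>
  smulK 2 1 1152921504606846977 2305843009213693952 z2 1152921504606846976 (Nat.add w2 1152921504606846976) 0 fun c88 a88_1 a88_2 q88 =>
  mulK c48 a48_1 a48_2 q48 c15 a15_1 a15_2 q15 fun c89 a89_1 a89_2 q89 =>
  negK c89 a89_1 a89_2 q89 fun c90 a90_1 a90_2 q90 =>
  addcK c90 a90_1 a90_2 q90 1152922604118474752 0 fun c91 a91_1 a91_2 q91 =>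
  sqrtK c91 a91_1 a91_2 q91 fun c93 a93_1 a93_2 q93 =>
  mulK c88 a88_1 a88_2 q88 c93 a93_1 a93_2 q93 fun c94 a94_1 a94_2 q94 =>
  subK c87 a87_1 a87_2 q87 c94 a94_1 a94_2 q94 fun c95 a95_1 a95_2 q95 =>
  subK c75 a75_1 a75_2 q75 c95 a95_1 a95_2 q95 fun c96 a96_1 a96_2 q96 =>
  pos c96 a96_1 a96_2 q96

theorem alt1_s {z1 w1 z2 w2 : ℕ} {e1 e2 u y : ℝ} (he : Ev e1 e2)
    (hx1 : In e1 e2 z1 (Nat.add w1 1152921504606846976) 1152921504606846976 0 u)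
    (hx2 : In e1 e2 z2 1152921504606846976 (Nat.add w2 1152921504606846976) 0 y)
    (H0 : alt1 z1 w1 z2 w2 = true) : 0 < ((((((fK u y) + ((fl u y) * (fw u y))) + ((fA u y) * ((fw u y) ^ 2))) + ((fmu u y) * ((fw u y) - ((2:ℝ) * (Real.log (max y (1/50:ℝ))))))) - (((fa u y) * (fnu u y)) * ((fz u y) + (Real.log (max ((1:ℝ) - (fz u y)) (1/1000:ℝ)))))) - ((((2:ℝ) * (fr u y)) + ((((1:ℝ) - ((2:ℝ) * (fa u y))) * (fw u y)) / (fr u y))) - (((2:ℝ) * y) * (√((1:ℝ) - ((fa u y) * (y ^ 2))))))) := by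
  unfold alt1 at H0
  refine smulK_s he (w := (1269/10000:ℝ)) (by norm_num) (by norm_num) (by norm_num) (by norm_num) hx1 (fun _ _ _ _ h1 H1 => ?_) H0
  refine addcK_s he h1 (v' := (-353/2000:ℝ)) (by norm_num [SS, BB, abs_le]) (fun _ _ _ _ h2 H2 => ?_) H1
  have h3 := In_cast h2 (sub_c (c := (353/2000:ℝ)) (by norm_num))
  refine mulK_s he hx1 h3 (fun _ _ _ _ h4 H3 => ?_) H2
  refine addcK_s he h4 (v' := (127/2000:ℝ)) (by norm_num [SS, BB, abs_le]) (fun _ _ _ _ h5 H4 => ?_) H3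
  have h6 := In_cast h5 (add_comm _ _)
  have h7 := In_cast (w := (fK u y)) h6 rfl
  refine smulK_s he (w := (1497/10000:ℝ)) (by norm_num) (by norm_num) (by norm_num) (by norm_num) hx1 (fun _ _ _ _ h8 H5 => ?_) H4
  refine addcK_s he h8 (v' := (-261/2000:ℝ)) (by norm_num [SS, BB, abs_le]) (fun _ _ _ _ h9 H6 => ?_) H5
  have h10 := In_cast h9 (sub_c (c := (261/2000:ℝ)) (by norm_num))
  refine mulK_s he hx1 h10 (fun _ _ _ _ h11 H7 => ?_) H6
  refine addcK_s he h11 (v' := (17/1250:ℝ)) (by norm_num [SS, BB, abs_le]) (fun _ _ _ _ h12 H8 => ?_) H7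
  have h13 := In_cast h12 (add_comm _ _)
  have h14 := In_cast (w := (fl u y)) h13 rfl
  refine sqK_s he hx2 (fun _ _ _ _ h15 H9 => ?_) H8
  refine addcK_s he h15 (v' := (-1:ℝ)) (by norm_num [SS, BB, abs_le]) (fun _ _ _ _ h16 H10 => ?_) H9
  have h17 := In_cast h16 (sub_c (c := (1:ℝ)) (by norm_num))
  have h18 := In_cast (w := (fw u y)) h17 rfl
  refine mulK_s he h14 h18 (fun _ _ _ _ h19 H11 => ?_) H10
  refine addK_s he h7 h19 (fun _ _ _ _ h20 H12 => ?_) H11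
  refine smulK_s he (w := (1029/1250:ℝ)) (by norm_num) (by norm_num) (by norm_num) (by norm_num) hx1 (fun _ _ _ _ h21 H13 => ?_) H12
  refine addcK_s he h21 (v' := (-3/80:ℝ)) (by norm_num [SS, BB, abs_le]) (fun _ _ _ _ h22 H14 => ?_) H13
  have h23 := In_cast h22 (sub_c (c := (3/80:ℝ)) (by norm_num))
  refine mulK_s he hx1 h23 (fun _ _ _ _ h24 H15 => ?_) H14
  refine addcK_s he h24 (v' := (407/10000:ℝ)) (by norm_num [SS, BB, abs_le]) (fun _ _ _ _ h25 H16 => ?_) H15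
  have h26 := In_cast h25 (add_comm _ _)
  have h27 := In_cast (w := (fA u y)) h26 rfl
  refine sqK_s he h18 (fun _ _ _ _ h28 H17 => ?_) H16
  refine mulK_s he h27 h28 (fun _ _ _ _ h29 H18 => ?_) H17
  refine addK_s he h20 h29 (fun _ _ _ _ h30 H19 => ?_) H18
  refine smulK_s he (w := (3031/10000:ℝ)) (by norm_num) (by norm_num) (by norm_num) (by norm_num) hx1 (fun _ _ _ _ h31 H20 => ?_) H19
  refine addcK_s he h31 (v' := (-2/5:ℝ)) (by norm_num [SS, BB, abs_le]) (fun _ _ _ _ h32 H21 => ?_) H20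
  have h33 := In_cast h32 (sub_c (c := (2/5:ℝ)) (by norm_num))
  refine mulK_s he hx1 h33 (fun _ _ _ _ h34 H22 => ?_) H21
  refine addcK_s he h34 (v' := (4113/10000:ℝ)) (by norm_num [SS, BB, abs_le]) (fun _ _ _ _ h35 H23 => ?_) H22
  have h36 := In_cast h35 (add_comm _ _)
  have h37 := In_cast (w := (fmu u y)) h36 rfl
  have h38 := cst (e1 := e1) (e2 := e2) 1152921526597079532 1 (1/50:ℝ) (by norm_num [SS, BB, abs_le])
  refine subK_s he h38 hx2 (fun _ _ _ _ h39 H24 => ?_) H23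
  refine reluK_s he h39 (fun _ _ _ _ h40 H25 => ?_) H24
  refine addK_s he hx2 h40 (fun _ _ _ _ h41 H26 => ?_) H25
  have h42 := In_cast h41 (max_rl _ _)
  refine logK_s he h42 (fun _ _ _ _ h43 H27 => ?_) H26
  refine smulK_s he (w := (2:ℝ)) (by norm_num) (by norm_num) (by norm_num) (by norm_num) h43 (fun _ _ _ _ h44 H28 => ?_) H27
  refine subK_s he h18 h44 (fun _ _ _ _ h45 H29 => ?_) H28
  refine mulK_s he h37 h45 (fun _ _ _ _ h46 H30 => ?_) H29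
  refine addK_s he h30 h46 (fun _ _ _ _ h47 H31 => ?_) H30
  refine sqK_s he hx1 (fun _ _ _ _ h48 H32 => ?_) H31
  have h49 := In_cast (w := (fa u y)) h48 rfl
  refine smulK_s he (w := (6439/5000:ℝ)) (by norm_num) (by norm_num) (by norm_num) (by norm_num) hx1 (fun _ _ _ _ h50 H33 => ?_) H32
  refine negK_s he h50 (fun _ _ _ _ h51 H34 => ?_) H33
  refine addcK_s he h51 (v' := (15219/10000:ℝ)) (by norm_num [SS, BB, abs_le]) (fun _ _ _ _ h52 H35 => ?_) H34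
  have h53 := In_cast h52 (neg_add_eq_sub _ _)
  have h54 := In_cast (w := (fnu u y)) h53 rfl
  refine mulK_s he h49 h54 (fun _ _ _ _ h55 H36 => ?_) H35
  refine negK_s he h49 (fun _ _ _ _ h56 H37 => ?_) H36
  refine addcK_s he h56 (v' := (1:ℝ)) (by norm_num [SS, BB, abs_le]) (fun _ _ _ _ h57 H38 => ?_) H37
  have h58 := In_cast h57 (neg_add_eq_sub _ _)
  refine invK_s he h58 (fun _ _ _ _ h59 H39 => ?_) H38
  refine mulK_s he h49 h18 (fun _ _ _ _ h60 H40 => ?_) H39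
  refine mulK_s he h60 h59 (fun _ _ _ _ h61 H41 => ?_) H40
  have h62 := In_cast h61 ((div_eq_mul_inv _ _).symm)
  have h63 := In_cast (w := (fz u y)) h62 rfl
  refine negK_s he h63 (fun _ _ _ _ h64 H42 => ?_) H41
  refine addcK_s he h64 (v' := (1:ℝ)) (by norm_num [SS, BB, abs_le]) (fun _ _ _ _ h65 H43 => ?_) H42
  have h66 := In_cast h65 (neg_add_eq_sub _ _)
  have h67 := cst (e1 := e1) (e2 := e2) 1152921505706358604 1 (1/1000:ℝ) (by norm_num [SS, BB, abs_le])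
  refine subK_s he h67 h66 (fun _ _ _ _ h68 H44 => ?_) H43
  refine reluK_s he h68 (fun _ _ _ _ h69 H45 => ?_) H44
  refine addK_s he h66 h69 (fun _ _ _ _ h70 H46 => ?_) H45
  have h71 := In_cast h70 (max_rl _ _)
  refine logK_s he h71 (fun _ _ _ _ h72 H47 => ?_) H46
  refine addK_s he h63 h72 (fun _ _ _ _ h73 H48 => ?_) H47
  refine mulK_s he h55 h73 (fun _ _ _ _ h74 H49 => ?_) H48
  refine subK_s he h47 h74 (fun _ _ _ _ h75 H50 => ?_) H49
  refine sqrtK_s he h58 (fun _ _ _ _ h76 H51 => ?_) H50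
  have h77 := In_cast (w := (fr u y)) h76 rfl
  refine smulK_s he (w := (2:ℝ)) (by norm_num) (by norm_num) (by norm_num) (by norm_num) h77 (fun _ _ _ _ h78 H52 => ?_) H51
  refine invK_s he h77 (fun _ _ _ _ h79 H53 => ?_) H52
  refine smulK_s he (w := (2:ℝ)) (by norm_num) (by norm_num) (by norm_num) (by norm_num) h49 (fun _ _ _ _ h80 H54 => ?_) H53
  refine negK_s he h80 (fun _ _ _ _ h81 H55 => ?_) H54
  refine addcK_s he h81 (v' := (1:ℝ)) (by norm_num [SS, BB, abs_le]) (fun _ _ _ _ h82 H56 => ?_) H55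
  have h83 := In_cast h82 (neg_add_eq_sub _ _)
  refine mulK_s he h83 h18 (fun _ _ _ _ h84 H57 => ?_) H56
  refine mulK_s he h84 h79 (fun _ _ _ _ h85 H58 => ?_) H57
  have h86 := In_cast h85 ((div_eq_mul_inv _ _).symm)
  refine addK_s he h78 h86 (fun _ _ _ _ h87 H59 => ?_) H58
  refine smulK_s he (w := (2:ℝ)) (by norm_num) (by norm_num) (by norm_num) (by norm_num) hx2 (fun _ _ _ _ h88 H60 => ?_) H59
  refine mulK_s he h49 h15 (fun _ _ _ _ h89 H61 => ?_) H60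
  refine negK_s he h89 (fun _ _ _ _ h90 H62 => ?_) H61
  refine addcK_s he h90 (v' := (1:ℝ)) (by norm_num [SS, BB, abs_le]) (fun _ _ _ _ h91 H63 => ?_) H62
  have h92 := In_cast h91 (neg_add_eq_sub _ _)
  refine sqrtK_s he h92 (fun _ _ _ _ h93 H64 => ?_) H63
  refine mulK_s he h88 h93 (fun _ _ _ _ h94 H65 => ?_) H64
  refine subK_s he h87 h94 (fun _ _ _ _ h95 H66 => ?_) H65
  refine subK_s he h75 h95 (fun _ _ _ _ h96 H67 => ?_) H66
  exact pos_s he h96 H67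

attribute [irreducible] alt0 alt1

noncomputable def leaf (j u z1 w1 z2 w2 : ℕ) : Bool :=
  sB j (alt0 z1 w1 z2 w2) fun j => alt1 z1 w1 z2 w2

theorem snd : Snd Q leaf := by
  intro j u z1 w1 z2 w2 e1 e2 he H
  unfold leaf at H
  unfold Q
  replace H := sel H
  rcases H with H | ⟨j, H⟩
  · exact Or.inl (alt0_s he (var1 z1 w1) (var2 z2 w2) H)
  exact Or.inr (alt1_s he (var1 z1 w1) (var2 z2 w2) H)

end Crest.Agent.R307.LGcP
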