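import Crest.Agent.R307.LGcP
set_option autoImplicit false
set_option maxRecDepth 100000
namespace Crest.Agent.R307.LGcP
open Crest.Agent.R307.IA Crest.Agent.R307.IA2

theorem k0 : Cov Q 1152921564750133015 1152921923465802632 1152921504606846976 1152924115946964111 :=
  cov_of snd 0 0 12 _ _ _ _ 0x3303301330330330011330330133033003330133033010110333013303301033033033001330330033033101013303330013303300331333010103303310331331013303133031033133101010330331033133001331330033033001033033003303113303300330101330330033033001330330033010330313310101133033033001333003330103303303300133033030101133033013303313013330101033033103303133101330330133100331330033033001330303301013303033113310033031331033030133031011033030330133031033031330013303301033133003303301330013303301013313300330033031330013303301033031330033033011111 (by decide +kernel)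

theorem k1 : Cov Q 1152921923465802632 1152922282181470140 1152921504606846976 1152922810276905795 :=
  cov_of snd 0 0 13 _ _ _ _ 0x3303300330330013303300330330010330330033033001330330033033001013303300330330013303300330330010330330033033001330330033033001010330330033033001330330033033001033033003301330330033010133033003303300133033003303010330303301330330101013303300330330013303033030103303300330330013303301013303301330330103303301330330101033030330133033010330330133033010133033013303103313300101033033013303301033033013303301013303301330330103303133101033031331033133001330330033033001013303133103303300133033003301033030330133033010101330330033033001330303301033033013310330330101330330133103303301330330101331331033301333010101330330133031033033013300133033013330103303301330330101101330330133103303133001330330033030103303300330301330330101330330133031033031330010330330133103313300133030330101330330033033001330330103303300333013300133033030101103303303013303301033033013303301013303301330330103303301330330101033031330310330133033003301330101330330133033010330330133033010133033033001330330133033010103303301330330103303300110330330133133101330330133133001033031330310330113303311330330103303033011003303133103303103303301111 (by decide +kernel)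

theorem k2 : Cov Q 1152921923465802632 1152922102823639061 1152922810276905795 1152923463111937337 :=
  cov_of snd 0 0 10 _ _ _ _ 0x33030330130330301330330103303033030133033010133133103303301330333001010330330133033011330330133033011033033003303300133033003303300103330133103303301331013303300330330010113303301330330113303300331331010330303303013303033030113313310330330110101 (by decide +kernel)

theorem k3 : Cov Q 1152922102823639061 1152922192502558085 1152922810276905795 1152923136694422884 :=
  cov_of snd 0 0 9 _ _ _ _ 0x33033013300331330013303301033033003303300133033010133033013310330330133301010330330033033011333013303301103303301330330103303303013303301011330330033301330013303301330330103303301330330101101 (by decide +kernel)

theorem k4 : Cov Q 1152922192502558085 1152922282181470140 1152922810276905795 1152922973485665124 :=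
  cov_of snd 0 0 9 _ _ _ _ 0x330330033033001330330033033001033033003301330330033010133033003303300133030330103303301330330101033033013303301033033003303300113303301330330103303300330330011013303301330330103303301330330101331331033133101033033003303300133033030103303300330330013303300330330010110 (by decide +kernel)

theorem k5 : Cov Q 1152922192502558085 1152922237342015956 1152922973485665124 1152923136694422884 :=
  cov_of snd 0 0 9 _ _ _ _ 0x331331033133033010133033013303301033033013303301010333013303301033033013303101330330133103313310101330330133033010330313310133133003303010331330033030133033010103313310330330013303300330301033033003303013303301013303301330310330313310101 (by decide +kernel)

end Crest.Agent.R307.LGcP
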