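import Crest.Agent.R307.LGcP
set_option autoImplicit false
set_option maxRecDepth 100000
namespace Crest.Agent.R307.LGcP
open Crest.Agent.R307.IA Crest.Agent.R307.IA2

theorem k24 : Cov Q 1152921788947431183 1152921833786887238 1152925421617022850 1152926727287080401 :=
  cov_of snd 0 0 17 _ _ _ _ 0x22222222222233330010000100111122222222301223333011102333011333003301033130313010100011122232223333003303010000111122232223330000011112223233300010112323330001133330013303031133031303100333300133030310330303130130112323330001133330013303130133031303101333301033031301330313031031031002232233300001112323330001133330013303031033030313010333300133030310330303130130102223033300101333300133030310330303130103230133030133031031301301301022222333301103333011330303101001123233330033030100113333301330301013330133030130310333003303013031301023023230113330033010133300330301303103303031303130130102332303303010333013313013010132333000133330013313031013303031303103303031303130103333013303010333103313013013031301301301011 (by decide +kernel)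

theorem k25 : Cov Q 1152921833786887238 1152921923465802632 1152925421617022850 1152926727287080401 :=
  cov_of snd 0 0 1 _ _ _ _ 0x2 (by decide +kernel)

theorem k26 : Cov Q 1152921923465802632 1152922282181470140 1152924115946964111 1152926727287080401 :=
  cov_of snd 0 0 23 _ _ _ _ 0x22222222012222223233301033301330010013333303301033300330301301013333010330330130130310100123232333301330301001333303101333013301303101023233001333301133030310103233001333013303101330303130310133031303130310101232333230111133303103303130101022323330101013233301103330133031033030101333301133031033030313013031013330330103303301301303130310330330130313031303130101022232223333013303010000111222302323330001133301330310330303130101102332333010133301330310101333301330310133031303103303031303130103330330301033301330130130313010102222322333010011133333001330330301301033330133010330313013010012223333301133031010013223333011103330133031033030313010133330013330133030130133030313031031013333033030101333103303031031033301330130313013031013233330133030100122301333301133031013303130310133301330310313031033030313031303130130310122333223300011111333303301033301330301301033303103303130130102333300113333001330303103303130103330130313013013031303101010011 (by decide +kernel)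

theorem k27 : Cov Q 1152921564750133015 1152921609589594226 1152926727287080401 1152931949967312297 :=
  cov_of snd 0 0 3 _ _ _ _ 0x33311 (by decide +kernel)

theorem k28 : Cov Q 1152921609589594226 1152921654429054902 1152926727287080401 1152929338627197456 :=
  cov_of snd 0 0 2 _ _ _ _ 0x331 (by decide +kernel)

theorem k29 : Cov Q 1152921609589594226 1152921632009326058 1152929338627197456 1152931949967312297 :=
  cov_of snd 0 0 17 _ _ _ _ 0x22222222333300100111223323011133330310133301330310310103333301133301301033301330310313013303130313031010011223222230133330013303130100011123233333010330313010012323330001133331033031013303130310133301330310330301303101022323330001113333300133031301033301330310330301301033330133031013303130310330130133130313031303101032323330133031001123333011133303103303130103330130313010132333301001233301033301330310133031303101333013303103130310310333300133031301330303103130313013010222232333000111333230113330133101033301330310331301301001322333300113330133031031001333330103303301301033301330310313013303130313031013323011333013300133031303103130310132333300113330133031033130101332301133301330013303130310310330313031303130130310313012303330133031013303130310313031303130313031031 (by decide +kernel)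

end Crest.Agent.R307.LGcP
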