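import Crest.Agent.R307.LGcP
set_option autoImplicit false
set_option maxRecDepth 100000
namespace Crest.Agent.R307.LGcP
open Crest.Agent.R307.IA Crest.Agent.R307.IA2

theorem k36 : Cov Q 1152921699268514205 1152921744107971352 1152927380122113029 1152928032957139864 :=
  cov_of snd 0 0 17 _ _ _ _ 0x2222201122222232232233000100101111122022232301330330310112330133033130103313031301002323013303303101023300333013303101330313031013303130313031011222330133033130101233301133301331301033130313010122333011333013313010123330113330133130103313031301033130313031301033130313031303130101322233301133301331301012333011333013301033030313010133333011333013101333301133310310310330303130101333330331013313310310133313300133130310310123230113331301331303101333013313013313031031031031033130313031303130313010100 (by decide +kernel)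

theorem k37 : Cov Q 1152921699268514205 1152921744107971352 1152928032957139864 1152929338627197456 :=
  cov_of snd 0 0 1 _ _ _ _ 0x2 (by decide +kernel)

theorem k38 : Cov Q 1152921654429054902 1152921744107971352 1152929338627197456 1152931949967312297 :=
  cov_of snd 0 0 20 _ _ _ _ 0x222222222223332330011133330103303031010323330101333300133030310133030313031010012302232233300001112233233001111333300330301033300313010333301133030310330303130130101332333000123033030133031010333301330301033301330301301301330303130313031031010001011 (by decide +kernel)

theorem k39 : Cov Q 1152921744107971352 1152921923465802632 1152926727287080401 1152931949967312297 :=
  cov_of snd 0 0 5 _ _ _ _ 0x222220011 (by decide +kernel)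

theorem k40 : Cov Q 1152921923465802632 1152922282181470140 1152926727287080401 1152931949967312297 :=
  cov_of snd 0 0 1 _ _ _ _ 0x2 (by decide +kernel)

theorem k41 : Cov Q 1152921564750133015 1152921587169866755 1152931949967312297 1152937172647545641 :=
  cov_of snd 0 0 19 _ _ _ _ 0x22232233233001113333011330303101033330300133301330301301330303130310100112322233230111133330133030103330033013010011223323300113333011330303101013333300330301013330133030130310330303130313010323330001333013303013310133030313031031301023223330000113333301330301013303303013303103101333301133030310330303130130310333003130313031301301023223333013303010001122223300113333013303010333003303013010123323300111333300133030310133300313031033031303130101232333010112333011333003301033030313010333030133030310313013031033330113303031033030313013031303130130130313031 (by decide +kernel)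

end Crest.Agent.R307.LGcP
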