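import Crest.Agent.R307.LGcP
set_option autoImplicit false
set_option maxRecDepth 100000
namespace Crest.Agent.R307.LGcP
open Crest.Agent.R307.IA Crest.Agent.R307.IA2

theorem k48 : Cov Q 1152921609589594226 1152921654429054902 1152931949967312297 1152942395327774720 :=
  cov_of snd 0 0 21 _ _ _ _ 0x22222202222230223322300111123033303103303130103303303103303130130101001222223323300113330133031010103333303301033031301013333001333013013031010123322333000011123233303100113333033010133301303103303301303130101232330011333013303103303130103330133003130130310333300330310133031303103303130313013031301010222232233303301000111230332330013330130103330330103303130130102332330011133301330310330313010333013031301301010222233322300111123333001133301330310310100132323333010011233230111333031033031301033301330310313010132331330310013333300113330130133031303101330330130313031031012333330013330130101333301330310133031303103303130313010333031033031301303130130310122332233000111233330011333013303103101032333031001333310330310133031303101333013031303101330330310330313013031303103303130313031303130130310101011 (by decide +kernel)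

theorem k49 : Cov Q 1152921654429054902 1152921744107971352 1152931949967312297 1152942395327774720 :=
  cov_of snd 0 0 2 _ _ _ _ 0x220 (by decide +kernel)

theorem k50 : Cov Q 1152921744107971352 1152921923465802632 1152931949967312297 1152942395327774720 :=
  cov_of snd 0 0 1 _ _ _ _ 0x2 (by decide +kernel)

theorem k51 : Cov Q 1152921923465802632 1152922282181470140 1152931949967312297 1152942395327774720 :=
  cov_of snd 0 0 1 _ _ _ _ 0x2 (by decide +kernel)

end Crest.Agent.R307.LGcP
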