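import Crest.Agent.R307.LGcPC0
import Crest.Agent.R307.LGcPC1
import Crest.Agent.R307.LGcPC2
import Crest.Agent.R307.LGcPC3
import Crest.Agent.R307.LGcPC4
import Crest.Agent.R307.LGcPC5
import Crest.Agent.R307.LGcPC6
import Crest.Agent.R307.LGcPC7
import Crest.Agent.R307.LGcPC8
set_option autoImplicit false
set_option maxRecDepth 100000
namespace Crest.Agent.R307.LGcP
open Crest.Agent.R307.IA Crest.Agent.R307.IA2

theorem cov : Cov Q 1152921564750133015 1152922282181470140 1152921504606846976 1152942395327774720 :=
  (join2 1152931949967312297 (join2 1152926727287080401 (join2 1152924115946964111 (join1 1152921923465802632 k0 (join2 1152922810276905795 k1 (join2 1152923463111937337 (join1 1152922102823639061 k2 (join2 1152923136694422884 (join1 1152922192502558085 k3 (join2 1152922973485665124 k4 (join1 1152922237342015956 k5 k6))) (join1 1152922192502558085 (join2 1152923299903181961 k7 (join1 1152922147663099608 k8 k9)) (join2 1152923299903181961 (join1 1152922237342015956 k10 k11) k12)))) (join1 1152922102823639061 (join1 1152922013144722712 k13 (join2 1152923789529454174 (join1 1152922057984181111 k14 k15) k16)) k17))))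 (join1 1152921923465802632 (join1 1152921744107971352 k18 (join2 1152925421617022850 (join1 1152921833786887238 k19 (join2 1152924768781996035 k20 k21)) (join1 1152921833786887238 (join1 1152921788947431183 (join2 1152926074452054351 k22 k23) k24) k25))) k26)) (join1 1152921923465802632 (join1 1152921744107971352 (join1 1152921654429054902 (join1 1152921609589594226 k27 (join2 1152929338627197456 k28 (join1 1152921632009326058 k29 (join2 1152930644297256154 k30 k31)))) (join2 1152929338627197456 (join1 1152921699268514205 (join2 1152928032957139864 k32 (join1 1152921676848788499 k33 k34)) (join2 1152928032957139864 (join2 1152927380122113029 k35 k36) k37)) k38)) k39) k40)) (join1 1152921923465802632 (join1 1152921744107971352 (join1 1152921654429054902 (join1 1152921609589594226 (join2 1152937172647545641 (join1 1152921587169866755 k41 (join2 1152934561307430760 k42 k43)) (join1 1152921587169866755 (join1 1152921575960000361 (join2 1152939783987662655 k44 k45) k46) k47)) k48) k49) k50) k51))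

theorem main (u y : ℝ) (l0 : (547/10000:ℝ) ≤ u) (u0 : u ≤ (442/625:ℝ)) (l1 : (0:ℝ) ≤ y) (u1 : y ≤ (19:ℝ)) : Q u y :=
  cov u y (le_trans (by norm_num [val, SS, BB]) l0) (le_trans u0 (by norm_num [val, SS, BB])) (le_trans (by norm_num [val, SS, BB]) l1) (le_trans u1 (by norm_num [val, SS, BB]))

end Crest.Agent.R307.LGcP
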