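import Crest.Agent.R307.LGb
import Crest.Agent.R307.LGcAM
import Crest.Agent.R307.LGcBM

/-!
# R307/LGd: the lower bound of `E log (T 1_A)` for `0.09 ≤ ρ² ≤ 0.4356`
-/

set_option autoImplicit false

namespace Crest.Agent.R307

open Crest.CubeNoise Real

noncomputable def lgcc (x : ℝ) : ℝ := 923 / 1000 + 2139 / 1000 * x

noncomputable def lgh (x a : ℝ) : ℝ :=
  (1 - a) * ((1891 / 500 * x - 491 / 1000) + a * ((1233 / 500 - 6013 / 1000 * x) + a * (5303 / 1000 * x - 1013 / 500)))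

noncomputable def lgB (x a : ℝ) : ℝ := (1 + x * lgcc x) * log a + x * lgh x a

theorem lg_stepQ {x m θ κ τ e : ℝ} (hx0 : 0 ≤ x) (hx1 : x < 1) (hm : 0 < m) (h0 : 0 ≤ θ) (h1 : θ < 1)
    (hd : m * (1 + θ) ≤ 1) (hτ0 : 0 ≤ τ) (hτ1 : τ < 1) (hκ0 : -1 ≤ κ) (hκ1 : κ ≤ 1)
    (he : e * (1 - τ ^ 2) = 2 * (τ - κ)) (hc4 : 0 < lgc4 x τ e) (haq : 0 < lgaq x τ e) (hq : 0 < lgq x τ e)
    {D jv : ℝ} (hD : D = e - 2 * (lgX x τ * τ)) (hj : jv = x * (2 - θ - 2 * m) / (2 * m + x * (2 - θ - 2 * m)))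
    (H : 0 ≤ lgPsi x κ τ + ((1 - jv) * ((θ - τ) * (D + lgq x τ e * (θ - τ))) - jv * D ^ 2 / (4 * lgq x τ e))
      + (1 + x * lgcc x) * ((1 - κ) * log (1 - θ) + (1 + κ) * log (1 + θ))
      + x * ((1 - κ) * lgh x (m * (1 - θ)) + (1 + κ) * lgh x (m * (1 + θ)) - 2 * lgh x m)) :
    LStep x (lgB x) (m * (1 - θ)) (m * (1 + θ)) := by
  have hN : 0 ≤ 2 - θ - 2 * m := by nlinarith
  have hden : 0 < 2 * m + x * (2 - θ - 2 * m) := by positivity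
  refine Or.inr ⟨mul_pos hm (by linarith), κ, lgPsi x κ τ, D, lgq x τ e, τ,
    (D + 2 * lgq x τ e * (θ - τ)) / (2 * m + x * (2 - θ - 2 * m)), hκ0, hκ1, hq,
    fun z z0 z1 => hD ▸ lg_pt hx0 hx1 hτ0 hτ1 he hc4 haq z0 z1, ?_⟩
  generalize lgq x τ e = q at *
  have e1 : (m * (1 - θ) + m * (1 + θ)) / 2 = m := by ring
  have e2 : (D + 2 * q * (θ - τ)) / (2 * m + x * (2 - θ - 2 * m)) * (m * (1 + θ) - m * (1 - θ) - τ * (m * (1 - θ) + m * (1 + θ))) -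
      (D ^ 2 - 2 * D * ((D + 2 * q * (θ - τ)) / (2 * m + x * (2 - θ - 2 * m))) * (m * (1 - θ) + m * (1 + θ)) +
        ((D + 2 * q * (θ - τ)) / (2 * m + x * (2 - θ - 2 * m))) ^ 2 * ((m * (1 - θ) + m * (1 + θ)) ^ 2 +
          x * (m * (1 + θ) + 3 * (m * (1 - θ)) - (m * (1 - θ) + m * (1 + θ)) ^ 2))) / (4 * q) =
      (1 - jv) * ((θ - τ) * (D + q * (θ - τ))) - jv * D ^ 2 / (4 * q) := by
    rw [hj]
    have e3 : (m * (1 - θ) + m * (1 + θ)) ^ 2 + x * (m * (1 + θ) + 3 * (m * (1 - θ)) - (m * (1 - θ) + m * (1 + θ)) ^ 2) =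
        2 * m * (2 * m + x * (2 - θ - 2 * m)) := by ring
    have e4 : x * (2 - θ - 2 * m) = (2 * m + x * (2 - θ - 2 * m)) - 2 * m := by ring
    rw [e3]
    generalize 2 * m + x * (2 - θ - 2 * m) = W at *
    rw [e4]
    field_simp
    ring
  rw [e1, add_sub_assoc, add_assoc, add_sub_assoc' (lgPsi x κ τ), ← add_sub_assoc', e2]
  unfold lgB
  rw [log_mul hm.ne' (by linarith), log_mul hm.ne' (by linarith)]
  linarith

theorem lg_A1 {y : ℝ} (h0 : 0 ≤ y) (h1 : y < 1) : -(y * (1 - y / 2) / (1 - y)) ≤ log (1 - y) := by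
  have := IA.log_low_neg (y := -y) (by linarith) (by linarith)
  have e : -y - (-y) ^ 2 / (2 * (1 + -y)) = -(y * (1 - y / 2) / (1 - y)) := by
    have : 1 - y ≠ 0 := by linarith
    have : 1 + -y ≠ 0 := by linarith
    field_simp; ring
  rwa [e, ← sub_eq_add_neg] at this

theorem lg_A2 {y : ℝ} (h0 : 0 ≤ y) (h1 : y < 1) : y * (1 + y * (1 / 2 + y / 3)) ≤ -log (1 - y) := by
  have := sum_le_hasSum (Finset.range 3) (fun i _ => by positivity)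
    (hasSum_pow_div_log_of_abs_lt_one (x := y) (by rwa [abs_of_nonneg h0]))
  simp only [Finset.sum_range_succ, Finset.sum_range_zero] at this
  norm_num at this
  linarith

theorem lg_A3 {κ z : ℝ} (h0 : 0 ≤ z) (h1 : z < 1) :
    (1 - κ) * log (1 - z) + (1 + κ) * log (1 + z) = log (1 - z ^ 2) + κ * log ((1 + z) / (1 - z)) := by
  rw [show 1 - z ^ 2 = (1 - z) * (1 + z) by ring, log_mul (by linarith) (by linarith), log_div (by linarith) (by linarith)]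
  ring

theorem lg_stepA {x m θ : ℝ} (hx0 : 9 / 100 ≤ x) (hx1 : x ≤ 1089 / 2500) (hm : 0 < m) (h0 : 0 ≤ θ) (h1 : θ ≤ 1 / 4)
    (hd : m * (1 + θ) ≤ 1) : LStep x (lgB x) (m * (1 - θ)) (m * (1 + θ)) := by
  obtain ⟨r1, r10, -, r2, r20, -, H | ⟨p0, p1, p2, p3, p4, p5⟩⟩ :=
    LGcA.main x m θ hx0 hx1 hm.le (by nlinarith) h0 h1
  · linarith
  obtain ⟨t, ht⟩ : ∃ t, t = LGcA.ft x m θ r1 r2 := ⟨_, rfl⟩
  obtain ⟨k, hk⟩ : ∃ k, k = LGcA.fk x m θ r1 r2 := ⟨_, rfl⟩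
  obtain ⟨ε, hε⟩ : ∃ ε, ε = LGcA.feps x m θ r1 r2 := ⟨_, rfl⟩
  have t0 : 0 ≤ t := by rw [ht]; unfold LGcA.ft; positivity
  have k0 : 0 ≤ k := by rw [hk]; unfold LGcA.fk; positivity
  have eτ : LGcA.ftau x m θ r1 r2 = t * θ := by rw [ht]; rfl
  have ee : LGcA.fe x m θ r1 r2 = ε * θ := by rw [hε]; rfl
  have q2 : LGcA.fc4 x m θ r1 r2 = lgc4 x (t * θ) (ε * θ) := by rw [← eτ, ← ee]; rfl
  have q3 : LGcA.faq x m θ r1 r2 = lgaq x (t * θ) (ε * θ) := by rw [← eτ, ← ee]; rfl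
  have q4 : LGcA.fq x m θ r1 r2 = lgq x (t * θ) (ε * θ) := by rw [← eτ, ← ee]; rfl
  have qX : LGcA.fX x m θ r1 r2 = lgX x (t * θ) := by rw [← eτ]; rfl
  have q5 : LGcA.ft2 x m θ r1 r2 = (t * θ) ^ 2 := by rw [← eτ]; rfl
  have τ0 : 0 ≤ t * θ := by positivity
  have τ1 : t * θ < 1 := by rw [eτ] at p1; linarith
  have τ2 : 0 < 1 - (t * θ) ^ 2 := by nlinarith
  have eε : ε * (1 - (t * θ) ^ 2) = 2 * (t - k) := by
    rw [hε]; unfold LGcA.feps; rw [eτ, ← ht, ← hk]; exact div_mul_cancel₀ _ τ2.ne'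
  rw [← hk] at p0
  rw [q2] at p2
  rw [q3] at p3
  unfold LGcA.fL1 LGcA.fL2 LGcA.fquad LGcA.fL3 LGcA.fhA LGcA.fd LGcA.fy LGcA.fh2 LGcA.fg1 LGcA.fg2 LGcA.fg3 at p5
  rw [q4] at p4
  rw [q4, qX, q5, ← ht, ← hk, ← hε] at p5
  have x0 : 0 ≤ x := by linarith
  have x1 : x < 1 := by linarith
  have θ1 : θ < 1 := by linarith
  refine lg_stepQ (κ := k * θ) (τ := t * θ) (e := ε * θ) x0 x1 hm h0 θ1 hd τ0 τ1
    (by linarith [mul_nonneg k0 h0]) (by linarith) (by linear_combination θ * eε) p2 p3 p4 rfl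
    (jv := LGcA.fjv x m θ r1 r2) rfl ?_
  have p6 := mul_le_mul_of_nonneg_left p5.le (sq_nonneg θ)
  have y1 : x * (t * θ) ^ 2 < 1 := by linarith [lg_den x0 x1 τ0 τ1.le]
  have b1 := lg_A1 (y := x * (t * θ) ^ 2) (by positivity) y1
  have b1' : x * (t * θ) ^ 2 * (1 - x * (t * θ) ^ 2 / 2) / (1 - x * (t * θ) ^ 2) =
      lgX x (t * θ) * (t * θ) ^ 2 * (1 - x * (t * θ) ^ 2 / 2) := by unfold lgX; ring
  rw [b1'] at b1
  have b2 := lg_A2 (y := (t * θ) ^ 2) (by positivity) (by linarith)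
  have b3 := log_div_le_sum_range_add τ0 τ1 4
  have b4 := sum_range_le_log_div h0 θ1 3
  have b5 := lg_A1 (y := θ ^ 2) (by positivity) (by nlinarith)
  simp only [Finset.sum_range_succ, Finset.sum_range_zero] at b3 b4
  norm_num at b3 b4
  have b3' : (t * θ) ^ 9 / (1 - (t * θ) ^ 2) = (t * θ) ^ 7 * ((t * θ) ^ 2 / (1 - (t * θ) ^ 2)) := by ring
  have b5' : θ ^ 2 * (1 - θ ^ 2 / 2) / (1 - θ ^ 2) = θ ^ 2 * ((1 - θ ^ 2 / 2) / (1 - θ ^ 2)) := by ring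
  rw [b3'] at b3
  rw [b5'] at b5
  have κ0 : 0 ≤ k * θ := by positivity
  have b6 := mul_le_mul_of_nonneg_left b3 κ0
  have b7 := mul_le_mul_of_nonneg_left b4 κ0
  have c0 : 0 ≤ 1 + x * lgcc x := by unfold lgcc; positivity
  have b8 : θ ^ 2 * (2 * k * (1 + θ ^ 2 / 3 + (θ ^ 2) ^ 2 / 5) - (1 - θ ^ 2 / 2) / (1 - θ ^ 2)) ≤
      (1 - k * θ) * log (1 - θ) + (1 + k * θ) * log (1 + θ) := by
    rw [lg_A3 h0 θ1]; linarith
  have b9 := mul_le_mul_of_nonneg_left b8 c0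
  have e1 : lgPsi x (k * θ) (t * θ) = log (1 - x * (t * θ) ^ 2) -
      (log (1 - (t * θ) ^ 2) + k * θ * log ((1 + t * θ) / (1 - t * θ))) := by
    rw [← lg_A3 τ0 τ1]; unfold lgPsi; ring
  have e2 : LGcA.fcc x m θ r1 r2 = lgcc x := rfl
  have e3 : LGcA.fjv x m θ r1 r2 * (ε * θ - 2 * (lgX x (t * θ) * (t * θ))) ^ 2 / (4 * lgq x (t * θ) (ε * θ)) =
      θ ^ 2 * (LGcA.fjv x m θ r1 r2 * (ε - 2 * (lgX x (t * θ) * t)) ^ 2 / (4 * lgq x (t * θ) (ε * θ))) := by ring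
  rw [e2] at p6
  rw [e1, e3]
  unfold lgh
  generalize LGcA.fjv x m θ r1 r2 * (ε - 2 * (lgX x (t * θ) * t)) ^ 2 / (4 * lgq x (t * θ) (ε * θ)) = Z at p6 ⊢
  generalize (t * θ) ^ 2 / (1 - (t * θ) ^ 2) = Z1 at p6 b6
  generalize (1 - θ ^ 2 / 2) / (1 - θ ^ 2) = Z2 at p6 b9
  generalize (1 - k * θ) * log (1 - θ) + (1 + k * θ) * log (1 + θ) = Z3 at b9 ⊢
  generalize log (1 - x * (t * θ) ^ 2) = Z4 at b1 ⊢
  generalize log (1 - (t * θ) ^ 2) = Z5 at b2 ⊢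
  generalize log ((1 + t * θ) / (1 - t * θ)) = Z6 at b6 ⊢
  generalize LGcA.fjv x m θ r1 r2 = Z7 at p6 ⊢
  generalize lgq x (t * θ) (ε * θ) = Z8 at p6 ⊢
  generalize lgX x (t * θ) = Z9 at p6 b1 ⊢
  generalize lgcc x = Z10 at p6 b9 ⊢
  linarith only [p6, b1, b2, b6, b9]

theorem lg_stepB {x m θ : ℝ} (hx0 : 9 / 100 ≤ x) (hx1 : x ≤ 1089 / 2500) (hm : 0 < m) (h0 : 1 / 4 ≤ θ) (h1 : θ ≤ 1)
    (hd : m * (1 + θ) ≤ 1) : LStep x (lgB x) (m * (1 - θ)) (m * (1 + θ)) := by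
  obtain ⟨n, rfl⟩ : ∃ n, θ = 1 - n := ⟨1 - θ, by ring⟩
  obtain ⟨r1, r10, -, r2, r20, -, H | H | ⟨p0, p1, p2, p3, p4, p5, p6, p7⟩⟩ :=
    LGcB.main x m n hx0 hx1 hm.le (by nlinarith) (by linarith) (by linarith)
  · linarith
  · left
    unfold LGcB.fxc LGcB.flp LGcB.fhE LGcB.fh2 LGcB.fth LGcB.fg1 LGcB.fg2 LGcB.fg3 LGcB.fcc at H
    rw [show (m * (1 - (1 - n)) + m * (1 + (1 - n))) / 2 = m by ring, show 1 + (1 - n) = 2 - n by ring]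
    unfold lgB lgh lgcc
    rw [log_mul hm.ne' (by linarith)]
    linarith
  obtain ⟨g, hg⟩ : ∃ g, g = LGcB.fgg x m n r1 r2 := ⟨_, rfl⟩
  obtain ⟨α, hα⟩ : ∃ α, α = LGcB.fal x m n r1 r2 := ⟨_, rfl⟩
  obtain ⟨e, he⟩ : ∃ e, e = LGcB.fe x m n r1 r2 := ⟨_, rfl⟩
  have α0 : 0 ≤ α := by rw [hα]; unfold LGcB.fal; positivity
  have ev : LGcB.fv x m n r1 r2 = g * n := by rw [hg]; rfl
  have eτ : LGcB.ftau x m n r1 r2 = 1 - g * n := by rw [← ev]; rfl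
  have ek : LGcB.fk0 x m n r1 r2 = α * (g * n) := by rw [← ev, hα]; rfl
  have q2 : LGcB.fc4 x m n r1 r2 = lgc4 x (1 - g * n) e := by rw [← eτ, he]; rfl
  have q3 : LGcB.faq x m n r1 r2 = lgaq x (1 - g * n) e := by rw [← eτ, he]; rfl
  have q4 : LGcB.fq x m n r1 r2 = lgq x (1 - g * n) e := by rw [← eτ, he]; rfl
  have qD : LGcB.fD x m n r1 r2 = e - 2 * (lgX x (1 - g * n) * (1 - g * n)) := by rw [← eτ, he]; rfl
  have q5 : LGcB.ft2 x m n r1 r2 = (1 - g * n) ^ 2 := by rw [← eτ]; rfl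
  rw [← hg] at p1
  rw [eτ] at p2
  rw [ek] at p3
  rw [q2] at p4
  rw [q3] at p5
  rw [q4] at p6
  have v0 : 0 < g * n := mul_pos p1 p0
  have ee : e * (2 - g * n) = 2 * (α - 1) := by
    rw [he]; unfold LGcB.fe; rw [ev, ← hα]
    have : 2 - g * n ≠ 0 := by linarith
    field_simp
  unfold LGcB.fquad LGcB.fhB LGcB.fkt LGcB.fka LGcB.fw LGcB.fxc LGcB.flp LGcB.fh2 LGcB.fth LGcB.fg1 LGcB.fg2 LGcB.fg3 at p7
  rw [q4, qD, q5, ek, ev, ← hg] at p7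
  refine lg_stepQ (κ := 1 - α * (g * n)) (τ := 1 - g * n) (e := e) (by linarith) (by linarith) hm (by linarith)
    (by linarith) hd p2.le (by linarith) (by linarith) (by linarith [mul_nonneg α0 v0.le])
    (by linear_combination (g * n) * ee) p4 p5 p6 rfl (jv := LGcB.fjv x m n r1 r2) rfl ?_
  have e2 : LGcB.fcc x m n r1 r2 = lgcc x := rfl
  rw [e2, log_div (by linarith) (by linarith)] at p7
  unfold lgPsi lgh
  rw [show 1 - (1 - g * n) = g * n by ring, show 1 + (1 - g * n) = 2 - g * n by ring, show 1 - (1 - n) = n by ring,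
    show 1 + (1 - n) = 2 - n by ring, log_mul p1.ne' p0.ne']
  generalize LGcB.fjv x m n r1 r2 * (e - 2 * (lgX x (1 - g * n) * (1 - g * n))) ^ 2 / (4 * lgq x (1 - g * n) e) = Z at *
  linarith

theorem lg_step {x : ℝ} (hx0 : 9 / 100 ≤ x) (hx1 : x ≤ 1089 / 2500) (a0 a1 : ℝ) (h0 : 0 ≤ a0) (h1 : a0 ≤ a1)
    (h2 : a1 ≤ 1) (h3 : 0 < a1) : LStep x (lgB x) a0 a1 := by
  have hS : 0 < a0 + a1 := by linarith
  obtain ⟨θ, hθ⟩ : ∃ θ, θ = (a1 - a0) / (a0 + a1) := ⟨_, rfl⟩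
  have t0 : 0 ≤ θ := by rw [hθ]; exact div_nonneg (by linarith) hS.le
  have t1 : θ ≤ 1 := by rw [hθ, div_le_one hS]; linarith
  have eθ : θ * (a0 + a1) = a1 - a0 := by rw [hθ]; field_simp
  obtain ⟨m, hm⟩ : ∃ m, m = (a0 + a1) / 2 := ⟨_, rfl⟩
  have m0 : 0 < m := by linarith
  have e0 : a0 = m * (1 - θ) := by rw [hm]; linarith
  have e1 : a1 = m * (1 + θ) := by rw [hm]; linarith
  rw [e0, e1]
  rcases le_total θ (1 / 4) with c | c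
  · exact lg_stepA hx0 hx1 m0 t0 c (e1 ▸ h2)
  · exact lg_stepB hx0 hx1 m0 c t1 (e1 ▸ h2)

/-- The logarithmic budget. -/
theorem lg_log {ρ : ℝ} (h0 : 3 / 10 ≤ ρ) (h1 : ρ ≤ 66 / 100) {n : ℕ} {u : (Fin n → Bool) → ℝ}
    (hu : ∀ y, u y = 0 ∨ u y = 1) (h : 0 < cubeAverage u) :
    lgB (ρ ^ 2) (cubeAverage u) ≤ cubeAverage fun x => log (noise ρ u x) :=
  lg_ind (abs_lt.2 ⟨by linarith, by linarith⟩) (by simp [lgB, lgh])
    (lg_step (by nlinarith) (by nlinarith)) n u hu h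

end Crest.Agent.R307
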