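import Crest.Agent.R307.LGd
import Crest.Agent.R307.LGcPM
import Crest.Agent.R307.LGcFM
import Crest.Agent.R307.HWz

/-!
# R307/LGm: the Hellinger inequality for `0.3 ≤ ρ ≤ 0.66`
-/

set_option autoImplicit false

namespace Crest.Agent.R307

open Crest.CubeNoise Real

theorem lg_ptS {u p : ℝ} (hu : 0 < u) (h0 : 0 < p) (h1 : p ≤ 1) :
    (2 * u - u * log (u ^ 2)) + u * log p + (-2) * p ≤ 2 * √(p * (1 - p)) := by
  obtain ⟨t, t0, rfl⟩ : ∃ t, 0 < t ∧ p = t ^ 2 := ⟨√p, sqrt_pos.2 h0, (sq_sqrt h0.le).symm⟩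
  have t1 : t ≤ 1 := by nlinarith
  have a : t - t ^ 2 ≤ √(t ^ 2 * (1 - t ^ 2)) := by
    refine le_sqrt_of_sq_le ?_
    nlinarith [mul_nonneg (by positivity : 0 ≤ t ^ 3) (sub_nonneg.2 t1)]
  have b := log_le_sub_one_of_pos (div_pos t0 hu)
  rw [log_div t0.ne' hu.ne'] at b
  have c := mul_le_mul_of_nonneg_left b hu.le
  have e : u * (t / u - 1) = t - u := by field_simp
  rw [log_pow, log_pow]
  push_cast
  linarith

theorem lg_ptP {x u : ℝ} (hu0 : 547 / 10000 ≤ u) (hu1 : u ≤ 442 / 625) (hμ : 0 < LGcF.fmu x u) (hν : 0 < LGcF.fnu x u) :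
    ∃ L : ℝ, ∀ p : ℝ, 0 < p → p < 1 →
      (2 * √(u ^ 2 * (1 - u ^ 2)) - u * LGcF.fK x u - u * LGcF.fmu x u * log (u ^ 2)
        - u * u ^ 2 * LGcF.fnu x u * log (1 - u ^ 2)) + L * (p - u ^ 2) - LGcF.fA x u / u ^ 3 * (p - u ^ 2) ^ 2
        + u * LGcF.fmu x u * log p + u * u ^ 2 * LGcF.fnu x u * log (1 - p) ≤ 2 * √(p * (1 - p)) := by
  have hu : 0 < u := by linarith
  have ha : 0 < 1 - u ^ 2 := by nlinarith
  have hr : 0 < √(1 - u ^ 2) := sqrt_pos.2 ha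
  refine ⟨(1 - 2 * u ^ 2) / (u * √(1 - u ^ 2)) - LGcP.fl u 0 / u - LGcF.fmu x u / u + u * u ^ 2 * LGcF.fnu x u / (1 - u ^ 2),
    fun p h0 h1 => ?_⟩
  obtain ⟨y, y0, rfl⟩ : ∃ y, 0 < y ∧ p = u ^ 2 * y ^ 2 :=
    ⟨√p / u, div_pos (sqrt_pos.2 h0) hu, by rw [div_pow, sq_sqrt h0.le]; field_simp⟩
  have uy : u * y < 1 := by nlinarith [mul_pos hu y0]
  have y1 : y ≤ 19 := by nlinarith
  rcases LGcP.main u y hu0 hu1 y0.le y1 with H | H
  · linarith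
  have e1 : LGcP.fK u y = LGcF.fK x u := rfl
  have e2 : LGcP.fA u y = LGcF.fA x u := rfl
  have e3 : LGcP.fmu u y = LGcF.fmu x u := rfl
  have e4 : LGcP.fnu u y = LGcF.fnu x u := rfl
  have e5 : LGcP.fl u y = LGcP.fl u 0 := rfl
  unfold LGcP.fz LGcP.fr LGcP.fw LGcP.fa at H
  rw [e1, e2, e3, e4, e5] at H
  generalize LGcF.fK x u = K at *
  generalize LGcF.fA x u = A at *
  generalize LGcF.fmu x u = μ at *
  generalize LGcF.fnu x u = ν at *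
  generalize LGcP.fl u 0 = l at *
  have z1 : 1 - u ^ 2 * (y ^ 2 - 1) / (1 - u ^ 2) = (1 - u ^ 2 * y ^ 2) / (1 - u ^ 2) := by field_simp; ring
  have l1 : log y ≤ log (max y (1 / 50)) := log_le_log y0 (le_max_left _ _)
  have l2 : log (1 - u ^ 2 * y ^ 2) - log (1 - u ^ 2) ≤ log (max (1 - u ^ 2 * (y ^ 2 - 1) / (1 - u ^ 2)) (1 / 1000)) := by
    rw [← log_div (by linarith) ha.ne', z1]
    exact log_le_log (div_pos (by linarith) ha) (le_max_left _ _)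
  have l3 : log (u ^ 2 * y ^ 2) = log (u ^ 2) + 2 * log y := by
    rw [log_mul (by positivity) (by positivity), log_pow y]; norm_num
  have s1 : √(u ^ 2 * (1 - u ^ 2)) = u * √(1 - u ^ 2) := by rw [sqrt_mul (sq_nonneg u), sqrt_sq hu.le]
  have s2 : √(u ^ 2 * y ^ 2 * (1 - u ^ 2 * y ^ 2)) = u * y * √(1 - u ^ 2 * y ^ 2) := by
    rw [sqrt_mul (by positivity), ← mul_pow, sqrt_sq (by positivity)]
  have m1 := mul_le_mul_of_nonneg_left l1 (by positivity : 0 ≤ u * μ)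
  have m2 := mul_le_mul_of_nonneg_left l2 (by positivity : 0 ≤ u * u ^ 2 * ν)
  have m3 := mul_le_mul_of_nonneg_left H.le hu.le
  have f1 : ((1 - 2 * u ^ 2) / (u * √(1 - u ^ 2)) - l / u - μ / u + u * u ^ 2 * ν / (1 - u ^ 2)) * (u ^ 2 * y ^ 2 - u ^ 2) =
      u * ((1 - 2 * u ^ 2) * (y ^ 2 - 1) / √(1 - u ^ 2)) - u * l * (y ^ 2 - 1) - u * μ * (y ^ 2 - 1)
        + u * u ^ 2 * ν * (u ^ 2 * (y ^ 2 - 1) / (1 - u ^ 2)) := by
    field_simp
  have f2 : A / u ^ 3 * (u ^ 2 * y ^ 2 - u ^ 2) ^ 2 = u * A * (y ^ 2 - 1) ^ 2 := by field_simp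
  rw [l3, s1, s2, f1, f2]
  generalize (1 - 2 * u ^ 2) * (y ^ 2 - 1) / √(1 - u ^ 2) = Z1 at m3 ⊢
  generalize log (max (1 - u ^ 2 * (y ^ 2 - 1) / (1 - u ^ 2)) (1 / 1000)) = Z2 at m2 m3
  generalize u ^ 2 * (y ^ 2 - 1) / (1 - u ^ 2) = Z3 at m3 ⊢
  linarith only [m1, m2, m3]

theorem lg_main {ρ : ℝ} (h0 : 3 / 10 ≤ ρ) (h1 : ρ ≤ 66 / 100) {n : ℕ} {f : (Fin n → Bool) → ℝ}
    (hf : ∀ x, f x = 1 ∨ f x = -1) (hm : 0 ≤ cubeAverage f) (hW : W1 f ≤ 4 / 5) : HN ρ f := by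
  have hρ : |ρ| < 1 := abs_lt.2 ⟨by linarith, by linarith⟩
  have hx0 : 9 / 100 ≤ ρ ^ 2 := by nlinarith
  have hx1 : ρ ^ 2 ≤ 1089 / 2500 := by nlinarith
  have m1 : cubeAverage f ≤ 1 := avg_le fun x => by rcases hf x with a | a <;> rw [a]; norm_num
  have bv : ∀ y, -1 / 2 * f y + 1 / 2 = 0 ∨ -1 / 2 * f y + 1 / 2 = 1 := fun y => by
    rcases hf y with a | a <;> rw [a] <;> norm_num
  have bw : ∀ y, 1 / 2 * f y + 1 / 2 = 0 ∨ 1 / 2 * f y + 1 / 2 = 1 := fun y => by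
    rcases hf y with a | a <;> rw [a] <;> norm_num
  obtain ⟨u, u0, hu⟩ : ∃ u, 0 ≤ u ∧ u ^ 2 = (1 - cubeAverage f) / 2 := ⟨√_, sqrt_nonneg _, sq_sqrt (by linarith)⟩
  have u1 : u ≤ 442 / 625 := by nlinarith
  have av : (cubeAverage fun y => -1 / 2 * f y + 1 / 2) = u ^ 2 := by
    rw [avg_add, avg_mul, avg_const, hu]; change -1 / 2 * cubeAverage f + _ = _; ring
  have aw : (cubeAverage fun y => 1 / 2 * f y + 1 / 2) = 1 - u ^ 2 := by
    rw [avg_add, avg_mul, avg_const, hu]; change 1 / 2 * cubeAverage f + _ = _; ring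
  obtain ⟨p, hp⟩ : ∃ p : (Fin n → Bool) → ℝ, ∀ x, p x = -1 / 2 * noise ρ f x + 1 / 2 := ⟨_, fun _ => rfl⟩
  have np : ∀ x, noise ρ (fun y => -1 / 2 * f y + 1 / 2) x = p x := fun x => by rw [noise_affine, hp]
  have nq : ∀ x, noise ρ (fun y => 1 / 2 * f y + 1 / 2) x = 1 - p x := fun x => by rw [noise_affine, hp]; ring
  have ap : (cubeAverage fun x => p x) = u ^ 2 := by
    simp only [← np]; exact (avg_noise ρ _).trans av
  have p1 : ∀ x, p x < 1 := fun x => by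
    have := lg_pos hρ bw (by rw [aw]; nlinarith) x
    rw [nq] at this; linarith
  have e1 : √(1 - cubeAverage f ^ 2) = 2 * √(u ^ 2 * (1 - u ^ 2)) := by
    rw [← xind_sqrt]; congr 1; rw [hu]; ring
  have e2 : ∀ x, √(1 - noise ρ f x ^ 2) = 2 * √(p x * (1 - p x)) := fun x => by
    rw [← xind_sqrt]; congr 1; rw [hp]; ring
  have e3 : √(u ^ 2 * (1 - u ^ 2)) ≤ u := sqrt_le_iff.2 ⟨u0, by nlinarith [sq_nonneg (u ^ 2)]⟩
  have LA : 0 < u → log (u ^ 2) - ρ ^ 2 * LGcF.fga (ρ ^ 2) u ≤ cubeAverage fun x => log (p x) := fun h => by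
    have := lg_log h0 h1 bv (by rw [av]; positivity)
    simp only [np] at this
    rw [av] at this
    refine le_trans (le_of_eq ?_) this
    unfold lgB lgh lgcc LGcF.fga LGcF.fcc LGcF.fa LGcF.fh0 LGcF.fh1 LGcF.fh2
    rw [log_pow]; push_cast; ring
  have LB : log (1 - u ^ 2) - ρ ^ 2 * LGcF.fgb (ρ ^ 2) u ≤ cubeAverage fun x => log (1 - p x) := by
    have := lg_log h0 h1 bw (by rw [aw]; nlinarith)
    simp only [nq] at this
    rw [aw] at this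
    refine le_trans (le_of_eq ?_) this
    unfold lgB lgh lgcc LGcF.fgb LGcF.fcc LGcF.fa LGcF.fh0 LGcF.fh1 LGcF.fh2
    ring
  have p0 : 0 < u → ∀ x, 0 < p x := fun h x => by
    have := lg_pos hρ bv (by rw [av]; positivity) x
    rwa [np] at this
  unfold HN
  simp only [e1, e2]
  rcases LGcF.main (ρ ^ 2) u hx0 hx1 u0 u1 with H | ⟨h, H⟩ | ⟨h, hA, hμ, hν, H⟩
  · have : 0 ≤ cubeAverage fun x => 2 * √(p x * (1 - p x)) := avg_nonneg fun x => by positivity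
    unfold LGcF.fet at H
    linarith
  · have := avg_mono fun x => lg_ptS h (p0 h x) (p1 x).le
    rw [avg_add, avg_add, avg_mul, avg_mul, avg_const, ap] at this
    have b := mul_le_mul_of_nonneg_left (LA h) u0
    unfold LGcF.fet LGcF.fa at H
    linarith
  · have hu0 : 0 < u := by linarith
    obtain ⟨L, hL⟩ := lg_ptP (by linarith) u1 hμ hν
    have := avg_mono fun x => hL (p x) (p0 hu0 x) (p1 x)
    rw [avg_add, avg_add, avg_sub, avg_add, avg_mul, avg_mul, avg_mul, avg_mul, avg_const, avg_sub, avg_const, ap] at this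
    have b1 := mul_le_mul_of_nonneg_left (LA hu0) (by positivity : 0 ≤ u * LGcF.fmu (ρ ^ 2) u)
    have b2 := mul_le_mul_of_nonneg_left LB (by positivity : 0 ≤ u * u ^ 2 * LGcF.fnu (ρ ^ 2) u)
    have hV := hn_var (ρ := ρ) (by linarith) hf
    have eV : (cubeAverage fun x => (p x - u ^ 2) ^ 2) =
        1 / 4 * cubeAverage fun x => (noise ρ f x - cubeAverage f) ^ 2 := by
      rw [← avg_mul]; congr 1; funext x; rw [hp, hu]; ring
    have u3 : 0 < u ^ 3 := by positivity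
    have hW' : W1 f ≤ LGcF.fW (ρ ^ 2) u * u ^ 3 := by
      obtain ⟨w1, w2⟩ := W1_le_mean hf
      rw [abs_of_nonneg hm, show 1 - cubeAverage f = 2 * u ^ 2 by linarith] at w1 w2
      rw [← div_le_iff₀ u3]
      refine le_min (le_min (div_le_div_of_nonneg_right hW u3.le) ?_) ?_
      · rw [div_le_div_iff₀ u3 hu0]; nlinarith
      · rw [div_le_iff₀ u3]
        refine le_of_sq_le_sq ?_ (by positivity) |> fun h => h
        nlinarith [sq_nonneg (u ^ 3)]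
    have hV2 : (cubeAverage fun x => (p x - u ^ 2) ^ 2) ≤ LGcF.fV (ρ ^ 2) u * u ^ 3 := by
      have e : LGcF.fV (ρ ^ 2) u * u ^ 3 = 1 / 4 * (ρ ^ 2 * ((1 - ρ ^ 2) * (LGcF.fW (ρ ^ 2) u * u ^ 3) +
          ρ ^ 2 * (1 - cubeAverage f ^ 2))) := by
        rw [show cubeAverage f = 1 - 2 * u ^ 2 by linarith]
        unfold LGcF.fV LGcF.fa; field_simp; ring
      have := mul_le_mul_of_nonneg_left hW' (by nlinarith : 0 ≤ ρ ^ 2 * (1 - ρ ^ 2))
      rw [eV, e]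
      linarith
    have b3 := mul_le_mul_of_nonneg_left hV2 (by positivity : 0 ≤ LGcF.fA (ρ ^ 2) u / u ^ 3)
    have e4 : LGcF.fA (ρ ^ 2) u / u ^ 3 * (LGcF.fV (ρ ^ 2) u * u ^ 3) = LGcF.fA (ρ ^ 2) u * LGcF.fV (ρ ^ 2) u := by
      field_simp
    rw [e4] at b3
    unfold LGcF.fet LGcF.fa at H
    linarith

/-- The core inequality in the window `0.3 ≤ ρ ≤ 0.66`. -/
theorem lg_core {ρ : ℝ} (h0 : 3 / 10 ≤ ρ) (h1 : ρ ≤ 66 / 100) : XCore ρ :=
  hw_core h0 (by linarith) fun _ _ hf hm hW => lg_main h0 h1 hf hm hW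

/-- The core inequality for `0 ≤ ρ ≤ 0.66`. -/
theorem lg_core' {ρ : ℝ} (h0 : 0 ≤ ρ) (h1 : ρ ≤ 66 / 100) : XCore ρ := by
  rcases le_total ρ (3 / 10) with h | h
  · exact hn_core h0 h
  · exact lg_core h h1

end Crest.Agent.R307
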