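import Crest.Agent.R307.HNc

/-!
# R307/SV: variance of the noisy function through the parity decomposition
-/

set_option autoImplicit false

namespace Crest.Agent.R307

open Crest.CubeNoise

variable {n : ℕ}

/-- Correlation with the antipodal value. -/
noncomputable def Rv (f : (Fin n → Bool) → ℝ) : ℝ := cubeAverage fun x => f x * f fun j => !x j

theorem sv_cons (b : Bool) (x : Fin n → Bool) :
    (fun j => !(Fin.cons b x : Fin (n + 1) → Bool) j) = Fin.cons (!b) fun j => !x j := by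
  funext j
  refine Fin.cases ?_ (fun i => ?_) j <;> simp

theorem Rv_succ (f : (Fin (n + 1) → Bool) → ℝ) : Rv f = Rv (bar f) - Rv (hna_d f) := by
  unfold Rv
  rw [avg_succ, ← avg_add, ← avg_div, ← avg_sub]
  congr 1
  funext x
  simp only [sl, bar, hna_d, sv_cons, Bool.not_true, Bool.not_false]
  ring

theorem sv_co (f : (Fin n → Bool) → ℝ) (i : Fin n) : co (fun x => (f x - f fun j => !x j) / 2) i = co f i := by
  have h1 := avg_not (fun x => f x * spin (x i))
  simp only [spin_not] at h1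
  have h2 : (fun x : Fin n → Bool => (f x - f fun j => !x j) / 2 * spin (x i)) =
      fun x => (f x * spin (x i) + (f fun j => !x j) * -spin (x i)) / 2 := by
    funext x; ring
  unfold co
  rw [h2, avg_div, avg_add, h1]; ring

theorem W1_le_odd (f : (Fin n → Bool) → ℝ) : W1 f ≤ ((cubeAverage fun x => f x ^ 2) - Rv f) / 2 := by
  have hW : W1 (fun x => (f x - f fun j => !x j) / 2) = W1 f := by
    unfold W1; simp only [sv_co]
  have h := W1_le_sq fun x => (f x - f fun j => !x j) / 2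
  have e : (fun x : Fin n → Bool => ((f x - f fun j => !x j) / 2) ^ 2) =
      fun x => ((f x ^ 2 + (f fun j => !x j) ^ 2) - 2 * (f x * f fun j => !x j)) / 4 := by
    funext x; ring
  rw [hW, e, avg_div, avg_sub, avg_add, avg_mul, avg_not fun x => f x ^ 2] at h
  unfold Rv
  linarith

theorem sv_var {ρ : ℝ} (hρ : ρ ^ 2 ≤ 1) (f : (Fin n → Bool) → ℝ) :
    (cubeAverage fun x => noise ρ f x ^ 2) ≤
      cubeAverage f ^ 2 + ρ ^ 2 * W1 f + (ρ ^ 2) ^ 3 * (((cubeAverage fun x => f x ^ 2) - Rv f) / 2 - W1 f)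
        + (ρ ^ 2) ^ 2 * (((cubeAverage fun x => f x ^ 2) + Rv f) / 2 - cubeAverage f ^ 2) := by
  induction n with
  | zero =>
    have : Rv f = f default ^ 2 := by
      rw [Rv, avg_zero_dim, sq]; congr 2; exact Subsingleton.elim _ _
    rw [this]
    simp only [avg_zero_dim, noise_zero_dim]; simp [W1]
  | succ n ih =>
    rw [hna_sqn, hna_sq, hna_avg, W1_succ, ← hna_avgd, Rv_succ]
    have h1 := ih (bar f)
    have h2 := ih (hna_d f)
    have h3 := W1_le_odd (hna_d f)
    have x0 := sq_nonneg ρ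
    set x := ρ ^ 2
    have h4 : x ^ 3 * (((cubeAverage fun y => hna_d f y ^ 2) - Rv (hna_d f)) / 2 - W1 (hna_d f)) ≤
        x * (((cubeAverage fun y => hna_d f y ^ 2) - Rv (hna_d f)) / 2 - W1 (hna_d f)) := by
      refine mul_le_mul_of_nonneg_right ?_ (by linarith)
      nlinarith [mul_nonneg x0 (mul_nonneg (sub_nonneg.2 hρ) (by linarith : (0:ℝ) ≤ 1 + x))]
    have h5 := mul_le_mul_of_nonneg_left (h2.trans (add_le_add_left (add_le_add_right h4 _) _)) x0
    linarith

theorem sv_lin {f : (Fin (n + 1) → Bool) → ℝ} (hf : ∀ x, f x = 1 ∨ f x = -1) :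
    W1 (bar f) + (1 + Rv f) / 4 ≤ 1 - |co f 0| := by
  have h1 := W1_le_odd (bar f)
  have key : ∀ σ : ℝ, σ = 1 ∨ σ = -1 → ((cubeAverage fun x => bar f x ^ 2) - Rv (bar f)) / 2
      + (1 + (Rv (bar f) - Rv (hna_d f))) / 4 ≤ 1 - σ * co f 0 := by
    intro σ hσ
    have pt : ∀ x : Fin n → Bool, (bar f x ^ 2 + (bar f fun j => !x j) ^ 2) / 4
        - (bar f x * bar f fun j => !x j) / 4 - (hna_d f x * hna_d f fun j => !x j) / 4
        + σ * (hna_d f x + hna_d f fun j => !x j) / 2 ≤ 3 / 4 := by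
      intro x
      rcases hσ with s | s <;>
      rcases hf (Fin.cons false x) with a | a <;> rcases hf (Fin.cons true x) with b | b <;>
      rcases hf (Fin.cons false fun j => !x j) with c | c <;> rcases hf (Fin.cons true fun j => !x j) with d | d <;>
        simp only [bar, hna_d, sl, a, b, c, d, s] <;> norm_num
    have h := avg_le pt
    rw [avg_add, avg_sub, avg_sub, avg_div, avg_div, avg_div, avg_div, avg_add, avg_mul, avg_add,
      avg_not fun x => bar f x ^ 2, avg_not (hna_d f)] at h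
    have e : (cubeAverage fun x => hna_d f x) = co f 0 := hna_avgd f
    rw [e] at h
    unfold Rv
    linarith
  rw [Rv_succ]
  rcases abs_cases (co f 0) with ⟨e, _⟩ | ⟨e, _⟩ <;> rw [e]
  · have := key 1 (Or.inl rfl); linarith
  · have := key (-1) (Or.inr rfl); linarith

theorem sv_small {f : (Fin n → Bool) → ℝ} (hf : ∀ x, f x = 1 ∨ f x = -1) (h : ∀ i, |co f i| ≤ 19 / 100) :
    W1 f + (1 + Rv f) / 4 ≤ 8461 / 10000 := by
  set g : (Fin n → Bool) → ℝ := fun x => (f x - f fun j => !x j) / 2 with hg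
  have hc : co g = co f := funext fun i => sv_co f i
  have hW : W1 g = W1 f := by unfold W1; rw [hc]
  have h1 : ∀ x, g x * lf (co g) x + 299 / 2000 * (1 + f x * f fun j => !x j) ≤
      299 / 1000 + 91 / 100 * lf (co g) x ^ 2 - 189 / 1000 * lf (co g) x ^ 4 + 171 / 10000 * lf (co g) x ^ 6 := by
    intro x
    have a1 := hnc_poly (lf (co g) x)
    have a2 := hnc_poly (-lf (co g) x)
    have a3 : 0 ≤ lf (co g) x ^ 2 * (91 / 100 - 189 / 1000 * lf (co g) x ^ 2 + 171 / 10000 * lf (co g) x ^ 4) :=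
      mul_nonneg (sq_nonneg _) (by nlinarith [sq_nonneg (lf (co g) x ^ 2 - 5)])
    generalize lf (co g) x = z at a1 a2 a3 ⊢
    rcases hf x with a | a <;> rcases hf (fun j => !x j) with b | b <;> simp only [hg, a, b] <;> nlinarith
  have h2 := avg_mono h1
  rw [avg_add, avg_mul_lf, avg_mul, avg_add, avg_const, avg_add, avg_sub, avg_add, avg_const, avg_mul, avg_mul, avg_mul,
    lf_sq, lf_four, lf_six, hW, hc] at h2
  have e : ∑ i, co f i ^ 2 = W1 f := rfl
  have eR : (cubeAverage fun x => f x * f fun j => !x j) = Rv f := rfl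
  rw [e, eR] at h2
  have a1 : ∀ i, co f i ^ 2 ≤ (19 / 100) ^ 2 := fun i => by
    rw [← sq_abs]; exact pow_le_pow_left₀ (abs_nonneg _) (h i) 2
  have h4 : 0 ≤ ∑ i, co f i ^ 4 := Finset.sum_nonneg fun i _ => by positivity
  have h5 : ∑ i, co f i ^ 4 ≤ (19 / 100) ^ 2 * W1 f := by
    rw [← e, Finset.mul_sum]
    refine Finset.sum_le_sum fun i _ => ?_
    calc co f i ^ 4 = co f i ^ 2 * co f i ^ 2 := by ring
      _ ≤ _ := mul_le_mul_of_nonneg_right (a1 i) (sq_nonneg _)
  have h6 : ∑ i, co f i ^ 6 ≤ (19 / 100) ^ 2 * ∑ i, co f i ^ 4 := by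
    rw [Finset.mul_sum]
    refine Finset.sum_le_sum fun i _ => ?_
    have a2 : 0 ≤ co f i ^ 4 := by positivity
    calc co f i ^ 6 = co f i ^ 2 * co f i ^ 4 := by ring
      _ ≤ _ := mul_le_mul_of_nonneg_right (a1 i) a2
  have h3 := W1_le_odd f
  have hq : (cubeAverage fun x => f x ^ 2) = 1 := by
    rw [show (fun x => f x ^ 2) = fun _ => (1 : ℝ) from funext fun x => by rcases hf x with a | a <;> simp [a], avg_const]
  rw [hq] at h3
  have h8 : W1 f ≤ 4 / 5 := W1_small (fun x => by rcases hf x with a | a <;> simp [a]) fun i => (h i).trans (by norm_num)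
  by_contra hc2
  rw [not_le] at hc2
  have h9 : 69 / 100 ≤ W1 f := by linarith
  set W := W1 f
  have h7 : 69 / 100 * ∑ i, co f i ^ 4 ≤ W * ∑ i, co f i ^ 4 := mul_le_mul_of_nonneg_right h9 h4
  nlinarith [mul_nonneg (sub_nonneg.2 h9) (sub_nonneg.2 h8), mul_nonneg (mul_nonneg (sub_nonneg.2 h9) (sub_nonneg.2 h8)) (sub_nonneg.2 h9)]

theorem sv_case {f : (Fin (n + 1) → Bool) → ℝ} (hf : ∀ x, f x = 1 ∨ f x = -1)
    (hmax : ∀ i, |co f i| ≤ |co f 0|) (h : |co f 0| ≤ 81 / 100) : W1 f + (1 + Rv f) / 4 ≤ 8461 / 10000 := by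
  rcases le_total |co f 0| (19 / 100) with h1 | h1
  · exact sv_small hf fun i => (hmax i).trans h1
  · have := sv_lin hf
    rw [W1_succ, ← sq_abs]
    nlinarith [mul_nonneg (sub_nonneg.2 h1) (sub_nonneg.2 h)]

/-- The improved variance bound. -/
theorem sv_bound {ρ : ℝ} (hρ : ρ ^ 2 ≤ 1) {f : (Fin n → Bool) → ℝ} (hf : ∀ x, f x = 1 ∨ f x = -1)
    (h1 : W1 f ≤ 4 / 5) (h2 : W1 f + (1 + Rv f) / 4 ≤ 8461 / 10000) :
    (cubeAverage fun x => (noise ρ f x - cubeAverage f) ^ 2) ≤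
      ρ ^ 2 * ((1 - ρ ^ 2) * (4 / 5 - 539 / 5000 * ρ ^ 2) + ρ ^ 2 * (1 - cubeAverage f ^ 2)) := by
  have e2 : (fun x => (noise ρ f x - cubeAverage f) ^ 2) =
      fun x => (noise ρ f x ^ 2 + (-2 * cubeAverage f) * noise ρ f x) + cubeAverage f ^ 2 := by
    funext x; ring
  have hq : (cubeAverage fun x => f x ^ 2) = 1 := by
    rw [show (fun x => f x ^ 2) = fun _ => (1 : ℝ) from funext fun x => by rcases hf x with a | a <;> simp [a], avg_const]
  have h := sv_var hρ f
  rw [hq] at h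
  rw [e2, avg_add, avg_add, avg_mul, avg_const, avg_noise]
  have x0 := sq_nonneg ρ
  set x := ρ ^ 2
  have d1 := mul_le_mul_of_nonneg_left h1 (mul_nonneg (mul_nonneg x0 (sub_nonneg.2 hρ)) (sub_nonneg.2 hρ))
  have d2 := mul_le_mul_of_nonneg_left h2 (mul_nonneg (mul_nonneg x0 x0) (sub_nonneg.2 hρ))
  nlinarith

end Crest.Agent.R307
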