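import Crest.Agent.R307.XSm

/-!
# R307/XSh: the region of `XSm` with the additional bound `a1 - a0 ≤ 1/2`
-/

set_option autoImplicit false
set_option linter.unusedVariables false

namespace Crest.Agent.R307

open Crest.CubeNoise Set

theorem xsm_orth {n : ℕ} {i j : Fin (n + 1)} (h : j ≠ i) :
    (cubeAverage fun x : Fin (n + 1) → Bool => spin (x i) * spin (x j)) = 0 := by
  have e := hnz_avg (Equiv.swap 0 i) fun x : Fin (n + 1) → Bool => spin (x i) * spin (x j)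
  rw [← e]
  have hj : Equiv.swap 0 i j ≠ 0 := fun c => h (by simpa using congrArg (Equiv.swap 0 i) c)
  obtain ⟨k, hk⟩ := Fin.exists_succ_eq.2 hj
  simp only [Function.comp, Equiv.swap_apply_right, ← hk]
  rw [avg_succ, ← avg_add]
  have : (fun x : Fin n → Bool => sl (fun x : Fin (n + 1) → Bool => spin (x 0) * spin (x k.succ)) false x +
      sl (fun x : Fin (n + 1) → Bool => spin (x 0) * spin (x k.succ)) true x) = fun _ => 0 := by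
    funext x; by_cases hx : x k = true <;> simp [sl, spin, hx]
  rw [this, avg_const]; simp

theorem xsm_two {n : ℕ} {f : (Fin (n + 1) → Bool) → ℝ} (hf : ∀ x, f x = 1 ∨ f x = -1) {i j : Fin (n + 1)}
    (h : j ≠ i) : |co f i| + |co f j| ≤ 1 := by
  have k : ∀ a b : ℝ, (a = 1 ∨ a = -1) → (b = 1 ∨ b = -1) → a * co f i + b * co f j ≤ 1 := fun a b ha hb => by
    have e1 : (cubeAverage fun x : Fin (n + 1) → Bool => 1 + a * b * (spin (x i) * spin (x j))) = 1 := by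
      rw [avg_add, avg_mul, avg_const, xsm_orth h]; ring
    unfold co
    rw [← avg_mul, ← avg_mul, ← avg_add, ← e1]
    refine avg_mono fun x => ?_
    rcases hf x with c | c <;> rcases spin_cases (x i) with d | d <;> rcases spin_cases (x j) with e | e <;>
      rcases ha with rfl | rfl <;> rcases hb with rfl | rfl <;> rw [c, d, e] <;> norm_num
  have k1 := k 1 1 (Or.inl rfl) (Or.inl rfl)
  have k2 := k 1 (-1) (Or.inl rfl) (Or.inr rfl)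
  have k3 := k (-1) 1 (Or.inr rfl) (Or.inl rfl)
  have k4 := k (-1) (-1) (Or.inr rfl) (Or.inr rfl)
  rcases abs_cases (co f i) with ⟨a, -⟩ | ⟨a, -⟩ <;> rcases abs_cases (co f j) with ⟨b, -⟩ | ⟨b, -⟩ <;> linarith

/-- Splitting at the coordinate of least influence. -/
theorem xind_splitH {ρ : ℝ} (hρ0 : 0 ≤ ρ) (hρ1 : ρ ≤ 1) {n : ℕ} (u : (Fin (n + 1) → Bool) → ℝ)
    (hu : ∀ y, u y = 0 ∨ u y = 1) :
    ∃ v w : (Fin n → Bool) → ℝ, (∀ y, v y = 0 ∨ v y = 1) ∧ (∀ y, w y = 0 ∨ w y = 1) ∧ (∀ y, v y ≤ w y) ∧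
      cubeAverage u = (cubeAverage v + cubeAverage w) / 2 ∧
      ((n : ℝ) + 1) * (cubeAverage w - cubeAverage v) ^ 2 ≤ 1 - |cubeAverage v + cubeAverage w - 1| ∧
      (((n : ℝ) + 1) * (cubeAverage w - cubeAverage v) ^ 2) ^ 2 ≤ 3 * (1 - |cubeAverage v + cubeAverage w - 1|) ^ 3 ∧
      (n = 0 ∨ cubeAverage w - cubeAverage v ≤ 1 / 2) ∧
      ∀ Φ : ℝ → ℝ, ConcaveOn ℝ (Icc 0 1) Φ →
        (cubeAverage fun x => Φ ((1 + ρ) / 2 * noise ρ w x + (1 - ρ) / 2 * noise ρ v x) +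
          Φ ((1 + ρ) / 2 * noise ρ v x + (1 - ρ) / 2 * noise ρ w x)) ≤
        2 * cubeAverage fun x => Φ (noise ρ u x) := by
  obtain ⟨u1, d1, m1⟩ := xsm_full hρ0 hρ1 u hu Finset.univ
  let f : (Fin (n + 1) → Bool) → ℝ := fun y => 2 * u1 y + -1
  have hf : ∀ x, f x = 1 ∨ f x = -1 := fun y => by
    rcases d1.1 y with a | a <;> simp only [f, a] <;> norm_num
  obtain ⟨i, -, hi⟩ := Finset.exists_min_image Finset.univ (fun i => co f i ^ 2) Finset.univ_nonempty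
  have hW : ((n : ℝ) + 1) * co f i ^ 2 ≤ W1 f := by
    have := Finset.card_nsmul_le_sum Finset.univ (fun i => co f i ^ 2) _ fun j hj => hi j hj
    simpa [W1] using this
  have d2 := d1.trans (XDom.perm (ρ := ρ) d1.1 (Equiv.swap 0 i))
  set u2 : (Fin (n + 1) → Bool) → ℝ := fun x => u1 (x ∘ Equiv.swap 0 i) with hu2
  have m2 : XMono u2 0 := by simpa using (m1 i (Finset.mem_univ _)).perm (Equiv.swap 0 i)
  have hav : cubeAverage u = (cubeAverage (sl u2 false) + cubeAverage (sl u2 true)) / 2 := by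
    rw [← d2.2.1, avg_succ]
  have e0 : co f i = cubeAverage (sl u2 true) - cubeAverage (sl u2 false) := by
    have := co_swap (Equiv.swap 0 i) f i
    rw [Equiv.swap_apply_right, co_zero] at this
    rw [← this]
    have t : ∀ b, cubeAverage (sl (fun x => f (x ∘ Equiv.swap 0 i)) b) = 2 * cubeAverage (sl u2 b) + -1 := fun b => by
      rw [← avg_mul, ← avg_const (n := n) (-1), ← avg_add]
      rfl
    rw [t, t]; ring
  have e1 : cubeAverage f = cubeAverage (sl u2 false) + cubeAverage (sl u2 true) - 1 := by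
    simp only [f]
    rw [avg_add, avg_mul, avg_const]
    change 2 * cubeAverage u1 + -1 = _
    rw [d1.2.1, hav]; ring
  have hH : n = 0 ∨ co f i ≤ 1 / 2 := by
    rcases n with _ | n
    · exact Or.inl rfl
    · right
      obtain ⟨j, hj⟩ := exists_ne i
      have h1 := xsm_two hf hj
      have h2 := sq_le_sq.1 (hi j (Finset.mem_univ _))
      linarith [le_abs_self (co f i)]
  obtain ⟨w1, w2⟩ := W1_le_mean hf
  rw [e1] at w1 w2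
  rw [e0] at hW hH
  refine ⟨sl u2 false, sl u2 true, fun y => d2.1 _, fun y => d2.1 _, fun y => ?_, hav, hW.trans w1,
    (pow_le_pow_left₀ (by positivity) hW 2).trans w2, hH, fun Φ hc => ?_⟩
  · refine m2 _ _ (fun j hj => ?_) (by simp)
    obtain ⟨k, rfl⟩ := Fin.exists_succ_eq.2 hj
    simp
  · rw [xsm_id]
    linarith [d2.2.2 Φ hc]

/-- `Sm3` and `a1 - a0 ≤ 1/2` (except at the isolated point `(0, 1)`). -/
def SmH (a0 a1 : ℝ) : Prop := Sm3 a0 a1 ∧ (a1 - a0 ≤ 1 / 2 ∨ (a0 = 0 ∧ a1 = 1))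

theorem SmH.symm {a0 a1 : ℝ} (h : SmH a0 a1) : SmH (1 - a1) (1 - a0) := by
  refine ⟨h.1.symm, ?_⟩
  rcases h.2 with h | ⟨rfl, rfl⟩
  · exact Or.inl (by linarith)
  · exact Or.inr (by norm_num)

/-- The form for users: `d ≤ 1/2`, `2 d² ≤ a0 + a1`, `2 d² ≤ 2 - (a0 + a1)`, or the point `(0, 1)`. -/
theorem SmH.cases {a0 a1 : ℝ} (h : SmH a0 a1) :
    (a1 - a0 ≤ 1 / 2 ∧ 2 * (a1 - a0) ^ 2 ≤ a0 + a1 ∧ 2 * (a1 - a0) ^ 2 ≤ 2 - (a0 + a1)) ∨ (a0 = 0 ∧ a1 = 1) := by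
  rcases h.2 with h2 | h2
  · rcases h.1.sm2 with h1 | h1
    · exact Or.inl ⟨h2, h1⟩
    · exact Or.inr h1
  · exact Or.inr h2

theorem xsm_regionH {n : ℕ} {v w : (Fin n → Bool) → ℝ} (bv : ∀ y, v y = 0 ∨ v y = 1) (bw : ∀ y, w y = 0 ∨ w y = 1)
    (hvw : ∀ y, v y ≤ w y)
    (h1 : ((n : ℝ) + 1) * (cubeAverage w - cubeAverage v) ^ 2 ≤ 1 - |cubeAverage v + cubeAverage w - 1|)
    (h2 : (((n : ℝ) + 1) * (cubeAverage w - cubeAverage v) ^ 2) ^ 2 ≤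
      3 * (1 - |cubeAverage v + cubeAverage w - 1|) ^ 3)
    (h3 : n = 0 ∨ cubeAverage w - cubeAverage v ≤ 1 / 2) : SmH (cubeAverage v) (cubeAverage w) := by
  refine ⟨xsm_region bv bw hvw h1 h2, ?_⟩
  rcases h3 with rfl | h3
  · rw [avg_zero_dim, avg_zero_dim]
    rcases bv default with a | a <;> rcases bw default with c | c <;> rw [a, c] <;> norm_num
  · exact Or.inl h3

/-- `xind_split` with the region `SmH`. -/
theorem xind_split3 {ρ : ℝ} (hρ0 : 0 ≤ ρ) (hρ1 : ρ ≤ 1) {n : ℕ} (u : (Fin (n + 1) → Bool) → ℝ)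
    (hu : ∀ y, u y = 0 ∨ u y = 1) :
    ∃ v w : (Fin n → Bool) → ℝ, (∀ y, v y = 0 ∨ v y = 1) ∧ (∀ y, w y = 0 ∨ w y = 1) ∧ (∀ y, v y ≤ w y) ∧
      (∀ x, 0 ≤ noise ρ v x) ∧ (∀ x, noise ρ v x ≤ noise ρ w x) ∧ (∀ x, noise ρ w x ≤ 1) ∧
      cubeAverage u = (cubeAverage v + cubeAverage w) / 2 ∧ SmH (cubeAverage v) (cubeAverage w) ∧
      ∀ Φ : ℝ → ℝ, ConcaveOn ℝ (Icc 0 1) Φ →
        (cubeAverage fun x => Φ ((1 + ρ) / 2 * noise ρ w x + (1 - ρ) / 2 * noise ρ v x) +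
          Φ ((1 + ρ) / 2 * noise ρ v x + (1 - ρ) / 2 * noise ρ w x)) ≤
        2 * cubeAverage fun x => Φ (noise ρ u x) := by
  have hρ : |ρ| ≤ 1 := abs_le.2 ⟨by linarith, hρ1⟩
  obtain ⟨v, w, bv, bw, hvw, hav, h1, h2, h3, hΦ⟩ := xind_splitH hρ0 hρ1 u hu
  exact ⟨v, w, bv, bw, hvw, xv_noise_nonneg hρ bv, noise_mono hρ hvw, xv_noise_le hρ bw, hav,
    xsm_regionH bv bw hvw h1 h2 h3, hΦ⟩

/-- General induction principle: the step is needed only on `SmH`. -/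
theorem xsm_ind3 {ρ : ℝ} (hρ0 : 0 ≤ ρ) (hρ1 : ρ ≤ 1) (Pr : ∀ n : ℕ, ((Fin n → Bool) → ℝ) → Prop)
    (h0 : ∀ u : (Fin 0 → Bool) → ℝ, (∀ y, u y = 0 ∨ u y = 1) → Pr 0 u)
    (step : ∀ (n : ℕ) (u : (Fin (n + 1) → Bool) → ℝ) (v w : (Fin n → Bool) → ℝ), (∀ y, u y = 0 ∨ u y = 1) →
      (∀ y, v y = 0 ∨ v y = 1) → (∀ y, w y = 0 ∨ w y = 1) → (∀ y, v y ≤ w y) →
      cubeAverage u = (cubeAverage v + cubeAverage w) / 2 → SmH (cubeAverage v) (cubeAverage w) →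
      (∀ Φ : ℝ → ℝ, ConcaveOn ℝ (Icc 0 1) Φ →
        (cubeAverage fun x => Φ ((1 + ρ) / 2 * noise ρ w x + (1 - ρ) / 2 * noise ρ v x) +
          Φ ((1 + ρ) / 2 * noise ρ v x + (1 - ρ) / 2 * noise ρ w x)) ≤
        2 * cubeAverage fun x => Φ (noise ρ u x)) → Pr n v → Pr n w → Pr (n + 1) u) :
    ∀ (n : ℕ) (u : (Fin n → Bool) → ℝ), (∀ y, u y = 0 ∨ u y = 1) → Pr n u := by
  intro n
  induction n with
  | zero => exact h0
  | succ n ih =>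
    intro u hu
    obtain ⟨v, w, bv, bw, hvw, -, -, -, hav, hS, hΦ⟩ := xind_split3 hρ0 hρ1 u hu
    exact step n u v w hu bv bw hvw hav hS hΦ (ih v bv) (ih w bw)

/-- `pair_primal` with the step only on `SmH`. -/
theorem pair_primal3 {ρ : ℝ} (hρ0 : 0 ≤ ρ) (hρ1 : ρ ≤ 1) {U : ℝ → ℝ} (hc : ConcaveOn ℝ (Icc 0 1) U)
    (Rg : ℝ → ℝ → ℝ → Prop) (h0 : Rg 0 (U 0) (U 1)) (h1 : Rg 1 (U 1) (U 0))
    (step : ∀ a0 a1 X0 Y0 X1 Y1 X Y : ℝ, 0 ≤ a0 → a0 ≤ a1 → a1 ≤ 1 → SmH a0 a1 → Rg a0 X0 Y0 → Rg a1 X1 Y1 →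
      (∀ K0 K1 l : ℝ, UStep ρ U K0 K1 l → K0 * X0 + K1 * X1 + l * (a1 - a0) ≤ 2 * X) →
      (∀ K0 K1 l : ℝ, UStep ρ U K0 K1 l → K0 * Y1 + K1 * Y0 + l * (a1 - a0) ≤ 2 * Y) →
      Rg ((a0 + a1) / 2) X Y) :
    ∀ (n : ℕ) (u : (Fin n → Bool) → ℝ), (∀ y, u y = 0 ∨ u y = 1) →
      Rg (cubeAverage u) (cubeAverage fun x => U (noise ρ u x)) (cubeAverage fun x => U (1 - noise ρ u x)) := by
  intro n
  induction n with
  | zero =>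
    intro u hu
    rw [avg_zero_dim, avg_zero_dim, avg_zero_dim, noise_zero_dim]
    rcases hu default with h | h <;> rw [h]
    · simpa using h0
    · simpa using h1
  | succ n ih =>
    intro u hu
    obtain ⟨v, w, bv, bw, -, hP, hPQ, hQ, hav, hS, hΦ⟩ := xind_split3 hρ0 hρ1 u hu
    have c2 : ConcaveOn ℝ (Icc 0 1) (fun p => U (1 - p)) := by
      simpa using hp_conc hc (A := 0) (B := 1) le_rfl zero_le_one
    have a0 : 0 ≤ cubeAverage v := by rw [← avg_noise ρ]; exact le_avg hP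
    have a01 : cubeAverage v ≤ cubeAverage w := by rw [← avg_noise ρ v, ← avg_noise ρ w]; exact avg_mono hPQ
    have a1 : cubeAverage w ≤ 1 := by rw [← avg_noise ρ]; exact avg_le hQ
    rw [hav]
    refine step _ _ _ _ _ _ _ _ a0 a01 a1 hS (ih v bv) (ih w bw) (fun K0 K1 l h => ?_) fun K0 K1 l h => ?_
    · refine le_trans ?_ ((avg_mono fun x => h.2.2 _ _ (hP x) (hPQ x) (hQ x)).trans (hΦ U hc))
      rw [avg_add, avg_add, avg_mul, avg_mul, avg_mul, avg_sub, avg_noise, avg_noise]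
    · refine le_trans ?_ ((avg_mono (f := fun x => K0 * U (1 - noise ρ w x) + K1 * U (1 - noise ρ v x) +
        l * (noise ρ w x - noise ρ v x)) fun x => ?_).trans (hΦ _ c2))
      · rw [avg_add, avg_add, avg_mul, avg_mul, avg_mul, avg_sub, avg_noise, avg_noise]
      · have b := h.2.2 (1 - noise ρ w x) (1 - noise ρ v x) (by linarith [hQ x]) (by linarith [hPQ x])
          (by linarith [hP x])
        generalize noise ρ w x = Q at *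
        generalize noise ρ v x = P at *
        have f1 : (1 + ρ) / 2 * (1 - P) + (1 - ρ) / 2 * (1 - Q) = 1 - ((1 + ρ) / 2 * P + (1 - ρ) / 2 * Q) := by ring
        have f2 : (1 + ρ) / 2 * (1 - Q) + (1 - ρ) / 2 * (1 - P) = 1 - ((1 + ρ) / 2 * Q + (1 - ρ) / 2 * P) := by ring
        rw [f1, f2] at b
        linarith

/-- `xcore_of_primal` with the step only on `SmH`. -/
theorem xcore_of_primal3 {ρ : ℝ} (hρ0 : 0 ≤ ρ) (hρ1 : ρ ≤ 1) (Rg : ℝ → ℝ → ℝ → Prop) (h0 : Rg 0 0 0) (h1 : Rg 1 0 0)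
    (step : ∀ a0 a1 X0 Y0 X1 Y1 X Y : ℝ, 0 ≤ a0 → a0 ≤ a1 → a1 ≤ 1 → SmH a0 a1 → Rg a0 X0 Y0 → Rg a1 X1 Y1 →
      (∀ K0 K1 l : ℝ, UStep ρ Uex K0 K1 l → K0 * X0 + K1 * X1 + l * (a1 - a0) ≤ 2 * X) →
      (∀ K0 K1 l : ℝ, UStep ρ Uex K0 K1 l → K0 * Y1 + K1 * Y0 + l * (a1 - a0) ≤ 2 * Y) →
      Rg ((a0 + a1) / 2) X Y)
    (fin : ∀ a X Y : ℝ, 0 ≤ a → a ≤ 1 → Rg a X Y → √(1 - ρ ^ 2) - 1 + 2 * √(a * (1 - a)) ≤ X + Y) : XCore ρ := by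
  intro n u hu
  have hρ : |ρ| ≤ 1 := abs_le.2 ⟨by linarith, hρ1⟩
  have u0 : ∀ y, 0 ≤ u y := fun y => by rcases hu y with a | a <;> simp [a]
  have u1 : ∀ y, u y ≤ 1 := fun y => by rcases hu y with a | a <;> simp [a]
  have key := pair_primal3 hρ0 hρ1 Uex_conc Rg (by simpa [Uex_zero, Uex_one] using h0)
    (by simpa [Uex_zero, Uex_one] using h1) step n u hu
  refine (fin _ _ _ (le_avg u0) (avg_le u1) key).trans ?_
  rw [← avg_add]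
  refine avg_mono fun x => (Uex_split ?_).le
  have := noise_mono hρ (u := fun _ => 0) (v := u) u0 x
  rwa [noise_const] at this

/-- `hyp_ind` with the steps only on `SmH`. -/
theorem hyp_ind3 {ρ : ℝ} (hρ0 : 0 ≤ ρ) (hρ1 : ρ ≤ 1) {U : ℝ → ℝ} (hc : ConcaveOn ℝ (Icc 0 1) U)
    {b u v : ℝ → ℝ} (hv : ∀ a, 0 ≤ a → a ≤ 1 → 0 ≤ v a)
    (h0 : HRg b u v 0 (U 0) (U 1)) (h1 : HRg b u v 1 (U 1) (U 0))
    (sb : ∀ a0 a1 : ℝ, 0 ≤ a0 → a0 ≤ a1 → a1 ≤ 1 → SmH a0 a1 → BAt ρ U b a0 a1)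
    (sh : ∀ a0 a1 : ℝ, 0 ≤ a0 → a0 ≤ a1 → a1 ≤ 1 → SmH a0 a1 → HAt ρ U b u v a0 a1)
    (n : ℕ) (f : (Fin n → Bool) → ℝ) (hf : ∀ y, f y = 0 ∨ f y = 1) :
    HRg b u v (cubeAverage f) (cubeAverage fun x => U (noise ρ f x)) (cubeAverage fun x => U (1 - noise ρ f x)) := by
  refine pair_primal3 hρ0 hρ1 hc (HRg b u v) h0 h1
    (fun a0 a1 X0 Y0 X1 Y1 X Y a00 a01 a11 hS R0 R1 hX hY => ?_) n f hf
  have bX : b ((a0 + a1) / 2) ≤ X := by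
    obtain ⟨K0, K1, l, hK, hb⟩ := sb a0 a1 a00 a01 a11 hS
    have := hX K0 K1 l hK
    have := mul_le_mul_of_nonneg_left R0.1 hK.1
    have := mul_le_mul_of_nonneg_left R1.1 hK.2.1
    linarith
  have bY : b (1 - (a0 + a1) / 2) ≤ Y := by
    obtain ⟨K0, K1, l, hK, hb⟩ := sb (1 - a1) (1 - a0) (by linarith) (by linarith) (by linarith) hS.symm
    have := hY K0 K1 l hK
    have := mul_le_mul_of_nonneg_left R1.2.1 hK.1
    have := mul_le_mul_of_nonneg_left R0.2.1 hK.2.1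
    rw [show (1 - a1 + (1 - a0)) / 2 = 1 - (a0 + a1) / 2 by ring] at hb
    linarith
  refine ⟨bX, bY, ?_⟩
  rcases sh a0 a1 a00 a01 a11 hS with ⟨K0, K1, l, M0, M1, m, c0, e0, w0, c1, e1, w1, r0, r1, r, hK, hM, s0, s1, hP, hQ,
    g0, g1, gr, gf⟩ | ⟨g1, g2, g3⟩
  · obtain ⟨x0, y0, z0⟩ := s0.ok R0
    obtain ⟨x1, y1, z1⟩ := s1.ok R1
    exact hp_step hK.1 hK.2.1 hM.1 hM.2.1 x0 y0 z0 x1 y1 z1 (hX K0 K1 l hK) (hY M0 M1 m hM) hP hQ g0 g1 gr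
      (hv _ (by linarith) (by linarith)) gf
  · exact ⟨g1.trans bX, g2.trans bY, g3.trans (mul_le_mul (by linarith) (by linarith) (by linarith) (by linarith))⟩

/-- `xcore_of_hyp` with the steps only on `SmH`. -/
theorem xcore_of_hyp3 {ρ : ℝ} (hρ0 : 0 ≤ ρ) (hρ1 : ρ ≤ 1) {b u v : ℝ → ℝ} (hv : ∀ a, 0 ≤ a → a ≤ 1 → 0 ≤ v a)
    (h0 : HRg b u v 0 0 0) (h1 : HRg b u v 1 0 0)
    (sb : ∀ a0 a1 : ℝ, 0 ≤ a0 → a0 ≤ a1 → a1 ≤ 1 → SmH a0 a1 → BAt ρ Uex b a0 a1)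
    (sh : ∀ a0 a1 : ℝ, 0 ≤ a0 → a0 ≤ a1 → a1 ≤ 1 → SmH a0 a1 → HAt ρ Uex b u v a0 a1)
    (fin : ∀ a : ℝ, 0 ≤ a → a ≤ 1 → √(1 - ρ ^ 2) - 1 + 2 * √(a * (1 - a)) ≤ u a + u (1 - a) + 2 * v a ∨
      √(1 - ρ ^ 2) - 1 + 2 * √(a * (1 - a)) ≤ b a + b (1 - a)) : XCore ρ := by
  intro n f hf
  have hρ : |ρ| ≤ 1 := abs_le.2 ⟨by linarith, hρ1⟩
  have u0 : ∀ y, 0 ≤ f y := fun y => by rcases hf y with a | a <;> simp [a]
  have u1 : ∀ y, f y ≤ 1 := fun y => by rcases hf y with a | a <;> simp [a]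
  have key := hyp_ind3 hρ0 hρ1 Uex_conc hv (by simpa [Uex_zero, Uex_one] using h0)
    (by simpa [Uex_zero, Uex_one] using h1) sb sh n f hf
  have e : (cubeAverage fun x => Uex (noise ρ f x)) + (cubeAverage fun x => Uex (1 - noise ρ f x)) ≤
      cubeAverage fun x => 2 * √(noise ρ f x * (1 - noise ρ f x)) := by
    rw [← avg_add]
    exact avg_mono fun x => (Uex_split (xv_noise_nonneg hρ hf x)).le
  rcases fin _ (le_avg u0) (avg_le u1) with h | h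
  · exact h.trans (key.sum.trans e)
  · exact h.trans ((add_le_add key.1 key.2.1).trans e)

/-- `xind_set` with the step only on `SmH`. -/
theorem xind_set3 {ι : Type} {ρ : ℝ} (hρ0 : 0 ≤ ρ) (hρ1 : ρ ≤ 1) (Φ b : ι → ℝ → ℝ)
    (hc : ∀ j, ConcaveOn ℝ (Icc 0 1) (Φ j)) (h0 : ∀ j, b j 0 ≤ Φ j 0) (h1 : ∀ j, b j 1 ≤ Φ j 1)
    (step : ∀ (n : ℕ) (v w : (Fin n → Bool) → ℝ), (∀ y, v y = 0 ∨ v y = 1) → (∀ y, w y = 0 ∨ w y = 1) →
      (∀ y, v y ≤ w y) → SmH (cubeAverage v) (cubeAverage w) →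
      (∀ i, b i (cubeAverage v) ≤ cubeAverage fun x => Φ i (noise ρ v x)) →
      (∀ i, b i (cubeAverage w) ≤ cubeAverage fun x => Φ i (noise ρ w x)) →
      ∀ j, 2 * b j ((cubeAverage v + cubeAverage w) / 2) ≤
        cubeAverage fun x => Φ j ((1 + ρ) / 2 * noise ρ w x + (1 - ρ) / 2 * noise ρ v x) +
          Φ j ((1 + ρ) / 2 * noise ρ v x + (1 - ρ) / 2 * noise ρ w x)) :
    ∀ (n : ℕ) (u : (Fin n → Bool) → ℝ), (∀ y, u y = 0 ∨ u y = 1) →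
      ∀ j, b j (cubeAverage u) ≤ cubeAverage fun x => Φ j (noise ρ u x) := by
  refine xsm_ind3 hρ0 hρ1 (fun n u => ∀ j, b j (cubeAverage u) ≤ cubeAverage fun x => Φ j (noise ρ u x))
    (fun u hu j => ?_) fun n u v w _ bv bw hvw hav hS hΦ iv iw j => ?_
  · rw [avg_zero_dim, avg_zero_dim, noise_zero_dim]
    rcases hu default with h | h <;> rw [h]
    · exact h0 j
    · exact h1 j
  · have := (step n v w bv bw hvw hS iv iw j).trans (hΦ _ (hc j))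
    rw [hav]
    linarith

/-- `xind_avg` / `xind_var` with the step only on `SmH`. -/
theorem xind_var3 {ι : Type} {ρ : ℝ} (hρ0 : 0 ≤ ρ) (hρ1 : ρ ≤ 1) (Φ b : ι → ℝ → ℝ)
    (hc : ∀ j, ConcaveOn ℝ (Icc 0 1) (Φ j)) (h0 : ∀ j, b j 0 ≤ Φ j 0) (h1 : ∀ j, b j 1 ≤ Φ j 1)
    (step : ∀ (n : ℕ) (P Q : (Fin n → Bool) → ℝ), (∀ x, 0 ≤ P x) → (∀ x, P x ≤ Q x) → (∀ x, Q x ≤ 1) →
      SmH (cubeAverage P) (cubeAverage Q) →
      (∀ i, b i (cubeAverage P) ≤ cubeAverage fun x => Φ i (P x)) →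
      (∀ i, b i (cubeAverage Q) ≤ cubeAverage fun x => Φ i (Q x)) →
      (∀ lam mu : ℝ, (cubeAverage fun x => (lam * (P x - cubeAverage P) + mu * (Q x - cubeAverage Q)) ^ 2) ≤
        ρ ^ 2 * xvV lam mu (cubeAverage P) (cubeAverage Q)) →
      ∀ j, 2 * b j ((cubeAverage P + cubeAverage Q) / 2) ≤
        cubeAverage fun x => Φ j ((1 + ρ) / 2 * Q x + (1 - ρ) / 2 * P x) + Φ j ((1 + ρ) / 2 * P x + (1 - ρ) / 2 * Q x)) :
    ∀ (n : ℕ) (u : (Fin n → Bool) → ℝ), (∀ y, u y = 0 ∨ u y = 1) →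
      ∀ j, b j (cubeAverage u) ≤ cubeAverage fun x => Φ j (noise ρ u x) := by
  have hρ : |ρ| ≤ 1 := abs_le.2 ⟨by linarith, hρ1⟩
  refine xind_set3 hρ0 hρ1 Φ b hc h0 h1 fun n v w bv bw hvw hS iv iw j => ?_
  have key := step n (noise ρ v) (noise ρ w) (xv_noise_nonneg hρ bv) (noise_mono hρ hvw) (xv_noise_le hρ bw)
    (by rw [avg_noise, avg_noise]; exact hS)
    (fun i => by rw [avg_noise]; exact iv i) (fun i => by rw [avg_noise]; exact iw i)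
    (fun lam mu => by rw [avg_noise, avg_noise]; exact xv_var (by nlinarith) bv bw hvw lam mu) j
  rwa [avg_noise, avg_noise] at key

/-- `xind_vmul` with the step only on `SmH`. -/
theorem xind_vmul3 {ι : Type} [Fintype ι] {ρ : ℝ} (hρ0 : 0 ≤ ρ) (hρ1 : ρ ≤ 1) (Φ b : ι → ℝ → ℝ)
    (hc : ∀ j, ConcaveOn ℝ (Icc 0 1) (Φ j)) (h0 : ∀ j, b j 0 ≤ Φ j 0) (h1 : ∀ j, b j 1 ≤ Φ j 1)
    (step : ∀ j (a0 a1 : ℝ), 0 ≤ a0 → a0 ≤ a1 → a1 ≤ 1 → SmH a0 a1 → ∃ (k0 k1 : ι → ℝ) (l0 l1 c nu lam mu : ℝ),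
      (∀ i, 0 ≤ k0 i) ∧ (∀ i, 0 ≤ k1 i) ∧ 0 ≤ nu ∧
      (∀ p0 p1 : ℝ, 0 ≤ p0 → p0 ≤ p1 → p1 ≤ 1 →
        ∑ i, k0 i * Φ i p0 + ∑ i, k1 i * Φ i p1 + l0 * p0 + l1 * p1 + c -
            nu * (lam * (p0 - a0) + mu * (p1 - a1)) ^ 2 ≤
          Φ j ((1 + ρ) / 2 * p1 + (1 - ρ) / 2 * p0) + Φ j ((1 + ρ) / 2 * p0 + (1 - ρ) / 2 * p1)) ∧
      2 * b j ((a0 + a1) / 2) ≤ ∑ i, k0 i * b i a0 + ∑ i, k1 i * b i a1 + l0 * a0 + l1 * a1 + c -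
        nu * (ρ ^ 2 * xvV lam mu a0 a1)) :
    ∀ (n : ℕ) (u : (Fin n → Bool) → ℝ), (∀ y, u y = 0 ∨ u y = 1) →
      ∀ j, b j (cubeAverage u) ≤ cubeAverage fun x => Φ j (noise ρ u x) := by
  refine xind_var3 hρ0 hρ1 Φ b hc h0 h1 fun n P Q hP hPQ hQ hS iP iQ hV j => ?_
  obtain ⟨k0, k1, l0, l1, c, nu, lam, mu, hk0, hk1, hnu, hpt, hb⟩ := step j (cubeAverage P) (cubeAverage Q)
    (le_avg hP) (avg_mono hPQ) (avg_le hQ) hS
  refine hb.trans (le_trans ?_ (avg_mono fun x => hpt (P x) (Q x) (hP x) (hPQ x) (hQ x)))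
  rw [avg_sub, avg_add, avg_add, avg_add, avg_add, avg_const, avg_mul, avg_mul, avg_mul,
    xind_avg_sum k0 fun i x => Φ i (P x), xind_avg_sum k1 fun i x => Φ i (Q x)]
  have s0 : ∑ i, k0 i * b i (cubeAverage P) ≤ ∑ i, k0 i * cubeAverage fun x => Φ i (P x) :=
    Finset.sum_le_sum fun i _ => mul_le_mul_of_nonneg_left (iP i) (hk0 i)
  have s1 : ∑ i, k1 i * b i (cubeAverage Q) ≤ ∑ i, k1 i * cubeAverage fun x => Φ i (Q x) :=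
    Finset.sum_le_sum fun i _ => mul_le_mul_of_nonneg_left (iQ i) (hk1 i)
  have s2 := mul_le_mul_of_nonneg_left (hV lam mu) hnu
  change _ ≤ _ + _ + l0 * cubeAverage P + l1 * cubeAverage Q + c - _
  linarith

/-- `xind_vone` with the step only on `SmH`. -/
theorem xind_vone3 {ρ : ℝ} (hρ0 : 0 ≤ ρ) (hρ1 : ρ ≤ 1) (Φ b : ℝ → ℝ)
    (hc : ConcaveOn ℝ (Icc 0 1) Φ) (h0 : b 0 ≤ Φ 0) (h1 : b 1 ≤ Φ 1)
    (step : ∀ a0 a1 : ℝ, 0 ≤ a0 → a0 ≤ a1 → a1 ≤ 1 → SmH a0 a1 → ∃ k0 k1 l0 l1 c nu lam mu : ℝ,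
      0 ≤ k0 ∧ 0 ≤ k1 ∧ 0 ≤ nu ∧
      (∀ p0 p1 : ℝ, 0 ≤ p0 → p0 ≤ p1 → p1 ≤ 1 →
        k0 * Φ p0 + k1 * Φ p1 + l0 * p0 + l1 * p1 + c - nu * (lam * (p0 - a0) + mu * (p1 - a1)) ^ 2 ≤
          Φ ((1 + ρ) / 2 * p1 + (1 - ρ) / 2 * p0) + Φ ((1 + ρ) / 2 * p0 + (1 - ρ) / 2 * p1)) ∧
      2 * b ((a0 + a1) / 2) ≤ k0 * b a0 + k1 * b a1 + l0 * a0 + l1 * a1 + c - nu * (ρ ^ 2 * xvV lam mu a0 a1))
    (n : ℕ) (u : (Fin n → Bool) → ℝ) (hu : ∀ y, u y = 0 ∨ u y = 1) :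
    b (cubeAverage u) ≤ cubeAverage fun x => Φ (noise ρ u x) := by
  refine xind_vmul3 (ι := Unit) hρ0 hρ1 (fun _ => Φ) (fun _ => b) (fun _ => hc) (fun _ => h0) (fun _ => h1)
    (fun _ a0 a1 e0 e1 e2 hS => ?_) n u hu ()
  obtain ⟨k0, k1, l0, l1, c, nu, lam, mu, g0, g1, g2, hpt, hb⟩ := step a0 a1 e0 e1 e2 hS
  exact ⟨fun _ => k0, fun _ => k1, l0, l1, c, nu, lam, mu, fun _ => g0, fun _ => g1, g2,
    fun p0 p1 i0 i1 i2 => by simpa using hpt p0 p1 i0 i1 i2, by simpa using hb⟩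

end Crest.Agent.R307
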