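import Crest.Agent.R307.LGb
import Crest.Agent.R307.XSh
import Crest.Agent.R307.SV

/-!
# R307/LSb: the induction for `E log (T 1_A + t)`
-/

set_option autoImplicit false

namespace Crest.Agent.R307

open Crest.CubeNoise Real Set

/-- One step of the induction for the shifted logarithmic potential. -/
def LStepS (x t : ℝ) (B : ℝ → ℝ) (a0 a1 : ℝ) : Prop :=
  (a0 = 0 ∧ a1 = 1 ∧ 2 * B (1 / 2) ≤ log (((1 + 2 * t) ^ 2 - x) / 4)) ∨
  ∃ κ c D q τ lam W : ℝ, -1 ≤ κ ∧ κ ≤ 1 ∧ 0 < q ∧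
    (a1 + 3 * a0 - (a0 + a1) ^ 2 ≤ W ∨ (a1 + 3 * a0) / 2 ≤ W ∨ (4 - a0 - 3 * a1) / 2 ≤ W) ∧
    (∀ θ : ℝ, 0 ≤ θ → θ < 1 → c + D * (θ - τ) + q * (θ - τ) ^ 2 ≤ lgPsi x κ θ) ∧
    2 * B ((a0 + a1) / 2) ≤ (1 - κ) * B a0 + (1 + κ) * B a1 + c + lam * ((a1 - a0) - τ * (a0 + a1 + 2 * t)) -
      (D ^ 2 - 2 * D * lam * (a0 + a1 + 2 * t) + lam ^ 2 * ((a0 + a1 + 2 * t) ^ 2 +
        x * ((1 - x) * W + x * (a1 + 3 * a0 - (a0 + a1) ^ 2)))) / (4 * q)

theorem ls_odd {n : ℕ} {g : (Fin n → Bool) → ℝ} (hg : ∀ y, 0 ≤ g y) : W1 g ≤ (cubeAverage fun y => g y ^ 2) / 2 := by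
  have h := W1_le_odd g
  have : 0 ≤ Rv g := avg_nonneg fun y => mul_nonneg (hg _) (hg _)
  linarith

theorem ls_aff {n : ℕ} {ρ : ℝ} (g : (Fin n → Bool) → ℝ) (s c : ℝ) :
    (cubeAverage fun x => noise ρ (fun y => s * g y + c) x ^ 2) =
      s ^ 2 * (cubeAverage fun x => noise ρ g x ^ 2) + 2 * s * c * cubeAverage g + c ^ 2 := by
  have e : (fun x => noise ρ (fun y => s * g y + c) x ^ 2) =
      fun x => (s ^ 2 * noise ρ g x ^ 2 + 2 * s * c * noise ρ g x) + c ^ 2 := by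
    funext x; rw [noise_affine]; ring
  have h4 : (cubeAverage fun x => noise ρ g x) = cubeAverage g := avg_noise ρ g
  rw [e, avg_add, avg_add, avg_mul, avg_mul, avg_const, h4]

/-- The second moment of `T (v + w)`. -/
theorem ls_var {n : ℕ} {ρ W : ℝ} (hρ : ρ ^ 2 ≤ 1) {v w : (Fin n → Bool) → ℝ}
    (bv : ∀ y, v y = 0 ∨ v y = 1) (bw : ∀ y, w y = 0 ∨ w y = 1) (hvw : ∀ y, v y ≤ w y)
    (hW : cubeAverage w + 3 * cubeAverage v - (cubeAverage v + cubeAverage w) ^ 2 ≤ W ∨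
      (cubeAverage w + 3 * cubeAverage v) / 2 ≤ W ∨ (4 - cubeAverage v - 3 * cubeAverage w) / 2 ≤ W) :
    (cubeAverage fun x => (noise ρ v x + noise ρ w x) ^ 2) ≤ (cubeAverage v + cubeAverage w) ^ 2 +
      ρ ^ 2 * ((1 - ρ ^ 2) * W + ρ ^ 2 * (cubeAverage w + 3 * cubeAverage v - (cubeAverage v + cubeAverage w) ^ 2)) := by
  have x0 := sq_nonneg ρ
  have x1 : 0 ≤ ρ ^ 2 * (1 - ρ ^ 2) := mul_nonneg x0 (by linarith)
  have e4 : ρ ^ 4 = ρ ^ 2 * ρ ^ 2 := by ring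
  obtain ⟨g, hg⟩ : ∃ g : (Fin n → Bool) → ℝ, g = fun y => v y + w y := ⟨_, rfl⟩
  have ag : cubeAverage g = cubeAverage v + cubeAverage w := by rw [hg, avg_add]
  have ng : ∀ x, noise ρ v x + noise ρ w x = noise ρ g x := fun x => by rw [hg, noise_add]
  have sg : (cubeAverage fun y => g y ^ 2) = cubeAverage w + 3 * cubeAverage v := by
    rw [← avg_mul, ← avg_add]
    congr 1; funext y
    have := hvw y
    rw [hg]
    rcases bv y with a | a <;> rcases bw y with b | b <;> simp only [a, b] at this ⊢ <;> linarith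
  have g0 : ∀ y, 0 ≤ g y := fun y => by
    rw [hg]; rcases bv y with a | a <;> rcases bw y with b | b <;> simp only [a, b] <;> norm_num
  have g2 : ∀ y, 0 ≤ -1 * g y + 2 := fun y => by
    rw [hg]; rcases bv y with a | a <;> rcases bw y with b | b <;> simp only [a, b] <;> norm_num
  simp only [ng]
  rw [← ag] at hW ⊢
  rcases hW with h | h | h
  · have k := hn_var1 hρ g
    rw [sg] at k
    nlinarith [mul_le_mul_of_nonneg_left h x1]
  · have k := hn_var2 hρ g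
    have k1 := ls_odd g0
    rw [sg] at k k1
    rw [e4] at k
    nlinarith [mul_le_mul_of_nonneg_left (k1.trans h) x1]
  · have k := hn_var2 hρ fun y => -1 * g y + 2
    have k1 := ls_odd g2
    have s2 : (cubeAverage fun y => (-1 * g y + 2) ^ 2) = 4 - cubeAverage v - 3 * cubeAverage w := by
      have e : (fun y => (-1 * g y + 2) ^ 2) = fun y => (g y ^ 2 + -4 * g y) + 4 := by funext y; ring
      rw [e, avg_add, avg_add, avg_mul, avg_const, sg]
      change _ + -4 * cubeAverage g + _ = _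
      rw [ag]; ring
    have a2 : (cubeAverage fun y => -1 * g y + 2) = 2 - cubeAverage g := by
      rw [avg_add, avg_mul, avg_const]; change -1 * cubeAverage g + _ = _; ring
    rw [ls_aff, s2, a2, e4] at k
    rw [s2] at k1
    have e5 : 4 - cubeAverage v - 3 * cubeAverage w = cubeAverage w + 3 * cubeAverage v - 4 * cubeAverage g + 4 := by
      rw [ag]; ring
    have k2 := mul_le_mul_of_nonneg_left (k1.trans h) x1
    rw [e5] at k
    nlinarith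

theorem ls_zero {n : ℕ} {g : (Fin n → Bool) → ℝ} (hg : ∀ y, 0 ≤ g y) (h : cubeAverage g = 0) (y : Fin n → Bool) :
    g y = 0 := by
  by_contra hc
  have := noise_lt (ρ := 0) (by simp) (u := fun _ => 0) (v := g) hg ⟨y, lt_of_le_of_ne (hg y) (Ne.symm hc)⟩
  have k := avg_lt (f := fun _ => 0) (g := fun x => noise 0 g x) fun x => by simpa only [noise_const] using this x
  rw [avg_const] at k
  have h4 : (cubeAverage fun x => noise 0 g x) = cubeAverage g := avg_noise 0 g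
  linarith

theorem ls_avg {n : ℕ} {ρ t : ℝ} (hρ : |ρ| < 1) (ht : 0 < t) {B : ℝ → ℝ} {v w : (Fin n → Bool) → ℝ}
    (bv : ∀ y, v y = 0 ∨ v y = 1) (bw : ∀ y, w y = 0 ∨ w y = 1) (hvw : ∀ y, v y ≤ w y)
    (iv : B (cubeAverage v) ≤ cubeAverage fun x => log (noise ρ v x + t))
    (iw : B (cubeAverage w) ≤ cubeAverage fun x => log (noise ρ w x + t))
    (st : LStepS (ρ ^ 2) t B (cubeAverage v) (cubeAverage w)) :
    2 * B ((cubeAverage v + cubeAverage w) / 2) ≤ cubeAverage fun x =>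
      log ((((noise ρ v x + t) + (noise ρ w x + t)) ^ 2 - ρ ^ 2 * ((noise ρ w x + t) - (noise ρ v x + t)) ^ 2) / 4) := by
  have hx1 : ρ ^ 2 < 1 := by nlinarith [abs_lt.1 hρ]
  have h4 : (cubeAverage fun x => noise ρ v x) = cubeAverage v := avg_noise ρ v
  have h5 : (cubeAverage fun x => noise ρ w x) = cubeAverage w := avg_noise ρ w
  rcases st with ⟨e0, e1, st⟩ | ⟨κ, c, D, q, τ, lam, W, k0, k1, hq, hW, hpt, st⟩
  · have z0 := ls_zero (g := fun x => noise ρ v x) (xv_noise_nonneg hρ.le bv) (h4.trans e0)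
    have z1 := ls_zero (g := fun x => 1 - noise ρ w x) (fun x => sub_nonneg.2 (xv_noise_le hρ.le bw x))
      (by rw [avg_sub, avg_const, h5, e1, sub_self])
    rw [e0, e1, zero_add]
    refine st.trans (le_avg fun x => le_of_eq ?_)
    rw [z0 x, show noise ρ w x = 1 by linarith [z1 x]]
    congr 1; ring
  · refine st.trans (le_trans ?_ (avg_mono fun x => lg_ptQ (lam := lam) (sq_nonneg ρ) hx1 hq hpt
      (by linarith [xv_noise_nonneg hρ.le bv x]) (by linarith [noise_mono hρ.le hvw x])))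
    have hV := ls_var hx1.le bv bw hvw hW
    have e2 : (fun x => lam ^ 2 / (4 * q) * (noise ρ v x + t + (noise ρ w x + t)) ^ 2) = fun x =>
        lam ^ 2 / (4 * q) * (((noise ρ v x + noise ρ w x) ^ 2 + (4 * t) * (noise ρ v x + noise ρ w x)) + 4 * t ^ 2) := by
      funext x; ring
    rw [avg_sub, e2, avg_add, avg_add, avg_add, avg_add, avg_mul, avg_mul, avg_mul, avg_mul, avg_mul, avg_const,
      avg_add, avg_add, avg_add, avg_add, avg_mul, avg_add, avg_const, avg_const, h4, h5]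
    have s0 := mul_le_mul_of_nonneg_left iv (by linarith : 0 ≤ 1 - κ)
    have s1 := mul_le_mul_of_nonneg_left iw (by linarith : 0 ≤ 1 + κ)
    generalize (cubeAverage fun x => (noise ρ v x + noise ρ w x) ^ 2) = M at hV
    generalize cubeAverage v = a0 at *
    generalize cubeAverage w = a1 at *
    generalize ρ ^ 2 * ((1 - ρ ^ 2) * W + ρ ^ 2 * (a1 + 3 * a0 - (a0 + a1) ^ 2)) = V at *
    have s3 := mul_le_mul_of_nonneg_left hV (by positivity : 0 ≤ lam ^ 2 / (4 * q))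
    have e3 : (D ^ 2 - 2 * D * lam * (a0 + a1 + 2 * t) + lam ^ 2 * ((a0 + a1 + 2 * t) ^ 2 + V)) / (4 * q)
        = D ^ 2 / (4 * q) - 2 * D * lam / (4 * q) * (a0 + a1 + 2 * t) +
          lam ^ 2 / (4 * q) * ((a0 + a1 + 2 * t) ^ 2 + V) := by ring
    rw [e3]
    linarith

theorem ls_conc {t : ℝ} (ht : 0 < t) : ConcaveOn ℝ (Icc (0 : ℝ) 1) fun p => log (p + t) := by
  refine ⟨convex_Icc 0 1, fun x hx y hy a b ha hb hab => ?_⟩
  have := strictConcaveOn_log_Ioi.concaveOn.2 (show x + t ∈ Ioi (0 : ℝ) by simp only [mem_Ioi]; linarith [hx.1])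
    (show y + t ∈ Ioi (0 : ℝ) by simp only [mem_Ioi]; linarith [hy.1]) ha hb hab
  simp only [smul_eq_mul] at this ⊢
  rwa [show a * (x + t) + b * (y + t) = a * x + b * y + t by linear_combination t * hab] at this

/-- The shifted logarithmic budget from the steps on `SmH`. -/
theorem ls_ind {ρ t : ℝ} (hρ0 : 0 ≤ ρ) (hρ1 : ρ < 1) (ht : 0 < t) {B : ℝ → ℝ} (h0 : B 0 ≤ log t)
    (h1 : B 1 ≤ log (1 + t))
    (step : ∀ a0 a1 : ℝ, 0 ≤ a0 → a0 ≤ a1 → a1 ≤ 1 → SmH a0 a1 → LStepS (ρ ^ 2) t B a0 a1)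
    (n : ℕ) (u : (Fin n → Bool) → ℝ) (hu : ∀ y, u y = 0 ∨ u y = 1) :
    B (cubeAverage u) ≤ cubeAverage fun x => log (noise ρ u x + t) := by
  have hρ : |ρ| < 1 := abs_lt.2 ⟨by linarith, hρ1⟩
  refine xind_set3 (ι := Unit) hρ0 hρ1.le (fun _ p => log (p + t)) (fun _ => B) (fun _ => ls_conc ht)
    (fun _ => by simpa using h0) (fun _ => h1) (fun n v w bv bw hvw hS iv iw _ => ?_) n u hu ()
  have a0 : 0 ≤ cubeAverage v := le_avg fun y => by rcases bv y with a | a <;> rw [a]; norm_num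
  have a1 : cubeAverage w ≤ 1 := avg_le fun y => by rcases bw y with a | a <;> rw [a]; norm_num
  refine (ls_avg hρ ht bv bw hvw (iv ()) (iw ()) (step _ _ a0 (avg_mono hvw) a1 hS)).trans (avg_mono fun x => le_of_eq ?_)
  have p0 := xv_noise_nonneg hρ.le bv x
  have q0 := xv_noise_nonneg hρ.le bw x
  generalize noise ρ v x = P at *
  generalize noise ρ w x = Q at *
  have g : ∀ α β : ℝ, 0 ≤ α → 0 ≤ β → ∀ X Y : ℝ, 0 ≤ X → 0 ≤ Y → α * X + β * Y + t ≠ 0 := fun α β ha hb X Y hX hY => by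
    positivity
  rw [← log_mul (g _ _ (by linarith) (by linarith) _ _ q0 p0) (g _ _ (by linarith) (by linarith) _ _ p0 q0)]
  congr 1; ring

/-- The step in the chart `a0 + t = m (1 - θ)`, `a1 + t = m (1 + θ)`, with the best `lam`;
`N = x ((1-x) W + x Vb) / (2 m)`, `jv = N / (2 m + N)`. -/
theorem ls_stepQ {x t m θ κ τ e W N D jv a0 a1 : ℝ} {B : ℝ → ℝ} (hx0 : 0 ≤ x) (hx1 : x < 1)
    (e0 : a0 + t = m * (1 - θ)) (e1 : a1 + t = m * (1 + θ))
    (hτ0 : 0 ≤ τ) (hτ1 : τ < 1) (hκ0 : -1 ≤ κ) (hκ1 : κ ≤ 1)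
    (he : e * (1 - τ ^ 2) = 2 * (τ - κ)) (hc4 : 0 < lgc4 x τ e) (haq : 0 < lgaq x τ e) (hq : 0 < lgq x τ e)
    (hW : a1 + 3 * a0 - (a0 + a1) ^ 2 ≤ W ∨ (a1 + 3 * a0) / 2 ≤ W ∨ (4 - a0 - 3 * a1) / 2 ≤ W)
    (hN : N * (2 * m) = x * ((1 - x) * W + x * (a1 + 3 * a0 - (a0 + a1) ^ 2))) (hN0 : 0 < 2 * m + N)
    (hD : D = e - 2 * (lgX x τ * τ)) (hj : jv = N / (2 * m + N))
    (H : 2 * B ((a0 + a1) / 2) ≤ (1 - κ) * B a0 + (1 + κ) * B a1 + lgPsi x κ τ +
      ((1 - jv) * ((θ - τ) * (D + lgq x τ e * (θ - τ))) - jv * D ^ 2 / (4 * lgq x τ e))) :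
    LStepS x t B a0 a1 := by
  refine Or.inr ⟨κ, lgPsi x κ τ, D, lgq x τ e, τ, (D + 2 * lgq x τ e * (θ - τ)) / (2 * m + N), W, hκ0, hκ1, hq, hW,
    fun z z0 z1 => hD ▸ lg_pt hx0 hx1 hτ0 hτ1 he hc4 haq z0 z1, ?_⟩
  generalize lgq x τ e = q at *
  rw [← hN, show a0 + a1 + 2 * t = 2 * m by linarith, show a1 - a0 = 2 * m * θ by linarith]
  have e2 : (D + 2 * q * (θ - τ)) / (2 * m + N) * (2 * m * θ - τ * (2 * m)) -
      (D ^ 2 - 2 * D * ((D + 2 * q * (θ - τ)) / (2 * m + N)) * (2 * m) +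
        ((D + 2 * q * (θ - τ)) / (2 * m + N)) ^ 2 * ((2 * m) ^ 2 + N * (2 * m))) / (4 * q) =
      (1 - jv) * ((θ - τ) * (D + q * (θ - τ))) - jv * D ^ 2 / (4 * q) := by
    rw [hj]
    obtain ⟨Z, hZ⟩ : ∃ Z, Z = 2 * m + N := ⟨_, rfl⟩
    rw [show N = Z - 2 * m by linarith, show 2 * m + (Z - 2 * m) = Z by ring]
    rw [← hZ] at hN0
    field_simp
    ring
  linarith

end Crest.Agent.R307
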