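import Crest.Agent.R307.LSfCC0
set_option autoImplicit false
set_option maxRecDepth 100000
namespace Crest.Agent.R307.LSfC
open Crest.Agent.R307.IA Crest.Agent.R307.IA1

theorem cov : Cov Q 1152921504606846976 1152922054362660864 :=
  k0

theorem main (r : ℝ) (l0 : (0:ℝ) ≤ r) (u0 : r ≤ (1/2:ℝ)) : Q r :=
  cov r (le_trans (by norm_num [val, SS, BB]) l0) (le_trans u0 (by norm_num [val, SS, BB]))

end Crest.Agent.R307.LSfC
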