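import Crest.Agent.R307.SM
import Crest.Agent.R307.LSfCM

/-!
# R307/LSf: the end family for the shifted logarithm
-/

set_option autoImplicit false

namespace Crest.Agent.R307

open Real

theorem ls_fam : SMFam (fun p => log (p + 1 / 125)) (24 / 125) (24 / 125) (9249 / 10000) (67 / 50) (67 / 50) := by
  refine ⟨by norm_num, by norm_num, by norm_num, fun p h0 h1 => ?_⟩
  have hp : 0 ≤ p * (1 - p) := mul_nonneg h0 (by linarith)
  have hr := sq_sqrt hp
  have r1 : √(p * (1 - p)) ≤ 1 / 2 := sqrt_le_iff.2 ⟨by norm_num, by nlinarith [sq_nonneg (2 * p - 1)]⟩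
  have H := LSfC.main _ (sqrt_nonneg _) r1
  unfold LSfC.Q at H
  rw [hr, show p * (1 - p) + 126 / 15625 = (p + 1 / 125) * (1 - p + 1 / 125) by ring,
    log_mul (by linarith) (by linarith)] at H
  linarith

end Crest.Agent.R307
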