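import Crest.Agent.R307.IAl1
import Crest.Agent.R307.IAx
set_option autoImplicit false
set_option linter.unusedVariables false
set_option maxRecDepth 20000
namespace Crest.Agent.R307.LSfC
open Crest.Agent.R307.IA Crest.Agent.R307.IA1

theorem In_cast {e1 : ℝ} {x y1 r : ℕ} {v w : ℝ}
    (h : In e1 x y1 r v) (e : v = w) : In e1 x y1 r w := e ▸ h


def Q (r : ℝ) : Prop :=
  (
  (0 < ((10000:ℝ) * (((((2:ℝ) * r) - ((67/50:ℝ) * (r ^ 2))) - (9249/10000:ℝ)) - ((24/125:ℝ) * (Real.log ((r ^ 2) + (126/15625:ℝ))))))))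

noncomputable def alt0 (z1 w1 : ℕ) : Bool :=
  smulK 2 1 1152921504606846977 2305843009213693952 z1 (Nat.add w1 1152921504606846976) 0 fun c1 a1_1 q1 =>
  sqK z1 (Nat.add w1 1152921504606846976) 0 fun c2 a2_1 q2 =>
  smulK 67 50 57646075230342348850 77245740808658747392 c2 a2_1 q2 fun c3 a3_1 q3 =>
  subK c1 a1_1 q1 c3 a3_1 q3 fun c4 a4_1 q4 =>
  addcK c4 a4_1 q4 1152920487668542446 1 fun c5 a5_1 q5 =>
  addcK c2 a2_1 q2 1152921513473308742 1 fun c7 a7_1 q7 =>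
  logK c7 a7_1 q7 fun c8 a8_1 q8 =>
  smulK 24 125 144115188075855872125 27670116110564327424 c8 a8_1 q8 fun c9 a9_1 q9 =>
  subK c5 a5_1 q5 c9 a9_1 q9 fun c10 a10_1 q10 =>
  smulK 10000 1 1152921504606846977 11529215046068469760000 c10 a10_1 q10 fun c11 a11_1 q11 =>
  pos c11 a11_1 q11

theorem alt0_s {z1 w1 : ℕ} {e1 r : ℝ} (he : Ev e1)
    (hx1 : In e1 z1 (Nat.add w1 1152921504606846976) 0 r)
    (H0 : alt0 z1 w1 = true) : 0 < ((10000:ℝ) * (((((2:ℝ) * r) - ((67/50:ℝ) * (r ^ 2))) - (9249/10000:ℝ)) - ((24/125:ℝ) * (Real.log ((r ^ 2) + (126/15625:ℝ)))))) := by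
  unfold alt0 at H0
  refine smulK_s he (w := (2:ℝ)) (by norm_num) (by norm_num) (by norm_num) (by norm_num) hx1 (fun _ _ _ h1 H1 => ?_) H0
  refine sqK_s he hx1 (fun _ _ _ h2 H2 => ?_) H1
  refine smulK_s he (w := (67/50:ℝ)) (by norm_num) (by norm_num) (by norm_num) (by norm_num) h2 (fun _ _ _ h3 H3 => ?_) H2
  refine subK_s he h1 h3 (fun _ _ _ h4 H4 => ?_) H3
  refine addcK_s he h4 (v' := (-9249/10000:ℝ)) (by norm_num [SS, BB, abs_le]) (fun _ _ _ h5 H5 => ?_) H4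
  have h6 := In_cast h5 (sub_c (c := (9249/10000:ℝ)) (by norm_num))
  refine addcK_s he h2 (v' := (126/15625:ℝ)) (by norm_num [SS, BB, abs_le]) (fun _ _ _ h7 H6 => ?_) H5
  refine logK_s he h7 (fun _ _ _ h8 H7 => ?_) H6
  refine smulK_s he (w := (24/125:ℝ)) (by norm_num) (by norm_num) (by norm_num) (by norm_num) h8 (fun _ _ _ h9 H8 => ?_) H7
  refine subK_s he h6 h9 (fun _ _ _ h10 H9 => ?_) H8
  refine smulK_s he (w := (10000:ℝ)) (by norm_num) (by norm_num) (by norm_num) (by norm_num) h10 (fun _ _ _ h11 H10 => ?_) H9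
  exact pos_s he h11 H10

attribute [irreducible] alt0

noncomputable def leaf (j u z1 w1 : ℕ) : Bool :=
  alt0 z1 w1

theorem snd : Snd Q leaf := by
  intro j u z1 w1 e1 he H
  unfold leaf at H
  unfold Q
  exact alt0_s he (var1 z1 w1) H

end Crest.Agent.R307.LSfC
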