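import Crest.Agent.R307.XInd

/-!
# R307/MB: the Bellman function of window M
-/

set_option autoImplicit false

namespace Crest.Agent.R307

noncomputable def mC0 (s : ℝ) : ℝ := 2913 / 10000 + 633 / 10000 * (s - 27 / 40)
noncomputable def mC1 (s : ℝ) : ℝ := -(61 / 1000) - 1224 / 10000 * (s - 27 / 40)
noncomputable def mC2 (s : ℝ) : ℝ := 288 / 10000 + 231 / 10000 * (s - 27 / 40)
noncomputable def mE1 (s : ℝ) : ℝ := 10602 / 10000 + 2122 / 1000 * (s - 27 / 40)
noncomputable def mE2 (s : ℝ) : ℝ := 28992 / 10000 + 116721 / 10000 * (s - 27 / 40)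

/-- The factor `P`. -/
noncomputable def Pq (s a : ℝ) : ℝ :=
  mC0 s + (2 * a - 1) * (mC1 s + (2 * a - 1) * mC2 s) + mE1 s / (1 + 8 * a) + mE2 s / (1 + 70 * a)

/-- The Bellman function of window M (`s = √(1-ρ²)`). -/
noncomputable def Bq (s a : ℝ) : ℝ := a + a * (1 - a) * Pq s a

theorem Bq_zero (s : ℝ) : Bq s 0 = 0 := by simp [Bq]

theorem Bq_one (s : ℝ) : Bq s 1 = 1 := by simp [Bq]

end Crest.Agent.R307
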