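import Crest.Agent.R307.MFcC0
set_option autoImplicit false
set_option maxRecDepth 100000
namespace Crest.Agent.R307.MFc
open Crest.Agent.R307.IA Crest.Agent.R307.IA2

theorem cov : Cov Q 1152922164313823641 1152922330669932925 1152922054362660864 1152922604118474752 :=
  k0

theorem main (s a : ℝ) (l0 : (3/5:ℝ) ≤ s) (u0 : s ≤ (7513/10000:ℝ)) (l1 : (1/2:ℝ) ≤ a) (u1 : a ≤ (1:ℝ)) : Q s a :=
  cov s a (le_trans (by norm_num [val, SS, BB]) l0) (le_trans u0 (by norm_num [val, SS, BB])) (le_trans (by norm_num [val, SS, BB]) l1) (le_trans u1 (by norm_num [val, SS, BB]))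

end Crest.Agent.R307.MFc
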