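import Crest.Agent.R307.SW
import Crest.Agent.R307.MFcM
import Crest.Agent.R307.MB

/-!
# R307/MF: the end step of window M
-/

set_option autoImplicit false

namespace Crest.Agent.R307

open Crest.CubeNoise

/-- The budget of window M. -/
noncomputable def mfB (s a : ℝ) : ℝ :=
  a + a * (1 - a) * (2913 / 10000 + 633 / 10000 * (s - 27 / 40) + (-61 / 1000 - 153 / 1250 * (s - 27 / 40)) * (2 * a - 1)
    + (18 / 625 + 231 / 10000 * (s - 27 / 40)) * (2 * a - 1) ^ 2 + (5301 / 5000 + 1061 / 500 * (s - 27 / 40)) / (1 + 8 * a)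
    + (1812 / 625 + 116721 / 10000 * (s - 27 / 40)) / (1 + 70 * a))

theorem mf_s {ρ : ℝ} (h0 : 66 / 100 ≤ ρ) (h1 : ρ ≤ 4 / 5) :
    3 / 5 ≤ √(1 - ρ ^ 2) ∧ √(1 - ρ ^ 2) ≤ 7513 / 10000 ∧ √(1 - ρ ^ 2) ^ 2 = 1 - ρ ^ 2 :=
  ⟨Real.le_sqrt_of_sq_le (by nlinarith), Real.sqrt_le_iff.2 ⟨by norm_num, by nlinarith⟩, Real.sq_sqrt (by nlinarith)⟩

theorem mf_core {ρ : ℝ} (h0 : 66 / 100 ≤ ρ) (h1 : ρ ≤ 4 / 5)
    (hB : ∀ (n : ℕ) (u : (Fin n → Bool) → ℝ), (∀ y, u y = 0 ∨ u y = 1) →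
      mfB (√(1 - ρ ^ 2)) (cubeAverage u) ≤ cubeAverage fun x => √(noise ρ u x)) : XCore ρ := by
  obtain ⟨s0, s1, s2⟩ := mf_s h0 h1
  refine sm_sym2 (by linarith) (by linarith) (mfB (√(1 - ρ ^ 2))) hB fun a a0 a1 => ?_
  set s := √(1 - ρ ^ 2) with hs
  have h := MFc.main s a s0 s1 a0 a1
  have hx : MFc.x s a = ρ ^ 2 := by rw [MFc.x, s2]; ring
  have hV : MFc.V s a = smV2 ρ a := by rw [MFc.V, hx]; rfl
  have e1 : MFc.B1 s a = mfB s a := rfl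
  have e2 : MFc.B2 s a = mfB s (1 - a) := rfl
  have e3 : MFc.Ee s a = smE (MFc.w s a) := rfl
  have e4 : MFc.D s a = smD (MFc.w s a) := rfl
  unfold MFc.Q at h
  rw [hV, e1, e2, e3, e4] at h
  refine ⟨MFc.w s a, ?_, by linarith⟩
  unfold MFc.w
  nlinarith

theorem mfB_eq (s a : ℝ) : mfB s a = Bq s a := by
  unfold mfB Bq Pq mC0 mC1 mC2 mE1 mE2
  ring

theorem mq_fin {ρ : ℝ} (h0 : 66 / 100 ≤ ρ) (h1 : ρ ≤ 4 / 5)
    (hB : ∀ (n : ℕ) (u : (Fin n → Bool) → ℝ), (∀ y, u y = 0 ∨ u y = 1) →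
      Bq (√(1 - ρ ^ 2)) (cubeAverage u) ≤ cubeAverage fun x => √(noise ρ u x)) : XCore ρ :=
  mf_core h0 h1 fun n u hu => (mfB_eq _ _).le.trans (hB n u hu)

end Crest.Agent.R307
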