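import Crest.Agent.R307.IA2
import Crest.Agent.R307.IAx
set_option autoImplicit false
set_option linter.unusedVariables false
set_option maxRecDepth 20000
namespace Crest.Agent.R307.MFc
open Crest.Agent.R307.IA Crest.Agent.R307.IA2

theorem In_cast {e1 e2 : ℝ} {x y1 y2 r : ℕ} {v w : ℝ}
    (h : In e1 e2 x y1 y2 r v) (e : v = w) : In e1 e2 x y1 y2 r w := e ▸ h

noncomputable def w (s a : ℝ) : ℝ := (((209/200:ℝ) + ((3/10:ℝ) * s)) - ((3/10:ℝ) * ((((2:ℝ) * a) - (1:ℝ)) ^ 2)))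
noncomputable def Ee (s a : ℝ) : ℝ := ((70711/50000:ℝ) * (((2:ℝ) * (w s a)) + (70711/50000:ℝ)))
noncomputable def B1 (s a : ℝ) : ℝ := (a + ((a * ((1:ℝ) - a)) * ((((((2913/10000:ℝ) + ((633/10000:ℝ) * (s - (27/40:ℝ)))) + (((-61/1000:ℝ) - ((153/1250:ℝ) * (s - (27/40:ℝ)))) * (((2:ℝ) * a) - (1:ℝ)))) + (((18/625:ℝ) + ((231/10000:ℝ) * (s - (27/40:ℝ)))) * ((((2:ℝ) * a) - (1:ℝ)) ^ 2))) + (((5301/5000:ℝ) + ((1061/500:ℝ) * (s - (27/40:ℝ)))) / ((1:ℝ) + ((8:ℝ) * a)))) + (((1812/625:ℝ) + ((116721/10000:ℝ) * (s - (27/40:ℝ)))) / ((1:ℝ) + ((70:ℝ) * a))))))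
noncomputable def B2 (s a : ℝ) : ℝ := (((1:ℝ) - a) + ((((1:ℝ) - a) * ((1:ℝ) - ((1:ℝ) - a))) * ((((((2913/10000:ℝ) + ((633/10000:ℝ) * (s - (27/40:ℝ)))) + (((-61/1000:ℝ) - ((153/1250:ℝ) * (s - (27/40:ℝ)))) * (((2:ℝ) * ((1:ℝ) - a)) - (1:ℝ)))) + (((18/625:ℝ) + ((231/10000:ℝ) * (s - (27/40:ℝ)))) * ((((2:ℝ) * ((1:ℝ) - a)) - (1:ℝ)) ^ 2))) + (((5301/5000:ℝ) + ((1061/500:ℝ) * (s - (27/40:ℝ)))) / ((1:ℝ) + ((8:ℝ) * ((1:ℝ) - a))))) + (((1812/625:ℝ) + ((116721/10000:ℝ) * (s - (27/40:ℝ)))) / ((1:ℝ) + ((70:ℝ) * ((1:ℝ) - a)))))))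
noncomputable def D (s a : ℝ) : ℝ := (((Ee s a) + ((3:ℝ) * ((w s a) ^ 2))) - (2:ℝ))
noncomputable def x (s a : ℝ) : ℝ := ((1:ℝ) - (s ^ 2))
noncomputable def V (s a : ℝ) : ℝ := (((x s a) * ((((1:ℝ) - (x s a)) * (min ((4/5:ℝ) - ((539/5000:ℝ) * (x s a))) ((2:ℝ) * ((1:ℝ) - a)))) + ((x s a) * ((4:ℝ) * (a * ((1:ℝ) - a)))))) / (4:ℝ))

def Q (s a : ℝ) : Prop :=
  (
  (0 < (((((2:ℝ) * (w s a)) * ((Ee s a) + ((w s a) ^ 2))) * ((B1 s a) + (B2 s a))) - (((((D s a) * (((2:ℝ) * (√(a * ((1:ℝ) - a)))) + s)) + (1:ℝ)) + (((w s a) ^ 2) * (Ee s a))) - ((4:ℝ) * ((a * ((1:ℝ) - a)) - (V s a)))))))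

noncomputable def alt0 (z1 w1 z2 w2 : ℕ) : Bool :=
  smulK 3 10 11529215046068469770 3458764513820540928 z1 (Nat.add w1 1152921504606846976) 1152921504606846976 0 fun c1 a1_1 a1_2 q1 =>
  addcK c1 a1_1 a1_2 q1 1152922653596498002 1 fun c2 a2_1 a2_2 q2 =>
  smulK 2 1 1152921504606846977 2305843009213693952 z2 1152921504606846976 (Nat.add w2 1152921504606846976) 0 fun c4 a4_1 a4_2 q4 =>
  addcK c4 a4_1 a4_2 q4 1152920405095219200 0 fun c5 a5_1 a5_2 q5 =>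
  sqK c5 a5_1 a5_2 q5 fun c7 a7_1 a7_2 q7 =>
  smulK 3 10 11529215046068469770 3458764513820540928 c7 a7_1 a7_2 q7 fun c8 a8_1 a8_2 q8 =>
  subK c2 a2_1 a2_2 q2 c8 a8_1 a8_2 q8 fun c9 a9_1 a9_2 q9 =>
  smulK 2 1 1152921504606846977 2305843009213693952 c9 a9_1 a9_2 q9 fun c11 a11_1 a11_2 q11 =>
  addcK c11 a11_1 a11_2 q11 1152923059558181209 1 fun c12 a12_1 a12_2 q12 =>
  smulK 70711 50000 57646075230342348850000 81524232512254756519936 c12 a12_1 a12_2 q12 fun c13 a13_1 a13_2 q13 =>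
  sqK c9 a9_1 a9_2 q9 fun c15 a15_1 a15_2 q15 =>
  addK c13 a13_1 a13_2 q13 c15 a15_1 a15_2 q15 fun c16 a16_1 a16_2 q16 =>
  mulK c11 a11_1 a11_2 q11 c16 a16_1 a16_2 q16 fun c17 a17_1 a17_2 q17 =>
  negK z2 1152921504606846976 (Nat.add w2 1152921504606846976) 0 fun c18 a18_1 a18_2 q18 =>
  addcK c18 a18_1 a18_2 q18 1152922604118474752 0 fun c19 a19_1 a19_2 q19 =>
  mulK z2 1152921504606846976 (Nat.add w2 1152921504606846976) 0 c19 a19_1 a19_2 q19 fun c21 a21_1 a21_2 q21 =>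
  addcK z1 (Nat.add w1 1152921504606846976) 1152921504606846976 0 1152920762436498227 1 fun c22 a22_1 a22_2 q22 =>
  smulK 633 10000 11529215046068469770000 729799312416134135808 c22 a22_1 a22_2 q22 fun c24 a24_1 a24_2 q24 =>
  addcK c24 a24_1 a24_2 q24 1152921824894584147 1 fun c25 a25_1 a25_2 q25 =>
  smulK 153 1250 1441151880758558721250 176396990204847587328 c22 a22_1 a22_2 q22 fun c27 a27_1 a27_2 q27 =>
  negK c27 a27_1 a27_2 q27 fun c28 a28_1 a28_2 q28 =>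
  addcK c28 a28_1 a28_2 q28 1152921437536637682 1 fun c29 a29_1 a29_2 q29 =>
  mulK c29 a29_1 a29_2 q29 c5 a5_1 a5_2 q5 fun c31 a31_1 a31_2 q31 =>
  addK c25 a25_1 a25_2 q25 c31 a31_1 a31_2 q31 fun c32 a32_1 a32_2 q32 =>
  smulK 231 10000 11529215046068469770000 266324867564181651456 c22 a22_1 a22_2 q22 fun c33 a33_1 a33_2 q33 =>
  addcK c33 a33_1 a33_2 q33 1152921536272781856 1 fun c34 a34_1 a34_2 q34 =>
  mulK c34 a34_1 a34_2 q34 c7 a7_1 a7_2 q7 fun c36 a36_1 a36_2 q36 =>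
  addK c32 a32_1 a32_2 q32 c36 a36_1 a36_2 q36 fun c37 a37_1 a37_2 q37 =>
  smulK 8 1 1152921504606846977 9223372036854775808 z2 1152921504606846976 (Nat.add w2 1152921504606846976) 0 fun c38 a38_1 a38_2 q38 =>
  addcK c38 a38_1 a38_2 q38 1152922604118474752 0 fun c39 a39_1 a39_2 q39 =>
  invK c39 a39_1 a39_2 q39 fun c41 a41_1 a41_2 q41 =>
  smulK 1061 500 576460752303423488500 1223249716387864641536 c22 a22_1 a22_2 q22 fun c42 a42_1 a42_2 q42 =>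
  addcK c42 a42_1 a42_2 q42 1152922670309074744 1 fun c43 a43_1 a43_2 q43 =>
  mulK c43 a43_1 a43_2 q43 c41 a41_1 a41_2 q41 fun c45 a45_1 a45_2 q45 =>
  addK c37 a37_1 a37_2 q37 c45 a45_1 a45_2 q45 fun c47 a47_1 a47_2 q47 =>
  smulK 70 1 1152921504606846977 80704505322479288320 z2 1152921504606846976 (Nat.add w2 1152921504606846976) 0 fun c48 a48_1 a48_2 q48 =>
  addcK c48 a48_1 a48_2 q48 1152922604118474752 0 fun c49 a49_1 a49_2 q49 =>
  invK c49 a49_1 a49_2 q49 fun c51 a51_1 a51_2 q51 =>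
  smulK 116721 10000 11529215046068469770000 134570150939215785885696 c22 a22_1 a22_2 q22 fun c52 a52_1 a52_2 q52 =>
  addcK c52 a52_1 a52_2 q52 1152924692310958224 1 fun c53 a53_1 a53_2 q53 =>
  mulK c53 a53_1 a53_2 q53 c51 a51_1 a51_2 q51 fun c55 a55_1 a55_2 q55 =>
  addK c47 a47_1 a47_2 q47 c55 a55_1 a55_2 q55 fun c57 a57_1 a57_2 q57 =>
  mulK c21 a21_1 a21_2 q21 c57 a57_1 a57_2 q57 fun c58 a58_1 a58_2 q58 =>
  addK z2 1152921504606846976 (Nat.add w2 1152921504606846976) 0 c58 a58_1 a58_2 q58 fun c59 a59_1 a59_2 q59 =>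
  negK c19 a19_1 a19_2 q19 fun c61 a61_1 a61_2 q61 =>
  addcK c61 a61_1 a61_2 q61 1152922604118474752 0 fun c62 a62_1 a62_2 q62 =>
  mulK c19 a19_1 a19_2 q19 c62 a62_1 a62_2 q62 fun c64 a64_1 a64_2 q64 =>
  smulK 2 1 1152921504606846977 2305843009213693952 c19 a19_1 a19_2 q19 fun c65 a65_1 a65_2 q65 =>
  addcK c65 a65_1 a65_2 q65 1152920405095219200 0 fun c66 a66_1 a66_2 q66 =>
  mulK c29 a29_1 a29_2 q29 c66 a66_1 a66_2 q66 fun c68 a68_1 a68_2 q68 =>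
  addK c25 a25_1 a25_2 q25 c68 a68_1 a68_2 q68 fun c69 a69_1 a69_2 q69 =>
  sqK c66 a66_1 a66_2 q66 fun c70 a70_1 a70_2 q70 =>
  mulK c34 a34_1 a34_2 q34 c70 a70_1 a70_2 q70 fun c71 a71_1 a71_2 q71 =>
  addK c69 a69_1 a69_2 q69 c71 a71_1 a71_2 q71 fun c72 a72_1 a72_2 q72 =>
  smulK 8 1 1152921504606846977 9223372036854775808 c19 a19_1 a19_2 q19 fun c73 a73_1 a73_2 q73 =>
  addcK c73 a73_1 a73_2 q73 1152922604118474752 0 fun c74 a74_1 a74_2 q74 =>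
  invK c74 a74_1 a74_2 q74 fun c76 a76_1 a76_2 q76 =>
  mulK c43 a43_1 a43_2 q43 c76 a76_1 a76_2 q76 fun c77 a77_1 a77_2 q77 =>
  addK c72 a72_1 a72_2 q72 c77 a77_1 a77_2 q77 fun c79 a79_1 a79_2 q79 =>
  smulK 70 1 1152921504606846977 80704505322479288320 c19 a19_1 a19_2 q19 fun c80 a80_1 a80_2 q80 =>
  addcK c80 a80_1 a80_2 q80 1152922604118474752 0 fun c81 a81_1 a81_2 q81 =>
  invK c81 a81_1 a81_2 q81 fun c83 a83_1 a83_2 q83 =>
  mulK c53 a53_1 a53_2 q53 c83 a83_1 a83_2 q83 fun c84 a84_1 a84_2 q84 =>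
  addK c79 a79_1 a79_2 q79 c84 a84_1 a84_2 q84 fun c86 a86_1 a86_2 q86 =>
  mulK c64 a64_1 a64_2 q64 c86 a86_1 a86_2 q86 fun c87 a87_1 a87_2 q87 =>
  addK c19 a19_1 a19_2 q19 c87 a87_1 a87_2 q87 fun c88 a88_1 a88_2 q88 =>
  addK c59 a59_1 a59_2 q59 c88 a88_1 a88_2 q88 fun c90 a90_1 a90_2 q90 =>
  mulK c17 a17_1 a17_2 q17 c90 a90_1 a90_2 q90 fun c91 a91_1 a91_2 q91 =>
  smulK 3 1 1152921504606846977 3458764513820540928 c15 a15_1 a15_2 q15 fun c92 a92_1 a92_2 q92 =>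
  addK c13 a13_1 a13_2 q13 c92 a92_1 a92_2 q92 fun c93 a93_1 a93_2 q93 =>
  addcK c93 a93_1 a93_2 q93 1152919305583591424 0 fun c94 a94_1 a94_2 q94 =>
  sqrtK c21 a21_1 a21_2 q21 fun c97 a97_1 a97_2 q97 =>
  smulK 2 1 1152921504606846977 2305843009213693952 c97 a97_1 a97_2 q97 fun c98 a98_1 a98_2 q98 =>
  addK c98 a98_1 a98_2 q98 z1 (Nat.add w1 1152921504606846976) 1152921504606846976 0 fun c99 a99_1 a99_2 q99 =>
  mulK c94 a94_1 a94_2 q94 c99 a99_1 a99_2 q99 fun c100 a100_1 a100_2 q100 =>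
  addcK c100 a100_1 a100_2 q100 1152922604118474752 0 fun c101 a101_1 a101_2 q101 =>
  mulK c15 a15_1 a15_2 q15 c13 a13_1 a13_2 q13 fun c102 a102_1 a102_2 q102 =>
  addK c101 a101_1 a101_2 q101 c102 a102_1 a102_2 q102 fun c103 a103_1 a103_2 q103 =>
  sqK z1 (Nat.add w1 1152921504606846976) 1152921504606846976 0 fun c104 a104_1 a104_2 q104 =>
  negK c104 a104_1 a104_2 q104 fun c105 a105_1 a105_2 q105 =>
  addcK c105 a105_1 a105_2 q105 1152922604118474752 0 fun c106 a106_1 a106_2 q106 =>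
  negK c106 a106_1 a106_2 q106 fun c109 a109_1 a109_2 q109 =>
  addcK c109 a109_1 a109_2 q109 1152922604118474752 0 fun c110 a110_1 a110_2 q110 =>
  smulK 539 5000 5764607523034234885000 621424690983090520064 c106 a106_1 a106_2 q106 fun c112 a112_1 a112_2 q112 =>
  negK c112 a112_1 a112_2 q112 fun c113 a113_1 a113_2 q113 =>
  addcK c113 a113_1 a113_2 q113 1152922384216149197 1 fun c114 a114_1 a114_2 q114 =>
  subK c114 a114_1 a114_2 q114 c65 a65_1 a65_2 q65 fun c116 a116_1 a116_2 q116 =>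
  reluK c116 a116_1 a116_2 q116 fun c117 a117_1 a117_2 q117 =>
  subK c114 a114_1 a114_2 q114 c117 a117_1 a117_2 q117 fun c118 a118_1 a118_2 q118 =>
  mulK c110 a110_1 a110_2 q110 c118 a118_1 a118_2 q118 fun c120 a120_1 a120_2 q120 =>
  smulK 4 1 1152921504606846977 4611686018427387904 c21 a21_1 a21_2 q21 fun c121 a121_1 a121_2 q121 =>
  mulK c106 a106_1 a106_2 q106 c121 a121_1 a121_2 q121 fun c122 a122_1 a122_2 q122 =>
  addK c120 a120_1 a120_2 q120 c122 a122_1 a122_2 q122 fun c123 a123_1 a123_2 q123 =>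
  mulK c106 a106_1 a106_2 q106 c123 a123_1 a123_2 q123 fun c124 a124_1 a124_2 q124 =>
  smulK 1 4 4611686018427387908 1152921504606846976 c124 a124_1 a124_2 q124 fun c125 a125_1 a125_2 q125 =>
  subK c21 a21_1 a21_2 q21 c125 a125_1 a125_2 q125 fun c128 a128_1 a128_2 q128 =>
  smulK 4 1 1152921504606846977 4611686018427387904 c128 a128_1 a128_2 q128 fun c129 a129_1 a129_2 q129 =>
  subK c103 a103_1 a103_2 q103 c129 a129_1 a129_2 q129 fun c130 a130_1 a130_2 q130 =>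
  subK c91 a91_1 a91_2 q91 c130 a130_1 a130_2 q130 fun c131 a131_1 a131_2 q131 =>
  pos c131 a131_1 a131_2 q131

theorem alt0_s {z1 w1 z2 w2 : ℕ} {e1 e2 s a : ℝ} (he : Ev e1 e2)
    (hx1 : In e1 e2 z1 (Nat.add w1 1152921504606846976) 1152921504606846976 0 s)
    (hx2 : In e1 e2 z2 1152921504606846976 (Nat.add w2 1152921504606846976) 0 a)
    (H0 : alt0 z1 w1 z2 w2 = true) : 0 < (((((2:ℝ) * (w s a)) * ((Ee s a) + ((w s a) ^ 2))) * ((B1 s a) + (B2 s a))) - (((((D s a) * (((2:ℝ) * (√(a * ((1:ℝ) - a)))) + s)) + (1:ℝ)) + (((w s a) ^ 2) * (Ee s a))) - ((4:ℝ) * ((a * ((1:ℝ) - a)) - (V s a))))) := by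
  unfold alt0 at H0
  refine smulK_s he (w := (3/10:ℝ)) (by norm_num) (by norm_num) (by norm_num) (by norm_num) hx1 (fun _ _ _ _ h1 H1 => ?_) H0
  refine addcK_s he h1 (v' := (209/200:ℝ)) (by norm_num [SS, BB, abs_le]) (fun _ _ _ _ h2 H2 => ?_) H1
  have h3 := In_cast h2 (add_comm _ _)
  refine smulK_s he (w := (2:ℝ)) (by norm_num) (by norm_num) (by norm_num) (by norm_num) hx2 (fun _ _ _ _ h4 H3 => ?_) H2
  refine addcK_s he h4 (v' := (-1:ℝ)) (by norm_num [SS, BB, abs_le]) (fun _ _ _ _ h5 H4 => ?_) H3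
  have h6 := In_cast h5 (sub_c (c := (1:ℝ)) (by norm_num))
  refine sqK_s he h6 (fun _ _ _ _ h7 H5 => ?_) H4
  refine smulK_s he (w := (3/10:ℝ)) (by norm_num) (by norm_num) (by norm_num) (by norm_num) h7 (fun _ _ _ _ h8 H6 => ?_) H5
  refine subK_s he h3 h8 (fun _ _ _ _ h9 H7 => ?_) H6
  have h10 := In_cast (w := (w s a)) h9 rfl
  refine smulK_s he (w := (2:ℝ)) (by norm_num) (by norm_num) (by norm_num) (by norm_num) h10 (fun _ _ _ _ h11 H8 => ?_) H7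
  refine addcK_s he h11 (v' := (70711/50000:ℝ)) (by norm_num [SS, BB, abs_le]) (fun _ _ _ _ h12 H9 => ?_) H8
  refine smulK_s he (w := (70711/50000:ℝ)) (by norm_num) (by norm_num) (by norm_num) (by norm_num) h12 (fun _ _ _ _ h13 H10 => ?_) H9
  have h14 := In_cast (w := (Ee s a)) h13 rfl
  refine sqK_s he h10 (fun _ _ _ _ h15 H11 => ?_) H10
  refine addK_s he h14 h15 (fun _ _ _ _ h16 H12 => ?_) H11
  refine mulK_s he h11 h16 (fun _ _ _ _ h17 H13 => ?_) H12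
  refine negK_s he hx2 (fun _ _ _ _ h18 H14 => ?_) H13
  refine addcK_s he h18 (v' := (1:ℝ)) (by norm_num [SS, BB, abs_le]) (fun _ _ _ _ h19 H15 => ?_) H14
  have h20 := In_cast h19 (neg_add_eq_sub _ _)
  refine mulK_s he hx2 h20 (fun _ _ _ _ h21 H16 => ?_) H15
  refine addcK_s he hx1 (v' := (-27/40:ℝ)) (by norm_num [SS, BB, abs_le]) (fun _ _ _ _ h22 H17 => ?_) H16
  have h23 := In_cast h22 (sub_c (c := (27/40:ℝ)) (by norm_num))
  refine smulK_s he (w := (633/10000:ℝ)) (by norm_num) (by norm_num) (by norm_num) (by norm_num) h23 (fun _ _ _ _ h24 H18 => ?_) H17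
  refine addcK_s he h24 (v' := (2913/10000:ℝ)) (by norm_num [SS, BB, abs_le]) (fun _ _ _ _ h25 H19 => ?_) H18
  have h26 := In_cast h25 (add_comm _ _)
  refine smulK_s he (w := (153/1250:ℝ)) (by norm_num) (by norm_num) (by norm_num) (by norm_num) h23 (fun _ _ _ _ h27 H20 => ?_) H19
  refine negK_s he h27 (fun _ _ _ _ h28 H21 => ?_) H20
  refine addcK_s he h28 (v' := (-61/1000:ℝ)) (by norm_num [SS, BB, abs_le]) (fun _ _ _ _ h29 H22 => ?_) H21
  have h30 := In_cast h29 (neg_add_eq_sub _ _)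
  refine mulK_s he h30 h6 (fun _ _ _ _ h31 H23 => ?_) H22
  refine addK_s he h26 h31 (fun _ _ _ _ h32 H24 => ?_) H23
  refine smulK_s he (w := (231/10000:ℝ)) (by norm_num) (by norm_num) (by norm_num) (by norm_num) h23 (fun _ _ _ _ h33 H25 => ?_) H24
  refine addcK_s he h33 (v' := (18/625:ℝ)) (by norm_num [SS, BB, abs_le]) (fun _ _ _ _ h34 H26 => ?_) H25
  have h35 := In_cast h34 (add_comm _ _)
  refine mulK_s he h35 h7 (fun _ _ _ _ h36 H27 => ?_) H26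
  refine addK_s he h32 h36 (fun _ _ _ _ h37 H28 => ?_) H27
  refine smulK_s he (w := (8:ℝ)) (by norm_num) (by norm_num) (by norm_num) (by norm_num) hx2 (fun _ _ _ _ h38 H29 => ?_) H28
  refine addcK_s he h38 (v' := (1:ℝ)) (by norm_num [SS, BB, abs_le]) (fun _ _ _ _ h39 H30 => ?_) H29
  have h40 := In_cast h39 (add_comm _ _)
  refine invK_s he h40 (fun _ _ _ _ h41 H31 => ?_) H30
  refine smulK_s he (w := (1061/500:ℝ)) (by norm_num) (by norm_num) (by norm_num) (by norm_num) h23 (fun _ _ _ _ h42 H32 => ?_) H31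
  refine addcK_s he h42 (v' := (5301/5000:ℝ)) (by norm_num [SS, BB, abs_le]) (fun _ _ _ _ h43 H33 => ?_) H32
  have h44 := In_cast h43 (add_comm _ _)
  refine mulK_s he h44 h41 (fun _ _ _ _ h45 H34 => ?_) H33
  have h46 := In_cast h45 ((div_eq_mul_inv _ _).symm)
  refine addK_s he h37 h46 (fun _ _ _ _ h47 H35 => ?_) H34
  refine smulK_s he (w := (70:ℝ)) (by norm_num) (by norm_num) (by norm_num) (by norm_num) hx2 (fun _ _ _ _ h48 H36 => ?_) H35
  refine addcK_s he h48 (v' := (1:ℝ)) (by norm_num [SS, BB, abs_le]) (fun _ _ _ _ h49 H37 => ?_) H36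
  have h50 := In_cast h49 (add_comm _ _)
  refine invK_s he h50 (fun _ _ _ _ h51 H38 => ?_) H37
  refine smulK_s he (w := (116721/10000:ℝ)) (by norm_num) (by norm_num) (by norm_num) (by norm_num) h23 (fun _ _ _ _ h52 H39 => ?_) H38
  refine addcK_s he h52 (v' := (1812/625:ℝ)) (by norm_num [SS, BB, abs_le]) (fun _ _ _ _ h53 H40 => ?_) H39
  have h54 := In_cast h53 (add_comm _ _)
  refine mulK_s he h54 h51 (fun _ _ _ _ h55 H41 => ?_) H40
  have h56 := In_cast h55 ((div_eq_mul_inv _ _).symm)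
  refine addK_s he h47 h56 (fun _ _ _ _ h57 H42 => ?_) H41
  refine mulK_s he h21 h57 (fun _ _ _ _ h58 H43 => ?_) H42
  refine addK_s he hx2 h58 (fun _ _ _ _ h59 H44 => ?_) H43
  have h60 := In_cast (w := (B1 s a)) h59 rfl
  refine negK_s he h20 (fun _ _ _ _ h61 H45 => ?_) H44
  refine addcK_s he h61 (v' := (1:ℝ)) (by norm_num [SS, BB, abs_le]) (fun _ _ _ _ h62 H46 => ?_) H45
  have h63 := In_cast h62 (neg_add_eq_sub _ _)
  refine mulK_s he h20 h63 (fun _ _ _ _ h64 H47 => ?_) H46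
  refine smulK_s he (w := (2:ℝ)) (by norm_num) (by norm_num) (by norm_num) (by norm_num) h20 (fun _ _ _ _ h65 H48 => ?_) H47
  refine addcK_s he h65 (v' := (-1:ℝ)) (by norm_num [SS, BB, abs_le]) (fun _ _ _ _ h66 H49 => ?_) H48
  have h67 := In_cast h66 (sub_c (c := (1:ℝ)) (by norm_num))
  refine mulK_s he h30 h67 (fun _ _ _ _ h68 H50 => ?_) H49
  refine addK_s he h26 h68 (fun _ _ _ _ h69 H51 => ?_) H50
  refine sqK_s he h67 (fun _ _ _ _ h70 H52 => ?_) H51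
  refine mulK_s he h35 h70 (fun _ _ _ _ h71 H53 => ?_) H52
  refine addK_s he h69 h71 (fun _ _ _ _ h72 H54 => ?_) H53
  refine smulK_s he (w := (8:ℝ)) (by norm_num) (by norm_num) (by norm_num) (by norm_num) h20 (fun _ _ _ _ h73 H55 => ?_) H54
  refine addcK_s he h73 (v' := (1:ℝ)) (by norm_num [SS, BB, abs_le]) (fun _ _ _ _ h74 H56 => ?_) H55
  have h75 := In_cast h74 (add_comm _ _)
  refine invK_s he h75 (fun _ _ _ _ h76 H57 => ?_) H56
  refine mulK_s he h44 h76 (fun _ _ _ _ h77 H58 => ?_) H57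
  have h78 := In_cast h77 ((div_eq_mul_inv _ _).symm)
  refine addK_s he h72 h78 (fun _ _ _ _ h79 H59 => ?_) H58
  refine smulK_s he (w := (70:ℝ)) (by norm_num) (by norm_num) (by norm_num) (by norm_num) h20 (fun _ _ _ _ h80 H60 => ?_) H59
  refine addcK_s he h80 (v' := (1:ℝ)) (by norm_num [SS, BB, abs_le]) (fun _ _ _ _ h81 H61 => ?_) H60
  have h82 := In_cast h81 (add_comm _ _)
  refine invK_s he h82 (fun _ _ _ _ h83 H62 => ?_) H61
  refine mulK_s he h54 h83 (fun _ _ _ _ h84 H63 => ?_) H62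
  have h85 := In_cast h84 ((div_eq_mul_inv _ _).symm)
  refine addK_s he h79 h85 (fun _ _ _ _ h86 H64 => ?_) H63
  refine mulK_s he h64 h86 (fun _ _ _ _ h87 H65 => ?_) H64
  refine addK_s he h20 h87 (fun _ _ _ _ h88 H66 => ?_) H65
  have h89 := In_cast (w := (B2 s a)) h88 rfl
  refine addK_s he h60 h89 (fun _ _ _ _ h90 H67 => ?_) H66
  refine mulK_s he h17 h90 (fun _ _ _ _ h91 H68 => ?_) H67
  refine smulK_s he (w := (3:ℝ)) (by norm_num) (by norm_num) (by norm_num) (by norm_num) h15 (fun _ _ _ _ h92 H69 => ?_) H68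
  refine addK_s he h14 h92 (fun _ _ _ _ h93 H70 => ?_) H69
  refine addcK_s he h93 (v' := (-2:ℝ)) (by norm_num [SS, BB, abs_le]) (fun _ _ _ _ h94 H71 => ?_) H70
  have h95 := In_cast h94 (sub_c (c := (2:ℝ)) (by norm_num))
  have h96 := In_cast (w := (D s a)) h95 rfl
  refine sqrtK_s he h21 (fun _ _ _ _ h97 H72 => ?_) H71
  refine smulK_s he (w := (2:ℝ)) (by norm_num) (by norm_num) (by norm_num) (by norm_num) h97 (fun _ _ _ _ h98 H73 => ?_) H72
  refine addK_s he h98 hx1 (fun _ _ _ _ h99 H74 => ?_) H73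
  refine mulK_s he h96 h99 (fun _ _ _ _ h100 H75 => ?_) H74
  refine addcK_s he h100 (v' := (1:ℝ)) (by norm_num [SS, BB, abs_le]) (fun _ _ _ _ h101 H76 => ?_) H75
  refine mulK_s he h15 h14 (fun _ _ _ _ h102 H77 => ?_) H76
  refine addK_s he h101 h102 (fun _ _ _ _ h103 H78 => ?_) H77
  refine sqK_s he hx1 (fun _ _ _ _ h104 H79 => ?_) H78
  refine negK_s he h104 (fun _ _ _ _ h105 H80 => ?_) H79
  refine addcK_s he h105 (v' := (1:ℝ)) (by norm_num [SS, BB, abs_le]) (fun _ _ _ _ h106 H81 => ?_) H80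
  have h107 := In_cast h106 (neg_add_eq_sub _ _)
  have h108 := In_cast (w := (x s a)) h107 rfl
  refine negK_s he h108 (fun _ _ _ _ h109 H82 => ?_) H81
  refine addcK_s he h109 (v' := (1:ℝ)) (by norm_num [SS, BB, abs_le]) (fun _ _ _ _ h110 H83 => ?_) H82
  have h111 := In_cast h110 (neg_add_eq_sub _ _)
  refine smulK_s he (w := (539/5000:ℝ)) (by norm_num) (by norm_num) (by norm_num) (by norm_num) h108 (fun _ _ _ _ h112 H84 => ?_) H83
  refine negK_s he h112 (fun _ _ _ _ h113 H85 => ?_) H84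
  refine addcK_s he h113 (v' := (4/5:ℝ)) (by norm_num [SS, BB, abs_le]) (fun _ _ _ _ h114 H86 => ?_) H85
  have h115 := In_cast h114 (neg_add_eq_sub _ _)
  refine subK_s he h115 h65 (fun _ _ _ _ h116 H87 => ?_) H86
  refine reluK_s he h116 (fun _ _ _ _ h117 H88 => ?_) H87
  refine subK_s he h115 h117 (fun _ _ _ _ h118 H89 => ?_) H88
  have h119 := In_cast h118 (min_rl _ _)
  refine mulK_s he h111 h119 (fun _ _ _ _ h120 H90 => ?_) H89
  refine smulK_s he (w := (4:ℝ)) (by norm_num) (by norm_num) (by norm_num) (by norm_num) h21 (fun _ _ _ _ h121 H91 => ?_) H90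
  refine mulK_s he h108 h121 (fun _ _ _ _ h122 H92 => ?_) H91
  refine addK_s he h120 h122 (fun _ _ _ _ h123 H93 => ?_) H92
  refine mulK_s he h108 h123 (fun _ _ _ _ h124 H94 => ?_) H93
  refine smulK_s he (w := (1/4:ℝ)) (by norm_num) (by norm_num) (by norm_num) (by norm_num) h124 (fun _ _ _ _ h125 H95 => ?_) H94
  have h126 := In_cast h125 (div_c (c := (4:ℝ)) (by norm_num))
  have h127 := In_cast (w := (V s a)) h126 rfl
  refine subK_s he h21 h127 (fun _ _ _ _ h128 H96 => ?_) H95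
  refine smulK_s he (w := (4:ℝ)) (by norm_num) (by norm_num) (by norm_num) (by norm_num) h128 (fun _ _ _ _ h129 H97 => ?_) H96
  refine subK_s he h103 h129 (fun _ _ _ _ h130 H98 => ?_) H97
  refine subK_s he h91 h130 (fun _ _ _ _ h131 H99 => ?_) H98
  exact pos_s he h131 H99

attribute [irreducible] alt0

noncomputable def leaf (j u z1 w1 z2 w2 : ℕ) : Bool :=
  alt0 z1 w1 z2 w2

theorem snd : Snd Q leaf := by
  intro j u z1 w1 z2 w2 e1 e2 he H
  unfold leaf at H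
  unfold Q
  exact alt0_s he (var1 z1 w1) (var2 z2 w2) H

end Crest.Agent.R307.MFc
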