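import Crest.Agent.R307.XInd

/-!
# R307/MSq: the step for the square-root budget; validity from finitely many tests
-/

set_option autoImplicit false

namespace Crest.Agent.R307

open Crest.CubeNoise Set

/-- Pointwise step for `√p` with multipliers. -/
def SqStep (ρ k0 k1 l0 l1 c : ℝ) : Prop :=
  0 ≤ k0 ∧ 0 ≤ k1 ∧ ∀ p0 p1 : ℝ, 0 ≤ p0 → p0 ≤ p1 → p1 ≤ 1 →
    k0 * √p0 + k1 * √p1 + l0 * p0 + l1 * p1 + c ≤
      √((1 + ρ) / 2 * p1 + (1 - ρ) / 2 * p0) + √((1 + ρ) / 2 * p0 + (1 - ρ) / 2 * p1)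

theorem sq_conc : ConcaveOn ℝ (Icc (0:ℝ) 1) (fun p => √p) :=
  Real.strictConcaveOn_sqrt.concaveOn.subset (fun _ h => h.1) (convex_Icc 0 1)

theorem sqStep_one {ρ : ℝ} (h0 : 0 ≤ ρ) (h1 : ρ ≤ 1) : SqStep ρ 1 1 0 0 0 := by
  refine ⟨zero_le_one, zero_le_one, fun p0 p1 a b c => ?_⟩
  have := xind_spread sq_conc (x := (1 + ρ) / 2 * p1 + (1 - ρ) / 2 * p0) (y := (1 + ρ) / 2 * p0 + (1 - ρ) / 2 * p1)
    (x' := p1) (y' := p0) a c (by nlinarith) (by nlinarith) (by ring)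
  linarith

/-- The budget from the Bellman step. -/
theorem sq_budget {ρ : ℝ} (h0 : 0 ≤ ρ) (h1 : ρ ≤ 1) (B : ℝ → ℝ) (hB0 : B 0 ≤ 0) (hB1 : B 1 ≤ 1)
    (step : ∀ a0 a1 : ℝ, 0 ≤ a0 → a0 < a1 → a1 ≤ 1 → ∃ k0 k1 l0 l1 c : ℝ, SqStep ρ k0 k1 l0 l1 c ∧
      2 * B ((a0 + a1) / 2) ≤ k0 * B a0 + k1 * B a1 + l0 * a0 + l1 * a1 + c)
    (n : ℕ) (u : (Fin n → Bool) → ℝ) (hu : ∀ y, u y = 0 ∨ u y = 1) :
    B (cubeAverage u) ≤ cubeAverage fun x => √(noise ρ u x) := by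
  refine xind_mul (ι := Unit) h0 h1 (fun _ p => √p) (fun _ => B) (fun _ => sq_conc) (fun _ => by simpa using hB0)
    (fun _ => by simpa using hB1) (fun _ a0 a1 x0 x01 x1 => ?_) n u hu ()
  have key : ∃ k0 k1 l0 l1 c : ℝ, SqStep ρ k0 k1 l0 l1 c ∧
      2 * B ((a0 + a1) / 2) ≤ k0 * B a0 + k1 * B a1 + l0 * a0 + l1 * a1 + c := by
    rcases x01.eq_or_lt with e | e
    · refine ⟨1, 1, 0, 0, 0, sqStep_one h0 h1, ?_⟩
      rw [← e, show (a0 + a0) / 2 = a0 by ring]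
      linarith
    · exact step a0 a1 x0 e x1
  obtain ⟨k0, k1, l0, l1, c, hs, hb⟩ := key
  exact ⟨fun _ => k0, fun _ => k1, l0, l1, c, fun _ => hs.1, fun _ => hs.2.1,
    fun p0 p1 a b c => by simpa using hs.2.2 p0 p1 a b c, by simpa using hb⟩

/-- After a point with nonnegative (concave) derivative a function is unimodal. -/
theorem sq_uni {f f1 : ℝ → ℝ} {T t x : ℝ} (cf : ContinuousOn f (Icc 0 T))
    (df : ∀ y ∈ Ioo 0 T, HasDerivAt f (f1 y) y) (c1 : ConcaveOn ℝ (Icc 0 T) f1)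
    (t0 : 0 ≤ t) (tx : t ≤ x) (xT : x ≤ T) (h1 : 0 ≤ f1 t) (h2 : 0 ≤ f t) (h3 : 0 ≤ f T) : 0 ≤ f x := by
  by_contra hneg
  push Not at hneg
  have a : t < x := lt_of_le_of_ne tx (by rintro rfl; linarith)
  have b : x < T := lt_of_le_of_ne xT (by rintro rfl; linarith)
  obtain ⟨y, hy, ey⟩ := exists_hasDerivAt_eq_slope f f1 a (cf.mono (Icc_subset_Icc t0 xT))
    (fun z hz => df z ⟨by linarith [hz.1], by linarith [hz.2]⟩)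
  obtain ⟨z, hz, ez⟩ := exists_hasDerivAt_eq_slope f f1 b (cf.mono (Icc_subset_Icc (by linarith) le_rfl))
    (fun z hz => df z ⟨by linarith [hz.1], hz.2⟩)
  have y0 : f1 y < 0 := by rw [ey]; exact div_neg_of_neg_of_pos (by linarith) (by linarith)
  have z0 : 0 ≤ f1 z := by rw [ez]; exact div_nonneg (by linarith) (by linarith)
  have := c1.min_le_of_mem_Icc (x := t) (y := z) (z := y) ⟨t0, by linarith⟩ ⟨by linarith [hz.1], hz.2.le⟩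
    ⟨hy.1.le, by linarith [hy.2, hz.1]⟩
  have := le_min h1 z0
  linarith

/-- Left of a point: if the derivative is nonpositive there, the function is larger. -/
theorem sq_left {f f1 : ℝ → ℝ} {T t x : ℝ} (cf : ContinuousOn f (Icc 0 T))
    (df : ∀ y ∈ Ioo 0 T, HasDerivAt f (f1 y) y) (x0 : 0 ≤ x) (xt : x ≤ t) (tT : t ≤ T)
    (h : ∀ y, 0 ≤ y → y < t → f1 y ≤ 0) : f t ≤ f x := by
  rcases xt.eq_or_lt with e | e
  · rw [e]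
  obtain ⟨y, hy, ey⟩ := exists_hasDerivAt_eq_slope f f1 e (cf.mono (Icc_subset_Icc x0 tT))
    (fun z hz => df z ⟨by linarith [hz.1], by linarith [hz.2]⟩)
  have := h y (by linarith [hy.1]) hy.2
  rw [ey, div_nonpos_iff] at this
  rcases this with ⟨_, b⟩ | ⟨a, _⟩ <;> linarith

/-- Test with two points. -/
theorem sq_two {f f1 : ℝ → ℝ} {T ta tb : ℝ} (cf : ContinuousOn f (Icc 0 T))
    (df : ∀ y ∈ Ioo 0 T, HasDerivAt f (f1 y) y) (c1 : ConcaveOn ℝ (Icc 0 T) f1)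
    (a0 : 0 ≤ ta) (ab : ta < tb) (bT : tb ≤ T) (h1 : f1 ta ≤ 0) (h2 : 0 ≤ f1 tb)
    (h3 : 0 ≤ f ta + f1 ta * (tb - ta)) (h4 : 0 ≤ f T) {x : ℝ} (x0 : 0 ≤ x) (xT : x ≤ T) : 0 ≤ f x := by
  have fa : 0 ≤ f ta := by nlinarith
  have mid : ∀ y, ta ≤ y → y ≤ tb → 0 ≤ f y := by
    intro y ya yb
    rcases ya.eq_or_lt with e | e
    · rwa [← e]
    obtain ⟨z, hz, ez⟩ := exists_hasDerivAt_eq_slope f f1 e (cf.mono (Icc_subset_Icc a0 (yb.trans bT)))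
      (fun z hz => df z ⟨by linarith [hz.1], by linarith [hz.2]⟩)
    have m := c1.min_le_of_mem_Icc (x := ta) (y := tb) (z := z) ⟨a0, by linarith⟩ ⟨by linarith, bT⟩
      ⟨hz.1.le, by linarith [hz.2]⟩
    rw [min_eq_left (h1.trans h2), ez, le_div_iff₀ (by linarith)] at m
    nlinarith
  rcases le_total x ta with e | e
  · refine fa.trans (sq_left cf df x0 e (by linarith) fun y y0 yt => ?_)
    by_contra hp
    push Not at hp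
    have hd : 0 < tb - y := by linarith
    have := c1.2 (show y ∈ Icc 0 T from ⟨y0, by linarith⟩) (show tb ∈ Icc 0 T from ⟨by linarith, bT⟩)
      (show 0 ≤ (tb - ta) / (tb - y) from div_nonneg (by linarith) hd.le)
      (show 0 ≤ (ta - y) / (tb - y) from div_nonneg (by linarith) hd.le) (by field_simp; ring)
    simp only [smul_eq_mul] at this
    rw [show (tb - ta) / (tb - y) * y + (ta - y) / (tb - y) * tb = ta by field_simp; ring] at this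
    have p1 : 0 < (tb - ta) / (tb - y) * f1 y := mul_pos (div_pos (by linarith) hd) hp
    have p2 : 0 ≤ (ta - y) / (tb - y) * f1 tb := mul_nonneg (div_nonneg (by linarith) hd.le) h2
    linarith
  · rcases le_total x tb with e' | e'
    · exact mid x e e'
    · exact sq_uni cf df c1 (by linarith) e' xT h2 (mid tb ab.le le_rfl) h4

/-- Exact tangency. -/
theorem sq_tan {f f1 : ℝ → ℝ} {T t : ℝ} (cf : ContinuousOn f (Icc 0 T))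
    (df : ∀ y ∈ Ioo 0 T, HasDerivAt f (f1 y) y) (c1 : ConcaveOn ℝ (Icc 0 T) f1)
    (t0 : 0 ≤ t) (tT : t < T) (h1 : f1 t = 0) (h2 : f t = 0) (h4 : 0 ≤ f T) {x : ℝ} (x0 : 0 ≤ x) (xT : x ≤ T) :
    0 ≤ f x := by
  rcases le_total x t with e | e
  · refine h2.ge.trans (sq_left cf df x0 e tT.le fun y y0 yt => ?_)
    by_contra hp
    push Not at hp
    obtain ⟨z, hz, ez⟩ := exists_hasDerivAt_eq_slope f f1 tT (cf.mono (Icc_subset_Icc t0 le_rfl))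
      (fun z hz => df z ⟨by linarith [hz.1], hz.2⟩)
    have z0 : 0 ≤ f1 z := by rw [ez]; exact div_nonneg (by linarith) (by linarith)
    have hd : 0 < z - y := by linarith [hz.1]
    have := c1.2 (show y ∈ Icc 0 T from ⟨y0, by linarith⟩) (show z ∈ Icc 0 T from ⟨by linarith [hz.1], hz.2.le⟩)
      (show 0 ≤ (z - t) / (z - y) from div_nonneg (by linarith [hz.1]) hd.le)
      (show 0 ≤ (t - y) / (z - y) from div_nonneg (by linarith) hd.le) (by field_simp; ring)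
    simp only [smul_eq_mul] at this
    rw [show (z - t) / (z - y) * y + (t - y) / (z - y) * z = t by field_simp; ring] at this
    have p1 : 0 < (z - t) / (z - y) * f1 y := mul_pos (div_pos (by linarith [hz.1]) hd) hp
    have p2 : 0 ≤ (t - y) / (z - y) * f1 z := mul_nonneg (div_nonneg (by linarith) hd.le) z0
    linarith
  · exact sq_uni cf df c1 t0 e xT h1.ge h2.ge h4

theorem sq_dq {A B y : ℝ} (h : 0 < A + B * y ^ 2) :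
    HasDerivAt (fun t => √(A + B * t ^ 2)) (B * (y / √(A + B * y ^ 2))) y := by
  have d : HasDerivAt (fun t : ℝ => A + B * t ^ 2) (B * (2 * y)) y := by
    simpa using ((hasDerivAt_pow 2 y).const_mul B).const_add A
  refine (d.sqrt h.ne').congr_deriv ?_
  have := (Real.sqrt_pos.2 h).ne'
  field_simp

theorem sq_dr {A B y : ℝ} (h : 0 < A + B * y ^ 2) :
    HasDerivAt (fun t => t / √(A + B * t ^ 2)) (A / √(A + B * y ^ 2) ^ 3) y := by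
  have p := Real.sqrt_pos.2 h
  refine ((hasDerivAt_id' y).fun_div (sq_dq h) p.ne').congr_deriv ?_
  have e := Real.sq_sqrt h.le
  generalize √(A + B * y ^ 2) = r at *
  field_simp
  linear_combination e

theorem sq_rconc {A B T : ℝ} (hA : 0 < A) (hB : 0 ≤ B) : ConcaveOn ℝ (Icc 0 T) (fun t => t / √(A + B * t ^ 2)) := by
  have h : ∀ y : ℝ, 0 < A + B * y ^ 2 := fun y => by positivity
  refine AntitoneOn.concaveOn_of_deriv (convex_Icc 0 T)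
    (fun y _ => (sq_dr (h y)).continuousAt.continuousWithinAt)
    (fun y _ => (sq_dr (h y)).differentiableAt.differentiableWithinAt) ?_
  rw [interior_Icc]
  intro x hx y hy hxy
  rw [(sq_dr (h x)).deriv, (sq_dr (h y)).deriv]
  have px := Real.sqrt_pos.2 (h x)
  refine div_le_div_of_nonneg_left hA.le (by positivity) (pow_le_pow_left₀ px.le (Real.sqrt_le_sqrt ?_) 3)
  have := pow_le_pow_left₀ hx.1.le hxy 2
  nlinarith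

theorem sq_rconv {A B T : ℝ} (hB : B ≤ 0) (hT : 0 < A + B * T ^ 2) :
    ConvexOn ℝ (Icc 0 T) (fun t => t / √(A + B * t ^ 2)) := by
  have h : ∀ y ∈ Icc 0 T, 0 < A + B * y ^ 2 := fun y hy => by
    have := pow_le_pow_left₀ hy.1 hy.2 2
    nlinarith
  have hA : 0 ≤ A := by nlinarith [sq_nonneg T]
  refine MonotoneOn.convexOn_of_deriv (convex_Icc 0 T)
    (fun y hy => (sq_dr (h y hy)).continuousAt.continuousWithinAt)
    (fun y hy => (sq_dr (h y (interior_subset hy))).differentiableAt.differentiableWithinAt) ?_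
  rw [interior_Icc]
  intro x hx y hy hxy
  have hx' := h x (Ioo_subset_Icc_self hx)
  have hy' := h y (Ioo_subset_Icc_self hy)
  rw [(sq_dr hx').deriv, (sq_dr hy').deriv]
  have py := Real.sqrt_pos.2 hy'
  refine div_le_div_of_nonneg_left hA (by positivity) (pow_le_pow_left₀ py.le (Real.sqrt_le_sqrt ?_) 3)
  have := pow_le_pow_left₀ hx.1.le hxy 2
  nlinarith

noncomputable def gq (ρ t : ℝ) : ℝ := √((1 + ρ) / 2 + (1 - ρ) / 2 * t ^ 2) + √((1 - ρ) / 2 + (1 + ρ) / 2 * t ^ 2)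

noncomputable def gq1 (ρ t : ℝ) : ℝ :=
  (1 - ρ) / 2 * (t / √((1 + ρ) / 2 + (1 - ρ) / 2 * t ^ 2)) + (1 + ρ) / 2 * (t / √((1 - ρ) / 2 + (1 + ρ) / 2 * t ^ 2))

theorem gq_deriv {ρ : ℝ} (h0 : 0 ≤ ρ) (h1 : ρ < 1) (t : ℝ) : HasDerivAt (gq ρ) (gq1 ρ t) t := by
  have a : 0 < (1 - ρ) / 2 := by linarith
  exact (sq_dq (by positivity)).fun_add (sq_dq (by positivity))

theorem gq1_conc {ρ : ℝ} (h0 : 0 ≤ ρ) (h1 : ρ < 1) (T : ℝ) : ConcaveOn ℝ (Icc 0 T) (gq1 ρ) := by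
  have a : 0 < (1 - ρ) / 2 := by linarith
  have b : 0 < (1 + ρ) / 2 := by linarith
  exact ((sq_rconc b a.le).smul a.le).add ((sq_rconc a b.le).smul b.le)

/-- `F`, the test function on the face `p1 = 1`. -/
noncomputable def Fq (ρ k0 k1 l0 l1 γ t : ℝ) : ℝ := gq ρ t - k0 * t - k1 - (l0 * t ^ 2 + l1) + γ

noncomputable def Fq1 (ρ k0 l0 t : ℝ) : ℝ := gq1 ρ t - k0 - 2 * l0 * t

/-- `H`, the test function for interior minima. -/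
noncomputable def Hq (ρ k0 k1 l0 l1 γ t : ℝ) : ℝ := gq ρ t - k0 * t - k1 + 2 * √(-(γ * l1) + -(γ * l0) * t ^ 2)

noncomputable def Hq1 (ρ k0 l0 l1 γ t : ℝ) : ℝ :=
  gq1 ρ t - k0 - 2 * (γ * l0) * (t / √(-(γ * l1) + -(γ * l0) * t ^ 2))

/-- Validity from the two one-variable inequalities. -/
theorem sq_of_FH {ρ k0 k1 l0 l1 γ : ℝ} (hk0 : 0 ≤ k0) (hk1 : 0 ≤ k1) (hγ : 0 ≤ γ)
    (hF : ∀ t, 0 ≤ t → t ≤ 1 → -(l0 * t ^ 2 + l1) ≤ γ → 0 ≤ Fq ρ k0 k1 l0 l1 γ t)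
    (hH : ∀ t, 0 ≤ t → t ≤ 1 → γ < -(l0 * t ^ 2 + l1) → 0 ≤ Hq ρ k0 k1 l0 l1 γ t) :
    SqStep ρ k0 k1 l0 l1 (-γ) := by
  refine ⟨hk0, hk1, fun p0 p1 a b c => ?_⟩
  rcases (a.trans b).eq_or_lt with e | e
  · have e0 : p0 = 0 := by linarith
    rw [← e, e0]
    simpa using hγ
  obtain ⟨v, hv, rfl⟩ : ∃ v : ℝ, 0 < v ∧ p1 = v ^ 2 := ⟨√p1, Real.sqrt_pos.2 e, (Real.sq_sqrt e.le).symm⟩
  obtain ⟨t, ht, rfl⟩ : ∃ t : ℝ, 0 ≤ t ∧ p0 = (t * v) ^ 2 :=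
    ⟨√p0 / v, by positivity, by rw [div_mul_cancel₀ _ hv.ne', Real.sq_sqrt a]⟩
  have v1 : v ≤ 1 := by nlinarith
  have t1 : t ≤ 1 := by
    have := (abs_le_of_sq_le_sq' b hv.le).2
    nlinarith
  have e1 : √((1 + ρ) / 2 * v ^ 2 + (1 - ρ) / 2 * (t * v) ^ 2) = v * √((1 + ρ) / 2 + (1 - ρ) / 2 * t ^ 2) := by
    rw [show (1 + ρ) / 2 * v ^ 2 + (1 - ρ) / 2 * (t * v) ^ 2 = v ^ 2 * ((1 + ρ) / 2 + (1 - ρ) / 2 * t ^ 2) by ring,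
      Real.sqrt_mul (sq_nonneg v), Real.sqrt_sq hv.le]
  have e2 : √((1 + ρ) / 2 * (t * v) ^ 2 + (1 - ρ) / 2 * v ^ 2) = v * √((1 - ρ) / 2 + (1 + ρ) / 2 * t ^ 2) := by
    rw [show (1 + ρ) / 2 * (t * v) ^ 2 + (1 - ρ) / 2 * v ^ 2 = v ^ 2 * ((1 - ρ) / 2 + (1 + ρ) / 2 * t ^ 2) by ring,
      Real.sqrt_mul (sq_nonneg v), Real.sqrt_sq hv.le]
  rw [e1, e2, Real.sqrt_sq hv.le, Real.sqrt_sq (mul_nonneg ht hv.le), ← mul_add]
  change _ ≤ v * gq ρ t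
  rcases le_or_gt (-(l0 * t ^ 2 + l1)) γ with g | g
  · have f := mul_nonneg hv.le (hF t ht t1 g)
    unfold Fq at f
    have w : 0 ≤ γ + v * (l0 * t ^ 2 + l1) := by nlinarith
    have := mul_nonneg (sub_nonneg.2 v1) w
    nlinarith
  · have f := mul_nonneg hv.le (hH t ht t1 g)
    unfold Hq at f
    have n : 0 ≤ -(l0 * t ^ 2 + l1) := hγ.trans g.le
    have e3 : √(-(γ * l1) + -(γ * l0) * t ^ 2) = √γ * √(-(l0 * t ^ 2 + l1)) := by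
      rw [← Real.sqrt_mul hγ]
      congr 1
      ring
    rw [e3] at f
    have s1 := Real.sq_sqrt hγ
    have s2 := Real.sq_sqrt n
    nlinarith [sq_nonneg (√γ - v * √(-(l0 * t ^ 2 + l1)))]

theorem Fq_deriv {ρ : ℝ} (h0 : 0 ≤ ρ) (h1 : ρ < 1) (k0 k1 l0 l1 γ t : ℝ) :
    HasDerivAt (Fq ρ k0 k1 l0 l1 γ) (Fq1 ρ k0 l0 t) t := by
  have := (((((gq_deriv h0 h1 t).fun_sub ((hasDerivAt_id' t).const_mul k0)).sub_const k1).fun_sub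
    (((hasDerivAt_pow 2 t).const_mul l0).add_const l1))).add_const γ
  refine this.congr_deriv ?_
  unfold Fq1
  simp
  ring

theorem Fq1_conc {ρ : ℝ} (h0 : 0 ≤ ρ) (h1 : ρ < 1) (k0 l0 T : ℝ) : ConcaveOn ℝ (Icc 0 T) (Fq1 ρ k0 l0) := by
  refine ⟨convex_Icc 0 T, fun x hx y hy a b ha hb hab => ?_⟩
  have := (gq1_conc h0 h1 T).2 hx hy ha hb hab
  simp only [smul_eq_mul, Fq1] at this ⊢
  have e : b = 1 - a := by linarith
  subst e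
  nlinarith

theorem Hq_deriv {ρ : ℝ} (h0 : 0 ≤ ρ) (h1 : ρ < 1) {k0 k1 l0 l1 γ t : ℝ} (h : 0 < -(γ * l1) + -(γ * l0) * t ^ 2) :
    HasDerivAt (Hq ρ k0 k1 l0 l1 γ) (Hq1 ρ k0 l0 l1 γ t) t := by
  have := (((gq_deriv h0 h1 t).fun_sub ((hasDerivAt_id' t).const_mul k0)).sub_const k1).fun_add
    ((sq_dq h).const_mul 2)
  refine this.congr_deriv ?_
  unfold Hq1
  ring

theorem Hq1_conc {ρ : ℝ} (h0 : 0 ≤ ρ) (h1 : ρ < 1) {k0 l0 l1 γ T : ℝ} (hl : 0 ≤ γ * l0)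
    (h : 0 < -(γ * l1) + -(γ * l0) * T ^ 2) : ConcaveOn ℝ (Icc 0 T) (Hq1 ρ k0 l0 l1 γ) := by
  refine ⟨convex_Icc 0 T, fun x hx y hy a b ha hb hab => ?_⟩
  have h1 := (gq1_conc h0 h1 T).2 hx hy ha hb hab
  have h2 := mul_le_mul_of_nonneg_left ((sq_rconv (neg_nonpos.2 hl) h).2 hx hy ha hb hab) hl
  simp only [smul_eq_mul, Hq1] at h1 h2 ⊢
  have e : b = 1 - a := by linarith
  subst e
  nlinarith

/-- `F ≥ 0` from two test points. -/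
theorem Fq_two {ρ k0 k1 l0 l1 γ ta tb : ℝ} (h0 : 0 ≤ ρ) (h1 : ρ < 1) (a0 : 0 ≤ ta) (ab : ta < tb) (b1 : tb ≤ 1)
    (e1 : Fq1 ρ k0 l0 ta ≤ 0) (e2 : 0 ≤ Fq1 ρ k0 l0 tb)
    (e3 : 0 ≤ Fq ρ k0 k1 l0 l1 γ ta + Fq1 ρ k0 l0 ta * (tb - ta)) (e4 : 0 ≤ Fq ρ k0 k1 l0 l1 γ 1)
    (t : ℝ) (t0 : 0 ≤ t) (t1 : t ≤ 1) : 0 ≤ Fq ρ k0 k1 l0 l1 γ t :=
  sq_two (fun y _ => (Fq_deriv h0 h1 _ _ _ _ _ y).continuousAt.continuousWithinAt)
    (fun y _ => Fq_deriv h0 h1 _ _ _ _ _ y) (Fq1_conc h0 h1 _ _ _) a0 ab b1 e1 e2 e3 e4 t0 t1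

/-- `F ≥ 0` from exact tangency. -/
theorem Fq_tan {ρ k0 k1 l0 l1 γ ta : ℝ} (h0 : 0 ≤ ρ) (h1 : ρ < 1) (a0 : 0 ≤ ta) (a1 : ta < 1)
    (e1 : Fq1 ρ k0 l0 ta = 0) (e3 : Fq ρ k0 k1 l0 l1 γ ta = 0) (e4 : 0 ≤ Fq ρ k0 k1 l0 l1 γ 1)
    (t : ℝ) (t0 : 0 ≤ t) (t1 : t ≤ 1) : 0 ≤ Fq ρ k0 k1 l0 l1 γ t :=
  sq_tan (fun y _ => (Fq_deriv h0 h1 _ _ _ _ _ y).continuousAt.continuousWithinAt)
    (fun y _ => Fq_deriv h0 h1 _ _ _ _ _ y) (Fq1_conc h0 h1 _ _ _) a0 a1 e1 e3 e4 t0 t1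

/-- The right end of the interval on which `H` is needed. -/
theorem Hq_end {ρ k0 k1 l0 l1 γ : ℝ} (hl : 0 ≤ l0) (hγ : 0 < γ)
    (hF : ∀ t, 0 ≤ t → t ≤ 1 → -(l0 * t ^ 2 + l1) ≤ γ → 0 ≤ Fq ρ k0 k1 l0 l1 γ t)
    (hE : -(l0 + l1) ≤ γ ∨ 0 ≤ Hq ρ k0 k1 l0 l1 γ 1) (g0 : γ < -l1) :
    ∃ T : ℝ, 0 ≤ T ∧ γ ≤ -(l0 * T ^ 2 + l1) ∧ 0 ≤ Hq ρ k0 k1 l0 l1 γ T ∧
      (∀ t, 0 ≤ t → t ≤ 1 → γ ≤ -(l0 * t ^ 2 + l1) → t ≤ T) ∧
      ∀ t, 0 ≤ t → t < 1 → γ < -(l0 * t ^ 2 + l1) → t < T := by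
  rcases le_or_gt (-(l0 + l1)) γ with g | g
  · have lp : 0 < l0 := by linarith
    have q : 0 ≤ (-l1 - γ) / l0 := div_nonneg (by linarith) hl
    have e : l0 * √((-l1 - γ) / l0) ^ 2 = -l1 - γ := by rw [Real.sq_sqrt q]; field_simp
    have T0 := Real.sqrt_nonneg ((-l1 - γ) / l0)
    have T1 : √((-l1 - γ) / l0) ≤ 1 := Real.sqrt_le_one.2 (by rw [div_le_one lp]; linarith)
    refine ⟨√((-l1 - γ) / l0), T0, by linarith, ?_, fun t t0 _ h => ?_, fun t t0 _ h => ?_⟩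
    · have f := hF _ T0 T1 (by linarith)
      unfold Fq at f
      unfold Hq
      rw [show -(γ * l1) + -(γ * l0) * √((-l1 - γ) / l0) ^ 2 = γ ^ 2 by linear_combination (-γ) * e,
        Real.sqrt_sq hγ.le]
      linarith
    · exact Real.le_sqrt_of_sq_le (by rw [le_div_iff₀ lp]; linarith)
    · exact Real.lt_sqrt_of_sq_lt (by rw [lt_div_iff₀ lp]; linarith)
  · refine ⟨1, zero_le_one, by linarith, hE.resolve_left (not_le.2 g), fun t _ h _ => h, fun t _ h _ => h⟩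

theorem Hq_pos {l0 l1 γ T y : ℝ} (hl : 0 ≤ l0) (hγ : 0 < γ) (hT : γ ≤ -(l0 * T ^ 2 + l1)) (y0 : 0 ≤ y) (yT : y ≤ T) :
    0 < -(γ * l1) + -(γ * l0) * y ^ 2 := by
  have a := mul_le_mul_of_nonneg_left (pow_le_pow_left₀ y0 yT 2) hl
  have b : 0 < γ * -(l0 * y ^ 2 + l1) := mul_pos hγ (by linarith)
  linarith

/-- **Validity from test points** `ta < tb` for `F` and `tc < td` for `H`. -/
theorem sq_valid {ρ k0 k1 l0 l1 γ tc td : ℝ} (h0 : 0 ≤ ρ) (h1 : ρ < 1) (hk0 : 0 ≤ k0) (hk1 : 0 ≤ k1)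
    (hl : 0 ≤ l0) (hγ : 0 < γ)
    (hF : ∀ t, 0 ≤ t → t ≤ 1 → -(l0 * t ^ 2 + l1) ≤ γ → 0 ≤ Fq ρ k0 k1 l0 l1 γ t)
    (hE : -(l0 + l1) ≤ γ ∨ 0 ≤ Hq ρ k0 k1 l0 l1 γ 1)
    (c0 : 0 ≤ tc) (cd : tc < td) (d1 : td ≤ 1) (dT : γ ≤ -(l0 * td ^ 2 + l1))
    (e1 : Hq1 ρ k0 l0 l1 γ tc ≤ 0) (e2 : 0 ≤ Hq1 ρ k0 l0 l1 γ td)
    (e3 : 0 ≤ Hq ρ k0 k1 l0 l1 γ tc + Hq1 ρ k0 l0 l1 γ tc * (td - tc)) : SqStep ρ k0 k1 l0 l1 (-γ) := by
  refine sq_of_FH hk0 hk1 hγ.le hF fun t t0 t1 g => ?_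
  obtain ⟨T, T0, hT, HT, m1, -⟩ := Hq_end hl hγ hF hE (by nlinarith [mul_nonneg hl (sq_nonneg t)])
  exact sq_two (fun y hy => (Hq_deriv h0 h1 (Hq_pos hl hγ hT hy.1 hy.2)).continuousAt.continuousWithinAt)
    (fun y hy => Hq_deriv h0 h1 (Hq_pos hl hγ hT hy.1.le hy.2.le))
    (Hq1_conc h0 h1 (mul_nonneg hγ.le hl) (Hq_pos hl hγ hT T0 le_rfl)) c0 cd (m1 td (by linarith) d1 dT) e1 e2 e3 HT
    t0 (m1 t t0 t1 g.le)

/-- Validity with exact tangency of `H`. -/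
theorem sq_valid_tan {ρ k0 k1 l0 l1 γ tc : ℝ} (h0 : 0 ≤ ρ) (h1 : ρ < 1) (hk0 : 0 ≤ k0) (hk1 : 0 ≤ k1)
    (hl : 0 ≤ l0) (hγ : 0 < γ)
    (hF : ∀ t, 0 ≤ t → t ≤ 1 → -(l0 * t ^ 2 + l1) ≤ γ → 0 ≤ Fq ρ k0 k1 l0 l1 γ t)
    (hE : -(l0 + l1) ≤ γ ∨ 0 ≤ Hq ρ k0 k1 l0 l1 γ 1)
    (c0 : 0 ≤ tc) (c1 : tc < 1) (dT : γ < -(l0 * tc ^ 2 + l1))
    (e1 : Hq1 ρ k0 l0 l1 γ tc = 0) (e3 : Hq ρ k0 k1 l0 l1 γ tc = 0) : SqStep ρ k0 k1 l0 l1 (-γ) := by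
  refine sq_of_FH hk0 hk1 hγ.le hF fun t t0 t1 g => ?_
  obtain ⟨T, T0, hT, HT, m1, m2⟩ := Hq_end hl hγ hF hE (by nlinarith [mul_nonneg hl (sq_nonneg t)])
  exact sq_tan (fun y hy => (Hq_deriv h0 h1 (Hq_pos hl hγ hT hy.1 hy.2)).continuousAt.continuousWithinAt)
    (fun y hy => Hq_deriv h0 h1 (Hq_pos hl hγ hT hy.1.le hy.2.le))
    (Hq1_conc h0 h1 (mul_nonneg hγ.le hl) (Hq_pos hl hγ hT T0 le_rfl)) c0 (m2 tc c0 c1 dT) e1 e3 HT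
    t0 (m1 t t0 t1 g.le)

/-- No interior minima: `H` is not needed. -/
theorem sq_valid_face {ρ k0 k1 l0 l1 γ : ℝ} (hk0 : 0 ≤ k0) (hk1 : 0 ≤ k1)
    (hl : 0 ≤ l0) (hγ : 0 ≤ γ) (g : -l1 ≤ γ)
    (hF : ∀ t, 0 ≤ t → t ≤ 1 → 0 ≤ Fq ρ k0 k1 l0 l1 γ t) : SqStep ρ k0 k1 l0 l1 (-γ) :=
  sq_of_FH hk0 hk1 hγ (fun t a b _ => hF t a b) fun t _ _ h => by
    nlinarith [mul_nonneg hl (sq_nonneg t)]

/-- **The tangency family**: touching at `(t0 v0, v0)` and `(t1, 1)`; the multipliers satisfy five linear equations. -/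
theorem sq_fam {ρ k0 k1 l0 l1 γ t0 v0 t1 : ℝ} (h0 : 0 ≤ ρ) (h1 : ρ < 1) (hk0 : 0 ≤ k0) (hk1 : 0 ≤ k1)
    (hl : 0 ≤ l0) (hγ : 0 < γ) (a0 : 0 ≤ t0) (a1 : t0 < 1) (b0 : 0 ≤ t1) (b1 : t1 < 1) (v1 : 0 < v0) (v2 : v0 < 1)
    (q1 : gq1 ρ t0 = k0 + 2 * l0 * (t0 * v0)) (q2 : gq1 ρ t1 = k0 + 2 * l0 * t1)
    (q3 : gq ρ t0 - t0 * gq1 ρ t0 = k1 + 2 * l1 * v0) (q4 : γ = -(v0 ^ 2 * (l0 * t0 ^ 2 + l1)))
    (q5 : gq ρ t1 = k0 * t1 + k1 + (l0 * t1 ^ 2 + l1) - γ)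
    (hF1 : k0 + k1 + l0 + l1 - γ ≤ 2)
    (hE : -(l0 + l1) ≤ γ ∨ k0 + k1 ≤ 2 ∨ (k0 + k1 - 2) ^ 2 ≤ 4 * (γ * -(l0 + l1))) :
    SqStep ρ k0 k1 l0 l1 (-γ) := by
  have g1 : gq ρ 1 = 2 := by
    unfold gq
    rw [show (1 + ρ) / 2 + (1 - ρ) / 2 * 1 ^ 2 = 1 by ring, show (1 - ρ) / 2 + (1 + ρ) / 2 * 1 ^ 2 = 1 by ring]
    norm_num
  have Lp : 0 < -(l0 * t0 ^ 2 + l1) := by
    by_contra h
    push Not at h
    nlinarith [mul_nonneg (sq_nonneg v0) (neg_nonneg.2 h)]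
  have sq : √(-(γ * l1) + -(γ * l0) * t0 ^ 2) = v0 * -(l0 * t0 ^ 2 + l1) := by
    rw [show -(γ * l1) + -(γ * l0) * t0 ^ 2 = (v0 * -(l0 * t0 ^ 2 + l1)) ^ 2 by rw [q4]; ring,
      Real.sqrt_sq (mul_pos v1 Lp).le]
  refine sq_valid_tan (tc := t0) h0 h1 hk0 hk1 hl hγ
    (fun t x y _ => Fq_tan (ta := t1) h0 h1 b0 b1 (by unfold Fq1; linarith) (by unfold Fq; linarith)
      (by unfold Fq; rw [g1]; linarith) t x y) ?_ a0 a1 ?_ ?_ ?_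
  · rcases hE with h | h | h
    · exact Or.inl h
    · refine Or.inr ?_
      unfold Hq
      rw [g1]
      have := Real.sqrt_nonneg (-(γ * l1) + -(γ * l0) * 1 ^ 2)
      linarith
    · refine Or.inr ?_
      unfold Hq
      rw [g1]
      have : (k0 + k1 - 2) / 2 ≤ √(-(γ * l1) + -(γ * l0) * 1 ^ 2) := Real.le_sqrt_of_sq_le (by nlinarith)
      generalize √(-(γ * l1) + -(γ * l0) * 1 ^ 2) = r at this ⊢
      linarith
  · have : v0 ^ 2 < 1 := by nlinarith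
    nlinarith
  · unfold Hq1
    rw [sq, q1, q4]
    have := Lp.ne'
    have := v1.ne'
    have : l0 * t0 ^ 2 + l1 ≠ 0 := by intro h; rw [h] at Lp; simp at Lp
    field_simp
    ring
  · unfold Hq
    rw [sq]
    rw [q1] at q3
    linarith

end Crest.Agent.R307
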