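import Crest.Agent.R307.XVar

/-! # R307/MV1: two lemmas for the square-root window (spec: helper63) -/

set_option autoImplicit false

namespace Crest.Agent.R307

noncomputable def mvZ (s t : ℝ) : ℝ := √(s ^ 2 / 4 * (1 - t ^ 2) ^ 2 + t ^ 2)

noncomputable def mvG (s t : ℝ) : ℝ :=
  s ^ 2 * (1 + t) ^ 2 / (2 * (√(1 + t ^ 2 + 2 * mvZ s t) + 1 + t) * (mvZ s t + t))

noncomputable def mvN (t : ℝ) : ℝ := √((1 + t ^ 2) / 2)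

theorem mv_G {ρ s t : ℝ} (hρ0 : 0 ≤ ρ) (hρ1 : ρ ≤ 1) (hs : 0 < s) (hsρ : s ^ 2 = 1 - ρ ^ 2) (ht0 : 0 ≤ t)
    (_ht1 : t ≤ 1) :
    √((1 + ρ) / 2 + (1 - ρ) / 2 * t ^ 2) + √((1 + ρ) / 2 * t ^ 2 + (1 - ρ) / 2) = 1 + t + mvG s t * (1 - t) ^ 2 ∧
      0 < mvG s t := by
  have hb : 0 ≤ (1 - ρ) / 2 := by linarith
  have hx : 0 ≤ (1 + ρ) / 2 + (1 - ρ) / 2 * t ^ 2 := by positivity
  have hy : 0 ≤ (1 + ρ) / 2 * t ^ 2 + (1 - ρ) / 2 := by positivity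
  have hz0 : 0 < s ^ 2 / 4 * (1 - t ^ 2) ^ 2 + t ^ 2 := by
    rcases ht0.eq_or_lt with h | h
    · rw [← h]; have : 0 < s ^ 2 := by positivity
      nlinarith
    · positivity
  have hZ : 0 < mvZ s t := Real.sqrt_pos.2 hz0
  have hZ2 : mvZ s t ^ 2 = s ^ 2 / 4 * (1 - t ^ 2) ^ 2 + t ^ 2 := Real.sq_sqrt hz0.le
  have hXY : √((1 + ρ) / 2 + (1 - ρ) / 2 * t ^ 2) * √((1 + ρ) / 2 * t ^ 2 + (1 - ρ) / 2) = mvZ s t := by
    rw [← Real.sqrt_mul hx]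
    unfold mvZ
    congr 1
    rw [hsρ]; ring
  have hX2 := Real.sq_sqrt hx
  have hY2 := Real.sq_sqrt hy
  have hX0 := Real.sqrt_nonneg ((1 + ρ) / 2 + (1 - ρ) / 2 * t ^ 2)
  have hY0 := Real.sqrt_nonneg ((1 + ρ) / 2 * t ^ 2 + (1 - ρ) / 2)
  set X := √((1 + ρ) / 2 + (1 - ρ) / 2 * t ^ 2)
  set Y := √((1 + ρ) / 2 * t ^ 2 + (1 - ρ) / 2)
  have hW2 : (X + Y) ^ 2 = 1 + t ^ 2 + 2 * mvZ s t := by
    rw [← hXY]; nlinarith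
  have hW : √(1 + t ^ 2 + 2 * mvZ s t) = X + Y := by
    rw [← hW2, Real.sqrt_sq (by linarith)]
  have h1 : 0 < X + Y + 1 + t := by linarith
  have h2 : 0 < mvZ s t + t := by linarith
  unfold mvG
  rw [hW]
  refine ⟨?_, by positivity⟩
  have e : (X + Y - (1 + t)) * (2 * (X + Y + 1 + t) * (mvZ s t + t)) = s ^ 2 * (1 + t) ^ 2 * (1 - t) ^ 2 := by
    have e1 : (X + Y - (1 + t)) * (X + Y + 1 + t) = 2 * (mvZ s t - t) := by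
      linear_combination hW2
    linear_combination 2 * (mvZ s t + t) * e1 + 4 * hZ2
  have hD : 2 * (X + Y + 1 + t) * (mvZ s t + t) ≠ 0 := by positivity
  rw [div_mul_eq_mul_div, ← e, mul_div_assoc, div_self hD]
  ring

theorem mv_step {ρ s a d lam t0 kp l c1 c2 c3 S : ℝ} (B : ℝ → ℝ) (hρ0 : 0 ≤ ρ) (hρ1 : ρ ≤ 1) (hs : 0 < s)
    (hsρ : s ^ 2 = 1 - ρ ^ 2) (hl : 0 ≤ lam) (hS : 0 < S)
    (hq : ∀ t r : ℝ, 0 ≤ t → t ≤ 1 → 0 ≤ r → r ≤ 1 → 0 ≤ mvG s t * (1 - t) ^ 2 -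
      lam * t0 * (1 - t) * (1 + l * r * (1 + t) / 2) +
      lam * t0 ^ 2 * (kp * (1 + t) + c1 * mvN t - c2 * mvN t ^ 2 * r + c3 * mvN t ^ 3 * r ^ 2))
    (hK0 : 0 ≤ 1 - lam * t0 - lam * t0 ^ 2 * kp) (hK1 : 0 ≤ 1 + lam * t0 - lam * t0 ^ 2 * kp)
    (hV : (c1 + c3 * a) ^ 2 + c3 ^ 2 * (ρ ^ 2 * (a - d / 2 - a ^ 2)) ≤ S ^ 2 * a)
    (hB : 2 * B a ≤ B (a - d) + B (a + d) + lam * t0 * (B (a + d) - B (a - d)) -
      lam * t0 ^ 2 * kp * (B (a - d) + B (a + d)) + lam * t0 * l * d + lam * t0 ^ 2 * (c2 - S) * a) :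
    ∃ k0 k1 l0 l1 c nu lam mu : ℝ,
      0 ≤ k0 ∧ 0 ≤ k1 ∧ 0 ≤ nu ∧
      (∀ p0 p1 : ℝ, 0 ≤ p0 → p0 ≤ p1 → p1 ≤ 1 →
        k0 * √p0 + k1 * √p1 + l0 * p0 + l1 * p1 + c - nu * (lam * (p0 - (a - d)) + mu * (p1 - (a + d))) ^ 2 ≤
          √((1 + ρ) / 2 * p1 + (1 - ρ) / 2 * p0) + √((1 + ρ) / 2 * p0 + (1 - ρ) / 2 * p1)) ∧
      2 * B ((a - d + (a + d)) / 2) ≤ k0 * B (a - d) + k1 * B (a + d) + l0 * (a - d) + l1 * (a + d) + c -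
        nu * (ρ ^ 2 * xvV lam mu (a - d) (a + d)) := by
  have hO : 0 ≤ lam * t0 ^ 2 := by positivity
  obtain ⟨O, hOd⟩ : ∃ O, O = lam * t0 ^ 2 := ⟨_, rfl⟩
  obtain ⟨E, hEd⟩ : ∃ E, E = lam * t0 := ⟨_, rfl⟩
  obtain ⟨w, hw⟩ : ∃ w, w = c1 + c3 * a := ⟨_, rfl⟩
  obtain ⟨I, hI⟩ : ∃ I, I = S⁻¹ := ⟨_, rfl⟩
  have hI0 : 0 < I := by rw [hI]; positivity
  have hIS : I * S = 1 := by rw [hI]; exact inv_mul_cancel₀ hS.ne'
  simp only [← hOd, ← hEd, ← hw] at hq hK0 hK1 hV hB hO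
  refine ⟨1 - E - O * kp, 1 + E - O * kp, (O * c2 - E * l) / 2 - O * (S / 4 + w * c3 * I / 2),
    (O * c2 + E * l) / 2 - O * (S / 4 + w * c3 * I / 2), -(O * w ^ 2 * I / 2) + O * w * c3 * a * I,
    O * c3 ^ 2 * I / 2, 1 / 2, 1 / 2, hK0, hK1, by positivity, ?_, ?_⟩
  · intro p0 p1 h0 h01 h1
    have hp1 : 0 ≤ p1 := h0.trans h01
    obtain ⟨r, t, hr0, hr1, ht0, ht1, e0, e1⟩ : ∃ r t : ℝ, 0 ≤ r ∧ r ≤ 1 ∧ 0 ≤ t ∧ t ≤ 1 ∧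
        p0 = (r * t) ^ 2 ∧ p1 = r ^ 2 := by
      refine ⟨√p1, √p0 / √p1, Real.sqrt_nonneg _, Real.sqrt_le_one.2 h1, by positivity,
        div_le_one_of_le₀ (Real.sqrt_le_sqrt h01) (Real.sqrt_nonneg _), ?_, (Real.sq_sqrt hp1).symm⟩
      rcases hp1.eq_or_lt with h | h
      · have : p0 = 0 := by linarith
        rw [this]; simp
      · have : √p1 ≠ 0 := (Real.sqrt_pos.2 h).ne'
        rw [mul_div_cancel₀ _ this, Real.sq_sqrt h0]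
    have hG := (mv_G hρ0 hρ1 hs hsρ ht0 ht1).1
    have s0 : √p0 = r * t := by rw [e0, Real.sqrt_sq (by positivity)]
    have s1 : √p1 = r := by rw [e1, Real.sqrt_sq hr0]
    have s2 : √((1 + ρ) / 2 * p1 + (1 - ρ) / 2 * p0) = r * √((1 + ρ) / 2 + (1 - ρ) / 2 * t ^ 2) := by
      rw [show (1 + ρ) / 2 * p1 + (1 - ρ) / 2 * p0 = r ^ 2 * ((1 + ρ) / 2 + (1 - ρ) / 2 * t ^ 2) by
        rw [e0, e1]; ring, Real.sqrt_mul (sq_nonneg r), Real.sqrt_sq hr0]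
    have s3 : √((1 + ρ) / 2 * p0 + (1 - ρ) / 2 * p1) = r * √((1 + ρ) / 2 * t ^ 2 + (1 - ρ) / 2) := by
      rw [show (1 + ρ) / 2 * p0 + (1 - ρ) / 2 * p1 = r ^ 2 * ((1 + ρ) / 2 * t ^ 2 + (1 - ρ) / 2) by
        rw [e0, e1]; ring, Real.sqrt_mul (sq_nonneg r), Real.sqrt_sq hr0]
    rw [s0, s1, s2, s3, ← mul_add r, hG]
    have hN2 : mvN t ^ 2 = (1 + t ^ 2) / 2 := Real.sq_sqrt (by positivity)
    have hqr := mul_nonneg hr0 (hq t r ht0 ht1 hr0 hr1)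
    obtain ⟨N, hN⟩ : ∃ N, N = mvN t := ⟨_, rfl⟩
    obtain ⟨G, hGd⟩ : ∃ G, G = mvG s t := ⟨_, rfl⟩
    rw [← hN] at hN2 hqr
    rw [← hGd] at hqr ⊢
    obtain ⟨P, hP⟩ : ∃ P, P = (r * N) ^ 2 := ⟨_, rfl⟩
    have hPp : p0 + p1 = 2 * P := by rw [hP, e0, e1, mul_pow r N, hN2]; ring
    have hdp : p1 - p0 = r ^ 2 * (1 - t) * (1 + t) := by rw [e0, e1]; ring
    have hc1 : c1 = w - c3 * a := by rw [hw]; ring
    have hsq : 0 ≤ O * (I * (S * (r * N) - (w + c3 * (P - a))) ^ 2) := by positivity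
    have k1 : I * (S * (r * N) - (w + c3 * (P - a))) ^ 2 =
        S * P - 2 * (r * N) * (w + c3 * (P - a)) + I * (w + c3 * (P - a)) ^ 2 := by
      rw [hP]
      linear_combination (S * (r * N) ^ 2 - 2 * (r * N) * (w + c3 * ((r * N) ^ 2 - a))) * hIS
    rw [k1] at hsq
    have k2 : r * (G * (1 - t) ^ 2 - E * (1 - t) * (1 + l * r * (1 + t) / 2) +
        O * (kp * (1 + t) + c1 * N - c2 * N ^ 2 * r + c3 * N ^ 3 * r ^ 2)) =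
        r * G * (1 - t) ^ 2 - E * r * (1 - t) - E * l * (p1 - p0) / 2 +
          O * (kp * r * (1 + t) - c2 * P + (r * N) * (w + c3 * (P - a))) := by
      rw [hdp, hc1, hP]; ring
    rw [k2] at hqr
    have k3 : (1 / 2 * (p0 - (a - d)) + 1 / 2 * (p1 - (a + d))) = P - a := by linarith
    have k4 : ((O * c2 - E * l) / 2 - O * (S / 4 + w * c3 * I / 2)) * p0 +
        ((O * c2 + E * l) / 2 - O * (S / 4 + w * c3 * I / 2)) * p1 =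
        O * c2 * P + E * l * (p1 - p0) / 2 - O * (S / 2 + w * c3 * I) * P := by
      linear_combination (O * c2 / 2 - O * (S / 4 + w * c3 * I / 2)) * hPp
    rw [k3]
    linear_combination (1 / 2) * hsq + hqr + k4
  · have e : (a - d + (a + d)) / 2 = a := by ring
    have hv : xvV (1 / 2) (1 / 2) (a - d) (a + d) = a - d / 2 - a ^ 2 := by unfold xvV; ring
    rw [e, hv]
    have h1 := mul_le_mul_of_nonneg_left hV (mul_nonneg hO hI0.le)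
    have h2 : O * I * (S ^ 2 * a) = O * S * a := by linear_combination O * S * a * hIS
    rw [h2] at h1
    linear_combination hB + (1 / 2) * h1

end Crest.Agent.R307
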