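import Mathlib.Tactic

set_option autoImplicit false

namespace Crest.Agent.R307

noncomputable def mvb0 (s : ℝ) : ℝ := ((((-7421/1250:ℝ) * s) + ((20237/5000:ℝ) * (s ^ 2))) + (19241/10000:ℝ))
noncomputable def mvb1 (s : ℝ) : ℝ := ((((-20121/10000:ℝ) * s) + ((15457/10000:ℝ) * (s ^ 2))) + (1317/2500:ℝ))
noncomputable def mvb2 (s : ℝ) : ℝ := ((((-1531/625:ℝ) * s) + ((3301/2000:ℝ) * (s ^ 2))) + (7363/10000:ℝ))
noncomputable def mvb3 (s : ℝ) : ℝ := ((((5437/10000:ℝ) * s) + ((-721/2000:ℝ) * (s ^ 2))) + (-123/625:ℝ))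
noncomputable def mvb4 (s : ℝ) : ℝ := ((((-6049/2000:ℝ) * s) + ((21913/10000:ℝ) * (s ^ 2))) + (373/400:ℝ))
noncomputable def mvb5 (s : ℝ) : ℝ := ((((4411/1250:ℝ) * s) + ((-669/1000:ℝ) * (s ^ 2))) + (-977/1000:ℝ))
noncomputable def mvb6 (s : ℝ) : ℝ := ((((30257/10000:ℝ) * s) + ((-5493/10000:ℝ) * (s ^ 2))) + (-4349/5000:ℝ))
noncomputable def mvb7 (s : ℝ) : ℝ := ((((10809/1250:ℝ) * s) + ((-20701/5000:ℝ) * (s ^ 2))) + (-20067/10000:ℝ))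
noncomputable def mvb8 (s : ℝ) : ℝ := ((((26231/2000:ℝ) * s) + ((-47563/5000:ℝ) * (s ^ 2))) + (-18229/5000:ℝ))
noncomputable def mvb9 (s : ℝ) : ℝ := ((((-3567/10000:ℝ) * s) + ((3201/10000:ℝ) * (s ^ 2))) + (-39/5000:ℝ))
noncomputable def mvb10 (s : ℝ) : ℝ := ((((-501/10000:ℝ) * s) + ((-187/2500:ℝ) * (s ^ 2))) + (12/125:ℝ))

/-- The budget of the square-root potential on the windows M and B. -/
noncomputable def mvB (s a : ℝ) : ℝ :=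
  a + a * (1 - a) * (mvb0 s + mvb1 s * (2 * a - 1) + mvb2 s * (2 * a - 1) ^ 2 + mvb3 s * (2 * a - 1) ^ 3 +
    mvb4 s * (2 * a - 1) ^ 4 + mvb5 s * (1 / (1 + 4 * a)) + mvb6 s * (1 / (1 + 20 * a)) + mvb7 s * (1 / (1 + 100 * a)) +
    mvb8 s * (1 / (1 + 3 * (1 - a))) + mvb9 s * (1 / (1 + 9 * (1 - a))) + mvb10 s * (1 / (1 + 27 * (1 - a))))

end Crest.Agent.R307
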