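import Crest.Agent.R307.MSq

/-!
# R307/MXa: abstract algebra for the Bellman step of window M (helper93)
-/

set_option autoImplicit false

namespace Crest.Agent.R307

theorem mx_g1 (ρ : ℝ) : gq ρ 1 = 2 := by
  unfold gq
  rw [show (1 + ρ) / 2 + (1 - ρ) / 2 * 1 ^ 2 = 1 by ring, show (1 - ρ) / 2 + (1 + ρ) / 2 * 1 ^ 2 = 1 by ring]
  norm_num

/-- closed forms of `gq`, `gq1` in the variable `s`. -/
theorem mx_g {ρ s z t tp w QQ iq g st mm G : ℝ} (h0 : 0 ≤ ρ) (h1 : ρ < 1) (hs : s * s = 1 - ρ ^ 2)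
    (z0 : 0 ≤ z) (ht0 : 0 ≤ t)
    (et : t = 1 - z) (etp : tp = 2 - z) (ew : w = z * tp) (eQ : QQ = √(t * t + s * s * (w * w) / 4))
    (eiq : iq = 1 / (QQ + t)) (eg : g = √(1 + t * t + 2 * QQ)) (est : st = s * s * tp)
    (emm : mm = st * tp * iq / (2 * (g + tp))) (eG : G = (z * mm + st * (w * iq / 4 + t / 2) / QQ) / g) :
    gq ρ t = 1 + t + z ^ 2 * mm ∧ gq ρ t = g ∧ gq1 ρ t = 1 - z * G ∧ 0 ≤ mm ∧ 0 ≤ G := by
  have a : 0 < (1 - ρ) / 2 := by linarith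
  have pX : 0 < (1 + ρ) / 2 + (1 - ρ) / 2 * t ^ 2 := by positivity
  have pY : 0 < (1 - ρ) / 2 + (1 + ρ) / 2 * t ^ 2 := by positivity
  have sX := Real.sq_sqrt pX.le
  have sY := Real.sq_sqrt pY.le
  have qX := Real.sqrt_pos.2 pX
  have qY := Real.sqrt_pos.2 pY
  unfold gq gq1
  generalize √((1 + ρ) / 2 + (1 - ρ) / 2 * t ^ 2) = X at *
  generalize √((1 - ρ) / 2 + (1 + ρ) / 2 * t ^ 2) = Y at *
  have ew' : w = 1 - t ^ 2 := by rw [ew, etp, et]; ring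
  have tp' : tp = 1 + t := by rw [etp, et]; ring
  have e2 : (X * Y) ^ 2 = t * t + s * s * (w * w) / 4 := by
    rw [mul_pow, sX, sY, hs, ew']; ring
  have eQ' : QQ = X * Y := by rw [eQ, ← e2, Real.sqrt_sq (by positivity)]
  have eg' : g = X + Y := by
    rw [eg, show 1 + t * t + 2 * QQ = (X + Y) ^ 2 by rw [eQ']; linear_combination -sX - sY,
      Real.sqrt_sq (by positivity)]
  have Qp : 0 < QQ := by rw [eQ']; positivity
  have gp : 0 < g := by rw [eg']; positivity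
  have tpp : 0 < tp := by linarith
  have ss : 0 ≤ s * s := mul_self_nonneg s
  have w0 : 0 ≤ w := by rw [ew]; positivity
  have iqp : 0 < iq := by rw [eiq]; positivity
  have st0 : 0 ≤ st := by rw [est]; positivity
  have mm0 : 0 ≤ mm := by rw [emm]; positivity
  have G0 : 0 ≤ G := by rw [eG]; positivity
  have i1 : iq * (QQ + t) = 1 := by rw [eiq]; field_simp
  have i2 : s * s * (w * w) / 4 * iq = QQ - t := by
    rw [← eQ'] at e2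
    linear_combination (QQ - t) * i1 - iq * e2
  have g2 : g ^ 2 = 1 + t ^ 2 + 2 * QQ := by rw [eg', eQ']; linear_combination sX + sY
  have m1 : mm * (2 * (g + tp)) = st * tp * iq := by rw [emm]; field_simp
  have m2 : g = 1 + t + z ^ 2 * mm := by
    have : (g - tp - z ^ 2 * mm) * (2 * (g + tp)) = 0 := by
      have w2 : z ^ 2 * (st * tp * iq) = s * s * (w * w) * iq := by rw [est, ew]; ring
      rw [tp'] at m1 w2 ⊢
      linear_combination 2 * g2 - z ^ 2 * m1 - w2 - 4 * i2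
    have := (mul_eq_zero.1 this).resolve_right (by positivity)
    linarith
  refine ⟨by rw [← eg']; exact m2, eg'.symm, ?_, mm0, G0⟩
  have G1 : G * g * QQ = z * mm * QQ + st * (w * iq / 4 + t / 2) := by rw [eG]; field_simp
  have L1 : ((1 - ρ) / 2 * (t / X) + (1 + ρ) / 2 * (t / Y)) * (g * QQ) = t * QQ + t - s * s * w * t / 2 := by
    rw [eg', eQ', hs, ew']
    field_simp
    linear_combination (t * (1 + ρ)) * sX + (t * (1 - ρ)) * sY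
  have L2 : (1 - z * G) * (g * QQ) = t * QQ + t - s * s * w * t / 2 := by
    have w2 : z * st = s * s * w := by rw [est, ew]; ring
    linear_combination (-z) * G1 + QQ * m2 - (w * iq / 4 + t / 2) * w2 - i2
  exact mul_right_cancel₀ (by positivity : g * QQ ≠ 0) (L1.trans L2.symm)

/-- family IV -/
theorem mx_IV {ρ z t g mm G pa l0 k0 k1 : ℝ} (h0 : 0 ≤ ρ) (h1 : ρ < 1) (z0 : 0 < z) (t0 : 0 ≤ t) (et : t = 1 - z)
    (g1 : gq ρ t = 1 + t + z ^ 2 * mm) (g2 : gq ρ t = g) (g3 : gq1 ρ t = 1 - z * G) (p0 : 0 ≤ pa) (p1 : pa ≤ 1)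
    (hG : 0 < G - mm) (el : l0 = pa * (G - mm)) (ek0 : k0 = 1 - z * G - 2 * (l0 * t))
    (ek1 : k1 = g - t * (k0 + l0 * t)) (hk0 : 0 < k0) (hk1 : 0 < k1) : SqStep ρ k0 k1 l0 0 (-0) := by
  have hl : 0 ≤ l0 := by rw [el]; positivity
  refine sq_valid_face hk0.le hk1.le hl le_rfl (by simp) fun y y0 y1 =>
    Fq_tan (ta := t) h0 h1 t0 (by linarith) (by unfold Fq1; rw [g3, ek0]; ring)
      (by unfold Fq; rw [g2, ek1]; ring) ?_ y y0 y1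
  unfold Fq
  rw [mx_g1]
  have : 0 ≤ z ^ 2 * ((G - mm) * (1 - pa)) := by
    have : 0 ≤ 1 - pa := by linarith
    positivity
  have e : 2 - k0 * 1 - k1 - (l0 * 1 ^ 2 + 0) + 0 = z ^ 2 * ((G - mm) * (1 - pa)) := by
    rw [ek1, ← g2, g1, ek0, el, et]; ring
  rw [e]; exact this

/-- family I -/
theorem mx_I {ρ ep u Z0 Z1 z0 z1 t0 t1 tp0 v0 vb uA G0 G1 mm0 mm1 mu em f1 L0 Zf Xn wt wb nD2 D1 B0 B1 Bm a0 a1 : ℝ}
    (h0 : 0 ≤ ρ) (h1 : ρ < 1) (hep : 0 < ep) (hu : 0 < u) (hZ0 : 0 < Z0) (hZ1 : 0 < Z1)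
    (ez0 : z0 = ep * Z0) (ez1 : z1 = ep * Z1) (et0 : t0 = 1 - z0) (et1 : t1 = 1 - z1) (etp : tp0 = 2 - z0)
    (euA : uA = t0 * v0) (evb : vb = 1 - v0) (hv : 0 < v0) (hvb : 0 < vb) (ht0 : 0 < t0) (ht1 : 0 < t1 - uA)
    (g0 : gq ρ t0 = 1 + t0 + z0 ^ 2 * mm0) (d0 : gq1 ρ t0 = 1 - z0 * G0) (hm0 : 0 ≤ mm0) (hG0 : 0 ≤ G0)
    (g1 : gq ρ t1 = 1 + t1 + z1 ^ 2 * mm1) (d1 : gq1 ρ t1 = 1 - z1 * G1)
    (emu : mu = (Z0 * G0 - Z1 * G1) / (2 * (t1 - uA))) (eem : em = ep * mu) (hmu : 0 < mu)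
    (ef1 : f1 = G1 - mm1 - em) (eL : L0 = G0 - mm0) (eZf : Zf = Z1 * Z1 * f1)
    (eXn : Xn = Zf + Z0 * (mu * (tp0 - 2 * uA)) - Z0 * Z0 * L0)
    (hf1 : 0 < f1) (hXn : 0 < Xn) (hk0 : 0 < 1 - z1 * G1 - 2 * (em * t1))
    (hE : 0 < Z0 * (mu * tp0) * vb - Xn * (1 + v0))
    (hB1 : B1 - B0 = ep * u ^ 3 * D1) (hB2 : B0 + B1 - 2 * Bm = ep ^ 2 * u ^ 3 * nD2)
    (ha1 : a1 = u ^ 4) (ha0 : a0 = u ^ 4 * (1 - ep)) (hw1 : B1 - v0 = u ^ 3 * wt * vb)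
    (hw2 : B1 - a1 = u ^ 3 * wb * vb) (hw3 : v0 * (1 - B1) = B1 - a1)
    (bel : 0 < nD2 + Z1 * G1 * D1 + mu * (2 * (t1 * D1) - u) - wt * Zf - wb * (Z0 * Z0 * (L0 - em * v0))) :
    ∃ k0 k1 l0 l1 c : ℝ, SqStep ρ k0 k1 l0 l1 c ∧ 2 * Bm ≤ k0 * B0 + k1 * B1 + l0 * a0 + l1 * a1 + c := by
  have hz0 : 0 < z0 := by rw [ez0]; positivity
  have hz1 : 0 < z1 := by rw [ez1]; positivity
  have hem : 0 < em := by rw [eem]; positivity
  have huA : 0 < uA := by rw [euA]; positivity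
  have mu1 : mu * (2 * (t1 - uA)) = Z0 * G0 - Z1 * G1 := by rw [emu]; field_simp
  obtain ⟨X, hX⟩ : ∃ X : ℝ, X = ep ^ 2 * Xn / vb ^ 2 := ⟨_, rfl⟩
  have Xp : 0 < X := by rw [hX]; positivity
  have X1 : X * vb ^ 2 = ep ^ 2 * Xn := by rw [hX]; field_simp
  obtain ⟨k0, ek0⟩ : ∃ k0 : ℝ, k0 = 1 - z1 * G1 - 2 * (em * t1) := ⟨_, rfl⟩
  obtain ⟨l1, el1⟩ : ∃ l1 : ℝ, l1 = -X - em * t0 ^ 2 := ⟨_, rfl⟩
  obtain ⟨k1, ek1⟩ : ∃ k1 : ℝ, k1 = 1 + z0 ^ 2 * mm0 + t0 * z0 * G0 + 2 * v0 * (X + em * t0 ^ 2) := ⟨_, rfl⟩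
  have ek0' : k0 = 1 - z0 * G0 - 2 * (em * (t0 * v0)) := by
    rw [ek0, ← euA, ez0, ez1, eem]; linear_combination (-ep) * mu1
  have q5 : 1 + t1 + z1 ^ 2 * mm1 = k0 * t1 + k1 + (em * t1 ^ 2 + l1) - v0 ^ 2 * X := by
    have b : k0 * z1 = (1 - z1 * G1 - 2 * (em * t1)) * z1 := by rw [← ek0]
    have c : ep ^ 2 * Xn = z1 ^ 2 * (G1 - mm1 - em) + z0 * (em * (2 - z0 - 2 * (t0 * v0))) - z0 ^ 2 * (G0 - mm0) := by
      rw [eXn, eZf, ef1, eL, etp, euA, eem]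
      generalize G1 - mm1 - ep * mu = f
      rw [show z0 * (ep * mu * (2 - z0 - 2 * (t0 * v0))) = ep * Z0 * (ep * mu * (2 - z0 - 2 * (t0 * v0))) by
        rw [← ez0], show z0 ^ 2 = (ep * Z0) ^ 2 by rw [← ez0], ez1]
      ring
    rw [evb] at X1
    rw [ek1, el1]
    rw [et0] at *
    rw [et1] at *
    linear_combination X1 + c + b - ek0'
  have S1 : k0 + k1 + em + l1 - v0 ^ 2 * X = 2 - ep ^ 2 * Zf := by
    have b : k0 * z1 = (1 - z1 * G1 - 2 * (em * t1)) * z1 := by rw [← ek0]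
    have c : ep ^ 2 * Zf = z1 ^ 2 * (G1 - mm1 - em) := by rw [eZf, ef1, ez1]; ring
    rw [et1] at q5 b
    linear_combination b - q5 + c
  have S2 : (k0 + k1) * v0 + (em + l1) * v0 ^ 2 - v0 ^ 2 * X = v0 * (2 - ep ^ 2 * (Z0 * Z0 * (L0 - em * v0))) := by
    rw [show ep ^ 2 * (Z0 * Z0 * (L0 - em * v0)) = z0 ^ 2 * (L0 - em * v0) by rw [ez0]; ring,
      ek0', ek1, el1, eL, et0]
    ring
  refine ⟨k0, k1, em, l1, -(v0 ^ 2 * X), sq_fam (t0 := t0) (t1 := t1) (v0 := v0) h0 h1 (by rw [ek0]; exact hk0.le)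
    (by rw [ek1]; positivity) hem.le (by positivity) ht0.le (by linarith) (by linarith) (by linarith) hv (by linarith)
    (by rw [d0, ek0']; ring) (by rw [d1, ek0]; ring) (by rw [g0, d0, ek1, el1]; ring) (by rw [el1]; ring)
    (by rw [g1, q5]) ?_ (Or.inl ?_), ?_⟩
  · rw [S1]
    have : 0 ≤ ep ^ 2 * Zf := by rw [eZf]; positivity
    linarith
  · have a : 0 < ep ^ 2 * (Z0 * (mu * tp0) * vb - Xn * (1 + v0)) := by positivity
    have b : (v0 ^ 2 * X + (em + l1)) * vb = ep ^ 2 * (Z0 * (mu * tp0) * vb - Xn * (1 + v0)) := by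
      have c : ep ^ 2 * (Z0 * (mu * tp0)) = em * (1 - t0 ^ 2) := by rw [eem, etp, et0, ez0]; ring
      rw [el1]
      rw [evb] at X1 ⊢
      linear_combination (-(1 + v0)) * X1 - (1 - v0) * c
    have c := (mul_pos_iff_of_pos_right hvb).1 (b ▸ a)
    linarith
  · obtain ⟨w, ew⟩ : ∃ w : ℝ, w = u ^ 3 * wt := ⟨_, rfl⟩
    have eB : B1 = w + (1 - w) * v0 := by rw [ew]; rw [evb] at hw1; linear_combination hw1
    have ea : a1 = w + (1 - w) * v0 ^ 2 := by linear_combination hw3 + (1 + v0) * eB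
    have eb : u ^ 3 * wb = (1 - w) * v0 := by
      refine mul_right_cancel₀ hvb.ne' ?_
      rw [← hw2, evb]
      linear_combination eB - ea
    have a : 0 < ep ^ 2 * u ^ 3 *
        (nD2 + Z1 * G1 * D1 + mu * (2 * (t1 * D1) - u) - wt * Zf - wb * (Z0 * Z0 * (L0 - em * v0))) := by positivity
    have s3 : (k0 + k1) * B1 + (em + l1) * a1 - v0 ^ 2 * X =
        2 * B1 - ep ^ 2 * u ^ 3 * (wt * Zf + wb * (Z0 * Z0 * (L0 - em * v0))) := by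
      linear_combination (k0 + k1 - 2) * eB + (em + l1) * ea + w * S1 + (1 - w) * S2 - ep ^ 2 * Zf * ew
        + ep ^ 2 * (Z0 * Z0 * (L0 - em * v0)) * eb
    have s4 : k0 * (B1 - B0) = (1 - ep * (Z1 * G1 + 2 * (mu * t1))) * (ep * u ^ 3 * D1) := by
      rw [hB1, ek0, ez1, eem]; ring
    have s5 : em * (a1 - a0) = ep ^ 2 * u ^ 3 * (mu * u) := by rw [eem, ha1, ha0]; ring
    have : k0 * B0 + k1 * B1 + em * a0 + l1 * a1 + -(v0 ^ 2 * X) - 2 * Bm = ep ^ 2 * u ^ 3 *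
        (nD2 + Z1 * G1 * D1 + mu * (2 * (t1 * D1) - u) - wt * Zf - wb * (Z0 * Z0 * (L0 - em * v0))) := by
      linear_combination s3 - s4 - s5 + hB1 + hB2
    linarith

/-- divided differences -/
theorem mx_dd {x m u ep R0 R1 R2 R01 R012 R12 R02 nD2 D1 : ℝ} (x0 : 0 ≤ x) (m0 : 0 < m)
    (em : m ^ 4 = (1 + x ^ 4) / 2) (eep : ep = 1 - x ^ 4)
    (e1 : R1 = R0 + (u * m - u * x) * R01) (e12 : R12 = R01 + (u - u * x) * R012)
    (e02 : R02 = R01 + (u - u * m) * R012) (e2 : R2 = R0 + (u - u * x) * R02)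
    (eD : D1 = ((1 + x + x ^ 2) * R2 + x ^ 3 * u * R02) * (1 / ((1 + x) * (1 + x ^ 2))))
    (eN : nD2 = ((x ^ 3 * u * (u * R012) + (x ^ 2 + x * m + m ^ 2) * (u * R12) + (x + m + 1) * R2) -
      (x ^ 3 * u * R01 + (x ^ 2 + x * m + m ^ 2) * R1) * (x ^ 2 + x * m + m ^ 2 + x + m + 1) /
        ((x + m) * (x ^ 2 + m ^ 2))) * (1 / ((1 + x) * (1 + x ^ 2))) / (2 * ((1 + m) * (1 + m ^ 2)))) :
    R2 - x ^ 3 * R0 = ep * D1 ∧ x ^ 3 * R0 + R2 - 2 * (m ^ 3 * R1) = ep ^ 2 * nD2 := by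
  constructor
  · rw [eD, eep]
    field_simp
    rw [e2]
    ring
  · obtain ⟨P2, eP2⟩ : ∃ P, P = x ^ 3 * u * (u * R012) + (x ^ 2 + x * m + m ^ 2) * (u * R12) + (x + m + 1) * R2 :=
      ⟨_, rfl⟩
    obtain ⟨P1, eP1⟩ : ∃ P, P = x ^ 3 * u * R01 + (x ^ 2 + x * m + m ^ 2) * R1 := ⟨_, rfl⟩
    rw [← eP2, ← eP1] at eN
    have A : x ^ 3 * R0 + R2 - 2 * (m ^ 3 * R1) = (1 - m) * (1 - x) * P2 + ((1 - m) - (m - x)) * P1 := by
      rw [eP2, eP1, e2, e1, e12, e02]; ring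
    have B : ep ^ 2 = (1 - m) * (1 - x) * (((1 + x) * (1 + x ^ 2)) * (2 * ((1 + m) * (1 + m ^ 2)))) := by
      rw [eep]; linear_combination (2 * (1 - x ^ 4)) * em
    have C : (1 - m) - (m - x) = -((1 - m) * (1 - x) * (x ^ 2 + x * m + m ^ 2 + x + m + 1) /
        ((x + m) * (x ^ 2 + m ^ 2))) := by
      field_simp
      linear_combination (-2) * em
    rw [A, B, C, eN]
    field_simp
    ring

end Crest.Agent.R307
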