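import Mathlib.Analysis.SpecialFunctions.Sqrt

/-!
# R307/MXb: the budget function of window M (helper93)
-/

set_option autoImplicit false

namespace Crest.Agent.R307

noncomputable def mxg (s : ℝ) : ℝ := (s - 169 / 250) * (250 / 19)

noncomputable def mxQ (s t : ℝ) : ℝ :=
  (6509 / 25000 * mxg s + 53193 / 100000) + t * ((-7993 / 50000 * mxg s + -1911 / 25000) +
    t * ((-1857 / 100000 * mxg s + 5401 / 100000) + t * ((7163 / 50000 * mxg s + 4733 / 25000) +
      t * ((-5377 / 20000 * mxg s + -2087 / 6250) + t * (9301 / 50000 * mxg s + 31317 / 100000)))))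

noncomputable def mxR (s y : ℝ) : ℝ := 1 + (1 - y) * mxQ s (2 * y - 1)

/-- the budget: `B a = u^3 R(u)`, `u = a^(1/4)` -/
noncomputable def mxB (s a : ℝ) : ℝ := √(√a) ^ 3 * mxR s (√(√a))

theorem mxB_zero (s : ℝ) : mxB s 0 = 0 := by simp [mxB]

theorem mxB_one (s : ℝ) : mxB s 1 = 1 := by simp [mxB, mxR]

theorem mxB_pow (s : ℝ) {u : ℝ} (hu : 0 ≤ u) : mxB s (u ^ 4) = u ^ 3 * mxR s u := by
  unfold mxB
  rw [show u ^ 4 = (u ^ 2) ^ 2 by ring, Real.sqrt_sq (by positivity), Real.sqrt_sq hu]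

end Crest.Agent.R307
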