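import Crest.Agent.R307.MXfcC0
set_option autoImplicit false
set_option maxRecDepth 100000
namespace Crest.Agent.R307.MXfc
open Crest.Agent.R307.IA Crest.Agent.R307.IA2

theorem cov : Cov Q 1152922164313823641 1152922330669932925 1152921504606846976 1152922429186174773 :=
  k0

theorem main (s v : ℝ) (l0 : (3/5:ℝ) ≤ s) (u0 : s ≤ (7513/10000:ℝ)) (l1 : (0:ℝ) ≤ v) (u1 : v ≤ (8409/10000:ℝ)) : Q s v :=
  cov s v (le_trans (by norm_num [val, SS, BB]) l0) (le_trans u0 (by norm_num [val, SS, BB])) (le_trans (by norm_num [val, SS, BB]) l1) (le_trans u1 (by norm_num [val, SS, BB]))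

end Crest.Agent.R307.MXfc
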