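import Crest.Agent.R307.MF
import Crest.Agent.R307.MXb
import Crest.Agent.R307.MXfcM

/-!
# R307/MXf: the end step of window M for the budget `mxB`
-/

set_option autoImplicit false

namespace Crest.Agent.R307

open Crest.CubeNoise

theorem mx_fin {ρ : ℝ} (h0 : 66 / 100 ≤ ρ) (h1 : ρ ≤ 4 / 5)
    (hB : ∀ (n : ℕ) (u : (Fin n → Bool) → ℝ), (∀ y, u y = 0 ∨ u y = 1) →
      mxB (√(1 - ρ ^ 2)) (cubeAverage u) ≤ cubeAverage fun x => √(noise ρ u x)) : XCore ρ := by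
  obtain ⟨s0, s1, s2⟩ := mf_s h0 h1
  refine sm_sym2 (by linarith) (by linarith) (mxB (√(1 - ρ ^ 2))) hB fun a a0 a1 => ?_
  set s := √(1 - ρ ^ 2) with hs
  set v := √(√(1 - a)) with hv
  have v0 : 0 ≤ v := Real.sqrt_nonneg _
  have v2 : v ^ 2 = √(1 - a) := Real.sq_sqrt (Real.sqrt_nonneg _)
  have v4 : v ^ 4 = 1 - a := by
    rw [show v ^ 4 = (v ^ 2) ^ 2 by ring, v2, Real.sq_sqrt (by linarith)]
  have v1 : v ≤ 8409 / 10000 := by
    refine Real.sqrt_le_iff.2 ⟨by norm_num, Real.sqrt_le_iff.2 ⟨by norm_num, by linarith⟩⟩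
  have h := MXfc.main s v s0 s1 v0 v1
  have ha : MXfc.a s v = a := by rw [MXfc.a, v4]; ring
  have hx : MXfc.x s v = ρ ^ 2 := by rw [MXfc.x, s2]; ring
  have hV : MXfc.V s v = smV2 ρ a := by rw [MXfc.V, hx, ha]; rfl
  have e1 : MXfc.B1 s v = mxB s a := by
    rw [MXfc.B1, MXfc.u, ha]
    unfold mxB mxR mxQ mxg MXfc.g
    ring
  have e2 : MXfc.B2 s v = mxB s (1 - a) := by
    rw [MXfc.B2]
    unfold mxB mxR mxQ mxg MXfc.g
    rw [← hv]
    ring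
  have e3 : MXfc.Ee s v = smE (MXfc.w s v) := rfl
  have e4 : MXfc.D s v = smD (MXfc.w s v) := rfl
  have e5 : v ^ 2 * √a = √(a * (1 - a)) := by rw [v2, Real.sqrt_mul (by linarith), mul_comm]
  unfold MXfc.Q at h
  rw [hV, e1, e2, e3, e4, ha, e5] at h
  refine ⟨MXfc.w s v, ?_, by linarith⟩
  unfold MXfc.w
  rw [ha]
  nlinarith

end Crest.Agent.R307
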