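import Crest.Agent.R307.IA2
import Crest.Agent.R307.IAx
set_option autoImplicit false
set_option linter.unusedVariables false
set_option maxRecDepth 20000
namespace Crest.Agent.R307.MXfc
open Crest.Agent.R307.IA Crest.Agent.R307.IA2

theorem In_cast {e1 e2 : ℝ} {x y1 y2 r : ℕ} {v w : ℝ}
    (h : In e1 e2 x y1 y2 r v) (e : v = w) : In e1 e2 x y1 y2 r w := e ▸ h

noncomputable def a (s v : ℝ) : ℝ := ((1:ℝ) - (v ^ 4))
noncomputable def w (s v : ℝ) : ℝ := (((1083/1000:ℝ) + ((1/5:ℝ) * s)) - ((3/10:ℝ) * ((((2:ℝ) * (a s v)) - (1:ℝ)) ^ 2)))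
noncomputable def Ee (s v : ℝ) : ℝ := ((70711/50000:ℝ) * (((2:ℝ) * (w s v)) + (70711/50000:ℝ)))
noncomputable def u (s v : ℝ) : ℝ := (√(√(a s v)))
noncomputable def g (s v : ℝ) : ℝ := ((s - (169/250:ℝ)) * (250/19:ℝ))
noncomputable def B1 (s v : ℝ) : ℝ := (((u s v) ^ 3) * ((1:ℝ) + (((1:ℝ) - (u s v)) * (((53193/100000:ℝ) + ((6509/25000:ℝ) * (g s v))) + ((((2:ℝ) * (u s v)) - (1:ℝ)) * (((-1911/25000:ℝ) + ((-7993/50000:ℝ) * (g s v))) + ((((2:ℝ) * (u s v)) - (1:ℝ)) * (((5401/100000:ℝ) + ((-1857/100000:ℝ) * (g s v))) + ((((2:ℝ) * (u s v)) - (1:ℝ)) * (((4733/25000:ℝ) + ((7163/50000:ℝ) * (g s v))) + ((((2:ℝ) * (u s v)) - (1:ℝ)) * (((-2087/6250:ℝ) + ((-5377/20000:ℝ) * (g s v))) + ((((2:ℝ) * (u s v)) - (1:ℝ)) * ((31317/100000:ℝ) + ((9301/50000:ℝ) * (g s v))))))))))))))))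
noncomputable def B2 (s v : ℝ) : ℝ := ((v ^ 3) * ((1:ℝ) + (((1:ℝ) - v) * (((53193/100000:ℝ) + ((6509/25000:ℝ) * (g s v))) + ((((2:ℝ) * v) - (1:ℝ)) * (((-1911/25000:ℝ) + ((-7993/50000:ℝ) * (g s v))) + ((((2:ℝ) * v) - (1:ℝ)) * (((5401/100000:ℝ) + ((-1857/100000:ℝ) * (g s v))) + ((((2:ℝ) * v) - (1:ℝ)) * (((4733/25000:ℝ) + ((7163/50000:ℝ) * (g s v))) + ((((2:ℝ) * v) - (1:ℝ)) * (((-2087/6250:ℝ) + ((-5377/20000:ℝ) * (g s v))) + ((((2:ℝ) * v) - (1:ℝ)) * ((31317/100000:ℝ) + ((9301/50000:ℝ) * (g s v))))))))))))))))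
noncomputable def D (s v : ℝ) : ℝ := (((Ee s v) + ((3:ℝ) * ((w s v) ^ 2))) - (2:ℝ))
noncomputable def x (s v : ℝ) : ℝ := ((1:ℝ) - (s ^ 2))
noncomputable def V (s v : ℝ) : ℝ := (((x s v) * ((((1:ℝ) - (x s v)) * (min ((4/5:ℝ) - ((539/5000:ℝ) * (x s v))) ((2:ℝ) * ((1:ℝ) - (a s v))))) + ((x s v) * ((4:ℝ) * ((a s v) * ((1:ℝ) - (a s v))))))) / (4:ℝ))

def Q (s v : ℝ) : Prop :=
  (
  (0 < (((((2:ℝ) * (w s v)) * ((Ee s v) + ((w s v) ^ 2))) * ((B1 s v) + (B2 s v))) - (((((D s v) * (((2:ℝ) * ((v ^ 2) * (√(a s v)))) + s)) + (1:ℝ)) + (((w s v) ^ 2) * (Ee s v))) - ((4:ℝ) * (((a s v) * ((1:ℝ) - (a s v))) - (V s v)))))))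

noncomputable def alt0 (z1 w1 z2 w2 : ℕ) : Bool :=
  smulK 1 5 5764607523034234885 1152921504606846976 z1 (Nat.add w1 1152921504606846976) 1152921504606846976 0 fun c1 a1_1 a1_2 q1 =>
  addcK c1 a1_1 a1_2 q1 1152922695377939857 1 fun c2 a2_1 a2_2 q2 =>
  sqK z2 1152921504606846976 (Nat.add w2 1152921504606846976) 0 fun c4 a4_1 a4_2 q4 =>
  sqK c4 a4_1 a4_2 q4 fun c5 a5_1 a5_2 q5 =>
  negK c5 a5_1 a5_2 q5 fun c7 a7_1 a7_2 q7 =>
  addcK c7 a7_1 a7_2 q7 1152922604118474752 0 fun c8 a8_1 a8_2 q8 =>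
  smulK 2 1 1152921504606846977 2305843009213693952 c8 a8_1 a8_2 q8 fun c11 a11_1 a11_2 q11 =>
  addcK c11 a11_1 a11_2 q11 1152920405095219200 0 fun c12 a12_1 a12_2 q12 =>
  sqK c12 a12_1 a12_2 q12 fun c14 a14_1 a14_2 q14 =>
  smulK 3 10 11529215046068469770 3458764513820540928 c14 a14_1 a14_2 q14 fun c15 a15_1 a15_2 q15 =>
  subK c2 a2_1 a2_2 q2 c15 a15_1 a15_2 q15 fun c16 a16_1 a16_2 q16 =>
  smulK 2 1 1152921504606846977 2305843009213693952 c16 a16_1 a16_2 q16 fun c18 a18_1 a18_2 q18 =>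
  addcK c18 a18_1 a18_2 q18 1152923059558181209 1 fun c19 a19_1 a19_2 q19 =>
  smulK 70711 50000 57646075230342348850000 81524232512254756519936 c19 a19_1 a19_2 q19 fun c20 a20_1 a20_2 q20 =>
  sqK c16 a16_1 a16_2 q16 fun c22 a22_1 a22_2 q22 =>
  addK c20 a20_1 a20_2 q20 c22 a22_1 a22_2 q22 fun c23 a23_1 a23_2 q23 =>
  mulK c18 a18_1 a18_2 q18 c23 a23_1 a23_2 q23 fun c24 a24_1 a24_2 q24 =>
  sqrtK c8 a8_1 a8_2 q8 fun c25 a25_1 a25_2 q25 =>
  sqrtK c25 a25_1 a25_2 q25 fun c26 a26_1 a26_2 q26 =>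
  sqK c26 a26_1 a26_2 q26 fun c28 a28_1 a28_2 q28 =>
  mulK c28 a28_1 a28_2 q28 c26 a26_1 a26_2 q26 fun c29 a29_1 a29_2 q29 =>
  negK c26 a26_1 a26_2 q26 fun c31 a31_1 a31_2 q31 =>
  addcK c31 a31_1 a31_2 q31 1152922604118474752 0 fun c32 a32_1 a32_2 q32 =>
  addcK z1 (Nat.add w1 1152921504606846976) 1152921504606846976 0 1152920761336986599 1 fun c34 a34_1 a34_2 q34 =>
  smulK 250 19 21905508587530092563 288230376151711744000 c34 a34_1 a34_2 q34 fun c36 a36_1 a36_2 q36 =>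
  smulK 6509 25000 28823037615171174425000 7504366073485966966784 c36 a36_1 a36_2 q36 fun c39 a39_1 a39_2 q39 =>
  addcK c39 a39_1 a39_2 q39 1152922089470067139 1 fun c40 a40_1 a40_2 q40 =>
  smulK 2 1 1152921504606846977 2305843009213693952 c26 a26_1 a26_2 q26 fun c42 a42_1 a42_2 q42 =>
  addcK c42 a42_1 a42_2 q42 1152920405095219200 0 fun c43 a43_1 a43_2 q43 =>
  smulK 7993 50000 57646075230342348850000 9215301586322527879168 c36 a36_1 a36_2 q36 fun c45 a45_1 a45_2 q45 =>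
  negK c45 a45_1 a45_2 q45 fun c46 a46_1 a46_2 q46 =>
  addcK c46 a46_1 a46_2 q46 1152921420560178149 1 fun c48 a48_1 a48_2 q48 =>
  smulK 1857 100000 115292150460684697700000 2140975234054914834432 c36 a36_1 a36_2 q36 fun c50 a50_1 a50_2 q50 =>
  negK c50 a50_1 a50_2 q50 fun c51 a51_1 a51_2 q51 =>
  addcK c51 a51_1 a51_2 q51 1152921563991469992 1 fun c53 a53_1 a53_2 q53 =>
  smulK 7163 50000 57646075230342348850000 8258376737498844889088 c36 a36_1 a36_2 q36 fun c55 a55_1 a55_2 q55 =>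
  addcK c55 a55_1 a55_2 q55 1152921712766388347 1 fun c56 a56_1 a56_2 q56 =>
  smulK 5377 20000 23058430092136939540000 6199258930271016189952 c36 a36_1 a36_2 q36 fun c58 a58_1 a58_2 q58 =>
  negK c58 a58_1 a58_2 q58 fun c59 a59_1 a59_2 q59 =>
  addcK c59 a59_1 a59_2 q59 1152921137457924229 1 fun c61 a61_1 a61_2 q61 =>
  smulK 9301 50000 57646075230342348850000 10723322914348283723776 c36 a36_1 a36_2 q36 fun c63 a63_1 a63_2 q63 =>
  addcK c63 a63_1 a63_2 q63 1152921848940903447 1 fun c64 a64_1 a64_2 q64 =>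
  mulK c43 a43_1 a43_2 q43 c64 a64_1 a64_2 q64 fun c66 a66_1 a66_2 q66 =>
  addK c61 a61_1 a61_2 q61 c66 a66_1 a66_2 q66 fun c67 a67_1 a67_2 q67 =>
  mulK c43 a43_1 a43_2 q43 c67 a67_1 a67_2 q67 fun c68 a68_1 a68_2 q68 =>
  addK c56 a56_1 a56_2 q56 c68 a68_1 a68_2 q68 fun c69 a69_1 a69_2 q69 =>
  mulK c43 a43_1 a43_2 q43 c69 a69_1 a69_2 q69 fun c70 a70_1 a70_2 q70 =>
  addK c53 a53_1 a53_2 q53 c70 a70_1 a70_2 q70 fun c71 a71_1 a71_2 q71 =>
  mulK c43 a43_1 a43_2 q43 c71 a71_1 a71_2 q71 fun c72 a72_1 a72_2 q72 =>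
  addK c48 a48_1 a48_2 q48 c72 a72_1 a72_2 q72 fun c73 a73_1 a73_2 q73 =>
  mulK c43 a43_1 a43_2 q43 c73 a73_1 a73_2 q73 fun c74 a74_1 a74_2 q74 =>
  addK c40 a40_1 a40_2 q40 c74 a74_1 a74_2 q74 fun c75 a75_1 a75_2 q75 =>
  mulK c32 a32_1 a32_2 q32 c75 a75_1 a75_2 q75 fun c76 a76_1 a76_2 q76 =>
  addcK c76 a76_1 a76_2 q76 1152922604118474752 0 fun c77 a77_1 a77_2 q77 =>
  mulK c29 a29_1 a29_2 q29 c77 a77_1 a77_2 q77 fun c79 a79_1 a79_2 q79 =>
  mulK c4 a4_1 a4_2 q4 z2 1152921504606846976 (Nat.add w2 1152921504606846976) 0 fun c81 a81_1 a81_2 q81 =>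
  negK z2 1152921504606846976 (Nat.add w2 1152921504606846976) 0 fun c83 a83_1 a83_2 q83 =>
  addcK c83 a83_1 a83_2 q83 1152922604118474752 0 fun c84 a84_1 a84_2 q84 =>
  smulK 2 1 1152921504606846977 2305843009213693952 z2 1152921504606846976 (Nat.add w2 1152921504606846976) 0 fun c86 a86_1 a86_2 q86 =>
  addcK c86 a86_1 a86_2 q86 1152920405095219200 0 fun c87 a87_1 a87_2 q87 =>
  mulK c87 a87_1 a87_2 q87 c64 a64_1 a64_2 q64 fun c89 a89_1 a89_2 q89 =>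
  addK c61 a61_1 a61_2 q61 c89 a89_1 a89_2 q89 fun c90 a90_1 a90_2 q90 =>
  mulK c87 a87_1 a87_2 q87 c90 a90_1 a90_2 q90 fun c91 a91_1 a91_2 q91 =>
  addK c56 a56_1 a56_2 q56 c91 a91_1 a91_2 q91 fun c92 a92_1 a92_2 q92 =>
  mulK c87 a87_1 a87_2 q87 c92 a92_1 a92_2 q92 fun c93 a93_1 a93_2 q93 =>
  addK c53 a53_1 a53_2 q53 c93 a93_1 a93_2 q93 fun c94 a94_1 a94_2 q94 =>
  mulK c87 a87_1 a87_2 q87 c94 a94_1 a94_2 q94 fun c95 a95_1 a95_2 q95 =>
  addK c48 a48_1 a48_2 q48 c95 a95_1 a95_2 q95 fun c96 a96_1 a96_2 q96 =>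
  mulK c87 a87_1 a87_2 q87 c96 a96_1 a96_2 q96 fun c97 a97_1 a97_2 q97 =>
  addK c40 a40_1 a40_2 q40 c97 a97_1 a97_2 q97 fun c98 a98_1 a98_2 q98 =>
  mulK c84 a84_1 a84_2 q84 c98 a98_1 a98_2 q98 fun c99 a99_1 a99_2 q99 =>
  addcK c99 a99_1 a99_2 q99 1152922604118474752 0 fun c100 a100_1 a100_2 q100 =>
  mulK c81 a81_1 a81_2 q81 c100 a100_1 a100_2 q100 fun c102 a102_1 a102_2 q102 =>
  addK c79 a79_1 a79_2 q79 c102 a102_1 a102_2 q102 fun c104 a104_1 a104_2 q104 =>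
  mulK c24 a24_1 a24_2 q24 c104 a104_1 a104_2 q104 fun c105 a105_1 a105_2 q105 =>
  smulK 3 1 1152921504606846977 3458764513820540928 c22 a22_1 a22_2 q22 fun c106 a106_1 a106_2 q106 =>
  addK c20 a20_1 a20_2 q20 c106 a106_1 a106_2 q106 fun c107 a107_1 a107_2 q107 =>
  addcK c107 a107_1 a107_2 q107 1152919305583591424 0 fun c108 a108_1 a108_2 q108 =>
  mulK c4 a4_1 a4_2 q4 c25 a25_1 a25_2 q25 fun c111 a111_1 a111_2 q111 =>
  smulK 2 1 1152921504606846977 2305843009213693952 c111 a111_1 a111_2 q111 fun c112 a112_1 a112_2 q112 =>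
  addK c112 a112_1 a112_2 q112 z1 (Nat.add w1 1152921504606846976) 1152921504606846976 0 fun c113 a113_1 a113_2 q113 =>
  mulK c108 a108_1 a108_2 q108 c113 a113_1 a113_2 q113 fun c114 a114_1 a114_2 q114 =>
  addcK c114 a114_1 a114_2 q114 1152922604118474752 0 fun c115 a115_1 a115_2 q115 =>
  mulK c22 a22_1 a22_2 q22 c20 a20_1 a20_2 q20 fun c116 a116_1 a116_2 q116 =>
  addK c115 a115_1 a115_2 q115 c116 a116_1 a116_2 q116 fun c117 a117_1 a117_2 q117 =>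
  negK c8 a8_1 a8_2 q8 fun c118 a118_1 a118_2 q118 =>
  addcK c118 a118_1 a118_2 q118 1152922604118474752 0 fun c119 a119_1 a119_2 q119 =>
  mulK c8 a8_1 a8_2 q8 c119 a119_1 a119_2 q119 fun c121 a121_1 a121_2 q121 =>
  sqK z1 (Nat.add w1 1152921504606846976) 1152921504606846976 0 fun c122 a122_1 a122_2 q122 =>
  negK c122 a122_1 a122_2 q122 fun c123 a123_1 a123_2 q123 =>
  addcK c123 a123_1 a123_2 q123 1152922604118474752 0 fun c124 a124_1 a124_2 q124 =>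
  negK c124 a124_1 a124_2 q124 fun c127 a127_1 a127_2 q127 =>
  addcK c127 a127_1 a127_2 q127 1152922604118474752 0 fun c128 a128_1 a128_2 q128 =>
  smulK 539 5000 5764607523034234885000 621424690983090520064 c124 a124_1 a124_2 q124 fun c130 a130_1 a130_2 q130 =>
  negK c130 a130_1 a130_2 q130 fun c131 a131_1 a131_2 q131 =>
  addcK c131 a131_1 a131_2 q131 1152922384216149197 1 fun c132 a132_1 a132_2 q132 =>
  smulK 2 1 1152921504606846977 2305843009213693952 c119 a119_1 a119_2 q119 fun c134 a134_1 a134_2 q134 =>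
  subK c132 a132_1 a132_2 q132 c134 a134_1 a134_2 q134 fun c135 a135_1 a135_2 q135 =>
  reluK c135 a135_1 a135_2 q135 fun c136 a136_1 a136_2 q136 =>
  subK c132 a132_1 a132_2 q132 c136 a136_1 a136_2 q136 fun c137 a137_1 a137_2 q137 =>
  mulK c128 a128_1 a128_2 q128 c137 a137_1 a137_2 q137 fun c139 a139_1 a139_2 q139 =>
  smulK 4 1 1152921504606846977 4611686018427387904 c121 a121_1 a121_2 q121 fun c140 a140_1 a140_2 q140 =>
  mulK c124 a124_1 a124_2 q124 c140 a140_1 a140_2 q140 fun c141 a141_1 a141_2 q141 =>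
  addK c139 a139_1 a139_2 q139 c141 a141_1 a141_2 q141 fun c142 a142_1 a142_2 q142 =>
  mulK c124 a124_1 a124_2 q124 c142 a142_1 a142_2 q142 fun c143 a143_1 a143_2 q143 =>
  smulK 1 4 4611686018427387908 1152921504606846976 c143 a143_1 a143_2 q143 fun c144 a144_1 a144_2 q144 =>
  subK c121 a121_1 a121_2 q121 c144 a144_1 a144_2 q144 fun c147 a147_1 a147_2 q147 =>
  smulK 4 1 1152921504606846977 4611686018427387904 c147 a147_1 a147_2 q147 fun c148 a148_1 a148_2 q148 =>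
  subK c117 a117_1 a117_2 q117 c148 a148_1 a148_2 q148 fun c149 a149_1 a149_2 q149 =>
  subK c105 a105_1 a105_2 q105 c149 a149_1 a149_2 q149 fun c150 a150_1 a150_2 q150 =>
  pos c150 a150_1 a150_2 q150

theorem alt0_s {z1 w1 z2 w2 : ℕ} {e1 e2 s v : ℝ} (he : Ev e1 e2)
    (hx1 : In e1 e2 z1 (Nat.add w1 1152921504606846976) 1152921504606846976 0 s)
    (hx2 : In e1 e2 z2 1152921504606846976 (Nat.add w2 1152921504606846976) 0 v)
    (H0 : alt0 z1 w1 z2 w2 = true) : 0 < (((((2:ℝ) * (w s v)) * ((Ee s v) + ((w s v) ^ 2))) * ((B1 s v) + (B2 s v))) - (((((D s v) * (((2:ℝ) * ((v ^ 2) * (√(a s v)))) + s)) + (1:ℝ)) + (((w s v) ^ 2) * (Ee s v))) - ((4:ℝ) * (((a s v) * ((1:ℝ) - (a s v))) - (V s v))))) := by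
  unfold alt0 at H0
  refine smulK_s he (w := (1/5:ℝ)) (by norm_num) (by norm_num) (by norm_num) (by norm_num) hx1 (fun _ _ _ _ h1 H1 => ?_) H0
  refine addcK_s he h1 (v' := (1083/1000:ℝ)) (by norm_num [SS, BB, abs_le]) (fun _ _ _ _ h2 H2 => ?_) H1
  have h3 := In_cast h2 (add_comm _ _)
  refine sqK_s he hx2 (fun _ _ _ _ h4 H3 => ?_) H2
  refine sqK_s he h4 (fun _ _ _ _ h5 H4 => ?_) H3
  have h6 := In_cast h5 (pow_dbl (n := 4) rfl)
  refine negK_s he h6 (fun _ _ _ _ h7 H5 => ?_) H4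
  refine addcK_s he h7 (v' := (1:ℝ)) (by norm_num [SS, BB, abs_le]) (fun _ _ _ _ h8 H6 => ?_) H5
  have h9 := In_cast h8 (neg_add_eq_sub _ _)
  have h10 := In_cast (w := (a s v)) h9 rfl
  refine smulK_s he (w := (2:ℝ)) (by norm_num) (by norm_num) (by norm_num) (by norm_num) h10 (fun _ _ _ _ h11 H7 => ?_) H6
  refine addcK_s he h11 (v' := (-1:ℝ)) (by norm_num [SS, BB, abs_le]) (fun _ _ _ _ h12 H8 => ?_) H7
  have h13 := In_cast h12 (sub_c (c := (1:ℝ)) (by norm_num))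
  refine sqK_s he h13 (fun _ _ _ _ h14 H9 => ?_) H8
  refine smulK_s he (w := (3/10:ℝ)) (by norm_num) (by norm_num) (by norm_num) (by norm_num) h14 (fun _ _ _ _ h15 H10 => ?_) H9
  refine subK_s he h3 h15 (fun _ _ _ _ h16 H11 => ?_) H10
  have h17 := In_cast (w := (w s v)) h16 rfl
  refine smulK_s he (w := (2:ℝ)) (by norm_num) (by norm_num) (by norm_num) (by norm_num) h17 (fun _ _ _ _ h18 H12 => ?_) H11
  refine addcK_s he h18 (v' := (70711/50000:ℝ)) (by norm_num [SS, BB, abs_le]) (fun _ _ _ _ h19 H13 => ?_) H12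
  refine smulK_s he (w := (70711/50000:ℝ)) (by norm_num) (by norm_num) (by norm_num) (by norm_num) h19 (fun _ _ _ _ h20 H14 => ?_) H13
  have h21 := In_cast (w := (Ee s v)) h20 rfl
  refine sqK_s he h17 (fun _ _ _ _ h22 H15 => ?_) H14
  refine addK_s he h21 h22 (fun _ _ _ _ h23 H16 => ?_) H15
  refine mulK_s he h18 h23 (fun _ _ _ _ h24 H17 => ?_) H16
  refine sqrtK_s he h10 (fun _ _ _ _ h25 H18 => ?_) H17
  refine sqrtK_s he h25 (fun _ _ _ _ h26 H19 => ?_) H18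
  have h27 := In_cast (w := (u s v)) h26 rfl
  refine sqK_s he h27 (fun _ _ _ _ h28 H20 => ?_) H19
  refine mulK_s he h28 h27 (fun _ _ _ _ h29 H21 => ?_) H20
  have h30 := In_cast h29 (pow_sc (n := 3) rfl)
  refine negK_s he h27 (fun _ _ _ _ h31 H22 => ?_) H21
  refine addcK_s he h31 (v' := (1:ℝ)) (by norm_num [SS, BB, abs_le]) (fun _ _ _ _ h32 H23 => ?_) H22
  have h33 := In_cast h32 (neg_add_eq_sub _ _)
  refine addcK_s he hx1 (v' := (-169/250:ℝ)) (by norm_num [SS, BB, abs_le]) (fun _ _ _ _ h34 H24 => ?_) H23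
  have h35 := In_cast h34 (sub_c (c := (169/250:ℝ)) (by norm_num))
  refine smulK_s he (w := (250/19:ℝ)) (by norm_num) (by norm_num) (by norm_num) (by norm_num) h35 (fun _ _ _ _ h36 H25 => ?_) H24
  have h37 := In_cast h36 (mul_comm _ _)
  have h38 := In_cast (w := (g s v)) h37 rfl
  refine smulK_s he (w := (6509/25000:ℝ)) (by norm_num) (by norm_num) (by norm_num) (by norm_num) h38 (fun _ _ _ _ h39 H26 => ?_) H25
  refine addcK_s he h39 (v' := (53193/100000:ℝ)) (by norm_num [SS, BB, abs_le]) (fun _ _ _ _ h40 H27 => ?_) H26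
  have h41 := In_cast h40 (add_comm _ _)
  refine smulK_s he (w := (2:ℝ)) (by norm_num) (by norm_num) (by norm_num) (by norm_num) h27 (fun _ _ _ _ h42 H28 => ?_) H27
  refine addcK_s he h42 (v' := (-1:ℝ)) (by norm_num [SS, BB, abs_le]) (fun _ _ _ _ h43 H29 => ?_) H28
  have h44 := In_cast h43 (sub_c (c := (1:ℝ)) (by norm_num))
  refine smulK_s he (w := (7993/50000:ℝ)) (by norm_num) (by norm_num) (by norm_num) (by norm_num) h38 (fun _ _ _ _ h45 H30 => ?_) H29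
  refine negK_s he h45 (fun _ _ _ _ h46 H31 => ?_) H30
  have h47 := In_cast h46 (neg_mul_c (c := (-7993/50000:ℝ)) (by norm_num))
  refine addcK_s he h47 (v' := (-1911/25000:ℝ)) (by norm_num [SS, BB, abs_le]) (fun _ _ _ _ h48 H32 => ?_) H31
  have h49 := In_cast h48 (add_comm _ _)
  refine smulK_s he (w := (1857/100000:ℝ)) (by norm_num) (by norm_num) (by norm_num) (by norm_num) h38 (fun _ _ _ _ h50 H33 => ?_) H32
  refine negK_s he h50 (fun _ _ _ _ h51 H34 => ?_) H33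
  have h52 := In_cast h51 (neg_mul_c (c := (-1857/100000:ℝ)) (by norm_num))
  refine addcK_s he h52 (v' := (5401/100000:ℝ)) (by norm_num [SS, BB, abs_le]) (fun _ _ _ _ h53 H35 => ?_) H34
  have h54 := In_cast h53 (add_comm _ _)
  refine smulK_s he (w := (7163/50000:ℝ)) (by norm_num) (by norm_num) (by norm_num) (by norm_num) h38 (fun _ _ _ _ h55 H36 => ?_) H35
  refine addcK_s he h55 (v' := (4733/25000:ℝ)) (by norm_num [SS, BB, abs_le]) (fun _ _ _ _ h56 H37 => ?_) H36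
  have h57 := In_cast h56 (add_comm _ _)
  refine smulK_s he (w := (5377/20000:ℝ)) (by norm_num) (by norm_num) (by norm_num) (by norm_num) h38 (fun _ _ _ _ h58 H38 => ?_) H37
  refine negK_s he h58 (fun _ _ _ _ h59 H39 => ?_) H38
  have h60 := In_cast h59 (neg_mul_c (c := (-5377/20000:ℝ)) (by norm_num))
  refine addcK_s he h60 (v' := (-2087/6250:ℝ)) (by norm_num [SS, BB, abs_le]) (fun _ _ _ _ h61 H40 => ?_) H39
  have h62 := In_cast h61 (add_comm _ _)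
  refine smulK_s he (w := (9301/50000:ℝ)) (by norm_num) (by norm_num) (by norm_num) (by norm_num) h38 (fun _ _ _ _ h63 H41 => ?_) H40
  refine addcK_s he h63 (v' := (31317/100000:ℝ)) (by norm_num [SS, BB, abs_le]) (fun _ _ _ _ h64 H42 => ?_) H41
  have h65 := In_cast h64 (add_comm _ _)
  refine mulK_s he h44 h65 (fun _ _ _ _ h66 H43 => ?_) H42
  refine addK_s he h62 h66 (fun _ _ _ _ h67 H44 => ?_) H43
  refine mulK_s he h44 h67 (fun _ _ _ _ h68 H45 => ?_) H44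
  refine addK_s he h57 h68 (fun _ _ _ _ h69 H46 => ?_) H45
  refine mulK_s he h44 h69 (fun _ _ _ _ h70 H47 => ?_) H46
  refine addK_s he h54 h70 (fun _ _ _ _ h71 H48 => ?_) H47
  refine mulK_s he h44 h71 (fun _ _ _ _ h72 H49 => ?_) H48
  refine addK_s he h49 h72 (fun _ _ _ _ h73 H50 => ?_) H49
  refine mulK_s he h44 h73 (fun _ _ _ _ h74 H51 => ?_) H50
  refine addK_s he h41 h74 (fun _ _ _ _ h75 H52 => ?_) H51
  refine mulK_s he h33 h75 (fun _ _ _ _ h76 H53 => ?_) H52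
  refine addcK_s he h76 (v' := (1:ℝ)) (by norm_num [SS, BB, abs_le]) (fun _ _ _ _ h77 H54 => ?_) H53
  have h78 := In_cast h77 (add_comm _ _)
  refine mulK_s he h30 h78 (fun _ _ _ _ h79 H55 => ?_) H54
  have h80 := In_cast (w := (B1 s v)) h79 rfl
  refine mulK_s he h4 hx2 (fun _ _ _ _ h81 H56 => ?_) H55
  have h82 := In_cast h81 (pow_sc (n := 3) rfl)
  refine negK_s he hx2 (fun _ _ _ _ h83 H57 => ?_) H56
  refine addcK_s he h83 (v' := (1:ℝ)) (by norm_num [SS, BB, abs_le]) (fun _ _ _ _ h84 H58 => ?_) H57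
  have h85 := In_cast h84 (neg_add_eq_sub _ _)
  refine smulK_s he (w := (2:ℝ)) (by norm_num) (by norm_num) (by norm_num) (by norm_num) hx2 (fun _ _ _ _ h86 H59 => ?_) H58
  refine addcK_s he h86 (v' := (-1:ℝ)) (by norm_num [SS, BB, abs_le]) (fun _ _ _ _ h87 H60 => ?_) H59
  have h88 := In_cast h87 (sub_c (c := (1:ℝ)) (by norm_num))
  refine mulK_s he h88 h65 (fun _ _ _ _ h89 H61 => ?_) H60
  refine addK_s he h62 h89 (fun _ _ _ _ h90 H62 => ?_) H61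
  refine mulK_s he h88 h90 (fun _ _ _ _ h91 H63 => ?_) H62
  refine addK_s he h57 h91 (fun _ _ _ _ h92 H64 => ?_) H63
  refine mulK_s he h88 h92 (fun _ _ _ _ h93 H65 => ?_) H64
  refine addK_s he h54 h93 (fun _ _ _ _ h94 H66 => ?_) H65
  refine mulK_s he h88 h94 (fun _ _ _ _ h95 H67 => ?_) H66
  refine addK_s he h49 h95 (fun _ _ _ _ h96 H68 => ?_) H67
  refine mulK_s he h88 h96 (fun _ _ _ _ h97 H69 => ?_) H68
  refine addK_s he h41 h97 (fun _ _ _ _ h98 H70 => ?_) H69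
  refine mulK_s he h85 h98 (fun _ _ _ _ h99 H71 => ?_) H70
  refine addcK_s he h99 (v' := (1:ℝ)) (by norm_num [SS, BB, abs_le]) (fun _ _ _ _ h100 H72 => ?_) H71
  have h101 := In_cast h100 (add_comm _ _)
  refine mulK_s he h82 h101 (fun _ _ _ _ h102 H73 => ?_) H72
  have h103 := In_cast (w := (B2 s v)) h102 rfl
  refine addK_s he h80 h103 (fun _ _ _ _ h104 H74 => ?_) H73
  refine mulK_s he h24 h104 (fun _ _ _ _ h105 H75 => ?_) H74
  refine smulK_s he (w := (3:ℝ)) (by norm_num) (by norm_num) (by norm_num) (by norm_num) h22 (fun _ _ _ _ h106 H76 => ?_) H75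
  refine addK_s he h21 h106 (fun _ _ _ _ h107 H77 => ?_) H76
  refine addcK_s he h107 (v' := (-2:ℝ)) (by norm_num [SS, BB, abs_le]) (fun _ _ _ _ h108 H78 => ?_) H77
  have h109 := In_cast h108 (sub_c (c := (2:ℝ)) (by norm_num))
  have h110 := In_cast (w := (D s v)) h109 rfl
  refine mulK_s he h4 h25 (fun _ _ _ _ h111 H79 => ?_) H78
  refine smulK_s he (w := (2:ℝ)) (by norm_num) (by norm_num) (by norm_num) (by norm_num) h111 (fun _ _ _ _ h112 H80 => ?_) H79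
  refine addK_s he h112 hx1 (fun _ _ _ _ h113 H81 => ?_) H80
  refine mulK_s he h110 h113 (fun _ _ _ _ h114 H82 => ?_) H81
  refine addcK_s he h114 (v' := (1:ℝ)) (by norm_num [SS, BB, abs_le]) (fun _ _ _ _ h115 H83 => ?_) H82
  refine mulK_s he h22 h21 (fun _ _ _ _ h116 H84 => ?_) H83
  refine addK_s he h115 h116 (fun _ _ _ _ h117 H85 => ?_) H84
  refine negK_s he h10 (fun _ _ _ _ h118 H86 => ?_) H85
  refine addcK_s he h118 (v' := (1:ℝ)) (by norm_num [SS, BB, abs_le]) (fun _ _ _ _ h119 H87 => ?_) H86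
  have h120 := In_cast h119 (neg_add_eq_sub _ _)
  refine mulK_s he h10 h120 (fun _ _ _ _ h121 H88 => ?_) H87
  refine sqK_s he hx1 (fun _ _ _ _ h122 H89 => ?_) H88
  refine negK_s he h122 (fun _ _ _ _ h123 H90 => ?_) H89
  refine addcK_s he h123 (v' := (1:ℝ)) (by norm_num [SS, BB, abs_le]) (fun _ _ _ _ h124 H91 => ?_) H90
  have h125 := In_cast h124 (neg_add_eq_sub _ _)
  have h126 := In_cast (w := (x s v)) h125 rfl
  refine negK_s he h126 (fun _ _ _ _ h127 H92 => ?_) H91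
  refine addcK_s he h127 (v' := (1:ℝ)) (by norm_num [SS, BB, abs_le]) (fun _ _ _ _ h128 H93 => ?_) H92
  have h129 := In_cast h128 (neg_add_eq_sub _ _)
  refine smulK_s he (w := (539/5000:ℝ)) (by norm_num) (by norm_num) (by norm_num) (by norm_num) h126 (fun _ _ _ _ h130 H94 => ?_) H93
  refine negK_s he h130 (fun _ _ _ _ h131 H95 => ?_) H94
  refine addcK_s he h131 (v' := (4/5:ℝ)) (by norm_num [SS, BB, abs_le]) (fun _ _ _ _ h132 H96 => ?_) H95
  have h133 := In_cast h132 (neg_add_eq_sub _ _)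
  refine smulK_s he (w := (2:ℝ)) (by norm_num) (by norm_num) (by norm_num) (by norm_num) h120 (fun _ _ _ _ h134 H97 => ?_) H96
  refine subK_s he h133 h134 (fun _ _ _ _ h135 H98 => ?_) H97
  refine reluK_s he h135 (fun _ _ _ _ h136 H99 => ?_) H98
  refine subK_s he h133 h136 (fun _ _ _ _ h137 H100 => ?_) H99
  have h138 := In_cast h137 (min_rl _ _)
  refine mulK_s he h129 h138 (fun _ _ _ _ h139 H101 => ?_) H100
  refine smulK_s he (w := (4:ℝ)) (by norm_num) (by norm_num) (by norm_num) (by norm_num) h121 (fun _ _ _ _ h140 H102 => ?_) H101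
  refine mulK_s he h126 h140 (fun _ _ _ _ h141 H103 => ?_) H102
  refine addK_s he h139 h141 (fun _ _ _ _ h142 H104 => ?_) H103
  refine mulK_s he h126 h142 (fun _ _ _ _ h143 H105 => ?_) H104
  refine smulK_s he (w := (1/4:ℝ)) (by norm_num) (by norm_num) (by norm_num) (by norm_num) h143 (fun _ _ _ _ h144 H106 => ?_) H105
  have h145 := In_cast h144 (div_c (c := (4:ℝ)) (by norm_num))
  have h146 := In_cast (w := (V s v)) h145 rfl
  refine subK_s he h121 h146 (fun _ _ _ _ h147 H107 => ?_) H106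
  refine smulK_s he (w := (4:ℝ)) (by norm_num) (by norm_num) (by norm_num) (by norm_num) h147 (fun _ _ _ _ h148 H108 => ?_) H107
  refine subK_s he h117 h148 (fun _ _ _ _ h149 H109 => ?_) H108
  refine subK_s he h105 h149 (fun _ _ _ _ h150 H110 => ?_) H109
  exact pos_s he h150 H110

attribute [irreducible] alt0

noncomputable def leaf (j u z1 w1 z2 w2 : ℕ) : Bool :=
  alt0 z1 w1 z2 w2

theorem snd : Snd Q leaf := by
  intro j u z1 w1 z2 w2 e1 e2 he H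
  unfold leaf at H
  unfold Q
  exact alt0_s he (var1 z1 w1) (var2 z2 w2) H

end Crest.Agent.R307.MXfc
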