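import Crest.Agent.R307.MXfc
set_option autoImplicit false
set_option maxRecDepth 100000
namespace Crest.Agent.R307.MXfc
open Crest.Agent.R307.IA Crest.Agent.R307.IA2

theorem k0 : Cov Q 1152922164313823641 1152922330669932925 1152921504606846976 1152922429186174773 :=
  cov_of snd 0 0 15 _ _ _ _ 0x2202201222002220010220220122200222001012202201220220102202122022010122022002202200122022002202200102202200220122022002201010221220220102202210122022012202201022122101010221220220102212202101220220022012202200220102202201220220101012202210220220012212210220220010220220122022010112202201220210220220012202022011122021220122021112212122111221211 (by decide +kernel)

end Crest.Agent.R307.MXfc
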