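import Crest.Agent.R307.MXqC0
import Crest.Agent.R307.MXqC1
import Crest.Agent.R307.MXqC2
import Crest.Agent.R307.MXqC3
import Crest.Agent.R307.MXqC4
import Crest.Agent.R307.MXqC5
import Crest.Agent.R307.MXqC6
import Crest.Agent.R307.MXqC7
import Crest.Agent.R307.MXqC8
import Crest.Agent.R307.MXqC9
import Crest.Agent.R307.MXqC10
import Crest.Agent.R307.MXqC11
set_option autoImplicit false
set_option maxRecDepth 100000
namespace Crest.Agent.R307.MXq
open Crest.Agent.R307.IA Crest.Agent.R307.IA3

theorem cov : Cov Q 1152922164313823641 1152922331439591064 1152921504606846976 1152922604118474752 1152921504606846976 1152922604118474752 :=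
  (join3 1152922054362661017 (join2 1152922054362661017 k0 (join3 1152921779484754113 (join2 1152922329240568073 k1 (join1 1152922247876710739 (join3 1152921642045800643 (join1 1152922206095269786 k2 k3) k4) (join3 1152921642045800643 (join3 1152921573326323899 (join1 1152922289658150986 k5 (join2 1152922466679521619 k6 (join3 1152921538966587569 k7 k8))) k9) k10))) (join1 1152922247876710739 k11 k12))) (join2 1152922054362661017 (join2 1152921779484754113 (join2 1152921642045800643 (join3 1152922329240568073 k13 k14) k15) (join3 1152922329240568073 k16 (join2 1152921916923707700 (join3 1152922466679521619 k17 (join2 1152921848204231032 k18 k19)) (join3 1152922466679521619 k20 (join1 1152922247876710739 k21 k22))))) (join3 1152922329240568073 (join2 1152922329240568073 k23 (join3 1152922191801614716 k24 (join2 1152922466679521619 k25 k26))) (join2 1152922329240568073 (join3 1152922466679521619 (join2 1152922191801614716 k27 k28) (join2 1152922191801614716 (join3 1152922535398998401 k29 (join1 1152922247876710739 k30 k31)) (join3 1152922535398998401 k32 (join1 1152922247876710739 k33 k34)))) (join3 1152922466679521619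 (join2 1152922466679521619 k35 (join3 1152922397960045044 k36 k37)) (join2 1152922466679521619 (join3 1152922535398998401 k38 (join2 1152922397960045044 k39 k40)) (join3 1152922535398998401 (join2 1152922535398998401 k41 k42) (join2 1152922535398998401 k43 (join3 1152922569758738843 k44 (join3 1152922586938608043 k45 k46))))))))))

theorem main (s u x : ℝ) (l0 : (3/5:ℝ) ≤ s) (u0 : s ≤ (94/125:ℝ)) (l1 : (0:ℝ) ≤ u) (u1 : u ≤ (1:ℝ)) (l2 : (0:ℝ) ≤ x) (u2 : x ≤ (1:ℝ)) : Q s u x :=
  cov s u x (le_trans (by norm_num [val, SS, BB]) l0) (le_trans u0 (by norm_num [val, SS, BB])) (le_trans (by norm_num [val, SS, BB]) l1) (le_trans u1 (by norm_num [val, SS, BB])) (le_trans (by norm_num [val, SS, BB]) l2) (le_trans u2 (by norm_num [val, SS, BB]))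

end Crest.Agent.R307.MXq
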