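import Crest.Agent.R307.MXa
import Crest.Agent.R307.MXb
import Crest.Agent.R307.MXqM

/-!
# R307/MXg: the Bellman step of window M from the certificate (helper93)
-/

set_option autoImplicit false

namespace Crest.Agent.R307

open Crest.CubeNoise MXq

theorem mx_R0 (s u x pa pb : ℝ) : R0 s u x pa pb = mxR s (u * x) := by
  simp only [R0, y0, Q0, T0, a1, a2, a3, a4, c0, c1, c2, c3, c4, c5, sg, mxR, mxQ, mxg]

theorem mx_R2 (s u x pa pb : ℝ) : R2 s u x pa pb = mxR s u := by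
  simp only [R2, ub, Q2, T2, c0, c1, c2, c3, c4, c5, sg, mxR, mxQ, mxg]

theorem mx_R1 (s u x pa pb : ℝ) : R1 s u x pa pb = mxR s (u * m s u x pa pb) := by
  simp only [R1, R0, R01, q01, y0, y1, Q0, T0, T1, a1, a2, a3, a4, b1, b2, b3, c0, c1, c2, c3, c4, c5, sg, mxR, mxQ, mxg]
  generalize m s u x pa pb = M
  generalize (s - 169 / 250) * (250 / 19) = g
  ring

theorem mx_N (s u x pa pb : ℝ) : R2 s u x pa pb = R0 s u x pa pb + (u - u * x) * R02 s u x pa pb := by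
  simp only [R2, R0, R02, R01, R012, q01, q012, ub, y0, y1, Q0, Q2, T0, T1, T2, a1, a2, a3, a4, b1, b2, b3, ve1, ve2]
  generalize m s u x pa pb = M
  generalize c0 s u x pa pb = c0
  generalize c1 s u x pa pb = c1
  generalize c2 s u x pa pb = c2
  generalize c3 s u x pa pb = c3
  generalize c4 s u x pa pb = c4
  generalize c5 s u x pa pb = c5
  ring

theorem mx_m (s u x pa pb : ℝ) : 0 < m s u x pa pb ∧ m2 s u x pa pb = m s u x pa pb ^ 2 ∧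
    m s u x pa pb ^ 4 = (1 + x ^ 4) / 2 := by
  have a : 0 < (1 + x4 s u x pa pb) / 2 := by unfold x4; have := mul_self_nonneg (x2 s u x pa pb); linarith
  have b : 0 < m2 s u x pa pb := Real.sqrt_pos.2 a
  have c : m s u x pa pb ^ 2 = m2 s u x pa pb := Real.sq_sqrt b.le
  have d : m2 s u x pa pb ^ 2 = (1 + x4 s u x pa pb) / 2 := Real.sq_sqrt a.le
  refine ⟨Real.sqrt_pos.2 b, c.symm, ?_⟩
  rw [show m s u x pa pb ^ 4 = (m s u x pa pb ^ 2) ^ 2 by ring, c, d, x4, x2]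
  ring

theorem mx_D (s u pa pb : ℝ) {x : ℝ} (x0 : 0 ≤ x) :
    R2 s u x pa pb - x ^ 3 * R0 s u x pa pb = ep s u x pa pb * D1 s u x pa pb ∧
    x ^ 3 * R0 s u x pa pb + R2 s u x pa pb - 2 * (m s u x pa pb ^ 3 * R1 s u x pa pb) =
      ep s u x pa pb ^ 2 * nD2 s u x pa pb := by
  obtain ⟨m0, m1, m4⟩ := mx_m s u x pa pb
  refine mx_dd (u := u) (R01 := R01 s u x pa pb) (R012 := R012 s u x pa pb) (R12 := R12 s u x pa pb)
    (R02 := R02 s u x pa pb) x0 m0 m4 (by rw [ep, x4, x2]; ring) rfl rfl rfl (mx_N s u x pa pb) ?_ ?_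
  · rw [D1, ix, h3x, x3u, x3, x2]; ring
  · rw [nD2, P012, P01, h2t, h3xm, ix, h3x, h3m, h2xm, x3u, x3, x2, m1,
      show x * x * x = x ^ 3 by ring, show x * x = x ^ 2 by ring]

theorem mx_step {ρ s : ℝ} (h0 : 0 ≤ ρ) (h1 : ρ < 1) (hs : s * s = 1 - ρ ^ 2) (s0 : 3 / 5 ≤ s) (s1 : s ≤ 94 / 125)
    (a0 a1 : ℝ) (x0 : 0 ≤ a0) (x01 : a0 < a1) (x1 : a1 ≤ 1) :
    ∃ k0 k1 l0 l1 c : ℝ, SqStep ρ k0 k1 l0 l1 c ∧
      2 * mxB s ((a0 + a1) / 2) ≤ k0 * mxB s a0 + k1 * mxB s a1 + l0 * a0 + l1 * a1 + c := by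
  have q4 : ∀ {y : ℝ}, 0 ≤ y → √(√y) ^ 4 = y := fun {y} hy => by
    rw [show √(√y) ^ 4 = (√(√y) ^ 2) ^ 2 by ring, Real.sq_sqrt (Real.sqrt_nonneg _), Real.sq_sqrt hy]
  have p1 : 0 < a1 := by linarith
  obtain ⟨u, u0, u1, rfl⟩ : ∃ u : ℝ, 0 < u ∧ u ≤ 1 ∧ a1 = u ^ 4 :=
    ⟨√(√a1), by positivity, Real.sqrt_le_one.2 (Real.sqrt_le_one.2 x1), (q4 p1.le).symm⟩
  obtain ⟨x, y0, y1, rfl⟩ : ∃ x : ℝ, 0 ≤ x ∧ x ≤ 1 ∧ a0 = (u * x) ^ 4 :=
    ⟨√(√(a0 / u ^ 4)), by positivity, Real.sqrt_le_one.2 (Real.sqrt_le_one.2 ((div_le_one p1).2 x01.le)),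
      by rw [mul_pow, q4 (by positivity)]; field_simp⟩
  obtain ⟨pa, pa0, pa1, pb, pb0, pb1, h⟩ := MXq.main s u x s0 s1 u0.le u1 y0 y1
  obtain ⟨m0, m1, m4⟩ := mx_m s u x pa pb
  obtain ⟨d1, d2⟩ := mx_D s u pa pb y0
  have eep : ep s u x pa pb = 1 - x ^ 4 := by rw [ep, x4, x2]; ring
  have hep : 0 < ep s u x pa pb := by
    rw [eep]
    rw [mul_pow] at x01
    by_contra hc
    push Not at hc
    nlinarith
  have eB0 : mxB s ((u * x) ^ 4) = (u * x) ^ 3 * R0 s u x pa pb := by rw [mxB_pow s (by positivity), mx_R0]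
  have eB1 : mxB s (u ^ 4) = u ^ 3 * R2 s u x pa pb := by rw [mxB_pow s u0.le, mx_R2]
  have eBm : mxB s (((u * x) ^ 4 + u ^ 4) / 2) = (u * m s u x pa pb) ^ 3 * R1 s u x pa pb := by
    rw [show ((u * x) ^ 4 + u ^ 4) / 2 = (u * m s u x pa pb) ^ 4 by rw [mul_pow, mul_pow, m4]; ring,
      mxB_pow s (by positivity), mx_R1]
  rw [eB0, eB1, eBm]
  rcases h with ⟨bel, hf1, hmu, hXn, ht0, ht1, hk0, hE, hZ1, hZ0, hvb, hn, hden⟩ | ⟨bel, hk0, hk1, hG, hz⟩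
  · have hv : 0 < v0 s u x pa pb := by rw [v0, u3, u2]; positivity
    have huA : 0 < uA s u x pa pb := by rw [uA]; positivity
    obtain ⟨g0, -, e0, n0, n1⟩ := mx_g (z := vz0 s u x pa pb) (t := t0 s u x pa pb) (tp := tp0 s u x pa pb)
      (w := vw0 s u x pa pb) (QQ := QQ0 s u x pa pb) (iq := iq0 s u x pa pb) (g := MXq.g0 s u x pa pb)
      (st := st0 s u x pa pb) (mm := mm0 s u x pa pb) (G := G0 s u x pa pb) h0 h1 hs (by rw [vz0]; positivity) ht0.le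
      rfl rfl rfl rfl rfl rfl rfl rfl rfl
    obtain ⟨g1, -, e1, -, -⟩ := mx_g (z := vz1 s u x pa pb) (t := t1 s u x pa pb) (tp := tp1 s u x pa pb)
      (w := vw1 s u x pa pb) (QQ := QQ1 s u x pa pb) (iq := iq1 s u x pa pb) (g := MXq.g1 s u x pa pb)
      (st := st1 s u x pa pb) (mm := mm1 s u x pa pb) (G := G1 s u x pa pb) h0 h1 hs (by rw [vz1]; positivity)
      (by linarith) rfl rfl rfl rfl rfl rfl rfl rfl rfl
    have w2 : u ^ 3 * R2 s u x pa pb - u ^ 4 = u ^ 3 * (ub s u x pa pb * (1 + Q2 s u x pa pb)) := by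
      rw [R2, ub]; ring
    have iv1 : iv s u x pa pb * vb s u x pa pb = 1 := by rw [iv]; field_simp
    have ev : v0 s u x pa pb = u ^ 3 * n0v s u x pa pb := by rw [v0, u3, u2]; ring
    have en : n0v s u x pa pb * den s u x pa pb = 1 + Q2 s u x pa pb := by rw [n0v]; field_simp
    refine mx_I (wt := MXq.wt s u x pa pb) (wb := wb s u x pa pb) (nD2 := nD2 s u x pa pb) (D1 := D1 s u x pa pb)
      (L0 := L0 s u x pa pb) (Zf := Zf s u x pa pb) (vb := vb s u x pa pb)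
      h0 h1 hep u0 hZ0 hZ1 rfl rfl rfl rfl rfl rfl rfl hv hvb ht0 ht1 g0 e0 n0 n1 g1 e1 rfl rfl hmu rfl rfl rfl rfl
      hf1 hXn hk0 hE (by linear_combination u ^ 3 * d1) (by linear_combination u ^ 3 * d2) rfl (by rw [eep]; ring)
      ?_ ?_ ?_ bel
    · rw [MXq.wt, ev]; linear_combination (-(u ^ 3 * (R2 s u x pa pb - n0v s u x pa pb))) * iv1
    · rw [wb, w2]; linear_combination (-(u ^ 3 * (ub s u x pa pb * (1 + Q2 s u x pa pb)))) * iv1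
    · have : 1 - u ^ 3 * R2 s u x pa pb = ub s u x pa pb * den s u x pa pb := by rw [R2, den, ub, u3, u2]; ring
      rw [w2, this, ev]
      linear_combination (u ^ 3 * ub s u x pa pb) * en
  · have t0 : 0 ≤ tB s u x pa pb := by rw [tB, zB]; linarith
    obtain ⟨g1, g2, e1, -, -⟩ := mx_g (z := zB s u x pa pb) (t := tB s u x pa pb) (tp := tpB s u x pa pb)
      (w := wB s u x pa pb) (QQ := QQB s u x pa pb) (iq := iqB s u x pa pb) (g := gB s u x pa pb)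
      (st := stB s u x pa pb) (mm := mmB s u x pa pb) (G := GB s u x pa pb) h0 h1 hs hz.le t0
      rfl rfl rfl rfl rfl rfl rfl rfl rfl
    refine ⟨vk0 s u x pa pb, vk1 s u x pa pb, l0 s u x pa pb, 0, -0,
      mx_IV h0 h1 hz t0 rfl g1 g2 e1 pa0 pa1 hG rfl rfl rfl hk0 hk1, ?_⟩
    have := mul_pos (pow_pos u0 3) bel
    rw [x3, x4, x2, m3, m1] at this
    linarith [this]

theorem mx_budget {ρ s : ℝ} (h0 : 0 ≤ ρ) (h1 : ρ < 1) (hs : s * s = 1 - ρ ^ 2) (s0 : 3 / 5 ≤ s) (s1 : s ≤ 94 / 125)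
    (n : ℕ) (u : (Fin n → Bool) → ℝ) (hu : ∀ y, u y = 0 ∨ u y = 1) :
    mxB s (cubeAverage u) ≤ cubeAverage fun x => √(noise ρ u x) :=
  sq_budget h0 h1.le (mxB s) (mxB_zero s).le (mxB_one s).le (mx_step h0 h1 hs s0 s1) n u hu

end Crest.Agent.R307
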