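import Crest.Agent.R307.IA3
import Crest.Agent.R307.IAx
set_option autoImplicit false
set_option linter.unusedVariables false
set_option maxRecDepth 20000
namespace Crest.Agent.R307.MXq
open Crest.Agent.R307.IA Crest.Agent.R307.IA3

theorem In_cast {e1 e2 e3 : ℝ} {x y1 y2 y3 r : ℕ} {v w : ℝ}
    (h : In e1 e2 e3 x y1 y2 y3 r v) (e : v = w) : In e1 e2 e3 x y1 y2 y3 r w := e ▸ h

noncomputable def x2 (s u x pa pb : ℝ) : ℝ := (x * x)
noncomputable def x3 (s u x pa pb : ℝ) : ℝ := ((x2 s u x pa pb) * x)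
noncomputable def x3u (s u x pa pb : ℝ) : ℝ := ((x3 s u x pa pb) * u)
noncomputable def ub (s u x pa pb : ℝ) : ℝ := ((1:ℝ) - u)
noncomputable def sg (s u x pa pb : ℝ) : ℝ := ((s - (169/250:ℝ)) * (250/19:ℝ))
noncomputable def c2 (s u x pa pb : ℝ) : ℝ := (((-1857/100000:ℝ) * (sg s u x pa pb)) + (5401/100000:ℝ))
noncomputable def T0 (s u x pa pb : ℝ) : ℝ := (((2:ℝ) * (u * x)) - (1:ℝ))
noncomputable def c3 (s u x pa pb : ℝ) : ℝ := (((7163/50000:ℝ) * (sg s u x pa pb)) + (4733/25000:ℝ))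
noncomputable def c4 (s u x pa pb : ℝ) : ℝ := (((-5377/20000:ℝ) * (sg s u x pa pb)) + (-2087/6250:ℝ))
noncomputable def c5 (s u x pa pb : ℝ) : ℝ := (((9301/50000:ℝ) * (sg s u x pa pb)) + (31317/100000:ℝ))
noncomputable def a4 (s u x pa pb : ℝ) : ℝ := ((c4 s u x pa pb) + ((T0 s u x pa pb) * (c5 s u x pa pb)))
noncomputable def a3 (s u x pa pb : ℝ) : ℝ := ((c3 s u x pa pb) + ((T0 s u x pa pb) * (a4 s u x pa pb)))
noncomputable def a2 (s u x pa pb : ℝ) : ℝ := ((c2 s u x pa pb) + ((T0 s u x pa pb) * (a3 s u x pa pb)))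
noncomputable def x4 (s u x pa pb : ℝ) : ℝ := ((x2 s u x pa pb) * (x2 s u x pa pb))
noncomputable def m2 (s u x pa pb : ℝ) : ℝ := (√(((1:ℝ) + (x4 s u x pa pb)) / (2:ℝ)))
noncomputable def m (s u x pa pb : ℝ) : ℝ := (√(m2 s u x pa pb))
noncomputable def T1 (s u x pa pb : ℝ) : ℝ := (((2:ℝ) * (u * (m s u x pa pb))) - (1:ℝ))
noncomputable def b3 (s u x pa pb : ℝ) : ℝ := ((a4 s u x pa pb) + ((T1 s u x pa pb) * (c5 s u x pa pb)))
noncomputable def b2 (s u x pa pb : ℝ) : ℝ := ((a3 s u x pa pb) + ((T1 s u x pa pb) * (b3 s u x pa pb)))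
noncomputable def b1 (s u x pa pb : ℝ) : ℝ := ((a2 s u x pa pb) + ((T1 s u x pa pb) * (b2 s u x pa pb)))
noncomputable def T2 (s u x pa pb : ℝ) : ℝ := (((2:ℝ) * u) - (1:ℝ))
noncomputable def ve2 (s u x pa pb : ℝ) : ℝ := ((b3 s u x pa pb) + ((T2 s u x pa pb) * (c5 s u x pa pb)))
noncomputable def ve1 (s u x pa pb : ℝ) : ℝ := ((b2 s u x pa pb) + ((T2 s u x pa pb) * (ve2 s u x pa pb)))
noncomputable def q012 (s u x pa pb : ℝ) : ℝ := ((b1 s u x pa pb) + ((T2 s u x pa pb) * (ve1 s u x pa pb)))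
noncomputable def c1 (s u x pa pb : ℝ) : ℝ := (((-7993/50000:ℝ) * (sg s u x pa pb)) + (-1911/25000:ℝ))
noncomputable def a1 (s u x pa pb : ℝ) : ℝ := ((c1 s u x pa pb) + ((T0 s u x pa pb) * (a2 s u x pa pb)))
noncomputable def q01 (s u x pa pb : ℝ) : ℝ := ((a1 s u x pa pb) + ((T1 s u x pa pb) * (b1 s u x pa pb)))
noncomputable def R012 (s u x pa pb : ℝ) : ℝ := (((ub s u x pa pb) * ((4:ℝ) * (q012 s u x pa pb))) - ((2:ℝ) * (q01 s u x pa pb)))
noncomputable def h2xm (s u x pa pb : ℝ) : ℝ := (((x2 s u x pa pb) + (x * (m s u x pa pb))) + (m2 s u x pa pb))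
noncomputable def y1 (s u x pa pb : ℝ) : ℝ := (u * (m s u x pa pb))
noncomputable def c0 (s u x pa pb : ℝ) : ℝ := (((6509/25000:ℝ) * (sg s u x pa pb)) + (53193/100000:ℝ))
noncomputable def Q0 (s u x pa pb : ℝ) : ℝ := ((c0 s u x pa pb) + ((T0 s u x pa pb) * (a1 s u x pa pb)))
noncomputable def R01 (s u x pa pb : ℝ) : ℝ := ((((1:ℝ) - (y1 s u x pa pb)) * ((2:ℝ) * (q01 s u x pa pb))) - (Q0 s u x pa pb))
noncomputable def y0 (s u x pa pb : ℝ) : ℝ := (u * x)
noncomputable def R12 (s u x pa pb : ℝ) : ℝ := ((R01 s u x pa pb) + ((u - (y0 s u x pa pb)) * (R012 s u x pa pb)))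
noncomputable def Q2 (s u x pa pb : ℝ) : ℝ := ((c0 s u x pa pb) + ((T2 s u x pa pb) * ((c1 s u x pa pb) + ((T2 s u x pa pb) * ((c2 s u x pa pb) + ((T2 s u x pa pb) * ((c3 s u x pa pb) + ((T2 s u x pa pb) * ((c4 s u x pa pb) + ((T2 s u x pa pb) * (c5 s u x pa pb)))))))))))
noncomputable def R2 (s u x pa pb : ℝ) : ℝ := ((1:ℝ) + ((ub s u x pa pb) * (Q2 s u x pa pb)))
noncomputable def P012 (s u x pa pb : ℝ) : ℝ := ((((x3u s u x pa pb) * (u * (R012 s u x pa pb))) + ((h2xm s u x pa pb) * (u * (R12 s u x pa pb)))) + (((x + (m s u x pa pb)) + (1:ℝ)) * (R2 s u x pa pb)))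
noncomputable def R0 (s u x pa pb : ℝ) : ℝ := ((1:ℝ) + (((1:ℝ) - (y0 s u x pa pb)) * (Q0 s u x pa pb)))
noncomputable def R1 (s u x pa pb : ℝ) : ℝ := ((R0 s u x pa pb) + (((y1 s u x pa pb) - (y0 s u x pa pb)) * (R01 s u x pa pb)))
noncomputable def P01 (s u x pa pb : ℝ) : ℝ := (((x3u s u x pa pb) * (R01 s u x pa pb)) + ((h2xm s u x pa pb) * (R1 s u x pa pb)))
noncomputable def h2t (s u x pa pb : ℝ) : ℝ := ((((h2xm s u x pa pb) + x) + (m s u x pa pb)) + (1:ℝ))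
noncomputable def h3xm (s u x pa pb : ℝ) : ℝ := ((x + (m s u x pa pb)) * ((x2 s u x pa pb) + (m2 s u x pa pb)))
noncomputable def h3x (s u x pa pb : ℝ) : ℝ := (((1:ℝ) + x) * ((1:ℝ) + (x2 s u x pa pb)))
noncomputable def ix (s u x pa pb : ℝ) : ℝ := ((1:ℝ) / (h3x s u x pa pb))
noncomputable def h3m (s u x pa pb : ℝ) : ℝ := (((1:ℝ) + (m s u x pa pb)) * ((1:ℝ) + (m2 s u x pa pb)))
noncomputable def nD2 (s u x pa pb : ℝ) : ℝ := ((((P012 s u x pa pb) - (((P01 s u x pa pb) * (h2t s u x pa pb)) / (h3xm s u x pa pb))) * (ix s u x pa pb)) / ((2:ℝ) * (h3m s u x pa pb)))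
noncomputable def Z1 (s u x pa pb : ℝ) : ℝ := pb
noncomputable def ep (s u x pa pb : ℝ) : ℝ := ((1:ℝ) - (x4 s u x pa pb))
noncomputable def vz1 (s u x pa pb : ℝ) : ℝ := ((ep s u x pa pb) * (Z1 s u x pa pb))
noncomputable def s2 (s u x pa pb : ℝ) : ℝ := (s * s)
noncomputable def tp1 (s u x pa pb : ℝ) : ℝ := ((2:ℝ) - (vz1 s u x pa pb))
noncomputable def st1 (s u x pa pb : ℝ) : ℝ := ((s2 s u x pa pb) * (tp1 s u x pa pb))
noncomputable def t1 (s u x pa pb : ℝ) : ℝ := ((1:ℝ) - (vz1 s u x pa pb))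
noncomputable def vw1 (s u x pa pb : ℝ) : ℝ := ((vz1 s u x pa pb) * (tp1 s u x pa pb))
noncomputable def QQ1 (s u x pa pb : ℝ) : ℝ := (√(((t1 s u x pa pb) * (t1 s u x pa pb)) + (((s2 s u x pa pb) * ((vw1 s u x pa pb) * (vw1 s u x pa pb))) / (4:ℝ))))
noncomputable def iq1 (s u x pa pb : ℝ) : ℝ := ((1:ℝ) / ((QQ1 s u x pa pb) + (t1 s u x pa pb)))
noncomputable def g1 (s u x pa pb : ℝ) : ℝ := (√(((1:ℝ) + ((t1 s u x pa pb) * (t1 s u x pa pb))) + ((2:ℝ) * (QQ1 s u x pa pb))))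
noncomputable def mm1 (s u x pa pb : ℝ) : ℝ := ((((st1 s u x pa pb) * (tp1 s u x pa pb)) * (iq1 s u x pa pb)) / ((2:ℝ) * ((g1 s u x pa pb) + (tp1 s u x pa pb))))
noncomputable def G1 (s u x pa pb : ℝ) : ℝ := ((((vz1 s u x pa pb) * (mm1 s u x pa pb)) + (((st1 s u x pa pb) * ((((vw1 s u x pa pb) * (iq1 s u x pa pb)) / (4:ℝ)) + ((t1 s u x pa pb) / (2:ℝ)))) / (QQ1 s u x pa pb))) / (g1 s u x pa pb))
noncomputable def ZG1 (s u x pa pb : ℝ) : ℝ := ((Z1 s u x pa pb) * (G1 s u x pa pb))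
noncomputable def R02 (s u x pa pb : ℝ) : ℝ := ((R01 s u x pa pb) + ((u - (y1 s u x pa pb)) * (R012 s u x pa pb)))
noncomputable def D1 (s u x pa pb : ℝ) : ℝ := ((((((1:ℝ) + x) + (x2 s u x pa pb)) * (R2 s u x pa pb)) + ((x3u s u x pa pb) * (R02 s u x pa pb))) * (ix s u x pa pb))
noncomputable def Z0 (s u x pa pb : ℝ) : ℝ := ((4:ℝ) * pa)
noncomputable def vz0 (s u x pa pb : ℝ) : ℝ := ((ep s u x pa pb) * (Z0 s u x pa pb))
noncomputable def tp0 (s u x pa pb : ℝ) : ℝ := ((2:ℝ) - (vz0 s u x pa pb))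
noncomputable def st0 (s u x pa pb : ℝ) : ℝ := ((s2 s u x pa pb) * (tp0 s u x pa pb))
noncomputable def t0 (s u x pa pb : ℝ) : ℝ := ((1:ℝ) - (vz0 s u x pa pb))
noncomputable def vw0 (s u x pa pb : ℝ) : ℝ := ((vz0 s u x pa pb) * (tp0 s u x pa pb))
noncomputable def QQ0 (s u x pa pb : ℝ) : ℝ := (√(((t0 s u x pa pb) * (t0 s u x pa pb)) + (((s2 s u x pa pb) * ((vw0 s u x pa pb) * (vw0 s u x pa pb))) / (4:ℝ))))
noncomputable def iq0 (s u x pa pb : ℝ) : ℝ := ((1:ℝ) / ((QQ0 s u x pa pb) + (t0 s u x pa pb)))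
noncomputable def g0 (s u x pa pb : ℝ) : ℝ := (√(((1:ℝ) + ((t0 s u x pa pb) * (t0 s u x pa pb))) + ((2:ℝ) * (QQ0 s u x pa pb))))
noncomputable def mm0 (s u x pa pb : ℝ) : ℝ := ((((st0 s u x pa pb) * (tp0 s u x pa pb)) * (iq0 s u x pa pb)) / ((2:ℝ) * ((g0 s u x pa pb) + (tp0 s u x pa pb))))
noncomputable def G0 (s u x pa pb : ℝ) : ℝ := ((((vz0 s u x pa pb) * (mm0 s u x pa pb)) + (((st0 s u x pa pb) * ((((vw0 s u x pa pb) * (iq0 s u x pa pb)) / (4:ℝ)) + ((t0 s u x pa pb) / (2:ℝ)))) / (QQ0 s u x pa pb))) / (g0 s u x pa pb))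
noncomputable def u2 (s u x pa pb : ℝ) : ℝ := (u * u)
noncomputable def u3 (s u x pa pb : ℝ) : ℝ := ((u2 s u x pa pb) * u)
noncomputable def den (s u x pa pb : ℝ) : ℝ := ((((1:ℝ) + u) + (u2 s u x pa pb)) - ((u3 s u x pa pb) * (Q2 s u x pa pb)))
noncomputable def n0v (s u x pa pb : ℝ) : ℝ := (((1:ℝ) + (Q2 s u x pa pb)) / (den s u x pa pb))
noncomputable def v0 (s u x pa pb : ℝ) : ℝ := ((u3 s u x pa pb) * (n0v s u x pa pb))
noncomputable def uA (s u x pa pb : ℝ) : ℝ := ((t0 s u x pa pb) * (v0 s u x pa pb))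
noncomputable def mu (s u x pa pb : ℝ) : ℝ := ((((Z0 s u x pa pb) * (G0 s u x pa pb)) - (ZG1 s u x pa pb)) / ((2:ℝ) * ((t1 s u x pa pb) - (uA s u x pa pb))))
noncomputable def vb (s u x pa pb : ℝ) : ℝ := ((1:ℝ) - (v0 s u x pa pb))
noncomputable def iv (s u x pa pb : ℝ) : ℝ := ((1:ℝ) / (vb s u x pa pb))
noncomputable def wt (s u x pa pb : ℝ) : ℝ := (((R2 s u x pa pb) - (n0v s u x pa pb)) * (iv s u x pa pb))
noncomputable def Zq1 (s u x pa pb : ℝ) : ℝ := ((Z1 s u x pa pb) * (Z1 s u x pa pb))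
noncomputable def em (s u x pa pb : ℝ) : ℝ := ((ep s u x pa pb) * (mu s u x pa pb))
noncomputable def f1 (s u x pa pb : ℝ) : ℝ := (((G1 s u x pa pb) - (mm1 s u x pa pb)) - (em s u x pa pb))
noncomputable def Zf (s u x pa pb : ℝ) : ℝ := ((Zq1 s u x pa pb) * (f1 s u x pa pb))
noncomputable def wb (s u x pa pb : ℝ) : ℝ := (((ub s u x pa pb) * ((1:ℝ) + (Q2 s u x pa pb))) * (iv s u x pa pb))
noncomputable def Zq0 (s u x pa pb : ℝ) : ℝ := ((Z0 s u x pa pb) * (Z0 s u x pa pb))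
noncomputable def L0 (s u x pa pb : ℝ) : ℝ := ((G0 s u x pa pb) - (mm0 s u x pa pb))
noncomputable def Xn (s u x pa pb : ℝ) : ℝ := (((Zf s u x pa pb) + ((Z0 s u x pa pb) * ((mu s u x pa pb) * ((tp0 s u x pa pb) - ((2:ℝ) * (uA s u x pa pb)))))) - ((Zq0 s u x pa pb) * (L0 s u x pa pb)))
noncomputable def zB (s u x pa pb : ℝ) : ℝ := pb
noncomputable def tpB (s u x pa pb : ℝ) : ℝ := ((2:ℝ) - (zB s u x pa pb))
noncomputable def stB (s u x pa pb : ℝ) : ℝ := ((s2 s u x pa pb) * (tpB s u x pa pb))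
noncomputable def tB (s u x pa pb : ℝ) : ℝ := ((1:ℝ) - (zB s u x pa pb))
noncomputable def wB (s u x pa pb : ℝ) : ℝ := ((zB s u x pa pb) * (tpB s u x pa pb))
noncomputable def QQB (s u x pa pb : ℝ) : ℝ := (√(((tB s u x pa pb) * (tB s u x pa pb)) + (((s2 s u x pa pb) * ((wB s u x pa pb) * (wB s u x pa pb))) / (4:ℝ))))
noncomputable def iqB (s u x pa pb : ℝ) : ℝ := ((1:ℝ) / ((QQB s u x pa pb) + (tB s u x pa pb)))
noncomputable def gB (s u x pa pb : ℝ) : ℝ := (√(((1:ℝ) + ((tB s u x pa pb) * (tB s u x pa pb))) + ((2:ℝ) * (QQB s u x pa pb))))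
noncomputable def mmB (s u x pa pb : ℝ) : ℝ := ((((stB s u x pa pb) * (tpB s u x pa pb)) * (iqB s u x pa pb)) / ((2:ℝ) * ((gB s u x pa pb) + (tpB s u x pa pb))))
noncomputable def GB (s u x pa pb : ℝ) : ℝ := ((((zB s u x pa pb) * (mmB s u x pa pb)) + (((stB s u x pa pb) * ((((wB s u x pa pb) * (iqB s u x pa pb)) / (4:ℝ)) + ((tB s u x pa pb) / (2:ℝ)))) / (QQB s u x pa pb))) / (gB s u x pa pb))
noncomputable def Gm (s u x pa pb : ℝ) : ℝ := ((GB s u x pa pb) - (mmB s u x pa pb))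
noncomputable def l0 (s u x pa pb : ℝ) : ℝ := (pa * (Gm s u x pa pb))
noncomputable def vk0 (s u x pa pb : ℝ) : ℝ := (((1:ℝ) - ((zB s u x pa pb) * (GB s u x pa pb))) - ((2:ℝ) * ((l0 s u x pa pb) * (tB s u x pa pb))))
noncomputable def vk1 (s u x pa pb : ℝ) : ℝ := ((gB s u x pa pb) - ((tB s u x pa pb) * ((vk0 s u x pa pb) + ((l0 s u x pa pb) * (tB s u x pa pb)))))
noncomputable def m3 (s u x pa pb : ℝ) : ℝ := ((m2 s u x pa pb) * (m s u x pa pb))

def Q (s u x : ℝ) : Prop :=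
  ∃ pa : ℝ, 0 ≤ pa ∧ pa ≤ 1 ∧ ∃ pb : ℝ, 0 ≤ pb ∧ pb ≤ 1 ∧ (
  (0 < (((((nD2 s u x pa pb) + ((ZG1 s u x pa pb) * (D1 s u x pa pb))) + ((mu s u x pa pb) * (((2:ℝ) * ((t1 s u x pa pb) * (D1 s u x pa pb))) - u))) - ((wt s u x pa pb) * (Zf s u x pa pb))) - ((wb s u x pa pb) * ((Zq0 s u x pa pb) * ((L0 s u x pa pb) - ((em s u x pa pb) * (v0 s u x pa pb)))))) ∧ 0 < (f1 s u x pa pb) ∧ 0 < (mu s u x pa pb) ∧ 0 < (Xn s u x pa pb) ∧ 0 < (t0 s u x pa pb) ∧ 0 < ((t1 s u x pa pb) - (uA s u x pa pb)) ∧ 0 < (((1:ℝ) - ((vz1 s u x pa pb) * (G1 s u x pa pb))) - ((2:ℝ) * ((em s u x pa pb) * (t1 s u x pa pb)))) ∧ 0 < ((((Z0 s u x pa pb) * ((mu s u x pa pb) * (tp0 s u x pa pb))) * (vb s u x pa pb)) - ((Xn s u x pa pb) * ((1:ℝ) + (v0 s u x pa pb)))) ∧ 0 < (Z1 s u x pa pb) ∧ 0 < (Z0 s u x pa pb) ∧ 0 < (vb s u x pa pb) ∧ 0 < (n0v s u x pa pb) ∧ 0 < (den s u x pa pb)) ∨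
  (0 < (((((vk0 s u x pa pb) * ((x3 s u x pa pb) * (R0 s u x pa pb))) + ((vk1 s u x pa pb) * (R2 s u x pa pb))) + ((l0 s u x pa pb) * (u * (x4 s u x pa pb)))) - ((2:ℝ) * ((m3 s u x pa pb) * (R1 s u x pa pb)))) ∧ 0 < (vk0 s u x pa pb) ∧ 0 < (vk1 s u x pa pb) ∧ 0 < (Gm s u x pa pb) ∧ 0 < (zB s u x pa pb)))

noncomputable def alt0 (p1 p2 z1 w1 z2 w2 z3 w3 : ℕ) : Bool :=
  sqK z3 1152921504606846976 1152921504606846976 (Nat.add w3 1152921504606846976) 0 fun c1 a1_1 a1_2 a1_3 q1 =>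
  sqK c1 a1_1 a1_2 a1_3 q1 fun c4 a4_1 a4_2 a4_3 q4 =>
  addcK c4 a4_1 a4_2 a4_3 q4 1152922604118474752 0 fun c7 a7_1 a7_2 a7_3 q7 =>
  smulK 1 2 2305843009213693954 1152921504606846976 c7 a7_1 a7_2 a7_3 q7 fun c9 a9_1 a9_2 a9_3 q9 =>
  sqrtK c9 a9_1 a9_2 a9_3 q9 fun c11 a11_1 a11_2 a11_3 q11 =>
  sqrtK c11 a11_1 a11_2 a11_3 q11 fun c13 a13_1 a13_2 a13_3 q13 =>
  addcK c13 a13_1 a13_2 a13_3 q13 1152922604118474752 0 fun c15 a15_1 a15_2 a15_3 q15 =>
  addcK c11 a11_1 a11_2 a11_3 q11 1152922604118474752 0 fun c17 a17_1 a17_2 a17_3 q17 =>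
  mulK c15 a15_1 a15_2 a15_3 q15 c17 a17_1 a17_2 a17_3 q17 fun c19 a19_1 a19_2 a19_3 q19 =>
  smulK 2 1 1152921504606846977 2305843009213693952 c19 a19_1 a19_2 a19_3 q19 fun c21 a21_1 a21_2 a21_3 q21 =>
  invK c21 a21_1 a21_2 a21_3 q21 fun c22 a22_1 a22_2 a22_3 q22 =>
  mulK c1 a1_1 a1_2 a1_3 q1 z3 1152921504606846976 1152921504606846976 (Nat.add w3 1152921504606846976) 0 fun c23 a23_1 a23_2 a23_3 q23 =>
  mulK c23 a23_1 a23_2 a23_3 q23 z2 1152921504606846976 (Nat.add w2 1152921504606846976) 1152921504606846976 0 fun c25 a25_1 a25_2 a25_3 q25 =>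
  negK z2 1152921504606846976 (Nat.add w2 1152921504606846976) 1152921504606846976 0 fun c27 a27_1 a27_2 a27_3 q27 =>
  addcK c27 a27_1 a27_2 a27_3 q27 1152922604118474752 0 fun c28 a28_1 a28_2 a28_3 q28 =>
  addcK z1 (Nat.add w1 1152921504606846976) 1152921504606846976 1152921504606846976 0 1152920761336986599 1 fun c31 a31_1 a31_2 a31_3 q31 =>
  smulK 250 19 21905508587530092563 288230376151711744000 c31 a31_1 a31_2 a31_3 q31 fun c33 a33_1 a33_2 a33_3 q33 =>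
  smulK 1857 100000 115292150460684697700000 2140975234054914834432 c33 a33_1 a33_2 a33_3 q33 fun c36 a36_1 a36_2 a36_3 q36 =>
  negK c36 a36_1 a36_2 a36_3 q36 fun c37 a37_1 a37_2 a37_3 q37 =>
  addcK c37 a37_1 a37_2 a37_3 q37 1152921563991469992 1 fun c39 a39_1 a39_2 a39_3 q39 =>
  mulK z2 1152921504606846976 (Nat.add w2 1152921504606846976) 1152921504606846976 0 z3 1152921504606846976 1152921504606846976 (Nat.add w3 1152921504606846976) 0 fun c41 a41_1 a41_2 a41_3 q41 =>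
  smulK 2 1 1152921504606846977 2305843009213693952 c41 a41_1 a41_2 a41_3 q41 fun c42 a42_1 a42_2 a42_3 q42 =>
  addcK c42 a42_1 a42_2 a42_3 q42 1152920405095219200 0 fun c43 a43_1 a43_2 a43_3 q43 =>
  smulK 7163 50000 57646075230342348850000 8258376737498844889088 c33 a33_1 a33_2 a33_3 q33 fun c46 a46_1 a46_2 a46_3 q46 =>
  addcK c46 a46_1 a46_2 a46_3 q46 1152921712766388347 1 fun c47 a47_1 a47_2 a47_3 q47 =>
  smulK 5377 20000 23058430092136939540000 6199258930271016189952 c33 a33_1 a33_2 a33_3 q33 fun c49 a49_1 a49_2 a49_3 q49 =>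
  negK c49 a49_1 a49_2 a49_3 q49 fun c50 a50_1 a50_2 a50_3 q50 =>
  addcK c50 a50_1 a50_2 a50_3 q50 1152921137457924229 1 fun c52 a52_1 a52_2 a52_3 q52 =>
  smulK 9301 50000 57646075230342348850000 10723322914348283723776 c33 a33_1 a33_2 a33_3 q33 fun c54 a54_1 a54_2 a54_3 q54 =>
  addcK c54 a54_1 a54_2 a54_3 q54 1152921848940903447 1 fun c55 a55_1 a55_2 a55_3 q55 =>
  mulK c43 a43_1 a43_2 a43_3 q43 c55 a55_1 a55_2 a55_3 q55 fun c57 a57_1 a57_2 a57_3 q57 =>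
  addK c52 a52_1 a52_2 a52_3 q52 c57 a57_1 a57_2 a57_3 q57 fun c58 a58_1 a58_2 a58_3 q58 =>
  mulK c43 a43_1 a43_2 a43_3 q43 c58 a58_1 a58_2 a58_3 q58 fun c60 a60_1 a60_2 a60_3 q60 =>
  addK c47 a47_1 a47_2 a47_3 q47 c60 a60_1 a60_2 a60_3 q60 fun c61 a61_1 a61_2 a61_3 q61 =>
  mulK c43 a43_1 a43_2 a43_3 q43 c61 a61_1 a61_2 a61_3 q61 fun c63 a63_1 a63_2 a63_3 q63 =>
  addK c39 a39_1 a39_2 a39_3 q39 c63 a63_1 a63_2 a63_3 q63 fun c64 a64_1 a64_2 a64_3 q64 =>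
  mulK z2 1152921504606846976 (Nat.add w2 1152921504606846976) 1152921504606846976 0 c13 a13_1 a13_2 a13_3 q13 fun c66 a66_1 a66_2 a66_3 q66 =>
  smulK 2 1 1152921504606846977 2305843009213693952 c66 a66_1 a66_2 a66_3 q66 fun c67 a67_1 a67_2 a67_3 q67 =>
  addcK c67 a67_1 a67_2 a67_3 q67 1152920405095219200 0 fun c68 a68_1 a68_2 a68_3 q68 =>
  mulK c68 a68_1 a68_2 a68_3 q68 c55 a55_1 a55_2 a55_3 q55 fun c71 a71_1 a71_2 a71_3 q71 =>
  addK c58 a58_1 a58_2 a58_3 q58 c71 a71_1 a71_2 a71_3 q71 fun c72 a72_1 a72_2 a72_3 q72 =>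
  mulK c68 a68_1 a68_2 a68_3 q68 c72 a72_1 a72_2 a72_3 q72 fun c74 a74_1 a74_2 a74_3 q74 =>
  addK c61 a61_1 a61_2 a61_3 q61 c74 a74_1 a74_2 a74_3 q74 fun c75 a75_1 a75_2 a75_3 q75 =>
  mulK c68 a68_1 a68_2 a68_3 q68 c75 a75_1 a75_2 a75_3 q75 fun c77 a77_1 a77_2 a77_3 q77 =>
  addK c64 a64_1 a64_2 a64_3 q64 c77 a77_1 a77_2 a77_3 q77 fun c78 a78_1 a78_2 a78_3 q78 =>
  smulK 2 1 1152921504606846977 2305843009213693952 z2 1152921504606846976 (Nat.add w2 1152921504606846976) 1152921504606846976 0 fun c80 a80_1 a80_2 a80_3 q80 =>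
  addcK c80 a80_1 a80_2 a80_3 q80 1152920405095219200 0 fun c81 a81_1 a81_2 a81_3 q81 =>
  mulK c81 a81_1 a81_2 a81_3 q81 c55 a55_1 a55_2 a55_3 q55 fun c84 a84_1 a84_2 a84_3 q84 =>
  addK c72 a72_1 a72_2 a72_3 q72 c84 a84_1 a84_2 a84_3 q84 fun c85 a85_1 a85_2 a85_3 q85 =>
  mulK c81 a81_1 a81_2 a81_3 q81 c85 a85_1 a85_2 a85_3 q85 fun c87 a87_1 a87_2 a87_3 q87 =>
  addK c75 a75_1 a75_2 a75_3 q75 c87 a87_1 a87_2 a87_3 q87 fun c88 a88_1 a88_2 a88_3 q88 =>
  mulK c81 a81_1 a81_2 a81_3 q81 c88 a88_1 a88_2 a88_3 q88 fun c90 a90_1 a90_2 a90_3 q90 =>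
  addK c78 a78_1 a78_2 a78_3 q78 c90 a90_1 a90_2 a90_3 q90 fun c91 a91_1 a91_2 a91_3 q91 =>
  smulK 4 1 1152921504606846977 4611686018427387904 c91 a91_1 a91_2 a91_3 q91 fun c93 a93_1 a93_2 a93_3 q93 =>
  mulK c28 a28_1 a28_2 a28_3 q28 c93 a93_1 a93_2 a93_3 q93 fun c94 a94_1 a94_2 a94_3 q94 =>
  smulK 7993 50000 57646075230342348850000 9215301586322527879168 c33 a33_1 a33_2 a33_3 q33 fun c95 a95_1 a95_2 a95_3 q95 =>
  negK c95 a95_1 a95_2 a95_3 q95 fun c96 a96_1 a96_2 a96_3 q96 =>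
  addcK c96 a96_1 a96_2 a96_3 q96 1152921420560178149 1 fun c98 a98_1 a98_2 a98_3 q98 =>
  mulK c43 a43_1 a43_2 a43_3 q43 c64 a64_1 a64_2 a64_3 q64 fun c100 a100_1 a100_2 a100_3 q100 =>
  addK c98 a98_1 a98_2 a98_3 q98 c100 a100_1 a100_2 a100_3 q100 fun c101 a101_1 a101_2 a101_3 q101 =>
  mulK c68 a68_1 a68_2 a68_3 q68 c78 a78_1 a78_2 a78_3 q78 fun c103 a103_1 a103_2 a103_3 q103 =>
  addK c101 a101_1 a101_2 a101_3 q101 c103 a103_1 a103_2 a103_3 q103 fun c104 a104_1 a104_2 a104_3 q104 =>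
  smulK 2 1 1152921504606846977 2305843009213693952 c104 a104_1 a104_2 a104_3 q104 fun c106 a106_1 a106_2 a106_3 q106 =>
  subK c94 a94_1 a94_2 a94_3 q94 c106 a106_1 a106_2 a106_3 q106 fun c107 a107_1 a107_2 a107_3 q107 =>
  mulK z2 1152921504606846976 (Nat.add w2 1152921504606846976) 1152921504606846976 0 c107 a107_1 a107_2 a107_3 q107 fun c109 a109_1 a109_2 a109_3 q109 =>
  mulK c25 a25_1 a25_2 a25_3 q25 c109 a109_1 a109_2 a109_3 q109 fun c110 a110_1 a110_2 a110_3 q110 =>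
  mulK z3 1152921504606846976 1152921504606846976 (Nat.add w3 1152921504606846976) 0 c13 a13_1 a13_2 a13_3 q13 fun c111 a111_1 a111_2 a111_3 q111 =>
  addK c1 a1_1 a1_2 a1_3 q1 c111 a111_1 a111_2 a111_3 q111 fun c112 a112_1 a112_2 a112_3 q112 =>
  addK c112 a112_1 a112_2 a112_3 q112 c11 a11_1 a11_2 a11_3 q11 fun c113 a113_1 a113_2 a113_3 q113 =>
  negK c66 a66_1 a66_2 a66_3 q66 fun c116 a116_1 a116_2 a116_3 q116 =>
  addcK c116 a116_1 a116_2 a116_3 q116 1152922604118474752 0 fun c117 a117_1 a117_2 a117_3 q117 =>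
  mulK c117 a117_1 a117_2 a117_3 q117 c106 a106_1 a106_2 a106_3 q106 fun c119 a119_1 a119_2 a119_3 q119 =>
  smulK 6509 25000 28823037615171174425000 7504366073485966966784 c33 a33_1 a33_2 a33_3 q33 fun c120 a120_1 a120_2 a120_3 q120 =>
  addcK c120 a120_1 a120_2 a120_3 q120 1152922089470067139 1 fun c121 a121_1 a121_2 a121_3 q121 =>
  mulK c43 a43_1 a43_2 a43_3 q43 c101 a101_1 a101_2 a101_3 q101 fun c123 a123_1 a123_2 a123_3 q123 =>
  addK c121 a121_1 a121_2 a121_3 q121 c123 a123_1 a123_2 a123_3 q123 fun c124 a124_1 a124_2 a124_3 q124 =>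
  subK c119 a119_1 a119_2 a119_3 q119 c124 a124_1 a124_2 a124_3 q124 fun c126 a126_1 a126_2 a126_3 q126 =>
  subK z2 1152921504606846976 (Nat.add w2 1152921504606846976) 1152921504606846976 0 c41 a41_1 a41_2 a41_3 q41 fun c129 a129_1 a129_2 a129_3 q129 =>
  mulK c129 a129_1 a129_2 a129_3 q129 c107 a107_1 a107_2 a107_3 q107 fun c130 a130_1 a130_2 a130_3 q130 =>
  addK c126 a126_1 a126_2 a126_3 q126 c130 a130_1 a130_2 a130_3 q130 fun c131 a131_1 a131_2 a131_3 q131 =>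
  mulK z2 1152921504606846976 (Nat.add w2 1152921504606846976) 1152921504606846976 0 c131 a131_1 a131_2 a131_3 q131 fun c133 a133_1 a133_2 a133_3 q133 =>
  mulK c113 a113_1 a113_2 a113_3 q113 c133 a133_1 a133_2 a133_3 q133 fun c134 a134_1 a134_2 a134_3 q134 =>
  addK c110 a110_1 a110_2 a110_3 q110 c134 a134_1 a134_2 a134_3 q134 fun c135 a135_1 a135_2 a135_3 q135 =>
  addK z3 1152921504606846976 1152921504606846976 (Nat.add w3 1152921504606846976) 0 c13 a13_1 a13_2 a13_3 q13 fun c136 a136_1 a136_2 a136_3 q136 =>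
  addcK c136 a136_1 a136_2 a136_3 q136 1152922604118474752 0 fun c137 a137_1 a137_2 a137_3 q137 =>
  addK c52 a52_1 a52_2 a52_3 q52 c84 a84_1 a84_2 a84_3 q84 fun c138 a138_1 a138_2 a138_3 q138 =>
  mulK c81 a81_1 a81_2 a81_3 q81 c138 a138_1 a138_2 a138_3 q138 fun c139 a139_1 a139_2 a139_3 q139 =>
  addK c47 a47_1 a47_2 a47_3 q47 c139 a139_1 a139_2 a139_3 q139 fun c140 a140_1 a140_2 a140_3 q140 =>
  mulK c81 a81_1 a81_2 a81_3 q81 c140 a140_1 a140_2 a140_3 q140 fun c141 a141_1 a141_2 a141_3 q141 =>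
  addK c39 a39_1 a39_2 a39_3 q39 c141 a141_1 a141_2 a141_3 q141 fun c142 a142_1 a142_2 a142_3 q142 =>
  mulK c81 a81_1 a81_2 a81_3 q81 c142 a142_1 a142_2 a142_3 q142 fun c143 a143_1 a143_2 a143_3 q143 =>
  addK c98 a98_1 a98_2 a98_3 q98 c143 a143_1 a143_2 a143_3 q143 fun c144 a144_1 a144_2 a144_3 q144 =>
  mulK c81 a81_1 a81_2 a81_3 q81 c144 a144_1 a144_2 a144_3 q144 fun c145 a145_1 a145_2 a145_3 q145 =>
  addK c121 a121_1 a121_2 a121_3 q121 c145 a145_1 a145_2 a145_3 q145 fun c146 a146_1 a146_2 a146_3 q146 =>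
  mulK c28 a28_1 a28_2 a28_3 q28 c146 a146_1 a146_2 a146_3 q146 fun c148 a148_1 a148_2 a148_3 q148 =>
  addcK c148 a148_1 a148_2 a148_3 q148 1152922604118474752 0 fun c149 a149_1 a149_2 a149_3 q149 =>
  mulK c137 a137_1 a137_2 a137_3 q137 c149 a149_1 a149_2 a149_3 q149 fun c152 a152_1 a152_2 a152_3 q152 =>
  addK c135 a135_1 a135_2 a135_3 q135 c152 a152_1 a152_2 a152_3 q152 fun c153 a153_1 a153_2 a153_3 q153 =>
  addK c1 a1_1 a1_2 a1_3 q1 c11 a11_1 a11_2 a11_3 q11 fun c155 a155_1 a155_2 a155_3 q155 =>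
  mulK c136 a136_1 a136_2 a136_3 q136 c155 a155_1 a155_2 a155_3 q155 fun c156 a156_1 a156_2 a156_3 q156 =>
  invK c156 a156_1 a156_2 a156_3 q156 fun c158 a158_1 a158_2 a158_3 q158 =>
  mulK c25 a25_1 a25_2 a25_3 q25 c126 a126_1 a126_2 a126_3 q126 fun c159 a159_1 a159_2 a159_3 q159 =>
  negK c41 a41_1 a41_2 a41_3 q41 fun c160 a160_1 a160_2 a160_3 q160 =>
  addcK c160 a160_1 a160_2 a160_3 q160 1152922604118474752 0 fun c161 a161_1 a161_2 a161_3 q161 =>
  mulK c161 a161_1 a161_2 a161_3 q161 c124 a124_1 a124_2 a124_3 q124 fun c163 a163_1 a163_2 a163_3 q163 =>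
  addcK c163 a163_1 a163_2 a163_3 q163 1152922604118474752 0 fun c164 a164_1 a164_2 a164_3 q164 =>
  subK c66 a66_1 a66_2 a66_3 q66 c41 a41_1 a41_2 a41_3 q41 fun c167 a167_1 a167_2 a167_3 q167 =>
  mulK c167 a167_1 a167_2 a167_3 q167 c126 a126_1 a126_2 a126_3 q126 fun c168 a168_1 a168_2 a168_3 q168 =>
  addK c164 a164_1 a164_2 a164_3 q164 c168 a168_1 a168_2 a168_3 q168 fun c169 a169_1 a169_2 a169_3 q169 =>
  mulK c113 a113_1 a113_2 a113_3 q113 c169 a169_1 a169_2 a169_3 q169 fun c171 a171_1 a171_2 a171_3 q171 =>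
  addK c159 a159_1 a159_2 a159_3 q159 c171 a171_1 a171_2 a171_3 q171 fun c172 a172_1 a172_2 a172_3 q172 =>
  addK c113 a113_1 a113_2 a113_3 q113 z3 1152921504606846976 1152921504606846976 (Nat.add w3 1152921504606846976) 0 fun c174 a174_1 a174_2 a174_3 q174 =>
  addK c174 a174_1 a174_2 a174_3 q174 c13 a13_1 a13_2 a13_3 q13 fun c175 a175_1 a175_2 a175_3 q175 =>
  addcK c175 a175_1 a175_2 a175_3 q175 1152922604118474752 0 fun c176 a176_1 a176_2 a176_3 q176 =>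
  mulK c172 a172_1 a172_2 a172_3 q172 c176 a176_1 a176_2 a176_3 q176 fun c178 a178_1 a178_2 a178_3 q178 =>
  mulK c178 a178_1 a178_2 a178_3 q178 c158 a158_1 a158_2 a158_3 q158 fun c179 a179_1 a179_2 a179_3 q179 =>
  subK c153 a153_1 a153_2 a153_3 q153 c179 a179_1 a179_2 a179_3 q179 fun c181 a181_1 a181_2 a181_3 q181 =>
  addcK z3 1152921504606846976 1152921504606846976 (Nat.add w3 1152921504606846976) 0 1152922604118474752 0 fun c182 a182_1 a182_2 a182_3 q182 =>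
  addcK c1 a1_1 a1_2 a1_3 q1 1152922604118474752 0 fun c184 a184_1 a184_2 a184_3 q184 =>
  mulK c182 a182_1 a182_2 a182_3 q182 c184 a184_1 a184_2 a184_3 q184 fun c186 a186_1 a186_2 a186_3 q186 =>
  invK c186 a186_1 a186_2 a186_3 q186 fun c188 a188_1 a188_2 a188_3 q188 =>
  mulK c181 a181_1 a181_2 a181_3 q181 c188 a188_1 a188_2 a188_3 q188 fun c191 a191_1 a191_2 a191_3 q191 =>
  mulK c191 a191_1 a191_2 a191_3 q191 c22 a22_1 a22_2 a22_3 q22 fun c192 a192_1 a192_2 a192_3 q192 =>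
  negK c4 a4_1 a4_2 a4_3 q4 fun c196 a196_1 a196_2 a196_3 q196 =>
  addcK c196 a196_1 a196_2 a196_3 q196 1152922604118474752 0 fun c197 a197_1 a197_2 a197_3 q197 =>
  mulK c197 a197_1 a197_2 a197_3 q197 p2 1152921504606846976 1152921504606846976 1152921504606846976 0 fun c200 a200_1 a200_2 a200_3 q200 =>
  negK c200 a200_1 a200_2 a200_3 q200 fun c202 a202_1 a202_2 a202_3 q202 =>
  addcK c202 a202_1 a202_2 a202_3 q202 1152922604118474752 0 fun c203 a203_1 a203_2 a203_3 q203 =>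
  sqK c203 a203_1 a203_2 a203_3 q203 fun c206 a206_1 a206_2 a206_3 q206 =>
  addcK c206 a206_1 a206_2 a206_3 q206 1152922604118474752 0 fun c208 a208_1 a208_2 a208_3 q208 =>
  sqK z1 (Nat.add w1 1152921504606846976) 1152921504606846976 1152921504606846976 0 fun c210 a210_1 a210_2 a210_3 q210 =>
  negK c200 a200_1 a200_2 a200_3 q200 fun c213 a213_1 a213_2 a213_3 q213 =>
  addcK c213 a213_1 a213_2 a213_3 q213 1152923703630102528 0 fun c214 a214_1 a214_2 a214_3 q214 =>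
  mulK c200 a200_1 a200_2 a200_3 q200 c214 a214_1 a214_2 a214_3 q214 fun c217 a217_1 a217_2 a217_3 q217 =>
  sqK c217 a217_1 a217_2 a217_3 q217 fun c219 a219_1 a219_2 a219_3 q219 =>
  mulK c210 a210_1 a210_2 a210_3 q210 c219 a219_1 a219_2 a219_3 q219 fun c221 a221_1 a221_2 a221_3 q221 =>
  smulK 1 4 4611686018427387908 1152921504606846976 c221 a221_1 a221_2 a221_3 q221 fun c222 a222_1 a222_2 a222_3 q222 =>
  addK c206 a206_1 a206_2 a206_3 q206 c222 a222_1 a222_2 a222_3 q222 fun c224 a224_1 a224_2 a224_3 q224 =>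
  sqrtK c224 a224_1 a224_2 a224_3 q224 fun c225 a225_1 a225_2 a225_3 q225 =>
  smulK 2 1 1152921504606846977 2305843009213693952 c225 a225_1 a225_2 a225_3 q225 fun c227 a227_1 a227_2 a227_3 q227 =>
  addK c208 a208_1 a208_2 a208_3 q208 c227 a227_1 a227_2 a227_3 q227 fun c228 a228_1 a228_2 a228_3 q228 =>
  sqrtK c228 a228_1 a228_2 a228_3 q228 fun c229 a229_1 a229_2 a229_3 q229 =>
  invK c229 a229_1 a229_2 a229_3 q229 fun c231 a231_1 a231_2 a231_3 q231 =>
  addK c229 a229_1 a229_2 a229_3 q229 c214 a214_1 a214_2 a214_3 q214 fun c232 a232_1 a232_2 a232_3 q232 =>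
  smulK 2 1 1152921504606846977 2305843009213693952 c232 a232_1 a232_2 a232_3 q232 fun c233 a233_1 a233_2 a233_3 q233 =>
  invK c233 a233_1 a233_2 a233_3 q233 fun c234 a234_1 a234_2 a234_3 q234 =>
  mulK c210 a210_1 a210_2 a210_3 q210 c214 a214_1 a214_2 a214_3 q214 fun c235 a235_1 a235_2 a235_3 q235 =>
  mulK c235 a235_1 a235_2 a235_3 q235 c214 a214_1 a214_2 a214_3 q214 fun c237 a237_1 a237_2 a237_3 q237 =>
  addK c225 a225_1 a225_2 a225_3 q225 c203 a203_1 a203_2 a203_3 q203 fun c238 a238_1 a238_2 a238_3 q238 =>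
  invK c238 a238_1 a238_2 a238_3 q238 fun c239 a239_1 a239_2 a239_3 q239 =>
  mulK c237 a237_1 a237_2 a237_3 q237 c239 a239_1 a239_2 a239_3 q239 fun c242 a242_1 a242_2 a242_3 q242 =>
  mulK c242 a242_1 a242_2 a242_3 q242 c234 a234_1 a234_2 a234_3 q234 fun c243 a243_1 a243_2 a243_3 q243 =>
  mulK c200 a200_1 a200_2 a200_3 q200 c243 a243_1 a243_2 a243_3 q243 fun c246 a246_1 a246_2 a246_3 q246 =>
  invK c225 a225_1 a225_2 a225_3 q225 fun c247 a247_1 a247_2 a247_3 q247 =>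
  mulK c217 a217_1 a217_2 a217_3 q217 c239 a239_1 a239_2 a239_3 q239 fun c248 a248_1 a248_2 a248_3 q248 =>
  smulK 1 4 4611686018427387908 1152921504606846976 c248 a248_1 a248_2 a248_3 q248 fun c249 a249_1 a249_2 a249_3 q249 =>
  smulK 1 2 2305843009213693954 1152921504606846976 c203 a203_1 a203_2 a203_3 q203 fun c251 a251_1 a251_2 a251_3 q251 =>
  addK c249 a249_1 a249_2 a249_3 q249 c251 a251_1 a251_2 a251_3 q251 fun c253 a253_1 a253_2 a253_3 q253 =>
  mulK c235 a235_1 a235_2 a235_3 q235 c253 a253_1 a253_2 a253_3 q253 fun c254 a254_1 a254_2 a254_3 q254 =>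
  mulK c254 a254_1 a254_2 a254_3 q254 c247 a247_1 a247_2 a247_3 q247 fun c255 a255_1 a255_2 a255_3 q255 =>
  addK c246 a246_1 a246_2 a246_3 q246 c255 a255_1 a255_2 a255_3 q255 fun c257 a257_1 a257_2 a257_3 q257 =>
  mulK c257 a257_1 a257_2 a257_3 q257 c231 a231_1 a231_2 a231_3 q231 fun c258 a258_1 a258_2 a258_3 q258 =>
  mulK p2 1152921504606846976 1152921504606846976 1152921504606846976 0 c258 a258_1 a258_2 a258_3 q258 fun c261 a261_1 a261_2 a261_3 q261 =>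
  addK c182 a182_1 a182_2 a182_3 q182 c1 a1_1 a1_2 a1_3 q1 fun c263 a263_1 a263_2 a263_3 q263 =>
  mulK c263 a263_1 a263_2 a263_3 q263 c149 a149_1 a149_2 a149_3 q149 fun c264 a264_1 a264_2 a264_3 q264 =>
  subK z2 1152921504606846976 (Nat.add w2 1152921504606846976) 1152921504606846976 0 c66 a66_1 a66_2 a66_3 q66 fun c265 a265_1 a265_2 a265_3 q265 =>
  mulK c265 a265_1 a265_2 a265_3 q265 c107 a107_1 a107_2 a107_3 q107 fun c266 a266_1 a266_2 a266_3 q266 =>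
  addK c126 a126_1 a126_2 a126_3 q126 c266 a266_1 a266_2 a266_3 q266 fun c267 a267_1 a267_2 a267_3 q267 =>
  mulK c25 a25_1 a25_2 a25_3 q25 c267 a267_1 a267_2 a267_3 q267 fun c269 a269_1 a269_2 a269_3 q269 =>
  addK c264 a264_1 a264_2 a264_3 q264 c269 a269_1 a269_2 a269_3 q269 fun c270 a270_1 a270_2 a270_3 q270 =>
  mulK c270 a270_1 a270_2 a270_3 q270 c188 a188_1 a188_2 a188_3 q188 fun c271 a271_1 a271_2 a271_3 q271 =>
  mulK c261 a261_1 a261_2 a261_3 q261 c271 a271_1 a271_2 a271_3 q271 fun c273 a273_1 a273_2 a273_3 q273 =>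
  addK c192 a192_1 a192_2 a192_3 q192 c273 a273_1 a273_2 a273_3 q273 fun c274 a274_1 a274_2 a274_3 q274 =>
  smulK 4 1 1152921504606846977 4611686018427387904 p1 1152921504606846976 1152921504606846976 1152921504606846976 0 fun c275 a275_1 a275_2 a275_3 q275 =>
  mulK c197 a197_1 a197_2 a197_3 q197 c275 a275_1 a275_2 a275_3 q275 fun c277 a277_1 a277_2 a277_3 q277 =>
  negK c277 a277_1 a277_2 a277_3 q277 fun c279 a279_1 a279_2 a279_3 q279 =>
  addcK c279 a279_1 a279_2 a279_3 q279 1152922604118474752 0 fun c280 a280_1 a280_2 a280_3 q280 =>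
  sqK z2 1152921504606846976 (Nat.add w2 1152921504606846976) 1152921504606846976 0 fun c283 a283_1 a283_2 a283_3 q283 =>
  mulK c283 a283_1 a283_2 a283_3 q283 z2 1152921504606846976 (Nat.add w2 1152921504606846976) 1152921504606846976 0 fun c286 a286_1 a286_2 a286_3 q286 =>
  addcK z2 1152921504606846976 (Nat.add w2 1152921504606846976) 1152921504606846976 0 1152922604118474752 0 fun c288 a288_1 a288_2 a288_3 q288 =>
  addK c288 a288_1 a288_2 a288_3 q288 c283 a283_1 a283_2 a283_3 q283 fun c290 a290_1 a290_2 a290_3 q290 =>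
  mulK c286 a286_1 a286_2 a286_3 q286 c146 a146_1 a146_2 a146_3 q146 fun c291 a291_1 a291_2 a291_3 q291 =>
  subK c290 a290_1 a290_2 a290_3 q290 c291 a291_1 a291_2 a291_3 q291 fun c292 a292_1 a292_2 a292_3 q292 =>
  invK c292 a292_1 a292_2 a292_3 q292 fun c294 a294_1 a294_2 a294_3 q294 =>
  addcK c146 a146_1 a146_2 a146_3 q146 1152922604118474752 0 fun c295 a295_1 a295_2 a295_3 q295 =>
  mulK c295 a295_1 a295_2 a295_3 q295 c294 a294_1 a294_2 a294_3 q294 fun c297 a297_1 a297_2 a297_3 q297 =>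
  mulK c286 a286_1 a286_2 a286_3 q286 c297 a297_1 a297_2 a297_3 q297 fun c300 a300_1 a300_2 a300_3 q300 =>
  mulK c280 a280_1 a280_2 a280_3 q280 c300 a300_1 a300_2 a300_3 q300 fun c302 a302_1 a302_2 a302_3 q302 =>
  subK c203 a203_1 a203_2 a203_3 q203 c302 a302_1 a302_2 a302_3 q302 fun c304 a304_1 a304_2 a304_3 q304 =>
  smulK 2 1 1152921504606846977 2305843009213693952 c304 a304_1 a304_2 a304_3 q304 fun c305 a305_1 a305_2 a305_3 q305 =>
  invK c305 a305_1 a305_2 a305_3 q305 fun c306 a306_1 a306_2 a306_3 q306 =>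
  sqK c280 a280_1 a280_2 a280_3 q280 fun c307 a307_1 a307_2 a307_3 q307 =>
  addcK c307 a307_1 a307_2 a307_3 q307 1152922604118474752 0 fun c309 a309_1 a309_2 a309_3 q309 =>
  negK c277 a277_1 a277_2 a277_3 q277 fun c311 a311_1 a311_2 a311_3 q311 =>
  addcK c311 a311_1 a311_2 a311_3 q311 1152923703630102528 0 fun c312 a312_1 a312_2 a312_3 q312 =>
  mulK c277 a277_1 a277_2 a277_3 q277 c312 a312_1 a312_2 a312_3 q312 fun c315 a315_1 a315_2 a315_3 q315 =>
  sqK c315 a315_1 a315_2 a315_3 q315 fun c317 a317_1 a317_2 a317_3 q317 =>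
  mulK c210 a210_1 a210_2 a210_3 q210 c317 a317_1 a317_2 a317_3 q317 fun c319 a319_1 a319_2 a319_3 q319 =>
  smulK 1 4 4611686018427387908 1152921504606846976 c319 a319_1 a319_2 a319_3 q319 fun c320 a320_1 a320_2 a320_3 q320 =>
  addK c307 a307_1 a307_2 a307_3 q307 c320 a320_1 a320_2 a320_3 q320 fun c322 a322_1 a322_2 a322_3 q322 =>
  sqrtK c322 a322_1 a322_2 a322_3 q322 fun c323 a323_1 a323_2 a323_3 q323 =>
  smulK 2 1 1152921504606846977 2305843009213693952 c323 a323_1 a323_2 a323_3 q323 fun c325 a325_1 a325_2 a325_3 q325 =>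
  addK c309 a309_1 a309_2 a309_3 q309 c325 a325_1 a325_2 a325_3 q325 fun c326 a326_1 a326_2 a326_3 q326 =>
  sqrtK c326 a326_1 a326_2 a326_3 q326 fun c327 a327_1 a327_2 a327_3 q327 =>
  invK c327 a327_1 a327_2 a327_3 q327 fun c329 a329_1 a329_2 a329_3 q329 =>
  addK c327 a327_1 a327_2 a327_3 q327 c312 a312_1 a312_2 a312_3 q312 fun c330 a330_1 a330_2 a330_3 q330 =>
  smulK 2 1 1152921504606846977 2305843009213693952 c330 a330_1 a330_2 a330_3 q330 fun c331 a331_1 a331_2 a331_3 q331 =>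
  invK c331 a331_1 a331_2 a331_3 q331 fun c332 a332_1 a332_2 a332_3 q332 =>
  mulK c210 a210_1 a210_2 a210_3 q210 c312 a312_1 a312_2 a312_3 q312 fun c333 a333_1 a333_2 a333_3 q333 =>
  mulK c333 a333_1 a333_2 a333_3 q333 c312 a312_1 a312_2 a312_3 q312 fun c335 a335_1 a335_2 a335_3 q335 =>
  addK c323 a323_1 a323_2 a323_3 q323 c280 a280_1 a280_2 a280_3 q280 fun c336 a336_1 a336_2 a336_3 q336 =>
  invK c336 a336_1 a336_2 a336_3 q336 fun c337 a337_1 a337_2 a337_3 q337 =>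
  mulK c335 a335_1 a335_2 a335_3 q335 c337 a337_1 a337_2 a337_3 q337 fun c340 a340_1 a340_2 a340_3 q340 =>
  mulK c340 a340_1 a340_2 a340_3 q340 c332 a332_1 a332_2 a332_3 q332 fun c341 a341_1 a341_2 a341_3 q341 =>
  mulK c277 a277_1 a277_2 a277_3 q277 c341 a341_1 a341_2 a341_3 q341 fun c344 a344_1 a344_2 a344_3 q344 =>
  invK c323 a323_1 a323_2 a323_3 q323 fun c345 a345_1 a345_2 a345_3 q345 =>
  mulK c315 a315_1 a315_2 a315_3 q315 c337 a337_1 a337_2 a337_3 q337 fun c346 a346_1 a346_2 a346_3 q346 =>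
  smulK 1 4 4611686018427387908 1152921504606846976 c346 a346_1 a346_2 a346_3 q346 fun c347 a347_1 a347_2 a347_3 q347 =>
  smulK 1 2 2305843009213693954 1152921504606846976 c280 a280_1 a280_2 a280_3 q280 fun c349 a349_1 a349_2 a349_3 q349 =>
  addK c347 a347_1 a347_2 a347_3 q347 c349 a349_1 a349_2 a349_3 q349 fun c351 a351_1 a351_2 a351_3 q351 =>
  mulK c333 a333_1 a333_2 a333_3 q333 c351 a351_1 a351_2 a351_3 q351 fun c352 a352_1 a352_2 a352_3 q352 =>
  mulK c352 a352_1 a352_2 a352_3 q352 c345 a345_1 a345_2 a345_3 q345 fun c353 a353_1 a353_2 a353_3 q353 =>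
  addK c344 a344_1 a344_2 a344_3 q344 c353 a353_1 a353_2 a353_3 q353 fun c355 a355_1 a355_2 a355_3 q355 =>
  mulK c355 a355_1 a355_2 a355_3 q355 c329 a329_1 a329_2 a329_3 q329 fun c356 a356_1 a356_2 a356_3 q356 =>
  mulK c275 a275_1 a275_2 a275_3 q275 c356 a356_1 a356_2 a356_3 q356 fun c359 a359_1 a359_2 a359_3 q359 =>
  subK c359 a359_1 a359_2 a359_3 q359 c261 a261_1 a261_2 a261_3 q261 fun c360 a360_1 a360_2 a360_3 q360 =>
  mulK c360 a360_1 a360_2 a360_3 q360 c306 a306_1 a306_2 a306_3 q306 fun c361 a361_1 a361_2 a361_3 q361 =>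
  mulK c203 a203_1 a203_2 a203_3 q203 c271 a271_1 a271_2 a271_3 q271 fun c364 a364_1 a364_2 a364_3 q364 =>
  smulK 2 1 1152921504606846977 2305843009213693952 c364 a364_1 a364_2 a364_3 q364 fun c365 a365_1 a365_2 a365_3 q365 =>
  subK c365 a365_1 a365_2 a365_3 q365 z2 1152921504606846976 (Nat.add w2 1152921504606846976) 1152921504606846976 0 fun c366 a366_1 a366_2 a366_3 q366 =>
  mulK c361 a361_1 a361_2 a361_3 q361 c366 a366_1 a366_2 a366_3 q366 fun c367 a367_1 a367_2 a367_3 q367 =>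
  addK c274 a274_1 a274_2 a274_3 q274 c367 a367_1 a367_2 a367_3 q367 fun c368 a368_1 a368_2 a368_3 q368 =>
  subK c149 a149_1 a149_2 a149_3 q149 c297 a297_1 a297_2 a297_3 q297 fun c369 a369_1 a369_2 a369_3 q369 =>
  negK c300 a300_1 a300_2 a300_3 q300 fun c370 a370_1 a370_2 a370_3 q370 =>
  addcK c370 a370_1 a370_2 a370_3 q370 1152922604118474752 0 fun c371 a371_1 a371_2 a371_3 q371 =>
  invK c371 a371_1 a371_2 a371_3 q371 fun c374 a374_1 a374_2 a374_3 q374 =>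
  mulK c369 a369_1 a369_2 a369_3 q369 c374 a374_1 a374_2 a374_3 q374 fun c377 a377_1 a377_2 a377_3 q377 =>
  sqK p2 1152921504606846976 1152921504606846976 1152921504606846976 0 fun c379 a379_1 a379_2 a379_3 q379 =>
  subK c258 a258_1 a258_2 a258_3 q258 c243 a243_1 a243_2 a243_3 q243 fun c382 a382_1 a382_2 a382_3 q382 =>
  mulK c197 a197_1 a197_2 a197_3 q197 c361 a361_1 a361_2 a361_3 q361 fun c383 a383_1 a383_2 a383_3 q383 =>
  subK c382 a382_1 a382_2 a382_3 q382 c383 a383_1 a383_2 a383_3 q383 fun c385 a385_1 a385_2 a385_3 q385 =>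
  mulK c379 a379_1 a379_2 a379_3 q379 c385 a385_1 a385_2 a385_3 q385 fun c387 a387_1 a387_2 a387_3 q387 =>
  mulK c377 a377_1 a377_2 a377_3 q377 c387 a387_1 a387_2 a387_3 q387 fun c389 a389_1 a389_2 a389_3 q389 =>
  subK c368 a368_1 a368_2 a368_3 q368 c389 a389_1 a389_2 a389_3 q389 fun c390 a390_1 a390_2 a390_3 q390 =>
  mulK c28 a28_1 a28_2 a28_3 q28 c295 a295_1 a295_2 a295_3 q295 fun c391 a391_1 a391_2 a391_3 q391 =>
  mulK c391 a391_1 a391_2 a391_3 q391 c374 a374_1 a374_2 a374_3 q374 fun c392 a392_1 a392_2 a392_3 q392 =>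
  sqK c275 a275_1 a275_2 a275_3 q275 fun c394 a394_1 a394_2 a394_3 q394 =>
  subK c356 a356_1 a356_2 a356_3 q356 c341 a341_1 a341_2 a341_3 q341 fun c397 a397_1 a397_2 a397_3 q397 =>
  mulK c383 a383_1 a383_2 a383_3 q383 c300 a300_1 a300_2 a300_3 q300 fun c399 a399_1 a399_2 a399_3 q399 =>
  subK c397 a397_1 a397_2 a397_3 q397 c399 a399_1 a399_2 a399_3 q399 fun c400 a400_1 a400_2 a400_3 q400 =>
  mulK c394 a394_1 a394_2 a394_3 q394 c400 a400_1 a400_2 a400_3 q400 fun c401 a401_1 a401_2 a401_3 q401 =>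
  mulK c392 a392_1 a392_2 a392_3 q392 c401 a401_1 a401_2 a401_3 q401 fun c402 a402_1 a402_2 a402_3 q402 =>
  subK c390 a390_1 a390_2 a390_3 q390 c402 a402_1 a402_2 a402_3 q402 fun c403 a403_1 a403_2 a403_3 q403 =>
  posK c403 a403_1 a403_2 a403_3 q403 <|
  posK c385 a385_1 a385_2 a385_3 q385 <|
  posK c361 a361_1 a361_2 a361_3 q361 <|
  smulK 2 1 1152921504606846977 2305843009213693952 c302 a302_1 a302_2 a302_3 q302 fun c404 a404_1 a404_2 a404_3 q404 =>
  subK c312 a312_1 a312_2 a312_3 q312 c404 a404_1 a404_2 a404_3 q404 fun c405 a405_1 a405_2 a405_3 q405 =>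
  mulK c361 a361_1 a361_2 a361_3 q361 c405 a405_1 a405_2 a405_3 q405 fun c406 a406_1 a406_2 a406_3 q406 =>
  mulK c275 a275_1 a275_2 a275_3 q275 c406 a406_1 a406_2 a406_3 q406 fun c407 a407_1 a407_2 a407_3 q407 =>
  addK c387 a387_1 a387_2 a387_3 q387 c407 a407_1 a407_2 a407_3 q407 fun c408 a408_1 a408_2 a408_3 q408 =>
  mulK c394 a394_1 a394_2 a394_3 q394 c397 a397_1 a397_2 a397_3 q397 fun c409 a409_1 a409_2 a409_3 q409 =>
  subK c408 a408_1 a408_2 a408_3 q408 c409 a409_1 a409_2 a409_3 q409 fun c410 a410_1 a410_2 a410_3 q410 =>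
  posK c410 a410_1 a410_2 a410_3 q410 <|
  posK c280 a280_1 a280_2 a280_3 q280 <|
  posK c304 a304_1 a304_2 a304_3 q304 <|
  mulK c200 a200_1 a200_2 a200_3 q200 c258 a258_1 a258_2 a258_3 q258 fun c412 a412_1 a412_2 a412_3 q412 =>
  negK c412 a412_1 a412_2 a412_3 q412 fun c413 a413_1 a413_2 a413_3 q413 =>
  addcK c413 a413_1 a413_2 a413_3 q413 1152922604118474752 0 fun c414 a414_1 a414_2 a414_3 q414 =>
  mulK c383 a383_1 a383_2 a383_3 q383 c203 a203_1 a203_2 a203_3 q203 fun c416 a416_1 a416_2 a416_3 q416 =>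
  smulK 2 1 1152921504606846977 2305843009213693952 c416 a416_1 a416_2 a416_3 q416 fun c417 a417_1 a417_2 a417_3 q417 =>
  subK c414 a414_1 a414_2 a414_3 q414 c417 a417_1 a417_2 a417_3 q417 fun c418 a418_1 a418_2 a418_3 q418 =>
  posK c418 a418_1 a418_2 a418_3 q418 <|
  mulK c361 a361_1 a361_2 a361_3 q361 c312 a312_1 a312_2 a312_3 q312 fun c419 a419_1 a419_2 a419_3 q419 =>
  mulK c275 a275_1 a275_2 a275_3 q275 c419 a419_1 a419_2 a419_3 q419 fun c420 a420_1 a420_2 a420_3 q420 =>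
  mulK c420 a420_1 a420_2 a420_3 q420 c371 a371_1 a371_2 a371_3 q371 fun c421 a421_1 a421_2 a421_3 q421 =>
  addcK c300 a300_1 a300_2 a300_3 q300 1152922604118474752 0 fun c422 a422_1 a422_2 a422_3 q422 =>
  mulK c410 a410_1 a410_2 a410_3 q410 c422 a422_1 a422_2 a422_3 q422 fun c424 a424_1 a424_2 a424_3 q424 =>
  subK c421 a421_1 a421_2 a421_3 q421 c424 a424_1 a424_2 a424_3 q424 fun c425 a425_1 a425_2 a425_3 q425 =>
  posK c425 a425_1 a425_2 a425_3 q425 <|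
  posK p2 1152921504606846976 1152921504606846976 1152921504606846976 0 <|
  posK c275 a275_1 a275_2 a275_3 q275 <|
  posK c371 a371_1 a371_2 a371_3 q371 <|
  posK c297 a297_1 a297_2 a297_3 q297 <|
  pos c292 a292_1 a292_2 a292_3 q292

theorem alt0_s {p1 p2 z1 w1 z2 w2 z3 w3 : ℕ} {e1 e2 e3 s u x pa pb : ℝ} (he : Ev e1 e2 e3)
    (hp1 : In e1 e2 e3 p1 1152921504606846976 1152921504606846976 1152921504606846976 0 pa)
    (hp2 : In e1 e2 e3 p2 1152921504606846976 1152921504606846976 1152921504606846976 0 pb)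
    (hx1 : In e1 e2 e3 z1 (Nat.add w1 1152921504606846976) 1152921504606846976 1152921504606846976 0 s)
    (hx2 : In e1 e2 e3 z2 1152921504606846976 (Nat.add w2 1152921504606846976) 1152921504606846976 0 u)
    (hx3 : In e1 e2 e3 z3 1152921504606846976 1152921504606846976 (Nat.add w3 1152921504606846976) 0 x)
    (H0 : alt0 p1 p2 z1 w1 z2 w2 z3 w3 = true) : 0 < (((((nD2 s u x pa pb) + ((ZG1 s u x pa pb) * (D1 s u x pa pb))) + ((mu s u x pa pb) * (((2:ℝ) * ((t1 s u x pa pb) * (D1 s u x pa pb))) - u))) - ((wt s u x pa pb) * (Zf s u x pa pb))) - ((wb s u x pa pb) * ((Zq0 s u x pa pb) * ((L0 s u x pa pb) - ((em s u x pa pb) * (v0 s u x pa pb)))))) ∧ 0 < (f1 s u x pa pb) ∧ 0 < (mu s u x pa pb) ∧ 0 < (Xn s u x pa pb) ∧ 0 < (t0 s u x pa pb) ∧ 0 < ((t1 s u x pa pb) - (uA s u x pa pb)) ∧ 0 < (((1:ℝ) - ((vz1 s u x pa pb) * (G1 s u x pa pb))) - ((2:ℝ) * ((em s u x pa pb) * (t1 s u x pa pb)))) ∧ 0 < ((((Z0 s u x pa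 pb) * ((mu s u x pa pb) * (tp0 s u x pa pb))) * (vb s u x pa pb)) - ((Xn s u x pa pb) * ((1:ℝ) + (v0 s u x pa pb)))) ∧ 0 < (Z1 s u x pa pb) ∧ 0 < (Z0 s u x pa pb) ∧ 0 < (vb s u x pa pb) ∧ 0 < (n0v s u x pa pb) ∧ 0 < (den s u x pa pb) := by
  unfold alt0 at H0
  refine sqK_s he hx3 (fun _ _ _ _ _ h1 H1 => ?_) H0
  have h2 := In_cast h1 (sq _)
  have h3 := In_cast (w := (x2 s u x pa pb)) h2 rfl
  refine sqK_s he h3 (fun _ _ _ _ _ h4 H2 => ?_) H1
  have h5 := In_cast h4 (sq _)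
  have h6 := In_cast (w := (x4 s u x pa pb)) h5 rfl
  refine addcK_s he h6 (v' := (1:ℝ)) (by norm_num [SS, BB, abs_le]) (fun _ _ _ _ _ h7 H3 => ?_) H2
  have h8 := In_cast h7 (add_comm _ _)
  refine smulK_s he (w := (1/2:ℝ)) (by norm_num) (by norm_num) (by norm_num) (by norm_num) h8 (fun _ _ _ _ _ h9 H4 => ?_) H3
  have h10 := In_cast h9 (div_c (c := (2:ℝ)) (by norm_num))
  refine sqrtK_s he h10 (fun _ _ _ _ _ h11 H5 => ?_) H4
  have h12 := In_cast (w := (m2 s u x pa pb)) h11 rfl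
  refine sqrtK_s he h12 (fun _ _ _ _ _ h13 H6 => ?_) H5
  have h14 := In_cast (w := (m s u x pa pb)) h13 rfl
  refine addcK_s he h14 (v' := (1:ℝ)) (by norm_num [SS, BB, abs_le]) (fun _ _ _ _ _ h15 H7 => ?_) H6
  have h16 := In_cast h15 (add_comm _ _)
  refine addcK_s he h12 (v' := (1:ℝ)) (by norm_num [SS, BB, abs_le]) (fun _ _ _ _ _ h17 H8 => ?_) H7
  have h18 := In_cast h17 (add_comm _ _)
  refine mulK_s he h16 h18 (fun _ _ _ _ _ h19 H9 => ?_) H8
  have h20 := In_cast (w := (h3m s u x pa pb)) h19 rfl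
  refine smulK_s he (w := (2:ℝ)) (by norm_num) (by norm_num) (by norm_num) (by norm_num) h20 (fun _ _ _ _ _ h21 H10 => ?_) H9
  refine invK_s he h21 (fun _ _ _ _ _ h22 H11 => ?_) H10
  refine mulK_s he h3 hx3 (fun _ _ _ _ _ h23 H12 => ?_) H11
  have h24 := In_cast (w := (x3 s u x pa pb)) h23 rfl
  refine mulK_s he h24 hx2 (fun _ _ _ _ _ h25 H13 => ?_) H12
  have h26 := In_cast (w := (x3u s u x pa pb)) h25 rfl
  refine negK_s he hx2 (fun _ _ _ _ _ h27 H14 => ?_) H13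
  refine addcK_s he h27 (v' := (1:ℝ)) (by norm_num [SS, BB, abs_le]) (fun _ _ _ _ _ h28 H15 => ?_) H14
  have h29 := In_cast h28 (neg_add_eq_sub _ _)
  have h30 := In_cast (w := (ub s u x pa pb)) h29 rfl
  refine addcK_s he hx1 (v' := (-169/250:ℝ)) (by norm_num [SS, BB, abs_le]) (fun _ _ _ _ _ h31 H16 => ?_) H15
  have h32 := In_cast h31 (sub_c (c := (169/250:ℝ)) (by norm_num))
  refine smulK_s he (w := (250/19:ℝ)) (by norm_num) (by norm_num) (by norm_num) (by norm_num) h32 (fun _ _ _ _ _ h33 H17 => ?_) H16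
  have h34 := In_cast h33 (mul_comm _ _)
  have h35 := In_cast (w := (sg s u x pa pb)) h34 rfl
  refine smulK_s he (w := (1857/100000:ℝ)) (by norm_num) (by norm_num) (by norm_num) (by norm_num) h35 (fun _ _ _ _ _ h36 H18 => ?_) H17
  refine negK_s he h36 (fun _ _ _ _ _ h37 H19 => ?_) H18
  have h38 := In_cast h37 (neg_mul_c (c := (-1857/100000:ℝ)) (by norm_num))
  refine addcK_s he h38 (v' := (5401/100000:ℝ)) (by norm_num [SS, BB, abs_le]) (fun _ _ _ _ _ h39 H20 => ?_) H19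
  have h40 := In_cast (w := (c2 s u x pa pb)) h39 rfl
  refine mulK_s he hx2 hx3 (fun _ _ _ _ _ h41 H21 => ?_) H20
  refine smulK_s he (w := (2:ℝ)) (by norm_num) (by norm_num) (by norm_num) (by norm_num) h41 (fun _ _ _ _ _ h42 H22 => ?_) H21
  refine addcK_s he h42 (v' := (-1:ℝ)) (by norm_num [SS, BB, abs_le]) (fun _ _ _ _ _ h43 H23 => ?_) H22
  have h44 := In_cast h43 (sub_c (c := (1:ℝ)) (by norm_num))
  have h45 := In_cast (w := (T0 s u x pa pb)) h44 rfl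
  refine smulK_s he (w := (7163/50000:ℝ)) (by norm_num) (by norm_num) (by norm_num) (by norm_num) h35 (fun _ _ _ _ _ h46 H24 => ?_) H23
  refine addcK_s he h46 (v' := (4733/25000:ℝ)) (by norm_num [SS, BB, abs_le]) (fun _ _ _ _ _ h47 H25 => ?_) H24
  have h48 := In_cast (w := (c3 s u x pa pb)) h47 rfl
  refine smulK_s he (w := (5377/20000:ℝ)) (by norm_num) (by norm_num) (by norm_num) (by norm_num) h35 (fun _ _ _ _ _ h49 H26 => ?_) H25
  refine negK_s he h49 (fun _ _ _ _ _ h50 H27 => ?_) H26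
  have h51 := In_cast h50 (neg_mul_c (c := (-5377/20000:ℝ)) (by norm_num))
  refine addcK_s he h51 (v' := (-2087/6250:ℝ)) (by norm_num [SS, BB, abs_le]) (fun _ _ _ _ _ h52 H28 => ?_) H27
  have h53 := In_cast (w := (c4 s u x pa pb)) h52 rfl
  refine smulK_s he (w := (9301/50000:ℝ)) (by norm_num) (by norm_num) (by norm_num) (by norm_num) h35 (fun _ _ _ _ _ h54 H29 => ?_) H28
  refine addcK_s he h54 (v' := (31317/100000:ℝ)) (by norm_num [SS, BB, abs_le]) (fun _ _ _ _ _ h55 H30 => ?_) H29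
  have h56 := In_cast (w := (c5 s u x pa pb)) h55 rfl
  refine mulK_s he h45 h56 (fun _ _ _ _ _ h57 H31 => ?_) H30
  refine addK_s he h53 h57 (fun _ _ _ _ _ h58 H32 => ?_) H31
  have h59 := In_cast (w := (a4 s u x pa pb)) h58 rfl
  refine mulK_s he h45 h59 (fun _ _ _ _ _ h60 H33 => ?_) H32
  refine addK_s he h48 h60 (fun _ _ _ _ _ h61 H34 => ?_) H33
  have h62 := In_cast (w := (a3 s u x pa pb)) h61 rfl
  refine mulK_s he h45 h62 (fun _ _ _ _ _ h63 H35 => ?_) H34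
  refine addK_s he h40 h63 (fun _ _ _ _ _ h64 H36 => ?_) H35
  have h65 := In_cast (w := (a2 s u x pa pb)) h64 rfl
  refine mulK_s he hx2 h14 (fun _ _ _ _ _ h66 H37 => ?_) H36
  refine smulK_s he (w := (2:ℝ)) (by norm_num) (by norm_num) (by norm_num) (by norm_num) h66 (fun _ _ _ _ _ h67 H38 => ?_) H37
  refine addcK_s he h67 (v' := (-1:ℝ)) (by norm_num [SS, BB, abs_le]) (fun _ _ _ _ _ h68 H39 => ?_) H38
  have h69 := In_cast h68 (sub_c (c := (1:ℝ)) (by norm_num))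
  have h70 := In_cast (w := (T1 s u x pa pb)) h69 rfl
  refine mulK_s he h70 h56 (fun _ _ _ _ _ h71 H40 => ?_) H39
  refine addK_s he h59 h71 (fun _ _ _ _ _ h72 H41 => ?_) H40
  have h73 := In_cast (w := (b3 s u x pa pb)) h72 rfl
  refine mulK_s he h70 h73 (fun _ _ _ _ _ h74 H42 => ?_) H41
  refine addK_s he h62 h74 (fun _ _ _ _ _ h75 H43 => ?_) H42
  have h76 := In_cast (w := (b2 s u x pa pb)) h75 rfl
  refine mulK_s he h70 h76 (fun _ _ _ _ _ h77 H44 => ?_) H43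
  refine addK_s he h65 h77 (fun _ _ _ _ _ h78 H45 => ?_) H44
  have h79 := In_cast (w := (b1 s u x pa pb)) h78 rfl
  refine smulK_s he (w := (2:ℝ)) (by norm_num) (by norm_num) (by norm_num) (by norm_num) hx2 (fun _ _ _ _ _ h80 H46 => ?_) H45
  refine addcK_s he h80 (v' := (-1:ℝ)) (by norm_num [SS, BB, abs_le]) (fun _ _ _ _ _ h81 H47 => ?_) H46
  have h82 := In_cast h81 (sub_c (c := (1:ℝ)) (by norm_num))
  have h83 := In_cast (w := (T2 s u x pa pb)) h82 rfl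
  refine mulK_s he h83 h56 (fun _ _ _ _ _ h84 H48 => ?_) H47
  refine addK_s he h73 h84 (fun _ _ _ _ _ h85 H49 => ?_) H48
  have h86 := In_cast (w := (ve2 s u x pa pb)) h85 rfl
  refine mulK_s he h83 h86 (fun _ _ _ _ _ h87 H50 => ?_) H49
  refine addK_s he h76 h87 (fun _ _ _ _ _ h88 H51 => ?_) H50
  have h89 := In_cast (w := (ve1 s u x pa pb)) h88 rfl
  refine mulK_s he h83 h89 (fun _ _ _ _ _ h90 H52 => ?_) H51
  refine addK_s he h79 h90 (fun _ _ _ _ _ h91 H53 => ?_) H52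
  have h92 := In_cast (w := (q012 s u x pa pb)) h91 rfl
  refine smulK_s he (w := (4:ℝ)) (by norm_num) (by norm_num) (by norm_num) (by norm_num) h92 (fun _ _ _ _ _ h93 H54 => ?_) H53
  refine mulK_s he h30 h93 (fun _ _ _ _ _ h94 H55 => ?_) H54
  refine smulK_s he (w := (7993/50000:ℝ)) (by norm_num) (by norm_num) (by norm_num) (by norm_num) h35 (fun _ _ _ _ _ h95 H56 => ?_) H55
  refine negK_s he h95 (fun _ _ _ _ _ h96 H57 => ?_) H56
  have h97 := In_cast h96 (neg_mul_c (c := (-7993/50000:ℝ)) (by norm_num))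
  refine addcK_s he h97 (v' := (-1911/25000:ℝ)) (by norm_num [SS, BB, abs_le]) (fun _ _ _ _ _ h98 H58 => ?_) H57
  have h99 := In_cast (w := (c1 s u x pa pb)) h98 rfl
  refine mulK_s he h45 h65 (fun _ _ _ _ _ h100 H59 => ?_) H58
  refine addK_s he h99 h100 (fun _ _ _ _ _ h101 H60 => ?_) H59
  have h102 := In_cast (w := (a1 s u x pa pb)) h101 rfl
  refine mulK_s he h70 h79 (fun _ _ _ _ _ h103 H61 => ?_) H60
  refine addK_s he h102 h103 (fun _ _ _ _ _ h104 H62 => ?_) H61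
  have h105 := In_cast (w := (q01 s u x pa pb)) h104 rfl
  refine smulK_s he (w := (2:ℝ)) (by norm_num) (by norm_num) (by norm_num) (by norm_num) h105 (fun _ _ _ _ _ h106 H63 => ?_) H62
  refine subK_s he h94 h106 (fun _ _ _ _ _ h107 H64 => ?_) H63
  have h108 := In_cast (w := (R012 s u x pa pb)) h107 rfl
  refine mulK_s he hx2 h108 (fun _ _ _ _ _ h109 H65 => ?_) H64
  refine mulK_s he h26 h109 (fun _ _ _ _ _ h110 H66 => ?_) H65
  refine mulK_s he hx3 h14 (fun _ _ _ _ _ h111 H67 => ?_) H66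
  refine addK_s he h3 h111 (fun _ _ _ _ _ h112 H68 => ?_) H67
  refine addK_s he h112 h12 (fun _ _ _ _ _ h113 H69 => ?_) H68
  have h114 := In_cast (w := (h2xm s u x pa pb)) h113 rfl
  have h115 := In_cast (w := (y1 s u x pa pb)) h66 rfl
  refine negK_s he h115 (fun _ _ _ _ _ h116 H70 => ?_) H69
  refine addcK_s he h116 (v' := (1:ℝ)) (by norm_num [SS, BB, abs_le]) (fun _ _ _ _ _ h117 H71 => ?_) H70
  have h118 := In_cast h117 (neg_add_eq_sub _ _)
  refine mulK_s he h118 h106 (fun _ _ _ _ _ h119 H72 => ?_) H71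
  refine smulK_s he (w := (6509/25000:ℝ)) (by norm_num) (by norm_num) (by norm_num) (by norm_num) h35 (fun _ _ _ _ _ h120 H73 => ?_) H72
  refine addcK_s he h120 (v' := (53193/100000:ℝ)) (by norm_num [SS, BB, abs_le]) (fun _ _ _ _ _ h121 H74 => ?_) H73
  have h122 := In_cast (w := (c0 s u x pa pb)) h121 rfl
  refine mulK_s he h45 h102 (fun _ _ _ _ _ h123 H75 => ?_) H74
  refine addK_s he h122 h123 (fun _ _ _ _ _ h124 H76 => ?_) H75
  have h125 := In_cast (w := (Q0 s u x pa pb)) h124 rfl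
  refine subK_s he h119 h125 (fun _ _ _ _ _ h126 H77 => ?_) H76
  have h127 := In_cast (w := (R01 s u x pa pb)) h126 rfl
  have h128 := In_cast (w := (y0 s u x pa pb)) h41 rfl
  refine subK_s he hx2 h128 (fun _ _ _ _ _ h129 H78 => ?_) H77
  refine mulK_s he h129 h108 (fun _ _ _ _ _ h130 H79 => ?_) H78
  refine addK_s he h127 h130 (fun _ _ _ _ _ h131 H80 => ?_) H79
  have h132 := In_cast (w := (R12 s u x pa pb)) h131 rfl
  refine mulK_s he hx2 h132 (fun _ _ _ _ _ h133 H81 => ?_) H80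
  refine mulK_s he h114 h133 (fun _ _ _ _ _ h134 H82 => ?_) H81
  refine addK_s he h110 h134 (fun _ _ _ _ _ h135 H83 => ?_) H82
  refine addK_s he hx3 h14 (fun _ _ _ _ _ h136 H84 => ?_) H83
  refine addcK_s he h136 (v' := (1:ℝ)) (by norm_num [SS, BB, abs_le]) (fun _ _ _ _ _ h137 H85 => ?_) H84
  refine addK_s he h53 h84 (fun _ _ _ _ _ h138 H86 => ?_) H85
  refine mulK_s he h83 h138 (fun _ _ _ _ _ h139 H87 => ?_) H86
  refine addK_s he h48 h139 (fun _ _ _ _ _ h140 H88 => ?_) H87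
  refine mulK_s he h83 h140 (fun _ _ _ _ _ h141 H89 => ?_) H88
  refine addK_s he h40 h141 (fun _ _ _ _ _ h142 H90 => ?_) H89
  refine mulK_s he h83 h142 (fun _ _ _ _ _ h143 H91 => ?_) H90
  refine addK_s he h99 h143 (fun _ _ _ _ _ h144 H92 => ?_) H91
  refine mulK_s he h83 h144 (fun _ _ _ _ _ h145 H93 => ?_) H92
  refine addK_s he h122 h145 (fun _ _ _ _ _ h146 H94 => ?_) H93
  have h147 := In_cast (w := (Q2 s u x pa pb)) h146 rfl
  refine mulK_s he h30 h147 (fun _ _ _ _ _ h148 H95 => ?_) H94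
  refine addcK_s he h148 (v' := (1:ℝ)) (by norm_num [SS, BB, abs_le]) (fun _ _ _ _ _ h149 H96 => ?_) H95
  have h150 := In_cast h149 (add_comm _ _)
  have h151 := In_cast (w := (R2 s u x pa pb)) h150 rfl
  refine mulK_s he h137 h151 (fun _ _ _ _ _ h152 H97 => ?_) H96
  refine addK_s he h135 h152 (fun _ _ _ _ _ h153 H98 => ?_) H97
  have h154 := In_cast (w := (P012 s u x pa pb)) h153 rfl
  refine addK_s he h3 h12 (fun _ _ _ _ _ h155 H99 => ?_) H98
  refine mulK_s he h136 h155 (fun _ _ _ _ _ h156 H100 => ?_) H99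
  have h157 := In_cast (w := (h3xm s u x pa pb)) h156 rfl
  refine invK_s he h157 (fun _ _ _ _ _ h158 H101 => ?_) H100
  refine mulK_s he h26 h127 (fun _ _ _ _ _ h159 H102 => ?_) H101
  refine negK_s he h128 (fun _ _ _ _ _ h160 H103 => ?_) H102
  refine addcK_s he h160 (v' := (1:ℝ)) (by norm_num [SS, BB, abs_le]) (fun _ _ _ _ _ h161 H104 => ?_) H103
  have h162 := In_cast h161 (neg_add_eq_sub _ _)
  refine mulK_s he h162 h125 (fun _ _ _ _ _ h163 H105 => ?_) H104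
  refine addcK_s he h163 (v' := (1:ℝ)) (by norm_num [SS, BB, abs_le]) (fun _ _ _ _ _ h164 H106 => ?_) H105
  have h165 := In_cast h164 (add_comm _ _)
  have h166 := In_cast (w := (R0 s u x pa pb)) h165 rfl
  refine subK_s he h115 h128 (fun _ _ _ _ _ h167 H107 => ?_) H106
  refine mulK_s he h167 h127 (fun _ _ _ _ _ h168 H108 => ?_) H107
  refine addK_s he h166 h168 (fun _ _ _ _ _ h169 H109 => ?_) H108
  have h170 := In_cast (w := (R1 s u x pa pb)) h169 rfl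
  refine mulK_s he h114 h170 (fun _ _ _ _ _ h171 H110 => ?_) H109
  refine addK_s he h159 h171 (fun _ _ _ _ _ h172 H111 => ?_) H110
  have h173 := In_cast (w := (P01 s u x pa pb)) h172 rfl
  refine addK_s he h114 hx3 (fun _ _ _ _ _ h174 H112 => ?_) H111
  refine addK_s he h174 h14 (fun _ _ _ _ _ h175 H113 => ?_) H112
  refine addcK_s he h175 (v' := (1:ℝ)) (by norm_num [SS, BB, abs_le]) (fun _ _ _ _ _ h176 H114 => ?_) H113
  have h177 := In_cast (w := (h2t s u x pa pb)) h176 rfl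
  refine mulK_s he h173 h177 (fun _ _ _ _ _ h178 H115 => ?_) H114
  refine mulK_s he h178 h158 (fun _ _ _ _ _ h179 H116 => ?_) H115
  have h180 := In_cast h179 ((div_eq_mul_inv _ _).symm)
  refine subK_s he h154 h180 (fun _ _ _ _ _ h181 H117 => ?_) H116
  refine addcK_s he hx3 (v' := (1:ℝ)) (by norm_num [SS, BB, abs_le]) (fun _ _ _ _ _ h182 H118 => ?_) H117
  have h183 := In_cast h182 (add_comm _ _)
  refine addcK_s he h3 (v' := (1:ℝ)) (by norm_num [SS, BB, abs_le]) (fun _ _ _ _ _ h184 H119 => ?_) H118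
  have h185 := In_cast h184 (add_comm _ _)
  refine mulK_s he h183 h185 (fun _ _ _ _ _ h186 H120 => ?_) H119
  have h187 := In_cast (w := (h3x s u x pa pb)) h186 rfl
  refine invK_s he h187 (fun _ _ _ _ _ h188 H121 => ?_) H120
  have h189 := In_cast h188 (inv_eq_one_div _)
  have h190 := In_cast (w := (ix s u x pa pb)) h189 rfl
  refine mulK_s he h181 h190 (fun _ _ _ _ _ h191 H122 => ?_) H121
  refine mulK_s he h191 h22 (fun _ _ _ _ _ h192 H123 => ?_) H122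
  have h193 := In_cast h192 ((div_eq_mul_inv _ _).symm)
  have h194 := In_cast (w := (nD2 s u x pa pb)) h193 rfl
  have h195 := In_cast (w := (Z1 s u x pa pb)) hp2 rfl
  refine negK_s he h6 (fun _ _ _ _ _ h196 H124 => ?_) H123
  refine addcK_s he h196 (v' := (1:ℝ)) (by norm_num [SS, BB, abs_le]) (fun _ _ _ _ _ h197 H125 => ?_) H124
  have h198 := In_cast h197 (neg_add_eq_sub _ _)
  have h199 := In_cast (w := (ep s u x pa pb)) h198 rfl
  refine mulK_s he h199 h195 (fun _ _ _ _ _ h200 H126 => ?_) H125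
  have h201 := In_cast (w := (vz1 s u x pa pb)) h200 rfl
  refine negK_s he h201 (fun _ _ _ _ _ h202 H127 => ?_) H126
  refine addcK_s he h202 (v' := (1:ℝ)) (by norm_num [SS, BB, abs_le]) (fun _ _ _ _ _ h203 H128 => ?_) H127
  have h204 := In_cast h203 (neg_add_eq_sub _ _)
  have h205 := In_cast (w := (t1 s u x pa pb)) h204 rfl
  refine sqK_s he h205 (fun _ _ _ _ _ h206 H129 => ?_) H128
  have h207 := In_cast h206 (sq _)
  refine addcK_s he h207 (v' := (1:ℝ)) (by norm_num [SS, BB, abs_le]) (fun _ _ _ _ _ h208 H130 => ?_) H129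
  have h209 := In_cast h208 (add_comm _ _)
  refine sqK_s he hx1 (fun _ _ _ _ _ h210 H131 => ?_) H130
  have h211 := In_cast h210 (sq _)
  have h212 := In_cast (w := (s2 s u x pa pb)) h211 rfl
  refine negK_s he h201 (fun _ _ _ _ _ h213 H132 => ?_) H131
  refine addcK_s he h213 (v' := (2:ℝ)) (by norm_num [SS, BB, abs_le]) (fun _ _ _ _ _ h214 H133 => ?_) H132
  have h215 := In_cast h214 (neg_add_eq_sub _ _)
  have h216 := In_cast (w := (tp1 s u x pa pb)) h215 rfl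
  refine mulK_s he h201 h216 (fun _ _ _ _ _ h217 H134 => ?_) H133
  have h218 := In_cast (w := (vw1 s u x pa pb)) h217 rfl
  refine sqK_s he h218 (fun _ _ _ _ _ h219 H135 => ?_) H134
  have h220 := In_cast h219 (sq _)
  refine mulK_s he h212 h220 (fun _ _ _ _ _ h221 H136 => ?_) H135
  refine smulK_s he (w := (1/4:ℝ)) (by norm_num) (by norm_num) (by norm_num) (by norm_num) h221 (fun _ _ _ _ _ h222 H137 => ?_) H136
  have h223 := In_cast h222 (div_c (c := (4:ℝ)) (by norm_num))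
  refine addK_s he h207 h223 (fun _ _ _ _ _ h224 H138 => ?_) H137
  refine sqrtK_s he h224 (fun _ _ _ _ _ h225 H139 => ?_) H138
  have h226 := In_cast (w := (QQ1 s u x pa pb)) h225 rfl
  refine smulK_s he (w := (2:ℝ)) (by norm_num) (by norm_num) (by norm_num) (by norm_num) h226 (fun _ _ _ _ _ h227 H140 => ?_) H139
  refine addK_s he h209 h227 (fun _ _ _ _ _ h228 H141 => ?_) H140
  refine sqrtK_s he h228 (fun _ _ _ _ _ h229 H142 => ?_) H141
  have h230 := In_cast (w := (g1 s u x pa pb)) h229 rfl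
  refine invK_s he h230 (fun _ _ _ _ _ h231 H143 => ?_) H142
  refine addK_s he h230 h216 (fun _ _ _ _ _ h232 H144 => ?_) H143
  refine smulK_s he (w := (2:ℝ)) (by norm_num) (by norm_num) (by norm_num) (by norm_num) h232 (fun _ _ _ _ _ h233 H145 => ?_) H144
  refine invK_s he h233 (fun _ _ _ _ _ h234 H146 => ?_) H145
  refine mulK_s he h212 h216 (fun _ _ _ _ _ h235 H147 => ?_) H146
  have h236 := In_cast (w := (st1 s u x pa pb)) h235 rfl
  refine mulK_s he h236 h216 (fun _ _ _ _ _ h237 H148 => ?_) H147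
  refine addK_s he h226 h205 (fun _ _ _ _ _ h238 H149 => ?_) H148
  refine invK_s he h238 (fun _ _ _ _ _ h239 H150 => ?_) H149
  have h240 := In_cast h239 (inv_eq_one_div _)
  have h241 := In_cast (w := (iq1 s u x pa pb)) h240 rfl
  refine mulK_s he h237 h241 (fun _ _ _ _ _ h242 H151 => ?_) H150
  refine mulK_s he h242 h234 (fun _ _ _ _ _ h243 H152 => ?_) H151
  have h244 := In_cast h243 ((div_eq_mul_inv _ _).symm)
  have h245 := In_cast (w := (mm1 s u x pa pb)) h244 rfl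
  refine mulK_s he h201 h245 (fun _ _ _ _ _ h246 H153 => ?_) H152
  refine invK_s he h226 (fun _ _ _ _ _ h247 H154 => ?_) H153
  refine mulK_s he h218 h241 (fun _ _ _ _ _ h248 H155 => ?_) H154
  refine smulK_s he (w := (1/4:ℝ)) (by norm_num) (by norm_num) (by norm_num) (by norm_num) h248 (fun _ _ _ _ _ h249 H156 => ?_) H155
  have h250 := In_cast h249 (div_c (c := (4:ℝ)) (by norm_num))
  refine smulK_s he (w := (1/2:ℝ)) (by norm_num) (by norm_num) (by norm_num) (by norm_num) h205 (fun _ _ _ _ _ h251 H157 => ?_) H156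
  have h252 := In_cast h251 (div_c (c := (2:ℝ)) (by norm_num))
  refine addK_s he h250 h252 (fun _ _ _ _ _ h253 H158 => ?_) H157
  refine mulK_s he h236 h253 (fun _ _ _ _ _ h254 H159 => ?_) H158
  refine mulK_s he h254 h247 (fun _ _ _ _ _ h255 H160 => ?_) H159
  have h256 := In_cast h255 ((div_eq_mul_inv _ _).symm)
  refine addK_s he h246 h256 (fun _ _ _ _ _ h257 H161 => ?_) H160
  refine mulK_s he h257 h231 (fun _ _ _ _ _ h258 H162 => ?_) H161
  have h259 := In_cast h258 ((div_eq_mul_inv _ _).symm)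
  have h260 := In_cast (w := (G1 s u x pa pb)) h259 rfl
  refine mulK_s he h195 h260 (fun _ _ _ _ _ h261 H163 => ?_) H162
  have h262 := In_cast (w := (ZG1 s u x pa pb)) h261 rfl
  refine addK_s he h183 h3 (fun _ _ _ _ _ h263 H164 => ?_) H163
  refine mulK_s he h263 h151 (fun _ _ _ _ _ h264 H165 => ?_) H164
  refine subK_s he hx2 h115 (fun _ _ _ _ _ h265 H166 => ?_) H165
  refine mulK_s he h265 h108 (fun _ _ _ _ _ h266 H167 => ?_) H166
  refine addK_s he h127 h266 (fun _ _ _ _ _ h267 H168 => ?_) H167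
  have h268 := In_cast (w := (R02 s u x pa pb)) h267 rfl
  refine mulK_s he h26 h268 (fun _ _ _ _ _ h269 H169 => ?_) H168
  refine addK_s he h264 h269 (fun _ _ _ _ _ h270 H170 => ?_) H169
  refine mulK_s he h270 h190 (fun _ _ _ _ _ h271 H171 => ?_) H170
  have h272 := In_cast (w := (D1 s u x pa pb)) h271 rfl
  refine mulK_s he h262 h272 (fun _ _ _ _ _ h273 H172 => ?_) H171
  refine addK_s he h194 h273 (fun _ _ _ _ _ h274 H173 => ?_) H172
  refine smulK_s he (w := (4:ℝ)) (by norm_num) (by norm_num) (by norm_num) (by norm_num) hp1 (fun _ _ _ _ _ h275 H174 => ?_) H173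
  have h276 := In_cast (w := (Z0 s u x pa pb)) h275 rfl
  refine mulK_s he h199 h276 (fun _ _ _ _ _ h277 H175 => ?_) H174
  have h278 := In_cast (w := (vz0 s u x pa pb)) h277 rfl
  refine negK_s he h278 (fun _ _ _ _ _ h279 H176 => ?_) H175
  refine addcK_s he h279 (v' := (1:ℝ)) (by norm_num [SS, BB, abs_le]) (fun _ _ _ _ _ h280 H177 => ?_) H176
  have h281 := In_cast h280 (neg_add_eq_sub _ _)
  have h282 := In_cast (w := (t0 s u x pa pb)) h281 rfl
  refine sqK_s he hx2 (fun _ _ _ _ _ h283 H178 => ?_) H177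
  have h284 := In_cast h283 (sq _)
  have h285 := In_cast (w := (u2 s u x pa pb)) h284 rfl
  refine mulK_s he h285 hx2 (fun _ _ _ _ _ h286 H179 => ?_) H178
  have h287 := In_cast (w := (u3 s u x pa pb)) h286 rfl
  refine addcK_s he hx2 (v' := (1:ℝ)) (by norm_num [SS, BB, abs_le]) (fun _ _ _ _ _ h288 H180 => ?_) H179
  have h289 := In_cast h288 (add_comm _ _)
  refine addK_s he h289 h285 (fun _ _ _ _ _ h290 H181 => ?_) H180
  refine mulK_s he h287 h147 (fun _ _ _ _ _ h291 H182 => ?_) H181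
  refine subK_s he h290 h291 (fun _ _ _ _ _ h292 H183 => ?_) H182
  have h293 := In_cast (w := (den s u x pa pb)) h292 rfl
  refine invK_s he h293 (fun _ _ _ _ _ h294 H184 => ?_) H183
  refine addcK_s he h147 (v' := (1:ℝ)) (by norm_num [SS, BB, abs_le]) (fun _ _ _ _ _ h295 H185 => ?_) H184
  have h296 := In_cast h295 (add_comm _ _)
  refine mulK_s he h296 h294 (fun _ _ _ _ _ h297 H186 => ?_) H185
  have h298 := In_cast h297 ((div_eq_mul_inv _ _).symm)
  have h299 := In_cast (w := (n0v s u x pa pb)) h298 rfl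
  refine mulK_s he h287 h299 (fun _ _ _ _ _ h300 H187 => ?_) H186
  have h301 := In_cast (w := (v0 s u x pa pb)) h300 rfl
  refine mulK_s he h282 h301 (fun _ _ _ _ _ h302 H188 => ?_) H187
  have h303 := In_cast (w := (uA s u x pa pb)) h302 rfl
  refine subK_s he h205 h303 (fun _ _ _ _ _ h304 H189 => ?_) H188
  refine smulK_s he (w := (2:ℝ)) (by norm_num) (by norm_num) (by norm_num) (by norm_num) h304 (fun _ _ _ _ _ h305 H190 => ?_) H189
  refine invK_s he h305 (fun _ _ _ _ _ h306 H191 => ?_) H190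
  refine sqK_s he h282 (fun _ _ _ _ _ h307 H192 => ?_) H191
  have h308 := In_cast h307 (sq _)
  refine addcK_s he h308 (v' := (1:ℝ)) (by norm_num [SS, BB, abs_le]) (fun _ _ _ _ _ h309 H193 => ?_) H192
  have h310 := In_cast h309 (add_comm _ _)
  refine negK_s he h278 (fun _ _ _ _ _ h311 H194 => ?_) H193
  refine addcK_s he h311 (v' := (2:ℝ)) (by norm_num [SS, BB, abs_le]) (fun _ _ _ _ _ h312 H195 => ?_) H194
  have h313 := In_cast h312 (neg_add_eq_sub _ _)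
  have h314 := In_cast (w := (tp0 s u x pa pb)) h313 rfl
  refine mulK_s he h278 h314 (fun _ _ _ _ _ h315 H196 => ?_) H195
  have h316 := In_cast (w := (vw0 s u x pa pb)) h315 rfl
  refine sqK_s he h316 (fun _ _ _ _ _ h317 H197 => ?_) H196
  have h318 := In_cast h317 (sq _)
  refine mulK_s he h212 h318 (fun _ _ _ _ _ h319 H198 => ?_) H197
  refine smulK_s he (w := (1/4:ℝ)) (by norm_num) (by norm_num) (by norm_num) (by norm_num) h319 (fun _ _ _ _ _ h320 H199 => ?_) H198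
  have h321 := In_cast h320 (div_c (c := (4:ℝ)) (by norm_num))
  refine addK_s he h308 h321 (fun _ _ _ _ _ h322 H200 => ?_) H199
  refine sqrtK_s he h322 (fun _ _ _ _ _ h323 H201 => ?_) H200
  have h324 := In_cast (w := (QQ0 s u x pa pb)) h323 rfl
  refine smulK_s he (w := (2:ℝ)) (by norm_num) (by norm_num) (by norm_num) (by norm_num) h324 (fun _ _ _ _ _ h325 H202 => ?_) H201
  refine addK_s he h310 h325 (fun _ _ _ _ _ h326 H203 => ?_) H202
  refine sqrtK_s he h326 (fun _ _ _ _ _ h327 H204 => ?_) H203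
  have h328 := In_cast (w := (g0 s u x pa pb)) h327 rfl
  refine invK_s he h328 (fun _ _ _ _ _ h329 H205 => ?_) H204
  refine addK_s he h328 h314 (fun _ _ _ _ _ h330 H206 => ?_) H205
  refine smulK_s he (w := (2:ℝ)) (by norm_num) (by norm_num) (by norm_num) (by norm_num) h330 (fun _ _ _ _ _ h331 H207 => ?_) H206
  refine invK_s he h331 (fun _ _ _ _ _ h332 H208 => ?_) H207
  refine mulK_s he h212 h314 (fun _ _ _ _ _ h333 H209 => ?_) H208
  have h334 := In_cast (w := (st0 s u x pa pb)) h333 rfl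
  refine mulK_s he h334 h314 (fun _ _ _ _ _ h335 H210 => ?_) H209
  refine addK_s he h324 h282 (fun _ _ _ _ _ h336 H211 => ?_) H210
  refine invK_s he h336 (fun _ _ _ _ _ h337 H212 => ?_) H211
  have h338 := In_cast h337 (inv_eq_one_div _)
  have h339 := In_cast (w := (iq0 s u x pa pb)) h338 rfl
  refine mulK_s he h335 h339 (fun _ _ _ _ _ h340 H213 => ?_) H212
  refine mulK_s he h340 h332 (fun _ _ _ _ _ h341 H214 => ?_) H213
  have h342 := In_cast h341 ((div_eq_mul_inv _ _).symm)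
  have h343 := In_cast (w := (mm0 s u x pa pb)) h342 rfl
  refine mulK_s he h278 h343 (fun _ _ _ _ _ h344 H215 => ?_) H214
  refine invK_s he h324 (fun _ _ _ _ _ h345 H216 => ?_) H215
  refine mulK_s he h316 h339 (fun _ _ _ _ _ h346 H217 => ?_) H216
  refine smulK_s he (w := (1/4:ℝ)) (by norm_num) (by norm_num) (by norm_num) (by norm_num) h346 (fun _ _ _ _ _ h347 H218 => ?_) H217
  have h348 := In_cast h347 (div_c (c := (4:ℝ)) (by norm_num))
  refine smulK_s he (w := (1/2:ℝ)) (by norm_num) (by norm_num) (by norm_num) (by norm_num) h282 (fun _ _ _ _ _ h349 H219 => ?_) H218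
  have h350 := In_cast h349 (div_c (c := (2:ℝ)) (by norm_num))
  refine addK_s he h348 h350 (fun _ _ _ _ _ h351 H220 => ?_) H219
  refine mulK_s he h334 h351 (fun _ _ _ _ _ h352 H221 => ?_) H220
  refine mulK_s he h352 h345 (fun _ _ _ _ _ h353 H222 => ?_) H221
  have h354 := In_cast h353 ((div_eq_mul_inv _ _).symm)
  refine addK_s he h344 h354 (fun _ _ _ _ _ h355 H223 => ?_) H222
  refine mulK_s he h355 h329 (fun _ _ _ _ _ h356 H224 => ?_) H223
  have h357 := In_cast h356 ((div_eq_mul_inv _ _).symm)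
  have h358 := In_cast (w := (G0 s u x pa pb)) h357 rfl
  refine mulK_s he h276 h358 (fun _ _ _ _ _ h359 H225 => ?_) H224
  refine subK_s he h359 h262 (fun _ _ _ _ _ h360 H226 => ?_) H225
  refine mulK_s he h360 h306 (fun _ _ _ _ _ h361 H227 => ?_) H226
  have h362 := In_cast h361 ((div_eq_mul_inv _ _).symm)
  have h363 := In_cast (w := (mu s u x pa pb)) h362 rfl
  refine mulK_s he h205 h272 (fun _ _ _ _ _ h364 H228 => ?_) H227
  refine smulK_s he (w := (2:ℝ)) (by norm_num) (by norm_num) (by norm_num) (by norm_num) h364 (fun _ _ _ _ _ h365 H229 => ?_) H228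
  refine subK_s he h365 hx2 (fun _ _ _ _ _ h366 H230 => ?_) H229
  refine mulK_s he h363 h366 (fun _ _ _ _ _ h367 H231 => ?_) H230
  refine addK_s he h274 h367 (fun _ _ _ _ _ h368 H232 => ?_) H231
  refine subK_s he h151 h299 (fun _ _ _ _ _ h369 H233 => ?_) H232
  refine negK_s he h301 (fun _ _ _ _ _ h370 H234 => ?_) H233
  refine addcK_s he h370 (v' := (1:ℝ)) (by norm_num [SS, BB, abs_le]) (fun _ _ _ _ _ h371 H235 => ?_) H234
  have h372 := In_cast h371 (neg_add_eq_sub _ _)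
  have h373 := In_cast (w := (vb s u x pa pb)) h372 rfl
  refine invK_s he h373 (fun _ _ _ _ _ h374 H236 => ?_) H235
  have h375 := In_cast h374 (inv_eq_one_div _)
  have h376 := In_cast (w := (iv s u x pa pb)) h375 rfl
  refine mulK_s he h369 h376 (fun _ _ _ _ _ h377 H237 => ?_) H236
  have h378 := In_cast (w := (wt s u x pa pb)) h377 rfl
  refine sqK_s he h195 (fun _ _ _ _ _ h379 H238 => ?_) H237
  have h380 := In_cast h379 (sq _)
  have h381 := In_cast (w := (Zq1 s u x pa pb)) h380 rfl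
  refine subK_s he h260 h245 (fun _ _ _ _ _ h382 H239 => ?_) H238
  refine mulK_s he h199 h363 (fun _ _ _ _ _ h383 H240 => ?_) H239
  have h384 := In_cast (w := (em s u x pa pb)) h383 rfl
  refine subK_s he h382 h384 (fun _ _ _ _ _ h385 H241 => ?_) H240
  have h386 := In_cast (w := (f1 s u x pa pb)) h385 rfl
  refine mulK_s he h381 h386 (fun _ _ _ _ _ h387 H242 => ?_) H241
  have h388 := In_cast (w := (Zf s u x pa pb)) h387 rfl
  refine mulK_s he h378 h388 (fun _ _ _ _ _ h389 H243 => ?_) H242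
  refine subK_s he h368 h389 (fun _ _ _ _ _ h390 H244 => ?_) H243
  refine mulK_s he h30 h296 (fun _ _ _ _ _ h391 H245 => ?_) H244
  refine mulK_s he h391 h376 (fun _ _ _ _ _ h392 H246 => ?_) H245
  have h393 := In_cast (w := (wb s u x pa pb)) h392 rfl
  refine sqK_s he h276 (fun _ _ _ _ _ h394 H247 => ?_) H246
  have h395 := In_cast h394 (sq _)
  have h396 := In_cast (w := (Zq0 s u x pa pb)) h395 rfl
  refine subK_s he h358 h343 (fun _ _ _ _ _ h397 H248 => ?_) H247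
  have h398 := In_cast (w := (L0 s u x pa pb)) h397 rfl
  refine mulK_s he h384 h301 (fun _ _ _ _ _ h399 H249 => ?_) H248
  refine subK_s he h398 h399 (fun _ _ _ _ _ h400 H250 => ?_) H249
  refine mulK_s he h396 h400 (fun _ _ _ _ _ h401 H251 => ?_) H250
  refine mulK_s he h393 h401 (fun _ _ _ _ _ h402 H252 => ?_) H251
  refine subK_s he h390 h402 (fun _ _ _ _ _ h403 H253 => ?_) H252
  refine posK_s he h403 (fun p0 H254 => ?_) H253
  refine posK_s he h386 (fun p1 H255 => ?_) H254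
  refine posK_s he h363 (fun p2 H256 => ?_) H255
  refine smulK_s he (w := (2:ℝ)) (by norm_num) (by norm_num) (by norm_num) (by norm_num) h303 (fun _ _ _ _ _ h404 H257 => ?_) H256
  refine subK_s he h314 h404 (fun _ _ _ _ _ h405 H258 => ?_) H257
  refine mulK_s he h363 h405 (fun _ _ _ _ _ h406 H259 => ?_) H258
  refine mulK_s he h276 h406 (fun _ _ _ _ _ h407 H260 => ?_) H259
  refine addK_s he h388 h407 (fun _ _ _ _ _ h408 H261 => ?_) H260
  refine mulK_s he h396 h398 (fun _ _ _ _ _ h409 H262 => ?_) H261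
  refine subK_s he h408 h409 (fun _ _ _ _ _ h410 H263 => ?_) H262
  have h411 := In_cast (w := (Xn s u x pa pb)) h410 rfl
  refine posK_s he h411 (fun p3 H264 => ?_) H263
  refine posK_s he h282 (fun p4 H265 => ?_) H264
  refine posK_s he h304 (fun p5 H266 => ?_) H265
  refine mulK_s he h201 h260 (fun _ _ _ _ _ h412 H267 => ?_) H266
  refine negK_s he h412 (fun _ _ _ _ _ h413 H268 => ?_) H267
  refine addcK_s he h413 (v' := (1:ℝ)) (by norm_num [SS, BB, abs_le]) (fun _ _ _ _ _ h414 H269 => ?_) H268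
  have h415 := In_cast h414 (neg_add_eq_sub _ _)
  refine mulK_s he h384 h205 (fun _ _ _ _ _ h416 H270 => ?_) H269
  refine smulK_s he (w := (2:ℝ)) (by norm_num) (by norm_num) (by norm_num) (by norm_num) h416 (fun _ _ _ _ _ h417 H271 => ?_) H270
  refine subK_s he h415 h417 (fun _ _ _ _ _ h418 H272 => ?_) H271
  refine posK_s he h418 (fun p6 H273 => ?_) H272
  refine mulK_s he h363 h314 (fun _ _ _ _ _ h419 H274 => ?_) H273
  refine mulK_s he h276 h419 (fun _ _ _ _ _ h420 H275 => ?_) H274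
  refine mulK_s he h420 h373 (fun _ _ _ _ _ h421 H276 => ?_) H275
  refine addcK_s he h301 (v' := (1:ℝ)) (by norm_num [SS, BB, abs_le]) (fun _ _ _ _ _ h422 H277 => ?_) H276
  have h423 := In_cast h422 (add_comm _ _)
  refine mulK_s he h411 h423 (fun _ _ _ _ _ h424 H278 => ?_) H277
  refine subK_s he h421 h424 (fun _ _ _ _ _ h425 H279 => ?_) H278
  refine posK_s he h425 (fun p7 H280 => ?_) H279
  refine posK_s he h195 (fun p8 H281 => ?_) H280
  refine posK_s he h276 (fun p9 H282 => ?_) H281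
  refine posK_s he h373 (fun p10 H283 => ?_) H282
  refine posK_s he h299 (fun p11 H284 => ?_) H283
  exact ⟨p0, p1, p2, p3, p4, p5, p6, p7, p8, p9, p10, p11, pos_s he h293 H284⟩

noncomputable def alt1 (p1 p2 z1 w1 z2 w2 z3 w3 : ℕ) : Bool :=
  negK p2 1152921504606846976 1152921504606846976 1152921504606846976 0 fun c2 a2_1 a2_2 a2_3 q2 =>
  addcK c2 a2_1 a2_2 a2_3 q2 1152922604118474752 0 fun c3 a3_1 a3_2 a3_3 q3 =>
  sqK c3 a3_1 a3_2 a3_3 q3 fun c6 a6_1 a6_2 a6_3 q6 =>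
  addcK c6 a6_1 a6_2 a6_3 q6 1152922604118474752 0 fun c8 a8_1 a8_2 a8_3 q8 =>
  sqK z1 (Nat.add w1 1152921504606846976) 1152921504606846976 1152921504606846976 0 fun c10 a10_1 a10_2 a10_3 q10 =>
  negK p2 1152921504606846976 1152921504606846976 1152921504606846976 0 fun c13 a13_1 a13_2 a13_3 q13 =>
  addcK c13 a13_1 a13_2 a13_3 q13 1152923703630102528 0 fun c14 a14_1 a14_2 a14_3 q14 =>
  mulK p2 1152921504606846976 1152921504606846976 1152921504606846976 0 c14 a14_1 a14_2 a14_3 q14 fun c17 a17_1 a17_2 a17_3 q17 =>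
  sqK c17 a17_1 a17_2 a17_3 q17 fun c19 a19_1 a19_2 a19_3 q19 =>
  mulK c10 a10_1 a10_2 a10_3 q10 c19 a19_1 a19_2 a19_3 q19 fun c21 a21_1 a21_2 a21_3 q21 =>
  smulK 1 4 4611686018427387908 1152921504606846976 c21 a21_1 a21_2 a21_3 q21 fun c22 a22_1 a22_2 a22_3 q22 =>
  addK c6 a6_1 a6_2 a6_3 q6 c22 a22_1 a22_2 a22_3 q22 fun c24 a24_1 a24_2 a24_3 q24 =>
  sqrtK c24 a24_1 a24_2 a24_3 q24 fun c25 a25_1 a25_2 a25_3 q25 =>
  smulK 2 1 1152921504606846977 2305843009213693952 c25 a25_1 a25_2 a25_3 q25 fun c27 a27_1 a27_2 a27_3 q27 =>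
  addK c8 a8_1 a8_2 a8_3 q8 c27 a27_1 a27_2 a27_3 q27 fun c28 a28_1 a28_2 a28_3 q28 =>
  sqrtK c28 a28_1 a28_2 a28_3 q28 fun c29 a29_1 a29_2 a29_3 q29 =>
  invK c29 a29_1 a29_2 a29_3 q29 fun c31 a31_1 a31_2 a31_3 q31 =>
  addK c29 a29_1 a29_2 a29_3 q29 c14 a14_1 a14_2 a14_3 q14 fun c32 a32_1 a32_2 a32_3 q32 =>
  smulK 2 1 1152921504606846977 2305843009213693952 c32 a32_1 a32_2 a32_3 q32 fun c33 a33_1 a33_2 a33_3 q33 =>
  invK c33 a33_1 a33_2 a33_3 q33 fun c34 a34_1 a34_2 a34_3 q34 =>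
  mulK c10 a10_1 a10_2 a10_3 q10 c14 a14_1 a14_2 a14_3 q14 fun c35 a35_1 a35_2 a35_3 q35 =>
  mulK c35 a35_1 a35_2 a35_3 q35 c14 a14_1 a14_2 a14_3 q14 fun c37 a37_1 a37_2 a37_3 q37 =>
  addK c25 a25_1 a25_2 a25_3 q25 c3 a3_1 a3_2 a3_3 q3 fun c38 a38_1 a38_2 a38_3 q38 =>
  invK c38 a38_1 a38_2 a38_3 q38 fun c39 a39_1 a39_2 a39_3 q39 =>
  mulK c37 a37_1 a37_2 a37_3 q37 c39 a39_1 a39_2 a39_3 q39 fun c42 a42_1 a42_2 a42_3 q42 =>
  mulK c42 a42_1 a42_2 a42_3 q42 c34 a34_1 a34_2 a34_3 q34 fun c43 a43_1 a43_2 a43_3 q43 =>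
  mulK p2 1152921504606846976 1152921504606846976 1152921504606846976 0 c43 a43_1 a43_2 a43_3 q43 fun c46 a46_1 a46_2 a46_3 q46 =>
  invK c25 a25_1 a25_2 a25_3 q25 fun c47 a47_1 a47_2 a47_3 q47 =>
  mulK c17 a17_1 a17_2 a17_3 q17 c39 a39_1 a39_2 a39_3 q39 fun c48 a48_1 a48_2 a48_3 q48 =>
  smulK 1 4 4611686018427387908 1152921504606846976 c48 a48_1 a48_2 a48_3 q48 fun c49 a49_1 a49_2 a49_3 q49 =>
  smulK 1 2 2305843009213693954 1152921504606846976 c3 a3_1 a3_2 a3_3 q3 fun c51 a51_1 a51_2 a51_3 q51 =>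
  addK c49 a49_1 a49_2 a49_3 q49 c51 a51_1 a51_2 a51_3 q51 fun c53 a53_1 a53_2 a53_3 q53 =>
  mulK c35 a35_1 a35_2 a35_3 q35 c53 a53_1 a53_2 a53_3 q53 fun c54 a54_1 a54_2 a54_3 q54 =>
  mulK c54 a54_1 a54_2 a54_3 q54 c47 a47_1 a47_2 a47_3 q47 fun c55 a55_1 a55_2 a55_3 q55 =>
  addK c46 a46_1 a46_2 a46_3 q46 c55 a55_1 a55_2 a55_3 q55 fun c57 a57_1 a57_2 a57_3 q57 =>
  mulK c57 a57_1 a57_2 a57_3 q57 c31 a31_1 a31_2 a31_3 q31 fun c58 a58_1 a58_2 a58_3 q58 =>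
  mulK p2 1152921504606846976 1152921504606846976 1152921504606846976 0 c58 a58_1 a58_2 a58_3 q58 fun c61 a61_1 a61_2 a61_3 q61 =>
  negK c61 a61_1 a61_2 a61_3 q61 fun c62 a62_1 a62_2 a62_3 q62 =>
  addcK c62 a62_1 a62_2 a62_3 q62 1152922604118474752 0 fun c63 a63_1 a63_2 a63_3 q63 =>
  subK c58 a58_1 a58_2 a58_3 q58 c43 a43_1 a43_2 a43_3 q43 fun c65 a65_1 a65_2 a65_3 q65 =>
  mulK p1 1152921504606846976 1152921504606846976 1152921504606846976 0 c65 a65_1 a65_2 a65_3 q65 fun c67 a67_1 a67_2 a67_3 q67 =>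
  mulK c67 a67_1 a67_2 a67_3 q67 c3 a3_1 a3_2 a3_3 q3 fun c69 a69_1 a69_2 a69_3 q69 =>
  smulK 2 1 1152921504606846977 2305843009213693952 c69 a69_1 a69_2 a69_3 q69 fun c70 a70_1 a70_2 a70_3 q70 =>
  subK c63 a63_1 a63_2 a63_3 q63 c70 a70_1 a70_2 a70_3 q70 fun c71 a71_1 a71_2 a71_3 q71 =>
  sqK z3 1152921504606846976 1152921504606846976 (Nat.add w3 1152921504606846976) 0 fun c73 a73_1 a73_2 a73_3 q73 =>
  mulK c73 a73_1 a73_2 a73_3 q73 z3 1152921504606846976 1152921504606846976 (Nat.add w3 1152921504606846976) 0 fun c76 a76_1 a76_2 a76_3 q76 =>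
  mulK z2 1152921504606846976 (Nat.add w2 1152921504606846976) 1152921504606846976 0 z3 1152921504606846976 1152921504606846976 (Nat.add w3 1152921504606846976) 0 fun c78 a78_1 a78_2 a78_3 q78 =>
  negK c78 a78_1 a78_2 a78_3 q78 fun c80 a80_1 a80_2 a80_3 q80 =>
  addcK c80 a80_1 a80_2 a80_3 q80 1152922604118474752 0 fun c81 a81_1 a81_2 a81_3 q81 =>
  addcK z1 (Nat.add w1 1152921504606846976) 1152921504606846976 1152921504606846976 0 1152920761336986599 1 fun c83 a83_1 a83_2 a83_3 q83 =>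
  smulK 250 19 21905508587530092563 288230376151711744000 c83 a83_1 a83_2 a83_3 q83 fun c85 a85_1 a85_2 a85_3 q85 =>
  smulK 6509 25000 28823037615171174425000 7504366073485966966784 c85 a85_1 a85_2 a85_3 q85 fun c88 a88_1 a88_2 a88_3 q88 =>
  addcK c88 a88_1 a88_2 a88_3 q88 1152922089470067139 1 fun c89 a89_1 a89_2 a89_3 q89 =>
  smulK 2 1 1152921504606846977 2305843009213693952 c78 a78_1 a78_2 a78_3 q78 fun c91 a91_1 a91_2 a91_3 q91 =>
  addcK c91 a91_1 a91_2 a91_3 q91 1152920405095219200 0 fun c92 a92_1 a92_2 a92_3 q92 =>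
  smulK 7993 50000 57646075230342348850000 9215301586322527879168 c85 a85_1 a85_2 a85_3 q85 fun c95 a95_1 a95_2 a95_3 q95 =>
  negK c95 a95_1 a95_2 a95_3 q95 fun c96 a96_1 a96_2 a96_3 q96 =>
  addcK c96 a96_1 a96_2 a96_3 q96 1152921420560178149 1 fun c98 a98_1 a98_2 a98_3 q98 =>
  smulK 1857 100000 115292150460684697700000 2140975234054914834432 c85 a85_1 a85_2 a85_3 q85 fun c100 a100_1 a100_2 a100_3 q100 =>
  negK c100 a100_1 a100_2 a100_3 q100 fun c101 a101_1 a101_2 a101_3 q101 =>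
  addcK c101 a101_1 a101_2 a101_3 q101 1152921563991469992 1 fun c103 a103_1 a103_2 a103_3 q103 =>
  smulK 7163 50000 57646075230342348850000 8258376737498844889088 c85 a85_1 a85_2 a85_3 q85 fun c105 a105_1 a105_2 a105_3 q105 =>
  addcK c105 a105_1 a105_2 a105_3 q105 1152921712766388347 1 fun c106 a106_1 a106_2 a106_3 q106 =>
  smulK 5377 20000 23058430092136939540000 6199258930271016189952 c85 a85_1 a85_2 a85_3 q85 fun c108 a108_1 a108_2 a108_3 q108 =>
  negK c108 a108_1 a108_2 a108_3 q108 fun c109 a109_1 a109_2 a109_3 q109 =>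
  addcK c109 a109_1 a109_2 a109_3 q109 1152921137457924229 1 fun c111 a111_1 a111_2 a111_3 q111 =>
  smulK 9301 50000 57646075230342348850000 10723322914348283723776 c85 a85_1 a85_2 a85_3 q85 fun c113 a113_1 a113_2 a113_3 q113 =>
  addcK c113 a113_1 a113_2 a113_3 q113 1152921848940903447 1 fun c114 a114_1 a114_2 a114_3 q114 =>
  mulK c92 a92_1 a92_2 a92_3 q92 c114 a114_1 a114_2 a114_3 q114 fun c116 a116_1 a116_2 a116_3 q116 =>
  addK c111 a111_1 a111_2 a111_3 q111 c116 a116_1 a116_2 a116_3 q116 fun c117 a117_1 a117_2 a117_3 q117 =>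
  mulK c92 a92_1 a92_2 a92_3 q92 c117 a117_1 a117_2 a117_3 q117 fun c119 a119_1 a119_2 a119_3 q119 =>
  addK c106 a106_1 a106_2 a106_3 q106 c119 a119_1 a119_2 a119_3 q119 fun c120 a120_1 a120_2 a120_3 q120 =>
  mulK c92 a92_1 a92_2 a92_3 q92 c120 a120_1 a120_2 a120_3 q120 fun c122 a122_1 a122_2 a122_3 q122 =>
  addK c103 a103_1 a103_2 a103_3 q103 c122 a122_1 a122_2 a122_3 q122 fun c123 a123_1 a123_2 a123_3 q123 =>
  mulK c92 a92_1 a92_2 a92_3 q92 c123 a123_1 a123_2 a123_3 q123 fun c125 a125_1 a125_2 a125_3 q125 =>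
  addK c98 a98_1 a98_2 a98_3 q98 c125 a125_1 a125_2 a125_3 q125 fun c126 a126_1 a126_2 a126_3 q126 =>
  mulK c92 a92_1 a92_2 a92_3 q92 c126 a126_1 a126_2 a126_3 q126 fun c128 a128_1 a128_2 a128_3 q128 =>
  addK c89 a89_1 a89_2 a89_3 q89 c128 a128_1 a128_2 a128_3 q128 fun c129 a129_1 a129_2 a129_3 q129 =>
  mulK c81 a81_1 a81_2 a81_3 q81 c129 a129_1 a129_2 a129_3 q129 fun c131 a131_1 a131_2 a131_3 q131 =>
  addcK c131 a131_1 a131_2 a131_3 q131 1152922604118474752 0 fun c132 a132_1 a132_2 a132_3 q132 =>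
  mulK c76 a76_1 a76_2 a76_3 q76 c132 a132_1 a132_2 a132_3 q132 fun c135 a135_1 a135_2 a135_3 q135 =>
  mulK c71 a71_1 a71_2 a71_3 q71 c135 a135_1 a135_2 a135_3 q135 fun c136 a136_1 a136_2 a136_3 q136 =>
  addK c71 a71_1 a71_2 a71_3 q71 c69 a69_1 a69_2 a69_3 q69 fun c137 a137_1 a137_2 a137_3 q137 =>
  mulK c3 a3_1 a3_2 a3_3 q3 c137 a137_1 a137_2 a137_3 q137 fun c138 a138_1 a138_2 a138_3 q138 =>
  subK c29 a29_1 a29_2 a29_3 q29 c138 a138_1 a138_2 a138_3 q138 fun c139 a139_1 a139_2 a139_3 q139 =>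
  negK z2 1152921504606846976 (Nat.add w2 1152921504606846976) 1152921504606846976 0 fun c141 a141_1 a141_2 a141_3 q141 =>
  addcK c141 a141_1 a141_2 a141_3 q141 1152922604118474752 0 fun c142 a142_1 a142_2 a142_3 q142 =>
  smulK 2 1 1152921504606846977 2305843009213693952 z2 1152921504606846976 (Nat.add w2 1152921504606846976) 1152921504606846976 0 fun c145 a145_1 a145_2 a145_3 q145 =>
  addcK c145 a145_1 a145_2 a145_3 q145 1152920405095219200 0 fun c146 a146_1 a146_2 a146_3 q146 =>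
  mulK c146 a146_1 a146_2 a146_3 q146 c114 a114_1 a114_2 a114_3 q114 fun c149 a149_1 a149_2 a149_3 q149 =>
  addK c111 a111_1 a111_2 a111_3 q111 c149 a149_1 a149_2 a149_3 q149 fun c150 a150_1 a150_2 a150_3 q150 =>
  mulK c146 a146_1 a146_2 a146_3 q146 c150 a150_1 a150_2 a150_3 q150 fun c151 a151_1 a151_2 a151_3 q151 =>
  addK c106 a106_1 a106_2 a106_3 q106 c151 a151_1 a151_2 a151_3 q151 fun c152 a152_1 a152_2 a152_3 q152 =>
  mulK c146 a146_1 a146_2 a146_3 q146 c152 a152_1 a152_2 a152_3 q152 fun c153 a153_1 a153_2 a153_3 q153 =>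
  addK c103 a103_1 a103_2 a103_3 q103 c153 a153_1 a153_2 a153_3 q153 fun c154 a154_1 a154_2 a154_3 q154 =>
  mulK c146 a146_1 a146_2 a146_3 q146 c154 a154_1 a154_2 a154_3 q154 fun c155 a155_1 a155_2 a155_3 q155 =>
  addK c98 a98_1 a98_2 a98_3 q98 c155 a155_1 a155_2 a155_3 q155 fun c156 a156_1 a156_2 a156_3 q156 =>
  mulK c146 a146_1 a146_2 a146_3 q146 c156 a156_1 a156_2 a156_3 q156 fun c157 a157_1 a157_2 a157_3 q157 =>
  addK c89 a89_1 a89_2 a89_3 q89 c157 a157_1 a157_2 a157_3 q157 fun c158 a158_1 a158_2 a158_3 q158 =>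
  mulK c142 a142_1 a142_2 a142_3 q142 c158 a158_1 a158_2 a158_3 q158 fun c160 a160_1 a160_2 a160_3 q160 =>
  addcK c160 a160_1 a160_2 a160_3 q160 1152922604118474752 0 fun c161 a161_1 a161_2 a161_3 q161 =>
  mulK c139 a139_1 a139_2 a139_3 q139 c161 a161_1 a161_2 a161_3 q161 fun c164 a164_1 a164_2 a164_3 q164 =>
  addK c136 a136_1 a136_2 a136_3 q136 c164 a164_1 a164_2 a164_3 q164 fun c165 a165_1 a165_2 a165_3 q165 =>
  sqK c73 a73_1 a73_2 a73_3 q73 fun c166 a166_1 a166_2 a166_3 q166 =>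
  mulK z2 1152921504606846976 (Nat.add w2 1152921504606846976) 1152921504606846976 0 c166 a166_1 a166_2 a166_3 q166 fun c169 a169_1 a169_2 a169_3 q169 =>
  mulK c67 a67_1 a67_2 a67_3 q67 c169 a169_1 a169_2 a169_3 q169 fun c170 a170_1 a170_2 a170_3 q170 =>
  addK c165 a165_1 a165_2 a165_3 q165 c170 a170_1 a170_2 a170_3 q170 fun c171 a171_1 a171_2 a171_3 q171 =>
  addcK c166 a166_1 a166_2 a166_3 q166 1152922604118474752 0 fun c172 a172_1 a172_2 a172_3 q172 =>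
  smulK 1 2 2305843009213693954 1152921504606846976 c172 a172_1 a172_2 a172_3 q172 fun c174 a174_1 a174_2 a174_3 q174 =>
  sqrtK c174 a174_1 a174_2 a174_3 q174 fun c176 a176_1 a176_2 a176_3 q176 =>
  sqrtK c176 a176_1 a176_2 a176_3 q176 fun c178 a178_1 a178_2 a178_3 q178 =>
  mulK c176 a176_1 a176_2 a176_3 q176 c178 a178_1 a178_2 a178_3 q178 fun c180 a180_1 a180_2 a180_3 q180 =>
  mulK z2 1152921504606846976 (Nat.add w2 1152921504606846976) 1152921504606846976 0 c178 a178_1 a178_2 a178_3 q178 fun c182 a182_1 a182_2 a182_3 q182 =>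
  subK c182 a182_1 a182_2 a182_3 q182 c78 a78_1 a78_2 a78_3 q78 fun c184 a184_1 a184_2 a184_3 q184 =>
  negK c182 a182_1 a182_2 a182_3 q182 fun c185 a185_1 a185_2 a185_3 q185 =>
  addcK c185 a185_1 a185_2 a185_3 q185 1152922604118474752 0 fun c186 a186_1 a186_2 a186_3 q186 =>
  smulK 2 1 1152921504606846977 2305843009213693952 c182 a182_1 a182_2 a182_3 q182 fun c188 a188_1 a188_2 a188_3 q188 =>
  addcK c188 a188_1 a188_2 a188_3 q188 1152920405095219200 0 fun c189 a189_1 a189_2 a189_3 q189 =>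
  mulK c189 a189_1 a189_2 a189_3 q189 c114 a114_1 a114_2 a114_3 q114 fun c192 a192_1 a192_2 a192_3 q192 =>
  addK c117 a117_1 a117_2 a117_3 q117 c192 a192_1 a192_2 a192_3 q192 fun c193 a193_1 a193_2 a193_3 q193 =>
  mulK c189 a189_1 a189_2 a189_3 q189 c193 a193_1 a193_2 a193_3 q193 fun c195 a195_1 a195_2 a195_3 q195 =>
  addK c120 a120_1 a120_2 a120_3 q120 c195 a195_1 a195_2 a195_3 q195 fun c196 a196_1 a196_2 a196_3 q196 =>
  mulK c189 a189_1 a189_2 a189_3 q189 c196 a196_1 a196_2 a196_3 q196 fun c198 a198_1 a198_2 a198_3 q198 =>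
  addK c123 a123_1 a123_2 a123_3 q123 c198 a198_1 a198_2 a198_3 q198 fun c199 a199_1 a199_2 a199_3 q199 =>
  mulK c189 a189_1 a189_2 a189_3 q189 c199 a199_1 a199_2 a199_3 q199 fun c201 a201_1 a201_2 a201_3 q201 =>
  addK c126 a126_1 a126_2 a126_3 q126 c201 a201_1 a201_2 a201_3 q201 fun c202 a202_1 a202_2 a202_3 q202 =>
  smulK 2 1 1152921504606846977 2305843009213693952 c202 a202_1 a202_2 a202_3 q202 fun c204 a204_1 a204_2 a204_3 q204 =>
  mulK c186 a186_1 a186_2 a186_3 q186 c204 a204_1 a204_2 a204_3 q204 fun c205 a205_1 a205_2 a205_3 q205 =>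
  subK c205 a205_1 a205_2 a205_3 q205 c129 a129_1 a129_2 a129_3 q129 fun c206 a206_1 a206_2 a206_3 q206 =>
  mulK c184 a184_1 a184_2 a184_3 q184 c206 a206_1 a206_2 a206_3 q206 fun c208 a208_1 a208_2 a208_3 q208 =>
  addK c132 a132_1 a132_2 a132_3 q132 c208 a208_1 a208_2 a208_3 q208 fun c209 a209_1 a209_2 a209_3 q209 =>
  mulK c180 a180_1 a180_2 a180_3 q180 c209 a209_1 a209_2 a209_3 q209 fun c211 a211_1 a211_2 a211_3 q211 =>
  smulK 2 1 1152921504606846977 2305843009213693952 c211 a211_1 a211_2 a211_3 q211 fun c212 a212_1 a212_2 a212_3 q212 =>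
  subK c171 a171_1 a171_2 a171_3 q171 c212 a212_1 a212_2 a212_3 q212 fun c213 a213_1 a213_2 a213_3 q213 =>
  posK c213 a213_1 a213_2 a213_3 q213 <|
  posK c71 a71_1 a71_2 a71_3 q71 <|
  posK c139 a139_1 a139_2 a139_3 q139 <|
  posK c65 a65_1 a65_2 a65_3 q65 <|
  pos p2 1152921504606846976 1152921504606846976 1152921504606846976 0

theorem alt1_s {p1 p2 z1 w1 z2 w2 z3 w3 : ℕ} {e1 e2 e3 s u x pa pb : ℝ} (he : Ev e1 e2 e3)
    (hp1 : In e1 e2 e3 p1 1152921504606846976 1152921504606846976 1152921504606846976 0 pa)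
    (hp2 : In e1 e2 e3 p2 1152921504606846976 1152921504606846976 1152921504606846976 0 pb)
    (hx1 : In e1 e2 e3 z1 (Nat.add w1 1152921504606846976) 1152921504606846976 1152921504606846976 0 s)
    (hx2 : In e1 e2 e3 z2 1152921504606846976 (Nat.add w2 1152921504606846976) 1152921504606846976 0 u)
    (hx3 : In e1 e2 e3 z3 1152921504606846976 1152921504606846976 (Nat.add w3 1152921504606846976) 0 x)
    (H0 : alt1 p1 p2 z1 w1 z2 w2 z3 w3 = true) : 0 < (((((vk0 s u x pa pb) * ((x3 s u x pa pb) * (R0 s u x pa pb))) + ((vk1 s u x pa pb) * (R2 s u x pa pb))) + ((l0 s u x pa pb) * (u * (x4 s u x pa pb)))) - ((2:ℝ) * ((m3 s u x pa pb) * (R1 s u x pa pb)))) ∧ 0 < (vk0 s u x pa pb) ∧ 0 < (vk1 s u x pa pb) ∧ 0 < (Gm s u x pa pb) ∧ 0 < (zB s u x pa pb) := by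
  unfold alt1 at H0
  have h1 := In_cast (w := (zB s u x pa pb)) hp2 rfl
  refine negK_s he h1 (fun _ _ _ _ _ h2 H1 => ?_) H0
  refine addcK_s he h2 (v' := (1:ℝ)) (by norm_num [SS, BB, abs_le]) (fun _ _ _ _ _ h3 H2 => ?_) H1
  have h4 := In_cast h3 (neg_add_eq_sub _ _)
  have h5 := In_cast (w := (tB s u x pa pb)) h4 rfl
  refine sqK_s he h5 (fun _ _ _ _ _ h6 H3 => ?_) H2
  have h7 := In_cast h6 (sq _)
  refine addcK_s he h7 (v' := (1:ℝ)) (by norm_num [SS, BB, abs_le]) (fun _ _ _ _ _ h8 H4 => ?_) H3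
  have h9 := In_cast h8 (add_comm _ _)
  refine sqK_s he hx1 (fun _ _ _ _ _ h10 H5 => ?_) H4
  have h11 := In_cast h10 (sq _)
  have h12 := In_cast (w := (s2 s u x pa pb)) h11 rfl
  refine negK_s he h1 (fun _ _ _ _ _ h13 H6 => ?_) H5
  refine addcK_s he h13 (v' := (2:ℝ)) (by norm_num [SS, BB, abs_le]) (fun _ _ _ _ _ h14 H7 => ?_) H6
  have h15 := In_cast h14 (neg_add_eq_sub _ _)
  have h16 := In_cast (w := (tpB s u x pa pb)) h15 rfl
  refine mulK_s he h1 h16 (fun _ _ _ _ _ h17 H8 => ?_) H7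
  have h18 := In_cast (w := (wB s u x pa pb)) h17 rfl
  refine sqK_s he h18 (fun _ _ _ _ _ h19 H9 => ?_) H8
  have h20 := In_cast h19 (sq _)
  refine mulK_s he h12 h20 (fun _ _ _ _ _ h21 H10 => ?_) H9
  refine smulK_s he (w := (1/4:ℝ)) (by norm_num) (by norm_num) (by norm_num) (by norm_num) h21 (fun _ _ _ _ _ h22 H11 => ?_) H10
  have h23 := In_cast h22 (div_c (c := (4:ℝ)) (by norm_num))
  refine addK_s he h7 h23 (fun _ _ _ _ _ h24 H12 => ?_) H11
  refine sqrtK_s he h24 (fun _ _ _ _ _ h25 H13 => ?_) H12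
  have h26 := In_cast (w := (QQB s u x pa pb)) h25 rfl
  refine smulK_s he (w := (2:ℝ)) (by norm_num) (by norm_num) (by norm_num) (by norm_num) h26 (fun _ _ _ _ _ h27 H14 => ?_) H13
  refine addK_s he h9 h27 (fun _ _ _ _ _ h28 H15 => ?_) H14
  refine sqrtK_s he h28 (fun _ _ _ _ _ h29 H16 => ?_) H15
  have h30 := In_cast (w := (gB s u x pa pb)) h29 rfl
  refine invK_s he h30 (fun _ _ _ _ _ h31 H17 => ?_) H16
  refine addK_s he h30 h16 (fun _ _ _ _ _ h32 H18 => ?_) H17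
  refine smulK_s he (w := (2:ℝ)) (by norm_num) (by norm_num) (by norm_num) (by norm_num) h32 (fun _ _ _ _ _ h33 H19 => ?_) H18
  refine invK_s he h33 (fun _ _ _ _ _ h34 H20 => ?_) H19
  refine mulK_s he h12 h16 (fun _ _ _ _ _ h35 H21 => ?_) H20
  have h36 := In_cast (w := (stB s u x pa pb)) h35 rfl
  refine mulK_s he h36 h16 (fun _ _ _ _ _ h37 H22 => ?_) H21
  refine addK_s he h26 h5 (fun _ _ _ _ _ h38 H23 => ?_) H22
  refine invK_s he h38 (fun _ _ _ _ _ h39 H24 => ?_) H23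
  have h40 := In_cast h39 (inv_eq_one_div _)
  have h41 := In_cast (w := (iqB s u x pa pb)) h40 rfl
  refine mulK_s he h37 h41 (fun _ _ _ _ _ h42 H25 => ?_) H24
  refine mulK_s he h42 h34 (fun _ _ _ _ _ h43 H26 => ?_) H25
  have h44 := In_cast h43 ((div_eq_mul_inv _ _).symm)
  have h45 := In_cast (w := (mmB s u x pa pb)) h44 rfl
  refine mulK_s he h1 h45 (fun _ _ _ _ _ h46 H27 => ?_) H26
  refine invK_s he h26 (fun _ _ _ _ _ h47 H28 => ?_) H27
  refine mulK_s he h18 h41 (fun _ _ _ _ _ h48 H29 => ?_) H28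
  refine smulK_s he (w := (1/4:ℝ)) (by norm_num) (by norm_num) (by norm_num) (by norm_num) h48 (fun _ _ _ _ _ h49 H30 => ?_) H29
  have h50 := In_cast h49 (div_c (c := (4:ℝ)) (by norm_num))
  refine smulK_s he (w := (1/2:ℝ)) (by norm_num) (by norm_num) (by norm_num) (by norm_num) h5 (fun _ _ _ _ _ h51 H31 => ?_) H30
  have h52 := In_cast h51 (div_c (c := (2:ℝ)) (by norm_num))
  refine addK_s he h50 h52 (fun _ _ _ _ _ h53 H32 => ?_) H31
  refine mulK_s he h36 h53 (fun _ _ _ _ _ h54 H33 => ?_) H32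
  refine mulK_s he h54 h47 (fun _ _ _ _ _ h55 H34 => ?_) H33
  have h56 := In_cast h55 ((div_eq_mul_inv _ _).symm)
  refine addK_s he h46 h56 (fun _ _ _ _ _ h57 H35 => ?_) H34
  refine mulK_s he h57 h31 (fun _ _ _ _ _ h58 H36 => ?_) H35
  have h59 := In_cast h58 ((div_eq_mul_inv _ _).symm)
  have h60 := In_cast (w := (GB s u x pa pb)) h59 rfl
  refine mulK_s he h1 h60 (fun _ _ _ _ _ h61 H37 => ?_) H36
  refine negK_s he h61 (fun _ _ _ _ _ h62 H38 => ?_) H37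
  refine addcK_s he h62 (v' := (1:ℝ)) (by norm_num [SS, BB, abs_le]) (fun _ _ _ _ _ h63 H39 => ?_) H38
  have h64 := In_cast h63 (neg_add_eq_sub _ _)
  refine subK_s he h60 h45 (fun _ _ _ _ _ h65 H40 => ?_) H39
  have h66 := In_cast (w := (Gm s u x pa pb)) h65 rfl
  refine mulK_s he hp1 h66 (fun _ _ _ _ _ h67 H41 => ?_) H40
  have h68 := In_cast (w := (l0 s u x pa pb)) h67 rfl
  refine mulK_s he h68 h5 (fun _ _ _ _ _ h69 H42 => ?_) H41
  refine smulK_s he (w := (2:ℝ)) (by norm_num) (by norm_num) (by norm_num) (by norm_num) h69 (fun _ _ _ _ _ h70 H43 => ?_) H42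
  refine subK_s he h64 h70 (fun _ _ _ _ _ h71 H44 => ?_) H43
  have h72 := In_cast (w := (vk0 s u x pa pb)) h71 rfl
  refine sqK_s he hx3 (fun _ _ _ _ _ h73 H45 => ?_) H44
  have h74 := In_cast h73 (sq _)
  have h75 := In_cast (w := (x2 s u x pa pb)) h74 rfl
  refine mulK_s he h75 hx3 (fun _ _ _ _ _ h76 H46 => ?_) H45
  have h77 := In_cast (w := (x3 s u x pa pb)) h76 rfl
  refine mulK_s he hx2 hx3 (fun _ _ _ _ _ h78 H47 => ?_) H46
  have h79 := In_cast (w := (y0 s u x pa pb)) h78 rfl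
  refine negK_s he h79 (fun _ _ _ _ _ h80 H48 => ?_) H47
  refine addcK_s he h80 (v' := (1:ℝ)) (by norm_num [SS, BB, abs_le]) (fun _ _ _ _ _ h81 H49 => ?_) H48
  have h82 := In_cast h81 (neg_add_eq_sub _ _)
  refine addcK_s he hx1 (v' := (-169/250:ℝ)) (by norm_num [SS, BB, abs_le]) (fun _ _ _ _ _ h83 H50 => ?_) H49
  have h84 := In_cast h83 (sub_c (c := (169/250:ℝ)) (by norm_num))
  refine smulK_s he (w := (250/19:ℝ)) (by norm_num) (by norm_num) (by norm_num) (by norm_num) h84 (fun _ _ _ _ _ h85 H51 => ?_) H50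
  have h86 := In_cast h85 (mul_comm _ _)
  have h87 := In_cast (w := (sg s u x pa pb)) h86 rfl
  refine smulK_s he (w := (6509/25000:ℝ)) (by norm_num) (by norm_num) (by norm_num) (by norm_num) h87 (fun _ _ _ _ _ h88 H52 => ?_) H51
  refine addcK_s he h88 (v' := (53193/100000:ℝ)) (by norm_num [SS, BB, abs_le]) (fun _ _ _ _ _ h89 H53 => ?_) H52
  have h90 := In_cast (w := (c0 s u x pa pb)) h89 rfl
  refine smulK_s he (w := (2:ℝ)) (by norm_num) (by norm_num) (by norm_num) (by norm_num) h78 (fun _ _ _ _ _ h91 H54 => ?_) H53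
  refine addcK_s he h91 (v' := (-1:ℝ)) (by norm_num [SS, BB, abs_le]) (fun _ _ _ _ _ h92 H55 => ?_) H54
  have h93 := In_cast h92 (sub_c (c := (1:ℝ)) (by norm_num))
  have h94 := In_cast (w := (T0 s u x pa pb)) h93 rfl
  refine smulK_s he (w := (7993/50000:ℝ)) (by norm_num) (by norm_num) (by norm_num) (by norm_num) h87 (fun _ _ _ _ _ h95 H56 => ?_) H55
  refine negK_s he h95 (fun _ _ _ _ _ h96 H57 => ?_) H56
  have h97 := In_cast h96 (neg_mul_c (c := (-7993/50000:ℝ)) (by norm_num))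
  refine addcK_s he h97 (v' := (-1911/25000:ℝ)) (by norm_num [SS, BB, abs_le]) (fun _ _ _ _ _ h98 H58 => ?_) H57
  have h99 := In_cast (w := (c1 s u x pa pb)) h98 rfl
  refine smulK_s he (w := (1857/100000:ℝ)) (by norm_num) (by norm_num) (by norm_num) (by norm_num) h87 (fun _ _ _ _ _ h100 H59 => ?_) H58
  refine negK_s he h100 (fun _ _ _ _ _ h101 H60 => ?_) H59
  have h102 := In_cast h101 (neg_mul_c (c := (-1857/100000:ℝ)) (by norm_num))
  refine addcK_s he h102 (v' := (5401/100000:ℝ)) (by norm_num [SS, BB, abs_le]) (fun _ _ _ _ _ h103 H61 => ?_) H60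
  have h104 := In_cast (w := (c2 s u x pa pb)) h103 rfl
  refine smulK_s he (w := (7163/50000:ℝ)) (by norm_num) (by norm_num) (by norm_num) (by norm_num) h87 (fun _ _ _ _ _ h105 H62 => ?_) H61
  refine addcK_s he h105 (v' := (4733/25000:ℝ)) (by norm_num [SS, BB, abs_le]) (fun _ _ _ _ _ h106 H63 => ?_) H62
  have h107 := In_cast (w := (c3 s u x pa pb)) h106 rfl
  refine smulK_s he (w := (5377/20000:ℝ)) (by norm_num) (by norm_num) (by norm_num) (by norm_num) h87 (fun _ _ _ _ _ h108 H64 => ?_) H63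
  refine negK_s he h108 (fun _ _ _ _ _ h109 H65 => ?_) H64
  have h110 := In_cast h109 (neg_mul_c (c := (-5377/20000:ℝ)) (by norm_num))
  refine addcK_s he h110 (v' := (-2087/6250:ℝ)) (by norm_num [SS, BB, abs_le]) (fun _ _ _ _ _ h111 H66 => ?_) H65
  have h112 := In_cast (w := (c4 s u x pa pb)) h111 rfl
  refine smulK_s he (w := (9301/50000:ℝ)) (by norm_num) (by norm_num) (by norm_num) (by norm_num) h87 (fun _ _ _ _ _ h113 H67 => ?_) H66
  refine addcK_s he h113 (v' := (31317/100000:ℝ)) (by norm_num [SS, BB, abs_le]) (fun _ _ _ _ _ h114 H68 => ?_) H67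
  have h115 := In_cast (w := (c5 s u x pa pb)) h114 rfl
  refine mulK_s he h94 h115 (fun _ _ _ _ _ h116 H69 => ?_) H68
  refine addK_s he h112 h116 (fun _ _ _ _ _ h117 H70 => ?_) H69
  have h118 := In_cast (w := (a4 s u x pa pb)) h117 rfl
  refine mulK_s he h94 h118 (fun _ _ _ _ _ h119 H71 => ?_) H70
  refine addK_s he h107 h119 (fun _ _ _ _ _ h120 H72 => ?_) H71
  have h121 := In_cast (w := (a3 s u x pa pb)) h120 rfl
  refine mulK_s he h94 h121 (fun _ _ _ _ _ h122 H73 => ?_) H72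
  refine addK_s he h104 h122 (fun _ _ _ _ _ h123 H74 => ?_) H73
  have h124 := In_cast (w := (a2 s u x pa pb)) h123 rfl
  refine mulK_s he h94 h124 (fun _ _ _ _ _ h125 H75 => ?_) H74
  refine addK_s he h99 h125 (fun _ _ _ _ _ h126 H76 => ?_) H75
  have h127 := In_cast (w := (a1 s u x pa pb)) h126 rfl
  refine mulK_s he h94 h127 (fun _ _ _ _ _ h128 H77 => ?_) H76
  refine addK_s he h90 h128 (fun _ _ _ _ _ h129 H78 => ?_) H77
  have h130 := In_cast (w := (Q0 s u x pa pb)) h129 rfl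
  refine mulK_s he h82 h130 (fun _ _ _ _ _ h131 H79 => ?_) H78
  refine addcK_s he h131 (v' := (1:ℝ)) (by norm_num [SS, BB, abs_le]) (fun _ _ _ _ _ h132 H80 => ?_) H79
  have h133 := In_cast h132 (add_comm _ _)
  have h134 := In_cast (w := (R0 s u x pa pb)) h133 rfl
  refine mulK_s he h77 h134 (fun _ _ _ _ _ h135 H81 => ?_) H80
  refine mulK_s he h72 h135 (fun _ _ _ _ _ h136 H82 => ?_) H81
  refine addK_s he h72 h69 (fun _ _ _ _ _ h137 H83 => ?_) H82
  refine mulK_s he h5 h137 (fun _ _ _ _ _ h138 H84 => ?_) H83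
  refine subK_s he h30 h138 (fun _ _ _ _ _ h139 H85 => ?_) H84
  have h140 := In_cast (w := (vk1 s u x pa pb)) h139 rfl
  refine negK_s he hx2 (fun _ _ _ _ _ h141 H86 => ?_) H85
  refine addcK_s he h141 (v' := (1:ℝ)) (by norm_num [SS, BB, abs_le]) (fun _ _ _ _ _ h142 H87 => ?_) H86
  have h143 := In_cast h142 (neg_add_eq_sub _ _)
  have h144 := In_cast (w := (ub s u x pa pb)) h143 rfl
  refine smulK_s he (w := (2:ℝ)) (by norm_num) (by norm_num) (by norm_num) (by norm_num) hx2 (fun _ _ _ _ _ h145 H88 => ?_) H87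
  refine addcK_s he h145 (v' := (-1:ℝ)) (by norm_num [SS, BB, abs_le]) (fun _ _ _ _ _ h146 H89 => ?_) H88
  have h147 := In_cast h146 (sub_c (c := (1:ℝ)) (by norm_num))
  have h148 := In_cast (w := (T2 s u x pa pb)) h147 rfl
  refine mulK_s he h148 h115 (fun _ _ _ _ _ h149 H90 => ?_) H89
  refine addK_s he h112 h149 (fun _ _ _ _ _ h150 H91 => ?_) H90
  refine mulK_s he h148 h150 (fun _ _ _ _ _ h151 H92 => ?_) H91
  refine addK_s he h107 h151 (fun _ _ _ _ _ h152 H93 => ?_) H92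
  refine mulK_s he h148 h152 (fun _ _ _ _ _ h153 H94 => ?_) H93
  refine addK_s he h104 h153 (fun _ _ _ _ _ h154 H95 => ?_) H94
  refine mulK_s he h148 h154 (fun _ _ _ _ _ h155 H96 => ?_) H95
  refine addK_s he h99 h155 (fun _ _ _ _ _ h156 H97 => ?_) H96
  refine mulK_s he h148 h156 (fun _ _ _ _ _ h157 H98 => ?_) H97
  refine addK_s he h90 h157 (fun _ _ _ _ _ h158 H99 => ?_) H98
  have h159 := In_cast (w := (Q2 s u x pa pb)) h158 rfl
  refine mulK_s he h144 h159 (fun _ _ _ _ _ h160 H100 => ?_) H99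
  refine addcK_s he h160 (v' := (1:ℝ)) (by norm_num [SS, BB, abs_le]) (fun _ _ _ _ _ h161 H101 => ?_) H100
  have h162 := In_cast h161 (add_comm _ _)
  have h163 := In_cast (w := (R2 s u x pa pb)) h162 rfl
  refine mulK_s he h140 h163 (fun _ _ _ _ _ h164 H102 => ?_) H101
  refine addK_s he h136 h164 (fun _ _ _ _ _ h165 H103 => ?_) H102
  refine sqK_s he h75 (fun _ _ _ _ _ h166 H104 => ?_) H103
  have h167 := In_cast h166 (sq _)
  have h168 := In_cast (w := (x4 s u x pa pb)) h167 rfl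
  refine mulK_s he hx2 h168 (fun _ _ _ _ _ h169 H105 => ?_) H104
  refine mulK_s he h68 h169 (fun _ _ _ _ _ h170 H106 => ?_) H105
  refine addK_s he h165 h170 (fun _ _ _ _ _ h171 H107 => ?_) H106
  refine addcK_s he h168 (v' := (1:ℝ)) (by norm_num [SS, BB, abs_le]) (fun _ _ _ _ _ h172 H108 => ?_) H107
  have h173 := In_cast h172 (add_comm _ _)
  refine smulK_s he (w := (1/2:ℝ)) (by norm_num) (by norm_num) (by norm_num) (by norm_num) h173 (fun _ _ _ _ _ h174 H109 => ?_) H108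
  have h175 := In_cast h174 (div_c (c := (2:ℝ)) (by norm_num))
  refine sqrtK_s he h175 (fun _ _ _ _ _ h176 H110 => ?_) H109
  have h177 := In_cast (w := (m2 s u x pa pb)) h176 rfl
  refine sqrtK_s he h177 (fun _ _ _ _ _ h178 H111 => ?_) H110
  have h179 := In_cast (w := (m s u x pa pb)) h178 rfl
  refine mulK_s he h177 h179 (fun _ _ _ _ _ h180 H112 => ?_) H111
  have h181 := In_cast (w := (m3 s u x pa pb)) h180 rfl
  refine mulK_s he hx2 h179 (fun _ _ _ _ _ h182 H113 => ?_) H112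
  have h183 := In_cast (w := (y1 s u x pa pb)) h182 rfl
  refine subK_s he h183 h79 (fun _ _ _ _ _ h184 H114 => ?_) H113
  refine negK_s he h183 (fun _ _ _ _ _ h185 H115 => ?_) H114
  refine addcK_s he h185 (v' := (1:ℝ)) (by norm_num [SS, BB, abs_le]) (fun _ _ _ _ _ h186 H116 => ?_) H115
  have h187 := In_cast h186 (neg_add_eq_sub _ _)
  refine smulK_s he (w := (2:ℝ)) (by norm_num) (by norm_num) (by norm_num) (by norm_num) h182 (fun _ _ _ _ _ h188 H117 => ?_) H116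
  refine addcK_s he h188 (v' := (-1:ℝ)) (by norm_num [SS, BB, abs_le]) (fun _ _ _ _ _ h189 H118 => ?_) H117
  have h190 := In_cast h189 (sub_c (c := (1:ℝ)) (by norm_num))
  have h191 := In_cast (w := (T1 s u x pa pb)) h190 rfl
  refine mulK_s he h191 h115 (fun _ _ _ _ _ h192 H119 => ?_) H118
  refine addK_s he h118 h192 (fun _ _ _ _ _ h193 H120 => ?_) H119
  have h194 := In_cast (w := (b3 s u x pa pb)) h193 rfl
  refine mulK_s he h191 h194 (fun _ _ _ _ _ h195 H121 => ?_) H120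
  refine addK_s he h121 h195 (fun _ _ _ _ _ h196 H122 => ?_) H121
  have h197 := In_cast (w := (b2 s u x pa pb)) h196 rfl
  refine mulK_s he h191 h197 (fun _ _ _ _ _ h198 H123 => ?_) H122
  refine addK_s he h124 h198 (fun _ _ _ _ _ h199 H124 => ?_) H123
  have h200 := In_cast (w := (b1 s u x pa pb)) h199 rfl
  refine mulK_s he h191 h200 (fun _ _ _ _ _ h201 H125 => ?_) H124
  refine addK_s he h127 h201 (fun _ _ _ _ _ h202 H126 => ?_) H125
  have h203 := In_cast (w := (q01 s u x pa pb)) h202 rfl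
  refine smulK_s he (w := (2:ℝ)) (by norm_num) (by norm_num) (by norm_num) (by norm_num) h203 (fun _ _ _ _ _ h204 H127 => ?_) H126
  refine mulK_s he h187 h204 (fun _ _ _ _ _ h205 H128 => ?_) H127
  refine subK_s he h205 h130 (fun _ _ _ _ _ h206 H129 => ?_) H128
  have h207 := In_cast (w := (R01 s u x pa pb)) h206 rfl
  refine mulK_s he h184 h207 (fun _ _ _ _ _ h208 H130 => ?_) H129
  refine addK_s he h134 h208 (fun _ _ _ _ _ h209 H131 => ?_) H130
  have h210 := In_cast (w := (R1 s u x pa pb)) h209 rfl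
  refine mulK_s he h181 h210 (fun _ _ _ _ _ h211 H132 => ?_) H131
  refine smulK_s he (w := (2:ℝ)) (by norm_num) (by norm_num) (by norm_num) (by norm_num) h211 (fun _ _ _ _ _ h212 H133 => ?_) H132
  refine subK_s he h171 h212 (fun _ _ _ _ _ h213 H134 => ?_) H133
  refine posK_s he h213 (fun p0 H135 => ?_) H134
  refine posK_s he h72 (fun p1 H136 => ?_) H135
  refine posK_s he h140 (fun p2 H137 => ?_) H136
  refine posK_s he h66 (fun p3 H138 => ?_) H137
  exact ⟨p0, p1, p2, p3, pos_s he h1 H138⟩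

attribute [irreducible] alt0 alt1

noncomputable def leaf (j u z1 w1 z2 w2 z3 w3 : ℕ) : Bool :=
  fB (Nat.add (Nat.land (Nat.shiftRight u 0) 65535) 1) fun n1 =>
  fB (Nat.add (Nat.mul n1 16777216) 1152921504606846977) fun p1 =>
  fB (Nat.add (Nat.land (Nat.shiftRight u 16) 65535) 1) fun n2 =>
  fB (Nat.add (Nat.mul n2 16777216) 1152921504606846977) fun p2 =>
  sB j (alt0 p1 p2 z1 w1 z2 w2 z3 w3) fun j => alt1 p1 p2 z1 w1 z2 w2 z3 w3

theorem snd : Snd Q leaf := by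
  intro j u z1 w1 z2 w2 z3 w3 e1 e2 e3 he H
  unfold leaf at H
  unfold Q
  replace H := frc H
  obtain ⟨n1, hn1, H⟩ := H
  replace H := frc H
  obtain ⟨p1, hp1, H⟩ := H
  obtain ⟨hp1, ha, hb⟩ := par (e1 := e1) (e2 := e2) (e3 := e3) hn1 hp1
  refine ⟨_, ha, hb, ?_⟩
  replace H := frc H
  obtain ⟨n2, hn2, H⟩ := H
  replace H := frc H
  obtain ⟨p2, hp2, H⟩ := H
  obtain ⟨hp2, ha, hb⟩ := par (e1 := e1) (e2 := e2) (e3 := e3) hn2 hp2
  refine ⟨_, ha, hb, ?_⟩
  replace H := sel H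
  rcases H with H | ⟨j, H⟩
  · exact Or.inl (alt0_s he hp1 hp2 (var1 z1 w1) (var2 z2 w2) (var3 z3 w3) H)
  exact Or.inr (alt1_s he hp1 hp2 (var1 z1 w1) (var2 z2 w2) (var3 z3 w3) H)

end Crest.Agent.R307.MXq
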