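import Mathlib

/-! polynomial tables of the window-M certificate (generated, helper48) -/

set_option autoImplicit false

namespace Crest.Agent.R307.MZ

noncomputable def Psi (σ w : ℝ) : ℝ := (((((((((((((((64 / 625 : ℝ) * w) + (-592 / 3125 : ℝ)) * w) + (1464 / 15625 : ℝ)) * w) + (-253 / 15625 : ℝ)) * w) + (73 / 31250 : ℝ)) * w) + (183 / 31250 : ℝ)) * σ) + (((((((((((-1328 / 15625 : ℝ) * w) + (436 / 15625 : ℝ)) * w) + (1047 / 15625 : ℝ)) * w) + (-367 / 15625 : ℝ)) * w) + (7023 / 250000 : ℝ)) * w) + (22737 / 500000 : ℝ))) * σ) + (((((((((((-2384 / 15625 : ℝ) * w) + (7384 / 15625 : ℝ)) * w) + (-9893 / 31250 : ℝ)) * w) + (17073 / 125000 : ℝ)) * w) + (4363 / 125000 : ℝ)) * w) + (1799 / 20000 : ℝ)))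

noncomputable def kap (σ A d : ℝ) : ℝ := (((((((((((((((-41984 / 3125 : ℝ) * d) + (47792 / 3125 : ℝ)) * d) + (-3592 / 3125 : ℝ)) * A) + (((((74384 / 3125 : ℝ) * d) + (-99264 / 3125 : ℝ)) * d) + (7226 / 3125 : ℝ))) * A) + (((((-36992 / 3125 : ℝ) * d) + (67326 / 3125 : ℝ)) * d) + (-8207 / 3125 : ℝ))) * A) + (((((4252 / 3125 : ℝ) * d) + (-15519 / 3125 : ℝ)) * d) + (3678 / 3125 : ℝ))) * A) + (((((1167 / 3125 : ℝ) * d) + (-843 / 12500 : ℝ)) * d) + (-13297 / 50000 : ℝ))) * σ) + (((((((((((((88608 / 3125 : ℝ) * d) + (-15824 / 625 : ℝ)) * d) + (9104 / 3125 : ℝ)) * A) + (((((-31232 / 625 : ℝ) * d) + (167466 / 3125 : ℝ)) * d) + (-983 / 125 : ℝ))) * A) + (((((99946 / 3125 : ℝ) * d) + (-117411 / 3125 : ℝ)) * d) + (62223 / 12500 : ℝ))) * A) + (((((-25777 / 3125 : ℝ) * d) + (51633 / 5000 : ℝ)) * d) + (-36569 / 25000 : ℝ))) * A) + (((((2073 / 2500 : ℝ) *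 d) + (-31731 / 25000 : ℝ)) * d) + (-6531 / 50000 : ℝ))))

noncomputable def ee (σ A d : ℝ) : ℝ := (((((((((((((((-97344 / 3125 : ℝ) * d) + (32 / 625 : ℝ)) * d) + (10648 / 3125 : ℝ)) * A) + (((((167072 / 3125 : ℝ) * d) + (25256 / 3125 : ℝ)) * d) + (-35554 / 3125 : ℝ))) * A) + (((((-17516 / 625 : ℝ) * d) + (-6843 / 625 : ℝ)) * d) + (29852 / 3125 : ℝ))) * A) + (((((17202 / 3125 : ℝ) * d) + (23927 / 6250 : ℝ)) * d) + (-20789 / 6250 : ℝ))) * A) + (((((-3909 / 6250 : ℝ) * d) + (-163 / 25000 : ℝ)) * d) + (5329 / 12500 : ℝ))) * σ) + (((((((((((((-41856 / 625 : ℝ) * d) + (162912 / 3125 : ℝ)) * d) + (4384 / 625 : ℝ)) * A) + (((((387312 / 3125 : ℝ) * d) + (-373224 / 3125 : ℝ)) * d) + (-15712 / 3125 : ℝ))) * A) + (((((-237434 / 3125 : ℝ) * d) + (529471 / 6250 : ℝ)) * d) + (109 / 125 : ℝ))) * A) + (((((55486 / 3125 : ℝ) * d) + (-70253 / 3125 : ℝ)) * d)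 + (25267 / 50000 : ℝ))) * A) + (((((-20949 / 12500 : ℝ) * d) + (121449 / 50000 : ℝ)) * d) + (1169 / 12500 : ℝ))))

noncomputable def lam (σ A d : ℝ) : ℝ := (((((((((((((((384 / 3125 : ℝ) * d) + (12928 / 3125 : ℝ)) * d) + (-3104 / 3125 : ℝ)) * A) + (((((-26576 / 3125 : ℝ) * d) + (-12468 / 3125 : ℝ)) * d) + (6626 / 3125 : ℝ))) * A) + (((((44288 / 3125 : ℝ) * d) + (-7579 / 3125 : ℝ)) * d) + (-101 / 50 : ℝ))) * A) + (((((-21401 / 3125 : ℝ) * d) + (20789 / 6250 : ℝ)) * d) + (2417 / 3125 : ℝ))) * A) + (((((3362 / 3125 : ℝ) * d) + (-4657 / 5000 : ℝ)) * d) + (-3583 / 25000 : ℝ))) * σ) + (((((((((((((72704 / 3125 : ℝ) * d) + (-65472 / 3125 : ℝ)) * d) + (4776 / 3125 : ℝ)) * A) + (((((-125296 / 3125 : ℝ) * d) + (27262 / 625 : ℝ)) * d) + (-2536 / 625 : ℝ))) * A) + (((((75538 / 3125 : ℝ) * d) + (-7749 / 250 : ℝ)) * d) + (16009 / 6250 : ℝ))) * A) + (((((-35933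 / 6250 : ℝ) * d) + (110427 / 12500 : ℝ)) * d) + (-4661 / 6250 : ℝ))) * A) + (((((3073 / 6250 : ℝ) * d) + (-26617 / 25000 : ℝ)) * d) + (-101 / 2500 : ℝ))))

noncomputable def mm (σ A d : ℝ) : ℝ := (((((((((((((((183744 / 3125 : ℝ) * d) + (-18784 / 3125 : ℝ)) * d) + (-25856 / 3125 : ℝ)) * A) + (((((-273776 / 3125 : ℝ) * d) + (-29644 / 3125 : ℝ)) * d) + (62112 / 3125 : ℝ))) * A) + (((((144184 / 3125 : ℝ) * d) + (9493 / 625 : ℝ)) * d) + (-48379 / 3125 : ℝ))) * A) + (((((-36306 / 3125 : ℝ) * d) + (-44829 / 12500 : ℝ)) * d) + (64983 / 12500 : ℝ))) * A) + (((((10543 / 6250 : ℝ) * d) + (-19361 / 25000 : ℝ)) * d) + (-4081 / 6250 : ℝ))) * σ) + (((((((((((((435392 / 3125 : ℝ) * d) + (-284128 / 3125 : ℝ)) * d) + (-40032 / 3125 : ℝ)) * A) + (((((-743456 / 3125 : ℝ) * d) + (24114 / 125 : ℝ)) * d) + (27672 / 3125 : ℝ))) * A) + (((((444608 / 3125 : ℝ) * d)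 + (-169257 / 1250 : ℝ)) * d) + (-15583 / 12500 : ℝ))) * A) + (((((-21641 / 625 : ℝ) * d) + (464323 / 12500 : ℝ)) * d) + (-4327 / 5000 : ℝ))) * A) + (((((44843 / 12500 : ℝ) * d) + (-212631 / 50000 : ℝ)) * d) + (-4631 / 50000 : ℝ))))

noncomputable def gam (σ A d : ℝ) : ℝ := (((((((((((((((-4608 / 3125 : ℝ) * d) + (-3312 / 3125 : ℝ)) * d) + (384 / 3125 : ℝ)) * A) + (((((-7744 / 3125 : ℝ) * d) + (19656 / 3125 : ℝ)) * d) + (774 / 625 : ℝ))) * A) + (((((4076 / 3125 : ℝ) * d) + (-15763 / 3125 : ℝ)) * d) + (-2552 / 3125 : ℝ))) * A) + (((((1351 / 3125 : ℝ) * d) + (2073 / 2500 : ℝ)) * d) + (3711 / 25000 : ℝ))) * A) + (((((-261 / 3125 : ℝ) * d) + (2093 / 25000 : ℝ)) * d) + (7 / 10000 : ℝ))) * σ) + ((((((((((((-34656 / 3125 : ℝ) * d) + (10672 / 3125 : ℝ)) * d) * A) + (((((29448 / 3125 : ℝ) * d) + (-3552 / 3125 : ℝ)) * d) + (4212 / 3125 : ℝ))) * A) + (((((-11212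 / 3125 : ℝ) * d) + (-789 / 6250 : ℝ)) * d) + (-2794 / 3125 : ℝ))) * A) + (((((6191 / 6250 : ℝ) * d) + (-4259 / 25000 : ℝ)) * d) + (8369 / 50000 : ℝ))) * A) + (((((-126 / 3125 : ℝ) * d) + (1049 / 12500 : ℝ)) * d) + (161 / 100000 : ℝ))))

noncomputable def nn (σ A d : ℝ) : ℝ := (((((((((((((((-13952 / 3125 : ℝ) * d) + (2496 / 3125 : ℝ)) * d) + (2464 / 3125 : ℝ)) * A) + (((((15184 / 3125 : ℝ) * d) + (1688 / 3125 : ℝ)) * d) + (-5492 / 3125 : ℝ))) * A) + (((((-5468 / 3125 : ℝ) * d) + (-441 / 625 : ℝ)) * d) + (8457 / 6250 : ℝ))) * A) + (((((1216 / 3125 : ℝ) * d) + (-2507 / 12500 : ℝ)) * d) + (-5617 / 12500 : ℝ))) * A) + (((((-119 / 1250 : ℝ) * d) + (639 / 3125 : ℝ)) * d) + (2781 / 50000 : ℝ))) * σ) + (((((((((((((-37056 / 3125 : ℝ) * d) + (23136 / 3125 : ℝ)) * d) + (3508 / 3125 : ℝ)) * A) + (((((60504 / 3125 : ℝ) * d) + (-9662 / 625 : ℝ)) * d) +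 (-2342 / 3125 : ℝ))) * A) + (((((-35554 / 3125 : ℝ) * d) + (35191 / 3125 : ℝ)) * d) + (147 / 2500 : ℝ))) * A) + (((((72 / 25 : ℝ) * d) + (-2106 / 625 : ℝ)) * d) + (4469 / 50000 : ℝ))) * A) + (((((-4401 / 12500 : ℝ) * d) + (10691 / 25000 : ℝ)) * d) + (183 / 100000 : ℝ))))

noncomputable def L1 (σ v : ℝ) : ℝ := (((((((((((((-43456 / 3125 : ℝ) * v) + (149336 / 3125 : ℝ)) * v) + (-125404 / 3125 : ℝ)) * v) + (13546 / 3125 : ℝ)) * v) + (-1497 / 3125 : ℝ)) * v) + (411 / 50000 : ℝ)) * σ) + (((((((((((-194528 / 3125 : ℝ) * v) + (285376 / 3125 : ℝ)) * v) + (-708 / 25 : ℝ)) * v) + (18591 / 2500 : ℝ)) * v) + (-1517 / 50000 : ℝ)) * v) + (21277 / 10000 : ℝ)))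

noncomputable def L2 (σ v : ℝ) : ℝ := (((((((((((((-17152 / 3125 : ℝ) * v) + (6344 / 3125 : ℝ)) * v) + (20292 / 3125 : ℝ)) * v) + (-19163 / 6250 : ℝ)) * v) + (33 / 3125 : ℝ)) * v) + (17 / 6250 : ℝ)) * σ) + (((((((((((-37936 / 3125 : ℝ) * v) + (80016 / 3125 : ℝ)) * v) + (-65103 / 3125 : ℝ)) * v) + (33511 / 6250 : ℝ)) * v) + (-149 / 3125 : ℝ)) * v) + (212731 / 100000 : ℝ)))

noncomputable def lq (σ v : ℝ) : ℝ := (((((((((((((84576 / 3125 : ℝ) * v) + (-231576 / 3125 : ℝ)) * v) + (151458 / 3125 : ℝ)) * v) + (-13452 / 3125 : ℝ)) * v) + (12183 / 25000 : ℝ)) * v) + (-251 / 25000 : ℝ)) * σ) + (((((((((((192736 / 3125 : ℝ) * v) + (-233172 / 3125 : ℝ)) * v) + (73231 / 3125 : ℝ)) * v) + (-24912 / 3125 : ℝ)) * v) + (289 / 12500 : ℝ)) * v) + (51681 / 100000 : ℝ)))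

noncomputable def c0 (σ v : ℝ) : ℝ := (((((((((((((17184 / 3125 : ℝ) * v) + (-6896 / 3125 : ℝ)) * v) + (-14 / 125 : ℝ)) * v) + (6886 / 3125 : ℝ)) * v) + (2137 / 25000 : ℝ)) * v) + (-107 / 25000 : ℝ)) * σ) + (((((((((((69008 / 3125 : ℝ) * v) + (-31764 / 625 : ℝ)) * v) + (85836 / 3125 : ℝ)) * v) + (-84581 / 12500 : ℝ)) * v) + (2697 / 50000 : ℝ)) * v) + (-53459 / 25000 : ℝ)))

noncomputable def N1 (σ v : ℝ) : ℝ := (((((((((((((108128 / 3125 : ℝ) * v) + (-45784 / 625 : ℝ)) * v) + (162316 / 3125 : ℝ)) * v) + (-40351 / 3125 : ℝ)) * v) + (2503 / 6250 : ℝ)) * v) + (-357 / 50000 : ℝ)) * σ) + (((((((((((3376 / 3125 : ℝ) * v) + (-22068 / 3125 : ℝ)) * v) + (36741 / 3125 : ℝ)) * v) + (-19432 / 3125 : ℝ)) * v) + (223 / 6250 : ℝ)) * v) + (3227 / 6250 : ℝ)))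

noncomputable def N2 (σ v : ℝ) : ℝ := (((((((((((((-49184 / 3125 : ℝ) * v) + (26896 / 625 : ℝ)) * v) + (-5202 / 125 : ℝ)) * v) + (90073 / 6250 : ℝ)) * v) + (-7239 / 25000 : ℝ)) * v) + (77 / 50000 : ℝ)) * σ) + (((((((((((62384 / 3125 : ℝ) * v) + (-77324 / 3125 : ℝ)) * v) + (26008 / 3125 : ℝ)) * v) + (-994 / 3125 : ℝ)) * v) + (277 / 50000 : ℝ)) * v) + (81 / 100000 : ℝ)))

noncomputable def d2 (σ A d : ℝ) : ℝ := ((((((((((((((((((((((((((((-6223 / 31250 : ℝ) * d) + (24696 / 15625 : ℝ)) * d) + (-85064 / 15625 : ℝ)) * d) + (32928 / 3125 : ℝ)) * d) + (-38416 / 3125 : ℝ)) * d) + (131712 / 15625 : ℝ)) * d) + (-43904 / 15625 : ℝ)) * A) + (((((((((((-6678 / 15625 : ℝ) * d) + (46004 / 15625 : ℝ)) * d) + (-26712 / 3125 : ℝ)) * d) + (41552 / 3125 : ℝ)) * d) + (-35616 / 3125 : ℝ)) * d) + (71232 / 15625 : ℝ))) * A) + (((((((((66743 / 125000 : ℝ) * d) + (-19377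 / 6250 : ℝ)) * d) + (45213 / 6250 : ℝ)) * d) + (-25836 / 3125 : ℝ)) * d) + (12918 / 3125 : ℝ))) * A) + (((((((136689 / 50000 : ℝ) * d) + (-318941 / 25000 : ℝ)) * d) + (136689 / 6250 : ℝ)) * d) + (-45563 / 3125 : ℝ))) * A) + (((((951349 / 250000 : ℝ) * d) + (-407721 / 31250 : ℝ)) * d) + (407721 / 31250 : ℝ))) * A) + (((653571 / 250000 : ℝ) * d) + (-653571 / 125000 : ℝ))) * A) + (420161 / 500000 : ℝ)) * A) * σ) + ((((((((((((((((((((((((((141097 / 62500 : ℝ) * d) + (-279972 / 15625 : ℝ)) * d) + (964348 / 15625 : ℝ)) * d) + (-373296 / 3125 : ℝ)) * d) + (435512 / 3125 : ℝ)) * d) + (-1493184 / 15625 : ℝ)) * d) + (497728 / 15625 : ℝ)) * A) + (((((((((((1474389 / 125000 : ℝ) * d) + (-5078451 / 62500 : ℝ)) * d) + (1474389 / 6250 : ℝ)) * d) + (-1146747 / 3125 : ℝ)) * d) + (982926 / 3125 : ℝ)) * d) + (-1965852 / 15625 : ℝ))) * A) + (((((((((3291983 /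 125000 : ℝ) * d) + (-955737 / 6250 : ℝ)) * d) + (2230053 / 6250 : ℝ)) * d) + (-1274316 / 3125 : ℝ)) * d) + (637158 / 3125 : ℝ))) * A) + (((((((3256827 / 100000 : ℝ) * d) + (-7599263 / 50000 : ℝ)) * d) + (3256827 / 12500 : ℝ)) * d) + (-1085609 / 6250 : ℝ))) * A) + (((((4832569 / 200000 : ℝ) * d) + (-2071101 / 25000 : ℝ)) * d) + (2071101 / 25000 : ℝ))) * A) + (((21549681 / 2000000 : ℝ) * d) + (-21549681 / 1000000 : ℝ))) * A) + (1321799 / 500000 : ℝ)) * A))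

noncomputable def d1 (σ A d : ℝ) : ℝ := (((((((((((((((((((((((((((((((-3136 / 15625 : ℝ) * d) + (25088 / 15625 : ℝ)) * d) + (-87808 / 15625 : ℝ)) * d) + (175616 / 15625 : ℝ)) * d) + (-43904 / 3125 : ℝ)) * d) + (175616 / 15625 : ℝ)) * d) + (-87808 / 15625 : ℝ)) * d) + (25088 / 15625 : ℝ)) * A) + (((((((((((((-6784 / 15625 : ℝ) * d) + (47488 / 15625 : ℝ)) * d) + (-142464 / 15625 : ℝ)) * d) + (47488 / 3125 : ℝ)) * d) + (-47488 / 3125 : ℝ)) * d) + (142464 / 15625 : ℝ)) * d) + (-47488 / 15625 : ℝ))) * A) + (((((((((((8612 / 15625 : ℝ) * d) + (-51672 / 15625 : ℝ)) * d) + (25836 / 3125 : ℝ)) * d) + (-34448 / 3125 : ℝ)) * d) + (25836 / 3125 : ℝ)) * d) + (-51672 / 15625 : ℝ))) * A) + (((((((((45563 / 15625 : ℝ) * d) + (-45563 / 3125 : ℝ)) * d) + (91126 / 3125 : ℝ)) * d) + (-91126 / 3125 : ℝ)) * d) + (45563 / 3125 : ℝ))) * A) + (((((((135907 / 31250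 : ℝ) * d) + (-271814 / 15625 : ℝ)) * d) + (407721 / 15625 : ℝ)) * d) + (-271814 / 15625 : ℝ))) * A) + (((((217857 / 62500 : ℝ) * d) + (-653571 / 62500 : ℝ)) * d) + (653571 / 62500 : ℝ))) * A) + (((420161 / 250000 : ℝ) * d) + (-420161 / 125000 : ℝ))) * A) + (103141 / 250000 : ℝ)) * σ) + (((((((((((((((((((((((((((((35552 / 15625 : ℝ) * d) + (-284416 / 15625 : ℝ)) * d) + (995456 / 15625 : ℝ)) * d) + (-1990912 / 15625 : ℝ)) * d) + (497728 / 3125 : ℝ)) * d) + (-1990912 / 15625 : ℝ)) * d) + (995456 / 15625 : ℝ)) * d) + (-284416 / 15625 : ℝ)) * A) + (((((((((((((187224 / 15625 : ℝ) * d) + (-1310568 / 15625 : ℝ)) * d) + (3931704 / 15625 : ℝ)) * d) + (-1310568 / 3125 : ℝ)) * d) + (1310568 / 3125 : ℝ)) * d) + (-3931704 / 15625 : ℝ)) * d) + (1310568 / 15625 : ℝ))) * A) + (((((((((((424772 / 15625 : ℝ) * d) + (-2548632 / 15625 : ℝ)) * d) + (1274316 /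 3125 : ℝ)) * d) + (-1699088 / 3125 : ℝ)) * d) + (1274316 / 3125 : ℝ)) * d) + (-2548632 / 15625 : ℝ))) * A) + (((((((((1085609 / 31250 : ℝ) * d) + (-1085609 / 6250 : ℝ)) * d) + (1085609 / 3125 : ℝ)) * d) + (-1085609 / 3125 : ℝ)) * d) + (1085609 / 6250 : ℝ))) * A) + (((((((690367 / 25000 : ℝ) * d) + (-690367 / 6250 : ℝ)) * d) + (2071101 / 12500 : ℝ)) * d) + (-690367 / 6250 : ℝ))) * A) + (((((7183227 / 500000 : ℝ) * d) + (-21549681 / 500000 : ℝ)) * d) + (21549681 / 500000 : ℝ))) * A) + (((1321799 / 250000 : ℝ) * d) + (-1321799 / 125000 : ℝ))) * A) + (1137167 / 500000 : ℝ)))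

noncomputable def ss (σ A d : ℝ) : ℝ := (((((((((((((((((((((((((((((((((1568 / 15625 : ℝ) * d) + (-12544 / 15625 : ℝ)) * d) + (43904 / 15625 : ℝ)) * d) + (-87808 / 15625 : ℝ)) * d) + (21952 / 3125 : ℝ)) * d) + (-87808 / 15625 : ℝ)) * d) + (43904 / 15625 : ℝ)) * d) + (-12544 / 15625 : ℝ)) * d) + (3136 / 15625 : ℝ)) * A) + (((((((((((((((3392 / 15625 : ℝ) * d) + (-23744 / 15625 : ℝ)) * d) + (71232 / 15625 : ℝ)) * d) + (-23744 / 3125 : ℝ)) * d) + (23744 / 3125 : ℝ)) * d) + (-71232 / 15625 : ℝ)) * d) + (23744 / 15625 : ℝ)) * d) + (-6784 / 15625 : ℝ))) * A) + (((((((((((((-4306 / 15625 : ℝ) * d) + (25836 / 15625 : ℝ)) * d) + (-12918 / 3125 : ℝ)) * d) + (17224 / 3125 : ℝ)) * d) + (-12918 / 3125 : ℝ)) * d) + (25836 / 15625 : ℝ)) * d) + (-8612 / 15625 : ℝ))) * A) + (((((((((((-45563 / 31250 : ℝ) * d) + (45563 / 6250 : ℝ)) * d) + (-45563 / 3125 :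 ℝ)) * d) + (45563 / 3125 : ℝ)) * d) + (-45563 / 6250 : ℝ)) * d) + (45563 / 15625 : ℝ))) * A) + (((((((((-135907 / 62500 : ℝ) * d) + (135907 / 15625 : ℝ)) * d) + (-407721 / 31250 : ℝ)) * d) + (135907 / 15625 : ℝ)) * d) + (-135907 / 31250 : ℝ))) * A) + (((((((-217857 / 125000 : ℝ) * d) + (653571 / 125000 : ℝ)) * d) + (-653571 / 125000 : ℝ)) * d) + (217857 / 62500 : ℝ))) * A) + (((((-420161 / 500000 : ℝ) * d) + (420161 / 250000 : ℝ)) * d) + (-420161 / 250000 : ℝ))) * A) + (((-103141 / 500000 : ℝ) * d) + (103141 / 250000 : ℝ))) * σ) + (((((((((((((((((((((((((((((((-17776 / 15625 : ℝ) * d) + (142208 / 15625 : ℝ)) * d) + (-497728 / 15625 : ℝ)) * d) + (995456 / 15625 : ℝ)) * d) + (-248864 / 3125 : ℝ)) * d) + (995456 / 15625 : ℝ)) * d) + (-497728 / 15625 : ℝ)) * d) + (142208 / 15625 : ℝ)) * d) + (-35552 / 15625 : ℝ)) * A) + (((((((((((((((-93612 /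 15625 : ℝ) * d) + (655284 / 15625 : ℝ)) * d) + (-1965852 / 15625 : ℝ)) * d) + (655284 / 3125 : ℝ)) * d) + (-655284 / 3125 : ℝ)) * d) + (1965852 / 15625 : ℝ)) * d) + (-655284 / 15625 : ℝ)) * d) + (187224 / 15625 : ℝ))) * A) + (((((((((((((-212386 / 15625 : ℝ) * d) + (1274316 / 15625 : ℝ)) * d) + (-637158 / 3125 : ℝ)) * d) + (849544 / 3125 : ℝ)) * d) + (-637158 / 3125 : ℝ)) * d) + (1274316 / 15625 : ℝ)) * d) + (-424772 / 15625 : ℝ))) * A) + (((((((((((-1085609 / 62500 : ℝ) * d) + (1085609 / 12500 : ℝ)) * d) + (-1085609 / 6250 : ℝ)) * d) + (1085609 / 6250 : ℝ)) * d) + (-1085609 / 12500 : ℝ)) * d) + (1085609 / 31250 : ℝ))) * A) + (((((((((-690367 / 50000 : ℝ) * d) + (690367 / 12500 : ℝ)) * d) + (-2071101 / 25000 : ℝ)) * d) + (690367 / 12500 : ℝ)) * d) + (-690367 / 25000 : ℝ))) * A) + (((((((-7183227 / 1000000 : ℝ) * d) + (21549681 / 1000000 : ℝ))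 * d) + (-21549681 / 1000000 : ℝ)) * d) + (7183227 / 500000 : ℝ))) * A) + (((((-1321799 / 500000 : ℝ) * d) + (1321799 / 250000 : ℝ)) * d) + (-1321799 / 250000 : ℝ))) * A) + (((-1137167 / 1000000 : ℝ) * d) + (1137167 / 500000 : ℝ))))

noncomputable def b1 (σ : ℝ) : ℝ := (((103141 / 250000 : ℝ) * σ) + (1137167 / 500000 : ℝ))

noncomputable def b2 (σ : ℝ) : ℝ := (((-420161 / 250000 : ℝ) * σ) + (-1321799 / 250000 : ℝ))

noncomputable def b3 (σ : ℝ) : ℝ := (((217857 / 62500 : ℝ) * σ) + (7183227 / 500000 : ℝ))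

noncomputable def b4 (σ : ℝ) : ℝ := (((-135907 / 31250 : ℝ) * σ) + (-690367 / 25000 : ℝ))

noncomputable def b5 (σ : ℝ) : ℝ := (((45563 / 15625 : ℝ) * σ) + (1085609 / 31250 : ℝ))

noncomputable def b6 (σ : ℝ) : ℝ := (((-8612 / 15625 : ℝ) * σ) + (-424772 / 15625 : ℝ))

noncomputable def b7 (σ : ℝ) : ℝ := (((-6784 / 15625 : ℝ) * σ) + (187224 / 15625 : ℝ))

noncomputable def b8 (σ : ℝ) : ℝ := (((3136 / 15625 : ℝ) * σ) + (-35552 / 15625 : ℝ))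

noncomputable def Bz (σ a : ℝ) : ℝ := b1 σ * a ^ 1 + b2 σ * a ^ 2 + b3 σ * a ^ 3 + b4 σ * a ^ 4 + b5 σ * a ^ 5 + b6 σ * a ^ 6 + b7 σ * a ^ 7 + b8 σ * a ^ 8

end Crest.Agent.R307.MZ
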