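import Crest.Agent.R307.MZ0
import Crest.Agent.R307.MZa
import Crest.Agent.R307.MZb
import Crest.Agent.R307.MZc
import Crest.Agent.R307.MZk
import Crest.Agent.R307.MZl
import Crest.Agent.R307.MZn
import Crest.Agent.R307.MZp
import Crest.Agent.R307.XSh

/-!
# R307/MZ1: the budget `E √(T 1_A) ≥ Bz σ |A|` for `s = 3/5 + 19/125 σ`
-/

set_option autoImplicit false
set_option maxRecDepth 100000

namespace Crest.Agent.R307.MZ

open Crest.CubeNoise Set Crest.Agent.Bern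

/-- A point of the box. -/
def vec (a b c d e : ℝ) : ℕ → ℝ
  | 0 => a
  | 1 => b
  | 2 => c
  | 3 => d
  | _ + 4 => e

/-- Membership in the unit interval. -/
abbrev U01 (a : ℝ) : Prop := 0 ≤ a ∧ a ≤ 1

theorem vec_in {a b c d e : ℝ} (ha : U01 a) (hb : U01 b) (hc : U01 c) (hd : U01 d) (he : U01 e) :
    In01 (vec a b c d e)
  | 0 => ha
  | 1 => hb
  | 2 => hc
  | 3 => hd
  | _ + 4 => he

theorem u0 : U01 0 := ⟨le_rfl, zero_le_one⟩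

noncomputable def sv (σ : ℝ) : ℝ := 3 / 5 + 19 / 125 * σ

noncomputable def Qf (σ A d R t : ℝ) : ℝ :=
  A * gam σ A d + R * ee σ A d * (1 + t) * (1 / 2) + R ^ 2 * mm σ A d * (1 + t ^ 2) * (1 / 2) +
    nn σ A d * R ^ 4 * (1 + t ^ 2) ^ 2

theorem cA {σ A d R z : ℝ} (h1 : U01 σ) (h2 : U01 A) (h3 : U01 d) (h4 : U01 R) (h5 : U01 z) (h : 2 * A * d - 1 ≤ 0) :
    0 ≤ R * Psi σ (d * z) * z ^ 2 + z * R * (kap σ A d - R * lam σ A d * (1 + (1 - d * z))) + Qf σ A d R (1 - d * z) :=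
  MZa.final (vec σ A d R z) (vec_in h1 h2 h3 h4 h5) h

theorem cB {σ A w R y : ℝ} (h1 : U01 σ) (h2 : U01 A) (h3 : U01 w) (h4 : U01 R) (h5 : U01 y)
    (h : 2 * A * (w * y) - 1 ≤ 0) :
    0 ≤ R * Psi σ w + y * R * (kap σ A (w * y) - R * lam σ A (w * y) * (1 + (1 - w))) +
      y ^ 2 * Qf σ A (w * y) R (1 - w) :=
  MZb.final (vec σ A w R y) (vec_in h1 h2 h3 h4 h5) h

theorem cC {σ A d : ℝ} (h1 : U01 σ) (h2 : U01 A) (h3 : U01 d) (h : 2 * A * d - 1 ≤ 0) :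
    0 ≤ lam σ A d - kap σ A d * d1 σ A d - ee σ A d * ss σ A d - mm σ A d * (1 - d * (1 / 2)) - gam σ A d -
      nn σ A d * (4 * A * (1 - d * (1 / 2)) ^ 2 +
        (1 - sv σ ^ 2) * (4 * (1 - d * (1 / 2)) - d - 4 * A * (1 - d * (1 / 2)) ^ 2)) - d2 σ A d :=
  MZc.final (vec σ A d 0 0) (vec_in h1 h2 h3 u0 u0) h

theorem cK {σ A d : ℝ} (h1 : U01 σ) (h2 : U01 A) (h3 : U01 d) (h : 2 * A * d - 1 ≤ 0) :
    0 ≤ 1 + d * kap σ A d - d ^ 2 * ee σ A d * (1 / 2) :=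
  MZk.final (vec σ A d 0 0) (vec_in h1 h2 h3 u0 u0) h

theorem cL {σ A d : ℝ} (h1 : U01 σ) (h2 : U01 A) (h3 : U01 d) (h : 2 * A * d - 1 ≤ 0) :
    0 ≤ 1 - d * kap σ A d - d ^ 2 * ee σ A d * (1 / 2) :=
  MZl.final (vec σ A d 0 0) (vec_in h1 h2 h3 u0 u0) h

theorem cN {σ A d : ℝ} (h1 : U01 σ) (h2 : U01 A) (h3 : U01 d) (h : 2 * A * d - 1 ≤ 0) : 0 ≤ nn σ A d + 0 :=
  MZn.final (vec σ A d 0 0) (vec_in h1 h2 h3 u0 u0) h

noncomputable def Xi (σ w : ℝ) : ℝ := 2 * (1 + (1 - w)) * Psi σ w + w ^ 2 * Psi σ w ^ 2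

theorem cP {σ w : ℝ} (h1 : U01 σ) (h2 : U01 w) :
    0 ≤ sv σ ^ 2 * (1 + (1 - w)) ^ 2 - 4 * (1 - w) * Xi σ w - w ^ 2 * Xi σ w ^ 2 :=
  MZp.final (vec σ w 0 0 0) (vec_in h1 h2 u0 u0 u0)

theorem ratio {a b : ℝ} (h0 : 0 ≤ a) (h1 : a ≤ b) : ∃ z : ℝ, U01 z ∧ a = b * z := by
  rcases eq_or_lt_of_le (h0.trans h1) with h | h
  · exact ⟨0, u0, by linarith⟩
  · exact ⟨a / b, ⟨div_nonneg h0 h.le, (div_le_one h).2 h1⟩, by field_simp⟩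

theorem pt {σ A d R w : ℝ} (h1 : U01 σ) (h2 : U01 A) (h3 : U01 d) (h4 : U01 R) (h5 : U01 w) (h : 2 * A * d - 1 ≤ 0) :
    0 ≤ R * Psi σ w * w ^ 2 + d * w * R * (kap σ A d - R * lam σ A d * (1 + (1 - w))) + d ^ 2 * Qf σ A d R (1 - w) := by
  rcases le_total w d with e | e
  · obtain ⟨z, hz, rfl⟩ := ratio h5.1 e
    have := mul_nonneg (sq_nonneg d) (cA h1 h2 h3 h4 hz h)
    refine this.trans (le_of_eq ?_)
    ring
  · obtain ⟨y, hy, rfl⟩ := ratio h3.1 e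
    have := mul_nonneg (sq_nonneg w) (cB h1 h2 h5 h4 hy h)
    refine this.trans (le_of_eq ?_)
    ring

theorem gl {ρ σ w : ℝ} (hρ0 : 0 ≤ ρ) (hρ1 : ρ ≤ 1) (hs : sv σ ^ 2 = 1 - ρ ^ 2) (h1 : U01 σ) (h2 : U01 w) :
    1 + (1 - w) + w ^ 2 * Psi σ w ≤
      √((1 + ρ) / 2 + (1 - ρ) / 2 * (1 - w) ^ 2) + √((1 + ρ) / 2 * (1 - w) ^ 2 + (1 - ρ) / 2) := by
  have c := mul_nonneg (sq_nonneg w) (cP h1 h2)
  have a0 : 0 ≤ (1 + ρ) / 2 + (1 - ρ) / 2 * (1 - w) ^ 2 := by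
    have : 0 ≤ 1 - ρ := by linarith
    positivity
  have b0 : 0 ≤ (1 + ρ) / 2 * (1 - w) ^ 2 + (1 - ρ) / 2 := by
    have : 0 ≤ 1 - ρ := by linarith
    positivity
  have eX := Real.sq_sqrt a0
  have eY := Real.sq_sqrt b0
  have pX := Real.sqrt_nonneg ((1 + ρ) / 2 + (1 - ρ) / 2 * (1 - w) ^ 2)
  have pY := Real.sqrt_nonneg ((1 + ρ) / 2 * (1 - w) ^ 2 + (1 - ρ) / 2)
  generalize √((1 + ρ) / 2 + (1 - ρ) / 2 * (1 - w) ^ 2) = X at *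
  generalize √((1 + ρ) / 2 * (1 - w) ^ 2 + (1 - ρ) / 2) = Y at *
  rw [hs] at c
  have k1 : (1 - w + w ^ 2 * Xi σ w / 2) ^ 2 ≤ (X * Y) ^ 2 := by
    rw [mul_pow X, eX, eY]
    generalize Xi σ w = ξ at c ⊢
    nlinarith [c]
  have k2 := (abs_le_of_sq_le_sq' k1 (mul_nonneg pX pY)).2
  have k3 : (1 + (1 - w) + w ^ 2 * Psi σ w) ^ 2 ≤ (X + Y) ^ 2 := by
    unfold Xi at k2
    generalize Psi σ w = ψ at k2 ⊢
    nlinarith [k2]
  exact (abs_le_of_sq_le_sq' k3 (add_nonneg pX pY)).2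

theorem Bz_zero (σ : ℝ) : Bz σ 0 = 0 := by simp [Bz]

theorem Bz_one (σ : ℝ) : Bz σ 1 = 1 := by
  unfold Bz b1 b2 b3 b4 b5 b6 b7 b8
  ring

theorem e2 (σ A d : ℝ) : 2 * Bz σ ((A * (1 - d) + A) / 2) = Bz σ (A * (1 - d)) + Bz σ A + A * d ^ 2 * d2 σ A d := by
  unfold Bz b1 b2 b3 b4 b5 b6 b7 b8 d2
  ring

theorem e1 (σ A d : ℝ) : Bz σ A = A * ss σ A d + A * d * d1 σ A d / 2 := by
  unfold Bz b1 b2 b3 b4 b5 b6 b7 b8 d1 ss
  ring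

theorem e0 (σ A d : ℝ) : Bz σ (A * (1 - d)) = A * ss σ A d - A * d * d1 σ A d / 2 := by
  unfold Bz b1 b2 b3 b4 b5 b6 b7 b8 d1 ss
  ring

theorem half {σ : ℝ} (h : U01 σ) : 2 * Bz σ ((0 + 1) / 2) ≤ 1 + (1 - 1) + 1 ^ 2 * Psi σ 1 := by
  unfold Bz b1 b2 b3 b4 b5 b6 b7 b8 Psi
  nlinarith [h.1, h.2, mul_nonneg h.1 (sub_nonneg.2 h.2), sq_nonneg σ]

theorem budget {ρ σ : ℝ} (hρ0 : 0 ≤ ρ) (hρ1 : ρ ≤ 1) (hs : sv σ ^ 2 = 1 - ρ ^ 2) (hσ : U01 σ)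
    (n : ℕ) (u : (Fin n → Bool) → ℝ) (hu : ∀ y, u y = 0 ∨ u y = 1) :
    Bz σ (cubeAverage u) ≤ cubeAverage fun x => √(noise ρ u x) := by
  refine xind_vone3 hρ0 hρ1 (fun p => √p) (Bz σ) xv_sqrt_conc (by simp [Bz_zero]) (by simp [Bz_one])
    (fun a0 A g0 g1 g2 hS => ?_) n u hu
  have r1 : 0 ≤ 1 - ρ := by linarith
  rcases hS.2 with hd | ⟨rfl, rfl⟩
  · obtain ⟨d, h3, e⟩ := ratio (sub_nonneg.2 g1) (by linarith : A - a0 ≤ A)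
    have ea : a0 = A * (1 - d) := by linarith
    have h2 : U01 A := ⟨g0.trans g1, g2⟩
    have h : 2 * A * d - 1 ≤ 0 := by linarith
    subst ea
    refine ⟨1 + d * kap σ A d - d ^ 2 * ee σ A d * (1 / 2), 1 - d * kap σ A d - d ^ 2 * ee σ A d * (1 / 2),
      -(d * lam σ A d) - d ^ 2 * mm σ A d / 2 - 2 * (A * (1 - d) + A) * (d ^ 2 * nn σ A d),
      d * lam σ A d - d ^ 2 * mm σ A d / 2 - 2 * (A * (1 - d) + A) * (d ^ 2 * nn σ A d),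
      -(d ^ 2 * (A * gam σ A d)) + (A * (1 - d) + A) ^ 2 * (d ^ 2 * nn σ A d), d ^ 2 * nn σ A d, 1, 1,
      cK hσ h2 h3 h, cL hσ h2 h3 h, mul_nonneg (sq_nonneg d) (by simpa using cN hσ h2 h3 h),
      fun p0 p1 i0 i1 i2 => ?_, ?_⟩
    · have hR : U01 √p1 := ⟨Real.sqrt_nonneg _, Real.sqrt_le_one.2 i2⟩
      obtain ⟨t, ht, et⟩ := ratio (Real.sqrt_nonneg p0) (Real.sqrt_le_sqrt i1)
      have q0 := Real.sq_sqrt i0
      have q1 := Real.sq_sqrt (i0.trans i1)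
      rw [et] at q0
      simp only [et]
      generalize √p1 = R at *
      obtain ⟨w, rfl⟩ : ∃ w, t = 1 - w := ⟨1 - t, by ring⟩
      have hw : U01 w := ⟨by linarith [ht.2], by linarith [ht.1]⟩
      have f1 : (1 + ρ) / 2 * p1 + (1 - ρ) / 2 * p0 = R ^ 2 * ((1 + ρ) / 2 + (1 - ρ) / 2 * (1 - w) ^ 2) := by
        rw [← q0, ← q1]; ring
      have f2 : (1 + ρ) / 2 * p0 + (1 - ρ) / 2 * p1 = R ^ 2 * ((1 + ρ) / 2 * (1 - w) ^ 2 + (1 - ρ) / 2) := by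
        rw [← q0, ← q1]; ring
      rw [f1, f2, Real.sqrt_mul (sq_nonneg R), Real.sqrt_mul (sq_nonneg R), Real.sqrt_sq hR.1]
      refine le_trans ?_ ((mul_le_mul_of_nonneg_left (gl hρ0 hρ1 hs hσ hw) hR.1).trans (mul_add _ _ _).le)
      have k := pt hσ h2 h3 hR hw h
      unfold Qf at k
      rw [← q0, ← q1]
      generalize kap σ A d = x1 at *
      generalize ee σ A d = x2 at *
      generalize lam σ A d = x3 at *
      generalize mm σ A d = x4 at *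
      generalize gam σ A d = x5 at *
      generalize nn σ A d = x6 at *
      generalize Psi σ w = x7 at *
      linarith
    · have k := mul_nonneg (mul_nonneg h2.1 (sq_nonneg d)) (cC hσ h2 h3 h)
      rw [hs] at k
      rw [e2, e0 σ A d, e1 σ A d]
      unfold xvV
      generalize kap σ A d = x1 at *
      generalize ee σ A d = x2 at *
      generalize lam σ A d = x3 at *
      generalize mm σ A d = x4 at *
      generalize gam σ A d = x5 at *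
      generalize nn σ A d = x6 at *
      generalize d2 σ A d = x7 at *
      generalize d1 σ A d = x8 at *
      generalize ss σ A d = x9 at *
      linarith
  · have k := gl hρ0 hρ1 hs hσ (w := 1) ⟨zero_le_one, le_rfl⟩
    refine ⟨0, 0, 0, 1 + (1 - 1) + 1 ^ 2 * Psi σ 1, 0, 0, 0, 0, le_rfl, le_rfl, le_rfl, fun p0 p1 i0 i1 i2 => ?_,
      by linarith [half hσ]⟩
    have j0 : 0 ≤ p1 := i0.trans i1
    have j1 : p1 ^ 2 ≤ p1 := by nlinarith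
    have a1 : √((1 + ρ) / 2 + (1 - ρ) / 2 * (1 - 1) ^ 2) * p1 ≤ √((1 + ρ) / 2 * p1 + (1 - ρ) / 2 * p0) := by
      refine Real.le_sqrt_of_sq_le ?_
      rw [mul_pow, Real.sq_sqrt (by positivity)]
      nlinarith [mul_nonneg r1 i0, mul_le_mul_of_nonneg_left j1 (by linarith : 0 ≤ 1 + ρ)]
    have a2 : √((1 + ρ) / 2 * (1 - 1) ^ 2 + (1 - ρ) / 2) * p1 ≤ √((1 + ρ) / 2 * p0 + (1 - ρ) / 2 * p1) := by
      refine Real.le_sqrt_of_sq_le ?_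
      rw [mul_pow, Real.sq_sqrt (by positivity)]
      nlinarith [mul_nonneg (by linarith : 0 ≤ 1 + ρ) i0, mul_le_mul_of_nonneg_left j1 r1]
    have := mul_le_mul_of_nonneg_right k j0
    linarith

end Crest.Agent.R307.MZ
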