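import Crest.Agent.R307.MZfC0

set_option autoImplicit false
set_option maxRecDepth 100000
set_option Elab.async false
set_option linter.all false

namespace Crest.Agent.R307.MZf

open Crest.Agent.Bern


theorem final (x : ℕ → ℝ) (hx : In01 x) : 0 ≤ top0_r x := by
  have h := main (W0 := 160) (m := 1) (by decide) (by decide) rfl hok hR hb c0 x hx (by
    intro e he; simp [es] at he)
  simp only [PE.eval, top0_ev] at h
  push_cast at h
  linarith

end Crest.Agent.R307.MZf
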