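import Crest.Agent.R307.SMs
import Crest.Agent.R307.SV

/-!
# R307/SW: the end step with the improved variance bound
-/

set_option autoImplicit false

namespace Crest.Agent.R307

open Crest.CubeNoise

theorem Rv_neg {n : ℕ} (f : (Fin n → Bool) → ℝ) : Rv (fun x => -f x) = Rv f := by
  simp only [Rv, neg_mul_neg]

theorem hw_core2 {ρ : ℝ} (h0 : 3 / 10 ≤ ρ) (h1 : ρ ≤ 87 / 100)
    (main : ∀ (n : ℕ) (f : (Fin n → Bool) → ℝ), (∀ x, f x = 1 ∨ f x = -1) → 0 ≤ cubeAverage f → W1 f ≤ 4 / 5 →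
      W1 f + (1 + Rv f) / 4 ≤ 8461 / 10000 → HN ρ f) : XCore ρ := by
  have small : ∀ (n : ℕ) (f : (Fin n → Bool) → ℝ), (∀ x, f x = 1 ∨ f x = -1) → W1 f ≤ 4 / 5 →
      W1 f + (1 + Rv f) / 4 ≤ 8461 / 10000 → HN ρ f := by
    intro n f hf hW hR
    rcases le_total 0 (cubeAverage f) with h | h
    · exact main n f hf h hW hR
    · refine HN_neg (main n _ (hnz_neg hf) ?_ ?_ ?_)
      · rw [avg_neg]; linarith
      · rwa [W1_neg]
      · rwa [W1_neg, Rv_neg]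
  have all : ∀ (n : ℕ) (f : (Fin n → Bool) → ℝ), (∀ x, f x = 1 ∨ f x = -1) → HN ρ f := by
    intro n f hf
    cases n with
    | zero =>
      have e : W1 f = 0 := by simp [W1]
      have : Rv f ≤ 1 := avg_le fun x => by
        rcases hf x with a | a <;> rcases hf (fun j => !x j) with b | b <;> rw [a, b] <;> norm_num
      exact small 0 f hf (by rw [e]; norm_num) (by rw [e]; linarith)
    | succ n =>
      obtain ⟨i, -, hi⟩ := Finset.exists_max_image Finset.univ (fun i => |co f i|) Finset.univ_nonempty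
      refine HN_swap (Equiv.swap 0 i) ?_
      have hf' : ∀ x : Fin (n + 1) → Bool, f (x ∘ Equiv.swap 0 i) = 1 ∨ f (x ∘ Equiv.swap 0 i) = -1 := fun x => hf _
      have e0 : co (fun x => f (x ∘ Equiv.swap 0 i)) 0 = co f i := by
        have := co_swap (Equiv.swap 0 i) f i
        rwa [Equiv.swap_apply_right] at this
      have hmax : ∀ j, |co (fun x => f (x ∘ Equiv.swap 0 i)) j| ≤ |co (fun x => f (x ∘ Equiv.swap 0 i)) 0| := fun j => by
        have := co_swap (Equiv.swap 0 i) f (Equiv.swap 0 i j)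
        rw [Equiv.swap_apply_self] at this
        rw [this, e0]
        exact hi _ (Finset.mem_univ _)
      rcases le_total |co (fun x => f (x ∘ Equiv.swap 0 i)) 0| (81 / 100) with h | h
      · exact small _ _ hf' (W1_case hf' hmax h) (sv_case hf' hmax h)
      · rcases le_abs.1 h with h | h
        · exact hwz_corner h0 h1 hf' h
        · refine HN_neg (hwz_corner h0 h1 (hnz_neg hf') ?_)
          rwa [co_neg]
  intro n u hu
  have h := all n (fun y => 2 * u y + -1) fun y => by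
    rcases hu y with a | a <;> rw [a] <;> norm_num
  unfold HN at h
  rw [avg_add, avg_mul, avg_const, xind_sqrt] at h
  simp only [noise_affine, xind_sqrt] at h
  linarith

/-- The improved variance bound for `T 1_A`, `|A| = a ≥ 1/2`. -/
noncomputable def smV2 (ρ a : ℝ) : ℝ :=
  ρ ^ 2 * ((1 - ρ ^ 2) * min (4 / 5 - 539 / 5000 * ρ ^ 2) (2 * (1 - a)) + ρ ^ 2 * (4 * (a * (1 - a)))) / 4

theorem sm_main2 {ρ : ℝ} (h0 : 0 ≤ ρ) (h1 : ρ ≤ 1) (Φ B : ℝ → ℝ)
    (hB : ∀ (n : ℕ) (u : (Fin n → Bool) → ℝ), (∀ y, u y = 0 ∨ u y = 1) →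
      B (cubeAverage u) ≤ cubeAverage fun x => Φ (noise ρ u x))
    (fin : ∀ a : ℝ, 1 / 2 ≤ a → a ≤ 1 → ∃ L1 L2 c0 c1 ν : ℝ, SMFam Φ L1 L2 c0 c1 ν ∧
      2 * √(a * (1 - a)) - 1 + √(1 - ρ ^ 2) ≤ L1 * B a + L2 * B (1 - a) + c0 + c1 * a - ν * (a ^ 2 + smV2 ρ a))
    (n : ℕ) (f : (Fin n → Bool) → ℝ) (hf : ∀ x, f x = 1 ∨ f x = -1) (hm : 0 ≤ cubeAverage f) (hW : W1 f ≤ 4 / 5)
    (hR : W1 f + (1 + Rv f) / 4 ≤ 8461 / 10000) : HN ρ f := by
  have hρ : |ρ| ≤ 1 := abs_le.2 ⟨by linarith, h1⟩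
  have hρ2 : ρ ^ 2 ≤ 1 := by nlinarith
  set u : (Fin n → Bool) → ℝ := fun y => 1 / 2 * f y + 1 / 2 with hu
  set v : (Fin n → Bool) → ℝ := fun y => -(1 / 2) * f y + 1 / 2 with hv
  have bu : ∀ y, u y = 0 ∨ u y = 1 := fun y => by
    rcases hf y with e | e <;> simp only [hu, e] <;> norm_num
  have bv : ∀ y, v y = 0 ∨ v y = 1 := fun y => by
    rcases hf y with e | e <;> simp only [hv, e] <;> norm_num
  have hle : cubeAverage f ≤ 1 := avg_le fun x => by rcases hf x with h | h <;> rw [h] <;> norm_num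
  set a := (1 + cubeAverage f) / 2 with ha
  have au : cubeAverage u = a := by simp only [hu, avg_add, avg_mul, avg_const]; rw [ha]; ring
  have av : cubeAverage v = 1 - a := by simp only [hv, avg_add, avg_mul, avg_const]; rw [ha]; ring
  have nu : ∀ x, noise ρ u x = 1 / 2 * noise ρ f x + 1 / 2 := fun x => noise_affine ρ _ _ f x
  have nv : ∀ x, noise ρ v x = 1 - noise ρ u x := fun x => by
    rw [nu x]; simp only [hv]; rw [noise_affine]; ring
  have b1 := hB n u bu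
  have b2 := hB n v bv
  rw [au] at b1
  rw [av] at b2
  simp only [nv] at b2
  obtain ⟨L1, L2, c0, c1, ν, ⟨l1, l2, l3, hp⟩, hnum⟩ := fin a (by linarith) (by linarith)
  have m1 : cubeAverage (noise ρ u) = a := by rw [avg_noise, au]
  have var : (cubeAverage fun x => (noise ρ u x - a) ^ 2) ≤ smV2 ρ a := by
    have e1 : ∀ x, (noise ρ u x - a) ^ 2 = (noise ρ f x - cubeAverage f) ^ 2 / 4 := fun x => by
      rw [nu x, ha]; ring
    simp only [e1, avg_div]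
    have h2 := hn_var hρ2 hf
    have h3 := (W1_le_mean hf).1
    rw [abs_of_nonneg hm] at h3
    have h4 : W1 f ≤ 2 * (1 - a) := by linarith
    have h5 := mul_le_mul_of_nonneg_left h4 (mul_nonneg (sq_nonneg ρ) (sub_nonneg.2 hρ2))
    have h7 := sv_bound hρ2 hf hW hR
    have h6 : 1 - cubeAverage f ^ 2 = 4 * (a * (1 - a)) := by rw [ha]; ring
    rw [h6] at h2 h7
    unfold smV2
    rcases min_choice (4 / 5 - 539 / 5000 * ρ ^ 2) (2 * (1 - a)) with h | h <;> rw [h] <;> linarith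
  have pt : ∀ x, L1 * Φ (noise ρ u x) + L2 * Φ (1 - noise ρ u x) + (c0 + ν * a ^ 2) + (c1 - 2 * ν * a) * noise ρ u x
      - ν * (noise ρ u x - a) ^ 2 ≤ √(1 - noise ρ f x ^ 2) := fun x => by
    have := hp _ (xv_noise_nonneg hρ bu x) (xv_noise_le hρ bu x)
    rw [← xind_sqrt, show 2 * noise ρ u x + -1 = noise ρ f x by rw [nu x]; ring] at this
    linarith
  have hav := avg_mono pt
  rw [avg_sub, avg_add, avg_add, avg_add, avg_mul, avg_mul, avg_mul, avg_mul, avg_const, m1] at hav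
  have d1 := mul_le_mul_of_nonneg_left b1 l1
  have d2 := mul_le_mul_of_nonneg_left b2 l2
  have d3 := mul_le_mul_of_nonneg_left var l3
  rw [HN, show cubeAverage f = 2 * a + -1 by rw [ha]; ring, xind_sqrt]
  linarith

theorem sm_core2 {ρ : ℝ} (h0 : 3 / 10 ≤ ρ) (h1 : ρ ≤ 87 / 100) (Φ B : ℝ → ℝ)
    (hB : ∀ (n : ℕ) (u : (Fin n → Bool) → ℝ), (∀ y, u y = 0 ∨ u y = 1) →
      B (cubeAverage u) ≤ cubeAverage fun x => Φ (noise ρ u x))
    (fin : ∀ a : ℝ, 1 / 2 ≤ a → a ≤ 1 → ∃ L1 L2 c0 c1 ν : ℝ, SMFam Φ L1 L2 c0 c1 ν ∧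
      2 * √(a * (1 - a)) - 1 + √(1 - ρ ^ 2) ≤ L1 * B a + L2 * B (1 - a) + c0 + c1 * a - ν * (a ^ 2 + smV2 ρ a)) :
    XCore ρ :=
  hw_core2 h0 h1 (sm_main2 (by linarith) (by linarith) Φ B hB fin)

/-- As `sm_sym`, with the smaller variance `smV2`. -/
theorem sm_sym2 {ρ : ℝ} (h0 : 3 / 10 ≤ ρ) (h1 : ρ ≤ 87 / 100) (B : ℝ → ℝ)
    (hB : ∀ (n : ℕ) (u : (Fin n → Bool) → ℝ), (∀ y, u y = 0 ∨ u y = 1) →
      B (cubeAverage u) ≤ cubeAverage fun x => √(noise ρ u x))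
    (fin : ∀ a : ℝ, 1 / 2 ≤ a → a ≤ 1 → ∃ w : ℝ, 1 / 2 ≤ w ∧
      smD w * (2 * √(a * (1 - a)) + √(1 - ρ ^ 2)) + 1 + w ^ 2 * smE w - 4 * (a * (1 - a) - smV2 ρ a) ≤
        2 * w * (smE w + w ^ 2) * (B a + B (1 - a))) : XCore ρ := by
  refine sm_core2 h0 h1 (fun p => √p) B hB fun a a0 a1 => ?_
  obtain ⟨w, hw, h⟩ := fin a a0 a1
  have hD := smD_pos hw
  refine ⟨_, _, _, _, _, sm_fam hw, ?_⟩
  have e : 2 * w * (smE w + w ^ 2) / smD w * B a + 2 * w * (smE w + w ^ 2) / smD w * B (1 - a)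
      + (-1 - (1 + w ^ 2 * smE w) / smD w) + 4 / smD w * a - 4 / smD w * (a ^ 2 + smV2 ρ a)
      = (2 * w * (smE w + w ^ 2) * (B a + B (1 - a)) - smD w - (1 + w ^ 2 * smE w)
        + 4 * (a * (1 - a) - smV2 ρ a)) / smD w := by
    field_simp
    ring
  rw [e, le_div_iff₀ hD]
  linarith

end Crest.Agent.R307
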