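import Crest.Agent.R307.MZ1
import Crest.Agent.R307.MZf
import Crest.Agent.R307.MZm
import Crest.Agent.R307.MZq1
import Crest.Agent.R307.MZq2
import Crest.Agent.R307.MZq3
import Crest.Agent.R307.MZq4
import Crest.Agent.R307.SW

/-!
# R307/MZ2: window M (`66/100 ≤ ρ ≤ 4/5`) from the budget `Bz`
-/

set_option autoImplicit false
set_option maxRecDepth 100000

namespace Crest.Agent.R307.MZ

open Crest.CubeNoise Set Crest.Agent.Bern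

theorem cQ1 {σ v : ℝ} (h1 : U01 σ) (h2 : U01 v) : 0 ≤ L1 σ v + 0 := MZq1.final (vec σ v 0 0 0) (vec_in h1 h2 u0 u0 u0)
theorem cQ2 {σ v : ℝ} (h1 : U01 σ) (h2 : U01 v) : 0 ≤ L2 σ v + 0 := MZq2.final (vec σ v 0 0 0) (vec_in h1 h2 u0 u0 u0)
theorem cQ3 {σ v : ℝ} (h1 : U01 σ) (h2 : U01 v) : 0 ≤ N1 σ v + 0 := MZq3.final (vec σ v 0 0 0) (vec_in h1 h2 u0 u0 u0)
theorem cQ4 {σ v : ℝ} (h1 : U01 σ) (h2 : U01 v) : 0 ≤ N2 σ v + 0 := MZq4.final (vec σ v 0 0 0) (vec_in h1 h2 u0 u0 u0)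

theorem cM {σ v t : ℝ} (h1 : U01 σ) (h2 : U01 v) (h3 : U01 t) :
    0 ≤ 4 * t * (1 - t ^ 2) * (1 + t ^ 2) ^ 2 - L1 σ v * (2 * t) * (1 + t ^ 2) ^ 3 -
      L2 σ v * (1 - t ^ 2) * (1 + t ^ 2) ^ 3 - lq σ v * (4 * t ^ 2) * (1 + t ^ 2) ^ 2 - c0 σ v * (1 + t ^ 2) ^ 4 +
      (N1 σ v + N2 σ v) * (16 * t ^ 4) :=
  MZm.final (vec σ v t 0 0) (vec_in h1 h2 h3 u0 u0)

noncomputable def Bh (σ n D : ℝ) : ℝ :=
  b1 σ * n ^ 1 * D ^ 7 + b2 σ * n ^ 2 * D ^ 6 + b3 σ * n ^ 3 * D ^ 5 + b4 σ * n ^ 4 * D ^ 4 + b5 σ * n ^ 5 * D ^ 3 +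
    b6 σ * n ^ 6 * D ^ 2 + b7 σ * n ^ 7 * D ^ 1 + b8 σ * n ^ 8 * D ^ 0

noncomputable def Ff (σ v x na nb D y : ℝ) : ℝ :=
  L1 σ v * Bh σ na D + L2 σ v * Bh σ nb D + (c0 σ v + 1 - sv σ) * D ^ 8 + (lq σ v * na - y) * D ^ 7 -
    (N1 σ v * (na ^ 2 + x * (sv σ ^ 2 * (4 / 5 - 539 / 5000 * x) * D ^ 2 + x * 4 * na * nb) * (1 / 4)) +
      N2 σ v * (na ^ 2 + x * (sv σ ^ 2 * 2 * nb * D + x * 4 * na * nb) * (1 / 4))) * D ^ 6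

theorem cF {σ v : ℝ} (h1 : U01 σ) (h2 : U01 v) :
    0 ≤ Ff σ v (1 - sv σ ^ 2) ((1 + 4 / 5 * v) ^ 2) ((1 - 4 / 5 * v) ^ 2) (2 * (1 + (4 / 5 * v) ^ 2))
      (2 * (1 - (4 / 5 * v) ^ 2)) :=
  MZf.final (vec σ v 0 0 0) (vec_in h1 h2 u0 u0 u0)

theorem Bh_eq (σ a D : ℝ) : Bh σ (a * D) D = D ^ 8 * Bz σ a := by
  unfold Bh Bz
  ring

theorem halfang {g y : ℝ} (hg : 0 ≤ g) (hy : 0 ≤ y) (h : g ^ 2 + y ^ 2 = 1) :
    ∃ t : ℝ, U01 t ∧ 2 * t = g * (1 + t ^ 2) ∧ 1 - t ^ 2 = y * (1 + t ^ 2) := by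
  have p : 0 < 1 + y := by linarith
  have g1 : g ≤ 1 := by nlinarith
  refine ⟨g / (1 + y), ⟨div_nonneg hg p.le, (div_le_one p).2 (by linarith)⟩, ?_, ?_⟩
  · field_simp
    linear_combination (-g) * h
  · field_simp
    linear_combination (-(1 + y)) * h

theorem fam {σ v : ℝ} (h1 : U01 σ) (h2 : U01 v) :
    SMFam (fun p => √p) (L1 σ v) (L2 σ v) (c0 σ v) (lq σ v) (N1 σ v + N2 σ v) := by
  refine ⟨by simpa using cQ1 h1 h2, by simpa using cQ2 h1 h2, by linarith [cQ3 h1 h2, cQ4 h1 h2], fun p p0 p1 => ?_⟩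
  have q0 := Real.sq_sqrt p0
  have q1 := Real.sq_sqrt (sub_nonneg.2 p1)
  obtain ⟨t, ht, e1, e2⟩ := halfang (Real.sqrt_nonneg p) (Real.sqrt_nonneg (1 - p)) (by linarith)
  have k := cM h1 h2 ht
  rw [Real.sqrt_mul p0]
  simp only
  generalize √p = g at *
  generalize √(1 - p) = y at *
  subst q0
  have D0 : 0 < (1 + t ^ 2) ^ 4 := by positivity
  refine le_of_mul_le_mul_left (sub_nonneg.1 (k.trans (le_of_eq ?_))) D0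
  have f1 : 4 * t * (1 - t ^ 2) = 2 * (g * (1 + t ^ 2)) * (y * (1 + t ^ 2)) := by rw [← e1, ← e2]; ring
  have f2 : 4 * t ^ 2 = (g * (1 + t ^ 2)) ^ 2 := by rw [← e1]; ring
  have f3 : 16 * t ^ 4 = (g * (1 + t ^ 2)) ^ 4 := by rw [← e1]; ring
  rw [f1, f2, f3, e1, e2]
  ring

/-- Window M. -/
theorem mz_core {ρ : ℝ} (h0 : 66 / 100 ≤ ρ) (h1 : ρ ≤ 4 / 5) : XCore ρ := by
  have r0 : 0 ≤ 1 - ρ ^ 2 := by nlinarith
  have es := Real.sq_sqrt r0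
  have s0 : 3 / 5 ≤ √(1 - ρ ^ 2) := Real.le_sqrt_of_sq_le (by nlinarith)
  have s1 : √(1 - ρ ^ 2) ≤ 94 / 125 := Real.sqrt_le_iff.2 ⟨by norm_num, by nlinarith⟩
  obtain ⟨σ, eσ⟩ : ∃ σ : ℝ, sv σ = √(1 - ρ ^ 2) := ⟨(√(1 - ρ ^ 2) - 3 / 5) * (125 / 19), by unfold sv; ring⟩
  have hσ : U01 σ := by
    unfold sv at eσ
    constructor <;> linarith
  have hs : sv σ ^ 2 = 1 - ρ ^ 2 := by rw [eσ, es]
  refine sm_core2 (by linarith) (by linarith) (fun p => √p) (Bz σ) (budget (by linarith) (by linarith) hs hσ)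
    fun a a0 a1 => ?_
  have z0 : 0 ≤ a * (1 - a) := mul_nonneg (by linarith) (by linarith)
  have ez := Real.sq_sqrt z0
  obtain ⟨t, ht, e1, e2⟩ := halfang (g := 2 * a - 1) (y := 2 * √(a * (1 - a))) (by linarith) (by positivity)
    (by nlinarith)
  rw [← eσ]
  generalize √(a * (1 - a)) = r at *
  rcases le_total t (4 / 5) with h | h
  · obtain ⟨v, rfl⟩ : ∃ v, t = 4 / 5 * v := ⟨5 / 4 * t, by ring⟩
    have hv : U01 v := ⟨by linarith [ht.1], by linarith⟩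
    refine ⟨_, _, _, _, _, fam hσ hv, ?_⟩
    have k := cF hσ hv
    have f1 : (1 + 4 / 5 * v) ^ 2 = a * (2 * (1 + (4 / 5 * v) ^ 2)) := by linarith
    have f2 : (1 - 4 / 5 * v) ^ 2 = (1 - a) * (2 * (1 + (4 / 5 * v) ^ 2)) := by linarith
    have f3 : 2 * (1 - (4 / 5 * v) ^ 2) = 2 * r * (2 * (1 + (4 / 5 * v) ^ 2)) := by linarith
    have D0 : 0 < 2 * (1 + (4 / 5 * v) ^ 2) := by positivity
    rw [f1, f2, f3] at k
    generalize 2 * (1 + (4 / 5 * v) ^ 2) = D at k D0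
    unfold Ff at k
    rw [Bh_eq, Bh_eq, hs] at k
    have k2 : 0 ≤ D ^ 8 * (L1 σ v * Bz σ a + L2 σ v * Bz σ (1 - a) + (c0 σ v + 1 - sv σ) + (lq σ v * a - 2 * r) -
        (N1 σ v * (a ^ 2 + ρ ^ 2 * ((1 - ρ ^ 2) * (4 / 5 - 539 / 5000 * ρ ^ 2) + ρ ^ 2 * (4 * (a * (1 - a)))) / 4) +
          N2 σ v * (a ^ 2 + ρ ^ 2 * ((1 - ρ ^ 2) * (2 * (1 - a)) + ρ ^ 2 * (4 * (a * (1 - a)))) / 4))) :=
      k.trans (le_of_eq (by ring))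
    have k3 := (mul_nonneg_iff_of_pos_left (by positivity)).1 k2
    have m1 : smV2 ρ a ≤ ρ ^ 2 * ((1 - ρ ^ 2) * (4 / 5 - 539 / 5000 * ρ ^ 2) + ρ ^ 2 * (4 * (a * (1 - a)))) / 4 := by
      unfold smV2
      gcongr
      exact min_le_left _ _
    have m2 : smV2 ρ a ≤ ρ ^ 2 * ((1 - ρ ^ 2) * (2 * (1 - a)) + ρ ^ 2 * (4 * (a * (1 - a)))) / 4 := by
      unfold smV2
      gcongr
      exact min_le_right _ _
    have n1 := mul_le_mul_of_nonneg_left m1 (by simpa using cQ3 hσ hv)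
    have n2 := mul_le_mul_of_nonneg_left m2 (by simpa using cQ4 hσ hv)
    linarith
  · refine ⟨0, 0, 0, 0, 0, ⟨le_rfl, le_rfl, le_rfl, fun p _ _ => by simp⟩, ?_⟩
    have t2 : 16 / 25 ≤ t ^ 2 := by nlinarith
    have : 2 * r ≤ 31 / 125 := by
      by_contra c
      nlinarith
    rw [eσ]
    linarith

end Crest.Agent.R307.MZ
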