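import Crest.Agent.R307.MZaD

set_option autoImplicit false
set_option maxRecDepth 100000
set_option Elab.async false
set_option linter.all false

namespace Crest.Agent.R307.MZa

open Crest.Agent.Bern

theorem c0 : Good 64 44 [2, 5, 6, 4, 7] 2 (sub 64 [2, 5, 6, 4, 7] 2 R []) :=
  good_of_go (wb := 17) (by decide) (by decide) (by decide) 12 _
    0x80003c00020000f000080003c000c00fff1000080003c00000001f14000080003c001000fff200010003fd0c4001200fff000000007c8000200fff000000007cc400000001f32000080003c0004000ff2000000007c8c0016000ff00018003fc4c80002000ff000000007c400000001f2000080003c000400fff1000000007c400000001f000000007c48c00000001f00008003fc00000001f234000080003c0002000ff1000d83fffc800000001f13000080003c0008000ff1000000007c400000001f231000000007c00000001f1000000007d000000001f000000007c400000001f43000000007c00000001f000000007c4400000001f43000000007c00000001f000000007c1000000001f000000007c400000001f431000000007c00000001f000000007d000000001f3000000007c00000001f3000000007d044c00000001f32000000007c00000001f1000000007c800000001f000000007c00000001f112000000007c00000001f1000000007c00000001f1000000007d0800000001f000000007c00000001f000000007c400000001f41234000000007c00000001f1000000007d000000001f000000007c00000001f32000000007d08c00000001f000000007d000000001f000000007c00000001f000000007c00000001f32000000007cc90800000001f000000007c00000001f32000000007c00000001f2431000000007c00000001f4000000007c00000001f1000000007cc800000001f000000007d000000001f000000007c000000001f32131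 (by decide +kernel)

end Crest.Agent.R307.MZa
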