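import Crest.Agent.R307.MZbD

set_option autoImplicit false
set_option maxRecDepth 100000
set_option Elab.async false
set_option linter.all false

namespace Crest.Agent.R307.MZb

open Crest.Agent.Bern

theorem c0 : Good 64 44 [2, 5, 6, 4, 4] 2 (sub 64 [2, 5, 6, 4, 4] 2 R [(1, false)]) :=
  good_of_go (wb := 17) (by decide) (by decide) (by decide) 12 _
    0x7c00000001f2000000007c00000001f1000000007c400000001f43000000007c00000001f000000007c0c00000001f42000000007d000000001f000000007d000000001f000000007c0800000001f41000000007c00000001f000000007c0400000001f000000007c000000001f34000000007cc00000001f000000007cc00000001f000000007c000000001f000000007cc00000001f041000000007c00000001f032000000007c00000001f000000007c00000001f30000000007c00000001f012000000007c00000001f000000007d000000001f000000007c000000001f31234000000007c00000001f0000000007c00000001f3000000007c00000001f104000000007c00000001f2000000007c00000001f000000007c400000001f134000000007c00000001f1000000007c00000001f000000007c4c00000001f1402000000007c00000001f000000007c09000000001f000000007c000000001f000000007c000000001f12000000007c00000001f0000000007c00000001f0000000007cc90c400000001f000000007c00000001f23000000007c00000001f1143 (by decide +kernel)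

theorem c1 : Good 64 44 [2, 5, 6, 4, 4] 2 (sub 64 [2, 5, 6, 4, 4] 2 R [(1, true)]) :=
  good_of_go (wb := 17) (by decide) (by decide) (by decide) 15 _
    0x80003c00020000f000080003c0002000ff00020003fcc000c000ff321100018003fc0014000ff300078003bcc00000001f00020003fc0004000ff000000007c48c000e000ff00010003fc8c5000020000f0002803ffc800000001f40004003ffc002000fff3000000007c800000001f000000007c10400020000f00018003fc400000001f2000000007d0c000e000ff000000007c800000001f43000000007c00000001f000183fffc00004e0ffff000000007c400000001f20003003ffc000400fff2000000007c800000001f40300010003fc000600fff2000000007c800000001f40002803ffc00a60ffff0000000007c800000001f2000000007d04c0004000ff0004003ffc400000001f2000000007d0c40010000ff00010003fc400000001f432000000007c00000001f2000000007c00000001f0000000007c800000001f32000000007c00000001f000000007c0800000001f310009803ffc00000001f2000000007c8c008e00fff000000007d0000e00fff1000000007c8d000000001f000000007c0000400fff000000007c00000001f0000000007c0800000001f13000080003c002600fff0002003ffc48000600fff10001803ffd000000001f1000000007c00000001f0000000007cc00000001f000000007cc48c00020000f00020003fc40006000ff000000007c480004000ff000000007c400000001f24000000007c800000001f13000000007c00000001f2000000007c400000001f000000007c000000001f13000000007c00000001f0000000007ccd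0400000001f000000007c00000001f03000000007c00000001f1000000007d0400000001f000000007cc00000001f000000007cc400000001f000000007c000000001f000000007c00000001f043000000007c00000001f3000000007c050c00000001f000000007c00000001f03000000007c400000001f000000007c10400000001f000000007c400000001f3000000007c00000001f000000007c1000000001f3000000007c00000001f3000000007c00000001f3000000007c10400000001f000000007c00000001f0134000000007c00000001f1000000007cc00000001f000000007c00000001f131000000007c00000001f0000000007c00000001f4000000007c00000001f403000000007c00000001f2000000007c00000001f401413000000007c00000001f000000007c00000001f31000000007cc00000001f000000007c800000001f000000007cc000000001f000000007c000000001f000000007c1000000001f000000007d0c400000001f34132000000007c00000001f2000000007c00000001f000000007c000000001f000000007c40c800000001f000000007cc00000001f000000007c4000000001f000000007c00000001f021000000007c00000001f0000000007c00000001f000000007c404c00000001f000000007c00000001f00000000007c400000001f000000007c000000001f000000007c1000000001f000000007cc4d0c00000001f000000007c00000001f3000000007d000000001f131000000007c00000001f000000007c000000001f13000000007d000000001f14000000007c00000001f0000000007cc00000001f000000007cc00000001f000000007c400000001f31000000007cd000000001f000000007cc00000001f4000000007c00000001f000000007c4c400000001f000000007c4c400000001f000000007c400000001f4000000007c400000001f3000000007c400000001f4434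 (by decide +kernel)

end Crest.Agent.R307.MZb
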