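import Crest.Agent.R307.MZcD

set_option autoImplicit false
set_option maxRecDepth 100000
set_option Elab.async false
set_option linter.all false

namespace Crest.Agent.R307.MZc

open Crest.Agent.Bern

theorem c0 : Good 64 44 [3, 11, 10] 2 (sub 64 [3, 11, 10] 2 R []) :=
  good_of_go (wb := 17) (by decide) (by decide) (by decide) 7 _
    0x80003c00020000f0009803ffc400000001f110012803ffc00000001f2000000007c4800000001f000000007c00000001f011000000007c00000001f1000000007c00000001f000000007c00000001f00112 (by decide +kernel)

end Crest.Agent.R307.MZc
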