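import Crest.Agent.R307.MZfD

set_option autoImplicit false
set_option maxRecDepth 100000
set_option Elab.async false
set_option linter.all false

namespace Crest.Agent.R307.MZf

open Crest.Agent.Bern

theorem c0 : Good 64 44 [7, 21] 1 (sub 64 [7, 21] 1 R []) :=
  good_of_go (wb := 17) (by decide) (by decide) (by decide) 3 _
    0x7c0003e0001f01 (by decide +kernel)

end Crest.Agent.R307.MZf
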