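import Crest.Agent.Lib.Bern.Main

/-! generated by bern.py (helper67) -/

set_option autoImplicit false
set_option maxRecDepth 100000
set_option Elab.async false
set_option linter.all false

namespace Crest.Agent.R307.MZf

open Crest.Agent.Bern

def s : PE := (.add (.cst 75) (.mul (.cst 19) (.var 0)))

noncomputable def s_r (x : ℕ → ℝ) : ℝ := ((3 / 5 : ℝ) + ((19 / 125 : ℝ) * x 0))

theorem s_ev (x : ℕ → ℝ) : s.eval x = 125 * s_r x := by
  simp only [s, PE.eval, s_r]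
  all_goals (push_cast; ring)

def L1 : PE := (.add (.mul (.add (.mul (.cst 16) (.mul (.add (.mul (.add (.mul (.add (.mul (.add (.mul (.cst (-43456)) (.var 1)) (.cst 149336)) (.var 1)) (.cst (-125404))) (.var 1)) (.cst 13546)) (.var 1)) (.cst (-1497))) (.var 1))) (.cst 411)) (.var 0)) (.add (.mul (.add (.mul (.cst 4) (.mul (.add (.mul (.cst 4) (.mul (.add (.mul (.add (.mul (.cst (-194528)) (.var 1)) (.cst 285376)) (.var 1)) (.cst (-88500))) (.var 1))) (.cst 92955)) (.var 1))) (.cst (-1517))) (.var 1)) (.cst 106385)))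

noncomputable def L1_r (x : ℕ → ℝ) : ℝ := (((((((((((((-43456 / 3125 : ℝ) * x 1) + (149336 / 3125 : ℝ)) * x 1) + (-125404 / 3125 : ℝ)) * x 1) + (13546 / 3125 : ℝ)) * x 1) + (-1497 / 3125 : ℝ)) * x 1) + (411 / 50000 : ℝ)) * x 0) + (((((((((((-194528 / 3125 : ℝ) * x 1) + (285376 / 3125 : ℝ)) * x 1) + (-708 / 25 : ℝ)) * x 1) + (18591 / 2500 : ℝ)) * x 1) + (-1517 / 50000 : ℝ)) * x 1) + (21277 / 10000 : ℝ)))

theorem L1_ev (x : ℕ → ℝ) : L1.eval x = 50000 * L1_r x := by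
  simp only [L1, PE.eval, L1_r]
  all_goals (push_cast; ring)

def L2 : PE := (.add (.mul (.cst 16) (.mul (.add (.mul (.add (.mul (.add (.mul (.cst 2) (.mul (.add (.mul (.add (.mul (.cst (-17152)) (.var 1)) (.cst 6344)) (.var 1)) (.cst 20292)) (.var 1))) (.cst (-19163))) (.var 1)) (.cst 66)) (.var 1)) (.cst 17)) (.var 0))) (.add (.mul (.cst 16) (.mul (.add (.mul (.add (.mul (.cst 2) (.mul (.add (.mul (.add (.mul (.cst (-37936)) (.var 1)) (.cst 80016)) (.var 1)) (.cst (-65103))) (.var 1))) (.cst 33511)) (.var 1)) (.cst (-298))) (.var 1))) (.cst 212731)))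

noncomputable def L2_r (x : ℕ → ℝ) : ℝ := (((((((((((((-17152 / 3125 : ℝ) * x 1) + (6344 / 3125 : ℝ)) * x 1) + (20292 / 3125 : ℝ)) * x 1) + (-19163 / 6250 : ℝ)) * x 1) + (33 / 3125 : ℝ)) * x 1) + (17 / 6250 : ℝ)) * x 0) + (((((((((((-37936 / 3125 : ℝ) * x 1) + (80016 / 3125 : ℝ)) * x 1) + (-65103 / 3125 : ℝ)) * x 1) + (33511 / 6250 : ℝ)) * x 1) + (-149 / 3125 : ℝ)) * x 1) + (212731 / 100000 : ℝ)))

theorem L2_ev (x : ℕ → ℝ) : L2.eval x = 100000 * L2_r x := by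
  simp only [L2, PE.eval, L2_r]
  all_goals (push_cast; ring)

def lq : PE := (.add (.mul (.cst 4) (.mul (.add (.mul (.add (.mul (.cst 8) (.mul (.add (.mul (.add (.mul (.add (.mul (.cst 84576) (.var 1)) (.cst (-231576))) (.var 1)) (.cst 151458)) (.var 1)) (.cst (-13452))) (.var 1))) (.cst 12183)) (.var 1)) (.cst (-251))) (.var 0))) (.add (.mul (.cst 8) (.mul (.add (.mul (.cst 4) (.mul (.add (.mul (.add (.mul (.add (.mul (.cst 192736) (.var 1)) (.cst (-233172))) (.var 1)) (.cst 73231)) (.var 1)) (.cst (-24912))) (.var 1))) (.cst 289)) (.var 1))) (.cst 51681)))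

noncomputable def lq_r (x : ℕ → ℝ) : ℝ := (((((((((((((84576 / 3125 : ℝ) * x 1) + (-231576 / 3125 : ℝ)) * x 1) + (151458 / 3125 : ℝ)) * x 1) + (-13452 / 3125 : ℝ)) * x 1) + (12183 / 25000 : ℝ)) * x 1) + (-251 / 25000 : ℝ)) * x 0) + (((((((((((192736 / 3125 : ℝ) * x 1) + (-233172 / 3125 : ℝ)) * x 1) + (73231 / 3125 : ℝ)) * x 1) + (-24912 / 3125 : ℝ)) * x 1) + (289 / 12500 : ℝ)) * x 1) + (51681 / 100000 : ℝ)))

theorem lq_ev (x : ℕ → ℝ) : lq.eval x = 100000 * lq_r x := by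
  simp only [lq, PE.eval, lq_r]
  all_goals (push_cast; ring)

def cz : PE := (.add (.mul (.cst 2) (.mul (.add (.mul (.add (.mul (.cst 8) (.mul (.add (.mul (.add (.mul (.add (.mul (.cst 17184) (.var 1)) (.cst (-6896))) (.var 1)) (.cst (-350))) (.var 1)) (.cst 6886)) (.var 1))) (.cst 2137)) (.var 1)) (.cst (-107))) (.var 0))) (.add (.mul (.add (.mul (.cst 4) (.mul (.add (.mul (.cst 4) (.mul (.add (.mul (.add (.mul (.cst 69008) (.var 1)) (.cst (-158820))) (.var 1)) (.cst 85836)) (.var 1))) (.cst (-84581))) (.var 1))) (.cst 2697)) (.var 1)) (.cst (-106918))))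

noncomputable def cz_r (x : ℕ → ℝ) : ℝ := (((((((((((((17184 / 3125 : ℝ) * x 1) + (-6896 / 3125 : ℝ)) * x 1) + (-14 / 125 : ℝ)) * x 1) + (6886 / 3125 : ℝ)) * x 1) + (2137 / 25000 : ℝ)) * x 1) + (-107 / 25000 : ℝ)) * x 0) + (((((((((((69008 / 3125 : ℝ) * x 1) + (-31764 / 625 : ℝ)) * x 1) + (85836 / 3125 : ℝ)) * x 1) + (-84581 / 12500 : ℝ)) * x 1) + (2697 / 50000 : ℝ)) * x 1) + (-53459 / 25000 : ℝ)))

theorem cz_ev (x : ℕ → ℝ) : cz.eval x = 50000 * cz_r x := by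
  simp only [cz, PE.eval, cz_r]
  all_goals (push_cast; ring)

def N1 : PE := (.add (.mul (.add (.mul (.cst 8) (.mul (.add (.mul (.cst 2) (.mul (.add (.mul (.add (.mul (.add (.mul (.cst 108128) (.var 1)) (.cst (-228920))) (.var 1)) (.cst 162316)) (.var 1)) (.cst (-40351))) (.var 1))) (.cst 2503)) (.var 1))) (.cst (-357))) (.var 0)) (.mul (.cst 8) (.add (.mul (.add (.mul (.cst 2) (.mul (.add (.mul (.add (.mul (.add (.mul (.cst 3376) (.var 1)) (.cst (-22068))) (.var 1)) (.cst 36741)) (.var 1)) (.cst (-19432))) (.var 1))) (.cst 223)) (.var 1)) (.cst 3227))))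

noncomputable def N1_r (x : ℕ → ℝ) : ℝ := (((((((((((((108128 / 3125 : ℝ) * x 1) + (-45784 / 625 : ℝ)) * x 1) + (162316 / 3125 : ℝ)) * x 1) + (-40351 / 3125 : ℝ)) * x 1) + (2503 / 6250 : ℝ)) * x 1) + (-357 / 50000 : ℝ)) * x 0) + (((((((((((3376 / 3125 : ℝ) * x 1) + (-22068 / 3125 : ℝ)) * x 1) + (36741 / 3125 : ℝ)) * x 1) + (-19432 / 3125 : ℝ)) * x 1) + (223 / 6250 : ℝ)) * x 1) + (3227 / 6250 : ℝ)))

theorem N1_ev (x : ℕ → ℝ) : N1.eval x = 50000 * N1_r x := by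
  simp only [N1, PE.eval, N1_r]
  all_goals (push_cast; ring)

def N2 : PE := (.add (.mul (.cst 2) (.mul (.add (.mul (.cst 2) (.mul (.add (.mul (.cst 4) (.mul (.add (.mul (.cst 2) (.mul (.add (.mul (.add (.mul (.cst (-49184)) (.var 1)) (.cst 134480)) (.var 1)) (.cst (-130050))) (.var 1))) (.cst 90073)) (.var 1))) (.cst (-7239))) (.var 1))) (.cst 77)) (.var 0))) (.add (.mul (.cst 2) (.mul (.add (.mul (.cst 16) (.mul (.add (.mul (.add (.mul (.add (.mul (.cst 62384) (.var 1)) (.cst (-77324))) (.var 1)) (.cst 26008)) (.var 1)) (.cst (-994))) (.var 1))) (.cst 277)) (.var 1))) (.cst 81)))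

noncomputable def N2_r (x : ℕ → ℝ) : ℝ := (((((((((((((-49184 / 3125 : ℝ) * x 1) + (26896 / 625 : ℝ)) * x 1) + (-5202 / 125 : ℝ)) * x 1) + (90073 / 6250 : ℝ)) * x 1) + (-7239 / 25000 : ℝ)) * x 1) + (77 / 50000 : ℝ)) * x 0) + (((((((((((62384 / 3125 : ℝ) * x 1) + (-77324 / 3125 : ℝ)) * x 1) + (26008 / 3125 : ℝ)) * x 1) + (-994 / 3125 : ℝ)) * x 1) + (277 / 50000 : ℝ)) * x 1) + (81 / 100000 : ℝ)))

theorem N2_ev (x : ℕ → ℝ) : N2.eval x = 100000 * N2_r x := by
  simp only [N2, PE.eval, N2_r]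
  all_goals (push_cast; ring)

def u : PE := (.mul (.cst 4) (.var 1))

noncomputable def u_r (x : ℕ → ℝ) : ℝ := ((4 / 5 : ℝ) * x 1)

theorem u_ev (x : ℕ → ℝ) : u.eval x = 5 * u_r x := by
  simp only [u, PE.eval, u_r]
  all_goals (push_cast; ring)

def dd : PE := (.mul (.cst 2) (.add (.cst 25) (.pow u 2)))

noncomputable def dd_r (x : ℕ → ℝ) : ℝ := ((2 : ℝ) * ((1 : ℝ) + (u_r x ^ 2)))

theorem dd_ev (x : ℕ → ℝ) : dd.eval x = 25 * dd_r x := by
  simp only [dd, PE.eval, u_ev, dd_r]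
  all_goals (push_cast; ring)

def na : PE := (.pow (.add (.cst 5) u) 2)

noncomputable def na_r (x : ℕ → ℝ) : ℝ := (((1 : ℝ) + u_r x) ^ 2)

theorem na_ev (x : ℕ → ℝ) : na.eval x = 25 * na_r x := by
  simp only [na, PE.eval, u_ev, na_r]
  all_goals (push_cast; ring)

def nb : PE := (.pow (.sub (.cst 5) u) 2)

noncomputable def nb_r (x : ℕ → ℝ) : ℝ := (((1 : ℝ) - u_r x) ^ 2)

theorem nb_ev (x : ℕ → ℝ) : nb.eval x = 25 * nb_r x := by
  simp only [nb, PE.eval, u_ev, nb_r]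
  all_goals (push_cast; ring)

def b1 : PE := (.add (.mul (.cst 2) (.mul (.cst 103141) (.var 0))) (.cst 1137167))

noncomputable def b1_r (x : ℕ → ℝ) : ℝ := (((103141 / 250000 : ℝ) * x 0) + (1137167 / 500000 : ℝ))

theorem b1_ev (x : ℕ → ℝ) : b1.eval x = 500000 * b1_r x := by
  simp only [b1, PE.eval, b1_r]
  all_goals (push_cast; ring)

def b2 : PE := (.add (.mul (.cst (-420161)) (.var 0)) (.cst (-1321799)))

noncomputable def b2_r (x : ℕ → ℝ) : ℝ := (((-420161 / 250000 : ℝ) * x 0) + (-1321799 / 250000 : ℝ))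

theorem b2_ev (x : ℕ → ℝ) : b2.eval x = 250000 * b2_r x := by
  simp only [b2, PE.eval, b2_r]
  all_goals (push_cast; ring)

def b3 : PE := (.add (.mul (.cst 8) (.mul (.cst 217857) (.var 0))) (.cst 7183227))

noncomputable def b3_r (x : ℕ → ℝ) : ℝ := (((217857 / 62500 : ℝ) * x 0) + (7183227 / 500000 : ℝ))

theorem b3_ev (x : ℕ → ℝ) : b3.eval x = 500000 * b3_r x := by
  simp only [b3, PE.eval, b3_r]
  all_goals (push_cast; ring)

def b4 : PE := (.add (.mul (.cst 4) (.mul (.cst (-135907)) (.var 0))) (.cst (-3451835)))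

noncomputable def b4_r (x : ℕ → ℝ) : ℝ := (((-135907 / 31250 : ℝ) * x 0) + (-690367 / 25000 : ℝ))

theorem b4_ev (x : ℕ → ℝ) : b4.eval x = 125000 * b4_r x := by
  simp only [b4, PE.eval, b4_r]
  all_goals (push_cast; ring)

def b5 : PE := (.add (.mul (.cst 2) (.mul (.cst 45563) (.var 0))) (.cst 1085609))

noncomputable def b5_r (x : ℕ → ℝ) : ℝ := (((45563 / 15625 : ℝ) * x 0) + (1085609 / 31250 : ℝ))

theorem b5_ev (x : ℕ → ℝ) : b5.eval x = 31250 * b5_r x := by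
  simp only [b5, PE.eval, b5_r]
  all_goals (push_cast; ring)

def b6 : PE := (.add (.mul (.cst (-8612)) (.var 0)) (.cst (-424772)))

noncomputable def b6_r (x : ℕ → ℝ) : ℝ := (((-8612 / 15625 : ℝ) * x 0) + (-424772 / 15625 : ℝ))

theorem b6_ev (x : ℕ → ℝ) : b6.eval x = 15625 * b6_r x := by
  simp only [b6, PE.eval, b6_r]
  all_goals (push_cast; ring)

def b7 : PE := (.add (.mul (.cst (-6784)) (.var 0)) (.cst 187224))

noncomputable def b7_r (x : ℕ → ℝ) : ℝ := (((-6784 / 15625 : ℝ) * x 0) + (187224 / 15625 : ℝ))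

theorem b7_ev (x : ℕ → ℝ) : b7.eval x = 15625 * b7_r x := by
  simp only [b7, PE.eval, b7_r]
  all_goals (push_cast; ring)

def b8 : PE := (.add (.mul (.cst 3136) (.var 0)) (.cst (-35552)))

noncomputable def b8_r (x : ℕ → ℝ) : ℝ := (((3136 / 15625 : ℝ) * x 0) + (-35552 / 15625 : ℝ))

theorem b8_ev (x : ℕ → ℝ) : b8.eval x = 15625 * b8_r x := by
  simp only [b8, PE.eval, b8_r]
  all_goals (push_cast; ring)

def ba : PE := (.add (.add (.add (.add (.add (.add (.add (.mul (.mul b1 (.pow na 1)) (.pow dd 7)) (.mul (.cst 2) (.mul (.mul b2 (.pow na 2)) (.pow dd 6)))) (.mul (.mul b3 (.pow na 3)) (.pow dd 5))) (.mul (.cst 4) (.mul (.mul b4 (.pow na 4)) (.pow dd 4)))) (.mul (.cst 16) (.mul (.mul b5 (.pow na 5)) (.pow dd 3)))) (.mul (.cst 32) (.mul (.mul b6 (.pow na 6)) (.pow dd 2)))) (.mul (.cst 32) (.mul (.mul b7 (.pow na 7)) (.pow dd 1)))) (.mul (.cst 32) (.mul (.mul b8 (.pow na 8)) (.pow dd 0))))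

noncomputable def ba_r (x : ℕ → ℝ) : ℝ := (((((((((b1_r x * (na_r x ^ 1)) * (dd_r x ^ 7)) + ((b2_r x * (na_r x ^ 2)) * (dd_r x ^ 6))) + ((b3_r x * (na_r x ^ 3)) * (dd_r x ^ 5))) + ((b4_r x * (na_r x ^ 4)) * (dd_r x ^ 4))) + ((b5_r x * (na_r x ^ 5)) * (dd_r x ^ 3))) + ((b6_r x * (na_r x ^ 6)) * (dd_r x ^ 2))) + ((b7_r x * (na_r x ^ 7)) * (dd_r x ^ 1))) + ((b8_r x * (na_r x ^ 8)) * (dd_r x ^ 0)))

theorem ba_ev (x : ℕ → ℝ) : ba.eval x = 76293945312500000 * ba_r x := by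
  simp only [ba, PE.eval, b1_ev, b2_ev, b3_ev, b4_ev, b5_ev, b6_ev, b7_ev, b8_ev, dd_ev, na_ev, ba_r]
  all_goals (push_cast; ring)

def bb : PE := (.add (.add (.add (.add (.add (.add (.add (.mul (.mul b1 (.pow nb 1)) (.pow dd 7)) (.mul (.cst 2) (.mul (.mul b2 (.pow nb 2)) (.pow dd 6)))) (.mul (.mul b3 (.pow nb 3)) (.pow dd 5))) (.mul (.cst 4) (.mul (.mul b4 (.pow nb 4)) (.pow dd 4)))) (.mul (.cst 16) (.mul (.mul b5 (.pow nb 5)) (.pow dd 3)))) (.mul (.cst 32) (.mul (.mul b6 (.pow nb 6)) (.pow dd 2)))) (.mul (.cst 32) (.mul (.mul b7 (.pow nb 7)) (.pow dd 1)))) (.mul (.cst 32) (.mul (.mul b8 (.pow nb 8)) (.pow dd 0))))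

noncomputable def bb_r (x : ℕ → ℝ) : ℝ := (((((((((b1_r x * (nb_r x ^ 1)) * (dd_r x ^ 7)) + ((b2_r x * (nb_r x ^ 2)) * (dd_r x ^ 6))) + ((b3_r x * (nb_r x ^ 3)) * (dd_r x ^ 5))) + ((b4_r x * (nb_r x ^ 4)) * (dd_r x ^ 4))) + ((b5_r x * (nb_r x ^ 5)) * (dd_r x ^ 3))) + ((b6_r x * (nb_r x ^ 6)) * (dd_r x ^ 2))) + ((b7_r x * (nb_r x ^ 7)) * (dd_r x ^ 1))) + ((b8_r x * (nb_r x ^ 8)) * (dd_r x ^ 0)))

theorem bb_ev (x : ℕ → ℝ) : bb.eval x = 76293945312500000 * bb_r x := by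
  simp only [bb, PE.eval, b1_ev, b2_ev, b3_ev, b4_ev, b5_ev, b6_ev, b7_ev, b8_ev, dd_ev, nb_ev, bb_r]
  all_goals (push_cast; ring)

def r2 : PE := (.sub (.cst 15625) (.pow s 2))

noncomputable def r2_r (x : ℕ → ℝ) : ℝ := ((1 : ℝ) - (s_r x ^ 2))

theorem r2_ev (x : ℕ → ℝ) : r2.eval x = 15625 * r2_r x := by
  simp only [r2, PE.eval, s_ev, r2_r]
  all_goals (push_cast; ring)

def v1 : PE := (.add (.mul (.cst 76293945312500000) (.pow na 2)) (.mul r2 (.add (.mul (.mul (.pow s 2) (.sub (.cst 62500000) (.mul (.cst 539) r2))) (.pow dd 2)) (.mul (.cst 78125000) (.mul (.mul (.mul r2 (.cst 4)) na) nb)))))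

noncomputable def v1_r (x : ℕ → ℝ) : ℝ := ((na_r x ^ 2) + ((r2_r x * ((((s_r x ^ 2) * ((4 / 5 : ℝ) - ((539 / 5000 : ℝ) * r2_r x))) * (dd_r x ^ 2)) + (((r2_r x * (4 : ℝ)) * na_r x) * nb_r x))) * (1 / 4 : ℝ)))

theorem v1_ev (x : ℕ → ℝ) : v1.eval x = 47683715820312500000 * v1_r x := by
  simp only [v1, PE.eval, dd_ev, na_ev, nb_ev, r2_ev, s_ev, v1_r]
  all_goals (push_cast; ring)

def v2 : PE := (.add (.mul (.cst 976562500) (.pow na 2)) (.mul r2 (.add (.mul (.mul (.mul (.pow s 2) (.cst 2)) nb) dd) (.mul (.mul (.mul r2 (.cst 4)) na) nb))))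

noncomputable def v2_r (x : ℕ → ℝ) : ℝ := ((na_r x ^ 2) + ((r2_r x * (((((s_r x ^ 2) * (2 : ℝ)) * nb_r x) * dd_r x) + (((r2_r x * (4 : ℝ)) * na_r x) * nb_r x))) * (1 / 4 : ℝ)))

theorem v2_ev (x : ℕ → ℝ) : v2.eval x = 610351562500 * v2_r x := by
  simp only [v2, PE.eval, dd_ev, na_ev, nb_ev, r2_ev, s_ev, v2_r]
  all_goals (push_cast; ring)

def top0 : PE := (.sub (.mul (.cst 152587890625) (.add (.add (.add (.mul (.cst 2) (.mul L1 ba)) (.mul L2 bb)) (.mul (.cst 1000000) (.mul (.sub (.add cz (.cst 50000)) (.mul (.cst 400) s)) (.pow dd 8)))) (.mul (.cst 500000) (.mul (.sub (.mul lq na) (.mul (.cst 100000) (.mul (.cst 2) (.sub (.cst 25) (.pow u 2))))) (.pow dd 7))))) (.mul (.cst 2) (.mul (.add (.mul N1 v1) (.mul (.cst 39062500) (.mul N2 v2))) (.pow dd 6))))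

noncomputable def top0_r (x : ℕ → ℝ) : ℝ := (((((L1_r x * ba_r x) + (L2_r x * bb_r x)) + (((cz_r x + (1 : ℝ)) - s_r x) * (dd_r x ^ 8))) + (((lq_r x * na_r x) - ((2 : ℝ) * ((1 : ℝ) - (u_r x ^ 2)))) * (dd_r x ^ 7))) - (((N1_r x * v1_r x) + (N2_r x * v2_r x)) * (dd_r x ^ 6)))

theorem top0_ev (x : ℕ → ℝ) : top0.eval x = 1164153218269348144531250000000000 * top0_r x := by
  simp only [top0, PE.eval, L1_ev, L2_ev, N1_ev, N2_ev, ba_ev, bb_ev, cz_ev, dd_ev, lq_ev, na_ev, s_ev, u_ev, v1_ev, v2_ev, top0_r]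
  all_goals (push_cast; ring)

noncomputable def R : ℕ := 0xb03b36d186500000a647565b89a000007fe8ef59380000007c1fd3975bc000007ff4c78a41200000817d882d19d0000080fe5fdf7ee00000803350b323d000007fda029b3d8000007fe7fcbd08b00000801bb618dcf000008045806e2f800000805387700c300000804815a663e00000802eb5444e30000080141fbf6da0000080010794538000007ff96fb533b000007fffc76c9db0000080168b4b8070000080440532a7d00000806f50d866f00000b44822bab7000000ada362cf58900000845c2c23363000007d3efe2f0f3000007f7edb571290000080e1e18f3430000080d209d8465000008077f786aea00000805b1890e7500000807277ecc440000080916ba1d2800000809c3627da400000808d21cfdf700000806b19a9828000008041aab366b00000801bd0f4c750000080008f1c29c000007ff2dec8f7e000007ff4b47ad88000008008516018500000803269d67760000080537ba226200000bfa941cae2c00000b5bfd68b4f4000008898232e52c000007e44cddd66e000007f10b821ea900000804ea163e6200000809e51906130000080a54bc8b7e0000080bc1694cce0000080dbfc988950000080e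afaa96a80000080de7fbafad0000080baba1f1af000008089c3bac97000008056621588900000802978ffce600000800843e4a6a000007ff4c82e7f5000007ff0c05be96000007ffec0231280000080233d4584300000803b897f63300000ceca0663a6200000be747143777000008ce8d73ff8f000007f5f57d660d000007eb7a9b2d5d000007fc1f4be97e00000805e858b8080000080b8fa442640000080fe077317e0000081281aaa18200000812d272dccf0000081112d2d91b0000080e062ed6fd0000080a700c08d600000806e8b3018100000803daf1776d000008017f242924000007ffe93a96d8000007ff35c7b930000007ff9b097f50000008016dd96fee000008027c4a456b00000decb4e976e800000c7a0a5b786f00000918b5f6440f0000080b3b0bb7b3000007e7e18aa8ee000007f39a6bf3ca00000800db80186f0000080afb4428bf0000081202f08dcb0000081581ab2b8400000815a478b350000008136c47574900000810038e2b140000080c4346c37a00000808abe918530000080585c81abf00000802f0fa123b00000800f90ec7b7000007ffc06197f1000007ff911b4bb000000800db7bb0bf0000080188841bdd00000ed69f6f1fb600000d12a46a023b0000096a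fe4f074e00000825f322340f000007e6bf43632a000007eb3221792b000007fa6ac4e64b0000080852ecc94200000812023fffb500000816b2d3609a000008172803175400000814fc0c450800000811a9ed141e0000080e16d944ce0000080aaa7bdaf9000008078dbb512900000804ccee9a1d0000080270272e7700000800a496644c000007ffce61fbe600000800842c0df100000800e3cf0c3b00000f8e93a0b6fc00000dafc7019537000009c7b58029480000084788da18e3000007e870af92ef000007e2b74a0ead000007f23cc9563d000008034294a0e80000080f9ed5736800000815e99c600c000008173fbd963d00000815acc0665600000812e72b336e0000080fd93133a70000080cd282eac300000809e1129fe10000080702fdb48a00000804424cfd4200000801dc2bb7d90000080054195a65000008006fbce648000008009555a9bc00000ffffffffffd00000e506a072f4200000a308eba5f0f000008710b9014e5000007ed3570ee53000007d9f5488c4c000007e7f25b348f000007fb679cdcf90000080a822d658900000812dedfbfc100000815b210b7fe000008154f3ef0710000081393d3afcb0000081168aed7580000080f074dc73c0000080c67f5d0d50000080980a8e4770000080663356f790000080361e737df000008012462274d00000800a62b8b1900000800a4b25d81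

def es : List (PE × ℕ) := []

theorem hok : rootOk 160 [7, 21] ((PE.mul (.cst 1) top0, 17202271762371469742203) :: es) = true := by decide +kernel

theorem hR : Nat.beq (root 160 64 44 [7, 21] ((PE.mul (.cst 1) top0, 17202271762371469742203) :: es)) R = true := by decide +kernel

theorem hb : bdTest 64 44 176 R = true := by decide +kernel

end Crest.Agent.R307.MZf
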