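import Crest.Agent.Lib.Bern.Main

/-! generated by bern.py (helper67) -/

set_option autoImplicit false
set_option maxRecDepth 100000
set_option Elab.async false
set_option linter.all false

namespace Crest.Agent.R307.MZk

open Crest.Agent.Bern

def kap : PE := (.add (.mul (.add (.mul (.cst 16) (.mul (.add (.mul (.add (.mul (.add (.mul (.add (.mul (.add (.mul (.cst (-41984)) (.var 2)) (.cst 47792)) (.var 2)) (.cst (-3592))) (.var 1)) (.add (.mul (.add (.mul (.cst 74384) (.var 2)) (.cst (-99264))) (.var 2)) (.cst 7226))) (.var 1)) (.add (.mul (.add (.mul (.cst (-36992)) (.var 2)) (.cst 67326)) (.var 2)) (.cst (-8207)))) (.var 1)) (.add (.mul (.add (.mul (.cst 4252) (.var 2)) (.cst (-15519))) (.var 2)) (.cst 3678))) (.var 1))) (.add (.mul (.cst 4) (.mul (.add (.mul (.cst 4) (.mul (.cst 1167) (.var 2))) (.cst (-843))) (.var 2))) (.cst (-13297)))) (.var 0)) (.add (.mul (.cst 2) (.mul (.add (.mul (.cst 2) (.mul (.add (.mul (.cst 4) (.mul (.add (.mul (.add (.mul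 (.add (.mul (.cst 88608) (.var 2)) (.cst (-79120))) (.var 2)) (.cst 9104)) (.var 1)) (.add (.mul (.add (.mul (.cst 5) (.mul (.cst (-31232)) (.var 2))) (.cst 167466)) (.var 2)) (.cst (-24575)))) (.var 1))) (.add (.mul (.cst 4) (.mul (.add (.mul (.cst 99946) (.var 2)) (.cst (-117411))) (.var 2))) (.cst 62223))) (.var 1))) (.add (.mul (.add (.mul (.cst 8) (.mul (.cst (-25777)) (.var 2))) (.cst 258165)) (.var 2)) (.cst (-36569)))) (.var 1))) (.add (.mul (.cst 2) (.mul (.add (.mul (.cst 10) (.mul (.cst 2073) (.var 2))) (.cst (-31731))) (.var 2))) (.cst (-6531)))))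

noncomputable def kap_r (x : ℕ → ℝ) : ℝ := (((((((((((((((-41984 / 3125 : ℝ) * x 2) + (47792 / 3125 : ℝ)) * x 2) + (-3592 / 3125 : ℝ)) * x 1) + (((((74384 / 3125 : ℝ) * x 2) + (-99264 / 3125 : ℝ)) * x 2) + (7226 / 3125 : ℝ))) * x 1) + (((((-36992 / 3125 : ℝ) * x 2) + (67326 / 3125 : ℝ)) * x 2) + (-8207 / 3125 : ℝ))) * x 1) + (((((4252 / 3125 : ℝ) * x 2) + (-15519 / 3125 : ℝ)) * x 2) + (3678 / 3125 : ℝ))) * x 1) + (((((1167 / 3125 : ℝ) * x 2) + (-843 / 12500 : ℝ)) * x 2) + (-13297 / 50000 : ℝ))) * x 0) + (((((((((((((88608 / 3125 : ℝ) * x 2) + (-15824 / 625 : ℝ)) * x 2) + (9104 / 3125 : ℝ)) * x 1) + (((((-31232 / 625 : ℝ) * x 2) + (167466 / 3125 : ℝ)) * x 2) + (-983 / 125 : ℝ))) * x 1) + (((((99946 / 3125 : ℝ) * x 2) + (-117411 / 3125 : ℝ)) * x 2) + (62223 / 12500 : ℝ))) * x 1) + (((((-25777 / 3125 : ℝ) * x 2) + (51633 / 5000 : ℝ)) * x 2) + (-36569 / 25000 : ℝ))) * x 1) + (((((2073 / 2500 : ℝ) * x 2) + (-31731 / 25000 : ℝ)) * x 2) + (-6531 / 50000 : ℝ))))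

theorem kap_ev (x : ℕ → ℝ) : kap.eval x = 50000 * kap_r x := by
  simp only [kap, PE.eval, kap_r]
  all_goals (push_cast; ring)

def ee : PE := (.add (.mul (.cst 2) (.mul (.add (.mul (.cst 4) (.mul (.add (.mul (.cst 2) (.mul (.add (.mul (.add (.mul (.add (.mul (.add (.mul (.cst (-97344)) (.var 2)) (.cst 160)) (.var 2)) (.cst 10648)) (.var 1)) (.add (.mul (.add (.mul (.cst 167072) (.var 2)) (.cst 25256)) (.var 2)) (.cst (-35554)))) (.var 1)) (.add (.mul (.cst 5) (.mul (.add (.mul (.cst (-17516)) (.var 2)) (.cst (-6843))) (.var 2))) (.cst 29852))) (.var 1))) (.add (.mul (.add (.mul (.cst 2) (.mul (.cst 17202) (.var 2))) (.cst 23927)) (.var 2)) (.cst (-20789)))) (.var 1))) (.add (.mul (.add (.mul (.cst 4) (.mul (.cst (-3909)) (.var 2))) (.cst (-163))) (.var 2)) (.cst 10658))) (.var 0))) (.add (.mul (.add (.mul (.cst 8) (.mul (.add (.mul (.cst 2) (.mul (.add (.mul (.add (.mul (.add (.mul (.cst 5) (.mul (.cst (-41856)) (.var 2))) (.cst 162912)) (.var 2)) (.cst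 21920)) (.var 1)) (.add (.mul (.add (.mul (.cst 387312) (.var 2)) (.cst (-373224))) (.var 2)) (.cst (-15712)))) (.var 1))) (.add (.mul (.add (.mul (.cst 2) (.mul (.cst (-237434)) (.var 2))) (.cst 529471)) (.var 2)) (.cst 5450))) (.var 1))) (.add (.mul (.cst 16) (.mul (.add (.mul (.cst 55486) (.var 2)) (.cst (-70253))) (.var 2))) (.cst 25267))) (.var 1)) (.add (.mul (.add (.mul (.cst 4) (.mul (.cst (-20949)) (.var 2))) (.cst 121449)) (.var 2)) (.cst 4676))))

noncomputable def ee_r (x : ℕ → ℝ) : ℝ := (((((((((((((((-97344 / 3125 : ℝ) * x 2) + (32 / 625 : ℝ)) * x 2) + (10648 / 3125 : ℝ)) * x 1) + (((((167072 / 3125 : ℝ) * x 2) + (25256 / 3125 : ℝ)) * x 2) + (-35554 / 3125 : ℝ))) * x 1) + (((((-17516 / 625 : ℝ) * x 2) + (-6843 / 625 : ℝ)) * x 2) + (29852 / 3125 : ℝ))) * x 1) + (((((17202 / 3125 : ℝ) * x 2) + (23927 / 6250 : ℝ)) * x 2) + (-20789 / 6250 : ℝ))) * x 1) + (((((-3909 / 6250 : ℝ) * x 2) + (-163 / 25000 : ℝ)) * x 2) + (5329 / 12500 : ℝ))) * x 0)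 + (((((((((((((-41856 / 625 : ℝ) * x 2) + (162912 / 3125 : ℝ)) * x 2) + (4384 / 625 : ℝ)) * x 1) + (((((387312 / 3125 : ℝ) * x 2) + (-373224 / 3125 : ℝ)) * x 2) + (-15712 / 3125 : ℝ))) * x 1) + (((((-237434 / 3125 : ℝ) * x 2) + (529471 / 6250 : ℝ)) * x 2) + (109 / 125 : ℝ))) * x 1) + (((((55486 / 3125 : ℝ) * x 2) + (-70253 / 3125 : ℝ)) * x 2) + (25267 / 50000 : ℝ))) * x 1) + (((((-20949 / 12500 : ℝ) * x 2) + (121449 / 50000 : ℝ)) * x 2) + (1169 / 12500 : ℝ))))

theorem ee_ev (x : ℕ → ℝ) : ee.eval x = 50000 * ee_r x := by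
  simp only [ee, PE.eval, ee_r]
  all_goals (push_cast; ring)

def nn : PE := (.add (.mul (.cst 2) (.mul (.add (.mul (.cst 4) (.mul (.add (.mul (.cst 2) (.mul (.add (.mul (.cst 2) (.mul (.add (.mul (.add (.mul (.add (.mul (.cst (-13952)) (.var 2)) (.cst 2496)) (.var 2)) (.cst 2464)) (.var 1)) (.add (.mul (.add (.mul (.cst 15184) (.var 2)) (.cst 1688)) (.var 2)) (.cst (-5492)))) (.var 1))) (.add (.mul (.cst 2) (.mul (.add (.mul (.cst (-5468)) (.var 2)) (.cst (-2205))) (.var 2))) (.cst 8457))) (.var 1))) (.add (.mul (.add (.mul (.cst 4) (.mul (.cst 1216) (.var 2))) (.cst (-2507))) (.var 2)) (.cst (-5617)))) (.var 1))) (.add (.mul (.cst 8) (.mul (.add (.mul (.cst 5) (.mul (.cst (-119)) (.var 2))) (.cst 1278)) (.var 2))) (.cst 2781))) (.var 0))) (.add (.mul (.cst 2) (.mul (.add (.mul (.cst 4) (.mul (.add (.mul (.cst 4) (.mul (.add (.mul (.add (.mul (.add (.mul (.cst (-37056)) (.var 2)) (.cst 23136)) (.var 2)) (.cst 3508)) (.var 1)) (.add (.mul (.add (.mul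 (.cst 60504) (.var 2)) (.cst (-48310))) (.var 2)) (.cst (-2342)))) (.var 1))) (.add (.mul (.cst 4) (.mul (.add (.mul (.cst (-35554)) (.var 2)) (.cst 35191)) (.var 2))) (.cst 735))) (.var 1))) (.add (.mul (.cst 80) (.mul (.add (.mul (.cst 25) (.mul (.cst 72) (.var 2))) (.cst (-2106))) (.var 2))) (.cst 4469))) (.var 1))) (.add (.mul (.cst 4) (.mul (.add (.mul (.cst 2) (.mul (.cst (-4401)) (.var 2))) (.cst 10691)) (.var 2))) (.cst 183))))

noncomputable def nn_r (x : ℕ → ℝ) : ℝ := (((((((((((((((-13952 / 3125 : ℝ) * x 2) + (2496 / 3125 : ℝ)) * x 2) + (2464 / 3125 : ℝ)) * x 1) + (((((15184 / 3125 : ℝ) * x 2) + (1688 / 3125 : ℝ)) * x 2) + (-5492 / 3125 : ℝ))) * x 1) + (((((-5468 / 3125 : ℝ) * x 2) + (-441 / 625 : ℝ)) * x 2) + (8457 / 6250 : ℝ))) * x 1) + (((((1216 / 3125 : ℝ) * x 2) + (-2507 / 12500 : ℝ)) * x 2) + (-5617 / 12500 : ℝ))) * x 1) + (((((-119 / 1250 : ℝ) * x 2) + (639 / 3125 : ℝ)) * x 2) + (2781 / 50000 : ℝ))) * x 0) + (((((((((((((-37056 / 3125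 : ℝ) * x 2) + (23136 / 3125 : ℝ)) * x 2) + (3508 / 3125 : ℝ)) * x 1) + (((((60504 / 3125 : ℝ) * x 2) + (-9662 / 625 : ℝ)) * x 2) + (-2342 / 3125 : ℝ))) * x 1) + (((((-35554 / 3125 : ℝ) * x 2) + (35191 / 3125 : ℝ)) * x 2) + (147 / 2500 : ℝ))) * x 1) + (((((72 / 25 : ℝ) * x 2) + (-2106 / 625 : ℝ)) * x 2) + (4469 / 50000 : ℝ))) * x 1) + (((((-4401 / 12500 : ℝ) * x 2) + (10691 / 25000 : ℝ)) * x 2) + (183 / 100000 : ℝ))))

theorem nn_ev (x : ℕ → ℝ) : nn.eval x = 100000 * nn_r x := by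
  simp only [nn, PE.eval, nn_r]
  all_goals (push_cast; ring)

def top0 : PE := (.sub (.mul (.cst 2) (.add (.cst 50000) (.mul (.var 2) kap))) (.mul (.pow (.var 2) 2) ee))

noncomputable def top0_r (x : ℕ → ℝ) : ℝ := (((1 : ℝ) + (x 2 * kap_r x)) - (((x 2 ^ 2) * ee_r x) * (1 / 2 : ℝ)))

theorem top0_ev (x : ℕ → ℝ) : top0.eval x = 100000 * top0_r x := by
  simp only [top0, PE.eval, ee_ev, kap_ev, top0_r]
  all_goals (push_cast; ring)

def top1 : PE := (.sub (.mul (.mul (.cst 2) (.var 1)) (.var 2)) (.cst 1))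

noncomputable def top1_r (x : ℕ → ℝ) : ℝ := ((((2 : ℝ) * x 1) * x 2) - (1 : ℝ))

theorem top1_ev (x : ℕ → ℝ) : top1.eval x = 1 * top1_r x := by
  simp only [top1, PE.eval, top1_r]
  all_goals (push_cast; ring)

noncomputable def R : ℕ := 0xa00000000000000090000000000000008000000000000000700000000000000060000000000000009000000000000000840000000000000078000000000000006c0000000000000060000000000000008000000000000000780000000000000070000000000000006800000000000000600000000000000070000000000000006c0000000000000068000000000000006400000000000000600000000000000060000000000000006000000000000000600000000000000060000000000000006000000000000000a00000000000000090000000000000008000000000000000700000000000000060000000000000009000000000000000840000000000000078000000000000006c0000000000000060000000000000008000000000000000780000000000000070000000000000006800000000000000600000000000000070000000000000006c000000000000006800000000000000640000000000000060000000000000006000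0000000000006000000000000000600000000000000060000000000000006000000000000000d5d2a000000000007aa5cc0000000000795e82aaaaa000008b7bb00000000000986a0000000000004612ac000000000092e58e00000000008fde0f55555000009364040000000000986a000000000000a53b62aaaaa0000076b32555555000008f7cfc000000000097837d5555500000986a000000000000731dc4000000000094afb2000000000093179e0000000000958ebc0000000000986a00000000000083a2d000000000007d9c5400000000008d13a0000000000095fe600000000000986a000000000000cde7a000000000007db10c00000000007d451d55555000008edab80000000000986a000000000000579d6c0000000000957586000000000094f19a0000000000941ccc0000000000986a0000000000008b6162aaaaa0000074244aaaaaa000008d625a38e38000009837700000000000986a00000000000090c8040000000000a037fa0000000000973f9e00000000009562840000000000986a0000000000008025d00000000000839b3400000000009176faaaaaa00000979de80000000000986a0000000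

def es : List (PE × ℕ) := [(PE.mul (.cst 2199023255552) top1, 1)]

theorem hok : rootOk 55 [1, 4, 4] ((PE.mul (.cst 16777216) top0, 1) :: es) = true := by decide +kernel

theorem hR : Nat.beq (root 55 64 44 [1, 4, 4] ((PE.mul (.cst 16777216) top0, 1) :: es)) R = true := by decide +kernel

theorem hb : bdTest 64 44 100 R = true := by decide +kernel

end Crest.Agent.R307.MZk
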