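import Crest.Agent.R307.MZlD

set_option autoImplicit false
set_option maxRecDepth 100000
set_option Elab.async false
set_option linter.all false

namespace Crest.Agent.R307.MZl

open Crest.Agent.Bern

theorem c0 : Good 64 44 [1, 4, 4] 2 (sub 64 [1, 4, 4] 2 R []) :=
  good_of_go (wb := 17) (by decide) (by decide) (by decide) 1 _
    0x1e000df (by decide +kernel)

end Crest.Agent.R307.MZl
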