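import Crest.Agent.R307.MZmD

set_option autoImplicit false
set_option maxRecDepth 100000
set_option Elab.async false
set_option linter.all false

namespace Crest.Agent.R307.MZm

open Crest.Agent.Bern

theorem c0 : Good 64 44 [1, 5, 8] 1 (sub 64 [1, 5, 8] 1 R []) :=
  good_of_go (wb := 17) (by decide) (by decide) (by decide) 7 _
    0xf80007c0003e0001f110000f80007c4840003e0001f0000f88900007c0003e40001f0000f9080007c0003e40001f0000f880007c0003e0001f122121 (by decide +kernel)

end Crest.Agent.R307.MZm
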