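import Crest.Agent.Lib.Bern.Main

/-! generated by bern.py (helper67) -/

set_option autoImplicit false
set_option maxRecDepth 100000
set_option Elab.async false
set_option linter.all false

namespace Crest.Agent.R307.MZm

open Crest.Agent.Bern

def L1 : PE := (.add (.mul (.add (.mul (.cst 16) (.mul (.add (.mul (.add (.mul (.add (.mul (.add (.mul (.cst (-43456)) (.var 1)) (.cst 149336)) (.var 1)) (.cst (-125404))) (.var 1)) (.cst 13546)) (.var 1)) (.cst (-1497))) (.var 1))) (.cst 411)) (.var 0)) (.add (.mul (.add (.mul (.cst 4) (.mul (.add (.mul (.cst 4) (.mul (.add (.mul (.add (.mul (.cst (-194528)) (.var 1)) (.cst 285376)) (.var 1)) (.cst (-88500))) (.var 1))) (.cst 92955)) (.var 1))) (.cst (-1517))) (.var 1)) (.cst 106385)))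

noncomputable def L1_r (x : ℕ → ℝ) : ℝ := (((((((((((((-43456 / 3125 : ℝ) * x 1) + (149336 / 3125 : ℝ)) * x 1) + (-125404 / 3125 : ℝ)) * x 1) + (13546 / 3125 : ℝ)) * x 1) + (-1497 / 3125 : ℝ)) * x 1) + (411 / 50000 : ℝ)) * x 0) + (((((((((((-194528 / 3125 : ℝ) * x 1) + (285376 / 3125 : ℝ)) * x 1) + (-708 / 25 : ℝ)) * x 1) + (18591 / 2500 : ℝ)) * x 1) + (-1517 / 50000 : ℝ)) * x 1) + (21277 / 10000 : ℝ)))

theorem L1_ev (x : ℕ → ℝ) : L1.eval x = 50000 * L1_r x := by
  simp only [L1, PE.eval, L1_r]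
  all_goals (push_cast; ring)

def L2 : PE := (.add (.mul (.cst 16) (.mul (.add (.mul (.add (.mul (.add (.mul (.cst 2) (.mul (.add (.mul (.add (.mul (.cst (-17152)) (.var 1)) (.cst 6344)) (.var 1)) (.cst 20292)) (.var 1))) (.cst (-19163))) (.var 1)) (.cst 66)) (.var 1)) (.cst 17)) (.var 0))) (.add (.mul (.cst 16) (.mul (.add (.mul (.add (.mul (.cst 2) (.mul (.add (.mul (.add (.mul (.cst (-37936)) (.var 1)) (.cst 80016)) (.var 1)) (.cst (-65103))) (.var 1))) (.cst 33511)) (.var 1)) (.cst (-298))) (.var 1))) (.cst 212731)))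

noncomputable def L2_r (x : ℕ → ℝ) : ℝ := (((((((((((((-17152 / 3125 : ℝ) * x 1) + (6344 / 3125 : ℝ)) * x 1) + (20292 / 3125 : ℝ)) * x 1) + (-19163 / 6250 : ℝ)) * x 1) + (33 / 3125 : ℝ)) * x 1) + (17 / 6250 : ℝ)) * x 0) + (((((((((((-37936 / 3125 : ℝ) * x 1) + (80016 / 3125 : ℝ)) * x 1) + (-65103 / 3125 : ℝ)) * x 1) + (33511 / 6250 : ℝ)) * x 1) + (-149 / 3125 : ℝ)) * x 1) + (212731 / 100000 : ℝ)))

theorem L2_ev (x : ℕ → ℝ) : L2.eval x = 100000 * L2_r x := by
  simp only [L2, PE.eval, L2_r]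
  all_goals (push_cast; ring)

def lq : PE := (.add (.mul (.cst 4) (.mul (.add (.mul (.add (.mul (.cst 8) (.mul (.add (.mul (.add (.mul (.add (.mul (.cst 84576) (.var 1)) (.cst (-231576))) (.var 1)) (.cst 151458)) (.var 1)) (.cst (-13452))) (.var 1))) (.cst 12183)) (.var 1)) (.cst (-251))) (.var 0))) (.add (.mul (.cst 8) (.mul (.add (.mul (.cst 4) (.mul (.add (.mul (.add (.mul (.add (.mul (.cst 192736) (.var 1)) (.cst (-233172))) (.var 1)) (.cst 73231)) (.var 1)) (.cst (-24912))) (.var 1))) (.cst 289)) (.var 1))) (.cst 51681)))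

noncomputable def lq_r (x : ℕ → ℝ) : ℝ := (((((((((((((84576 / 3125 : ℝ) * x 1) + (-231576 / 3125 : ℝ)) * x 1) + (151458 / 3125 : ℝ)) * x 1) + (-13452 / 3125 : ℝ)) * x 1) + (12183 / 25000 : ℝ)) * x 1) + (-251 / 25000 : ℝ)) * x 0) + (((((((((((192736 / 3125 : ℝ) * x 1) + (-233172 / 3125 : ℝ)) * x 1) + (73231 / 3125 : ℝ)) * x 1) + (-24912 / 3125 : ℝ)) * x 1) + (289 / 12500 : ℝ)) * x 1) + (51681 / 100000 : ℝ)))

theorem lq_ev (x : ℕ → ℝ) : lq.eval x = 100000 * lq_r x := by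
  simp only [lq, PE.eval, lq_r]
  all_goals (push_cast; ring)

def cz : PE := (.add (.mul (.cst 2) (.mul (.add (.mul (.add (.mul (.cst 8) (.mul (.add (.mul (.add (.mul (.add (.mul (.cst 17184) (.var 1)) (.cst (-6896))) (.var 1)) (.cst (-350))) (.var 1)) (.cst 6886)) (.var 1))) (.cst 2137)) (.var 1)) (.cst (-107))) (.var 0))) (.add (.mul (.add (.mul (.cst 4) (.mul (.add (.mul (.cst 4) (.mul (.add (.mul (.add (.mul (.cst 69008) (.var 1)) (.cst (-158820))) (.var 1)) (.cst 85836)) (.var 1))) (.cst (-84581))) (.var 1))) (.cst 2697)) (.var 1)) (.cst (-106918))))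

noncomputable def cz_r (x : ℕ → ℝ) : ℝ := (((((((((((((17184 / 3125 : ℝ) * x 1) + (-6896 / 3125 : ℝ)) * x 1) + (-14 / 125 : ℝ)) * x 1) + (6886 / 3125 : ℝ)) * x 1) + (2137 / 25000 : ℝ)) * x 1) + (-107 / 25000 : ℝ)) * x 0) + (((((((((((69008 / 3125 : ℝ) * x 1) + (-31764 / 625 : ℝ)) * x 1) + (85836 / 3125 : ℝ)) * x 1) + (-84581 / 12500 : ℝ)) * x 1) + (2697 / 50000 : ℝ)) * x 1) + (-53459 / 25000 : ℝ)))

theorem cz_ev (x : ℕ → ℝ) : cz.eval x = 50000 * cz_r x := by
  simp only [cz, PE.eval, cz_r]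
  all_goals (push_cast; ring)

def N1 : PE := (.add (.mul (.add (.mul (.cst 8) (.mul (.add (.mul (.cst 2) (.mul (.add (.mul (.add (.mul (.add (.mul (.cst 108128) (.var 1)) (.cst (-228920))) (.var 1)) (.cst 162316)) (.var 1)) (.cst (-40351))) (.var 1))) (.cst 2503)) (.var 1))) (.cst (-357))) (.var 0)) (.mul (.cst 8) (.add (.mul (.add (.mul (.cst 2) (.mul (.add (.mul (.add (.mul (.add (.mul (.cst 3376) (.var 1)) (.cst (-22068))) (.var 1)) (.cst 36741)) (.var 1)) (.cst (-19432))) (.var 1))) (.cst 223)) (.var 1)) (.cst 3227))))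

noncomputable def N1_r (x : ℕ → ℝ) : ℝ := (((((((((((((108128 / 3125 : ℝ) * x 1) + (-45784 / 625 : ℝ)) * x 1) + (162316 / 3125 : ℝ)) * x 1) + (-40351 / 3125 : ℝ)) * x 1) + (2503 / 6250 : ℝ)) * x 1) + (-357 / 50000 : ℝ)) * x 0) + (((((((((((3376 / 3125 : ℝ) * x 1) + (-22068 / 3125 : ℝ)) * x 1) + (36741 / 3125 : ℝ)) * x 1) + (-19432 / 3125 : ℝ)) * x 1) + (223 / 6250 : ℝ)) * x 1) + (3227 / 6250 : ℝ)))

theorem N1_ev (x : ℕ → ℝ) : N1.eval x = 50000 * N1_r x := by
  simp only [N1, PE.eval, N1_r]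
  all_goals (push_cast; ring)

def N2 : PE := (.add (.mul (.cst 2) (.mul (.add (.mul (.cst 2) (.mul (.add (.mul (.cst 4) (.mul (.add (.mul (.cst 2) (.mul (.add (.mul (.add (.mul (.cst (-49184)) (.var 1)) (.cst 134480)) (.var 1)) (.cst (-130050))) (.var 1))) (.cst 90073)) (.var 1))) (.cst (-7239))) (.var 1))) (.cst 77)) (.var 0))) (.add (.mul (.cst 2) (.mul (.add (.mul (.cst 16) (.mul (.add (.mul (.add (.mul (.add (.mul (.cst 62384) (.var 1)) (.cst (-77324))) (.var 1)) (.cst 26008)) (.var 1)) (.cst (-994))) (.var 1))) (.cst 277)) (.var 1))) (.cst 81)))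

noncomputable def N2_r (x : ℕ → ℝ) : ℝ := (((((((((((((-49184 / 3125 : ℝ) * x 1) + (26896 / 625 : ℝ)) * x 1) + (-5202 / 125 : ℝ)) * x 1) + (90073 / 6250 : ℝ)) * x 1) + (-7239 / 25000 : ℝ)) * x 1) + (77 / 50000 : ℝ)) * x 0) + (((((((((((62384 / 3125 : ℝ) * x 1) + (-77324 / 3125 : ℝ)) * x 1) + (26008 / 3125 : ℝ)) * x 1) + (-994 / 3125 : ℝ)) * x 1) + (277 / 50000 : ℝ)) * x 1) + (81 / 100000 : ℝ)))

theorem N2_ev (x : ℕ → ℝ) : N2.eval x = 100000 * N2_r x := by
  simp only [N2, PE.eval, N2_r]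
  all_goals (push_cast; ring)

def dd : PE := (.add (.cst 1) (.pow (.var 2) 2))

noncomputable def dd_r (x : ℕ → ℝ) : ℝ := ((1 : ℝ) + (x 2 ^ 2))

theorem dd_ev (x : ℕ → ℝ) : dd.eval x = 1 * dd_r x := by
  simp only [dd, PE.eval, dd_r]
  all_goals (push_cast; ring)

def top0 : PE := (.add (.sub (.sub (.sub (.mul (.cst 2) (.sub (.mul (.cst 50000) (.mul (.mul (.mul (.cst 4) (.var 2)) (.sub (.cst 1) (.pow (.var 2) 2))) (.pow dd 2))) (.mul (.mul L1 (.mul (.cst 2) (.var 2))) (.pow dd 3)))) (.mul (.mul L2 (.sub (.cst 1) (.pow (.var 2) 2))) (.pow dd 3))) (.mul (.mul lq (.mul (.cst 4) (.pow (.var 2) 2))) (.pow dd 2))) (.mul (.cst 2) (.mul cz (.pow dd 4)))) (.mul (.add (.mul (.cst 2) N1) N2) (.mul (.cst 16) (.pow (.var 2) 4))))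

noncomputable def top0_r (x : ℕ → ℝ) : ℝ := (((((((((4 : ℝ) * x 2) * ((1 : ℝ) - (x 2 ^ 2))) * (dd_r x ^ 2)) - ((L1_r x * ((2 : ℝ) * x 2)) * (dd_r x ^ 3))) - ((L2_r x * ((1 : ℝ) - (x 2 ^ 2))) * (dd_r x ^ 3))) - ((lq_r x * ((4 : ℝ) * (x 2 ^ 2))) * (dd_r x ^ 2))) - (cz_r x * (dd_r x ^ 4))) + ((N1_r x + N2_r x) * ((16 : ℝ) * (x 2 ^ 4))))

theorem top0_ev (x : ℕ → ℝ) : top0.eval x = 100000 * top0_r x := by
  simp only [top0, PE.eval, L1_ev, L2_ev, N1_ev, N2_ev, cz_ev, dd_ev, lq_ev, top0_r]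
  all_goals (push_cast; ring)

noncomputable def R : ℕ := 0x8125000000000000b007d00000000000996722492490000083d252492490000082adda83a83000008d737649249000009b14d1b6db600000a62b8c0000000000b82df800000000008056ccccccc000006130500000000000722e8d41d41000007b9dd3a83a8000007bd2f90d2a600000764fcd249240000073e6976db6d00000782144ccccc000008e340199999000007d989999999000008e5c9cccccc000008a179ea0ea000000823f141d41d000008125cb277f40000083fa6ef8af8000008590a22be2b000008272ff333330000077d1ab333330000083c400000000000079775000000000007ef0e15f15f000007f649ea0ea0000007f6ccbb3ee7000007ef23caf8af000007ef1701d41d000007f096e6666600000826c0e666660000082b29999999000007e5b033333300000818ed1d41d400000801955f15f1000007fdcc4924920000080214a66666000008078c141d41000007fccdf33333000007fe7780000000000823e0000000000007df250000000000081507000000000007ff6bdb6db6000007fbe4af8af8000007ff971b6db6000008051e092492000007fbd3800000000008027680000000000967a000000000000ba425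00000000000c016824924900000b8cc224924900000bc578cccccc00000c6fbc40000000000d459ce4924900000e162f80000000000faabb8000000000071da99999990000076a16999999000007c23c507507000007bbc13333330000079d78db6db600000771f9f6db6d0000079e4740000000000846eea6666600000a78854ccccc000007d7f33333330000087ee03333330000088e0700000000000848d0507507000008225602ecfb0000081078fe2be200000804ccb8af8a000007ea27800000000007d226b333330000090ab0000000000007899e999999000007ec8e2492490000080a2e1d41d400000810e97f44c100000803351b6db6000007f9d02a0ea0000007f326d999990000081d1ae666660000081ee0000000000007e16e9999990000081622a83a83000007ff41750750000007fb6ae721a5000007ff750ccccc000008054e092492000007fbf980000000000801e9e666660000082250000000000007df6d000000000008150e249249000007ff2bb6db6d000007fbaaaf8af8000007ff93adb6db0000080540f6db6d000007fbec4000000000080228800000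

def es : List (PE × ℕ) := []

theorem hok : rootOk 62 [1, 5, 8] ((PE.mul (.cst 8388608) top0, 1) :: es) = true := by decide +kernel

theorem hR : Nat.beq (root 62 64 44 [1, 5, 8] ((PE.mul (.cst 8388608) top0, 1) :: es)) R = true := by decide +kernel

theorem hb : bdTest 64 44 108 R = true := by decide +kernel

end Crest.Agent.R307.MZm
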