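import Crest.Agent.Lib.Bern.Main

/-! generated by bern.py (helper67) -/

set_option autoImplicit false
set_option maxRecDepth 100000
set_option Elab.async false
set_option linter.all false

namespace Crest.Agent.R307.MZq1

open Crest.Agent.Bern

def L1 : PE := (.add (.mul (.add (.mul (.cst 16) (.mul (.add (.mul (.add (.mul (.add (.mul (.add (.mul (.cst (-43456)) (.var 1)) (.cst 149336)) (.var 1)) (.cst (-125404))) (.var 1)) (.cst 13546)) (.var 1)) (.cst (-1497))) (.var 1))) (.cst 411)) (.var 0)) (.add (.mul (.add (.mul (.cst 4) (.mul (.add (.mul (.cst 4) (.mul (.add (.mul (.add (.mul (.cst (-194528)) (.var 1)) (.cst 285376)) (.var 1)) (.cst (-88500))) (.var 1))) (.cst 92955)) (.var 1))) (.cst (-1517))) (.var 1)) (.cst 106385)))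

noncomputable def L1_r (x : ℕ → ℝ) : ℝ := (((((((((((((-43456 / 3125 : ℝ) * x 1) + (149336 / 3125 : ℝ)) * x 1) + (-125404 / 3125 : ℝ)) * x 1) + (13546 / 3125 : ℝ)) * x 1) + (-1497 / 3125 : ℝ)) * x 1) + (411 / 50000 : ℝ)) * x 0) + (((((((((((-194528 / 3125 : ℝ) * x 1) + (285376 / 3125 : ℝ)) * x 1) + (-708 / 25 : ℝ)) * x 1) + (18591 / 2500 : ℝ)) * x 1) + (-1517 / 50000 : ℝ)) * x 1) + (21277 / 10000 : ℝ)))

theorem L1_ev (x : ℕ → ℝ) : L1.eval x = 50000 * L1_r x := by
  simp only [L1, PE.eval, L1_r]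
  all_goals (push_cast; ring)

def top0 : PE := (.add L1 (.cst 0))

noncomputable def top0_r (x : ℕ → ℝ) : ℝ := (L1_r x + (0 : ℝ))

theorem top0_ev (x : ℕ → ℝ) : top0.eval x = 50000 * top0_r x := by
  simp only [top0, PE.eval, L1_ev, top0_r]
  all_goals (push_cast; ring)

noncomputable def R : ℕ := 0xb039d80000000000b85a79999990000076f258000000000092fa4000000000008c6a3199999000008d09600000000000bec6800000000000d267d4ccccc000008934e6666660000091738199999000008cf30cccccc000008cfc8800000

def es : List (PE × ℕ) := []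

theorem hok : rootOk 50 [1, 5] ((PE.mul (.cst 8388608) top0, 1) :: es) = true := by decide +kernel

theorem hR : Nat.beq (root 50 64 44 [1, 5] ((PE.mul (.cst 8388608) top0, 1) :: es)) R = true := by decide +kernel

theorem hb : bdTest 64 44 12 R = true := by decide +kernel

end Crest.Agent.R307.MZq1
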