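import Crest.Agent.Lib.Bern.Main

/-! generated by bern.py (helper67) -/

set_option autoImplicit false
set_option maxRecDepth 100000
set_option Elab.async false
set_option linter.all false

namespace Crest.Agent.R307.MZq2

open Crest.Agent.Bern

def L2 : PE := (.add (.mul (.cst 16) (.mul (.add (.mul (.add (.mul (.add (.mul (.cst 2) (.mul (.add (.mul (.add (.mul (.cst (-17152)) (.var 1)) (.cst 6344)) (.var 1)) (.cst 20292)) (.var 1))) (.cst (-19163))) (.var 1)) (.cst 66)) (.var 1)) (.cst 17)) (.var 0))) (.add (.mul (.cst 16) (.mul (.add (.mul (.add (.mul (.cst 2) (.mul (.add (.mul (.add (.mul (.cst (-37936)) (.var 1)) (.cst 80016)) (.var 1)) (.cst (-65103))) (.var 1))) (.cst 33511)) (.var 1)) (.cst (-298))) (.var 1))) (.cst 212731)))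

noncomputable def L2_r (x : ℕ → ℝ) : ℝ := (((((((((((((-17152 / 3125 : ℝ) * x 1) + (6344 / 3125 : ℝ)) * x 1) + (20292 / 3125 : ℝ)) * x 1) + (-19163 / 6250 : ℝ)) * x 1) + (33 / 3125 : ℝ)) * x 1) + (17 / 6250 : ℝ)) * x 0) + (((((((((((-37936 / 3125 : ℝ) * x 1) + (80016 / 3125 : ℝ)) * x 1) + (-65103 / 3125 : ℝ)) * x 1) + (33511 / 6250 : ℝ)) * x 1) + (-149 / 3125 : ℝ)) * x 1) + (212731 / 100000 : ℝ)))

theorem L2_ev (x : ℕ → ℝ) : L2.eval x = 100000 * L2_r x := by
  simp only [L2, PE.eval, L2_r]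
  all_goals (push_cast; ring)

def top0 : PE := (.add L2 (.cst 0))

noncomputable def top0_r (x : ℕ → ℝ) : ℝ := (L2_r x + (0 : ℝ))

theorem top0_ev (x : ℕ → ℝ) : top0.eval x = 100000 * top0_r x := by
  simp only [top0, PE.eval, L2_ev, top0_r]
  all_goals (push_cast; ring)

noncomputable def R : ℕ := 0x815eb00000000000cfcf166666600000a143b00000000000b93eb00000000000b3d2499999900000b400b0000000000081ceb00000000000b31fe33333300000a7a5966666600000c08f966666600000b3b4166666600000b3efb000000

def es : List (PE × ℕ) := []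

theorem hok : rootOk 51 [1, 5] ((PE.mul (.cst 16777216) top0, 1) :: es) = true := by decide +kernel

theorem hR : Nat.beq (root 51 64 44 [1, 5] ((PE.mul (.cst 16777216) top0, 1) :: es)) R = true := by decide +kernel

theorem hb : bdTest 64 44 12 R = true := by decide +kernel

end Crest.Agent.R307.MZq2
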