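import Crest.Agent.R307.MZq3D

set_option autoImplicit false
set_option maxRecDepth 100000
set_option Elab.async false
set_option linter.all false

namespace Crest.Agent.R307.MZq3

open Crest.Agent.Bern

theorem c0 : Good 64 44 [1, 5] 1 (sub 64 [1, 5] 1 R []) :=
  good_of_go (wb := 17) (by decide) (by decide) (by decide) 5 _
    0xf80007c0003e20001f110000f80007c40003e20001f11 (by decide +kernel)

end Crest.Agent.R307.MZq3
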