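import Crest.Agent.Lib.Bern.Main

/-! generated by bern.py (helper67) -/

set_option autoImplicit false
set_option maxRecDepth 100000
set_option Elab.async false
set_option linter.all false

namespace Crest.Agent.R307.MZq3

open Crest.Agent.Bern

def N1 : PE := (.add (.mul (.add (.mul (.cst 8) (.mul (.add (.mul (.cst 2) (.mul (.add (.mul (.add (.mul (.add (.mul (.cst 108128) (.var 1)) (.cst (-228920))) (.var 1)) (.cst 162316)) (.var 1)) (.cst (-40351))) (.var 1))) (.cst 2503)) (.var 1))) (.cst (-357))) (.var 0)) (.mul (.cst 8) (.add (.mul (.add (.mul (.cst 2) (.mul (.add (.mul (.add (.mul (.add (.mul (.cst 3376) (.var 1)) (.cst (-22068))) (.var 1)) (.cst 36741)) (.var 1)) (.cst (-19432))) (.var 1))) (.cst 223)) (.var 1)) (.cst 3227))))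

noncomputable def N1_r (x : ℕ → ℝ) : ℝ := (((((((((((((108128 / 3125 : ℝ) * x 1) + (-45784 / 625 : ℝ)) * x 1) + (162316 / 3125 : ℝ)) * x 1) + (-40351 / 3125 : ℝ)) * x 1) + (2503 / 6250 : ℝ)) * x 1) + (-357 / 50000 : ℝ)) * x 0) + (((((((((((3376 / 3125 : ℝ) * x 1) + (-22068 / 3125 : ℝ)) * x 1) + (36741 / 3125 : ℝ)) * x 1) + (-19432 / 3125 : ℝ)) * x 1) + (223 / 6250 : ℝ)) * x 1) + (3227 / 6250 : ℝ)))

theorem N1_ev (x : ℕ → ℝ) : N1.eval x = 50000 * N1_r x := by
  simp only [N1, PE.eval, N1_r]
  all_goals (push_cast; ring)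

def top0 : PE := (.add N1 (.cst 0))

noncomputable def top0_r (x : ℕ → ℝ) : ℝ := (N1_r x + (0 : ℝ))

theorem top0_ev (x : ℕ → ℝ) : top0.eval x = 50000 * top0_r x := by
  simp only [top0, PE.eval, N1_ev, top0_r]
  all_goals (push_cast; ring)

noncomputable def R : ℕ := 0xaae0c000000000004533f33333300000c46f26666660000043f85999999000009d1f26666660000098dcc000000000008558000000000000851933333330000078939999999000007b8b999999900000998f33333330000099360000000

def es : List (PE × ℕ) := []

theorem hok : rootOk 53 [1, 5] ((PE.mul (.cst 67108864) top0, 1) :: es) = true := by decide +kernel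

theorem hR : Nat.beq (root 53 64 44 [1, 5] ((PE.mul (.cst 67108864) top0, 1) :: es)) R = true := by decide +kernel

theorem hb : bdTest 64 44 12 R = true := by decide +kernel

end Crest.Agent.R307.MZq3
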