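import Crest.Agent.Lib.Bern.Main

/-! generated by bern.py (helper67) -/

set_option autoImplicit false
set_option maxRecDepth 100000
set_option Elab.async false
set_option linter.all false

namespace Crest.Agent.R307.MZq4

open Crest.Agent.Bern

def N2 : PE := (.add (.mul (.cst 2) (.mul (.add (.mul (.cst 2) (.mul (.add (.mul (.cst 4) (.mul (.add (.mul (.cst 2) (.mul (.add (.mul (.add (.mul (.cst (-49184)) (.var 1)) (.cst 134480)) (.var 1)) (.cst (-130050))) (.var 1))) (.cst 90073)) (.var 1))) (.cst (-7239))) (.var 1))) (.cst 77)) (.var 0))) (.add (.mul (.cst 2) (.mul (.add (.mul (.cst 16) (.mul (.add (.mul (.add (.mul (.add (.mul (.cst 62384) (.var 1)) (.cst (-77324))) (.var 1)) (.cst 26008)) (.var 1)) (.cst (-994))) (.var 1))) (.cst 277)) (.var 1))) (.cst 81)))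

noncomputable def N2_r (x : ℕ → ℝ) : ℝ := (((((((((((((-49184 / 3125 : ℝ) * x 1) + (26896 / 625 : ℝ)) * x 1) + (-5202 / 125 : ℝ)) * x 1) + (90073 / 6250 : ℝ)) * x 1) + (-7239 / 25000 : ℝ)) * x 1) + (77 / 50000 : ℝ)) * x 0) + (((((((((((62384 / 3125 : ℝ) * x 1) + (-77324 / 3125 : ℝ)) * x 1) + (26008 / 3125 : ℝ)) * x 1) + (-994 / 3125 : ℝ)) * x 1) + (277 / 50000 : ℝ)) * x 1) + (81 / 100000 : ℝ)))

theorem N2_ev (x : ℕ → ℝ) : N2.eval x = 100000 * N2_r x := by
  simp only [N2, PE.eval, N2_r]
  all_goals (push_cast; ring)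

def top0 : PE := (.add N2 (.cst 0))

noncomputable def top0_r (x : ℕ → ℝ) : ℝ := (N2_r x + (0 : ℝ))

theorem top0_ev (x : ℕ → ℝ) : top0.eval x = 100000 * top0_r x := by
  simp only [top0, PE.eval, N2_ev, top0_r]
  all_goals (push_cast; ring)

noncomputable def R : ℕ := 0xca089000000000005d2263333330000091d6b666666000009fb12333333000007eaba99999900000800eb00000000000cedbb0000000000053ecc3333330000092170999999000007f4c1cccccc00000800bfcccccc0000080051000000

def es : List (PE × ℕ) := []

theorem hok : rootOk 51 [1, 5] ((PE.mul (.cst 16777216) top0, 1) :: es) = true := by decide +kernel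

theorem hR : Nat.beq (root 51 64 44 [1, 5] ((PE.mul (.cst 16777216) top0, 1) :: es)) R = true := by decide +kernel

theorem hb : bdTest 64 44 12 R = true := by decide +kernel

end Crest.Agent.R307.MZq4
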