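import Crest.Agent.R307.IA2
import Crest.Agent.R307.IAx
set_option autoImplicit false
set_option linter.unusedVariables false
set_option maxRecDepth 20000
namespace Crest.Agent.R307.OBe
open Crest.Agent.R307.IA Crest.Agent.R307.IA2

theorem In_cast {e1 e2 : ℝ} {x y1 y2 r : ℕ} {v w : ℝ}
    (h : In e1 e2 x y1 y2 r v) (e : v = w) : In e1 e2 x y1 y2 r w := e ▸ h

noncomputable def q2 (m s : ℝ) : ℝ := ((1423/10000:ℝ) - ((58/125:ℝ) * (s - (31/50:ℝ))))
noncomputable def g1 (m s : ℝ) : ℝ := ((18741/10000:ℝ) + ((5289/2000:ℝ) * (s - (31/50:ℝ))))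
noncomputable def g2 (m s : ℝ) : ℝ := ((25189/5000:ℝ) + ((32327/2500:ℝ) * (s - (31/50:ℝ))))

def Q (m s : ℝ) : Prop :=
  (
  (0 < (((1:ℝ) / ((1:ℝ) + (√((1:ℝ) - (m * m))))) + (s * ((((1:ℝ) - (m * m)) * ((((q2 m s) / (2:ℝ)) + (((g1 m s) * (25/7:ℝ)) / ((49:ℝ) - (((25:ℝ) * m) * m)))) + (((g2 m s) * (225/32:ℝ)) / ((256:ℝ) - (((225:ℝ) * m) * m))))) - (1:ℝ))))))

noncomputable def alt0 (z1 w1 z2 w2 : ℕ) : Bool :=
  sqK z1 (Nat.add w1 1152921504606846976) 1152921504606846976 0 fun c1 a1_1 a1_2 q1 =>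
  negK c1 a1_1 a1_2 q1 fun c3 a3_1 a3_2 q3 =>
  addcK c3 a3_1 a3_2 q3 1152922604118474752 0 fun c4 a4_1 a4_2 q4 =>
  sqrtK c4 a4_1 a4_2 q4 fun c6 a6_1 a6_2 q6 =>
  addcK c6 a6_1 a6_2 q6 1152922604118474752 0 fun c7 a7_1 a7_2 q7 =>
  invK c7 a7_1 a7_2 q7 fun c9 a9_1 a9_2 q9 =>
  addcK z2 1152921504606846976 (Nat.add w2 1152921504606846976) 0 1152920822909637755 1 fun c11 a11_1 a11_2 q11 =>
  smulK 58 125 144115188075855872125 66869447267197124608 c11 a11_1 a11_2 q11 fun c13 a13_1 a13_2 q13 =>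
  negK c13 a13_1 a13_2 q13 fun c14 a14_1 a14_2 q14 =>
  addcK c14 a14_1 a14_2 q14 1152921661067351609 1 fun c15 a15_1 a15_2 q15 =>
  smulK 1 2 2305843009213693954 1152921504606846976 c15 a15_1 a15_2 q15 fun c18 a18_1 a18_2 q18 =>
  smulK 25 1 1152921504606846977 28823037615171174400 z1 (Nat.add w1 1152921504606846976) 1152921504606846976 0 fun c20 a20_1 a20_2 q20 =>
  mulK c20 a20_1 a20_2 q20 z1 (Nat.add w1 1152921504606846976) 1152921504606846976 0 fun c21 a21_1 a21_2 q21 =>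
  negK c21 a21_1 a21_2 q21 fun c22 a22_1 a22_2 q22 =>
  addcK c22 a22_1 a22_2 q22 1152975380676608000 0 fun c23 a23_1 a23_2 q23 =>
  invK c23 a23_1 a23_2 q23 fun c25 a25_1 a25_2 q25 =>
  smulK 5289 2000 2305843009213693954000 6097801837865613656064 c11 a11_1 a11_2 q11 fun c26 a26_1 a26_2 q26 =>
  addcK c26 a26_1 a26_2 q26 1152923565201588591 1 fun c27 a27_1 a27_2 q27 =>
  smulK 25 7 8070450532247928839 28823037615171174400 c27 a27_1 a27_2 q27 fun c30 a30_1 a30_2 q30 =>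
  mulK c30 a30_1 a30_2 q30 c25 a25_1 a25_2 q25 fun c32 a32_1 a32_2 q32 =>
  addK c18 a18_1 a18_2 q18 c32 a32_1 a32_2 q32 fun c34 a34_1 a34_2 q34 =>
  smulK 225 1 1152921504606846977 259407338536540569600 z1 (Nat.add w1 1152921504606846976) 1152921504606846976 0 fun c35 a35_1 a35_2 q35 =>
  mulK c35 a35_1 a35_2 q35 z1 (Nat.add w1 1152921504606846976) 1152921504606846976 0 fun c36 a36_1 a36_2 q36 =>
  negK c36 a36_1 a36_2 q36 fun c37 a37_1 a37_2 q37 =>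
  addcK c37 a37_1 a37_2 q37 1153202979583557632 0 fun c38 a38_1 a38_2 q38 =>
  invK c38 a38_1 a38_2 q38 fun c40 a40_1 a40_2 q40 =>
  smulK 32327 2500 2882303761517117442500 37270493479425542193152 c11 a11_1 a11_2 q11 fun c41 a41_1 a41_2 q41 =>
  addcK c41 a41_1 a41_2 q41 1152927043726525386 1 fun c42 a42_1 a42_2 q42 =>
  smulK 225 32 36893488147419103264 259407338536540569600 c42 a42_1 a42_2 q42 fun c45 a45_1 a45_2 q45 =>
  mulK c45 a45_1 a45_2 q45 c40 a40_1 a40_2 q40 fun c47 a47_1 a47_2 q47 =>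
  addK c34 a34_1 a34_2 q34 c47 a47_1 a47_2 q47 fun c49 a49_1 a49_2 q49 =>
  mulK c4 a4_1 a4_2 q4 c49 a49_1 a49_2 q49 fun c50 a50_1 a50_2 q50 =>
  addcK c50 a50_1 a50_2 q50 1152920405095219200 0 fun c51 a51_1 a51_2 q51 =>
  mulK z2 1152921504606846976 (Nat.add w2 1152921504606846976) 0 c51 a51_1 a51_2 q51 fun c53 a53_1 a53_2 q53 =>
  addK c9 a9_1 a9_2 q9 c53 a53_1 a53_2 q53 fun c54 a54_1 a54_2 q54 =>
  pos c54 a54_1 a54_2 q54

theorem alt0_s {z1 w1 z2 w2 : ℕ} {e1 e2 m s : ℝ} (he : Ev e1 e2)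
    (hx1 : In e1 e2 z1 (Nat.add w1 1152921504606846976) 1152921504606846976 0 m)
    (hx2 : In e1 e2 z2 1152921504606846976 (Nat.add w2 1152921504606846976) 0 s)
    (H0 : alt0 z1 w1 z2 w2 = true) : 0 < (((1:ℝ) / ((1:ℝ) + (√((1:ℝ) - (m * m))))) + (s * ((((1:ℝ) - (m * m)) * ((((q2 m s) / (2:ℝ)) + (((g1 m s) * (25/7:ℝ)) / ((49:ℝ) - (((25:ℝ) * m) * m)))) + (((g2 m s) * (225/32:ℝ)) / ((256:ℝ) - (((225:ℝ) * m) * m))))) - (1:ℝ)))) := by
  unfold alt0 at H0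
  refine sqK_s he hx1 (fun _ _ _ _ h1 H1 => ?_) H0
  have h2 := In_cast h1 (sq _)
  refine negK_s he h2 (fun _ _ _ _ h3 H2 => ?_) H1
  refine addcK_s he h3 (v' := (1:ℝ)) (by norm_num [SS, BB, abs_le]) (fun _ _ _ _ h4 H3 => ?_) H2
  have h5 := In_cast h4 (neg_add_eq_sub _ _)
  refine sqrtK_s he h5 (fun _ _ _ _ h6 H4 => ?_) H3
  refine addcK_s he h6 (v' := (1:ℝ)) (by norm_num [SS, BB, abs_le]) (fun _ _ _ _ h7 H5 => ?_) H4
  have h8 := In_cast h7 (add_comm _ _)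
  refine invK_s he h8 (fun _ _ _ _ h9 H6 => ?_) H5
  have h10 := In_cast h9 (inv_eq_one_div _)
  refine addcK_s he hx2 (v' := (-31/50:ℝ)) (by norm_num [SS, BB, abs_le]) (fun _ _ _ _ h11 H7 => ?_) H6
  have h12 := In_cast h11 (sub_c (c := (31/50:ℝ)) (by norm_num))
  refine smulK_s he (w := (58/125:ℝ)) (by norm_num) (by norm_num) (by norm_num) (by norm_num) h12 (fun _ _ _ _ h13 H8 => ?_) H7
  refine negK_s he h13 (fun _ _ _ _ h14 H9 => ?_) H8
  refine addcK_s he h14 (v' := (1423/10000:ℝ)) (by norm_num [SS, BB, abs_le]) (fun _ _ _ _ h15 H10 => ?_) H9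
  have h16 := In_cast h15 (neg_add_eq_sub _ _)
  have h17 := In_cast (w := (q2 m s)) h16 rfl
  refine smulK_s he (w := (1/2:ℝ)) (by norm_num) (by norm_num) (by norm_num) (by norm_num) h17 (fun _ _ _ _ h18 H11 => ?_) H10
  have h19 := In_cast h18 (div_c (c := (2:ℝ)) (by norm_num))
  refine smulK_s he (w := (25:ℝ)) (by norm_num) (by norm_num) (by norm_num) (by norm_num) hx1 (fun _ _ _ _ h20 H12 => ?_) H11
  refine mulK_s he h20 hx1 (fun _ _ _ _ h21 H13 => ?_) H12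
  refine negK_s he h21 (fun _ _ _ _ h22 H14 => ?_) H13
  refine addcK_s he h22 (v' := (49:ℝ)) (by norm_num [SS, BB, abs_le]) (fun _ _ _ _ h23 H15 => ?_) H14
  have h24 := In_cast h23 (neg_add_eq_sub _ _)
  refine invK_s he h24 (fun _ _ _ _ h25 H16 => ?_) H15
  refine smulK_s he (w := (5289/2000:ℝ)) (by norm_num) (by norm_num) (by norm_num) (by norm_num) h12 (fun _ _ _ _ h26 H17 => ?_) H16
  refine addcK_s he h26 (v' := (18741/10000:ℝ)) (by norm_num [SS, BB, abs_le]) (fun _ _ _ _ h27 H18 => ?_) H17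
  have h28 := In_cast h27 (add_comm _ _)
  have h29 := In_cast (w := (g1 m s)) h28 rfl
  refine smulK_s he (w := (25/7:ℝ)) (by norm_num) (by norm_num) (by norm_num) (by norm_num) h29 (fun _ _ _ _ h30 H19 => ?_) H18
  have h31 := In_cast h30 (mul_comm _ _)
  refine mulK_s he h31 h25 (fun _ _ _ _ h32 H20 => ?_) H19
  have h33 := In_cast h32 ((div_eq_mul_inv _ _).symm)
  refine addK_s he h19 h33 (fun _ _ _ _ h34 H21 => ?_) H20
  refine smulK_s he (w := (225:ℝ)) (by norm_num) (by norm_num) (by norm_num) (by norm_num) hx1 (fun _ _ _ _ h35 H22 => ?_) H21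
  refine mulK_s he h35 hx1 (fun _ _ _ _ h36 H23 => ?_) H22
  refine negK_s he h36 (fun _ _ _ _ h37 H24 => ?_) H23
  refine addcK_s he h37 (v' := (256:ℝ)) (by norm_num [SS, BB, abs_le]) (fun _ _ _ _ h38 H25 => ?_) H24
  have h39 := In_cast h38 (neg_add_eq_sub _ _)
  refine invK_s he h39 (fun _ _ _ _ h40 H26 => ?_) H25
  refine smulK_s he (w := (32327/2500:ℝ)) (by norm_num) (by norm_num) (by norm_num) (by norm_num) h12 (fun _ _ _ _ h41 H27 => ?_) H26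
  refine addcK_s he h41 (v' := (25189/5000:ℝ)) (by norm_num [SS, BB, abs_le]) (fun _ _ _ _ h42 H28 => ?_) H27
  have h43 := In_cast h42 (add_comm _ _)
  have h44 := In_cast (w := (g2 m s)) h43 rfl
  refine smulK_s he (w := (225/32:ℝ)) (by norm_num) (by norm_num) (by norm_num) (by norm_num) h44 (fun _ _ _ _ h45 H29 => ?_) H28
  have h46 := In_cast h45 (mul_comm _ _)
  refine mulK_s he h46 h40 (fun _ _ _ _ h47 H30 => ?_) H29
  have h48 := In_cast h47 ((div_eq_mul_inv _ _).symm)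
  refine addK_s he h34 h48 (fun _ _ _ _ h49 H31 => ?_) H30
  refine mulK_s he h5 h49 (fun _ _ _ _ h50 H32 => ?_) H31
  refine addcK_s he h50 (v' := (-1:ℝ)) (by norm_num [SS, BB, abs_le]) (fun _ _ _ _ h51 H33 => ?_) H32
  have h52 := In_cast h51 (sub_c (c := (1:ℝ)) (by norm_num))
  refine mulK_s he hx2 h52 (fun _ _ _ _ h53 H34 => ?_) H33
  refine addK_s he h10 h53 (fun _ _ _ _ h54 H35 => ?_) H34
  exact pos_s he h54 H35

attribute [irreducible] alt0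

noncomputable def leaf (j u z1 w1 z2 w2 : ℕ) : Bool :=
  alt0 z1 w1 z2 w2

theorem snd : Snd Q leaf := by
  intro j u z1 w1 z2 w2 e1 e2 he H
  unfold leaf at H
  unfold Q
  exact alt0_s he (var1 z1 w1) (var2 z2 w2) H

end Crest.Agent.R307.OBe
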