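import Crest.Agent.R307.OBr
set_option autoImplicit false
set_option maxRecDepth 100000
namespace Crest.Agent.R307.OBr
open Crest.Agent.R307.IA Crest.Agent.R307.IA3

theorem k6 : Cov Q 1152921779484754037 1152922054362660864 1152921779484754113 1152922054362661017 1152922043367544586 1152922330669932925 :=
  cov_of snd 0 0 10 _ _ _ _ _ _ 0x33032330320330323313201333003303300123303233033013302133033023303300330210330330133033010203303301330233033013302033033002330330133023303301330203313300213303301330233033013302033033002330330133023303301330203303300210133300330233033003302133033012330330033023303300330213303301203303300330233033003302033033002330330133023313310330203303300211330330033023303300330213303301233033003302330330033021330330120330330033023303300330213303301233033003302330330033021330330120100 (by decide +kernel)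

theorem k7 : Cov Q 1152921779484754037 1152922054362660864 1152922054362661017 1152922604118474752 1152922043367544586 1152922330669932925 :=
  cov_of snd 0 0 12 _ _ _ _ _ _ 0x330330033023303310330213303233033013302033033013302330330233120103330133033010330330023303303213303303210331331021330330133033300103313303301023303300330321330323303210333013303301021013303302333012333013302330330121331333010331333010233033003302330330330122103303233132033312330330312023313302331330203331233033010213313302330330133020330330330123303330033012023330133023303301330203323301333023301021003303300330321330330123303233033021333003301203303233033021330330123303302333003302133033012013303302333003302133033003301233032330321330323303210330313303102033300330233033003302133033012330323303203303233032013303301201010 (by decide +kernel)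

end Crest.Agent.R307.OBr
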