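import Crest.Agent.R307.OCaM
import Crest.Agent.R307.OCcM
import Crest.Agent.R307.HPc

/-!
# R307/OCk: one cone for `U = √(pq) + z (√q - √p + 2p - 1)`, `z = 99/100`, `ρ ∈ [.66, .87]`
-/

set_option autoImplicit false

namespace Crest.Agent.R307

open Crest.CubeNoise Set

/-- The potential in the variables `t = √p`, `r = √(1-p)`. -/
noncomputable def ocW (t r : ℝ) : ℝ := t * r + 99 / 100 * (r - t + t ^ 2 - r ^ 2)

theorem oc_fd {t0 r0 t1 r1 δ c c' : ℝ} (hc : c * (t1 + t0) = 1) (hc' : c' * (r1 + r0) = 1)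
    (d1 : t1 ^ 2 - t0 ^ 2 = δ) (d2 : r0 ^ 2 - r1 ^ 2 = δ) :
    ocW t0 r0 - ocW t1 r1 = -δ * ((r0 - 99 / 100) * c - (t1 + 99 / 100) * c' + 99 / 50) := by
  have C : t1 - t0 = δ * c := by linear_combination c * d1 - (t1 - t0) * hc
  have C' : r0 - r1 = δ * c' := by linear_combination c' * d2 - (r0 - r1) * hc'
  unfold ocW
  linear_combination (99 / 100 - r0) * C + (t1 + 99 / 100) * C' - 99 / 100 * d1 - 99 / 100 * d2

theorem oc_dd {t0 r0 t1 r1 tm rm l δ a b c a' b' c' : ℝ} (ha : a * (tm + t0) = 1) (hb : b * (t1 + tm) = 1)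
    (hc : c * (t1 + t0) = 1) (ha' : a' * (rm + r0) = 1) (hb' : b' * (r1 + rm) = 1) (hc' : c' * (r1 + r0) = 1)
    (ht : tm ^ 2 = l * t1 ^ 2 + (1 - l) * t0 ^ 2) (hr : rm ^ 2 = l * r1 ^ 2 + (1 - l) * r0 ^ 2)
    (d1 : t1 ^ 2 - t0 ^ 2 = δ) (d2 : r0 ^ 2 - r1 ^ 2 = δ) :
    ocW tm rm = l * ocW t1 r1 + (1 - l) * ocW t0 r0 +
      l * (1 - l) * δ ^ 2 * ((r0 - 99 / 100) * (b * a * c) + b * a' + (t1 + 99 / 100) * (b' * a' * c')) := by
  have A : tm - t0 = l * δ * a := by linear_combination a * (ht + l * d1) - (tm - t0) * ha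
  have B : t1 - tm = (1 - l) * δ * b := by linear_combination b * ((1 - l) * d1 - ht) - (t1 - tm) * hb
  have C : t1 - t0 = δ * c := by linear_combination c * d1 - (t1 - t0) * hc
  have A' : r0 - rm = l * δ * a' := by linear_combination a' * (l * d2 - hr) - (r0 - rm) * ha'
  have B' : rm - r1 = (1 - l) * δ * b' := by linear_combination b' * (hr + (1 - l) * d2) - (rm - r1) * hb'
  have C' : r0 - r1 = δ * c' := by linear_combination c' * d2 - (r0 - r1) * hc'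
  have e : a - b = b * a * c * δ := by linear_combination b * ha - a * hb + a * b * C
  have e' : b' - a' = b' * a' * c' * δ := by linear_combination a' * hb' - b' * ha' + a' * b' * C'
  have T : tm - l * t1 - (1 - l) * t0 = l * (1 - l) * δ ^ 2 * (b * a * c) := by
    linear_combination (1 - l) * A - l * B + l * (1 - l) * δ * e
  have T' : rm - l * r1 - (1 - l) * r0 = l * (1 - l) * δ ^ 2 * (b' * a' * c') := by
    linear_combination l * B' - (1 - l) * A' + l * (1 - l) * δ * e'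
  have P : (t1 - tm) * (r0 - rm) = l * (1 - l) * δ ^ 2 * (b * a') := by rw [B, A']; ring
  unfold ocW
  linear_combination (r0 - 99 / 100) * T + (t1 + 99 / 100) * T' + P + 99 / 100 * ht - 99 / 100 * hr

theorem oc_fin {al be s k x G N m M g : ℝ} (hab : 0 ≤ al * be) (hs : s ^ 2 = 4 * (al * be)) (hs0 : 0 ≤ s) (hk : 0 ≤ k)
    (hx : 0 ≤ x) (hM : M = s * k * x * m) (hg : g = al * be * k * x ^ 2 * G)
    (h : 0 < G * (al * be * x ^ 2 * G + 2 * N) - 4 * m * m ∨ 0 < -m) : M ≤ 0 ∨ M ^ 2 ≤ g * (g + 2 * (k * N)) := by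
  rcases h with h | h
  · right
    have := mul_nonneg (mul_nonneg hab (sq_nonneg (k * x))) h.le
    rw [hM, hg]
    linear_combination this + (k * x * m) ^ 2 * hs
  · left
    rw [hM]
    exact mul_nonpos_of_nonneg_of_nonpos (by positivity) (by linarith)

noncomputable def ocN0 (s : ℝ) : ℝ := 47 / 500 + s * (49 / 500 + 57 / 200 * s)
noncomputable def ocN1 (s : ℝ) : ℝ := 49 / 50 - 27 / 50 * s
noncomputable def ocK (s : ℝ) : ℝ := 247 / 250 + s / 125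
noncomputable def ocNu (s : ℝ) : ℝ := 11 / 20 + 3 / 200 * s

set_option maxHeartbeats 2000000 in
theorem oc_cone {ρ : ℝ} (hρ0 : 33 / 50 ≤ ρ) (hρ1 : ρ ≤ 87 / 100) {U : ℝ → ℝ}
    (hU : ∀ p, U p = √p * √(1 - p) + 99 / 100 * (√(1 - p) - √p + 2 * p - 1)) {s : ℝ} (hs : s = √(1 - ρ * ρ)) :
    Cone ρ U (ocN0 s) (ocN1 s) (ocK s * s) (ocNu s * s) (ocNu s * s) := by
  have hW : ∀ p t r : ℝ, 0 ≤ t → 0 ≤ r → t ^ 2 = p → r ^ 2 = 1 - p → U p = ocW t r := fun p t r a b c d => by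
    rw [hU, ← d, ← c, Real.sqrt_sq a, Real.sqrt_sq b, ocW]
    linear_combination (99 / 100) * (c + d)
  have s0 : 0 ≤ s := hs ▸ Real.sqrt_nonneg _
  have s2 : s ^ 2 = 4 * ((1 + ρ) / 2 * ((1 - ρ) / 2)) := by
    rw [hs, Real.sq_sqrt (by nlinarith)]; ring
  have al0 : 0 < (1 + ρ) / 2 := by linarith
  have be0 : 0 < (1 - ρ) / 2 := by linarith
  intro p0 p1 h0 h01 h1
  rcases h01.eq_or_lt with hp | hp
  · left
    rw [hp]
    linarith
  rcases le_or_gt p1 (9 / 16) with hc | hc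
  · -- chart c
    obtain ⟨t, t0, ht⟩ : ∃ t : ℝ, 0 < t ∧ t ^ 2 = p1 := ⟨√p1, Real.sqrt_pos.2 (by linarith), Real.sq_sqrt (by linarith)⟩
    have t1 : t ≤ 3 / 4 := by nlinarith
    obtain ⟨u, u0, u1, hu⟩ : ∃ u : ℝ, 0 ≤ u ∧ u ≤ 1 ∧ (t * u) ^ 2 = p0 := by
      refine ⟨√p0 / t, by positivity, (div_le_one t0).2 (Real.sqrt_le_iff.2 ⟨t0.le, by linarith⟩), ?_⟩
      rw [mul_div_cancel₀ _ t0.ne', Real.sq_sqrt h0]
    have uu : 0 ≤ 1 - u * u := sub_nonneg.2 (mul_le_one₀ u1 u0 u1)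
    have key := OCc.main t u ρ t0.le t1 u0 u1 hρ0 hρ1
    have x2 : OCc.ex t u ρ ^ 2 = (1 + ρ) / 2 + (1 - ρ) / 2 * (u * u) := Real.sq_sqrt (by unfold OCc.al OCc.be; positivity)
    have y2 : OCc.ey t u ρ ^ 2 = (1 + ρ) / 2 * (u * u) + (1 - ρ) / 2 := Real.sq_sqrt (by unfold OCc.al OCc.be; positivity)
    have x0 : 0 < OCc.ex t u ρ := Real.sqrt_pos.2 (by unfold OCc.al OCc.be; positivity)
    have y0 : 0 < OCc.ey t u ρ := Real.sqrt_pos.2 (by unfold OCc.al OCc.be; positivity)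
    have px : (t * OCc.ex t u ρ) ^ 2 = (1 + ρ) / 2 * p1 + (1 - ρ) / 2 * p0 := by
      rw [mul_pow, x2, ← ht, ← hu]; ring
    have py : (t * OCc.ey t u ρ) ^ 2 = (1 + ρ) / 2 * p0 + (1 - ρ) / 2 * p1 := by
      rw [mul_pow, y2, ← ht, ← hu]; ring
    have qx : 0 < 1 - (t * OCc.ex t u ρ) ^ 2 := by rw [px]; nlinarith
    have qy : 0 < 1 - (t * OCc.ey t u ρ) ^ 2 := by rw [py]; nlinarith
    have a0 : 0 < OCc.r0 t u ρ := Real.sqrt_pos.2 (by linarith)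
    have a1 : 0 < OCc.r1 t u ρ := Real.sqrt_pos.2 (by linarith)
    have ax : 0 < OCc.rx t u ρ := Real.sqrt_pos.2 qx
    have ay : 0 < OCc.ry t u ρ := Real.sqrt_pos.2 qy
    have b0 : OCc.r0 t u ρ ^ 2 = 1 - p0 := by rw [← hu]; exact Real.sq_sqrt (by linarith)
    have b1 : OCc.r1 t u ρ ^ 2 = 1 - p1 := by rw [← ht]; exact Real.sq_sqrt (by linarith)
    have bx : OCc.rx t u ρ ^ 2 = 1 - ((1 + ρ) / 2 * p1 + (1 - ρ) / 2 * p0) := by rw [← px]; exact Real.sq_sqrt qx.le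
    have bY : OCc.ry t u ρ ^ 2 = 1 - ((1 + ρ) / 2 * p0 + (1 - ρ) / 2 * p1) := by rw [← py]; exact Real.sq_sqrt qy.le
    have c0 : OCc.c0 t u ρ = OCc.r0 t u ρ - 99 / 100 := by
      rw [OCc.c0, hu]; field_simp; linear_combination (-100) * b0
    have c1 : OCc.c1 t u ρ = OCc.r1 t u ρ - 99 / 100 := by
      rw [OCc.c1, ht]; field_simp; linear_combination (-100) * b1
    have U0 := hW p0 _ _ (by positivity) a0.le hu b0
    have U1 := hW p1 _ _ t0.le a1.le ht b1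
    have Ux := hW _ _ _ (by positivity) ax.le px bx
    have Uy := hW _ _ _ (by positivity) ay.le py bY
    have V0 : U p0 = t * (u * OCc.u0 t u ρ) := by
      rw [U0, OCc.u0, c0, ocW]; field_simp; linear_combination (-99 * OCc.r0 t u ρ) * (b0 + hu)
    have V1 : U p1 = t * OCc.u1 t u ρ := by
      rw [U1, OCc.u1, c1, ocW]; field_simp; linear_combination (-99 * OCc.r1 t u ρ) * (b1 + ht)
    have d1 : t ^ 2 - (t * u) ^ 2 = t ^ 2 * (1 - u * u) := by ring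
    have d2 : OCc.r0 t u ρ ^ 2 - OCc.r1 t u ρ ^ 2 = t ^ 2 * (1 - u * u) := by rw [b0, b1, ← ht, ← hu]; ring
    have hc1 : t⁻¹ * (1 + u)⁻¹ * (t + t * u) = 1 := by field_simp
    have hc2 : (OCc.r1 t u ρ + OCc.r0 t u ρ)⁻¹ * (OCc.r1 t u ρ + OCc.r0 t u ρ) = 1 := by field_simp
    have fd := oc_fd hc1 hc2 d1 d2
    have dx := oc_dd (tm := t * OCc.ex t u ρ) (rm := OCc.rx t u ρ) (l := (1 + ρ) / 2) (a := t⁻¹ * (OCc.ex t u ρ + u)⁻¹)
      (b := t⁻¹ * (1 + OCc.ex t u ρ)⁻¹) (a' := (OCc.rx t u ρ + OCc.r0 t u ρ)⁻¹) (b' := (OCc.r1 t u ρ + OCc.rx t u ρ)⁻¹)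
      (by field_simp) (by field_simp) hc1 (by field_simp) (by field_simp) hc2 (by rw [px, ht, hu]; ring)
      (by rw [bx, b0, b1]; ring) d1 d2
    have dy := oc_dd (tm := t * OCc.ey t u ρ) (rm := OCc.ry t u ρ) (l := (1 - ρ) / 2) (a := t⁻¹ * (OCc.ey t u ρ + u)⁻¹)
      (b := t⁻¹ * (1 + OCc.ey t u ρ)⁻¹) (a' := (OCc.ry t u ρ + OCc.r0 t u ρ)⁻¹) (b' := (OCc.r1 t u ρ + OCc.ry t u ρ)⁻¹)
      (by field_simp) (by field_simp) hc1 (by field_simp) (by field_simp) hc2 (by rw [py, ht, hu]; ring)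
      (by rw [bY, b0, b1]; ring) d1 d2
    have eN : ocN0 s * U p0 + ocN1 s * U p1 = t * (OCc.n0 t u ρ * u * OCc.u0 t u ρ + OCc.n1 t u ρ * OCc.u1 t u ρ) := by
      rw [V0, V1, hs]; unfold ocN0 ocN1 OCc.n0 OCc.n1 OCc.s; ring
    rw [eN]
    refine oc_fin (mul_pos al0 be0).le s2 s0 t0.le uu ?_ ?_ key
    · have e : p1 - p0 = t ^ 2 * (1 - u * u) := by rw [← ht, ← hu]; ring
      rw [← U0, ← U1] at fd
      have k1 : OCc.ka t u ρ = ocK s := by rw [hs]; rfl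
      have k2 : OCc.nu t u ρ = ocNu s := by rw [hs]; rfl
      rw [e, OCc.m, k1, k2, c0, add_sub_assoc, ← mul_sub, fd, div_eq_mul_inv (t + 99 / 100),
        div_eq_mul_inv (ocNu s * _)]
      generalize (OCc.r1 t u ρ + OCc.r0 t u ρ)⁻¹ = i1
      generalize (1 + u)⁻¹ = i2
      field_simp
      ring
    · rw [gain, Ux, Uy, U0, U1, dx, dy, OCc.G, c0]
      simp only [one_div, mul_inv, div_eq_mul_inv _ (1 + u), div_eq_mul_inv _ (OCc.r1 t u ρ + OCc.r0 t u ρ)]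
      generalize (OCc.r1 t u ρ + OCc.r0 t u ρ)⁻¹ = i1
      generalize (1 + u)⁻¹ = i2
      generalize (OCc.ex t u ρ + u)⁻¹ = i3
      generalize (OCc.ey t u ρ + u)⁻¹ = i4
      generalize (1 + OCc.ex t u ρ)⁻¹ = i5
      generalize (1 + OCc.ey t u ρ)⁻¹ = i6
      generalize (OCc.rx t u ρ + OCc.r0 t u ρ)⁻¹ = i7
      generalize (OCc.ry t u ρ + OCc.r0 t u ρ)⁻¹ = i8
      generalize (OCc.r1 t u ρ + OCc.rx t u ρ)⁻¹ = i9
      generalize (OCc.r1 t u ρ + OCc.ry t u ρ)⁻¹ = i10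
      field_simp
      ring
  · -- chart a
    obtain ⟨r, r0, hr⟩ : ∃ r : ℝ, 0 < r ∧ r ^ 2 = 1 - p0 :=
      ⟨√(1 - p0), Real.sqrt_pos.2 (by linarith), Real.sq_sqrt (by linarith)⟩
    obtain ⟨t, t0, ht⟩ : ∃ t : ℝ, 0 ≤ t ∧ t ^ 2 = p0 := ⟨√p0, Real.sqrt_nonneg _, Real.sq_sqrt h0⟩
    obtain ⟨u, u0, u1, hu⟩ : ∃ u : ℝ, 0 ≤ u ∧ u ≤ 1 ∧ (r * u) ^ 2 = 1 - p1 := by
      refine ⟨√(1 - p1) / r, by positivity, (div_le_one r0).2 (Real.sqrt_le_iff.2 ⟨r0.le, by linarith⟩), ?_⟩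
      rw [mul_div_cancel₀ _ r0.ne', Real.sq_sqrt (by linarith)]
    have uu : 0 ≤ 1 - u * u := sub_nonneg.2 (mul_le_one₀ u1 u0 u1)
    have r1 : r ≤ 1 := (pow_le_one_iff_of_nonneg r0.le two_ne_zero).1 (by linarith)
    obtain ⟨l, l0, l1, eR, eT⟩ : ∃ l : ℝ, 0 ≤ l ∧ l ≤ 1 ∧ OCa.R l u ρ = r ∧ OCa.t0 l u ρ = t := by
      have ll : 1 + r / (1 + t) * (r / (1 + t)) = 2 / (1 + t) := by field_simp; linear_combination hr + ht
      refine ⟨r / (1 + t), by positivity, (div_le_one (by linarith)).2 (by linarith), ?_, ?_⟩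
      · rw [OCa.R, ll]; field_simp
      · rw [OCa.t0, show 1 - r / (1 + t) * (r / (1 + t)) = 2 - (1 + r / (1 + t) * (r / (1 + t))) by ring, ll]
        field_simp
        ring
    have key := OCa.main l u ρ l0 l1 u0 u1 hρ0 hρ1
    have x2 : OCa.hx l u ρ ^ 2 = (1 + ρ) / 2 * (u * u) + (1 - ρ) / 2 := Real.sq_sqrt (by unfold OCa.al OCa.be; positivity)
    have y2 : OCa.hy l u ρ ^ 2 = (1 + ρ) / 2 + (1 - ρ) / 2 * (u * u) := Real.sq_sqrt (by unfold OCa.al OCa.be; positivity)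
    have x0 : 0 < OCa.hx l u ρ := Real.sqrt_pos.2 (by unfold OCa.al OCa.be; positivity)
    have y0 : 0 < OCa.hy l u ρ := Real.sqrt_pos.2 (by unfold OCa.al OCa.be; positivity)
    have qx : (r * OCa.hx l u ρ) ^ 2 = 1 - ((1 + ρ) / 2 * p1 + (1 - ρ) / 2 * p0) := by
      rw [mul_pow, x2]; linear_combination (1 + ρ) / 2 * hu + (1 - ρ) / 2 * hr
    have qy : (r * OCa.hy l u ρ) ^ 2 = 1 - ((1 + ρ) / 2 * p0 + (1 - ρ) / 2 * p1) := by
      rw [mul_pow, y2]; linear_combination (1 - ρ) / 2 * hu + (1 + ρ) / 2 * hr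
    have X0 : 0 < (1 + ρ) / 2 * p1 + (1 - ρ) / 2 * p0 := add_pos_of_pos_of_nonneg (mul_pos al0 (by linarith)) (by positivity)
    have Y0 : 0 < (1 + ρ) / 2 * p0 + (1 - ρ) / 2 * p1 := add_pos_of_nonneg_of_pos (by positivity) (mul_pos be0 (by linarith))
    have e1 : OCa.t1 l u ρ = √p1 := by rw [OCa.t1, eR, hu, sub_sub_cancel]
    have ex : OCa.tx l u ρ = √((1 + ρ) / 2 * p1 + (1 - ρ) / 2 * p0) := by rw [OCa.tx, eR, qx, sub_sub_cancel]
    have ey : OCa.ty l u ρ = √((1 + ρ) / 2 * p0 + (1 - ρ) / 2 * p1) := by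
      rw [OCa.ty, eR, eT, hu, sub_sub_cancel, ← sq, ht]; rfl
    have a1 : 0 < OCa.t1 l u ρ := e1 ▸ Real.sqrt_pos.2 (by linarith)
    have ax : 0 < OCa.tx l u ρ := ex ▸ Real.sqrt_pos.2 X0
    have ay : 0 < OCa.ty l u ρ := ey ▸ Real.sqrt_pos.2 Y0
    have b1 : OCa.t1 l u ρ ^ 2 = p1 := by rw [e1]; exact Real.sq_sqrt (by linarith)
    have bx : OCa.tx l u ρ ^ 2 = (1 + ρ) / 2 * p1 + (1 - ρ) / 2 * p0 := by rw [ex]; exact Real.sq_sqrt X0.le
    have bY : OCa.ty l u ρ ^ 2 = (1 + ρ) / 2 * p0 + (1 - ρ) / 2 * p1 := by rw [ey]; exact Real.sq_sqrt Y0.le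
    have U0 := hW p0 _ _ t0 r0.le ht hr
    have U1 := hW p1 _ _ a1.le (by positivity) b1 hu
    have Ux := hW _ _ _ ax.le (by positivity) bx qx
    have Uy := hW _ _ _ ay.le (by positivity) bY qy
    have V0 : U p0 = r * OCa.u0 l u ρ := by
      rw [U0, OCa.u0, eR, eT, ocW]; field_simp; linear_combination (99 * t) * (ht + hr)
    have V1 : U p1 = r * (u * OCa.u1 l u ρ) := by
      rw [U1, OCa.u1, eR, ocW]; field_simp; linear_combination (99 * OCa.t1 l u ρ) * (b1 + hu)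
    have d1 : OCa.t1 l u ρ ^ 2 - t ^ 2 = r ^ 2 * (1 - u * u) := by linear_combination b1 - ht - hr + hu
    have d2 : r ^ 2 - (r * u) ^ 2 = r ^ 2 * (1 - u * u) := by ring
    have hc1 : (OCa.t1 l u ρ + t)⁻¹ * (OCa.t1 l u ρ + t) = 1 := by field_simp
    have hc2 : r⁻¹ * (u + 1)⁻¹ * (r * u + r) = 1 := by field_simp
    have fd := oc_fd hc1 hc2 d1 d2
    have dx := oc_dd (tm := OCa.tx l u ρ) (rm := r * OCa.hx l u ρ) (l := (1 + ρ) / 2) (a := (OCa.tx l u ρ + t)⁻¹)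
      (b := (OCa.t1 l u ρ + OCa.tx l u ρ)⁻¹) (a' := r⁻¹ * (OCa.hx l u ρ + 1)⁻¹) (b' := r⁻¹ * (u + OCa.hx l u ρ)⁻¹)
      (by field_simp) (by field_simp) hc1 (by field_simp) (by field_simp) hc2 (by rw [bx, b1, ht]; ring)
      (by rw [qx, hr, hu]; ring) d1 d2
    have dy := oc_dd (tm := OCa.ty l u ρ) (rm := r * OCa.hy l u ρ) (l := (1 - ρ) / 2) (a := (OCa.ty l u ρ + t)⁻¹)
      (b := (OCa.t1 l u ρ + OCa.ty l u ρ)⁻¹) (a' := r⁻¹ * (OCa.hy l u ρ + 1)⁻¹) (b' := r⁻¹ * (u + OCa.hy l u ρ)⁻¹)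
      (by field_simp) (by field_simp) hc1 (by field_simp) (by field_simp) hc2 (by rw [bY, b1, ht]; ring)
      (by rw [qy, hr, hu]; ring) d1 d2
    have eN : ocN0 s * U p0 + ocN1 s * U p1 = r * (OCa.n0 l u ρ * OCa.u0 l u ρ + OCa.n1 l u ρ * u * OCa.u1 l u ρ) := by
      rw [V0, V1, hs]; unfold ocN0 ocN1 OCa.n0 OCa.n1 OCa.s; ring
    rw [eN]
    refine oc_fin (G := OCa.G l u ρ) (m := OCa.m l u ρ) (mul_pos al0 be0).le s2 s0 r0.le uu ?_ ?_ ?_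
    · have e : p1 - p0 = r ^ 2 * (1 - u * u) := by linear_combination hu - hr
      rw [← U0, ← U1] at fd
      have k1 : OCa.ka l u ρ = ocK s := by rw [hs]; rfl
      have k2 : OCa.nu l u ρ = ocNu s := by rw [hs]; rfl
      rw [e, OCa.m, k1, k2, eR, eT, add_sub_assoc, ← mul_sub, fd, div_eq_mul_inv (r - 99 / 100),
        div_eq_mul_inv (ocNu s * _)]
      generalize (OCa.t1 l u ρ + t)⁻¹ = i1
      generalize (u + 1)⁻¹ = i2
      field_simp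
      ring
    · rw [gain, Ux, Uy, U0, U1, dx, dy, OCa.G, eR, eT]
      simp only [one_div, mul_inv, div_eq_mul_inv _ (u + 1), div_eq_mul_inv _ (OCa.t1 l u ρ + t)]
      generalize (OCa.t1 l u ρ + t)⁻¹ = i1
      generalize (u + 1)⁻¹ = i2
      generalize (OCa.tx l u ρ + t)⁻¹ = i3
      generalize (OCa.ty l u ρ + t)⁻¹ = i4
      generalize (OCa.t1 l u ρ + OCa.tx l u ρ)⁻¹ = i5
      generalize (OCa.t1 l u ρ + OCa.ty l u ρ)⁻¹ = i6
      generalize (OCa.hx l u ρ + 1)⁻¹ = i7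
      generalize (OCa.hy l u ρ + 1)⁻¹ = i8
      generalize (u + OCa.hx l u ρ)⁻¹ = i9
      generalize (u + OCa.hy l u ρ)⁻¹ = i10
      field_simp
      ring
    · rcases key with h | h | h
      · exact Or.inl h
      · exact Or.inr h
      · rw [eR, hu] at h
        linarith

end Crest.Agent.R307
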