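import Crest.Agent.R307.OBlM
import Crest.Agent.R307.OBrM
import Crest.Agent.R307.OBeM
import Crest.Agent.R307.OCk

/-!
# R307/OBg: the budget function of the one-cone scheme and its certified inequalities
-/

set_option autoImplicit false

namespace Crest.Agent.R307

noncomputable def obQ1 (s : ℝ) : ℝ := 2299 / 10000 - 5001 / 10000 * (s - 31 / 50)
noncomputable def obQ2 (s : ℝ) : ℝ := 1423 / 10000 - 58 / 125 * (s - 31 / 50)
noncomputable def obG1 (s : ℝ) : ℝ := 18741 / 10000 + 5289 / 2000 * (s - 31 / 50)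
noncomputable def obG2 (s : ℝ) : ℝ := 25189 / 5000 + 32327 / 2500 * (s - 31 / 50)
noncomputable def obQ0 (s : ℝ) : ℝ := 2 - obG1 s * (2 / 7) - obG2 s / 16

/-- The budget in the variable `y = 1 - a`. -/
noncomputable def obY (s y : ℝ) : ℝ :=
  y * (1 - y) * (obQ0 s + (1 - 2 * y) * (obQ1 s + obQ2 s * (1 - 2 * y)) + obG1 s * (1 / (1 + 5 * y)) +
    obG2 s * (1 / (1 + 30 * y)))

noncomputable def obB (s a : ℝ) : ℝ := obY s (1 - a)

theorem ob_alg {s y0 y1 y m h i0 i1 j0 j1 D1 D2 : ℝ} (a0 : 0 ≤ y0) (a1 : 0 ≤ y1) (hy : y = (y0 + y1) / 2)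
    (hm : m = 1 - 2 * y) (hh : 2 * h = y0 - y1) (e0 : i0 = 1 / (1 + 5 * y0)) (e1 : i1 = 1 / (1 + 5 * y1))
    (f0 : j0 = 1 / (1 + 30 * y0)) (f1 : j1 = 1 / (1 + 30 * y1))
    (h1 : D1 = (obQ1 s - 2 * (obQ0 s - obQ2 s) * m - obQ1 s * (3 * m * m + 2 * h * (2 * h)) -
      4 * obQ2 s * m * (m * m + 2 * h * (2 * h))) / 2 + obG1 s * (1 / 5 - 6 / 5 * i0 * i1) +
      obG2 s * (1 / 30 - 31 / 30 * j0 * j1))
    (h2 : D2 = (obQ0 s - obQ2 s + 3 * obQ1 s * m + obQ2 s * (6 * m * m + 2 * h * (2 * h))) / 2 +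
      3 * obG1 s * i0 * i1 / (1 + 5 * y) + 31 / 2 * obG2 s * j0 * j1 / (1 + 30 * y)) :
    obY s y1 - obY s y0 = (y0 - y1) * D1 ∧ 2 * obY s y - obY s y0 - obY s y1 = (y0 - y1) ^ 2 * D2 := by
  rw [hh] at h1 h2
  subst hm e0 e1 f0 f1 h1 h2
  unfold obY
  generalize obQ0 s = q0
  generalize obQ1 s = q1
  generalize obQ2 s = q2
  generalize obG1 s = g1
  generalize obG2 s = g2
  have r1 : ∀ R : ℝ, 0 < R → y1 * (1 - y1) * (1 / (1 + R * y1)) - y0 * (1 - y0) * (1 / (1 + R * y0)) =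
      (y0 - y1) * (1 / R - (R + 1) / R * (1 / (1 + R * y0)) * (1 / (1 + R * y1))) := fun R hR => by
    field_simp
    ring
  have r2 : ∀ R : ℝ, 0 < R → 2 * (y * (1 - y) * (1 / (1 + R * y))) - y0 * (1 - y0) * (1 / (1 + R * y0)) -
      y1 * (1 - y1) * (1 / (1 + R * y1)) =
      (y0 - y1) ^ 2 * ((R + 1) / 2 * (1 / (1 + R * y0)) * (1 / (1 + R * y1)) / (1 + R * y)) := fun R hR => by
    subst hy
    field_simp
    ring
  have p5 := r1 5 (by norm_num)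
  have p30 := r1 30 (by norm_num)
  have s5 := r2 5 (by norm_num)
  have s30 := r2 30 (by norm_num)
  simp only [div_eq_mul_inv _ (1 + 5 * y), div_eq_mul_inv _ (1 + 30 * y)] at *
  generalize (1 + 5 * y)⁻¹ = i at *
  generalize (1 + 30 * y)⁻¹ = j at *
  generalize 1 / (1 + 5 * y0) = i0 at *
  generalize 1 / (1 + 5 * y1) = i1 at *
  generalize 1 / (1 + 30 * y0) = j0 at *
  generalize 1 / (1 + 30 * y1) = j1 at *
  subst hy
  exact ⟨by linear_combination g1 * p5 + g2 * p30, by linear_combination g1 * s5 + g2 * s30⟩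

theorem ob_fin {s a0 a1 D1 D2 h : ℝ} (h01 : a0 ≤ a1) (hh : 2 * h = a1 - a0)
    (e : obY s (1 - a1) - obY s (1 - a0) = (1 - a0 - (1 - a1)) * D1 ∧
      2 * obY s ((1 - a0 + (1 - a1)) / 2) - obY s (1 - a0) - obY s (1 - a1) = (1 - a0 - (1 - a1)) ^ 2 * D2)
    (k : 0 < ocK s - ocNu s * s * D1 ∧ 0 < (ocK s - ocNu s * s * D1) * (ocK s - ocNu s * s * D1) -
      D2 * (2 * h * (2 * h) * D2 + 2 * (ocN0 s * obY s (1 - a0) + ocN1 s * obY s (1 - a1)))) :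
    0 ≤ ocK s * (a1 - a0) + ocNu s * s * (obB s a0 - obB s a1) ∧
      (2 * obB s ((a0 + a1) / 2) - obB s a0 - obB s a1) * ((2 * obB s ((a0 + a1) / 2) - obB s a0 - obB s a1) +
        2 * (ocN0 s * obB s a0 + ocN1 s * obB s a1)) ≤ (ocK s * (a1 - a0) + ocNu s * s * (obB s a0 - obB s a1)) ^ 2 := by
  unfold obB
  rw [show 1 - (a0 + a1) / 2 = (1 - a0 + (1 - a1)) / 2 by ring, e.2,
    show ocK s * (a1 - a0) + ocNu s * s * (obY s (1 - a0) - obY s (1 - a1)) = (a1 - a0) * (ocK s - ocNu s * s * D1) by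
      linear_combination (-ocNu s * s) * e.1]
  rw [hh] at k
  refine ⟨mul_nonneg (by linarith) k.1.le, ?_⟩
  linear_combination mul_nonneg (sq_nonneg (a1 - a0)) k.2.le

theorem ob_step {s a0 a1 : ℝ} (s0 : 49 / 100 ≤ s) (s1 : s ≤ 7513 / 10000) (h0 : 0 ≤ a0) (h01 : a0 < a1) (h1 : a1 ≤ 1)
    (hd : a1 - a0 ≤ 1 / 2) :
    0 ≤ ocK s * (a1 - a0) + ocNu s * s * (obB s a0 - obB s a1) ∧
      (2 * obB s ((a0 + a1) / 2) - obB s a0 - obB s a1) * ((2 * obB s ((a0 + a1) / 2) - obB s a0 - obB s a1) +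
        2 * (ocN0 s * obB s a0 + ocN1 s * obB s a1)) ≤ (ocK s * (a1 - a0) + ocNu s * s * (obB s a0 - obB s a1)) ^ 2 := by
  rcases le_total a0 (1 / 2) with c | c
  · have key := OBl.main a0 (a1 - a0) s h0 c (by linarith) hd s0 s1
    have y0 : OBl.y0 a0 (a1 - a0) s = 1 - a0 := rfl
    have y1 : OBl.y1 a0 (a1 - a0) s = 1 - a1 := by unfold OBl.y1; ring
    have hh : 2 * OBl.h a0 (a1 - a0) s = a1 - a0 := by unfold OBl.h; ring
    have e := ob_alg (s := s) (y0 := OBl.y0 a0 (a1 - a0) s) (y1 := OBl.y1 a0 (a1 - a0) s) (h := OBl.h a0 (a1 - a0) s)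
      (D1 := OBl.D1 a0 (a1 - a0) s) (D2 := OBl.D2 a0 (a1 - a0) s) (by rw [y0]; linarith) (by rw [y1]; linarith) rfl rfl
      (by rw [hh, y0, y1]; ring) rfl rfl rfl rfl rfl rfl
    have b0 : OBl.b0 a0 (a1 - a0) s = obY s (OBl.y0 a0 (a1 - a0) s) := rfl
    have b1 : OBl.b1 a0 (a1 - a0) s = obY s (OBl.y1 a0 (a1 - a0) s) := rfl
    unfold OBl.Q at key
    rw [b0, b1, y0, y1] at key
    rw [y0, y1] at e
    exact ob_fin h01.le hh e key
  · obtain ⟨u, u0, u1, hu⟩ : ∃ u : ℝ, 0 ≤ u ∧ u ≤ 1 ∧ (1 - a0) * u = 1 - a1 :=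
      ⟨(1 - a1) / (1 - a0), div_nonneg (by linarith) (by linarith), (div_le_one (by linarith)).2 (by linarith),
        mul_div_cancel₀ _ (by linarith)⟩
    have key := OBr.main (1 - a0) u s (by linarith) (by linarith) u0 u1 s0 s1
    have y0 : OBr.y0 (1 - a0) u s = 1 - a0 := rfl
    have y1 : OBr.y1 (1 - a0) u s = 1 - a1 := hu
    have hh : 2 * OBr.h (1 - a0) u s = a1 - a0 := by unfold OBr.h; linear_combination -hu
    have e := ob_alg (s := s) (y0 := OBr.y0 (1 - a0) u s) (y1 := OBr.y1 (1 - a0) u s) (h := OBr.h (1 - a0) u s)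
      (D1 := OBr.D1 (1 - a0) u s) (D2 := OBr.D2 (1 - a0) u s) (by rw [y0]; linarith) (by rw [y1]; linarith) rfl rfl
      (by rw [hh, y0, y1]; ring) rfl rfl rfl rfl rfl rfl
    have b0 : OBr.b0 (1 - a0) u s = obY s (OBr.y0 (1 - a0) u s) := rfl
    have b1 : OBr.b1 (1 - a0) u s = obY s (OBr.y1 (1 - a0) u s) := rfl
    unfold OBr.Q at key
    rw [b0, b1, y0, y1] at key
    rw [y0, y1] at e
    exact ob_fin h01.le hh e key

theorem ob_zero (s : ℝ) : obB s 0 = 0 := by simp [obB, obY]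

theorem ob_one (s : ℝ) : obB s 1 = 0 := by simp [obB, obY]

theorem ob_half (s : ℝ) : obB s (1 / 2) = 1 / 2 := by
  unfold obB obY obQ0
  ring

theorem ob_nonneg {s a : ℝ} (s0 : 49 / 100 ≤ s) (s1 : s ≤ 7513 / 10000) (h0 : 0 ≤ a) (h1 : a ≤ 1) : 0 ≤ obB s a := by
  unfold obB obY
  have y0 : 0 ≤ 1 - a := by linarith
  have g1 : 0 ≤ obG1 s := by unfold obG1; linarith
  have g2 : 0 ≤ obG2 s := by unfold obG2; linarith
  have q0 : 4 / 5 ≤ obQ0 s := by unfold obQ0 obG1 obG2; linarith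
  have q1 : 0 ≤ obQ1 s ∧ obQ1 s ≤ 1 / 2 := by unfold obQ1; constructor <;> linarith
  have q2 : 0 ≤ obQ2 s := by unfold obQ2; linarith
  have : 0 ≤ obQ0 s + (1 - 2 * (1 - a)) * (obQ1 s + obQ2 s * (1 - 2 * (1 - a))) := by
    nlinarith [mul_nonneg q1.1 h0, mul_nonneg q2 (sq_nonneg (1 - 2 * (1 - a)))]
  rw [sub_sub_cancel]
  positivity

theorem ob_end {s a : ℝ} (s0 : 49 / 100 ≤ s) (s1 : s ≤ 7513 / 10000) (h0 : 0 ≤ a) (h1 : a ≤ 1) :
    s - 1 + 2 * √(a * (1 - a)) ≤ s * (obB s a + obB s (1 - a)) := by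
  wlog c : 1 / 2 ≤ a generalizing a
  · have := this (a := 1 - a) (by linarith) (by linarith) (by linarith)
    rwa [sub_sub_cancel, mul_comm (1 - a), add_comm (obB s (1 - a))] at this
  obtain ⟨m, rfl⟩ : ∃ m, a = (1 + m) / 2 := ⟨2 * a - 1, by ring⟩
  have m0 : 0 ≤ m := by linarith
  have m1 : m ≤ 1 := by linarith
  have key := OBe.main m s m0 m1 s0 s1
  have mm : m * m ≤ 1 := mul_le_one₀ m1 m0 m1
  have e : 2 * √((1 + m) / 2 * (1 - (1 + m) / 2)) = √(1 - m * m) := by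
    rw [show 1 - m * m = 2 ^ 2 * ((1 + m) / 2 * (1 - (1 + m) / 2)) by ring, Real.sqrt_mul (sq_nonneg 2),
      Real.sqrt_sq zero_le_two]
  have c2 := Real.sq_sqrt (sub_nonneg.2 mm)
  have c0 := Real.sqrt_nonneg (1 - m * m)
  have e2 : 1 - √(1 - m * m) = m * m * (1 / (1 + √(1 - m * m))) := by
    generalize √(1 - m * m) = c at *
    field_simp
    linear_combination -c2
  have e3 : obB s ((1 + m) / 2) + obB s (1 - (1 + m) / 2) = 1 + m * m * ((1 - m * m) * (obQ2 s / 2 +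
      obG1 s * (25 / 7) / (49 - 25 * m * m) + obG2 s * (225 / 32) / (256 - 225 * m * m)) - 1) := by
    unfold obB obY obQ0
    have : (0 : ℝ) < 7 - 5 * m := by linarith
    have : (0 : ℝ) < 16 - 15 * m := by linarith
    have n1 : (7 : ℝ) - 5 * m ≠ 0 := by positivity
    have n2 : (16 : ℝ) - 15 * m ≠ 0 := by positivity
    have n3 : (7 : ℝ) - m * 5 ≠ 0 := by rwa [mul_comm]
    have n4 : (16 : ℝ) - m * 15 ≠ 0 := by rwa [mul_comm]
    rw [show 1 + 5 * (1 - (1 + m) / 2) = (7 - 5 * m) / 2 by ring, show 1 + 30 * (1 - (1 + m) / 2) = 16 - 15 * m by ring,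
      show 1 + 5 * (1 - (1 - (1 + m) / 2)) = (7 + 5 * m) / 2 by ring,
      show 1 + 30 * (1 - (1 - (1 + m) / 2)) = 16 + 15 * m by ring,
      show 49 - 25 * m * m = (7 - 5 * m) * (7 + 5 * m) by ring,
      show 256 - 225 * m * m = (16 - 15 * m) * (16 + 15 * m) by ring]
    field_simp
    ring
  have k : 0 < 1 / (1 + √(1 - m * m)) + s * ((1 - m * m) * (obQ2 s / 2 +
      obG1 s * (25 / 7) / (49 - 25 * m * m) + obG2 s * (225 / 32) / (256 - 225 * m * m)) - 1) := key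
  rw [e, e3]
  linear_combination mul_nonneg (mul_self_nonneg m) k.le - e2

end Crest.Agent.R307
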