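import Crest.Agent.R307.IA3
import Crest.Agent.R307.IAx
set_option autoImplicit false
set_option linter.unusedVariables false
set_option maxRecDepth 20000
namespace Crest.Agent.R307.OBl
open Crest.Agent.R307.IA Crest.Agent.R307.IA3

theorem In_cast {e1 e2 e3 : ℝ} {x y1 y2 y3 r : ℕ} {v w : ℝ}
    (h : In e1 e2 e3 x y1 y2 y3 r v) (e : v = w) : In e1 e2 e3 x y1 y2 y3 r w := e ▸ h

noncomputable def ka (a d s : ℝ) : ℝ := ((247/250:ℝ) + (s / (125:ℝ)))
noncomputable def nu (a d s : ℝ) : ℝ := ((11/20:ℝ) + ((3/200:ℝ) * s))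
noncomputable def q1 (a d s : ℝ) : ℝ := ((2299/10000:ℝ) - ((5001/10000:ℝ) * (s - (31/50:ℝ))))
noncomputable def g1 (a d s : ℝ) : ℝ := ((18741/10000:ℝ) + ((5289/2000:ℝ) * (s - (31/50:ℝ))))
noncomputable def g2 (a d s : ℝ) : ℝ := ((25189/5000:ℝ) + ((32327/2500:ℝ) * (s - (31/50:ℝ))))
noncomputable def q0 (a d s : ℝ) : ℝ := (((2:ℝ) - ((g1 a d s) * (2/7:ℝ))) - ((g2 a d s) / (16:ℝ)))
noncomputable def q2 (a d s : ℝ) : ℝ := ((1423/10000:ℝ) - ((58/125:ℝ) * (s - (31/50:ℝ))))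
noncomputable def y0 (a d s : ℝ) : ℝ := ((1:ℝ) - a)
noncomputable def y1 (a d s : ℝ) : ℝ := (((1:ℝ) - a) - d)
noncomputable def y (a d s : ℝ) : ℝ := (((y0 a d s) + (y1 a d s)) / (2:ℝ))
noncomputable def m (a d s : ℝ) : ℝ := ((1:ℝ) - ((2:ℝ) * (y a d s)))
noncomputable def h (a d s : ℝ) : ℝ := (d / (2:ℝ))
noncomputable def i0 (a d s : ℝ) : ℝ := ((1:ℝ) / ((1:ℝ) + ((5:ℝ) * (y0 a d s))))
noncomputable def i1 (a d s : ℝ) : ℝ := ((1:ℝ) / ((1:ℝ) + ((5:ℝ) * (y1 a d s))))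
noncomputable def j0 (a d s : ℝ) : ℝ := ((1:ℝ) / ((1:ℝ) + ((30:ℝ) * (y0 a d s))))
noncomputable def j1 (a d s : ℝ) : ℝ := ((1:ℝ) / ((1:ℝ) + ((30:ℝ) * (y1 a d s))))
noncomputable def D1 (a d s : ℝ) : ℝ := (((((((q1 a d s) - (((2:ℝ) * ((q0 a d s) - (q2 a d s))) * (m a d s))) - ((q1 a d s) * ((((3:ℝ) * (m a d s)) * (m a d s)) + (((2:ℝ) * (h a d s)) * ((2:ℝ) * (h a d s)))))) - ((((4:ℝ) * (q2 a d s)) * (m a d s)) * (((m a d s) * (m a d s)) + (((2:ℝ) * (h a d s)) * ((2:ℝ) * (h a d s)))))) / (2:ℝ)) + ((g1 a d s) * ((1/5:ℝ) - (((6/5:ℝ) * (i0 a d s)) * (i1 a d s))))) + ((g2 a d s) * ((1/30:ℝ) - (((31/30:ℝ) * (j0 a d s)) * (j1 a d s)))))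
noncomputable def M (a d s : ℝ) : ℝ := ((ka a d s) - (((nu a d s) * s) * (D1 a d s)))
noncomputable def D2 (a d s : ℝ) : ℝ := (((((((q0 a d s) - (q2 a d s)) + (((3:ℝ) * (q1 a d s)) * (m a d s))) + ((q2 a d s) * ((((6:ℝ) * (m a d s)) * (m a d s)) + (((2:ℝ) * (h a d s)) * ((2:ℝ) * (h a d s)))))) / (2:ℝ)) + (((((3:ℝ) * (g1 a d s)) * (i0 a d s)) * (i1 a d s)) / ((1:ℝ) + ((5:ℝ) * (y a d s))))) + (((((31/2:ℝ) * (g2 a d s)) * (j0 a d s)) * (j1 a d s)) / ((1:ℝ) + ((30:ℝ) * (y a d s)))))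
noncomputable def n0 (a d s : ℝ) : ℝ := ((47/500:ℝ) + (s * ((49/500:ℝ) + ((57/200:ℝ) * s))))
noncomputable def b0 (a d s : ℝ) : ℝ := (((y0 a d s) * ((1:ℝ) - (y0 a d s))) * ((((q0 a d s) + (((1:ℝ) - ((2:ℝ) * (y0 a d s))) * ((q1 a d s) + ((q2 a d s) * ((1:ℝ) - ((2:ℝ) * (y0 a d s))))))) + ((g1 a d s) * (i0 a d s))) + ((g2 a d s) * (j0 a d s))))
noncomputable def n1 (a d s : ℝ) : ℝ := ((49/50:ℝ) - ((27/50:ℝ) * s))
noncomputable def b1 (a d s : ℝ) : ℝ := (((y1 a d s) * ((1:ℝ) - (y1 a d s))) * ((((q0 a d s) + (((1:ℝ) - ((2:ℝ) * (y1 a d s))) * ((q1 a d s) + ((q2 a d s) * ((1:ℝ) - ((2:ℝ) * (y1 a d s))))))) + ((g1 a d s) * (i1 a d s))) + ((g2 a d s) * (j1 a d s))))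

def Q (a d s : ℝ) : Prop :=
  (
  (0 < (M a d s) ∧ 0 < (((M a d s) * (M a d s)) - ((D2 a d s) * (((((2:ℝ) * (h a d s)) * ((2:ℝ) * (h a d s))) * (D2 a d s)) + ((2:ℝ) * (((n0 a d s) * (b0 a d s)) + ((n1 a d s) * (b1 a d s)))))))))

noncomputable def alt0 (z1 w1 z2 w2 z3 w3 : ℕ) : Bool :=
  smulK 1 125 144115188075855872125 1152921504606846976 z3 1152921504606846976 1152921504606846976 (Nat.add w3 1152921504606846976) 0 fun c1 a1_1 a1_2 a1_3 q1 =>
  addcK c1 a1_1 a1_2 a1_3 q1 1152922590924335219 1 fun c3 a3_1 a3_2 a3_3 q3 =>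
  smulK 3 200 230584300921369395400 3458764513820540928 z3 1152921504606846976 1152921504606846976 (Nat.add w3 1152921504606846976) 0 fun c6 a6_1 a6_2 a6_3 q6 =>
  addcK c6 a6_1 a6_2 a6_3 q6 1152922109338242253 1 fun c7 a7_1 a7_2 a7_3 q7 =>
  mulK c7 a7_1 a7_2 a7_3 q7 z3 1152921504606846976 1152921504606846976 (Nat.add w3 1152921504606846976) 0 fun c10 a10_1 a10_2 a10_3 q10 =>
  addcK z3 1152921504606846976 1152921504606846976 (Nat.add w3 1152921504606846976) 0 1152920822909637755 1 fun c11 a11_1 a11_2 a11_3 q11 =>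
  smulK 5001 10000 11529215046068469770000 5765760444538841726976 c11 a11_1 a11_2 a11_3 q11 fun c13 a13_1 a13_2 a13_3 q13 =>
  negK c13 a13_1 a13_2 a13_3 q13 fun c14 a14_1 a14_2 a14_3 q14 =>
  addcK c14 a14_1 a14_2 a14_3 q14 1152921757384570202 1 fun c15 a15_1 a15_2 a15_3 q15 =>
  smulK 5289 2000 2305843009213693954000 6097801837865613656064 c11 a11_1 a11_2 a11_3 q11 fun c18 a18_1 a18_2 a18_3 q18 =>
  addcK c18 a18_1 a18_2 a18_3 q18 1152923565201588591 1 fun c19 a19_1 a19_2 a19_3 q19 =>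
  smulK 2 7 8070450532247928839 2305843009213693952 c19 a19_1 a19_2 a19_3 q19 fun c22 a22_1 a22_2 a22_3 q22 =>
  negK c22 a22_1 a22_2 a22_3 q22 fun c24 a24_1 a24_2 a24_3 q24 =>
  addcK c24 a24_1 a24_2 a24_3 q24 1152923703630102528 0 fun c25 a25_1 a25_2 a25_3 q25 =>
  smulK 32327 2500 2882303761517117442500 37270493479425542193152 c11 a11_1 a11_2 a11_3 q11 fun c27 a27_1 a27_2 a27_3 q27 =>
  addcK c27 a27_1 a27_2 a27_3 q27 1152927043726525386 1 fun c28 a28_1 a28_2 a28_3 q28 =>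
  smulK 1 16 18446744073709551632 1152921504606846976 c28 a28_1 a28_2 a28_3 q28 fun c31 a31_1 a31_2 a31_3 q31 =>
  subK c25 a25_1 a25_2 a25_3 q25 c31 a31_1 a31_2 a31_3 q31 fun c33 a33_1 a33_2 a33_3 q33 =>
  smulK 58 125 144115188075855872125 66869447267197124608 c11 a11_1 a11_2 a11_3 q11 fun c35 a35_1 a35_2 a35_3 q35 =>
  negK c35 a35_1 a35_2 a35_3 q35 fun c36 a36_1 a36_2 a36_3 q36 =>
  addcK c36 a36_1 a36_2 a36_3 q36 1152921661067351609 1 fun c37 a37_1 a37_2 a37_3 q37 =>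
  subK c33 a33_1 a33_2 a33_3 q33 c37 a37_1 a37_2 a37_3 q37 fun c40 a40_1 a40_2 a40_3 q40 =>
  smulK 2 1 1152921504606846977 2305843009213693952 c40 a40_1 a40_2 a40_3 q40 fun c41 a41_1 a41_2 a41_3 q41 =>
  negK z1 (Nat.add w1 1152921504606846976) 1152921504606846976 1152921504606846976 0 fun c42 a42_1 a42_2 a42_3 q42 =>
  addcK c42 a42_1 a42_2 a42_3 q42 1152922604118474752 0 fun c43 a43_1 a43_2 a43_3 q43 =>
  subK c43 a43_1 a43_2 a43_3 q43 z2 1152921504606846976 (Nat.add w2 1152921504606846976) 1152921504606846976 0 fun c46 a46_1 a46_2 a46_3 q46 =>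
  addK c43 a43_1 a43_2 a43_3 q43 c46 a46_1 a46_2 a46_3 q46 fun c48 a48_1 a48_2 a48_3 q48 =>
  smulK 1 2 2305843009213693954 1152921504606846976 c48 a48_1 a48_2 a48_3 q48 fun c49 a49_1 a49_2 a49_3 q49 =>
  smulK 2 1 1152921504606846977 2305843009213693952 c49 a49_1 a49_2 a49_3 q49 fun c52 a52_1 a52_2 a52_3 q52 =>
  negK c52 a52_1 a52_2 a52_3 q52 fun c53 a53_1 a53_2 a53_3 q53 =>
  addcK c53 a53_1 a53_2 a53_3 q53 1152922604118474752 0 fun c54 a54_1 a54_2 a54_3 q54 =>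
  mulK c41 a41_1 a41_2 a41_3 q41 c54 a54_1 a54_2 a54_3 q54 fun c57 a57_1 a57_2 a57_3 q57 =>
  subK c15 a15_1 a15_2 a15_3 q15 c57 a57_1 a57_2 a57_3 q57 fun c58 a58_1 a58_2 a58_3 q58 =>
  smulK 3 1 1152921504606846977 3458764513820540928 c54 a54_1 a54_2 a54_3 q54 fun c59 a59_1 a59_2 a59_3 q59 =>
  mulK c59 a59_1 a59_2 a59_3 q59 c54 a54_1 a54_2 a54_3 q54 fun c60 a60_1 a60_2 a60_3 q60 =>
  smulK 1 2 2305843009213693954 1152921504606846976 z2 1152921504606846976 (Nat.add w2 1152921504606846976) 1152921504606846976 0 fun c61 a61_1 a61_2 a61_3 q61 =>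
  smulK 2 1 1152921504606846977 2305843009213693952 c61 a61_1 a61_2 a61_3 q61 fun c64 a64_1 a64_2 a64_3 q64 =>
  sqK c64 a64_1 a64_2 a64_3 q64 fun c65 a65_1 a65_2 a65_3 q65 =>
  addK c60 a60_1 a60_2 a60_3 q60 c65 a65_1 a65_2 a65_3 q65 fun c67 a67_1 a67_2 a67_3 q67 =>
  mulK c15 a15_1 a15_2 a15_3 q15 c67 a67_1 a67_2 a67_3 q67 fun c68 a68_1 a68_2 a68_3 q68 =>
  subK c58 a58_1 a58_2 a58_3 q58 c68 a68_1 a68_2 a68_3 q68 fun c69 a69_1 a69_2 a69_3 q69 =>
  smulK 4 1 1152921504606846977 4611686018427387904 c37 a37_1 a37_2 a37_3 q37 fun c70 a70_1 a70_2 a70_3 q70 =>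
  mulK c70 a70_1 a70_2 a70_3 q70 c54 a54_1 a54_2 a54_3 q54 fun c71 a71_1 a71_2 a71_3 q71 =>
  sqK c54 a54_1 a54_2 a54_3 q54 fun c72 a72_1 a72_2 a72_3 q72 =>
  addK c72 a72_1 a72_2 a72_3 q72 c65 a65_1 a65_2 a65_3 q65 fun c74 a74_1 a74_2 a74_3 q74 =>
  mulK c71 a71_1 a71_2 a71_3 q71 c74 a74_1 a74_2 a74_3 q74 fun c75 a75_1 a75_2 a75_3 q75 =>
  subK c69 a69_1 a69_2 a69_3 q69 c75 a75_1 a75_2 a75_3 q75 fun c76 a76_1 a76_2 a76_3 q76 =>
  smulK 1 2 2305843009213693954 1152921504606846976 c76 a76_1 a76_2 a76_3 q76 fun c77 a77_1 a77_2 a77_3 q77 =>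
  smulK 5 1 1152921504606846977 5764607523034234880 c43 a43_1 a43_2 a43_3 q43 fun c79 a79_1 a79_2 a79_3 q79 =>
  addcK c79 a79_1 a79_2 a79_3 q79 1152922604118474752 0 fun c80 a80_1 a80_2 a80_3 q80 =>
  invK c80 a80_1 a80_2 a80_3 q80 fun c82 a82_1 a82_2 a82_3 q82 =>
  smulK 6 5 5764607523034234885 6917529027641081856 c82 a82_1 a82_2 a82_3 q82 fun c85 a85_1 a85_2 a85_3 q85 =>
  smulK 5 1 1152921504606846977 5764607523034234880 c46 a46_1 a46_2 a46_3 q46 fun c86 a86_1 a86_2 a86_3 q86 =>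
  addcK c86 a86_1 a86_2 a86_3 q86 1152922604118474752 0 fun c87 a87_1 a87_2 a87_3 q87 =>
  invK c87 a87_1 a87_2 a87_3 q87 fun c89 a89_1 a89_2 a89_3 q89 =>
  mulK c85 a85_1 a85_2 a85_3 q85 c89 a89_1 a89_2 a89_3 q89 fun c92 a92_1 a92_2 a92_3 q92 =>
  negK c92 a92_1 a92_2 a92_3 q92 fun c93 a93_1 a93_2 a93_3 q93 =>
  addcK c93 a93_1 a93_2 a93_3 q93 1152921724509172531 1 fun c94 a94_1 a94_2 a94_3 q94 =>
  mulK c19 a19_1 a19_2 a19_3 q19 c94 a94_1 a94_2 a94_3 q94 fun c96 a96_1 a96_2 a96_3 q96 =>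
  addK c77 a77_1 a77_2 a77_3 q77 c96 a96_1 a96_2 a96_3 q96 fun c97 a97_1 a97_2 a97_3 q97 =>
  smulK 30 1 1152921504606846977 34587645138205409280 c43 a43_1 a43_2 a43_3 q43 fun c98 a98_1 a98_2 a98_3 q98 =>
  addcK c98 a98_1 a98_2 a98_3 q98 1152922604118474752 0 fun c99 a99_1 a99_2 a99_3 q99 =>
  invK c99 a99_1 a99_2 a99_3 q99 fun c101 a101_1 a101_2 a101_3 q101 =>
  smulK 31 30 34587645138205409310 35740566642812256256 c101 a101_1 a101_2 a101_3 q101 fun c104 a104_1 a104_2 a104_3 q104 =>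
  smulK 30 1 1152921504606846977 34587645138205409280 c46 a46_1 a46_2 a46_3 q46 fun c105 a105_1 a105_2 a105_3 q105 =>
  addcK c105 a105_1 a105_2 a105_3 q105 1152922604118474752 0 fun c106 a106_1 a106_2 a106_3 q106 =>
  invK c106 a106_1 a106_2 a106_3 q106 fun c108 a108_1 a108_2 a108_3 q108 =>
  mulK c104 a104_1 a104_2 a104_3 q104 c108 a108_1 a108_2 a108_3 q108 fun c111 a111_1 a111_2 a111_3 q111 =>
  negK c111 a111_1 a111_2 a111_3 q111 fun c112 a112_1 a112_2 a112_3 q112 =>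
  addcK c112 a112_1 a112_2 a112_3 q112 1152921541257234569 1 fun c113 a113_1 a113_2 a113_3 q113 =>
  mulK c28 a28_1 a28_2 a28_3 q28 c113 a113_1 a113_2 a113_3 q113 fun c115 a115_1 a115_2 a115_3 q115 =>
  addK c97 a97_1 a97_2 a97_3 q97 c115 a115_1 a115_2 a115_3 q115 fun c116 a116_1 a116_2 a116_3 q116 =>
  mulK c10 a10_1 a10_2 a10_3 q10 c116 a116_1 a116_2 a116_3 q116 fun c118 a118_1 a118_2 a118_3 q118 =>
  subK c3 a3_1 a3_2 a3_3 q3 c118 a118_1 a118_2 a118_3 q118 fun c119 a119_1 a119_2 a119_3 q119 =>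
  posK c119 a119_1 a119_2 a119_3 q119 <|
  sqK c119 a119_1 a119_2 a119_3 q119 fun c121 a121_1 a121_2 a121_3 q121 =>
  smulK 3 1 1152921504606846977 3458764513820540928 c15 a15_1 a15_2 a15_3 q15 fun c123 a123_1 a123_2 a123_3 q123 =>
  mulK c123 a123_1 a123_2 a123_3 q123 c54 a54_1 a54_2 a54_3 q54 fun c124 a124_1 a124_2 a124_3 q124 =>
  addK c40 a40_1 a40_2 a40_3 q40 c124 a124_1 a124_2 a124_3 q124 fun c125 a125_1 a125_2 a125_3 q125 =>
  smulK 6 1 1152921504606846977 6917529027641081856 c54 a54_1 a54_2 a54_3 q54 fun c126 a126_1 a126_2 a126_3 q126 =>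
  mulK c126 a126_1 a126_2 a126_3 q126 c54 a54_1 a54_2 a54_3 q54 fun c127 a127_1 a127_2 a127_3 q127 =>
  addK c127 a127_1 a127_2 a127_3 q127 c65 a65_1 a65_2 a65_3 q65 fun c128 a128_1 a128_2 a128_3 q128 =>
  mulK c37 a37_1 a37_2 a37_3 q37 c128 a128_1 a128_2 a128_3 q128 fun c129 a129_1 a129_2 a129_3 q129 =>
  addK c125 a125_1 a125_2 a125_3 q125 c129 a129_1 a129_2 a129_3 q129 fun c130 a130_1 a130_2 a130_3 q130 =>
  smulK 1 2 2305843009213693954 1152921504606846976 c130 a130_1 a130_2 a130_3 q130 fun c131 a131_1 a131_2 a131_3 q131 =>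
  smulK 5 1 1152921504606846977 5764607523034234880 c49 a49_1 a49_2 a49_3 q49 fun c133 a133_1 a133_2 a133_3 q133 =>
  addcK c133 a133_1 a133_2 a133_3 q133 1152922604118474752 0 fun c134 a134_1 a134_2 a134_3 q134 =>
  invK c134 a134_1 a134_2 a134_3 q134 fun c136 a136_1 a136_2 a136_3 q136 =>
  smulK 3 1 1152921504606846977 3458764513820540928 c19 a19_1 a19_2 a19_3 q19 fun c137 a137_1 a137_2 a137_3 q137 =>
  mulK c137 a137_1 a137_2 a137_3 q137 c82 a82_1 a82_2 a82_3 q82 fun c138 a138_1 a138_2 a138_3 q138 =>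
  mulK c138 a138_1 a138_2 a138_3 q138 c89 a89_1 a89_2 a89_3 q89 fun c139 a139_1 a139_2 a139_3 q139 =>
  mulK c139 a139_1 a139_2 a139_3 q139 c136 a136_1 a136_2 a136_3 q136 fun c140 a140_1 a140_2 a140_3 q140 =>
  addK c131 a131_1 a131_2 a131_3 q131 c140 a140_1 a140_2 a140_3 q140 fun c142 a142_1 a142_2 a142_3 q142 =>
  smulK 30 1 1152921504606846977 34587645138205409280 c49 a49_1 a49_2 a49_3 q49 fun c143 a143_1 a143_2 a143_3 q143 =>
  addcK c143 a143_1 a143_2 a143_3 q143 1152922604118474752 0 fun c144 a144_1 a144_2 a144_3 q144 =>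
  invK c144 a144_1 a144_2 a144_3 q144 fun c146 a146_1 a146_2 a146_3 q146 =>
  smulK 31 2 2305843009213693954 35740566642812256256 c28 a28_1 a28_2 a28_3 q28 fun c147 a147_1 a147_2 a147_3 q147 =>
  mulK c147 a147_1 a147_2 a147_3 q147 c101 a101_1 a101_2 a101_3 q101 fun c148 a148_1 a148_2 a148_3 q148 =>
  mulK c148 a148_1 a148_2 a148_3 q148 c108 a108_1 a108_2 a108_3 q108 fun c149 a149_1 a149_2 a149_3 q149 =>
  mulK c149 a149_1 a149_2 a149_3 q149 c146 a146_1 a146_2 a146_3 q146 fun c150 a150_1 a150_2 a150_3 q150 =>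
  addK c142 a142_1 a142_2 a142_3 q142 c150 a150_1 a150_2 a150_3 q150 fun c152 a152_1 a152_2 a152_3 q152 =>
  mulK c65 a65_1 a65_2 a65_3 q65 c152 a152_1 a152_2 a152_3 q152 fun c154 a154_1 a154_2 a154_3 q154 =>
  smulK 57 200 230584300921369395400 65716525762590277632 z3 1152921504606846976 1152921504606846976 (Nat.add w3 1152921504606846976) 0 fun c155 a155_1 a155_2 a155_3 q155 =>
  addcK c155 a155_1 a155_2 a155_3 q155 1152921612358986498 1 fun c156 a156_1 a156_2 a156_3 q156 =>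
  mulK z3 1152921504606846976 1152921504606846976 (Nat.add w3 1152921504606846976) 0 c156 a156_1 a156_2 a156_3 q156 fun c158 a158_1 a158_2 a158_3 q158 =>
  addcK c158 a158_1 a158_2 a158_3 q158 1152921607960939987 1 fun c159 a159_1 a159_2 a159_3 q159 =>
  negK c43 a43_1 a43_2 a43_3 q43 fun c162 a162_1 a162_2 a162_3 q162 =>
  addcK c162 a162_1 a162_2 a162_3 q162 1152922604118474752 0 fun c163 a163_1 a163_2 a163_3 q163 =>
  mulK c43 a43_1 a43_2 a43_3 q43 c163 a163_1 a163_2 a163_3 q163 fun c165 a165_1 a165_2 a165_3 q165 =>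
  smulK 2 1 1152921504606846977 2305843009213693952 c43 a43_1 a43_2 a43_3 q43 fun c166 a166_1 a166_2 a166_3 q166 =>
  negK c166 a166_1 a166_2 a166_3 q166 fun c167 a167_1 a167_2 a167_3 q167 =>
  addcK c167 a167_1 a167_2 a167_3 q167 1152922604118474752 0 fun c168 a168_1 a168_2 a168_3 q168 =>
  mulK c37 a37_1 a37_2 a37_3 q37 c168 a168_1 a168_2 a168_3 q168 fun c170 a170_1 a170_2 a170_3 q170 =>
  addK c15 a15_1 a15_2 a15_3 q15 c170 a170_1 a170_2 a170_3 q170 fun c171 a171_1 a171_2 a171_3 q171 =>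
  mulK c168 a168_1 a168_2 a168_3 q168 c171 a171_1 a171_2 a171_3 q171 fun c172 a172_1 a172_2 a172_3 q172 =>
  addK c33 a33_1 a33_2 a33_3 q33 c172 a172_1 a172_2 a172_3 q172 fun c173 a173_1 a173_2 a173_3 q173 =>
  mulK c19 a19_1 a19_2 a19_3 q19 c82 a82_1 a82_2 a82_3 q82 fun c174 a174_1 a174_2 a174_3 q174 =>
  addK c173 a173_1 a173_2 a173_3 q173 c174 a174_1 a174_2 a174_3 q174 fun c175 a175_1 a175_2 a175_3 q175 =>
  mulK c28 a28_1 a28_2 a28_3 q28 c101 a101_1 a101_2 a101_3 q101 fun c176 a176_1 a176_2 a176_3 q176 =>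
  addK c175 a175_1 a175_2 a175_3 q175 c176 a176_1 a176_2 a176_3 q176 fun c177 a177_1 a177_2 a177_3 q177 =>
  mulK c165 a165_1 a165_2 a165_3 q165 c177 a177_1 a177_2 a177_3 q177 fun c178 a178_1 a178_2 a178_3 q178 =>
  mulK c159 a159_1 a159_2 a159_3 q159 c178 a178_1 a178_2 a178_3 q178 fun c180 a180_1 a180_2 a180_3 q180 =>
  smulK 27 50 57646075230342348850 31128880624384868352 z3 1152921504606846976 1152921504606846976 (Nat.add w3 1152921504606846976) 0 fun c181 a181_1 a181_2 a181_3 q181 =>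
  negK c181 a181_1 a181_2 a181_3 q181 fun c182 a182_1 a182_2 a182_3 q182 =>
  addcK c182 a182_1 a182_2 a182_3 q182 1152922582128242196 1 fun c183 a183_1 a183_2 a183_3 q183 =>
  negK c46 a46_1 a46_2 a46_3 q46 fun c186 a186_1 a186_2 a186_3 q186 =>
  addcK c186 a186_1 a186_2 a186_3 q186 1152922604118474752 0 fun c187 a187_1 a187_2 a187_3 q187 =>
  mulK c46 a46_1 a46_2 a46_3 q46 c187 a187_1 a187_2 a187_3 q187 fun c189 a189_1 a189_2 a189_3 q189 =>
  smulK 2 1 1152921504606846977 2305843009213693952 c46 a46_1 a46_2 a46_3 q46 fun c190 a190_1 a190_2 a190_3 q190 =>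
  negK c190 a190_1 a190_2 a190_3 q190 fun c191 a191_1 a191_2 a191_3 q191 =>
  addcK c191 a191_1 a191_2 a191_3 q191 1152922604118474752 0 fun c192 a192_1 a192_2 a192_3 q192 =>
  mulK c37 a37_1 a37_2 a37_3 q37 c192 a192_1 a192_2 a192_3 q192 fun c194 a194_1 a194_2 a194_3 q194 =>
  addK c15 a15_1 a15_2 a15_3 q15 c194 a194_1 a194_2 a194_3 q194 fun c195 a195_1 a195_2 a195_3 q195 =>
  mulK c192 a192_1 a192_2 a192_3 q192 c195 a195_1 a195_2 a195_3 q195 fun c196 a196_1 a196_2 a196_3 q196 =>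
  addK c33 a33_1 a33_2 a33_3 q33 c196 a196_1 a196_2 a196_3 q196 fun c197 a197_1 a197_2 a197_3 q197 =>
  mulK c19 a19_1 a19_2 a19_3 q19 c89 a89_1 a89_2 a89_3 q89 fun c198 a198_1 a198_2 a198_3 q198 =>
  addK c197 a197_1 a197_2 a197_3 q197 c198 a198_1 a198_2 a198_3 q198 fun c199 a199_1 a199_2 a199_3 q199 =>
  mulK c28 a28_1 a28_2 a28_3 q28 c108 a108_1 a108_2 a108_3 q108 fun c200 a200_1 a200_2 a200_3 q200 =>
  addK c199 a199_1 a199_2 a199_3 q199 c200 a200_1 a200_2 a200_3 q200 fun c201 a201_1 a201_2 a201_3 q201 =>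
  mulK c189 a189_1 a189_2 a189_3 q189 c201 a201_1 a201_2 a201_3 q201 fun c202 a202_1 a202_2 a202_3 q202 =>
  mulK c183 a183_1 a183_2 a183_3 q183 c202 a202_1 a202_2 a202_3 q202 fun c204 a204_1 a204_2 a204_3 q204 =>
  addK c180 a180_1 a180_2 a180_3 q180 c204 a204_1 a204_2 a204_3 q204 fun c205 a205_1 a205_2 a205_3 q205 =>
  smulK 2 1 1152921504606846977 2305843009213693952 c205 a205_1 a205_2 a205_3 q205 fun c206 a206_1 a206_2 a206_3 q206 =>
  addK c154 a154_1 a154_2 a154_3 q154 c206 a206_1 a206_2 a206_3 q206 fun c207 a207_1 a207_2 a207_3 q207 =>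
  mulK c152 a152_1 a152_2 a152_3 q152 c207 a207_1 a207_2 a207_3 q207 fun c208 a208_1 a208_2 a208_3 q208 =>
  subK c121 a121_1 a121_2 a121_3 q121 c208 a208_1 a208_2 a208_3 q208 fun c209 a209_1 a209_2 a209_3 q209 =>
  pos c209 a209_1 a209_2 a209_3 q209

theorem alt0_s {z1 w1 z2 w2 z3 w3 : ℕ} {e1 e2 e3 a d s : ℝ} (he : Ev e1 e2 e3)
    (hx1 : In e1 e2 e3 z1 (Nat.add w1 1152921504606846976) 1152921504606846976 1152921504606846976 0 a)
    (hx2 : In e1 e2 e3 z2 1152921504606846976 (Nat.add w2 1152921504606846976) 1152921504606846976 0 d)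
    (hx3 : In e1 e2 e3 z3 1152921504606846976 1152921504606846976 (Nat.add w3 1152921504606846976) 0 s)
    (H0 : alt0 z1 w1 z2 w2 z3 w3 = true) : 0 < (M a d s) ∧ 0 < (((M a d s) * (M a d s)) - ((D2 a d s) * (((((2:ℝ) * (h a d s)) * ((2:ℝ) * (h a d s))) * (D2 a d s)) + ((2:ℝ) * (((n0 a d s) * (b0 a d s)) + ((n1 a d s) * (b1 a d s))))))) := by
  unfold alt0 at H0
  refine smulK_s he (w := (1/125:ℝ)) (by norm_num) (by norm_num) (by norm_num) (by norm_num) hx3 (fun _ _ _ _ _ h1 H1 => ?_) H0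
  have h2 := In_cast h1 (div_c (c := (125:ℝ)) (by norm_num))
  refine addcK_s he h2 (v' := (247/250:ℝ)) (by norm_num [SS, BB, abs_le]) (fun _ _ _ _ _ h3 H2 => ?_) H1
  have h4 := In_cast h3 (add_comm _ _)
  have h5 := In_cast (w := (ka a d s)) h4 rfl
  refine smulK_s he (w := (3/200:ℝ)) (by norm_num) (by norm_num) (by norm_num) (by norm_num) hx3 (fun _ _ _ _ _ h6 H3 => ?_) H2
  refine addcK_s he h6 (v' := (11/20:ℝ)) (by norm_num [SS, BB, abs_le]) (fun _ _ _ _ _ h7 H4 => ?_) H3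
  have h8 := In_cast h7 (add_comm _ _)
  have h9 := In_cast (w := (nu a d s)) h8 rfl
  refine mulK_s he h9 hx3 (fun _ _ _ _ _ h10 H5 => ?_) H4
  refine addcK_s he hx3 (v' := (-31/50:ℝ)) (by norm_num [SS, BB, abs_le]) (fun _ _ _ _ _ h11 H6 => ?_) H5
  have h12 := In_cast h11 (sub_c (c := (31/50:ℝ)) (by norm_num))
  refine smulK_s he (w := (5001/10000:ℝ)) (by norm_num) (by norm_num) (by norm_num) (by norm_num) h12 (fun _ _ _ _ _ h13 H7 => ?_) H6
  refine negK_s he h13 (fun _ _ _ _ _ h14 H8 => ?_) H7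
  refine addcK_s he h14 (v' := (2299/10000:ℝ)) (by norm_num [SS, BB, abs_le]) (fun _ _ _ _ _ h15 H9 => ?_) H8
  have h16 := In_cast h15 (neg_add_eq_sub _ _)
  have h17 := In_cast (w := (q1 a d s)) h16 rfl
  refine smulK_s he (w := (5289/2000:ℝ)) (by norm_num) (by norm_num) (by norm_num) (by norm_num) h12 (fun _ _ _ _ _ h18 H10 => ?_) H9
  refine addcK_s he h18 (v' := (18741/10000:ℝ)) (by norm_num [SS, BB, abs_le]) (fun _ _ _ _ _ h19 H11 => ?_) H10
  have h20 := In_cast h19 (add_comm _ _)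
  have h21 := In_cast (w := (g1 a d s)) h20 rfl
  refine smulK_s he (w := (2/7:ℝ)) (by norm_num) (by norm_num) (by norm_num) (by norm_num) h21 (fun _ _ _ _ _ h22 H12 => ?_) H11
  have h23 := In_cast h22 (mul_comm _ _)
  refine negK_s he h23 (fun _ _ _ _ _ h24 H13 => ?_) H12
  refine addcK_s he h24 (v' := (2:ℝ)) (by norm_num [SS, BB, abs_le]) (fun _ _ _ _ _ h25 H14 => ?_) H13
  have h26 := In_cast h25 (neg_add_eq_sub _ _)
  refine smulK_s he (w := (32327/2500:ℝ)) (by norm_num) (by norm_num) (by norm_num) (by norm_num) h12 (fun _ _ _ _ _ h27 H15 => ?_) H14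
  refine addcK_s he h27 (v' := (25189/5000:ℝ)) (by norm_num [SS, BB, abs_le]) (fun _ _ _ _ _ h28 H16 => ?_) H15
  have h29 := In_cast h28 (add_comm _ _)
  have h30 := In_cast (w := (g2 a d s)) h29 rfl
  refine smulK_s he (w := (1/16:ℝ)) (by norm_num) (by norm_num) (by norm_num) (by norm_num) h30 (fun _ _ _ _ _ h31 H17 => ?_) H16
  have h32 := In_cast h31 (div_c (c := (16:ℝ)) (by norm_num))
  refine subK_s he h26 h32 (fun _ _ _ _ _ h33 H18 => ?_) H17
  have h34 := In_cast (w := (q0 a d s)) h33 rfl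
  refine smulK_s he (w := (58/125:ℝ)) (by norm_num) (by norm_num) (by norm_num) (by norm_num) h12 (fun _ _ _ _ _ h35 H19 => ?_) H18
  refine negK_s he h35 (fun _ _ _ _ _ h36 H20 => ?_) H19
  refine addcK_s he h36 (v' := (1423/10000:ℝ)) (by norm_num [SS, BB, abs_le]) (fun _ _ _ _ _ h37 H21 => ?_) H20
  have h38 := In_cast h37 (neg_add_eq_sub _ _)
  have h39 := In_cast (w := (q2 a d s)) h38 rfl
  refine subK_s he h34 h39 (fun _ _ _ _ _ h40 H22 => ?_) H21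
  refine smulK_s he (w := (2:ℝ)) (by norm_num) (by norm_num) (by norm_num) (by norm_num) h40 (fun _ _ _ _ _ h41 H23 => ?_) H22
  refine negK_s he hx1 (fun _ _ _ _ _ h42 H24 => ?_) H23
  refine addcK_s he h42 (v' := (1:ℝ)) (by norm_num [SS, BB, abs_le]) (fun _ _ _ _ _ h43 H25 => ?_) H24
  have h44 := In_cast h43 (neg_add_eq_sub _ _)
  have h45 := In_cast (w := (y0 a d s)) h44 rfl
  refine subK_s he h44 hx2 (fun _ _ _ _ _ h46 H26 => ?_) H25
  have h47 := In_cast (w := (y1 a d s)) h46 rfl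
  refine addK_s he h45 h47 (fun _ _ _ _ _ h48 H27 => ?_) H26
  refine smulK_s he (w := (1/2:ℝ)) (by norm_num) (by norm_num) (by norm_num) (by norm_num) h48 (fun _ _ _ _ _ h49 H28 => ?_) H27
  have h50 := In_cast h49 (div_c (c := (2:ℝ)) (by norm_num))
  have h51 := In_cast (w := (y a d s)) h50 rfl
  refine smulK_s he (w := (2:ℝ)) (by norm_num) (by norm_num) (by norm_num) (by norm_num) h51 (fun _ _ _ _ _ h52 H29 => ?_) H28
  refine negK_s he h52 (fun _ _ _ _ _ h53 H30 => ?_) H29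
  refine addcK_s he h53 (v' := (1:ℝ)) (by norm_num [SS, BB, abs_le]) (fun _ _ _ _ _ h54 H31 => ?_) H30
  have h55 := In_cast h54 (neg_add_eq_sub _ _)
  have h56 := In_cast (w := (m a d s)) h55 rfl
  refine mulK_s he h41 h56 (fun _ _ _ _ _ h57 H32 => ?_) H31
  refine subK_s he h17 h57 (fun _ _ _ _ _ h58 H33 => ?_) H32
  refine smulK_s he (w := (3:ℝ)) (by norm_num) (by norm_num) (by norm_num) (by norm_num) h56 (fun _ _ _ _ _ h59 H34 => ?_) H33
  refine mulK_s he h59 h56 (fun _ _ _ _ _ h60 H35 => ?_) H34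
  refine smulK_s he (w := (1/2:ℝ)) (by norm_num) (by norm_num) (by norm_num) (by norm_num) hx2 (fun _ _ _ _ _ h61 H36 => ?_) H35
  have h62 := In_cast h61 (div_c (c := (2:ℝ)) (by norm_num))
  have h63 := In_cast (w := (h a d s)) h62 rfl
  refine smulK_s he (w := (2:ℝ)) (by norm_num) (by norm_num) (by norm_num) (by norm_num) h63 (fun _ _ _ _ _ h64 H37 => ?_) H36
  refine sqK_s he h64 (fun _ _ _ _ _ h65 H38 => ?_) H37
  have h66 := In_cast h65 (sq _)
  refine addK_s he h60 h66 (fun _ _ _ _ _ h67 H39 => ?_) H38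
  refine mulK_s he h17 h67 (fun _ _ _ _ _ h68 H40 => ?_) H39
  refine subK_s he h58 h68 (fun _ _ _ _ _ h69 H41 => ?_) H40
  refine smulK_s he (w := (4:ℝ)) (by norm_num) (by norm_num) (by norm_num) (by norm_num) h39 (fun _ _ _ _ _ h70 H42 => ?_) H41
  refine mulK_s he h70 h56 (fun _ _ _ _ _ h71 H43 => ?_) H42
  refine sqK_s he h56 (fun _ _ _ _ _ h72 H44 => ?_) H43
  have h73 := In_cast h72 (sq _)
  refine addK_s he h73 h66 (fun _ _ _ _ _ h74 H45 => ?_) H44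
  refine mulK_s he h71 h74 (fun _ _ _ _ _ h75 H46 => ?_) H45
  refine subK_s he h69 h75 (fun _ _ _ _ _ h76 H47 => ?_) H46
  refine smulK_s he (w := (1/2:ℝ)) (by norm_num) (by norm_num) (by norm_num) (by norm_num) h76 (fun _ _ _ _ _ h77 H48 => ?_) H47
  have h78 := In_cast h77 (div_c (c := (2:ℝ)) (by norm_num))
  refine smulK_s he (w := (5:ℝ)) (by norm_num) (by norm_num) (by norm_num) (by norm_num) h45 (fun _ _ _ _ _ h79 H49 => ?_) H48
  refine addcK_s he h79 (v' := (1:ℝ)) (by norm_num [SS, BB, abs_le]) (fun _ _ _ _ _ h80 H50 => ?_) H49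
  have h81 := In_cast h80 (add_comm _ _)
  refine invK_s he h81 (fun _ _ _ _ _ h82 H51 => ?_) H50
  have h83 := In_cast h82 (inv_eq_one_div _)
  have h84 := In_cast (w := (i0 a d s)) h83 rfl
  refine smulK_s he (w := (6/5:ℝ)) (by norm_num) (by norm_num) (by norm_num) (by norm_num) h84 (fun _ _ _ _ _ h85 H52 => ?_) H51
  refine smulK_s he (w := (5:ℝ)) (by norm_num) (by norm_num) (by norm_num) (by norm_num) h47 (fun _ _ _ _ _ h86 H53 => ?_) H52
  refine addcK_s he h86 (v' := (1:ℝ)) (by norm_num [SS, BB, abs_le]) (fun _ _ _ _ _ h87 H54 => ?_) H53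
  have h88 := In_cast h87 (add_comm _ _)
  refine invK_s he h88 (fun _ _ _ _ _ h89 H55 => ?_) H54
  have h90 := In_cast h89 (inv_eq_one_div _)
  have h91 := In_cast (w := (i1 a d s)) h90 rfl
  refine mulK_s he h85 h91 (fun _ _ _ _ _ h92 H56 => ?_) H55
  refine negK_s he h92 (fun _ _ _ _ _ h93 H57 => ?_) H56
  refine addcK_s he h93 (v' := (1/5:ℝ)) (by norm_num [SS, BB, abs_le]) (fun _ _ _ _ _ h94 H58 => ?_) H57
  have h95 := In_cast h94 (neg_add_eq_sub _ _)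
  refine mulK_s he h21 h95 (fun _ _ _ _ _ h96 H59 => ?_) H58
  refine addK_s he h78 h96 (fun _ _ _ _ _ h97 H60 => ?_) H59
  refine smulK_s he (w := (30:ℝ)) (by norm_num) (by norm_num) (by norm_num) (by norm_num) h45 (fun _ _ _ _ _ h98 H61 => ?_) H60
  refine addcK_s he h98 (v' := (1:ℝ)) (by norm_num [SS, BB, abs_le]) (fun _ _ _ _ _ h99 H62 => ?_) H61
  have h100 := In_cast h99 (add_comm _ _)
  refine invK_s he h100 (fun _ _ _ _ _ h101 H63 => ?_) H62
  have h102 := In_cast h101 (inv_eq_one_div _)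
  have h103 := In_cast (w := (j0 a d s)) h102 rfl
  refine smulK_s he (w := (31/30:ℝ)) (by norm_num) (by norm_num) (by norm_num) (by norm_num) h103 (fun _ _ _ _ _ h104 H64 => ?_) H63
  refine smulK_s he (w := (30:ℝ)) (by norm_num) (by norm_num) (by norm_num) (by norm_num) h47 (fun _ _ _ _ _ h105 H65 => ?_) H64
  refine addcK_s he h105 (v' := (1:ℝ)) (by norm_num [SS, BB, abs_le]) (fun _ _ _ _ _ h106 H66 => ?_) H65
  have h107 := In_cast h106 (add_comm _ _)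
  refine invK_s he h107 (fun _ _ _ _ _ h108 H67 => ?_) H66
  have h109 := In_cast h108 (inv_eq_one_div _)
  have h110 := In_cast (w := (j1 a d s)) h109 rfl
  refine mulK_s he h104 h110 (fun _ _ _ _ _ h111 H68 => ?_) H67
  refine negK_s he h111 (fun _ _ _ _ _ h112 H69 => ?_) H68
  refine addcK_s he h112 (v' := (1/30:ℝ)) (by norm_num [SS, BB, abs_le]) (fun _ _ _ _ _ h113 H70 => ?_) H69
  have h114 := In_cast h113 (neg_add_eq_sub _ _)
  refine mulK_s he h30 h114 (fun _ _ _ _ _ h115 H71 => ?_) H70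
  refine addK_s he h97 h115 (fun _ _ _ _ _ h116 H72 => ?_) H71
  have h117 := In_cast (w := (D1 a d s)) h116 rfl
  refine mulK_s he h10 h117 (fun _ _ _ _ _ h118 H73 => ?_) H72
  refine subK_s he h5 h118 (fun _ _ _ _ _ h119 H74 => ?_) H73
  have h120 := In_cast (w := (M a d s)) h119 rfl
  refine posK_s he h120 (fun p0 H75 => ?_) H74
  refine sqK_s he h120 (fun _ _ _ _ _ h121 H76 => ?_) H75
  have h122 := In_cast h121 (sq _)
  refine smulK_s he (w := (3:ℝ)) (by norm_num) (by norm_num) (by norm_num) (by norm_num) h17 (fun _ _ _ _ _ h123 H77 => ?_) H76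
  refine mulK_s he h123 h56 (fun _ _ _ _ _ h124 H78 => ?_) H77
  refine addK_s he h40 h124 (fun _ _ _ _ _ h125 H79 => ?_) H78
  refine smulK_s he (w := (6:ℝ)) (by norm_num) (by norm_num) (by norm_num) (by norm_num) h56 (fun _ _ _ _ _ h126 H80 => ?_) H79
  refine mulK_s he h126 h56 (fun _ _ _ _ _ h127 H81 => ?_) H80
  refine addK_s he h127 h66 (fun _ _ _ _ _ h128 H82 => ?_) H81
  refine mulK_s he h39 h128 (fun _ _ _ _ _ h129 H83 => ?_) H82
  refine addK_s he h125 h129 (fun _ _ _ _ _ h130 H84 => ?_) H83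
  refine smulK_s he (w := (1/2:ℝ)) (by norm_num) (by norm_num) (by norm_num) (by norm_num) h130 (fun _ _ _ _ _ h131 H85 => ?_) H84
  have h132 := In_cast h131 (div_c (c := (2:ℝ)) (by norm_num))
  refine smulK_s he (w := (5:ℝ)) (by norm_num) (by norm_num) (by norm_num) (by norm_num) h51 (fun _ _ _ _ _ h133 H86 => ?_) H85
  refine addcK_s he h133 (v' := (1:ℝ)) (by norm_num [SS, BB, abs_le]) (fun _ _ _ _ _ h134 H87 => ?_) H86
  have h135 := In_cast h134 (add_comm _ _)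
  refine invK_s he h135 (fun _ _ _ _ _ h136 H88 => ?_) H87
  refine smulK_s he (w := (3:ℝ)) (by norm_num) (by norm_num) (by norm_num) (by norm_num) h21 (fun _ _ _ _ _ h137 H89 => ?_) H88
  refine mulK_s he h137 h84 (fun _ _ _ _ _ h138 H90 => ?_) H89
  refine mulK_s he h138 h91 (fun _ _ _ _ _ h139 H91 => ?_) H90
  refine mulK_s he h139 h136 (fun _ _ _ _ _ h140 H92 => ?_) H91
  have h141 := In_cast h140 ((div_eq_mul_inv _ _).symm)
  refine addK_s he h132 h141 (fun _ _ _ _ _ h142 H93 => ?_) H92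
  refine smulK_s he (w := (30:ℝ)) (by norm_num) (by norm_num) (by norm_num) (by norm_num) h51 (fun _ _ _ _ _ h143 H94 => ?_) H93
  refine addcK_s he h143 (v' := (1:ℝ)) (by norm_num [SS, BB, abs_le]) (fun _ _ _ _ _ h144 H95 => ?_) H94
  have h145 := In_cast h144 (add_comm _ _)
  refine invK_s he h145 (fun _ _ _ _ _ h146 H96 => ?_) H95
  refine smulK_s he (w := (31/2:ℝ)) (by norm_num) (by norm_num) (by norm_num) (by norm_num) h30 (fun _ _ _ _ _ h147 H97 => ?_) H96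
  refine mulK_s he h147 h103 (fun _ _ _ _ _ h148 H98 => ?_) H97
  refine mulK_s he h148 h110 (fun _ _ _ _ _ h149 H99 => ?_) H98
  refine mulK_s he h149 h146 (fun _ _ _ _ _ h150 H100 => ?_) H99
  have h151 := In_cast h150 ((div_eq_mul_inv _ _).symm)
  refine addK_s he h142 h151 (fun _ _ _ _ _ h152 H101 => ?_) H100
  have h153 := In_cast (w := (D2 a d s)) h152 rfl
  refine mulK_s he h66 h153 (fun _ _ _ _ _ h154 H102 => ?_) H101
  refine smulK_s he (w := (57/200:ℝ)) (by norm_num) (by norm_num) (by norm_num) (by norm_num) hx3 (fun _ _ _ _ _ h155 H103 => ?_) H102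
  refine addcK_s he h155 (v' := (49/500:ℝ)) (by norm_num [SS, BB, abs_le]) (fun _ _ _ _ _ h156 H104 => ?_) H103
  have h157 := In_cast h156 (add_comm _ _)
  refine mulK_s he hx3 h157 (fun _ _ _ _ _ h158 H105 => ?_) H104
  refine addcK_s he h158 (v' := (47/500:ℝ)) (by norm_num [SS, BB, abs_le]) (fun _ _ _ _ _ h159 H106 => ?_) H105
  have h160 := In_cast h159 (add_comm _ _)
  have h161 := In_cast (w := (n0 a d s)) h160 rfl
  refine negK_s he h45 (fun _ _ _ _ _ h162 H107 => ?_) H106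
  refine addcK_s he h162 (v' := (1:ℝ)) (by norm_num [SS, BB, abs_le]) (fun _ _ _ _ _ h163 H108 => ?_) H107
  have h164 := In_cast h163 (neg_add_eq_sub _ _)
  refine mulK_s he h45 h164 (fun _ _ _ _ _ h165 H109 => ?_) H108
  refine smulK_s he (w := (2:ℝ)) (by norm_num) (by norm_num) (by norm_num) (by norm_num) h45 (fun _ _ _ _ _ h166 H110 => ?_) H109
  refine negK_s he h166 (fun _ _ _ _ _ h167 H111 => ?_) H110
  refine addcK_s he h167 (v' := (1:ℝ)) (by norm_num [SS, BB, abs_le]) (fun _ _ _ _ _ h168 H112 => ?_) H111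
  have h169 := In_cast h168 (neg_add_eq_sub _ _)
  refine mulK_s he h39 h169 (fun _ _ _ _ _ h170 H113 => ?_) H112
  refine addK_s he h17 h170 (fun _ _ _ _ _ h171 H114 => ?_) H113
  refine mulK_s he h169 h171 (fun _ _ _ _ _ h172 H115 => ?_) H114
  refine addK_s he h34 h172 (fun _ _ _ _ _ h173 H116 => ?_) H115
  refine mulK_s he h21 h84 (fun _ _ _ _ _ h174 H117 => ?_) H116
  refine addK_s he h173 h174 (fun _ _ _ _ _ h175 H118 => ?_) H117
  refine mulK_s he h30 h103 (fun _ _ _ _ _ h176 H119 => ?_) H118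
  refine addK_s he h175 h176 (fun _ _ _ _ _ h177 H120 => ?_) H119
  refine mulK_s he h165 h177 (fun _ _ _ _ _ h178 H121 => ?_) H120
  have h179 := In_cast (w := (b0 a d s)) h178 rfl
  refine mulK_s he h161 h179 (fun _ _ _ _ _ h180 H122 => ?_) H121
  refine smulK_s he (w := (27/50:ℝ)) (by norm_num) (by norm_num) (by norm_num) (by norm_num) hx3 (fun _ _ _ _ _ h181 H123 => ?_) H122
  refine negK_s he h181 (fun _ _ _ _ _ h182 H124 => ?_) H123
  refine addcK_s he h182 (v' := (49/50:ℝ)) (by norm_num [SS, BB, abs_le]) (fun _ _ _ _ _ h183 H125 => ?_) H124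
  have h184 := In_cast h183 (neg_add_eq_sub _ _)
  have h185 := In_cast (w := (n1 a d s)) h184 rfl
  refine negK_s he h47 (fun _ _ _ _ _ h186 H126 => ?_) H125
  refine addcK_s he h186 (v' := (1:ℝ)) (by norm_num [SS, BB, abs_le]) (fun _ _ _ _ _ h187 H127 => ?_) H126
  have h188 := In_cast h187 (neg_add_eq_sub _ _)
  refine mulK_s he h47 h188 (fun _ _ _ _ _ h189 H128 => ?_) H127
  refine smulK_s he (w := (2:ℝ)) (by norm_num) (by norm_num) (by norm_num) (by norm_num) h47 (fun _ _ _ _ _ h190 H129 => ?_) H128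
  refine negK_s he h190 (fun _ _ _ _ _ h191 H130 => ?_) H129
  refine addcK_s he h191 (v' := (1:ℝ)) (by norm_num [SS, BB, abs_le]) (fun _ _ _ _ _ h192 H131 => ?_) H130
  have h193 := In_cast h192 (neg_add_eq_sub _ _)
  refine mulK_s he h39 h193 (fun _ _ _ _ _ h194 H132 => ?_) H131
  refine addK_s he h17 h194 (fun _ _ _ _ _ h195 H133 => ?_) H132
  refine mulK_s he h193 h195 (fun _ _ _ _ _ h196 H134 => ?_) H133
  refine addK_s he h34 h196 (fun _ _ _ _ _ h197 H135 => ?_) H134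
  refine mulK_s he h21 h91 (fun _ _ _ _ _ h198 H136 => ?_) H135
  refine addK_s he h197 h198 (fun _ _ _ _ _ h199 H137 => ?_) H136
  refine mulK_s he h30 h110 (fun _ _ _ _ _ h200 H138 => ?_) H137
  refine addK_s he h199 h200 (fun _ _ _ _ _ h201 H139 => ?_) H138
  refine mulK_s he h189 h201 (fun _ _ _ _ _ h202 H140 => ?_) H139
  have h203 := In_cast (w := (b1 a d s)) h202 rfl
  refine mulK_s he h185 h203 (fun _ _ _ _ _ h204 H141 => ?_) H140
  refine addK_s he h180 h204 (fun _ _ _ _ _ h205 H142 => ?_) H141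
  refine smulK_s he (w := (2:ℝ)) (by norm_num) (by norm_num) (by norm_num) (by norm_num) h205 (fun _ _ _ _ _ h206 H143 => ?_) H142
  refine addK_s he h154 h206 (fun _ _ _ _ _ h207 H144 => ?_) H143
  refine mulK_s he h153 h207 (fun _ _ _ _ _ h208 H145 => ?_) H144
  refine subK_s he h122 h208 (fun _ _ _ _ _ h209 H146 => ?_) H145
  exact ⟨p0, pos_s he h209 H146⟩

attribute [irreducible] alt0

noncomputable def leaf (j u z1 w1 z2 w2 z3 w3 : ℕ) : Bool :=
  alt0 z1 w1 z2 w2 z3 w3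

theorem snd : Snd Q leaf := by
  intro j u z1 w1 z2 w2 z3 w3 e1 e2 e3 he H
  unfold leaf at H
  unfold Q
  exact alt0_s he (var1 z1 w1) (var2 z2 w2) (var3 z3 w3) H

end Crest.Agent.R307.OBl
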