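import Crest.Agent.R307.OBl
set_option autoImplicit false
set_option maxRecDepth 100000
namespace Crest.Agent.R307.OBl
open Crest.Agent.R307.IA Crest.Agent.R307.IA3

theorem k0 : Cov Q 1152921504606846976 1152921779484754037 1152921504606846976 1152922054362660864 1152922043367544586 1152922330669932925 :=
  cov_of snd 0 0 11 _ _ _ _ _ _ 0x33033013312330313302033133002330330033023302133031330233031330203303033021330330033012033032330133032330103303133031021330313310330330023303302133033203301233133023313312033033021330323313312033033101203303233013323301033031330330102103303133031033033002330330033021330313303302033033102330330033033002101 (by decide +kernel)

theorem k1 : Cov Q 1152921779484754037 1152922054362660864 1152921504606846976 1152921779484754037 1152922043367544586 1152922330669932925 :=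
  cov_of snd 0 0 10 _ _ _ _ _ _ 0x3303133023303301033033002330313300330213303133003303013303120330303301330312330313302013303033013312330330133020330313300330210 (by decide +kernel)

theorem k2 : Cov Q 1152921779484754037 1152921916923707585 1152921779484754037 1152922054362660864 1152922043367544586 1152922330669932925 :=
  cov_of snd 0 0 11 _ _ _ _ _ _ 0x33033013303301033030233133103302133031331033023303300330210330330033013303033010233033003302330321330323303210330313310213313300330233030321330330032330321033033013303102330313302331320330330021033031330233132033033002330313300330213303133103303300133031201 (by decide +kernel)

theorem k3 : Cov Q 1152921916923707585 1152922054362660864 1152921779484754037 1152922054362660864 1152922043367544586 1152922330669932925 :=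
  cov_of snd 0 0 17 _ _ _ _ _ _ 0x3313310323303032133030330133020330302330323301330330103302133032330133033010330233133003232103303133102330330032330321331233032330301330203313300213313300330233032133123303233030133020331330023303033013303301033030233030210330303301330330103303023303133103302133031331033023313300330210330303301330330102133030330133033010330302330330133031033021330330133031033023313310330210330303301330330102331331033023303300321330330033030133120330330133031021033133003302330330032133033003301331203303301330310233033013312330330133020331331021330330133123303301330203313310233031331033030233033002101331331033023303300321330323303300133031203303301330330102330303301331233033013302033133102133033003301331233030330133020330313310233033013303103303023303300210330330133031033030233133003302133033003301233133003302330303213303301201033031331033030233033003302133033003303012330330033023303032133033012033030323303213303233032103303301331021330303233032133032330321033031331023303133023303301033033002101 (by decide +kernel)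

end Crest.Agent.R307.OBl
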