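import Crest.Agent.R307.IA3
import Crest.Agent.R307.IAx
set_option autoImplicit false
set_option linter.unusedVariables false
set_option maxRecDepth 20000
namespace Crest.Agent.R307.OBr
open Crest.Agent.R307.IA Crest.Agent.R307.IA3

theorem In_cast {e1 e2 e3 : ℝ} {x y1 y2 y3 r : ℕ} {v w : ℝ}
    (h : In e1 e2 e3 x y1 y2 y3 r v) (e : v = w) : In e1 e2 e3 x y1 y2 y3 r w := e ▸ h

noncomputable def ka (w u s : ℝ) : ℝ := ((247/250:ℝ) + (s / (125:ℝ)))
noncomputable def nu (w u s : ℝ) : ℝ := ((11/20:ℝ) + ((3/200:ℝ) * s))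
noncomputable def q1 (w u s : ℝ) : ℝ := ((2299/10000:ℝ) - ((5001/10000:ℝ) * (s - (31/50:ℝ))))
noncomputable def g1 (w u s : ℝ) : ℝ := ((18741/10000:ℝ) + ((5289/2000:ℝ) * (s - (31/50:ℝ))))
noncomputable def g2 (w u s : ℝ) : ℝ := ((25189/5000:ℝ) + ((32327/2500:ℝ) * (s - (31/50:ℝ))))
noncomputable def q0 (w u s : ℝ) : ℝ := (((2:ℝ) - ((g1 w u s) * (2/7:ℝ))) - ((g2 w u s) / (16:ℝ)))
noncomputable def q2 (w u s : ℝ) : ℝ := ((1423/10000:ℝ) - ((58/125:ℝ) * (s - (31/50:ℝ))))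
noncomputable def y0 (w u s : ℝ) : ℝ := w
noncomputable def y1 (w u s : ℝ) : ℝ := (w * u)
noncomputable def y (w u s : ℝ) : ℝ := (((y0 w u s) + (y1 w u s)) / (2:ℝ))
noncomputable def m (w u s : ℝ) : ℝ := ((1:ℝ) - ((2:ℝ) * (y w u s)))
noncomputable def h (w u s : ℝ) : ℝ := ((w * ((1:ℝ) - u)) / (2:ℝ))
noncomputable def i0 (w u s : ℝ) : ℝ := ((1:ℝ) / ((1:ℝ) + ((5:ℝ) * (y0 w u s))))
noncomputable def i1 (w u s : ℝ) : ℝ := ((1:ℝ) / ((1:ℝ) + ((5:ℝ) * (y1 w u s))))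
noncomputable def j0 (w u s : ℝ) : ℝ := ((1:ℝ) / ((1:ℝ) + ((30:ℝ) * (y0 w u s))))
noncomputable def j1 (w u s : ℝ) : ℝ := ((1:ℝ) / ((1:ℝ) + ((30:ℝ) * (y1 w u s))))
noncomputable def D1 (w u s : ℝ) : ℝ := (((((((q1 w u s) - (((2:ℝ) * ((q0 w u s) - (q2 w u s))) * (m w u s))) - ((q1 w u s) * ((((3:ℝ) * (m w u s)) * (m w u s)) + (((2:ℝ) * (h w u s)) * ((2:ℝ) * (h w u s)))))) - ((((4:ℝ) * (q2 w u s)) * (m w u s)) * (((m w u s) * (m w u s)) + (((2:ℝ) * (h w u s)) * ((2:ℝ) * (h w u s)))))) / (2:ℝ)) + ((g1 w u s) * ((1/5:ℝ) - (((6/5:ℝ) * (i0 w u s)) * (i1 w u s))))) + ((g2 w u s) * ((1/30:ℝ) - (((31/30:ℝ) * (j0 w u s)) * (j1 w u s)))))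
noncomputable def M (w u s : ℝ) : ℝ := ((ka w u s) - (((nu w u s) * s) * (D1 w u s)))
noncomputable def D2 (w u s : ℝ) : ℝ := (((((((q0 w u s) - (q2 w u s)) + (((3:ℝ) * (q1 w u s)) * (m w u s))) + ((q2 w u s) * ((((6:ℝ) * (m w u s)) * (m w u s)) + (((2:ℝ) * (h w u s)) * ((2:ℝ) * (h w u s)))))) / (2:ℝ)) + (((((3:ℝ) * (g1 w u s)) * (i0 w u s)) * (i1 w u s)) / ((1:ℝ) + ((5:ℝ) * (y w u s))))) + (((((31/2:ℝ) * (g2 w u s)) * (j0 w u s)) * (j1 w u s)) / ((1:ℝ) + ((30:ℝ) * (y w u s)))))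
noncomputable def n0 (w u s : ℝ) : ℝ := ((47/500:ℝ) + (s * ((49/500:ℝ) + ((57/200:ℝ) * s))))
noncomputable def b0 (w u s : ℝ) : ℝ := (((y0 w u s) * ((1:ℝ) - (y0 w u s))) * ((((q0 w u s) + (((1:ℝ) - ((2:ℝ) * (y0 w u s))) * ((q1 w u s) + ((q2 w u s) * ((1:ℝ) - ((2:ℝ) * (y0 w u s))))))) + ((g1 w u s) * (i0 w u s))) + ((g2 w u s) * (j0 w u s))))
noncomputable def n1 (w u s : ℝ) : ℝ := ((49/50:ℝ) - ((27/50:ℝ) * s))
noncomputable def b1 (w u s : ℝ) : ℝ := (((y1 w u s) * ((1:ℝ) - (y1 w u s))) * ((((q0 w u s) + (((1:ℝ) - ((2:ℝ) * (y1 w u s))) * ((q1 w u s) + ((q2 w u s) * ((1:ℝ) - ((2:ℝ) * (y1 w u s))))))) + ((g1 w u s) * (i1 w u s))) + ((g2 w u s) * (j1 w u s))))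

def Q (w u s : ℝ) : Prop :=
  (
  (0 < (M w u s) ∧ 0 < (((M w u s) * (M w u s)) - ((D2 w u s) * (((((2:ℝ) * (h w u s)) * ((2:ℝ) * (h w u s))) * (D2 w u s)) + ((2:ℝ) * (((n0 w u s) * (b0 w u s)) + ((n1 w u s) * (b1 w u s)))))))))

noncomputable def alt0 (z1 w1 z2 w2 z3 w3 : ℕ) : Bool :=
  smulK 1 125 144115188075855872125 1152921504606846976 z3 1152921504606846976 1152921504606846976 (Nat.add w3 1152921504606846976) 0 fun c1 a1_1 a1_2 a1_3 q1 =>
  addcK c1 a1_1 a1_2 a1_3 q1 1152922590924335219 1 fun c3 a3_1 a3_2 a3_3 q3 =>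
  smulK 3 200 230584300921369395400 3458764513820540928 z3 1152921504606846976 1152921504606846976 (Nat.add w3 1152921504606846976) 0 fun c6 a6_1 a6_2 a6_3 q6 =>
  addcK c6 a6_1 a6_2 a6_3 q6 1152922109338242253 1 fun c7 a7_1 a7_2 a7_3 q7 =>
  mulK c7 a7_1 a7_2 a7_3 q7 z3 1152921504606846976 1152921504606846976 (Nat.add w3 1152921504606846976) 0 fun c10 a10_1 a10_2 a10_3 q10 =>
  addcK z3 1152921504606846976 1152921504606846976 (Nat.add w3 1152921504606846976) 0 1152920822909637755 1 fun c11 a11_1 a11_2 a11_3 q11 =>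
  smulK 5001 10000 11529215046068469770000 5765760444538841726976 c11 a11_1 a11_2 a11_3 q11 fun c13 a13_1 a13_2 a13_3 q13 =>
  negK c13 a13_1 a13_2 a13_3 q13 fun c14 a14_1 a14_2 a14_3 q14 =>
  addcK c14 a14_1 a14_2 a14_3 q14 1152921757384570202 1 fun c15 a15_1 a15_2 a15_3 q15 =>
  smulK 5289 2000 2305843009213693954000 6097801837865613656064 c11 a11_1 a11_2 a11_3 q11 fun c18 a18_1 a18_2 a18_3 q18 =>
  addcK c18 a18_1 a18_2 a18_3 q18 1152923565201588591 1 fun c19 a19_1 a19_2 a19_3 q19 =>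
  smulK 2 7 8070450532247928839 2305843009213693952 c19 a19_1 a19_2 a19_3 q19 fun c22 a22_1 a22_2 a22_3 q22 =>
  negK c22 a22_1 a22_2 a22_3 q22 fun c24 a24_1 a24_2 a24_3 q24 =>
  addcK c24 a24_1 a24_2 a24_3 q24 1152923703630102528 0 fun c25 a25_1 a25_2 a25_3 q25 =>
  smulK 32327 2500 2882303761517117442500 37270493479425542193152 c11 a11_1 a11_2 a11_3 q11 fun c27 a27_1 a27_2 a27_3 q27 =>
  addcK c27 a27_1 a27_2 a27_3 q27 1152927043726525386 1 fun c28 a28_1 a28_2 a28_3 q28 =>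
  smulK 1 16 18446744073709551632 1152921504606846976 c28 a28_1 a28_2 a28_3 q28 fun c31 a31_1 a31_2 a31_3 q31 =>
  subK c25 a25_1 a25_2 a25_3 q25 c31 a31_1 a31_2 a31_3 q31 fun c33 a33_1 a33_2 a33_3 q33 =>
  smulK 58 125 144115188075855872125 66869447267197124608 c11 a11_1 a11_2 a11_3 q11 fun c35 a35_1 a35_2 a35_3 q35 =>
  negK c35 a35_1 a35_2 a35_3 q35 fun c36 a36_1 a36_2 a36_3 q36 =>
  addcK c36 a36_1 a36_2 a36_3 q36 1152921661067351609 1 fun c37 a37_1 a37_2 a37_3 q37 =>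
  subK c33 a33_1 a33_2 a33_3 q33 c37 a37_1 a37_2 a37_3 q37 fun c40 a40_1 a40_2 a40_3 q40 =>
  smulK 2 1 1152921504606846977 2305843009213693952 c40 a40_1 a40_2 a40_3 q40 fun c41 a41_1 a41_2 a41_3 q41 =>
  mulK z1 (Nat.add w1 1152921504606846976) 1152921504606846976 1152921504606846976 0 z2 1152921504606846976 (Nat.add w2 1152921504606846976) 1152921504606846976 0 fun c43 a43_1 a43_2 a43_3 q43 =>
  addK z1 (Nat.add w1 1152921504606846976) 1152921504606846976 1152921504606846976 0 c43 a43_1 a43_2 a43_3 q43 fun c45 a45_1 a45_2 a45_3 q45 =>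
  smulK 1 2 2305843009213693954 1152921504606846976 c45 a45_1 a45_2 a45_3 q45 fun c46 a46_1 a46_2 a46_3 q46 =>
  smulK 2 1 1152921504606846977 2305843009213693952 c46 a46_1 a46_2 a46_3 q46 fun c49 a49_1 a49_2 a49_3 q49 =>
  negK c49 a49_1 a49_2 a49_3 q49 fun c50 a50_1 a50_2 a50_3 q50 =>
  addcK c50 a50_1 a50_2 a50_3 q50 1152922604118474752 0 fun c51 a51_1 a51_2 a51_3 q51 =>
  mulK c41 a41_1 a41_2 a41_3 q41 c51 a51_1 a51_2 a51_3 q51 fun c54 a54_1 a54_2 a54_3 q54 =>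
  subK c15 a15_1 a15_2 a15_3 q15 c54 a54_1 a54_2 a54_3 q54 fun c55 a55_1 a55_2 a55_3 q55 =>
  smulK 3 1 1152921504606846977 3458764513820540928 c51 a51_1 a51_2 a51_3 q51 fun c56 a56_1 a56_2 a56_3 q56 =>
  mulK c56 a56_1 a56_2 a56_3 q56 c51 a51_1 a51_2 a51_3 q51 fun c57 a57_1 a57_2 a57_3 q57 =>
  negK z2 1152921504606846976 (Nat.add w2 1152921504606846976) 1152921504606846976 0 fun c58 a58_1 a58_2 a58_3 q58 =>
  addcK c58 a58_1 a58_2 a58_3 q58 1152922604118474752 0 fun c59 a59_1 a59_2 a59_3 q59 =>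
  mulK z1 (Nat.add w1 1152921504606846976) 1152921504606846976 1152921504606846976 0 c59 a59_1 a59_2 a59_3 q59 fun c61 a61_1 a61_2 a61_3 q61 =>
  smulK 1 2 2305843009213693954 1152921504606846976 c61 a61_1 a61_2 a61_3 q61 fun c62 a62_1 a62_2 a62_3 q62 =>
  smulK 2 1 1152921504606846977 2305843009213693952 c62 a62_1 a62_2 a62_3 q62 fun c65 a65_1 a65_2 a65_3 q65 =>
  sqK c65 a65_1 a65_2 a65_3 q65 fun c66 a66_1 a66_2 a66_3 q66 =>
  addK c57 a57_1 a57_2 a57_3 q57 c66 a66_1 a66_2 a66_3 q66 fun c68 a68_1 a68_2 a68_3 q68 =>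
  mulK c15 a15_1 a15_2 a15_3 q15 c68 a68_1 a68_2 a68_3 q68 fun c69 a69_1 a69_2 a69_3 q69 =>
  subK c55 a55_1 a55_2 a55_3 q55 c69 a69_1 a69_2 a69_3 q69 fun c70 a70_1 a70_2 a70_3 q70 =>
  smulK 4 1 1152921504606846977 4611686018427387904 c37 a37_1 a37_2 a37_3 q37 fun c71 a71_1 a71_2 a71_3 q71 =>
  mulK c71 a71_1 a71_2 a71_3 q71 c51 a51_1 a51_2 a51_3 q51 fun c72 a72_1 a72_2 a72_3 q72 =>
  sqK c51 a51_1 a51_2 a51_3 q51 fun c73 a73_1 a73_2 a73_3 q73 =>
  addK c73 a73_1 a73_2 a73_3 q73 c66 a66_1 a66_2 a66_3 q66 fun c75 a75_1 a75_2 a75_3 q75 =>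
  mulK c72 a72_1 a72_2 a72_3 q72 c75 a75_1 a75_2 a75_3 q75 fun c76 a76_1 a76_2 a76_3 q76 =>
  subK c70 a70_1 a70_2 a70_3 q70 c76 a76_1 a76_2 a76_3 q76 fun c77 a77_1 a77_2 a77_3 q77 =>
  smulK 1 2 2305843009213693954 1152921504606846976 c77 a77_1 a77_2 a77_3 q77 fun c78 a78_1 a78_2 a78_3 q78 =>
  smulK 5 1 1152921504606846977 5764607523034234880 z1 (Nat.add w1 1152921504606846976) 1152921504606846976 1152921504606846976 0 fun c80 a80_1 a80_2 a80_3 q80 =>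
  addcK c80 a80_1 a80_2 a80_3 q80 1152922604118474752 0 fun c81 a81_1 a81_2 a81_3 q81 =>
  invK c81 a81_1 a81_2 a81_3 q81 fun c83 a83_1 a83_2 a83_3 q83 =>
  smulK 6 5 5764607523034234885 6917529027641081856 c83 a83_1 a83_2 a83_3 q83 fun c86 a86_1 a86_2 a86_3 q86 =>
  smulK 5 1 1152921504606846977 5764607523034234880 c43 a43_1 a43_2 a43_3 q43 fun c87 a87_1 a87_2 a87_3 q87 =>
  addcK c87 a87_1 a87_2 a87_3 q87 1152922604118474752 0 fun c88 a88_1 a88_2 a88_3 q88 =>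
  invK c88 a88_1 a88_2 a88_3 q88 fun c90 a90_1 a90_2 a90_3 q90 =>
  mulK c86 a86_1 a86_2 a86_3 q86 c90 a90_1 a90_2 a90_3 q90 fun c93 a93_1 a93_2 a93_3 q93 =>
  negK c93 a93_1 a93_2 a93_3 q93 fun c94 a94_1 a94_2 a94_3 q94 =>
  addcK c94 a94_1 a94_2 a94_3 q94 1152921724509172531 1 fun c95 a95_1 a95_2 a95_3 q95 =>
  mulK c19 a19_1 a19_2 a19_3 q19 c95 a95_1 a95_2 a95_3 q95 fun c97 a97_1 a97_2 a97_3 q97 =>
  addK c78 a78_1 a78_2 a78_3 q78 c97 a97_1 a97_2 a97_3 q97 fun c98 a98_1 a98_2 a98_3 q98 =>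
  smulK 30 1 1152921504606846977 34587645138205409280 z1 (Nat.add w1 1152921504606846976) 1152921504606846976 1152921504606846976 0 fun c99 a99_1 a99_2 a99_3 q99 =>
  addcK c99 a99_1 a99_2 a99_3 q99 1152922604118474752 0 fun c100 a100_1 a100_2 a100_3 q100 =>
  invK c100 a100_1 a100_2 a100_3 q100 fun c102 a102_1 a102_2 a102_3 q102 =>
  smulK 31 30 34587645138205409310 35740566642812256256 c102 a102_1 a102_2 a102_3 q102 fun c105 a105_1 a105_2 a105_3 q105 =>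
  smulK 30 1 1152921504606846977 34587645138205409280 c43 a43_1 a43_2 a43_3 q43 fun c106 a106_1 a106_2 a106_3 q106 =>
  addcK c106 a106_1 a106_2 a106_3 q106 1152922604118474752 0 fun c107 a107_1 a107_2 a107_3 q107 =>
  invK c107 a107_1 a107_2 a107_3 q107 fun c109 a109_1 a109_2 a109_3 q109 =>
  mulK c105 a105_1 a105_2 a105_3 q105 c109 a109_1 a109_2 a109_3 q109 fun c112 a112_1 a112_2 a112_3 q112 =>
  negK c112 a112_1 a112_2 a112_3 q112 fun c113 a113_1 a113_2 a113_3 q113 =>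
  addcK c113 a113_1 a113_2 a113_3 q113 1152921541257234569 1 fun c114 a114_1 a114_2 a114_3 q114 =>
  mulK c28 a28_1 a28_2 a28_3 q28 c114 a114_1 a114_2 a114_3 q114 fun c116 a116_1 a116_2 a116_3 q116 =>
  addK c98 a98_1 a98_2 a98_3 q98 c116 a116_1 a116_2 a116_3 q116 fun c117 a117_1 a117_2 a117_3 q117 =>
  mulK c10 a10_1 a10_2 a10_3 q10 c117 a117_1 a117_2 a117_3 q117 fun c119 a119_1 a119_2 a119_3 q119 =>
  subK c3 a3_1 a3_2 a3_3 q3 c119 a119_1 a119_2 a119_3 q119 fun c120 a120_1 a120_2 a120_3 q120 =>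
  posK c120 a120_1 a120_2 a120_3 q120 <|
  sqK c120 a120_1 a120_2 a120_3 q120 fun c122 a122_1 a122_2 a122_3 q122 =>
  smulK 3 1 1152921504606846977 3458764513820540928 c15 a15_1 a15_2 a15_3 q15 fun c124 a124_1 a124_2 a124_3 q124 =>
  mulK c124 a124_1 a124_2 a124_3 q124 c51 a51_1 a51_2 a51_3 q51 fun c125 a125_1 a125_2 a125_3 q125 =>
  addK c40 a40_1 a40_2 a40_3 q40 c125 a125_1 a125_2 a125_3 q125 fun c126 a126_1 a126_2 a126_3 q126 =>
  smulK 6 1 1152921504606846977 6917529027641081856 c51 a51_1 a51_2 a51_3 q51 fun c127 a127_1 a127_2 a127_3 q127 =>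
  mulK c127 a127_1 a127_2 a127_3 q127 c51 a51_1 a51_2 a51_3 q51 fun c128 a128_1 a128_2 a128_3 q128 =>
  addK c128 a128_1 a128_2 a128_3 q128 c66 a66_1 a66_2 a66_3 q66 fun c129 a129_1 a129_2 a129_3 q129 =>
  mulK c37 a37_1 a37_2 a37_3 q37 c129 a129_1 a129_2 a129_3 q129 fun c130 a130_1 a130_2 a130_3 q130 =>
  addK c126 a126_1 a126_2 a126_3 q126 c130 a130_1 a130_2 a130_3 q130 fun c131 a131_1 a131_2 a131_3 q131 =>
  smulK 1 2 2305843009213693954 1152921504606846976 c131 a131_1 a131_2 a131_3 q131 fun c132 a132_1 a132_2 a132_3 q132 =>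
  smulK 5 1 1152921504606846977 5764607523034234880 c46 a46_1 a46_2 a46_3 q46 fun c134 a134_1 a134_2 a134_3 q134 =>
  addcK c134 a134_1 a134_2 a134_3 q134 1152922604118474752 0 fun c135 a135_1 a135_2 a135_3 q135 =>
  invK c135 a135_1 a135_2 a135_3 q135 fun c137 a137_1 a137_2 a137_3 q137 =>
  smulK 3 1 1152921504606846977 3458764513820540928 c19 a19_1 a19_2 a19_3 q19 fun c138 a138_1 a138_2 a138_3 q138 =>
  mulK c138 a138_1 a138_2 a138_3 q138 c83 a83_1 a83_2 a83_3 q83 fun c139 a139_1 a139_2 a139_3 q139 =>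
  mulK c139 a139_1 a139_2 a139_3 q139 c90 a90_1 a90_2 a90_3 q90 fun c140 a140_1 a140_2 a140_3 q140 =>
  mulK c140 a140_1 a140_2 a140_3 q140 c137 a137_1 a137_2 a137_3 q137 fun c141 a141_1 a141_2 a141_3 q141 =>
  addK c132 a132_1 a132_2 a132_3 q132 c141 a141_1 a141_2 a141_3 q141 fun c143 a143_1 a143_2 a143_3 q143 =>
  smulK 30 1 1152921504606846977 34587645138205409280 c46 a46_1 a46_2 a46_3 q46 fun c144 a144_1 a144_2 a144_3 q144 =>
  addcK c144 a144_1 a144_2 a144_3 q144 1152922604118474752 0 fun c145 a145_1 a145_2 a145_3 q145 =>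
  invK c145 a145_1 a145_2 a145_3 q145 fun c147 a147_1 a147_2 a147_3 q147 =>
  smulK 31 2 2305843009213693954 35740566642812256256 c28 a28_1 a28_2 a28_3 q28 fun c148 a148_1 a148_2 a148_3 q148 =>
  mulK c148 a148_1 a148_2 a148_3 q148 c102 a102_1 a102_2 a102_3 q102 fun c149 a149_1 a149_2 a149_3 q149 =>
  mulK c149 a149_1 a149_2 a149_3 q149 c109 a109_1 a109_2 a109_3 q109 fun c150 a150_1 a150_2 a150_3 q150 =>
  mulK c150 a150_1 a150_2 a150_3 q150 c147 a147_1 a147_2 a147_3 q147 fun c151 a151_1 a151_2 a151_3 q151 =>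
  addK c143 a143_1 a143_2 a143_3 q143 c151 a151_1 a151_2 a151_3 q151 fun c153 a153_1 a153_2 a153_3 q153 =>
  mulK c66 a66_1 a66_2 a66_3 q66 c153 a153_1 a153_2 a153_3 q153 fun c155 a155_1 a155_2 a155_3 q155 =>
  smulK 57 200 230584300921369395400 65716525762590277632 z3 1152921504606846976 1152921504606846976 (Nat.add w3 1152921504606846976) 0 fun c156 a156_1 a156_2 a156_3 q156 =>
  addcK c156 a156_1 a156_2 a156_3 q156 1152921612358986498 1 fun c157 a157_1 a157_2 a157_3 q157 =>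
  mulK z3 1152921504606846976 1152921504606846976 (Nat.add w3 1152921504606846976) 0 c157 a157_1 a157_2 a157_3 q157 fun c159 a159_1 a159_2 a159_3 q159 =>
  addcK c159 a159_1 a159_2 a159_3 q159 1152921607960939987 1 fun c160 a160_1 a160_2 a160_3 q160 =>
  negK z1 (Nat.add w1 1152921504606846976) 1152921504606846976 1152921504606846976 0 fun c163 a163_1 a163_2 a163_3 q163 =>
  addcK c163 a163_1 a163_2 a163_3 q163 1152922604118474752 0 fun c164 a164_1 a164_2 a164_3 q164 =>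
  mulK z1 (Nat.add w1 1152921504606846976) 1152921504606846976 1152921504606846976 0 c164 a164_1 a164_2 a164_3 q164 fun c166 a166_1 a166_2 a166_3 q166 =>
  smulK 2 1 1152921504606846977 2305843009213693952 z1 (Nat.add w1 1152921504606846976) 1152921504606846976 1152921504606846976 0 fun c167 a167_1 a167_2 a167_3 q167 =>
  negK c167 a167_1 a167_2 a167_3 q167 fun c168 a168_1 a168_2 a168_3 q168 =>
  addcK c168 a168_1 a168_2 a168_3 q168 1152922604118474752 0 fun c169 a169_1 a169_2 a169_3 q169 =>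
  mulK c37 a37_1 a37_2 a37_3 q37 c169 a169_1 a169_2 a169_3 q169 fun c171 a171_1 a171_2 a171_3 q171 =>
  addK c15 a15_1 a15_2 a15_3 q15 c171 a171_1 a171_2 a171_3 q171 fun c172 a172_1 a172_2 a172_3 q172 =>
  mulK c169 a169_1 a169_2 a169_3 q169 c172 a172_1 a172_2 a172_3 q172 fun c173 a173_1 a173_2 a173_3 q173 =>
  addK c33 a33_1 a33_2 a33_3 q33 c173 a173_1 a173_2 a173_3 q173 fun c174 a174_1 a174_2 a174_3 q174 =>
  mulK c19 a19_1 a19_2 a19_3 q19 c83 a83_1 a83_2 a83_3 q83 fun c175 a175_1 a175_2 a175_3 q175 =>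
  addK c174 a174_1 a174_2 a174_3 q174 c175 a175_1 a175_2 a175_3 q175 fun c176 a176_1 a176_2 a176_3 q176 =>
  mulK c28 a28_1 a28_2 a28_3 q28 c102 a102_1 a102_2 a102_3 q102 fun c177 a177_1 a177_2 a177_3 q177 =>
  addK c176 a176_1 a176_2 a176_3 q176 c177 a177_1 a177_2 a177_3 q177 fun c178 a178_1 a178_2 a178_3 q178 =>
  mulK c166 a166_1 a166_2 a166_3 q166 c178 a178_1 a178_2 a178_3 q178 fun c179 a179_1 a179_2 a179_3 q179 =>
  mulK c160 a160_1 a160_2 a160_3 q160 c179 a179_1 a179_2 a179_3 q179 fun c181 a181_1 a181_2 a181_3 q181 =>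
  smulK 27 50 57646075230342348850 31128880624384868352 z3 1152921504606846976 1152921504606846976 (Nat.add w3 1152921504606846976) 0 fun c182 a182_1 a182_2 a182_3 q182 =>
  negK c182 a182_1 a182_2 a182_3 q182 fun c183 a183_1 a183_2 a183_3 q183 =>
  addcK c183 a183_1 a183_2 a183_3 q183 1152922582128242196 1 fun c184 a184_1 a184_2 a184_3 q184 =>
  negK c43 a43_1 a43_2 a43_3 q43 fun c187 a187_1 a187_2 a187_3 q187 =>
  addcK c187 a187_1 a187_2 a187_3 q187 1152922604118474752 0 fun c188 a188_1 a188_2 a188_3 q188 =>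
  mulK c43 a43_1 a43_2 a43_3 q43 c188 a188_1 a188_2 a188_3 q188 fun c190 a190_1 a190_2 a190_3 q190 =>
  smulK 2 1 1152921504606846977 2305843009213693952 c43 a43_1 a43_2 a43_3 q43 fun c191 a191_1 a191_2 a191_3 q191 =>
  negK c191 a191_1 a191_2 a191_3 q191 fun c192 a192_1 a192_2 a192_3 q192 =>
  addcK c192 a192_1 a192_2 a192_3 q192 1152922604118474752 0 fun c193 a193_1 a193_2 a193_3 q193 =>
  mulK c37 a37_1 a37_2 a37_3 q37 c193 a193_1 a193_2 a193_3 q193 fun c195 a195_1 a195_2 a195_3 q195 =>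
  addK c15 a15_1 a15_2 a15_3 q15 c195 a195_1 a195_2 a195_3 q195 fun c196 a196_1 a196_2 a196_3 q196 =>
  mulK c193 a193_1 a193_2 a193_3 q193 c196 a196_1 a196_2 a196_3 q196 fun c197 a197_1 a197_2 a197_3 q197 =>
  addK c33 a33_1 a33_2 a33_3 q33 c197 a197_1 a197_2 a197_3 q197 fun c198 a198_1 a198_2 a198_3 q198 =>
  mulK c19 a19_1 a19_2 a19_3 q19 c90 a90_1 a90_2 a90_3 q90 fun c199 a199_1 a199_2 a199_3 q199 =>
  addK c198 a198_1 a198_2 a198_3 q198 c199 a199_1 a199_2 a199_3 q199 fun c200 a200_1 a200_2 a200_3 q200 =>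
  mulK c28 a28_1 a28_2 a28_3 q28 c109 a109_1 a109_2 a109_3 q109 fun c201 a201_1 a201_2 a201_3 q201 =>
  addK c200 a200_1 a200_2 a200_3 q200 c201 a201_1 a201_2 a201_3 q201 fun c202 a202_1 a202_2 a202_3 q202 =>
  mulK c190 a190_1 a190_2 a190_3 q190 c202 a202_1 a202_2 a202_3 q202 fun c203 a203_1 a203_2 a203_3 q203 =>
  mulK c184 a184_1 a184_2 a184_3 q184 c203 a203_1 a203_2 a203_3 q203 fun c205 a205_1 a205_2 a205_3 q205 =>
  addK c181 a181_1 a181_2 a181_3 q181 c205 a205_1 a205_2 a205_3 q205 fun c206 a206_1 a206_2 a206_3 q206 =>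
  smulK 2 1 1152921504606846977 2305843009213693952 c206 a206_1 a206_2 a206_3 q206 fun c207 a207_1 a207_2 a207_3 q207 =>
  addK c155 a155_1 a155_2 a155_3 q155 c207 a207_1 a207_2 a207_3 q207 fun c208 a208_1 a208_2 a208_3 q208 =>
  mulK c153 a153_1 a153_2 a153_3 q153 c208 a208_1 a208_2 a208_3 q208 fun c209 a209_1 a209_2 a209_3 q209 =>
  subK c122 a122_1 a122_2 a122_3 q122 c209 a209_1 a209_2 a209_3 q209 fun c210 a210_1 a210_2 a210_3 q210 =>
  pos c210 a210_1 a210_2 a210_3 q210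

theorem alt0_s {z1 w1 z2 w2 z3 w3 : ℕ} {e1 e2 e3 w u s : ℝ} (he : Ev e1 e2 e3)
    (hx1 : In e1 e2 e3 z1 (Nat.add w1 1152921504606846976) 1152921504606846976 1152921504606846976 0 w)
    (hx2 : In e1 e2 e3 z2 1152921504606846976 (Nat.add w2 1152921504606846976) 1152921504606846976 0 u)
    (hx3 : In e1 e2 e3 z3 1152921504606846976 1152921504606846976 (Nat.add w3 1152921504606846976) 0 s)
    (H0 : alt0 z1 w1 z2 w2 z3 w3 = true) : 0 < (M w u s) ∧ 0 < (((M w u s) * (M w u s)) - ((D2 w u s) * (((((2:ℝ) * (h w u s)) * ((2:ℝ) * (h w u s))) * (D2 w u s)) + ((2:ℝ) * (((n0 w u s) * (b0 w u s)) + ((n1 w u s) * (b1 w u s))))))) := by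
  unfold alt0 at H0
  refine smulK_s he (w := (1/125:ℝ)) (by norm_num) (by norm_num) (by norm_num) (by norm_num) hx3 (fun _ _ _ _ _ h1 H1 => ?_) H0
  have h2 := In_cast h1 (div_c (c := (125:ℝ)) (by norm_num))
  refine addcK_s he h2 (v' := (247/250:ℝ)) (by norm_num [SS, BB, abs_le]) (fun _ _ _ _ _ h3 H2 => ?_) H1
  have h4 := In_cast h3 (add_comm _ _)
  have h5 := In_cast (w := (ka w u s)) h4 rfl
  refine smulK_s he (w := (3/200:ℝ)) (by norm_num) (by norm_num) (by norm_num) (by norm_num) hx3 (fun _ _ _ _ _ h6 H3 => ?_) H2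
  refine addcK_s he h6 (v' := (11/20:ℝ)) (by norm_num [SS, BB, abs_le]) (fun _ _ _ _ _ h7 H4 => ?_) H3
  have h8 := In_cast h7 (add_comm _ _)
  have h9 := In_cast (w := (nu w u s)) h8 rfl
  refine mulK_s he h9 hx3 (fun _ _ _ _ _ h10 H5 => ?_) H4
  refine addcK_s he hx3 (v' := (-31/50:ℝ)) (by norm_num [SS, BB, abs_le]) (fun _ _ _ _ _ h11 H6 => ?_) H5
  have h12 := In_cast h11 (sub_c (c := (31/50:ℝ)) (by norm_num))
  refine smulK_s he (w := (5001/10000:ℝ)) (by norm_num) (by norm_num) (by norm_num) (by norm_num) h12 (fun _ _ _ _ _ h13 H7 => ?_) H6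
  refine negK_s he h13 (fun _ _ _ _ _ h14 H8 => ?_) H7
  refine addcK_s he h14 (v' := (2299/10000:ℝ)) (by norm_num [SS, BB, abs_le]) (fun _ _ _ _ _ h15 H9 => ?_) H8
  have h16 := In_cast h15 (neg_add_eq_sub _ _)
  have h17 := In_cast (w := (q1 w u s)) h16 rfl
  refine smulK_s he (w := (5289/2000:ℝ)) (by norm_num) (by norm_num) (by norm_num) (by norm_num) h12 (fun _ _ _ _ _ h18 H10 => ?_) H9
  refine addcK_s he h18 (v' := (18741/10000:ℝ)) (by norm_num [SS, BB, abs_le]) (fun _ _ _ _ _ h19 H11 => ?_) H10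
  have h20 := In_cast h19 (add_comm _ _)
  have h21 := In_cast (w := (g1 w u s)) h20 rfl
  refine smulK_s he (w := (2/7:ℝ)) (by norm_num) (by norm_num) (by norm_num) (by norm_num) h21 (fun _ _ _ _ _ h22 H12 => ?_) H11
  have h23 := In_cast h22 (mul_comm _ _)
  refine negK_s he h23 (fun _ _ _ _ _ h24 H13 => ?_) H12
  refine addcK_s he h24 (v' := (2:ℝ)) (by norm_num [SS, BB, abs_le]) (fun _ _ _ _ _ h25 H14 => ?_) H13
  have h26 := In_cast h25 (neg_add_eq_sub _ _)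
  refine smulK_s he (w := (32327/2500:ℝ)) (by norm_num) (by norm_num) (by norm_num) (by norm_num) h12 (fun _ _ _ _ _ h27 H15 => ?_) H14
  refine addcK_s he h27 (v' := (25189/5000:ℝ)) (by norm_num [SS, BB, abs_le]) (fun _ _ _ _ _ h28 H16 => ?_) H15
  have h29 := In_cast h28 (add_comm _ _)
  have h30 := In_cast (w := (g2 w u s)) h29 rfl
  refine smulK_s he (w := (1/16:ℝ)) (by norm_num) (by norm_num) (by norm_num) (by norm_num) h30 (fun _ _ _ _ _ h31 H17 => ?_) H16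
  have h32 := In_cast h31 (div_c (c := (16:ℝ)) (by norm_num))
  refine subK_s he h26 h32 (fun _ _ _ _ _ h33 H18 => ?_) H17
  have h34 := In_cast (w := (q0 w u s)) h33 rfl
  refine smulK_s he (w := (58/125:ℝ)) (by norm_num) (by norm_num) (by norm_num) (by norm_num) h12 (fun _ _ _ _ _ h35 H19 => ?_) H18
  refine negK_s he h35 (fun _ _ _ _ _ h36 H20 => ?_) H19
  refine addcK_s he h36 (v' := (1423/10000:ℝ)) (by norm_num [SS, BB, abs_le]) (fun _ _ _ _ _ h37 H21 => ?_) H20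
  have h38 := In_cast h37 (neg_add_eq_sub _ _)
  have h39 := In_cast (w := (q2 w u s)) h38 rfl
  refine subK_s he h34 h39 (fun _ _ _ _ _ h40 H22 => ?_) H21
  refine smulK_s he (w := (2:ℝ)) (by norm_num) (by norm_num) (by norm_num) (by norm_num) h40 (fun _ _ _ _ _ h41 H23 => ?_) H22
  have h42 := In_cast (w := (y0 w u s)) hx1 rfl
  refine mulK_s he hx1 hx2 (fun _ _ _ _ _ h43 H24 => ?_) H23
  have h44 := In_cast (w := (y1 w u s)) h43 rfl
  refine addK_s he h42 h44 (fun _ _ _ _ _ h45 H25 => ?_) H24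
  refine smulK_s he (w := (1/2:ℝ)) (by norm_num) (by norm_num) (by norm_num) (by norm_num) h45 (fun _ _ _ _ _ h46 H26 => ?_) H25
  have h47 := In_cast h46 (div_c (c := (2:ℝ)) (by norm_num))
  have h48 := In_cast (w := (y w u s)) h47 rfl
  refine smulK_s he (w := (2:ℝ)) (by norm_num) (by norm_num) (by norm_num) (by norm_num) h48 (fun _ _ _ _ _ h49 H27 => ?_) H26
  refine negK_s he h49 (fun _ _ _ _ _ h50 H28 => ?_) H27
  refine addcK_s he h50 (v' := (1:ℝ)) (by norm_num [SS, BB, abs_le]) (fun _ _ _ _ _ h51 H29 => ?_) H28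
  have h52 := In_cast h51 (neg_add_eq_sub _ _)
  have h53 := In_cast (w := (m w u s)) h52 rfl
  refine mulK_s he h41 h53 (fun _ _ _ _ _ h54 H30 => ?_) H29
  refine subK_s he h17 h54 (fun _ _ _ _ _ h55 H31 => ?_) H30
  refine smulK_s he (w := (3:ℝ)) (by norm_num) (by norm_num) (by norm_num) (by norm_num) h53 (fun _ _ _ _ _ h56 H32 => ?_) H31
  refine mulK_s he h56 h53 (fun _ _ _ _ _ h57 H33 => ?_) H32
  refine negK_s he hx2 (fun _ _ _ _ _ h58 H34 => ?_) H33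
  refine addcK_s he h58 (v' := (1:ℝ)) (by norm_num [SS, BB, abs_le]) (fun _ _ _ _ _ h59 H35 => ?_) H34
  have h60 := In_cast h59 (neg_add_eq_sub _ _)
  refine mulK_s he hx1 h60 (fun _ _ _ _ _ h61 H36 => ?_) H35
  refine smulK_s he (w := (1/2:ℝ)) (by norm_num) (by norm_num) (by norm_num) (by norm_num) h61 (fun _ _ _ _ _ h62 H37 => ?_) H36
  have h63 := In_cast h62 (div_c (c := (2:ℝ)) (by norm_num))
  have h64 := In_cast (w := (h w u s)) h63 rfl
  refine smulK_s he (w := (2:ℝ)) (by norm_num) (by norm_num) (by norm_num) (by norm_num) h64 (fun _ _ _ _ _ h65 H38 => ?_) H37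
  refine sqK_s he h65 (fun _ _ _ _ _ h66 H39 => ?_) H38
  have h67 := In_cast h66 (sq _)
  refine addK_s he h57 h67 (fun _ _ _ _ _ h68 H40 => ?_) H39
  refine mulK_s he h17 h68 (fun _ _ _ _ _ h69 H41 => ?_) H40
  refine subK_s he h55 h69 (fun _ _ _ _ _ h70 H42 => ?_) H41
  refine smulK_s he (w := (4:ℝ)) (by norm_num) (by norm_num) (by norm_num) (by norm_num) h39 (fun _ _ _ _ _ h71 H43 => ?_) H42
  refine mulK_s he h71 h53 (fun _ _ _ _ _ h72 H44 => ?_) H43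
  refine sqK_s he h53 (fun _ _ _ _ _ h73 H45 => ?_) H44
  have h74 := In_cast h73 (sq _)
  refine addK_s he h74 h67 (fun _ _ _ _ _ h75 H46 => ?_) H45
  refine mulK_s he h72 h75 (fun _ _ _ _ _ h76 H47 => ?_) H46
  refine subK_s he h70 h76 (fun _ _ _ _ _ h77 H48 => ?_) H47
  refine smulK_s he (w := (1/2:ℝ)) (by norm_num) (by norm_num) (by norm_num) (by norm_num) h77 (fun _ _ _ _ _ h78 H49 => ?_) H48
  have h79 := In_cast h78 (div_c (c := (2:ℝ)) (by norm_num))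
  refine smulK_s he (w := (5:ℝ)) (by norm_num) (by norm_num) (by norm_num) (by norm_num) h42 (fun _ _ _ _ _ h80 H50 => ?_) H49
  refine addcK_s he h80 (v' := (1:ℝ)) (by norm_num [SS, BB, abs_le]) (fun _ _ _ _ _ h81 H51 => ?_) H50
  have h82 := In_cast h81 (add_comm _ _)
  refine invK_s he h82 (fun _ _ _ _ _ h83 H52 => ?_) H51
  have h84 := In_cast h83 (inv_eq_one_div _)
  have h85 := In_cast (w := (i0 w u s)) h84 rfl
  refine smulK_s he (w := (6/5:ℝ)) (by norm_num) (by norm_num) (by norm_num) (by norm_num) h85 (fun _ _ _ _ _ h86 H53 => ?_) H52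
  refine smulK_s he (w := (5:ℝ)) (by norm_num) (by norm_num) (by norm_num) (by norm_num) h44 (fun _ _ _ _ _ h87 H54 => ?_) H53
  refine addcK_s he h87 (v' := (1:ℝ)) (by norm_num [SS, BB, abs_le]) (fun _ _ _ _ _ h88 H55 => ?_) H54
  have h89 := In_cast h88 (add_comm _ _)
  refine invK_s he h89 (fun _ _ _ _ _ h90 H56 => ?_) H55
  have h91 := In_cast h90 (inv_eq_one_div _)
  have h92 := In_cast (w := (i1 w u s)) h91 rfl
  refine mulK_s he h86 h92 (fun _ _ _ _ _ h93 H57 => ?_) H56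
  refine negK_s he h93 (fun _ _ _ _ _ h94 H58 => ?_) H57
  refine addcK_s he h94 (v' := (1/5:ℝ)) (by norm_num [SS, BB, abs_le]) (fun _ _ _ _ _ h95 H59 => ?_) H58
  have h96 := In_cast h95 (neg_add_eq_sub _ _)
  refine mulK_s he h21 h96 (fun _ _ _ _ _ h97 H60 => ?_) H59
  refine addK_s he h79 h97 (fun _ _ _ _ _ h98 H61 => ?_) H60
  refine smulK_s he (w := (30:ℝ)) (by norm_num) (by norm_num) (by norm_num) (by norm_num) h42 (fun _ _ _ _ _ h99 H62 => ?_) H61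
  refine addcK_s he h99 (v' := (1:ℝ)) (by norm_num [SS, BB, abs_le]) (fun _ _ _ _ _ h100 H63 => ?_) H62
  have h101 := In_cast h100 (add_comm _ _)
  refine invK_s he h101 (fun _ _ _ _ _ h102 H64 => ?_) H63
  have h103 := In_cast h102 (inv_eq_one_div _)
  have h104 := In_cast (w := (j0 w u s)) h103 rfl
  refine smulK_s he (w := (31/30:ℝ)) (by norm_num) (by norm_num) (by norm_num) (by norm_num) h104 (fun _ _ _ _ _ h105 H65 => ?_) H64
  refine smulK_s he (w := (30:ℝ)) (by norm_num) (by norm_num) (by norm_num) (by norm_num) h44 (fun _ _ _ _ _ h106 H66 => ?_) H65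
  refine addcK_s he h106 (v' := (1:ℝ)) (by norm_num [SS, BB, abs_le]) (fun _ _ _ _ _ h107 H67 => ?_) H66
  have h108 := In_cast h107 (add_comm _ _)
  refine invK_s he h108 (fun _ _ _ _ _ h109 H68 => ?_) H67
  have h110 := In_cast h109 (inv_eq_one_div _)
  have h111 := In_cast (w := (j1 w u s)) h110 rfl
  refine mulK_s he h105 h111 (fun _ _ _ _ _ h112 H69 => ?_) H68
  refine negK_s he h112 (fun _ _ _ _ _ h113 H70 => ?_) H69
  refine addcK_s he h113 (v' := (1/30:ℝ)) (by norm_num [SS, BB, abs_le]) (fun _ _ _ _ _ h114 H71 => ?_) H70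
  have h115 := In_cast h114 (neg_add_eq_sub _ _)
  refine mulK_s he h30 h115 (fun _ _ _ _ _ h116 H72 => ?_) H71
  refine addK_s he h98 h116 (fun _ _ _ _ _ h117 H73 => ?_) H72
  have h118 := In_cast (w := (D1 w u s)) h117 rfl
  refine mulK_s he h10 h118 (fun _ _ _ _ _ h119 H74 => ?_) H73
  refine subK_s he h5 h119 (fun _ _ _ _ _ h120 H75 => ?_) H74
  have h121 := In_cast (w := (M w u s)) h120 rfl
  refine posK_s he h121 (fun p0 H76 => ?_) H75
  refine sqK_s he h121 (fun _ _ _ _ _ h122 H77 => ?_) H76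
  have h123 := In_cast h122 (sq _)
  refine smulK_s he (w := (3:ℝ)) (by norm_num) (by norm_num) (by norm_num) (by norm_num) h17 (fun _ _ _ _ _ h124 H78 => ?_) H77
  refine mulK_s he h124 h53 (fun _ _ _ _ _ h125 H79 => ?_) H78
  refine addK_s he h40 h125 (fun _ _ _ _ _ h126 H80 => ?_) H79
  refine smulK_s he (w := (6:ℝ)) (by norm_num) (by norm_num) (by norm_num) (by norm_num) h53 (fun _ _ _ _ _ h127 H81 => ?_) H80
  refine mulK_s he h127 h53 (fun _ _ _ _ _ h128 H82 => ?_) H81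
  refine addK_s he h128 h67 (fun _ _ _ _ _ h129 H83 => ?_) H82
  refine mulK_s he h39 h129 (fun _ _ _ _ _ h130 H84 => ?_) H83
  refine addK_s he h126 h130 (fun _ _ _ _ _ h131 H85 => ?_) H84
  refine smulK_s he (w := (1/2:ℝ)) (by norm_num) (by norm_num) (by norm_num) (by norm_num) h131 (fun _ _ _ _ _ h132 H86 => ?_) H85
  have h133 := In_cast h132 (div_c (c := (2:ℝ)) (by norm_num))
  refine smulK_s he (w := (5:ℝ)) (by norm_num) (by norm_num) (by norm_num) (by norm_num) h48 (fun _ _ _ _ _ h134 H87 => ?_) H86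
  refine addcK_s he h134 (v' := (1:ℝ)) (by norm_num [SS, BB, abs_le]) (fun _ _ _ _ _ h135 H88 => ?_) H87
  have h136 := In_cast h135 (add_comm _ _)
  refine invK_s he h136 (fun _ _ _ _ _ h137 H89 => ?_) H88
  refine smulK_s he (w := (3:ℝ)) (by norm_num) (by norm_num) (by norm_num) (by norm_num) h21 (fun _ _ _ _ _ h138 H90 => ?_) H89
  refine mulK_s he h138 h85 (fun _ _ _ _ _ h139 H91 => ?_) H90
  refine mulK_s he h139 h92 (fun _ _ _ _ _ h140 H92 => ?_) H91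
  refine mulK_s he h140 h137 (fun _ _ _ _ _ h141 H93 => ?_) H92
  have h142 := In_cast h141 ((div_eq_mul_inv _ _).symm)
  refine addK_s he h133 h142 (fun _ _ _ _ _ h143 H94 => ?_) H93
  refine smulK_s he (w := (30:ℝ)) (by norm_num) (by norm_num) (by norm_num) (by norm_num) h48 (fun _ _ _ _ _ h144 H95 => ?_) H94
  refine addcK_s he h144 (v' := (1:ℝ)) (by norm_num [SS, BB, abs_le]) (fun _ _ _ _ _ h145 H96 => ?_) H95
  have h146 := In_cast h145 (add_comm _ _)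
  refine invK_s he h146 (fun _ _ _ _ _ h147 H97 => ?_) H96
  refine smulK_s he (w := (31/2:ℝ)) (by norm_num) (by norm_num) (by norm_num) (by norm_num) h30 (fun _ _ _ _ _ h148 H98 => ?_) H97
  refine mulK_s he h148 h104 (fun _ _ _ _ _ h149 H99 => ?_) H98
  refine mulK_s he h149 h111 (fun _ _ _ _ _ h150 H100 => ?_) H99
  refine mulK_s he h150 h147 (fun _ _ _ _ _ h151 H101 => ?_) H100
  have h152 := In_cast h151 ((div_eq_mul_inv _ _).symm)
  refine addK_s he h143 h152 (fun _ _ _ _ _ h153 H102 => ?_) H101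
  have h154 := In_cast (w := (D2 w u s)) h153 rfl
  refine mulK_s he h67 h154 (fun _ _ _ _ _ h155 H103 => ?_) H102
  refine smulK_s he (w := (57/200:ℝ)) (by norm_num) (by norm_num) (by norm_num) (by norm_num) hx3 (fun _ _ _ _ _ h156 H104 => ?_) H103
  refine addcK_s he h156 (v' := (49/500:ℝ)) (by norm_num [SS, BB, abs_le]) (fun _ _ _ _ _ h157 H105 => ?_) H104
  have h158 := In_cast h157 (add_comm _ _)
  refine mulK_s he hx3 h158 (fun _ _ _ _ _ h159 H106 => ?_) H105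
  refine addcK_s he h159 (v' := (47/500:ℝ)) (by norm_num [SS, BB, abs_le]) (fun _ _ _ _ _ h160 H107 => ?_) H106
  have h161 := In_cast h160 (add_comm _ _)
  have h162 := In_cast (w := (n0 w u s)) h161 rfl
  refine negK_s he h42 (fun _ _ _ _ _ h163 H108 => ?_) H107
  refine addcK_s he h163 (v' := (1:ℝ)) (by norm_num [SS, BB, abs_le]) (fun _ _ _ _ _ h164 H109 => ?_) H108
  have h165 := In_cast h164 (neg_add_eq_sub _ _)
  refine mulK_s he h42 h165 (fun _ _ _ _ _ h166 H110 => ?_) H109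
  refine smulK_s he (w := (2:ℝ)) (by norm_num) (by norm_num) (by norm_num) (by norm_num) h42 (fun _ _ _ _ _ h167 H111 => ?_) H110
  refine negK_s he h167 (fun _ _ _ _ _ h168 H112 => ?_) H111
  refine addcK_s he h168 (v' := (1:ℝ)) (by norm_num [SS, BB, abs_le]) (fun _ _ _ _ _ h169 H113 => ?_) H112
  have h170 := In_cast h169 (neg_add_eq_sub _ _)
  refine mulK_s he h39 h170 (fun _ _ _ _ _ h171 H114 => ?_) H113
  refine addK_s he h17 h171 (fun _ _ _ _ _ h172 H115 => ?_) H114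
  refine mulK_s he h170 h172 (fun _ _ _ _ _ h173 H116 => ?_) H115
  refine addK_s he h34 h173 (fun _ _ _ _ _ h174 H117 => ?_) H116
  refine mulK_s he h21 h85 (fun _ _ _ _ _ h175 H118 => ?_) H117
  refine addK_s he h174 h175 (fun _ _ _ _ _ h176 H119 => ?_) H118
  refine mulK_s he h30 h104 (fun _ _ _ _ _ h177 H120 => ?_) H119
  refine addK_s he h176 h177 (fun _ _ _ _ _ h178 H121 => ?_) H120
  refine mulK_s he h166 h178 (fun _ _ _ _ _ h179 H122 => ?_) H121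
  have h180 := In_cast (w := (b0 w u s)) h179 rfl
  refine mulK_s he h162 h180 (fun _ _ _ _ _ h181 H123 => ?_) H122
  refine smulK_s he (w := (27/50:ℝ)) (by norm_num) (by norm_num) (by norm_num) (by norm_num) hx3 (fun _ _ _ _ _ h182 H124 => ?_) H123
  refine negK_s he h182 (fun _ _ _ _ _ h183 H125 => ?_) H124
  refine addcK_s he h183 (v' := (49/50:ℝ)) (by norm_num [SS, BB, abs_le]) (fun _ _ _ _ _ h184 H126 => ?_) H125
  have h185 := In_cast h184 (neg_add_eq_sub _ _)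
  have h186 := In_cast (w := (n1 w u s)) h185 rfl
  refine negK_s he h44 (fun _ _ _ _ _ h187 H127 => ?_) H126
  refine addcK_s he h187 (v' := (1:ℝ)) (by norm_num [SS, BB, abs_le]) (fun _ _ _ _ _ h188 H128 => ?_) H127
  have h189 := In_cast h188 (neg_add_eq_sub _ _)
  refine mulK_s he h44 h189 (fun _ _ _ _ _ h190 H129 => ?_) H128
  refine smulK_s he (w := (2:ℝ)) (by norm_num) (by norm_num) (by norm_num) (by norm_num) h44 (fun _ _ _ _ _ h191 H130 => ?_) H129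
  refine negK_s he h191 (fun _ _ _ _ _ h192 H131 => ?_) H130
  refine addcK_s he h192 (v' := (1:ℝ)) (by norm_num [SS, BB, abs_le]) (fun _ _ _ _ _ h193 H132 => ?_) H131
  have h194 := In_cast h193 (neg_add_eq_sub _ _)
  refine mulK_s he h39 h194 (fun _ _ _ _ _ h195 H133 => ?_) H132
  refine addK_s he h17 h195 (fun _ _ _ _ _ h196 H134 => ?_) H133
  refine mulK_s he h194 h196 (fun _ _ _ _ _ h197 H135 => ?_) H134
  refine addK_s he h34 h197 (fun _ _ _ _ _ h198 H136 => ?_) H135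
  refine mulK_s he h21 h92 (fun _ _ _ _ _ h199 H137 => ?_) H136
  refine addK_s he h198 h199 (fun _ _ _ _ _ h200 H138 => ?_) H137
  refine mulK_s he h30 h111 (fun _ _ _ _ _ h201 H139 => ?_) H138
  refine addK_s he h200 h201 (fun _ _ _ _ _ h202 H140 => ?_) H139
  refine mulK_s he h190 h202 (fun _ _ _ _ _ h203 H141 => ?_) H140
  have h204 := In_cast (w := (b1 w u s)) h203 rfl
  refine mulK_s he h186 h204 (fun _ _ _ _ _ h205 H142 => ?_) H141
  refine addK_s he h181 h205 (fun _ _ _ _ _ h206 H143 => ?_) H142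
  refine smulK_s he (w := (2:ℝ)) (by norm_num) (by norm_num) (by norm_num) (by norm_num) h206 (fun _ _ _ _ _ h207 H144 => ?_) H143
  refine addK_s he h155 h207 (fun _ _ _ _ _ h208 H145 => ?_) H144
  refine mulK_s he h154 h208 (fun _ _ _ _ _ h209 H146 => ?_) H145
  refine subK_s he h123 h209 (fun _ _ _ _ _ h210 H147 => ?_) H146
  exact ⟨p0, pos_s he h210 H147⟩

attribute [irreducible] alt0

noncomputable def leaf (j u z1 w1 z2 w2 z3 w3 : ℕ) : Bool :=
  alt0 z1 w1 z2 w2 z3 w3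

theorem snd : Snd Q leaf := by
  intro j u z1 w1 z2 w2 z3 w3 e1 e2 e3 he H
  unfold leaf at H
  unfold Q
  exact alt0_s he (var1 z1 w1) (var2 z2 w2) (var3 z3 w3) H

end Crest.Agent.R307.OBr
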