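import Crest.Agent.R307.IA3
import Crest.Agent.R307.IAx
set_option autoImplicit false
set_option linter.unusedVariables false
set_option maxRecDepth 20000
namespace Crest.Agent.R307.OCa
open Crest.Agent.R307.IA Crest.Agent.R307.IA3

theorem In_cast {e1 e2 e3 : ℝ} {x y1 y2 y3 r : ℕ} {v w : ℝ}
    (h : In e1 e2 e3 x y1 y2 y3 r v) (e : v = w) : In e1 e2 e3 x y1 y2 y3 r w := e ▸ h

noncomputable def R (l u p : ℝ) : ℝ := (((2:ℝ) * l) / ((1:ℝ) + (l * l)))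
noncomputable def t1 (l u p : ℝ) : ℝ := (√((1:ℝ) - (((R l u p) * u) ^ 2)))
noncomputable def al (l u p : ℝ) : ℝ := (((1:ℝ) + p) / (2:ℝ))
noncomputable def be (l u p : ℝ) : ℝ := (((1:ℝ) - p) / (2:ℝ))
noncomputable def hx (l u p : ℝ) : ℝ := (√(((al l u p) * (u * u)) + (be l u p)))
noncomputable def hy (l u p : ℝ) : ℝ := (√((al l u p) + ((be l u p) * (u * u))))
noncomputable def tx (l u p : ℝ) : ℝ := (√((1:ℝ) - (((R l u p) * (hx l u p)) ^ 2)))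
noncomputable def t0 (l u p : ℝ) : ℝ := (((1:ℝ) - (l * l)) / ((1:ℝ) + (l * l)))
noncomputable def ty (l u p : ℝ) : ℝ := (√(((al l u p) * ((t0 l u p) * (t0 l u p))) + ((be l u p) * ((1:ℝ) - (((R l u p) * u) ^ 2)))))
noncomputable def G (l u p : ℝ) : ℝ := (((((t1 l u p) + (99/100:ℝ)) * (((1:ℝ) / ((u + (hx l u p)) * ((hx l u p) + (1:ℝ)))) + ((1:ℝ) / ((u + (hy l u p)) * ((hy l u p) + (1:ℝ)))))) / (u + (1:ℝ))) + (((R l u p) ^ 2) * ((((1:ℝ) / (((t1 l u p) + (tx l u p)) * ((hx l u p) + (1:ℝ)))) + ((1:ℝ) / (((t1 l u p) + (ty l u p)) * ((hy l u p) + (1:ℝ))))) + ((((R l u p) * ((R l u p) - (99/100:ℝ))) * (((1:ℝ) / (((t1 l u p) + (tx l u p)) * ((tx l u p) + (t0 l u p)))) + ((1:ℝ) / (((t1 l u p) + (ty l u p)) * ((ty l u p) + (t0 l u p)))))) / ((t1 l u p) + (t0 l u p))))))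
noncomputable def s (l u p : ℝ) : ℝ := (√((1:ℝ) - (p * p)))
noncomputable def n0 (l u p : ℝ) : ℝ := ((47/500:ℝ) + ((s l u p) * ((49/500:ℝ) + ((57/200:ℝ) * (s l u p)))))
noncomputable def u0 (l u p : ℝ) : ℝ := ((t0 l u p) + ((99/100:ℝ) * (((1:ℝ) - (R l u p)) - (((t0 l u p) * (R l u p)) / ((1:ℝ) + (t0 l u p))))))
noncomputable def n1 (l u p : ℝ) : ℝ := ((49/50:ℝ) - ((27/50:ℝ) * (s l u p)))
noncomputable def u1 (l u p : ℝ) : ℝ := ((t1 l u p) + ((99/100:ℝ) * (((1:ℝ) - ((R l u p) * u)) - (((t1 l u p) * ((R l u p) * u)) / ((1:ℝ) + (t1 l u p))))))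
noncomputable def ka (l u p : ℝ) : ℝ := ((247/250:ℝ) + ((s l u p) / (125:ℝ)))
noncomputable def nu (l u p : ℝ) : ℝ := ((11/20:ℝ) + ((3/200:ℝ) * (s l u p)))
noncomputable def m (l u p : ℝ) : ℝ := (((R l u p) * ((ka l u p) - ((nu l u p) * ((((R l u p) - (99/100:ℝ)) / ((t1 l u p) + (t0 l u p))) + (99/50:ℝ))))) + (((nu l u p) * ((t1 l u p) + (99/100:ℝ))) / (u + (1:ℝ))))

def Q (l u p : ℝ) : Prop :=
  (
  (0 < (((G l u p) * (((((al l u p) * (be l u p)) * (((1:ℝ) - (u * u)) ^ 2)) * (G l u p)) + ((2:ℝ) * (((n0 l u p) * (u0 l u p)) + (((n1 l u p) * u) * (u1 l u p)))))) - (((4:ℝ) * (m l u p)) * (m l u p)))) ∨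
  (0 < (-(m l u p))) ∨
  (0 < ((64:ℝ) * ((((R l u p) * u) ^ 2) - (7/16:ℝ)))))

noncomputable def alt0 (z1 w1 z2 w2 z3 w3 : ℕ) : Bool :=
  addcK z2 1152921504606846976 (Nat.add w2 1152921504606846976) 1152921504606846976 0 1152922604118474752 0 fun c1 a1_1 a1_2 a1_3 q1 =>
  invK c1 a1_1 a1_2 a1_3 q1 fun c2 a2_1 a2_2 a2_3 q2 =>
  sqK z1 (Nat.add w1 1152921504606846976) 1152921504606846976 1152921504606846976 0 fun c3 a3_1 a3_2 a3_3 q3 =>
  addcK c3 a3_1 a3_2 a3_3 q3 1152922604118474752 0 fun c5 a5_1 a5_2 a5_3 q5 =>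
  invK c5 a5_1 a5_2 a5_3 q5 fun c7 a7_1 a7_2 a7_3 q7 =>
  smulK 2 1 1152921504606846977 2305843009213693952 z1 (Nat.add w1 1152921504606846976) 1152921504606846976 1152921504606846976 0 fun c8 a8_1 a8_2 a8_3 q8 =>
  mulK c8 a8_1 a8_2 a8_3 q8 c7 a7_1 a7_2 a7_3 q7 fun c9 a9_1 a9_2 a9_3 q9 =>
  mulK c9 a9_1 a9_2 a9_3 q9 z2 1152921504606846976 (Nat.add w2 1152921504606846976) 1152921504606846976 0 fun c12 a12_1 a12_2 a12_3 q12 =>
  sqK c12 a12_1 a12_2 a12_3 q12 fun c13 a13_1 a13_2 a13_3 q13 =>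
  negK c13 a13_1 a13_2 a13_3 q13 fun c14 a14_1 a14_2 a14_3 q14 =>
  addcK c14 a14_1 a14_2 a14_3 q14 1152922604118474752 0 fun c15 a15_1 a15_2 a15_3 q15 =>
  sqrtK c15 a15_1 a15_2 a15_3 q15 fun c17 a17_1 a17_2 a17_3 q17 =>
  addcK c17 a17_1 a17_2 a17_3 q17 1152922593123358474 1 fun c19 a19_1 a19_2 a19_3 q19 =>
  addcK z3 1152921504606846976 1152921504606846976 (Nat.add w3 1152921504606846976) 0 1152922604118474752 0 fun c20 a20_1 a20_2 a20_3 q20 =>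
  smulK 1 2 2305843009213693954 1152921504606846976 c20 a20_1 a20_2 a20_3 q20 fun c22 a22_1 a22_2 a22_3 q22 =>
  sqK z2 1152921504606846976 (Nat.add w2 1152921504606846976) 1152921504606846976 0 fun c25 a25_1 a25_2 a25_3 q25 =>
  mulK c22 a22_1 a22_2 a22_3 q22 c25 a25_1 a25_2 a25_3 q25 fun c27 a27_1 a27_2 a27_3 q27 =>
  negK z3 1152921504606846976 1152921504606846976 (Nat.add w3 1152921504606846976) 0 fun c28 a28_1 a28_2 a28_3 q28 =>
  addcK c28 a28_1 a28_2 a28_3 q28 1152922604118474752 0 fun c29 a29_1 a29_2 a29_3 q29 =>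
  smulK 1 2 2305843009213693954 1152921504606846976 c29 a29_1 a29_2 a29_3 q29 fun c31 a31_1 a31_2 a31_3 q31 =>
  addK c27 a27_1 a27_2 a27_3 q27 c31 a31_1 a31_2 a31_3 q31 fun c34 a34_1 a34_2 a34_3 q34 =>
  sqrtK c34 a34_1 a34_2 a34_3 q34 fun c35 a35_1 a35_2 a35_3 q35 =>
  addK z2 1152921504606846976 (Nat.add w2 1152921504606846976) 1152921504606846976 0 c35 a35_1 a35_2 a35_3 q35 fun c37 a37_1 a37_2 a37_3 q37 =>
  addcK c35 a35_1 a35_2 a35_3 q35 1152922604118474752 0 fun c38 a38_1 a38_2 a38_3 q38 =>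
  mulK c37 a37_1 a37_2 a37_3 q37 c38 a38_1 a38_2 a38_3 q38 fun c39 a39_1 a39_2 a39_3 q39 =>
  invK c39 a39_1 a39_2 a39_3 q39 fun c40 a40_1 a40_2 a40_3 q40 =>
  mulK c31 a31_1 a31_2 a31_3 q31 c25 a25_1 a25_2 a25_3 q25 fun c42 a42_1 a42_2 a42_3 q42 =>
  addK c22 a22_1 a22_2 a22_3 q22 c42 a42_1 a42_2 a42_3 q42 fun c43 a43_1 a43_2 a43_3 q43 =>
  sqrtK c43 a43_1 a43_2 a43_3 q43 fun c44 a44_1 a44_2 a44_3 q44 =>
  addK z2 1152921504606846976 (Nat.add w2 1152921504606846976) 1152921504606846976 0 c44 a44_1 a44_2 a44_3 q44 fun c46 a46_1 a46_2 a46_3 q46 =>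
  addcK c44 a44_1 a44_2 a44_3 q44 1152922604118474752 0 fun c47 a47_1 a47_2 a47_3 q47 =>
  mulK c46 a46_1 a46_2 a46_3 q46 c47 a47_1 a47_2 a47_3 q47 fun c48 a48_1 a48_2 a48_3 q48 =>
  invK c48 a48_1 a48_2 a48_3 q48 fun c49 a49_1 a49_2 a49_3 q49 =>
  addK c40 a40_1 a40_2 a40_3 q40 c49 a49_1 a49_2 a49_3 q49 fun c51 a51_1 a51_2 a51_3 q51 =>
  mulK c19 a19_1 a19_2 a19_3 q19 c51 a51_1 a51_2 a51_3 q51 fun c52 a52_1 a52_2 a52_3 q52 =>
  mulK c52 a52_1 a52_2 a52_3 q52 c2 a2_1 a2_2 a2_3 q2 fun c53 a53_1 a53_2 a53_3 q53 =>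
  sqK c9 a9_1 a9_2 a9_3 q9 fun c55 a55_1 a55_2 a55_3 q55 =>
  mulK c9 a9_1 a9_2 a9_3 q9 c35 a35_1 a35_2 a35_3 q35 fun c56 a56_1 a56_2 a56_3 q56 =>
  sqK c56 a56_1 a56_2 a56_3 q56 fun c57 a57_1 a57_2 a57_3 q57 =>
  negK c57 a57_1 a57_2 a57_3 q57 fun c58 a58_1 a58_2 a58_3 q58 =>
  addcK c58 a58_1 a58_2 a58_3 q58 1152922604118474752 0 fun c59 a59_1 a59_2 a59_3 q59 =>
  sqrtK c59 a59_1 a59_2 a59_3 q59 fun c61 a61_1 a61_2 a61_3 q61 =>
  addK c17 a17_1 a17_2 a17_3 q17 c61 a61_1 a61_2 a61_3 q61 fun c63 a63_1 a63_2 a63_3 q63 =>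
  mulK c63 a63_1 a63_2 a63_3 q63 c38 a38_1 a38_2 a38_3 q38 fun c64 a64_1 a64_2 a64_3 q64 =>
  invK c64 a64_1 a64_2 a64_3 q64 fun c65 a65_1 a65_2 a65_3 q65 =>
  negK c3 a3_1 a3_2 a3_3 q3 fun c67 a67_1 a67_2 a67_3 q67 =>
  addcK c67 a67_1 a67_2 a67_3 q67 1152922604118474752 0 fun c68 a68_1 a68_2 a68_3 q68 =>
  mulK c68 a68_1 a68_2 a68_3 q68 c7 a7_1 a7_2 a7_3 q7 fun c70 a70_1 a70_2 a70_3 q70 =>
  sqK c70 a70_1 a70_2 a70_3 q70 fun c73 a73_1 a73_2 a73_3 q73 =>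
  mulK c22 a22_1 a22_2 a22_3 q22 c73 a73_1 a73_2 a73_3 q73 fun c75 a75_1 a75_2 a75_3 q75 =>
  mulK c31 a31_1 a31_2 a31_3 q31 c15 a15_1 a15_2 a15_3 q15 fun c76 a76_1 a76_2 a76_3 q76 =>
  addK c75 a75_1 a75_2 a75_3 q75 c76 a76_1 a76_2 a76_3 q76 fun c77 a77_1 a77_2 a77_3 q77 =>
  sqrtK c77 a77_1 a77_2 a77_3 q77 fun c78 a78_1 a78_2 a78_3 q78 =>
  addK c17 a17_1 a17_2 a17_3 q17 c78 a78_1 a78_2 a78_3 q78 fun c80 a80_1 a80_2 a80_3 q80 =>
  mulK c80 a80_1 a80_2 a80_3 q80 c47 a47_1 a47_2 a47_3 q47 fun c81 a81_1 a81_2 a81_3 q81 =>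
  invK c81 a81_1 a81_2 a81_3 q81 fun c82 a82_1 a82_2 a82_3 q82 =>
  addK c65 a65_1 a65_2 a65_3 q65 c82 a82_1 a82_2 a82_3 q82 fun c84 a84_1 a84_2 a84_3 q84 =>
  addK c17 a17_1 a17_2 a17_3 q17 c70 a70_1 a70_2 a70_3 q70 fun c85 a85_1 a85_2 a85_3 q85 =>
  invK c85 a85_1 a85_2 a85_3 q85 fun c86 a86_1 a86_2 a86_3 q86 =>
  addcK c9 a9_1 a9_2 a9_3 q9 1152920416090335478 1 fun c87 a87_1 a87_2 a87_3 q87 =>
  mulK c9 a9_1 a9_2 a9_3 q9 c87 a87_1 a87_2 a87_3 q87 fun c89 a89_1 a89_2 a89_3 q89 =>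
  addK c61 a61_1 a61_2 a61_3 q61 c70 a70_1 a70_2 a70_3 q70 fun c90 a90_1 a90_2 a90_3 q90 =>
  mulK c63 a63_1 a63_2 a63_3 q63 c90 a90_1 a90_2 a90_3 q90 fun c91 a91_1 a91_2 a91_3 q91 =>
  invK c91 a91_1 a91_2 a91_3 q91 fun c92 a92_1 a92_2 a92_3 q92 =>
  addK c78 a78_1 a78_2 a78_3 q78 c70 a70_1 a70_2 a70_3 q70 fun c94 a94_1 a94_2 a94_3 q94 =>
  mulK c80 a80_1 a80_2 a80_3 q80 c94 a94_1 a94_2 a94_3 q94 fun c95 a95_1 a95_2 a95_3 q95 =>
  invK c95 a95_1 a95_2 a95_3 q95 fun c96 a96_1 a96_2 a96_3 q96 =>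
  addK c92 a92_1 a92_2 a92_3 q92 c96 a96_1 a96_2 a96_3 q96 fun c98 a98_1 a98_2 a98_3 q98 =>
  mulK c89 a89_1 a89_2 a89_3 q89 c98 a98_1 a98_2 a98_3 q98 fun c99 a99_1 a99_2 a99_3 q99 =>
  mulK c99 a99_1 a99_2 a99_3 q99 c86 a86_1 a86_2 a86_3 q86 fun c100 a100_1 a100_2 a100_3 q100 =>
  addK c84 a84_1 a84_2 a84_3 q84 c100 a100_1 a100_2 a100_3 q100 fun c102 a102_1 a102_2 a102_3 q102 =>
  mulK c55 a55_1 a55_2 a55_3 q55 c102 a102_1 a102_2 a102_3 q102 fun c103 a103_1 a103_2 a103_3 q103 =>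
  addK c53 a53_1 a53_2 a53_3 q53 c103 a103_1 a103_2 a103_3 q103 fun c104 a104_1 a104_2 a104_3 q104 =>
  mulK c22 a22_1 a22_2 a22_3 q22 c31 a31_1 a31_2 a31_3 q31 fun c106 a106_1 a106_2 a106_3 q106 =>
  negK c25 a25_1 a25_2 a25_3 q25 fun c107 a107_1 a107_2 a107_3 q107 =>
  addcK c107 a107_1 a107_2 a107_3 q107 1152922604118474752 0 fun c108 a108_1 a108_2 a108_3 q108 =>
  sqK c108 a108_1 a108_2 a108_3 q108 fun c110 a110_1 a110_2 a110_3 q110 =>
  mulK c106 a106_1 a106_2 a106_3 q106 c110 a110_1 a110_2 a110_3 q110 fun c111 a111_1 a111_2 a111_3 q111 =>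
  mulK c111 a111_1 a111_2 a111_3 q111 c104 a104_1 a104_2 a104_3 q104 fun c112 a112_1 a112_2 a112_3 q112 =>
  sqK z3 1152921504606846976 1152921504606846976 (Nat.add w3 1152921504606846976) 0 fun c113 a113_1 a113_2 a113_3 q113 =>
  negK c113 a113_1 a113_2 a113_3 q113 fun c115 a115_1 a115_2 a115_3 q115 =>
  addcK c115 a115_1 a115_2 a115_3 q115 1152922604118474752 0 fun c116 a116_1 a116_2 a116_3 q116 =>
  sqrtK c116 a116_1 a116_2 a116_3 q116 fun c118 a118_1 a118_2 a118_3 q118 =>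
  smulK 57 200 230584300921369395400 65716525762590277632 c118 a118_1 a118_2 a118_3 q118 fun c120 a120_1 a120_2 a120_3 q120 =>
  addcK c120 a120_1 a120_2 a120_3 q120 1152921612358986498 1 fun c121 a121_1 a121_2 a121_3 q121 =>
  mulK c118 a118_1 a118_2 a118_3 q118 c121 a121_1 a121_2 a121_3 q121 fun c123 a123_1 a123_2 a123_3 q123 =>
  addcK c123 a123_1 a123_2 a123_3 q123 1152921607960939987 1 fun c124 a124_1 a124_2 a124_3 q124 =>
  negK c9 a9_1 a9_2 a9_3 q9 fun c127 a127_1 a127_2 a127_3 q127 =>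
  addcK c127 a127_1 a127_2 a127_3 q127 1152922604118474752 0 fun c128 a128_1 a128_2 a128_3 q128 =>
  addcK c70 a70_1 a70_2 a70_3 q70 1152922604118474752 0 fun c130 a130_1 a130_2 a130_3 q130 =>
  invK c130 a130_1 a130_2 a130_3 q130 fun c132 a132_1 a132_2 a132_3 q132 =>
  mulK c70 a70_1 a70_2 a70_3 q70 c9 a9_1 a9_2 a9_3 q9 fun c133 a133_1 a133_2 a133_3 q133 =>
  mulK c133 a133_1 a133_2 a133_3 q133 c132 a132_1 a132_2 a132_3 q132 fun c134 a134_1 a134_2 a134_3 q134 =>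
  subK c128 a128_1 a128_2 a128_3 q128 c134 a134_1 a134_2 a134_3 q134 fun c136 a136_1 a136_2 a136_3 q136 =>
  smulK 99 100 115292150460684697700 114139228956077850624 c136 a136_1 a136_2 a136_3 q136 fun c137 a137_1 a137_2 a137_3 q137 =>
  addK c70 a70_1 a70_2 a70_3 q70 c137 a137_1 a137_2 a137_3 q137 fun c138 a138_1 a138_2 a138_3 q138 =>
  mulK c124 a124_1 a124_2 a124_3 q124 c138 a138_1 a138_2 a138_3 q138 fun c140 a140_1 a140_2 a140_3 q140 =>
  smulK 27 50 57646075230342348850 31128880624384868352 c118 a118_1 a118_2 a118_3 q118 fun c141 a141_1 a141_2 a141_3 q141 =>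
  negK c141 a141_1 a141_2 a141_3 q141 fun c142 a142_1 a142_2 a142_3 q142 =>
  addcK c142 a142_1 a142_2 a142_3 q142 1152922582128242196 1 fun c143 a143_1 a143_2 a143_3 q143 =>
  mulK c143 a143_1 a143_2 a143_3 q143 z2 1152921504606846976 (Nat.add w2 1152921504606846976) 1152921504606846976 0 fun c146 a146_1 a146_2 a146_3 q146 =>
  negK c12 a12_1 a12_2 a12_3 q12 fun c147 a147_1 a147_2 a147_3 q147 =>
  addcK c147 a147_1 a147_2 a147_3 q147 1152922604118474752 0 fun c148 a148_1 a148_2 a148_3 q148 =>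
  addcK c17 a17_1 a17_2 a17_3 q17 1152922604118474752 0 fun c150 a150_1 a150_2 a150_3 q150 =>
  invK c150 a150_1 a150_2 a150_3 q150 fun c152 a152_1 a152_2 a152_3 q152 =>
  mulK c17 a17_1 a17_2 a17_3 q17 c12 a12_1 a12_2 a12_3 q12 fun c153 a153_1 a153_2 a153_3 q153 =>
  mulK c153 a153_1 a153_2 a153_3 q153 c152 a152_1 a152_2 a152_3 q152 fun c154 a154_1 a154_2 a154_3 q154 =>
  subK c148 a148_1 a148_2 a148_3 q148 c154 a154_1 a154_2 a154_3 q154 fun c156 a156_1 a156_2 a156_3 q156 =>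
  smulK 99 100 115292150460684697700 114139228956077850624 c156 a156_1 a156_2 a156_3 q156 fun c157 a157_1 a157_2 a157_3 q157 =>
  addK c17 a17_1 a17_2 a17_3 q17 c157 a157_1 a157_2 a157_3 q157 fun c158 a158_1 a158_2 a158_3 q158 =>
  mulK c146 a146_1 a146_2 a146_3 q146 c158 a158_1 a158_2 a158_3 q158 fun c160 a160_1 a160_2 a160_3 q160 =>
  addK c140 a140_1 a140_2 a140_3 q140 c160 a160_1 a160_2 a160_3 q160 fun c161 a161_1 a161_2 a161_3 q161 =>
  smulK 2 1 1152921504606846977 2305843009213693952 c161 a161_1 a161_2 a161_3 q161 fun c162 a162_1 a162_2 a162_3 q162 =>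
  addK c112 a112_1 a112_2 a112_3 q112 c162 a162_1 a162_2 a162_3 q162 fun c163 a163_1 a163_2 a163_3 q163 =>
  mulK c104 a104_1 a104_2 a104_3 q104 c163 a163_1 a163_2 a163_3 q163 fun c164 a164_1 a164_2 a164_3 q164 =>
  smulK 1 125 144115188075855872125 1152921504606846976 c118 a118_1 a118_2 a118_3 q118 fun c165 a165_1 a165_2 a165_3 q165 =>
  addcK c165 a165_1 a165_2 a165_3 q165 1152922590924335219 1 fun c167 a167_1 a167_2 a167_3 q167 =>
  smulK 3 200 230584300921369395400 3458764513820540928 c118 a118_1 a118_2 a118_3 q118 fun c170 a170_1 a170_2 a170_3 q170 =>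
  addcK c170 a170_1 a170_2 a170_3 q170 1152922109338242253 1 fun c171 a171_1 a171_2 a171_3 q171 =>
  mulK c87 a87_1 a87_2 a87_3 q87 c86 a86_1 a86_2 a86_3 q86 fun c174 a174_1 a174_2 a174_3 q174 =>
  addcK c174 a174_1 a174_2 a174_3 q174 1152923681639869972 1 fun c176 a176_1 a176_2 a176_3 q176 =>
  mulK c171 a171_1 a171_2 a171_3 q171 c176 a176_1 a176_2 a176_3 q176 fun c177 a177_1 a177_2 a177_3 q177 =>
  subK c167 a167_1 a167_2 a167_3 q167 c177 a177_1 a177_2 a177_3 q177 fun c178 a178_1 a178_2 a178_3 q178 =>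
  mulK c9 a9_1 a9_2 a9_3 q9 c178 a178_1 a178_2 a178_3 q178 fun c179 a179_1 a179_2 a179_3 q179 =>
  mulK c171 a171_1 a171_2 a171_3 q171 c19 a19_1 a19_2 a19_3 q19 fun c180 a180_1 a180_2 a180_3 q180 =>
  mulK c180 a180_1 a180_2 a180_3 q180 c2 a2_1 a2_2 a2_3 q2 fun c181 a181_1 a181_2 a181_3 q181 =>
  addK c179 a179_1 a179_2 a179_3 q179 c181 a181_1 a181_2 a181_3 q181 fun c183 a183_1 a183_2 a183_3 q183 =>
  smulK 4 1 1152921504606846977 4611686018427387904 c183 a183_1 a183_2 a183_3 q183 fun c185 a185_1 a185_2 a185_3 q185 =>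
  mulK c185 a185_1 a185_2 a185_3 q185 c183 a183_1 a183_2 a183_3 q183 fun c186 a186_1 a186_2 a186_3 q186 =>
  subK c164 a164_1 a164_2 a164_3 q164 c186 a186_1 a186_2 a186_3 q186 fun c187 a187_1 a187_2 a187_3 q187 =>
  pos c187 a187_1 a187_2 a187_3 q187

theorem alt0_s {z1 w1 z2 w2 z3 w3 : ℕ} {e1 e2 e3 l u p : ℝ} (he : Ev e1 e2 e3)
    (hx1 : In e1 e2 e3 z1 (Nat.add w1 1152921504606846976) 1152921504606846976 1152921504606846976 0 l)
    (hx2 : In e1 e2 e3 z2 1152921504606846976 (Nat.add w2 1152921504606846976) 1152921504606846976 0 u)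
    (hx3 : In e1 e2 e3 z3 1152921504606846976 1152921504606846976 (Nat.add w3 1152921504606846976) 0 p)
    (H0 : alt0 z1 w1 z2 w2 z3 w3 = true) : 0 < (((G l u p) * (((((al l u p) * (be l u p)) * (((1:ℝ) - (u * u)) ^ 2)) * (G l u p)) + ((2:ℝ) * (((n0 l u p) * (u0 l u p)) + (((n1 l u p) * u) * (u1 l u p)))))) - (((4:ℝ) * (m l u p)) * (m l u p))) := by
  unfold alt0 at H0
  refine addcK_s he hx2 (v' := (1:ℝ)) (by norm_num [SS, BB, abs_le]) (fun _ _ _ _ _ h1 H1 => ?_) H0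
  refine invK_s he h1 (fun _ _ _ _ _ h2 H2 => ?_) H1
  refine sqK_s he hx1 (fun _ _ _ _ _ h3 H3 => ?_) H2
  have h4 := In_cast h3 (sq _)
  refine addcK_s he h4 (v' := (1:ℝ)) (by norm_num [SS, BB, abs_le]) (fun _ _ _ _ _ h5 H4 => ?_) H3
  have h6 := In_cast h5 (add_comm _ _)
  refine invK_s he h6 (fun _ _ _ _ _ h7 H5 => ?_) H4
  refine smulK_s he (w := (2:ℝ)) (by norm_num) (by norm_num) (by norm_num) (by norm_num) hx1 (fun _ _ _ _ _ h8 H6 => ?_) H5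
  refine mulK_s he h8 h7 (fun _ _ _ _ _ h9 H7 => ?_) H6
  have h10 := In_cast h9 ((div_eq_mul_inv _ _).symm)
  have h11 := In_cast (w := (R l u p)) h10 rfl
  refine mulK_s he h11 hx2 (fun _ _ _ _ _ h12 H8 => ?_) H7
  refine sqK_s he h12 (fun _ _ _ _ _ h13 H9 => ?_) H8
  refine negK_s he h13 (fun _ _ _ _ _ h14 H10 => ?_) H9
  refine addcK_s he h14 (v' := (1:ℝ)) (by norm_num [SS, BB, abs_le]) (fun _ _ _ _ _ h15 H11 => ?_) H10
  have h16 := In_cast h15 (neg_add_eq_sub _ _)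
  refine sqrtK_s he h16 (fun _ _ _ _ _ h17 H12 => ?_) H11
  have h18 := In_cast (w := (t1 l u p)) h17 rfl
  refine addcK_s he h18 (v' := (99/100:ℝ)) (by norm_num [SS, BB, abs_le]) (fun _ _ _ _ _ h19 H13 => ?_) H12
  refine addcK_s he hx3 (v' := (1:ℝ)) (by norm_num [SS, BB, abs_le]) (fun _ _ _ _ _ h20 H14 => ?_) H13
  have h21 := In_cast h20 (add_comm _ _)
  refine smulK_s he (w := (1/2:ℝ)) (by norm_num) (by norm_num) (by norm_num) (by norm_num) h21 (fun _ _ _ _ _ h22 H15 => ?_) H14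
  have h23 := In_cast h22 (div_c (c := (2:ℝ)) (by norm_num))
  have h24 := In_cast (w := (al l u p)) h23 rfl
  refine sqK_s he hx2 (fun _ _ _ _ _ h25 H16 => ?_) H15
  have h26 := In_cast h25 (sq _)
  refine mulK_s he h24 h26 (fun _ _ _ _ _ h27 H17 => ?_) H16
  refine negK_s he hx3 (fun _ _ _ _ _ h28 H18 => ?_) H17
  refine addcK_s he h28 (v' := (1:ℝ)) (by norm_num [SS, BB, abs_le]) (fun _ _ _ _ _ h29 H19 => ?_) H18
  have h30 := In_cast h29 (neg_add_eq_sub _ _)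
  refine smulK_s he (w := (1/2:ℝ)) (by norm_num) (by norm_num) (by norm_num) (by norm_num) h30 (fun _ _ _ _ _ h31 H20 => ?_) H19
  have h32 := In_cast h31 (div_c (c := (2:ℝ)) (by norm_num))
  have h33 := In_cast (w := (be l u p)) h32 rfl
  refine addK_s he h27 h33 (fun _ _ _ _ _ h34 H21 => ?_) H20
  refine sqrtK_s he h34 (fun _ _ _ _ _ h35 H22 => ?_) H21
  have h36 := In_cast (w := (hx l u p)) h35 rfl
  refine addK_s he hx2 h36 (fun _ _ _ _ _ h37 H23 => ?_) H22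
  refine addcK_s he h36 (v' := (1:ℝ)) (by norm_num [SS, BB, abs_le]) (fun _ _ _ _ _ h38 H24 => ?_) H23
  refine mulK_s he h37 h38 (fun _ _ _ _ _ h39 H25 => ?_) H24
  refine invK_s he h39 (fun _ _ _ _ _ h40 H26 => ?_) H25
  have h41 := In_cast h40 (inv_eq_one_div _)
  refine mulK_s he h33 h26 (fun _ _ _ _ _ h42 H27 => ?_) H26
  refine addK_s he h24 h42 (fun _ _ _ _ _ h43 H28 => ?_) H27
  refine sqrtK_s he h43 (fun _ _ _ _ _ h44 H29 => ?_) H28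
  have h45 := In_cast (w := (hy l u p)) h44 rfl
  refine addK_s he hx2 h45 (fun _ _ _ _ _ h46 H30 => ?_) H29
  refine addcK_s he h45 (v' := (1:ℝ)) (by norm_num [SS, BB, abs_le]) (fun _ _ _ _ _ h47 H31 => ?_) H30
  refine mulK_s he h46 h47 (fun _ _ _ _ _ h48 H32 => ?_) H31
  refine invK_s he h48 (fun _ _ _ _ _ h49 H33 => ?_) H32
  have h50 := In_cast h49 (inv_eq_one_div _)
  refine addK_s he h41 h50 (fun _ _ _ _ _ h51 H34 => ?_) H33
  refine mulK_s he h19 h51 (fun _ _ _ _ _ h52 H35 => ?_) H34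
  refine mulK_s he h52 h2 (fun _ _ _ _ _ h53 H36 => ?_) H35
  have h54 := In_cast h53 ((div_eq_mul_inv _ _).symm)
  refine sqK_s he h11 (fun _ _ _ _ _ h55 H37 => ?_) H36
  refine mulK_s he h11 h36 (fun _ _ _ _ _ h56 H38 => ?_) H37
  refine sqK_s he h56 (fun _ _ _ _ _ h57 H39 => ?_) H38
  refine negK_s he h57 (fun _ _ _ _ _ h58 H40 => ?_) H39
  refine addcK_s he h58 (v' := (1:ℝ)) (by norm_num [SS, BB, abs_le]) (fun _ _ _ _ _ h59 H41 => ?_) H40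
  have h60 := In_cast h59 (neg_add_eq_sub _ _)
  refine sqrtK_s he h60 (fun _ _ _ _ _ h61 H42 => ?_) H41
  have h62 := In_cast (w := (tx l u p)) h61 rfl
  refine addK_s he h18 h62 (fun _ _ _ _ _ h63 H43 => ?_) H42
  refine mulK_s he h63 h38 (fun _ _ _ _ _ h64 H44 => ?_) H43
  refine invK_s he h64 (fun _ _ _ _ _ h65 H45 => ?_) H44
  have h66 := In_cast h65 (inv_eq_one_div _)
  refine negK_s he h4 (fun _ _ _ _ _ h67 H46 => ?_) H45
  refine addcK_s he h67 (v' := (1:ℝ)) (by norm_num [SS, BB, abs_le]) (fun _ _ _ _ _ h68 H47 => ?_) H46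
  have h69 := In_cast h68 (neg_add_eq_sub _ _)
  refine mulK_s he h69 h7 (fun _ _ _ _ _ h70 H48 => ?_) H47
  have h71 := In_cast h70 ((div_eq_mul_inv _ _).symm)
  have h72 := In_cast (w := (t0 l u p)) h71 rfl
  refine sqK_s he h72 (fun _ _ _ _ _ h73 H49 => ?_) H48
  have h74 := In_cast h73 (sq _)
  refine mulK_s he h24 h74 (fun _ _ _ _ _ h75 H50 => ?_) H49
  refine mulK_s he h33 h16 (fun _ _ _ _ _ h76 H51 => ?_) H50
  refine addK_s he h75 h76 (fun _ _ _ _ _ h77 H52 => ?_) H51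
  refine sqrtK_s he h77 (fun _ _ _ _ _ h78 H53 => ?_) H52
  have h79 := In_cast (w := (ty l u p)) h78 rfl
  refine addK_s he h18 h79 (fun _ _ _ _ _ h80 H54 => ?_) H53
  refine mulK_s he h80 h47 (fun _ _ _ _ _ h81 H55 => ?_) H54
  refine invK_s he h81 (fun _ _ _ _ _ h82 H56 => ?_) H55
  have h83 := In_cast h82 (inv_eq_one_div _)
  refine addK_s he h66 h83 (fun _ _ _ _ _ h84 H57 => ?_) H56
  refine addK_s he h18 h72 (fun _ _ _ _ _ h85 H58 => ?_) H57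
  refine invK_s he h85 (fun _ _ _ _ _ h86 H59 => ?_) H58
  refine addcK_s he h11 (v' := (-99/100:ℝ)) (by norm_num [SS, BB, abs_le]) (fun _ _ _ _ _ h87 H60 => ?_) H59
  have h88 := In_cast h87 (sub_c (c := (99/100:ℝ)) (by norm_num))
  refine mulK_s he h11 h88 (fun _ _ _ _ _ h89 H61 => ?_) H60
  refine addK_s he h62 h72 (fun _ _ _ _ _ h90 H62 => ?_) H61
  refine mulK_s he h63 h90 (fun _ _ _ _ _ h91 H63 => ?_) H62
  refine invK_s he h91 (fun _ _ _ _ _ h92 H64 => ?_) H63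
  have h93 := In_cast h92 (inv_eq_one_div _)
  refine addK_s he h79 h72 (fun _ _ _ _ _ h94 H65 => ?_) H64
  refine mulK_s he h80 h94 (fun _ _ _ _ _ h95 H66 => ?_) H65
  refine invK_s he h95 (fun _ _ _ _ _ h96 H67 => ?_) H66
  have h97 := In_cast h96 (inv_eq_one_div _)
  refine addK_s he h93 h97 (fun _ _ _ _ _ h98 H68 => ?_) H67
  refine mulK_s he h89 h98 (fun _ _ _ _ _ h99 H69 => ?_) H68
  refine mulK_s he h99 h86 (fun _ _ _ _ _ h100 H70 => ?_) H69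
  have h101 := In_cast h100 ((div_eq_mul_inv _ _).symm)
  refine addK_s he h84 h101 (fun _ _ _ _ _ h102 H71 => ?_) H70
  refine mulK_s he h55 h102 (fun _ _ _ _ _ h103 H72 => ?_) H71
  refine addK_s he h54 h103 (fun _ _ _ _ _ h104 H73 => ?_) H72
  have h105 := In_cast (w := (G l u p)) h104 rfl
  refine mulK_s he h24 h33 (fun _ _ _ _ _ h106 H74 => ?_) H73
  refine negK_s he h26 (fun _ _ _ _ _ h107 H75 => ?_) H74
  refine addcK_s he h107 (v' := (1:ℝ)) (by norm_num [SS, BB, abs_le]) (fun _ _ _ _ _ h108 H76 => ?_) H75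
  have h109 := In_cast h108 (neg_add_eq_sub _ _)
  refine sqK_s he h109 (fun _ _ _ _ _ h110 H77 => ?_) H76
  refine mulK_s he h106 h110 (fun _ _ _ _ _ h111 H78 => ?_) H77
  refine mulK_s he h111 h105 (fun _ _ _ _ _ h112 H79 => ?_) H78
  refine sqK_s he hx3 (fun _ _ _ _ _ h113 H80 => ?_) H79
  have h114 := In_cast h113 (sq _)
  refine negK_s he h114 (fun _ _ _ _ _ h115 H81 => ?_) H80
  refine addcK_s he h115 (v' := (1:ℝ)) (by norm_num [SS, BB, abs_le]) (fun _ _ _ _ _ h116 H82 => ?_) H81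
  have h117 := In_cast h116 (neg_add_eq_sub _ _)
  refine sqrtK_s he h117 (fun _ _ _ _ _ h118 H83 => ?_) H82
  have h119 := In_cast (w := (s l u p)) h118 rfl
  refine smulK_s he (w := (57/200:ℝ)) (by norm_num) (by norm_num) (by norm_num) (by norm_num) h119 (fun _ _ _ _ _ h120 H84 => ?_) H83
  refine addcK_s he h120 (v' := (49/500:ℝ)) (by norm_num [SS, BB, abs_le]) (fun _ _ _ _ _ h121 H85 => ?_) H84
  have h122 := In_cast h121 (add_comm _ _)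
  refine mulK_s he h119 h122 (fun _ _ _ _ _ h123 H86 => ?_) H85
  refine addcK_s he h123 (v' := (47/500:ℝ)) (by norm_num [SS, BB, abs_le]) (fun _ _ _ _ _ h124 H87 => ?_) H86
  have h125 := In_cast h124 (add_comm _ _)
  have h126 := In_cast (w := (n0 l u p)) h125 rfl
  refine negK_s he h11 (fun _ _ _ _ _ h127 H88 => ?_) H87
  refine addcK_s he h127 (v' := (1:ℝ)) (by norm_num [SS, BB, abs_le]) (fun _ _ _ _ _ h128 H89 => ?_) H88
  have h129 := In_cast h128 (neg_add_eq_sub _ _)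
  refine addcK_s he h72 (v' := (1:ℝ)) (by norm_num [SS, BB, abs_le]) (fun _ _ _ _ _ h130 H90 => ?_) H89
  have h131 := In_cast h130 (add_comm _ _)
  refine invK_s he h131 (fun _ _ _ _ _ h132 H91 => ?_) H90
  refine mulK_s he h72 h11 (fun _ _ _ _ _ h133 H92 => ?_) H91
  refine mulK_s he h133 h132 (fun _ _ _ _ _ h134 H93 => ?_) H92
  have h135 := In_cast h134 ((div_eq_mul_inv _ _).symm)
  refine subK_s he h129 h135 (fun _ _ _ _ _ h136 H94 => ?_) H93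
  refine smulK_s he (w := (99/100:ℝ)) (by norm_num) (by norm_num) (by norm_num) (by norm_num) h136 (fun _ _ _ _ _ h137 H95 => ?_) H94
  refine addK_s he h72 h137 (fun _ _ _ _ _ h138 H96 => ?_) H95
  have h139 := In_cast (w := (u0 l u p)) h138 rfl
  refine mulK_s he h126 h139 (fun _ _ _ _ _ h140 H97 => ?_) H96
  refine smulK_s he (w := (27/50:ℝ)) (by norm_num) (by norm_num) (by norm_num) (by norm_num) h119 (fun _ _ _ _ _ h141 H98 => ?_) H97
  refine negK_s he h141 (fun _ _ _ _ _ h142 H99 => ?_) H98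
  refine addcK_s he h142 (v' := (49/50:ℝ)) (by norm_num [SS, BB, abs_le]) (fun _ _ _ _ _ h143 H100 => ?_) H99
  have h144 := In_cast h143 (neg_add_eq_sub _ _)
  have h145 := In_cast (w := (n1 l u p)) h144 rfl
  refine mulK_s he h145 hx2 (fun _ _ _ _ _ h146 H101 => ?_) H100
  refine negK_s he h12 (fun _ _ _ _ _ h147 H102 => ?_) H101
  refine addcK_s he h147 (v' := (1:ℝ)) (by norm_num [SS, BB, abs_le]) (fun _ _ _ _ _ h148 H103 => ?_) H102
  have h149 := In_cast h148 (neg_add_eq_sub _ _)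
  refine addcK_s he h18 (v' := (1:ℝ)) (by norm_num [SS, BB, abs_le]) (fun _ _ _ _ _ h150 H104 => ?_) H103
  have h151 := In_cast h150 (add_comm _ _)
  refine invK_s he h151 (fun _ _ _ _ _ h152 H105 => ?_) H104
  refine mulK_s he h18 h12 (fun _ _ _ _ _ h153 H106 => ?_) H105
  refine mulK_s he h153 h152 (fun _ _ _ _ _ h154 H107 => ?_) H106
  have h155 := In_cast h154 ((div_eq_mul_inv _ _).symm)
  refine subK_s he h149 h155 (fun _ _ _ _ _ h156 H108 => ?_) H107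
  refine smulK_s he (w := (99/100:ℝ)) (by norm_num) (by norm_num) (by norm_num) (by norm_num) h156 (fun _ _ _ _ _ h157 H109 => ?_) H108
  refine addK_s he h18 h157 (fun _ _ _ _ _ h158 H110 => ?_) H109
  have h159 := In_cast (w := (u1 l u p)) h158 rfl
  refine mulK_s he h146 h159 (fun _ _ _ _ _ h160 H111 => ?_) H110
  refine addK_s he h140 h160 (fun _ _ _ _ _ h161 H112 => ?_) H111
  refine smulK_s he (w := (2:ℝ)) (by norm_num) (by norm_num) (by norm_num) (by norm_num) h161 (fun _ _ _ _ _ h162 H113 => ?_) H112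
  refine addK_s he h112 h162 (fun _ _ _ _ _ h163 H114 => ?_) H113
  refine mulK_s he h105 h163 (fun _ _ _ _ _ h164 H115 => ?_) H114
  refine smulK_s he (w := (1/125:ℝ)) (by norm_num) (by norm_num) (by norm_num) (by norm_num) h119 (fun _ _ _ _ _ h165 H116 => ?_) H115
  have h166 := In_cast h165 (div_c (c := (125:ℝ)) (by norm_num))
  refine addcK_s he h166 (v' := (247/250:ℝ)) (by norm_num [SS, BB, abs_le]) (fun _ _ _ _ _ h167 H117 => ?_) H116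
  have h168 := In_cast h167 (add_comm _ _)
  have h169 := In_cast (w := (ka l u p)) h168 rfl
  refine smulK_s he (w := (3/200:ℝ)) (by norm_num) (by norm_num) (by norm_num) (by norm_num) h119 (fun _ _ _ _ _ h170 H118 => ?_) H117
  refine addcK_s he h170 (v' := (11/20:ℝ)) (by norm_num [SS, BB, abs_le]) (fun _ _ _ _ _ h171 H119 => ?_) H118
  have h172 := In_cast h171 (add_comm _ _)
  have h173 := In_cast (w := (nu l u p)) h172 rfl
  refine mulK_s he h88 h86 (fun _ _ _ _ _ h174 H120 => ?_) H119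
  have h175 := In_cast h174 ((div_eq_mul_inv _ _).symm)
  refine addcK_s he h175 (v' := (99/50:ℝ)) (by norm_num [SS, BB, abs_le]) (fun _ _ _ _ _ h176 H121 => ?_) H120
  refine mulK_s he h173 h176 (fun _ _ _ _ _ h177 H122 => ?_) H121
  refine subK_s he h169 h177 (fun _ _ _ _ _ h178 H123 => ?_) H122
  refine mulK_s he h11 h178 (fun _ _ _ _ _ h179 H124 => ?_) H123
  refine mulK_s he h173 h19 (fun _ _ _ _ _ h180 H125 => ?_) H124
  refine mulK_s he h180 h2 (fun _ _ _ _ _ h181 H126 => ?_) H125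
  have h182 := In_cast h181 ((div_eq_mul_inv _ _).symm)
  refine addK_s he h179 h182 (fun _ _ _ _ _ h183 H127 => ?_) H126
  have h184 := In_cast (w := (m l u p)) h183 rfl
  refine smulK_s he (w := (4:ℝ)) (by norm_num) (by norm_num) (by norm_num) (by norm_num) h184 (fun _ _ _ _ _ h185 H128 => ?_) H127
  refine mulK_s he h185 h184 (fun _ _ _ _ _ h186 H129 => ?_) H128
  refine subK_s he h164 h186 (fun _ _ _ _ _ h187 H130 => ?_) H129
  exact pos_s he h187 H130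

noncomputable def alt1 (z1 w1 z2 w2 z3 w3 : ℕ) : Bool :=
  sqK z1 (Nat.add w1 1152921504606846976) 1152921504606846976 1152921504606846976 0 fun c1 a1_1 a1_2 a1_3 q1 =>
  addcK c1 a1_1 a1_2 a1_3 q1 1152922604118474752 0 fun c3 a3_1 a3_2 a3_3 q3 =>
  invK c3 a3_1 a3_2 a3_3 q3 fun c5 a5_1 a5_2 a5_3 q5 =>
  smulK 2 1 1152921504606846977 2305843009213693952 z1 (Nat.add w1 1152921504606846976) 1152921504606846976 1152921504606846976 0 fun c6 a6_1 a6_2 a6_3 q6 =>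
  mulK c6 a6_1 a6_2 a6_3 q6 c5 a5_1 a5_2 a5_3 q5 fun c7 a7_1 a7_2 a7_3 q7 =>
  sqK z3 1152921504606846976 1152921504606846976 (Nat.add w3 1152921504606846976) 0 fun c10 a10_1 a10_2 a10_3 q10 =>
  negK c10 a10_1 a10_2 a10_3 q10 fun c12 a12_1 a12_2 a12_3 q12 =>
  addcK c12 a12_1 a12_2 a12_3 q12 1152922604118474752 0 fun c13 a13_1 a13_2 a13_3 q13 =>
  sqrtK c13 a13_1 a13_2 a13_3 q13 fun c15 a15_1 a15_2 a15_3 q15 =>
  smulK 1 125 144115188075855872125 1152921504606846976 c15 a15_1 a15_2 a15_3 q15 fun c17 a17_1 a17_2 a17_3 q17 =>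
  addcK c17 a17_1 a17_2 a17_3 q17 1152922590924335219 1 fun c19 a19_1 a19_2 a19_3 q19 =>
  smulK 3 200 230584300921369395400 3458764513820540928 c15 a15_1 a15_2 a15_3 q15 fun c22 a22_1 a22_2 a22_3 q22 =>
  addcK c22 a22_1 a22_2 a22_3 q22 1152922109338242253 1 fun c23 a23_1 a23_2 a23_3 q23 =>
  mulK c7 a7_1 a7_2 a7_3 q7 z2 1152921504606846976 (Nat.add w2 1152921504606846976) 1152921504606846976 0 fun c26 a26_1 a26_2 a26_3 q26 =>
  sqK c26 a26_1 a26_2 a26_3 q26 fun c27 a27_1 a27_2 a27_3 q27 =>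
  negK c27 a27_1 a27_2 a27_3 q27 fun c28 a28_1 a28_2 a28_3 q28 =>
  addcK c28 a28_1 a28_2 a28_3 q28 1152922604118474752 0 fun c29 a29_1 a29_2 a29_3 q29 =>
  sqrtK c29 a29_1 a29_2 a29_3 q29 fun c31 a31_1 a31_2 a31_3 q31 =>
  negK c1 a1_1 a1_2 a1_3 q1 fun c33 a33_1 a33_2 a33_3 q33 =>
  addcK c33 a33_1 a33_2 a33_3 q33 1152922604118474752 0 fun c34 a34_1 a34_2 a34_3 q34 =>
  mulK c34 a34_1 a34_2 a34_3 q34 c5 a5_1 a5_2 a5_3 q5 fun c36 a36_1 a36_2 a36_3 q36 =>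
  addK c31 a31_1 a31_2 a31_3 q31 c36 a36_1 a36_2 a36_3 q36 fun c39 a39_1 a39_2 a39_3 q39 =>
  invK c39 a39_1 a39_2 a39_3 q39 fun c40 a40_1 a40_2 a40_3 q40 =>
  addcK c7 a7_1 a7_2 a7_3 q7 1152920416090335478 1 fun c41 a41_1 a41_2 a41_3 q41 =>
  mulK c41 a41_1 a41_2 a41_3 q41 c40 a40_1 a40_2 a40_3 q40 fun c43 a43_1 a43_2 a43_3 q43 =>
  addcK c43 a43_1 a43_2 a43_3 q43 1152923681639869972 1 fun c45 a45_1 a45_2 a45_3 q45 =>
  mulK c23 a23_1 a23_2 a23_3 q23 c45 a45_1 a45_2 a45_3 q45 fun c46 a46_1 a46_2 a46_3 q46 =>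
  subK c19 a19_1 a19_2 a19_3 q19 c46 a46_1 a46_2 a46_3 q46 fun c47 a47_1 a47_2 a47_3 q47 =>
  mulK c7 a7_1 a7_2 a7_3 q7 c47 a47_1 a47_2 a47_3 q47 fun c48 a48_1 a48_2 a48_3 q48 =>
  addcK z2 1152921504606846976 (Nat.add w2 1152921504606846976) 1152921504606846976 0 1152922604118474752 0 fun c49 a49_1 a49_2 a49_3 q49 =>
  invK c49 a49_1 a49_2 a49_3 q49 fun c50 a50_1 a50_2 a50_3 q50 =>
  addcK c31 a31_1 a31_2 a31_3 q31 1152922593123358474 1 fun c51 a51_1 a51_2 a51_3 q51 =>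
  mulK c23 a23_1 a23_2 a23_3 q23 c51 a51_1 a51_2 a51_3 q51 fun c52 a52_1 a52_2 a52_3 q52 =>
  mulK c52 a52_1 a52_2 a52_3 q52 c50 a50_1 a50_2 a50_3 q50 fun c53 a53_1 a53_2 a53_3 q53 =>
  addK c48 a48_1 a48_2 a48_3 q48 c53 a53_1 a53_2 a53_3 q53 fun c55 a55_1 a55_2 a55_3 q55 =>
  negK c55 a55_1 a55_2 a55_3 q55 fun c57 a57_1 a57_2 a57_3 q57 =>
  pos c57 a57_1 a57_2 a57_3 q57

theorem alt1_s {z1 w1 z2 w2 z3 w3 : ℕ} {e1 e2 e3 l u p : ℝ} (he : Ev e1 e2 e3)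
    (hx1 : In e1 e2 e3 z1 (Nat.add w1 1152921504606846976) 1152921504606846976 1152921504606846976 0 l)
    (hx2 : In e1 e2 e3 z2 1152921504606846976 (Nat.add w2 1152921504606846976) 1152921504606846976 0 u)
    (hx3 : In e1 e2 e3 z3 1152921504606846976 1152921504606846976 (Nat.add w3 1152921504606846976) 0 p)
    (H0 : alt1 z1 w1 z2 w2 z3 w3 = true) : 0 < (-(m l u p)) := by
  unfold alt1 at H0
  refine sqK_s he hx1 (fun _ _ _ _ _ h1 H1 => ?_) H0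
  have h2 := In_cast h1 (sq _)
  refine addcK_s he h2 (v' := (1:ℝ)) (by norm_num [SS, BB, abs_le]) (fun _ _ _ _ _ h3 H2 => ?_) H1
  have h4 := In_cast h3 (add_comm _ _)
  refine invK_s he h4 (fun _ _ _ _ _ h5 H3 => ?_) H2
  refine smulK_s he (w := (2:ℝ)) (by norm_num) (by norm_num) (by norm_num) (by norm_num) hx1 (fun _ _ _ _ _ h6 H4 => ?_) H3
  refine mulK_s he h6 h5 (fun _ _ _ _ _ h7 H5 => ?_) H4
  have h8 := In_cast h7 ((div_eq_mul_inv _ _).symm)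
  have h9 := In_cast (w := (R l u p)) h8 rfl
  refine sqK_s he hx3 (fun _ _ _ _ _ h10 H6 => ?_) H5
  have h11 := In_cast h10 (sq _)
  refine negK_s he h11 (fun _ _ _ _ _ h12 H7 => ?_) H6
  refine addcK_s he h12 (v' := (1:ℝ)) (by norm_num [SS, BB, abs_le]) (fun _ _ _ _ _ h13 H8 => ?_) H7
  have h14 := In_cast h13 (neg_add_eq_sub _ _)
  refine sqrtK_s he h14 (fun _ _ _ _ _ h15 H9 => ?_) H8
  have h16 := In_cast (w := (s l u p)) h15 rfl
  refine smulK_s he (w := (1/125:ℝ)) (by norm_num) (by norm_num) (by norm_num) (by norm_num) h16 (fun _ _ _ _ _ h17 H10 => ?_) H9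
  have h18 := In_cast h17 (div_c (c := (125:ℝ)) (by norm_num))
  refine addcK_s he h18 (v' := (247/250:ℝ)) (by norm_num [SS, BB, abs_le]) (fun _ _ _ _ _ h19 H11 => ?_) H10
  have h20 := In_cast h19 (add_comm _ _)
  have h21 := In_cast (w := (ka l u p)) h20 rfl
  refine smulK_s he (w := (3/200:ℝ)) (by norm_num) (by norm_num) (by norm_num) (by norm_num) h16 (fun _ _ _ _ _ h22 H12 => ?_) H11
  refine addcK_s he h22 (v' := (11/20:ℝ)) (by norm_num [SS, BB, abs_le]) (fun _ _ _ _ _ h23 H13 => ?_) H12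
  have h24 := In_cast h23 (add_comm _ _)
  have h25 := In_cast (w := (nu l u p)) h24 rfl
  refine mulK_s he h9 hx2 (fun _ _ _ _ _ h26 H14 => ?_) H13
  refine sqK_s he h26 (fun _ _ _ _ _ h27 H15 => ?_) H14
  refine negK_s he h27 (fun _ _ _ _ _ h28 H16 => ?_) H15
  refine addcK_s he h28 (v' := (1:ℝ)) (by norm_num [SS, BB, abs_le]) (fun _ _ _ _ _ h29 H17 => ?_) H16
  have h30 := In_cast h29 (neg_add_eq_sub _ _)
  refine sqrtK_s he h30 (fun _ _ _ _ _ h31 H18 => ?_) H17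
  have h32 := In_cast (w := (t1 l u p)) h31 rfl
  refine negK_s he h2 (fun _ _ _ _ _ h33 H19 => ?_) H18
  refine addcK_s he h33 (v' := (1:ℝ)) (by norm_num [SS, BB, abs_le]) (fun _ _ _ _ _ h34 H20 => ?_) H19
  have h35 := In_cast h34 (neg_add_eq_sub _ _)
  refine mulK_s he h35 h5 (fun _ _ _ _ _ h36 H21 => ?_) H20
  have h37 := In_cast h36 ((div_eq_mul_inv _ _).symm)
  have h38 := In_cast (w := (t0 l u p)) h37 rfl
  refine addK_s he h32 h38 (fun _ _ _ _ _ h39 H22 => ?_) H21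
  refine invK_s he h39 (fun _ _ _ _ _ h40 H23 => ?_) H22
  refine addcK_s he h9 (v' := (-99/100:ℝ)) (by norm_num [SS, BB, abs_le]) (fun _ _ _ _ _ h41 H24 => ?_) H23
  have h42 := In_cast h41 (sub_c (c := (99/100:ℝ)) (by norm_num))
  refine mulK_s he h42 h40 (fun _ _ _ _ _ h43 H25 => ?_) H24
  have h44 := In_cast h43 ((div_eq_mul_inv _ _).symm)
  refine addcK_s he h44 (v' := (99/50:ℝ)) (by norm_num [SS, BB, abs_le]) (fun _ _ _ _ _ h45 H26 => ?_) H25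
  refine mulK_s he h25 h45 (fun _ _ _ _ _ h46 H27 => ?_) H26
  refine subK_s he h21 h46 (fun _ _ _ _ _ h47 H28 => ?_) H27
  refine mulK_s he h9 h47 (fun _ _ _ _ _ h48 H29 => ?_) H28
  refine addcK_s he hx2 (v' := (1:ℝ)) (by norm_num [SS, BB, abs_le]) (fun _ _ _ _ _ h49 H30 => ?_) H29
  refine invK_s he h49 (fun _ _ _ _ _ h50 H31 => ?_) H30
  refine addcK_s he h32 (v' := (99/100:ℝ)) (by norm_num [SS, BB, abs_le]) (fun _ _ _ _ _ h51 H32 => ?_) H31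
  refine mulK_s he h25 h51 (fun _ _ _ _ _ h52 H33 => ?_) H32
  refine mulK_s he h52 h50 (fun _ _ _ _ _ h53 H34 => ?_) H33
  have h54 := In_cast h53 ((div_eq_mul_inv _ _).symm)
  refine addK_s he h48 h54 (fun _ _ _ _ _ h55 H35 => ?_) H34
  have h56 := In_cast (w := (m l u p)) h55 rfl
  refine negK_s he h56 (fun _ _ _ _ _ h57 H36 => ?_) H35
  exact pos_s he h57 H36

noncomputable def alt2 (z1 w1 z2 w2 z3 w3 : ℕ) : Bool :=
  sqK z1 (Nat.add w1 1152921504606846976) 1152921504606846976 1152921504606846976 0 fun c1 a1_1 a1_2 a1_3 q1 =>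
  addcK c1 a1_1 a1_2 a1_3 q1 1152922604118474752 0 fun c3 a3_1 a3_2 a3_3 q3 =>
  invK c3 a3_1 a3_2 a3_3 q3 fun c5 a5_1 a5_2 a5_3 q5 =>
  smulK 2 1 1152921504606846977 2305843009213693952 z1 (Nat.add w1 1152921504606846976) 1152921504606846976 1152921504606846976 0 fun c6 a6_1 a6_2 a6_3 q6 =>
  mulK c6 a6_1 a6_2 a6_3 q6 c5 a5_1 a5_2 a5_3 q5 fun c7 a7_1 a7_2 a7_3 q7 =>
  mulK c7 a7_1 a7_2 a7_3 q7 z2 1152921504606846976 (Nat.add w2 1152921504606846976) 1152921504606846976 0 fun c10 a10_1 a10_2 a10_3 q10 =>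
  sqK c10 a10_1 a10_2 a10_3 q10 fun c11 a11_1 a11_2 a11_3 q11 =>
  addcK c11 a11_1 a11_2 a11_3 q11 1152921023570509824 0 fun c12 a12_1 a12_2 a12_3 q12 =>
  smulK 64 1 1152921504606846977 73786976294838206464 c12 a12_1 a12_2 a12_3 q12 fun c14 a14_1 a14_2 a14_3 q14 =>
  pos c14 a14_1 a14_2 a14_3 q14

theorem alt2_s {z1 w1 z2 w2 z3 w3 : ℕ} {e1 e2 e3 l u p : ℝ} (he : Ev e1 e2 e3)
    (hx1 : In e1 e2 e3 z1 (Nat.add w1 1152921504606846976) 1152921504606846976 1152921504606846976 0 l)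
    (hx2 : In e1 e2 e3 z2 1152921504606846976 (Nat.add w2 1152921504606846976) 1152921504606846976 0 u)
    (hx3 : In e1 e2 e3 z3 1152921504606846976 1152921504606846976 (Nat.add w3 1152921504606846976) 0 p)
    (H0 : alt2 z1 w1 z2 w2 z3 w3 = true) : 0 < ((64:ℝ) * ((((R l u p) * u) ^ 2) - (7/16:ℝ))) := by
  unfold alt2 at H0
  refine sqK_s he hx1 (fun _ _ _ _ _ h1 H1 => ?_) H0
  have h2 := In_cast h1 (sq _)
  refine addcK_s he h2 (v' := (1:ℝ)) (by norm_num [SS, BB, abs_le]) (fun _ _ _ _ _ h3 H2 => ?_) H1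
  have h4 := In_cast h3 (add_comm _ _)
  refine invK_s he h4 (fun _ _ _ _ _ h5 H3 => ?_) H2
  refine smulK_s he (w := (2:ℝ)) (by norm_num) (by norm_num) (by norm_num) (by norm_num) hx1 (fun _ _ _ _ _ h6 H4 => ?_) H3
  refine mulK_s he h6 h5 (fun _ _ _ _ _ h7 H5 => ?_) H4
  have h8 := In_cast h7 ((div_eq_mul_inv _ _).symm)
  have h9 := In_cast (w := (R l u p)) h8 rfl
  refine mulK_s he h9 hx2 (fun _ _ _ _ _ h10 H6 => ?_) H5
  refine sqK_s he h10 (fun _ _ _ _ _ h11 H7 => ?_) H6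
  refine addcK_s he h11 (v' := (-7/16:ℝ)) (by norm_num [SS, BB, abs_le]) (fun _ _ _ _ _ h12 H8 => ?_) H7
  have h13 := In_cast h12 (sub_c (c := (7/16:ℝ)) (by norm_num))
  refine smulK_s he (w := (64:ℝ)) (by norm_num) (by norm_num) (by norm_num) (by norm_num) h13 (fun _ _ _ _ _ h14 H9 => ?_) H8
  exact pos_s he h14 H9

attribute [irreducible] alt0 alt1 alt2

noncomputable def leaf (j u z1 w1 z2 w2 z3 w3 : ℕ) : Bool :=
  sB j (alt0 z1 w1 z2 w2 z3 w3) fun j => sB j (alt1 z1 w1 z2 w2 z3 w3) fun j => alt2 z1 w1 z2 w2 z3 w3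

theorem snd : Snd Q leaf := by
  intro j u z1 w1 z2 w2 z3 w3 e1 e2 e3 he H
  unfold leaf at H
  unfold Q
  replace H := sel H
  rcases H with H | ⟨j, H⟩
  · exact Or.inl (alt0_s he (var1 z1 w1) (var2 z2 w2) (var3 z3 w3) H)
  replace H := sel H
  rcases H with H | ⟨j, H⟩
  · exact Or.inr (Or.inl (alt1_s he (var1 z1 w1) (var2 z2 w2) (var3 z3 w3) H))
  exact Or.inr (Or.inr (alt2_s he (var1 z1 w1) (var2 z2 w2) (var3 z3 w3) H))

end Crest.Agent.R307.OCa
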