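import Crest.Agent.R307.OCa
set_option autoImplicit false
set_option maxRecDepth 100000
namespace Crest.Agent.R307.OCa
open Crest.Agent.R307.IA Crest.Agent.R307.IA3

theorem k6 : Cov Q 1152922329240568073 1152922604118474752 1152921504606846976 1152921573326323899 1152922230284521308 1152922461181963142 :=
  cov_of snd 0 0 11 _ _ _ _ _ _ 0x333003313310133033300123323320332330320133033203313320120331332033033021330331033133101233233033020333003302133233203323320120133033013313310233300333001331333010213303301331332103330133033010233133203313320133033013313311021023313310330331023313310331331021331330330103313303301023303301330330103313303301021033033023313302033133103303310213313312333013312033133123303301331201022330330233033020330330233033020133233033020330330233033020123303302330330203303302330330201330330233033020330330233033020120330330233033020330330033033002133033023303302033233032012330330233032033032332013303302332033233201201332332133033023303302103323321330323303210233233032033233201332331133233210213303302330330213303302330330210330330233033021330330233032102330330233203323310133233113313301021023303311332332103303301330330102331330133233010330330133033010213303302330330213303302332103330033030133030330102332330133033010330330133033010210330330133033012330330133033012033033013303301033033013303301021330330133033012330330233033021033033013303301233031330312010220 (by decide +kernel)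

theorem k7 : Cov Q 1152922329240568073 1152922604118474752 1152921573326323899 1152921642045800643 1152922230284521308 1152922461181963142 :=
  cov_of snd 0 0 11 _ _ _ _ _ _ 0x3313302330330133033102033033013303301233300330331013303330012013303302331331033033102133033103303310233133301033133301021023313310330331023330033300233133032021332330331103313312331331201331333010330331133233210120233033300133133301023313320332330330201330332133233033021021330330033133201330331133033210233233203303302330330201332330330213323303302102103313330103313330102330331133233210330330133033210213303301330332103303301330332102333023303302133233033021033033023303302133233033021021023323321332330330210330330133033012330330133033012013303321332330330210332330330213303302330330210123303301330330123303301330330120333003303302133033012330330233033021330330330012013303302330330213303302330330210330330133033012330330233033021012020 (by decide +kernel)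

theorem k8 : Cov Q 1152922329240568073 1152922604118474752 1152921642045800643 1152921779484754113 1152922230284521308 1152922461181963142 :=
  cov_of snd 0 0 11 _ _ _ _ _ _ 0x3303302330332103330133033210233233033021330330233300333002103330233033021330330233033103303310210203332133033033021033301330331331010233233033021330330233033103331021023303302333103330021330333002331331033133102103303310332330332101332333010331331233301333012010233033103303310233233033210331330330102133302330330103330133033010233233213323303302103303321332330330210210201 (by decide +kernel)

theorem k9 : Cov Q 1152922329240568073 1152922604118474752 1152921779484754113 1152922054362661017 1152922230284521308 1152922461181963142 :=
  cov_of snd 0 0 9 _ _ _ _ _ _ 0x3313330203303321330332100331332033300330331021333023303312033233033210333013303303302102101 (by decide +kernel)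

theorem k10 : Cov Q 1152922054362661017 1152922604118474752 1152922054362661017 1152922604118474752 1152922230284521308 1152922461181963142 :=
  cov_of snd 0 0 11 _ _ _ _ _ _ 0x533033003303310033033003313330100115550133033013303301033033123323330210115533033101533302033233201013303302333021330330233033300210330330233033021330333002333103303330102101100 (by decide +kernel)

end Crest.Agent.R307.OCa
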