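import Crest.Agent.R307.OCa
set_option autoImplicit false
set_option maxRecDepth 100000
namespace Crest.Agent.R307.OCa
open Crest.Agent.R307.IA Crest.Agent.R307.IA3

theorem k30 : Cov Q 1152922329240568073 1152922604118474752 1152921779484754113 1152922054362661017 1152922230284521308 1152922461181963142 :=
  cov_of snd 0 0 9 _ _ _ _ _ _ 0x33233301033033213323330210033233203313310330333010213303302332333012033301330330330210330333021333003313320102101 (by decide +kernel)

theorem k31 : Cov Q 1152922054362661017 1152922604118474752 1152922054362661017 1152922604118474752 1152922230284521308 1152922461181963142 :=
  cov_of snd 0 0 12 _ _ _ _ _ _ 0x55550055033033001013303233003303013303133033010013303300331331003303310331333010011533133031015330330013303133031010333003301330330033300101330330133033010330332133302333021011531332033032133233203303210330330133033020133032330320330330213303300330233033021033033023303133020103313320330331013330233033020332333020101330330233033021330333002330333002103303302330333002133300330331023303310331330330102101100 (by decide +kernel)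

end Crest.Agent.R307.OCa
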