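import Crest.Agent.R307.OCaC0
import Crest.Agent.R307.OCaC1
set_option autoImplicit false
set_option maxRecDepth 100000
namespace Crest.Agent.R307.OCa
open Crest.Agent.R307.IA Crest.Agent.R307.IA3

theorem cov : Cov Q 1152921504606846976 1152922604118474752 1152921504606846976 1152922604118474752 1152922230284521308 1152922461181963142 :=
  (join1 1152922054362661017 (join1 1152921779484754113 k0 (join2 1152922054362661017 k1 k2)) (join2 1152922054362661017 (join1 1152922329240568073 (join2 1152921779484754113 (join2 1152921642045800643 k3 k4) k5) (join2 1152921779484754113 (join2 1152921642045800643 (join2 1152921573326323899 k6 k7) k8) k9)) k10))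

theorem main (l u p : ℝ) (l0 : (0:ℝ) ≤ l) (u0 : l ≤ (1:ℝ)) (l1 : (0:ℝ) ≤ u) (u1 : u ≤ (1:ℝ)) (l2 : (33/50:ℝ) ≤ p) (u2 : p ≤ (87/100:ℝ)) : Q l u p :=
  cov l u p (le_trans (by norm_num [val, SS, BB]) l0) (le_trans u0 (by norm_num [val, SS, BB])) (le_trans (by norm_num [val, SS, BB]) l1) (le_trans u1 (by norm_num [val, SS, BB])) (le_trans (by norm_num [val, SS, BB]) l2) (le_trans u2 (by norm_num [val, SS, BB]))

end Crest.Agent.R307.OCa
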