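import Crest.Agent.R307.IA3
import Crest.Agent.R307.IAx
set_option autoImplicit false
set_option linter.unusedVariables false
set_option maxRecDepth 20000
namespace Crest.Agent.R307.OCc
open Crest.Agent.R307.IA Crest.Agent.R307.IA3

theorem In_cast {e1 e2 e3 : ℝ} {x y1 y2 y3 r : ℕ} {v w : ℝ}
    (h : In e1 e2 e3 x y1 y2 y3 r v) (e : v = w) : In e1 e2 e3 x y1 y2 y3 r w := e ▸ h

noncomputable def r0 (t u p : ℝ) : ℝ := (√((1:ℝ) - ((t * u) ^ 2)))
noncomputable def c0 (t u p : ℝ) : ℝ := ((1/100:ℝ) - (((t * u) ^ 2) / ((1:ℝ) + (r0 t u p))))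
noncomputable def al (t u p : ℝ) : ℝ := (((1:ℝ) + p) / (2:ℝ))
noncomputable def be (t u p : ℝ) : ℝ := (((1:ℝ) - p) / (2:ℝ))
noncomputable def ex (t u p : ℝ) : ℝ := (√((al t u p) + ((be t u p) * (u * u))))
noncomputable def ey (t u p : ℝ) : ℝ := (√(((al t u p) * (u * u)) + (be t u p)))
noncomputable def rx (t u p : ℝ) : ℝ := (√((1:ℝ) - ((t * (ex t u p)) ^ 2)))
noncomputable def ry (t u p : ℝ) : ℝ := (√((1:ℝ) - ((t * (ey t u p)) ^ 2)))
noncomputable def r1 (t u p : ℝ) : ℝ := (√((1:ℝ) - (t ^ 2)))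
noncomputable def G (t u p : ℝ) : ℝ := ((((c0 t u p) * (((1:ℝ) / (((1:ℝ) + (ex t u p)) * ((ex t u p) + u))) + ((1:ℝ) / (((1:ℝ) + (ey t u p)) * ((ey t u p) + u))))) / ((1:ℝ) + u)) + ((t ^ 2) * ((((1:ℝ) / (((1:ℝ) + (ex t u p)) * ((rx t u p) + (r0 t u p)))) + ((1:ℝ) / (((1:ℝ) + (ey t u p)) * ((ry t u p) + (r0 t u p))))) + (((t * (t + (99/100:ℝ))) * (((1:ℝ) / (((r1 t u p) + (rx t u p)) * ((rx t u p) + (r0 t u p)))) + ((1:ℝ) / (((r1 t u p) + (ry t u p)) * ((ry t u p) + (r0 t u p)))))) / ((r1 t u p) + (r0 t u p))))))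
noncomputable def s (t u p : ℝ) : ℝ := (√((1:ℝ) - (p * p)))
noncomputable def n0 (t u p : ℝ) : ℝ := ((47/500:ℝ) + ((s t u p) * ((49/500:ℝ) + ((57/200:ℝ) * (s t u p)))))
noncomputable def u0 (t u p : ℝ) : ℝ := ((c0 t u p) + (((99/100:ℝ) * (t * u)) * ((2:ℝ) - ((1:ℝ) / ((1:ℝ) + (r0 t u p))))))
noncomputable def n1 (t u p : ℝ) : ℝ := ((49/50:ℝ) - ((27/50:ℝ) * (s t u p)))
noncomputable def c1 (t u p : ℝ) : ℝ := ((1/100:ℝ) - ((t ^ 2) / ((1:ℝ) + (r1 t u p))))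
noncomputable def u1 (t u p : ℝ) : ℝ := ((c1 t u p) + (((99/100:ℝ) * t) * ((2:ℝ) - ((1:ℝ) / ((1:ℝ) + (r1 t u p))))))
noncomputable def ka (t u p : ℝ) : ℝ := ((247/250:ℝ) + ((s t u p) / (125:ℝ)))
noncomputable def nu (t u p : ℝ) : ℝ := ((11/20:ℝ) + ((3/200:ℝ) * (s t u p)))
noncomputable def m (t u p : ℝ) : ℝ := ((t * ((ka t u p) + ((nu t u p) * (((t + (99/100:ℝ)) / ((r1 t u p) + (r0 t u p))) - (99/50:ℝ))))) - (((nu t u p) * (c0 t u p)) / ((1:ℝ) + u)))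

def Q (t u p : ℝ) : Prop :=
  (
  (0 < (((G t u p) * (((((al t u p) * (be t u p)) * (((1:ℝ) - (u * u)) ^ 2)) * (G t u p)) + ((2:ℝ) * ((((n0 t u p) * u) * (u0 t u p)) + ((n1 t u p) * (u1 t u p)))))) - (((4:ℝ) * (m t u p)) * (m t u p)))) ∨
  (0 < (-(m t u p))))

noncomputable def alt0 (z1 w1 z2 w2 z3 w3 : ℕ) : Bool :=
  addcK z2 1152921504606846976 (Nat.add w2 1152921504606846976) 1152921504606846976 0 1152922604118474752 0 fun c1 a1_1 a1_2 a1_3 q1 =>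
  invK c1 a1_1 a1_2 a1_3 q1 fun c3 a3_1 a3_2 a3_3 q3 =>
  mulK z1 (Nat.add w1 1152921504606846976) 1152921504606846976 1152921504606846976 0 z2 1152921504606846976 (Nat.add w2 1152921504606846976) 1152921504606846976 0 fun c4 a4_1 a4_2 a4_3 q4 =>
  sqK c4 a4_1 a4_2 a4_3 q4 fun c5 a5_1 a5_2 a5_3 q5 =>
  negK c5 a5_1 a5_2 a5_3 q5 fun c6 a6_1 a6_2 a6_3 q6 =>
  addcK c6 a6_1 a6_2 a6_3 q6 1152922604118474752 0 fun c7 a7_1 a7_2 a7_3 q7 =>
  sqrtK c7 a7_1 a7_2 a7_3 q7 fun c9 a9_1 a9_2 a9_3 q9 =>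
  addcK c9 a9_1 a9_2 a9_3 q9 1152922604118474752 0 fun c11 a11_1 a11_2 a11_3 q11 =>
  invK c11 a11_1 a11_2 a11_3 q11 fun c13 a13_1 a13_2 a13_3 q13 =>
  mulK c5 a5_1 a5_2 a5_3 q5 c13 a13_1 a13_2 a13_3 q13 fun c14 a14_1 a14_2 a14_3 q14 =>
  negK c14 a14_1 a14_2 a14_3 q14 fun c16 a16_1 a16_2 a16_3 q16 =>
  addcK c16 a16_1 a16_2 a16_3 q16 1152921515601963254 1 fun c17 a17_1 a17_2 a17_3 q17 =>
  addcK z3 1152921504606846976 1152921504606846976 (Nat.add w3 1152921504606846976) 0 1152922604118474752 0 fun c20 a20_1 a20_2 a20_3 q20 =>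
  smulK 1 2 2305843009213693954 1152921504606846976 c20 a20_1 a20_2 a20_3 q20 fun c22 a22_1 a22_2 a22_3 q22 =>
  negK z3 1152921504606846976 1152921504606846976 (Nat.add w3 1152921504606846976) 0 fun c25 a25_1 a25_2 a25_3 q25 =>
  addcK c25 a25_1 a25_2 a25_3 q25 1152922604118474752 0 fun c26 a26_1 a26_2 a26_3 q26 =>
  smulK 1 2 2305843009213693954 1152921504606846976 c26 a26_1 a26_2 a26_3 q26 fun c28 a28_1 a28_2 a28_3 q28 =>
  sqK z2 1152921504606846976 (Nat.add w2 1152921504606846976) 1152921504606846976 0 fun c31 a31_1 a31_2 a31_3 q31 =>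
  mulK c28 a28_1 a28_2 a28_3 q28 c31 a31_1 a31_2 a31_3 q31 fun c33 a33_1 a33_2 a33_3 q33 =>
  addK c22 a22_1 a22_2 a22_3 q22 c33 a33_1 a33_2 a33_3 q33 fun c34 a34_1 a34_2 a34_3 q34 =>
  sqrtK c34 a34_1 a34_2 a34_3 q34 fun c35 a35_1 a35_2 a35_3 q35 =>
  addcK c35 a35_1 a35_2 a35_3 q35 1152922604118474752 0 fun c37 a37_1 a37_2 a37_3 q37 =>
  addK c35 a35_1 a35_2 a35_3 q35 z2 1152921504606846976 (Nat.add w2 1152921504606846976) 1152921504606846976 0 fun c39 a39_1 a39_2 a39_3 q39 =>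
  mulK c37 a37_1 a37_2 a37_3 q37 c39 a39_1 a39_2 a39_3 q39 fun c40 a40_1 a40_2 a40_3 q40 =>
  invK c40 a40_1 a40_2 a40_3 q40 fun c41 a41_1 a41_2 a41_3 q41 =>
  mulK c22 a22_1 a22_2 a22_3 q22 c31 a31_1 a31_2 a31_3 q31 fun c43 a43_1 a43_2 a43_3 q43 =>
  addK c43 a43_1 a43_2 a43_3 q43 c28 a28_1 a28_2 a28_3 q28 fun c44 a44_1 a44_2 a44_3 q44 =>
  sqrtK c44 a44_1 a44_2 a44_3 q44 fun c45 a45_1 a45_2 a45_3 q45 =>
  addcK c45 a45_1 a45_2 a45_3 q45 1152922604118474752 0 fun c47 a47_1 a47_2 a47_3 q47 =>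
  addK c45 a45_1 a45_2 a45_3 q45 z2 1152921504606846976 (Nat.add w2 1152921504606846976) 1152921504606846976 0 fun c49 a49_1 a49_2 a49_3 q49 =>
  mulK c47 a47_1 a47_2 a47_3 q47 c49 a49_1 a49_2 a49_3 q49 fun c50 a50_1 a50_2 a50_3 q50 =>
  invK c50 a50_1 a50_2 a50_3 q50 fun c51 a51_1 a51_2 a51_3 q51 =>
  addK c41 a41_1 a41_2 a41_3 q41 c51 a51_1 a51_2 a51_3 q51 fun c53 a53_1 a53_2 a53_3 q53 =>
  mulK c17 a17_1 a17_2 a17_3 q17 c53 a53_1 a53_2 a53_3 q53 fun c54 a54_1 a54_2 a54_3 q54 =>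
  mulK c54 a54_1 a54_2 a54_3 q54 c3 a3_1 a3_2 a3_3 q3 fun c55 a55_1 a55_2 a55_3 q55 =>
  sqK z1 (Nat.add w1 1152921504606846976) 1152921504606846976 1152921504606846976 0 fun c57 a57_1 a57_2 a57_3 q57 =>
  mulK z1 (Nat.add w1 1152921504606846976) 1152921504606846976 1152921504606846976 0 c35 a35_1 a35_2 a35_3 q35 fun c58 a58_1 a58_2 a58_3 q58 =>
  sqK c58 a58_1 a58_2 a58_3 q58 fun c59 a59_1 a59_2 a59_3 q59 =>
  negK c59 a59_1 a59_2 a59_3 q59 fun c60 a60_1 a60_2 a60_3 q60 =>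
  addcK c60 a60_1 a60_2 a60_3 q60 1152922604118474752 0 fun c61 a61_1 a61_2 a61_3 q61 =>
  sqrtK c61 a61_1 a61_2 a61_3 q61 fun c63 a63_1 a63_2 a63_3 q63 =>
  addK c63 a63_1 a63_2 a63_3 q63 c9 a9_1 a9_2 a9_3 q9 fun c65 a65_1 a65_2 a65_3 q65 =>
  mulK c37 a37_1 a37_2 a37_3 q37 c65 a65_1 a65_2 a65_3 q65 fun c66 a66_1 a66_2 a66_3 q66 =>
  invK c66 a66_1 a66_2 a66_3 q66 fun c67 a67_1 a67_2 a67_3 q67 =>
  mulK z1 (Nat.add w1 1152921504606846976) 1152921504606846976 1152921504606846976 0 c45 a45_1 a45_2 a45_3 q45 fun c69 a69_1 a69_2 a69_3 q69 =>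
  sqK c69 a69_1 a69_2 a69_3 q69 fun c70 a70_1 a70_2 a70_3 q70 =>
  negK c70 a70_1 a70_2 a70_3 q70 fun c71 a71_1 a71_2 a71_3 q71 =>
  addcK c71 a71_1 a71_2 a71_3 q71 1152922604118474752 0 fun c72 a72_1 a72_2 a72_3 q72 =>
  sqrtK c72 a72_1 a72_2 a72_3 q72 fun c74 a74_1 a74_2 a74_3 q74 =>
  addK c74 a74_1 a74_2 a74_3 q74 c9 a9_1 a9_2 a9_3 q9 fun c76 a76_1 a76_2 a76_3 q76 =>
  mulK c47 a47_1 a47_2 a47_3 q47 c76 a76_1 a76_2 a76_3 q76 fun c77 a77_1 a77_2 a77_3 q77 =>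
  invK c77 a77_1 a77_2 a77_3 q77 fun c78 a78_1 a78_2 a78_3 q78 =>
  addK c67 a67_1 a67_2 a67_3 q67 c78 a78_1 a78_2 a78_3 q78 fun c80 a80_1 a80_2 a80_3 q80 =>
  negK c57 a57_1 a57_2 a57_3 q57 fun c81 a81_1 a81_2 a81_3 q81 =>
  addcK c81 a81_1 a81_2 a81_3 q81 1152922604118474752 0 fun c82 a82_1 a82_2 a82_3 q82 =>
  sqrtK c82 a82_1 a82_2 a82_3 q82 fun c84 a84_1 a84_2 a84_3 q84 =>
  addK c84 a84_1 a84_2 a84_3 q84 c9 a9_1 a9_2 a9_3 q9 fun c86 a86_1 a86_2 a86_3 q86 =>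
  invK c86 a86_1 a86_2 a86_3 q86 fun c87 a87_1 a87_2 a87_3 q87 =>
  addcK z1 (Nat.add w1 1152921504606846976) 1152921504606846976 1152921504606846976 0 1152922593123358474 1 fun c88 a88_1 a88_2 a88_3 q88 =>
  mulK z1 (Nat.add w1 1152921504606846976) 1152921504606846976 1152921504606846976 0 c88 a88_1 a88_2 a88_3 q88 fun c89 a89_1 a89_2 a89_3 q89 =>
  addK c84 a84_1 a84_2 a84_3 q84 c63 a63_1 a63_2 a63_3 q63 fun c90 a90_1 a90_2 a90_3 q90 =>
  mulK c90 a90_1 a90_2 a90_3 q90 c65 a65_1 a65_2 a65_3 q65 fun c91 a91_1 a91_2 a91_3 q91 =>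
  invK c91 a91_1 a91_2 a91_3 q91 fun c92 a92_1 a92_2 a92_3 q92 =>
  addK c84 a84_1 a84_2 a84_3 q84 c74 a74_1 a74_2 a74_3 q74 fun c94 a94_1 a94_2 a94_3 q94 =>
  mulK c94 a94_1 a94_2 a94_3 q94 c76 a76_1 a76_2 a76_3 q76 fun c95 a95_1 a95_2 a95_3 q95 =>
  invK c95 a95_1 a95_2 a95_3 q95 fun c96 a96_1 a96_2 a96_3 q96 =>
  addK c92 a92_1 a92_2 a92_3 q92 c96 a96_1 a96_2 a96_3 q96 fun c98 a98_1 a98_2 a98_3 q98 =>
  mulK c89 a89_1 a89_2 a89_3 q89 c98 a98_1 a98_2 a98_3 q98 fun c99 a99_1 a99_2 a99_3 q99 =>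
  mulK c99 a99_1 a99_2 a99_3 q99 c87 a87_1 a87_2 a87_3 q87 fun c100 a100_1 a100_2 a100_3 q100 =>
  addK c80 a80_1 a80_2 a80_3 q80 c100 a100_1 a100_2 a100_3 q100 fun c102 a102_1 a102_2 a102_3 q102 =>
  mulK c57 a57_1 a57_2 a57_3 q57 c102 a102_1 a102_2 a102_3 q102 fun c103 a103_1 a103_2 a103_3 q103 =>
  addK c55 a55_1 a55_2 a55_3 q55 c103 a103_1 a103_2 a103_3 q103 fun c104 a104_1 a104_2 a104_3 q104 =>
  mulK c22 a22_1 a22_2 a22_3 q22 c28 a28_1 a28_2 a28_3 q28 fun c106 a106_1 a106_2 a106_3 q106 =>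
  negK c31 a31_1 a31_2 a31_3 q31 fun c107 a107_1 a107_2 a107_3 q107 =>
  addcK c107 a107_1 a107_2 a107_3 q107 1152922604118474752 0 fun c108 a108_1 a108_2 a108_3 q108 =>
  sqK c108 a108_1 a108_2 a108_3 q108 fun c110 a110_1 a110_2 a110_3 q110 =>
  mulK c106 a106_1 a106_2 a106_3 q106 c110 a110_1 a110_2 a110_3 q110 fun c111 a111_1 a111_2 a111_3 q111 =>
  mulK c111 a111_1 a111_2 a111_3 q111 c104 a104_1 a104_2 a104_3 q104 fun c112 a112_1 a112_2 a112_3 q112 =>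
  sqK z3 1152921504606846976 1152921504606846976 (Nat.add w3 1152921504606846976) 0 fun c113 a113_1 a113_2 a113_3 q113 =>
  negK c113 a113_1 a113_2 a113_3 q113 fun c115 a115_1 a115_2 a115_3 q115 =>
  addcK c115 a115_1 a115_2 a115_3 q115 1152922604118474752 0 fun c116 a116_1 a116_2 a116_3 q116 =>
  sqrtK c116 a116_1 a116_2 a116_3 q116 fun c118 a118_1 a118_2 a118_3 q118 =>
  smulK 57 200 230584300921369395400 65716525762590277632 c118 a118_1 a118_2 a118_3 q118 fun c120 a120_1 a120_2 a120_3 q120 =>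
  addcK c120 a120_1 a120_2 a120_3 q120 1152921612358986498 1 fun c121 a121_1 a121_2 a121_3 q121 =>
  mulK c118 a118_1 a118_2 a118_3 q118 c121 a121_1 a121_2 a121_3 q121 fun c123 a123_1 a123_2 a123_3 q123 =>
  addcK c123 a123_1 a123_2 a123_3 q123 1152921607960939987 1 fun c124 a124_1 a124_2 a124_3 q124 =>
  mulK c124 a124_1 a124_2 a124_3 q124 z2 1152921504606846976 (Nat.add w2 1152921504606846976) 1152921504606846976 0 fun c127 a127_1 a127_2 a127_3 q127 =>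
  smulK 99 100 115292150460684697700 114139228956077850624 c4 a4_1 a4_2 a4_3 q4 fun c128 a128_1 a128_2 a128_3 q128 =>
  negK c13 a13_1 a13_2 a13_3 q13 fun c130 a130_1 a130_2 a130_3 q130 =>
  addcK c130 a130_1 a130_2 a130_3 q130 1152923703630102528 0 fun c131 a131_1 a131_2 a131_3 q131 =>
  mulK c128 a128_1 a128_2 a128_3 q128 c131 a131_1 a131_2 a131_3 q131 fun c133 a133_1 a133_2 a133_3 q133 =>
  addK c17 a17_1 a17_2 a17_3 q17 c133 a133_1 a133_2 a133_3 q133 fun c134 a134_1 a134_2 a134_3 q134 =>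
  mulK c127 a127_1 a127_2 a127_3 q127 c134 a134_1 a134_2 a134_3 q134 fun c136 a136_1 a136_2 a136_3 q136 =>
  smulK 27 50 57646075230342348850 31128880624384868352 c118 a118_1 a118_2 a118_3 q118 fun c137 a137_1 a137_2 a137_3 q137 =>
  negK c137 a137_1 a137_2 a137_3 q137 fun c138 a138_1 a138_2 a138_3 q138 =>
  addcK c138 a138_1 a138_2 a138_3 q138 1152922582128242196 1 fun c139 a139_1 a139_2 a139_3 q139 =>
  addcK c84 a84_1 a84_2 a84_3 q84 1152922604118474752 0 fun c142 a142_1 a142_2 a142_3 q142 =>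
  invK c142 a142_1 a142_2 a142_3 q142 fun c144 a144_1 a144_2 a144_3 q144 =>
  mulK c57 a57_1 a57_2 a57_3 q57 c144 a144_1 a144_2 a144_3 q144 fun c145 a145_1 a145_2 a145_3 q145 =>
  negK c145 a145_1 a145_2 a145_3 q145 fun c147 a147_1 a147_2 a147_3 q147 =>
  addcK c147 a147_1 a147_2 a147_3 q147 1152921515601963254 1 fun c148 a148_1 a148_2 a148_3 q148 =>
  smulK 99 100 115292150460684697700 114139228956077850624 z1 (Nat.add w1 1152921504606846976) 1152921504606846976 1152921504606846976 0 fun c151 a151_1 a151_2 a151_3 q151 =>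
  negK c144 a144_1 a144_2 a144_3 q144 fun c153 a153_1 a153_2 a153_3 q153 =>
  addcK c153 a153_1 a153_2 a153_3 q153 1152923703630102528 0 fun c154 a154_1 a154_2 a154_3 q154 =>
  mulK c151 a151_1 a151_2 a151_3 q151 c154 a154_1 a154_2 a154_3 q154 fun c156 a156_1 a156_2 a156_3 q156 =>
  addK c148 a148_1 a148_2 a148_3 q148 c156 a156_1 a156_2 a156_3 q156 fun c157 a157_1 a157_2 a157_3 q157 =>
  mulK c139 a139_1 a139_2 a139_3 q139 c157 a157_1 a157_2 a157_3 q157 fun c159 a159_1 a159_2 a159_3 q159 =>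
  addK c136 a136_1 a136_2 a136_3 q136 c159 a159_1 a159_2 a159_3 q159 fun c160 a160_1 a160_2 a160_3 q160 =>
  smulK 2 1 1152921504606846977 2305843009213693952 c160 a160_1 a160_2 a160_3 q160 fun c161 a161_1 a161_2 a161_3 q161 =>
  addK c112 a112_1 a112_2 a112_3 q112 c161 a161_1 a161_2 a161_3 q161 fun c162 a162_1 a162_2 a162_3 q162 =>
  mulK c104 a104_1 a104_2 a104_3 q104 c162 a162_1 a162_2 a162_3 q162 fun c163 a163_1 a163_2 a163_3 q163 =>
  smulK 1 125 144115188075855872125 1152921504606846976 c118 a118_1 a118_2 a118_3 q118 fun c164 a164_1 a164_2 a164_3 q164 =>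
  addcK c164 a164_1 a164_2 a164_3 q164 1152922590924335219 1 fun c166 a166_1 a166_2 a166_3 q166 =>
  smulK 3 200 230584300921369395400 3458764513820540928 c118 a118_1 a118_2 a118_3 q118 fun c169 a169_1 a169_2 a169_3 q169 =>
  addcK c169 a169_1 a169_2 a169_3 q169 1152922109338242253 1 fun c170 a170_1 a170_2 a170_3 q170 =>
  mulK c88 a88_1 a88_2 a88_3 q88 c87 a87_1 a87_2 a87_3 q87 fun c173 a173_1 a173_2 a173_3 q173 =>
  addcK c173 a173_1 a173_2 a173_3 q173 1152919327573823980 1 fun c175 a175_1 a175_2 a175_3 q175 =>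
  mulK c170 a170_1 a170_2 a170_3 q170 c175 a175_1 a175_2 a175_3 q175 fun c177 a177_1 a177_2 a177_3 q177 =>
  addK c166 a166_1 a166_2 a166_3 q166 c177 a177_1 a177_2 a177_3 q177 fun c178 a178_1 a178_2 a178_3 q178 =>
  mulK z1 (Nat.add w1 1152921504606846976) 1152921504606846976 1152921504606846976 0 c178 a178_1 a178_2 a178_3 q178 fun c179 a179_1 a179_2 a179_3 q179 =>
  mulK c170 a170_1 a170_2 a170_3 q170 c17 a17_1 a17_2 a17_3 q17 fun c180 a180_1 a180_2 a180_3 q180 =>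
  mulK c180 a180_1 a180_2 a180_3 q180 c3 a3_1 a3_2 a3_3 q3 fun c181 a181_1 a181_2 a181_3 q181 =>
  subK c179 a179_1 a179_2 a179_3 q179 c181 a181_1 a181_2 a181_3 q181 fun c183 a183_1 a183_2 a183_3 q183 =>
  smulK 4 1 1152921504606846977 4611686018427387904 c183 a183_1 a183_2 a183_3 q183 fun c185 a185_1 a185_2 a185_3 q185 =>
  mulK c185 a185_1 a185_2 a185_3 q185 c183 a183_1 a183_2 a183_3 q183 fun c186 a186_1 a186_2 a186_3 q186 =>
  subK c163 a163_1 a163_2 a163_3 q163 c186 a186_1 a186_2 a186_3 q186 fun c187 a187_1 a187_2 a187_3 q187 =>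
  pos c187 a187_1 a187_2 a187_3 q187

theorem alt0_s {z1 w1 z2 w2 z3 w3 : ℕ} {e1 e2 e3 t u p : ℝ} (he : Ev e1 e2 e3)
    (hx1 : In e1 e2 e3 z1 (Nat.add w1 1152921504606846976) 1152921504606846976 1152921504606846976 0 t)
    (hx2 : In e1 e2 e3 z2 1152921504606846976 (Nat.add w2 1152921504606846976) 1152921504606846976 0 u)
    (hx3 : In e1 e2 e3 z3 1152921504606846976 1152921504606846976 (Nat.add w3 1152921504606846976) 0 p)
    (H0 : alt0 z1 w1 z2 w2 z3 w3 = true) : 0 < (((G t u p) * (((((al t u p) * (be t u p)) * (((1:ℝ) - (u * u)) ^ 2)) * (G t u p)) + ((2:ℝ) * ((((n0 t u p) * u) * (u0 t u p)) + ((n1 t u p) * (u1 t u p)))))) - (((4:ℝ) * (m t u p)) * (m t u p))) := by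
  unfold alt0 at H0
  refine addcK_s he hx2 (v' := (1:ℝ)) (by norm_num [SS, BB, abs_le]) (fun _ _ _ _ _ h1 H1 => ?_) H0
  have h2 := In_cast h1 (add_comm _ _)
  refine invK_s he h2 (fun _ _ _ _ _ h3 H2 => ?_) H1
  refine mulK_s he hx1 hx2 (fun _ _ _ _ _ h4 H3 => ?_) H2
  refine sqK_s he h4 (fun _ _ _ _ _ h5 H4 => ?_) H3
  refine negK_s he h5 (fun _ _ _ _ _ h6 H5 => ?_) H4
  refine addcK_s he h6 (v' := (1:ℝ)) (by norm_num [SS, BB, abs_le]) (fun _ _ _ _ _ h7 H6 => ?_) H5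
  have h8 := In_cast h7 (neg_add_eq_sub _ _)
  refine sqrtK_s he h8 (fun _ _ _ _ _ h9 H7 => ?_) H6
  have h10 := In_cast (w := (r0 t u p)) h9 rfl
  refine addcK_s he h10 (v' := (1:ℝ)) (by norm_num [SS, BB, abs_le]) (fun _ _ _ _ _ h11 H8 => ?_) H7
  have h12 := In_cast h11 (add_comm _ _)
  refine invK_s he h12 (fun _ _ _ _ _ h13 H9 => ?_) H8
  refine mulK_s he h5 h13 (fun _ _ _ _ _ h14 H10 => ?_) H9
  have h15 := In_cast h14 ((div_eq_mul_inv _ _).symm)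
  refine negK_s he h15 (fun _ _ _ _ _ h16 H11 => ?_) H10
  refine addcK_s he h16 (v' := (1/100:ℝ)) (by norm_num [SS, BB, abs_le]) (fun _ _ _ _ _ h17 H12 => ?_) H11
  have h18 := In_cast h17 (neg_add_eq_sub _ _)
  have h19 := In_cast (w := (c0 t u p)) h18 rfl
  refine addcK_s he hx3 (v' := (1:ℝ)) (by norm_num [SS, BB, abs_le]) (fun _ _ _ _ _ h20 H13 => ?_) H12
  have h21 := In_cast h20 (add_comm _ _)
  refine smulK_s he (w := (1/2:ℝ)) (by norm_num) (by norm_num) (by norm_num) (by norm_num) h21 (fun _ _ _ _ _ h22 H14 => ?_) H13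
  have h23 := In_cast h22 (div_c (c := (2:ℝ)) (by norm_num))
  have h24 := In_cast (w := (al t u p)) h23 rfl
  refine negK_s he hx3 (fun _ _ _ _ _ h25 H15 => ?_) H14
  refine addcK_s he h25 (v' := (1:ℝ)) (by norm_num [SS, BB, abs_le]) (fun _ _ _ _ _ h26 H16 => ?_) H15
  have h27 := In_cast h26 (neg_add_eq_sub _ _)
  refine smulK_s he (w := (1/2:ℝ)) (by norm_num) (by norm_num) (by norm_num) (by norm_num) h27 (fun _ _ _ _ _ h28 H17 => ?_) H16
  have h29 := In_cast h28 (div_c (c := (2:ℝ)) (by norm_num))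
  have h30 := In_cast (w := (be t u p)) h29 rfl
  refine sqK_s he hx2 (fun _ _ _ _ _ h31 H18 => ?_) H17
  have h32 := In_cast h31 (sq _)
  refine mulK_s he h30 h32 (fun _ _ _ _ _ h33 H19 => ?_) H18
  refine addK_s he h24 h33 (fun _ _ _ _ _ h34 H20 => ?_) H19
  refine sqrtK_s he h34 (fun _ _ _ _ _ h35 H21 => ?_) H20
  have h36 := In_cast (w := (ex t u p)) h35 rfl
  refine addcK_s he h36 (v' := (1:ℝ)) (by norm_num [SS, BB, abs_le]) (fun _ _ _ _ _ h37 H22 => ?_) H21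
  have h38 := In_cast h37 (add_comm _ _)
  refine addK_s he h36 hx2 (fun _ _ _ _ _ h39 H23 => ?_) H22
  refine mulK_s he h38 h39 (fun _ _ _ _ _ h40 H24 => ?_) H23
  refine invK_s he h40 (fun _ _ _ _ _ h41 H25 => ?_) H24
  have h42 := In_cast h41 (inv_eq_one_div _)
  refine mulK_s he h24 h32 (fun _ _ _ _ _ h43 H26 => ?_) H25
  refine addK_s he h43 h30 (fun _ _ _ _ _ h44 H27 => ?_) H26
  refine sqrtK_s he h44 (fun _ _ _ _ _ h45 H28 => ?_) H27
  have h46 := In_cast (w := (ey t u p)) h45 rfl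
  refine addcK_s he h46 (v' := (1:ℝ)) (by norm_num [SS, BB, abs_le]) (fun _ _ _ _ _ h47 H29 => ?_) H28
  have h48 := In_cast h47 (add_comm _ _)
  refine addK_s he h46 hx2 (fun _ _ _ _ _ h49 H30 => ?_) H29
  refine mulK_s he h48 h49 (fun _ _ _ _ _ h50 H31 => ?_) H30
  refine invK_s he h50 (fun _ _ _ _ _ h51 H32 => ?_) H31
  have h52 := In_cast h51 (inv_eq_one_div _)
  refine addK_s he h42 h52 (fun _ _ _ _ _ h53 H33 => ?_) H32
  refine mulK_s he h19 h53 (fun _ _ _ _ _ h54 H34 => ?_) H33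
  refine mulK_s he h54 h3 (fun _ _ _ _ _ h55 H35 => ?_) H34
  have h56 := In_cast h55 ((div_eq_mul_inv _ _).symm)
  refine sqK_s he hx1 (fun _ _ _ _ _ h57 H36 => ?_) H35
  refine mulK_s he hx1 h36 (fun _ _ _ _ _ h58 H37 => ?_) H36
  refine sqK_s he h58 (fun _ _ _ _ _ h59 H38 => ?_) H37
  refine negK_s he h59 (fun _ _ _ _ _ h60 H39 => ?_) H38
  refine addcK_s he h60 (v' := (1:ℝ)) (by norm_num [SS, BB, abs_le]) (fun _ _ _ _ _ h61 H40 => ?_) H39
  have h62 := In_cast h61 (neg_add_eq_sub _ _)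
  refine sqrtK_s he h62 (fun _ _ _ _ _ h63 H41 => ?_) H40
  have h64 := In_cast (w := (rx t u p)) h63 rfl
  refine addK_s he h64 h10 (fun _ _ _ _ _ h65 H42 => ?_) H41
  refine mulK_s he h38 h65 (fun _ _ _ _ _ h66 H43 => ?_) H42
  refine invK_s he h66 (fun _ _ _ _ _ h67 H44 => ?_) H43
  have h68 := In_cast h67 (inv_eq_one_div _)
  refine mulK_s he hx1 h46 (fun _ _ _ _ _ h69 H45 => ?_) H44
  refine sqK_s he h69 (fun _ _ _ _ _ h70 H46 => ?_) H45
  refine negK_s he h70 (fun _ _ _ _ _ h71 H47 => ?_) H46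
  refine addcK_s he h71 (v' := (1:ℝ)) (by norm_num [SS, BB, abs_le]) (fun _ _ _ _ _ h72 H48 => ?_) H47
  have h73 := In_cast h72 (neg_add_eq_sub _ _)
  refine sqrtK_s he h73 (fun _ _ _ _ _ h74 H49 => ?_) H48
  have h75 := In_cast (w := (ry t u p)) h74 rfl
  refine addK_s he h75 h10 (fun _ _ _ _ _ h76 H50 => ?_) H49
  refine mulK_s he h48 h76 (fun _ _ _ _ _ h77 H51 => ?_) H50
  refine invK_s he h77 (fun _ _ _ _ _ h78 H52 => ?_) H51
  have h79 := In_cast h78 (inv_eq_one_div _)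
  refine addK_s he h68 h79 (fun _ _ _ _ _ h80 H53 => ?_) H52
  refine negK_s he h57 (fun _ _ _ _ _ h81 H54 => ?_) H53
  refine addcK_s he h81 (v' := (1:ℝ)) (by norm_num [SS, BB, abs_le]) (fun _ _ _ _ _ h82 H55 => ?_) H54
  have h83 := In_cast h82 (neg_add_eq_sub _ _)
  refine sqrtK_s he h83 (fun _ _ _ _ _ h84 H56 => ?_) H55
  have h85 := In_cast (w := (r1 t u p)) h84 rfl
  refine addK_s he h85 h10 (fun _ _ _ _ _ h86 H57 => ?_) H56
  refine invK_s he h86 (fun _ _ _ _ _ h87 H58 => ?_) H57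
  refine addcK_s he hx1 (v' := (99/100:ℝ)) (by norm_num [SS, BB, abs_le]) (fun _ _ _ _ _ h88 H59 => ?_) H58
  refine mulK_s he hx1 h88 (fun _ _ _ _ _ h89 H60 => ?_) H59
  refine addK_s he h85 h64 (fun _ _ _ _ _ h90 H61 => ?_) H60
  refine mulK_s he h90 h65 (fun _ _ _ _ _ h91 H62 => ?_) H61
  refine invK_s he h91 (fun _ _ _ _ _ h92 H63 => ?_) H62
  have h93 := In_cast h92 (inv_eq_one_div _)
  refine addK_s he h85 h75 (fun _ _ _ _ _ h94 H64 => ?_) H63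
  refine mulK_s he h94 h76 (fun _ _ _ _ _ h95 H65 => ?_) H64
  refine invK_s he h95 (fun _ _ _ _ _ h96 H66 => ?_) H65
  have h97 := In_cast h96 (inv_eq_one_div _)
  refine addK_s he h93 h97 (fun _ _ _ _ _ h98 H67 => ?_) H66
  refine mulK_s he h89 h98 (fun _ _ _ _ _ h99 H68 => ?_) H67
  refine mulK_s he h99 h87 (fun _ _ _ _ _ h100 H69 => ?_) H68
  have h101 := In_cast h100 ((div_eq_mul_inv _ _).symm)
  refine addK_s he h80 h101 (fun _ _ _ _ _ h102 H70 => ?_) H69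
  refine mulK_s he h57 h102 (fun _ _ _ _ _ h103 H71 => ?_) H70
  refine addK_s he h56 h103 (fun _ _ _ _ _ h104 H72 => ?_) H71
  have h105 := In_cast (w := (G t u p)) h104 rfl
  refine mulK_s he h24 h30 (fun _ _ _ _ _ h106 H73 => ?_) H72
  refine negK_s he h32 (fun _ _ _ _ _ h107 H74 => ?_) H73
  refine addcK_s he h107 (v' := (1:ℝ)) (by norm_num [SS, BB, abs_le]) (fun _ _ _ _ _ h108 H75 => ?_) H74
  have h109 := In_cast h108 (neg_add_eq_sub _ _)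
  refine sqK_s he h109 (fun _ _ _ _ _ h110 H76 => ?_) H75
  refine mulK_s he h106 h110 (fun _ _ _ _ _ h111 H77 => ?_) H76
  refine mulK_s he h111 h105 (fun _ _ _ _ _ h112 H78 => ?_) H77
  refine sqK_s he hx3 (fun _ _ _ _ _ h113 H79 => ?_) H78
  have h114 := In_cast h113 (sq _)
  refine negK_s he h114 (fun _ _ _ _ _ h115 H80 => ?_) H79
  refine addcK_s he h115 (v' := (1:ℝ)) (by norm_num [SS, BB, abs_le]) (fun _ _ _ _ _ h116 H81 => ?_) H80
  have h117 := In_cast h116 (neg_add_eq_sub _ _)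
  refine sqrtK_s he h117 (fun _ _ _ _ _ h118 H82 => ?_) H81
  have h119 := In_cast (w := (s t u p)) h118 rfl
  refine smulK_s he (w := (57/200:ℝ)) (by norm_num) (by norm_num) (by norm_num) (by norm_num) h119 (fun _ _ _ _ _ h120 H83 => ?_) H82
  refine addcK_s he h120 (v' := (49/500:ℝ)) (by norm_num [SS, BB, abs_le]) (fun _ _ _ _ _ h121 H84 => ?_) H83
  have h122 := In_cast h121 (add_comm _ _)
  refine mulK_s he h119 h122 (fun _ _ _ _ _ h123 H85 => ?_) H84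
  refine addcK_s he h123 (v' := (47/500:ℝ)) (by norm_num [SS, BB, abs_le]) (fun _ _ _ _ _ h124 H86 => ?_) H85
  have h125 := In_cast h124 (add_comm _ _)
  have h126 := In_cast (w := (n0 t u p)) h125 rfl
  refine mulK_s he h126 hx2 (fun _ _ _ _ _ h127 H87 => ?_) H86
  refine smulK_s he (w := (99/100:ℝ)) (by norm_num) (by norm_num) (by norm_num) (by norm_num) h4 (fun _ _ _ _ _ h128 H88 => ?_) H87
  have h129 := In_cast h13 (inv_eq_one_div _)
  refine negK_s he h129 (fun _ _ _ _ _ h130 H89 => ?_) H88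
  refine addcK_s he h130 (v' := (2:ℝ)) (by norm_num [SS, BB, abs_le]) (fun _ _ _ _ _ h131 H90 => ?_) H89
  have h132 := In_cast h131 (neg_add_eq_sub _ _)
  refine mulK_s he h128 h132 (fun _ _ _ _ _ h133 H91 => ?_) H90
  refine addK_s he h19 h133 (fun _ _ _ _ _ h134 H92 => ?_) H91
  have h135 := In_cast (w := (u0 t u p)) h134 rfl
  refine mulK_s he h127 h135 (fun _ _ _ _ _ h136 H93 => ?_) H92
  refine smulK_s he (w := (27/50:ℝ)) (by norm_num) (by norm_num) (by norm_num) (by norm_num) h119 (fun _ _ _ _ _ h137 H94 => ?_) H93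
  refine negK_s he h137 (fun _ _ _ _ _ h138 H95 => ?_) H94
  refine addcK_s he h138 (v' := (49/50:ℝ)) (by norm_num [SS, BB, abs_le]) (fun _ _ _ _ _ h139 H96 => ?_) H95
  have h140 := In_cast h139 (neg_add_eq_sub _ _)
  have h141 := In_cast (w := (n1 t u p)) h140 rfl
  refine addcK_s he h85 (v' := (1:ℝ)) (by norm_num [SS, BB, abs_le]) (fun _ _ _ _ _ h142 H97 => ?_) H96
  have h143 := In_cast h142 (add_comm _ _)
  refine invK_s he h143 (fun _ _ _ _ _ h144 H98 => ?_) H97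
  refine mulK_s he h57 h144 (fun _ _ _ _ _ h145 H99 => ?_) H98
  have h146 := In_cast h145 ((div_eq_mul_inv _ _).symm)
  refine negK_s he h146 (fun _ _ _ _ _ h147 H100 => ?_) H99
  refine addcK_s he h147 (v' := (1/100:ℝ)) (by norm_num [SS, BB, abs_le]) (fun _ _ _ _ _ h148 H101 => ?_) H100
  have h149 := In_cast h148 (neg_add_eq_sub _ _)
  have h150 := In_cast (w := (c1 t u p)) h149 rfl
  refine smulK_s he (w := (99/100:ℝ)) (by norm_num) (by norm_num) (by norm_num) (by norm_num) hx1 (fun _ _ _ _ _ h151 H102 => ?_) H101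
  have h152 := In_cast h144 (inv_eq_one_div _)
  refine negK_s he h152 (fun _ _ _ _ _ h153 H103 => ?_) H102
  refine addcK_s he h153 (v' := (2:ℝ)) (by norm_num [SS, BB, abs_le]) (fun _ _ _ _ _ h154 H104 => ?_) H103
  have h155 := In_cast h154 (neg_add_eq_sub _ _)
  refine mulK_s he h151 h155 (fun _ _ _ _ _ h156 H105 => ?_) H104
  refine addK_s he h150 h156 (fun _ _ _ _ _ h157 H106 => ?_) H105
  have h158 := In_cast (w := (u1 t u p)) h157 rfl
  refine mulK_s he h141 h158 (fun _ _ _ _ _ h159 H107 => ?_) H106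
  refine addK_s he h136 h159 (fun _ _ _ _ _ h160 H108 => ?_) H107
  refine smulK_s he (w := (2:ℝ)) (by norm_num) (by norm_num) (by norm_num) (by norm_num) h160 (fun _ _ _ _ _ h161 H109 => ?_) H108
  refine addK_s he h112 h161 (fun _ _ _ _ _ h162 H110 => ?_) H109
  refine mulK_s he h105 h162 (fun _ _ _ _ _ h163 H111 => ?_) H110
  refine smulK_s he (w := (1/125:ℝ)) (by norm_num) (by norm_num) (by norm_num) (by norm_num) h119 (fun _ _ _ _ _ h164 H112 => ?_) H111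
  have h165 := In_cast h164 (div_c (c := (125:ℝ)) (by norm_num))
  refine addcK_s he h165 (v' := (247/250:ℝ)) (by norm_num [SS, BB, abs_le]) (fun _ _ _ _ _ h166 H113 => ?_) H112
  have h167 := In_cast h166 (add_comm _ _)
  have h168 := In_cast (w := (ka t u p)) h167 rfl
  refine smulK_s he (w := (3/200:ℝ)) (by norm_num) (by norm_num) (by norm_num) (by norm_num) h119 (fun _ _ _ _ _ h169 H114 => ?_) H113
  refine addcK_s he h169 (v' := (11/20:ℝ)) (by norm_num [SS, BB, abs_le]) (fun _ _ _ _ _ h170 H115 => ?_) H114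
  have h171 := In_cast h170 (add_comm _ _)
  have h172 := In_cast (w := (nu t u p)) h171 rfl
  refine mulK_s he h88 h87 (fun _ _ _ _ _ h173 H116 => ?_) H115
  have h174 := In_cast h173 ((div_eq_mul_inv _ _).symm)
  refine addcK_s he h174 (v' := (-99/50:ℝ)) (by norm_num [SS, BB, abs_le]) (fun _ _ _ _ _ h175 H117 => ?_) H116
  have h176 := In_cast h175 (sub_c (c := (99/50:ℝ)) (by norm_num))
  refine mulK_s he h172 h176 (fun _ _ _ _ _ h177 H118 => ?_) H117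
  refine addK_s he h168 h177 (fun _ _ _ _ _ h178 H119 => ?_) H118
  refine mulK_s he hx1 h178 (fun _ _ _ _ _ h179 H120 => ?_) H119
  refine mulK_s he h172 h19 (fun _ _ _ _ _ h180 H121 => ?_) H120
  refine mulK_s he h180 h3 (fun _ _ _ _ _ h181 H122 => ?_) H121
  have h182 := In_cast h181 ((div_eq_mul_inv _ _).symm)
  refine subK_s he h179 h182 (fun _ _ _ _ _ h183 H123 => ?_) H122
  have h184 := In_cast (w := (m t u p)) h183 rfl
  refine smulK_s he (w := (4:ℝ)) (by norm_num) (by norm_num) (by norm_num) (by norm_num) h184 (fun _ _ _ _ _ h185 H124 => ?_) H123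
  refine mulK_s he h185 h184 (fun _ _ _ _ _ h186 H125 => ?_) H124
  refine subK_s he h163 h186 (fun _ _ _ _ _ h187 H126 => ?_) H125
  exact pos_s he h187 H126

noncomputable def alt1 (z1 w1 z2 w2 z3 w3 : ℕ) : Bool :=
  sqK z3 1152921504606846976 1152921504606846976 (Nat.add w3 1152921504606846976) 0 fun c1 a1_1 a1_2 a1_3 q1 =>
  negK c1 a1_1 a1_2 a1_3 q1 fun c3 a3_1 a3_2 a3_3 q3 =>
  addcK c3 a3_1 a3_2 a3_3 q3 1152922604118474752 0 fun c4 a4_1 a4_2 a4_3 q4 =>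
  sqrtK c4 a4_1 a4_2 a4_3 q4 fun c6 a6_1 a6_2 a6_3 q6 =>
  smulK 1 125 144115188075855872125 1152921504606846976 c6 a6_1 a6_2 a6_3 q6 fun c8 a8_1 a8_2 a8_3 q8 =>
  addcK c8 a8_1 a8_2 a8_3 q8 1152922590924335219 1 fun c10 a10_1 a10_2 a10_3 q10 =>
  smulK 3 200 230584300921369395400 3458764513820540928 c6 a6_1 a6_2 a6_3 q6 fun c13 a13_1 a13_2 a13_3 q13 =>
  addcK c13 a13_1 a13_2 a13_3 q13 1152922109338242253 1 fun c14 a14_1 a14_2 a14_3 q14 =>
  sqK z1 (Nat.add w1 1152921504606846976) 1152921504606846976 1152921504606846976 0 fun c17 a17_1 a17_2 a17_3 q17 =>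
  negK c17 a17_1 a17_2 a17_3 q17 fun c18 a18_1 a18_2 a18_3 q18 =>
  addcK c18 a18_1 a18_2 a18_3 q18 1152922604118474752 0 fun c19 a19_1 a19_2 a19_3 q19 =>
  sqrtK c19 a19_1 a19_2 a19_3 q19 fun c21 a21_1 a21_2 a21_3 q21 =>
  mulK z1 (Nat.add w1 1152921504606846976) 1152921504606846976 1152921504606846976 0 z2 1152921504606846976 (Nat.add w2 1152921504606846976) 1152921504606846976 0 fun c23 a23_1 a23_2 a23_3 q23 =>
  sqK c23 a23_1 a23_2 a23_3 q23 fun c24 a24_1 a24_2 a24_3 q24 =>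
  negK c24 a24_1 a24_2 a24_3 q24 fun c25 a25_1 a25_2 a25_3 q25 =>
  addcK c25 a25_1 a25_2 a25_3 q25 1152922604118474752 0 fun c26 a26_1 a26_2 a26_3 q26 =>
  sqrtK c26 a26_1 a26_2 a26_3 q26 fun c28 a28_1 a28_2 a28_3 q28 =>
  addK c21 a21_1 a21_2 a21_3 q21 c28 a28_1 a28_2 a28_3 q28 fun c30 a30_1 a30_2 a30_3 q30 =>
  invK c30 a30_1 a30_2 a30_3 q30 fun c31 a31_1 a31_2 a31_3 q31 =>
  addcK z1 (Nat.add w1 1152921504606846976) 1152921504606846976 1152921504606846976 0 1152922593123358474 1 fun c32 a32_1 a32_2 a32_3 q32 =>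
  mulK c32 a32_1 a32_2 a32_3 q32 c31 a31_1 a31_2 a31_3 q31 fun c33 a33_1 a33_2 a33_3 q33 =>
  addcK c33 a33_1 a33_2 a33_3 q33 1152919327573823980 1 fun c35 a35_1 a35_2 a35_3 q35 =>
  mulK c14 a14_1 a14_2 a14_3 q14 c35 a35_1 a35_2 a35_3 q35 fun c37 a37_1 a37_2 a37_3 q37 =>
  addK c10 a10_1 a10_2 a10_3 q10 c37 a37_1 a37_2 a37_3 q37 fun c38 a38_1 a38_2 a38_3 q38 =>
  mulK z1 (Nat.add w1 1152921504606846976) 1152921504606846976 1152921504606846976 0 c38 a38_1 a38_2 a38_3 q38 fun c39 a39_1 a39_2 a39_3 q39 =>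
  addcK z2 1152921504606846976 (Nat.add w2 1152921504606846976) 1152921504606846976 0 1152922604118474752 0 fun c40 a40_1 a40_2 a40_3 q40 =>
  invK c40 a40_1 a40_2 a40_3 q40 fun c42 a42_1 a42_2 a42_3 q42 =>
  addcK c28 a28_1 a28_2 a28_3 q28 1152922604118474752 0 fun c43 a43_1 a43_2 a43_3 q43 =>
  invK c43 a43_1 a43_2 a43_3 q43 fun c45 a45_1 a45_2 a45_3 q45 =>
  mulK c24 a24_1 a24_2 a24_3 q24 c45 a45_1 a45_2 a45_3 q45 fun c46 a46_1 a46_2 a46_3 q46 =>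
  negK c46 a46_1 a46_2 a46_3 q46 fun c48 a48_1 a48_2 a48_3 q48 =>
  addcK c48 a48_1 a48_2 a48_3 q48 1152921515601963254 1 fun c49 a49_1 a49_2 a49_3 q49 =>
  mulK c14 a14_1 a14_2 a14_3 q14 c49 a49_1 a49_2 a49_3 q49 fun c52 a52_1 a52_2 a52_3 q52 =>
  mulK c52 a52_1 a52_2 a52_3 q52 c42 a42_1 a42_2 a42_3 q42 fun c53 a53_1 a53_2 a53_3 q53 =>
  subK c39 a39_1 a39_2 a39_3 q39 c53 a53_1 a53_2 a53_3 q53 fun c55 a55_1 a55_2 a55_3 q55 =>
  negK c55 a55_1 a55_2 a55_3 q55 fun c57 a57_1 a57_2 a57_3 q57 =>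
  pos c57 a57_1 a57_2 a57_3 q57

theorem alt1_s {z1 w1 z2 w2 z3 w3 : ℕ} {e1 e2 e3 t u p : ℝ} (he : Ev e1 e2 e3)
    (hx1 : In e1 e2 e3 z1 (Nat.add w1 1152921504606846976) 1152921504606846976 1152921504606846976 0 t)
    (hx2 : In e1 e2 e3 z2 1152921504606846976 (Nat.add w2 1152921504606846976) 1152921504606846976 0 u)
    (hx3 : In e1 e2 e3 z3 1152921504606846976 1152921504606846976 (Nat.add w3 1152921504606846976) 0 p)
    (H0 : alt1 z1 w1 z2 w2 z3 w3 = true) : 0 < (-(m t u p)) := by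
  unfold alt1 at H0
  refine sqK_s he hx3 (fun _ _ _ _ _ h1 H1 => ?_) H0
  have h2 := In_cast h1 (sq _)
  refine negK_s he h2 (fun _ _ _ _ _ h3 H2 => ?_) H1
  refine addcK_s he h3 (v' := (1:ℝ)) (by norm_num [SS, BB, abs_le]) (fun _ _ _ _ _ h4 H3 => ?_) H2
  have h5 := In_cast h4 (neg_add_eq_sub _ _)
  refine sqrtK_s he h5 (fun _ _ _ _ _ h6 H4 => ?_) H3
  have h7 := In_cast (w := (s t u p)) h6 rfl
  refine smulK_s he (w := (1/125:ℝ)) (by norm_num) (by norm_num) (by norm_num) (by norm_num) h7 (fun _ _ _ _ _ h8 H5 => ?_) H4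
  have h9 := In_cast h8 (div_c (c := (125:ℝ)) (by norm_num))
  refine addcK_s he h9 (v' := (247/250:ℝ)) (by norm_num [SS, BB, abs_le]) (fun _ _ _ _ _ h10 H6 => ?_) H5
  have h11 := In_cast h10 (add_comm _ _)
  have h12 := In_cast (w := (ka t u p)) h11 rfl
  refine smulK_s he (w := (3/200:ℝ)) (by norm_num) (by norm_num) (by norm_num) (by norm_num) h7 (fun _ _ _ _ _ h13 H7 => ?_) H6
  refine addcK_s he h13 (v' := (11/20:ℝ)) (by norm_num [SS, BB, abs_le]) (fun _ _ _ _ _ h14 H8 => ?_) H7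
  have h15 := In_cast h14 (add_comm _ _)
  have h16 := In_cast (w := (nu t u p)) h15 rfl
  refine sqK_s he hx1 (fun _ _ _ _ _ h17 H9 => ?_) H8
  refine negK_s he h17 (fun _ _ _ _ _ h18 H10 => ?_) H9
  refine addcK_s he h18 (v' := (1:ℝ)) (by norm_num [SS, BB, abs_le]) (fun _ _ _ _ _ h19 H11 => ?_) H10
  have h20 := In_cast h19 (neg_add_eq_sub _ _)
  refine sqrtK_s he h20 (fun _ _ _ _ _ h21 H12 => ?_) H11
  have h22 := In_cast (w := (r1 t u p)) h21 rfl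
  refine mulK_s he hx1 hx2 (fun _ _ _ _ _ h23 H13 => ?_) H12
  refine sqK_s he h23 (fun _ _ _ _ _ h24 H14 => ?_) H13
  refine negK_s he h24 (fun _ _ _ _ _ h25 H15 => ?_) H14
  refine addcK_s he h25 (v' := (1:ℝ)) (by norm_num [SS, BB, abs_le]) (fun _ _ _ _ _ h26 H16 => ?_) H15
  have h27 := In_cast h26 (neg_add_eq_sub _ _)
  refine sqrtK_s he h27 (fun _ _ _ _ _ h28 H17 => ?_) H16
  have h29 := In_cast (w := (r0 t u p)) h28 rfl
  refine addK_s he h22 h29 (fun _ _ _ _ _ h30 H18 => ?_) H17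
  refine invK_s he h30 (fun _ _ _ _ _ h31 H19 => ?_) H18
  refine addcK_s he hx1 (v' := (99/100:ℝ)) (by norm_num [SS, BB, abs_le]) (fun _ _ _ _ _ h32 H20 => ?_) H19
  refine mulK_s he h32 h31 (fun _ _ _ _ _ h33 H21 => ?_) H20
  have h34 := In_cast h33 ((div_eq_mul_inv _ _).symm)
  refine addcK_s he h34 (v' := (-99/50:ℝ)) (by norm_num [SS, BB, abs_le]) (fun _ _ _ _ _ h35 H22 => ?_) H21
  have h36 := In_cast h35 (sub_c (c := (99/50:ℝ)) (by norm_num))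
  refine mulK_s he h16 h36 (fun _ _ _ _ _ h37 H23 => ?_) H22
  refine addK_s he h12 h37 (fun _ _ _ _ _ h38 H24 => ?_) H23
  refine mulK_s he hx1 h38 (fun _ _ _ _ _ h39 H25 => ?_) H24
  refine addcK_s he hx2 (v' := (1:ℝ)) (by norm_num [SS, BB, abs_le]) (fun _ _ _ _ _ h40 H26 => ?_) H25
  have h41 := In_cast h40 (add_comm _ _)
  refine invK_s he h41 (fun _ _ _ _ _ h42 H27 => ?_) H26
  refine addcK_s he h29 (v' := (1:ℝ)) (by norm_num [SS, BB, abs_le]) (fun _ _ _ _ _ h43 H28 => ?_) H27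
  have h44 := In_cast h43 (add_comm _ _)
  refine invK_s he h44 (fun _ _ _ _ _ h45 H29 => ?_) H28
  refine mulK_s he h24 h45 (fun _ _ _ _ _ h46 H30 => ?_) H29
  have h47 := In_cast h46 ((div_eq_mul_inv _ _).symm)
  refine negK_s he h47 (fun _ _ _ _ _ h48 H31 => ?_) H30
  refine addcK_s he h48 (v' := (1/100:ℝ)) (by norm_num [SS, BB, abs_le]) (fun _ _ _ _ _ h49 H32 => ?_) H31
  have h50 := In_cast h49 (neg_add_eq_sub _ _)
  have h51 := In_cast (w := (c0 t u p)) h50 rfl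
  refine mulK_s he h16 h51 (fun _ _ _ _ _ h52 H33 => ?_) H32
  refine mulK_s he h52 h42 (fun _ _ _ _ _ h53 H34 => ?_) H33
  have h54 := In_cast h53 ((div_eq_mul_inv _ _).symm)
  refine subK_s he h39 h54 (fun _ _ _ _ _ h55 H35 => ?_) H34
  have h56 := In_cast (w := (m t u p)) h55 rfl
  refine negK_s he h56 (fun _ _ _ _ _ h57 H36 => ?_) H35
  exact pos_s he h57 H36

attribute [irreducible] alt0 alt1

noncomputable def leaf (j u z1 w1 z2 w2 z3 w3 : ℕ) : Bool :=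
  sB j (alt0 z1 w1 z2 w2 z3 w3) fun j => alt1 z1 w1 z2 w2 z3 w3

theorem snd : Snd Q leaf := by
  intro j u z1 w1 z2 w2 z3 w3 e1 e2 e3 he H
  unfold leaf at H
  unfold Q
  replace H := sel H
  rcases H with H | ⟨j, H⟩
  · exact Or.inl (alt0_s he (var1 z1 w1) (var2 z2 w2) (var3 z3 w3) H)
  exact Or.inr (alt1_s he (var1 z1 w1) (var2 z2 w2) (var3 z3 w3) H)

end Crest.Agent.R307.OCc
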