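import Crest.Agent.R307.OCc
set_option autoImplicit false
set_option maxRecDepth 100000
namespace Crest.Agent.R307.OCc
open Crest.Agent.R307.IA Crest.Agent.R307.IA3

theorem k0 : Cov Q 1152921504606846976 1152922329240567808 1152921504606846976 1152922604118474752 1152922230284521308 1152922461181963142 :=
  cov_of snd 0 0 16 _ _ _ _ _ _ 0x3303302330301333023301330330203303300123303302330133302332033012033033003303123303303120133302330133033003301233031330312033033023330201033302332033033021330330233302101330330233033020330330011333023303023303302033233201330330233011330323320330330213303301103323300330301103303301330330103303133031011332330133033020330330013303233203303010331331033013303300330100330313303103303133031001330330133133100330313303301011033033003301330330033010330313303301013303300330133031330310033033013303301010331331033133031003303301330333001011330313310330330003303300330330001330303301334003303400100330330133033010330330133134040000330330033033001330330400330330033032400101100 (by decide +kernel)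

end Crest.Agent.R307.OCc
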