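import Crest.Agent.R307.UX
import Crest.Agent.R307.HPc

/-!
# R307/OCg: one cone and one hypothesis give the core inequality
-/

set_option autoImplicit false
set_option linter.unusedVariables false

namespace Crest.Agent.R307

open Crest.CubeNoise Set

/-- The potential with the antisymmetric part scaled by `99/100`. -/
noncomputable def Uz (p : ℝ) : ℝ := √p * √(1 - p) + 99 / 100 * (√(1 - p) - √p + 2 * p - 1)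

theorem Uz_eq (p : ℝ) : Uz p = 199 / 200 * Uex p + 1 / 200 * Uex (1 - p) := by
  unfold Uz Uex
  rw [sub_sub_cancel]
  ring

theorem Uz_zero : Uz 0 = 0 := by simp [Uz]

theorem Uz_one : Uz 1 = 0 := by simp [Uz]; norm_num

theorem Uz_split {p : ℝ} (h0 : 0 ≤ p) : Uz p + Uz (1 - p) = 2 * √(p * (1 - p)) := by
  unfold Uz
  rw [sub_sub_cancel, Real.sqrt_mul h0]
  ring

theorem Uz_conc : ConcaveOn ℝ (Icc 0 1) Uz := by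
  have := hp_conc Uex_conc (A := 199 / 200) (B := 1 / 200) (by norm_num) (by norm_num)
  exact (funext Uz_eq : Uz = _) ▸ this

theorem Uz_nonneg (p : ℝ) (h0 : 0 ≤ p) (h1 : p ≤ 1) : 0 ≤ Uz p := by
  have := Uz_conc.2 (x := 0) (y := 1) ⟨le_rfl, zero_le_one⟩ ⟨zero_le_one, le_rfl⟩ (sub_nonneg.2 h1) h0 (by ring)
  simpa [Uz_zero, Uz_one] using this

theorem ocg_alg {D N M : ℝ} (hN : 0 ≤ N) (hM : 0 ≤ M) (h : D * (D + 2 * N) ≤ M ^ 2) :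
    ∃ c t : ℝ, 0 ≤ c ∧ 0 ≤ t ∧ c ^ 2 + t ^ 2 ≤ 1 ∧ D + N ≤ c * N + t * M := by
  have r2 := Real.sq_sqrt (show 0 ≤ N ^ 2 + M ^ 2 by positivity)
  have r0 := Real.sqrt_nonneg (N ^ 2 + M ^ 2)
  generalize √(N ^ 2 + M ^ 2) = R at r2 r0
  have k : D + N ≤ R := (abs_le_of_sq_le_sq' (by nlinarith) r0).2
  rcases r0.eq_or_lt with e | e
  · exact ⟨0, 0, le_rfl, le_rfl, by norm_num, by linarith⟩
  · refine ⟨N / R, M / R, by positivity, by positivity, le_of_eq ?_, k.trans (le_of_eq ?_)⟩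
    · field_simp
      linarith
    · field_simp
      linarith

/-- General potential version. -/
theorem xcore_of_coneU {ρ s n0 n1 ka nu : ℝ} (hρ0 : 0 ≤ ρ) (hρ1 : ρ ≤ 1) (s0 : 0 ≤ s) (hs : s ^ 2 = 1 - ρ ^ 2)
    {U : ℝ → ℝ} (hc : ConcaveOn ℝ (Icc 0 1) U) (U0 : U 0 = 0) (U1 : U 1 = 0)
    (hU : ∀ p, 0 ≤ p → p ≤ 1 → U p + U (1 - p) = 2 * √(p * (1 - p)))
    (n00 : 0 ≤ n0) (n01 : n0 ≤ 1) (n10 : 0 ≤ n1) (nu0 : 0 ≤ nu) (n11 : n1 + nu * s ≤ 1)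
    (hC : Cone ρ U n0 n1 (ka * s) (nu * s) (nu * s)) (b : ℝ → ℝ) (b0 : b 0 = 0) (b1 : b 1 = 0)
    (bh : b (1 / 2) ≤ 1 / 2) (bn : ∀ a, 0 ≤ a → a ≤ 1 → 0 ≤ b a)
    (step : ∀ a0 a1 : ℝ, 0 ≤ a0 → a0 < a1 → a1 ≤ 1 → a1 - a0 ≤ 1 / 2 →
      0 ≤ ka * (a1 - a0) + nu * s * (b a0 - b a1) ∧
      (2 * b ((a0 + a1) / 2) - b a0 - b a1) * ((2 * b ((a0 + a1) / 2) - b a0 - b a1) + 2 * (n0 * b a0 + n1 * b a1)) ≤
        (ka * (a1 - a0) + nu * s * (b a0 - b a1)) ^ 2)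
    (fin : ∀ a : ℝ, 0 ≤ a → a ≤ 1 → s - 1 + 2 * √(a * (1 - a)) ≤ s * (b a + b (1 - a))) : XCore ρ := by
  have Un : ∀ p, 0 ≤ p → p ≤ 1 → 0 ≤ U p := fun p h0 h1 => by
    have := hc.2 (x := 0) (y := 1) ⟨le_rfl, zero_le_one⟩ ⟨zero_le_one, le_rfl⟩ (sub_nonneg.2 h1) h0 (by ring)
    simpa [U0, U1] using this
  have ns : 0 ≤ nu * s := mul_nonneg nu0 s0
  refine xcore_singleU hρ0 hρ1 hs s0 (b := fun a => s * b a) hc U0 U1 hU (by simp [b0]) (by simp [b1])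
    (by nlinarith [mul_le_mul_of_nonneg_left bh s0]) (fun a0 a1 e0 e1 e2 e3 _ => ?_)
    (fun a h0 h1 => by linarith [fin a h0 h1])
  obtain ⟨c, t, c0, t0, ct, k⟩ : ∃ c t : ℝ, 0 ≤ c ∧ 0 ≤ t ∧ c ^ 2 + t ^ 2 ≤ 1 ∧
      (2 * b ((a0 + a1) / 2) - b a0 - b a1) + (n0 * b a0 + n1 * b a1) ≤
        c * (n0 * b a0 + n1 * b a1) + t * (ka * (a1 - a0) + nu * s * (b a0 - b a1)) := by
    rcases e1.eq_or_lt with rfl | e
    · refine ⟨1, 0, zero_le_one, le_rfl, by norm_num, ?_⟩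
      rw [show (a0 + a0) / 2 = a0 by ring]
      linarith
    · obtain ⟨m, h⟩ := step a0 a1 e0 e e2 e3
      exact ocg_alg (add_nonneg (mul_nonneg n00 (bn a0 e0 (e1.trans e2))) (mul_nonneg n10 (bn a1 (e0.trans e1) e2))) m h
  have t1 : t ≤ 1 := by nlinarith [sq_nonneg c]
  have st := hC.ustep hρ0 hρ1 hc Un n00 n10 t0 ct
    (by nlinarith [mul_nonneg n00 c0, mul_nonneg ns t0])
    (by nlinarith [mul_nonneg n10 c0, mul_nonneg ns (sub_nonneg.2 t1)])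
  refine ⟨_, _, _, 0, st.toC, ?_⟩
  have := mul_le_mul_of_nonneg_left k s0
  simp only
  linarith

theorem xcore_of_cone {ρ s n0 n1 ka nu : ℝ} (hρ0 : 0 ≤ ρ) (hρ1 : ρ ≤ 1) (s0 : 0 ≤ s) (hs : s ^ 2 = 1 - ρ ^ 2)
    (n00 : 0 ≤ n0) (n01 : n0 ≤ 1) (n10 : 0 ≤ n1) (nu0 : 0 ≤ nu) (n11 : n1 + nu * s ≤ 1)
    (hC : Cone ρ Uz n0 n1 (ka * s) (nu * s) (nu * s)) (b : ℝ → ℝ) (b0 : b 0 = 0) (b1 : b 1 = 0)
    (bh : b (1 / 2) ≤ 1 / 2) (bn : ∀ a, 0 ≤ a → a ≤ 1 → 0 ≤ b a)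
    (step : ∀ a0 a1 : ℝ, 0 ≤ a0 → a0 < a1 → a1 ≤ 1 → a1 - a0 ≤ 1 / 2 →
      0 ≤ ka * (a1 - a0) + nu * s * (b a0 - b a1) ∧
      (2 * b ((a0 + a1) / 2) - b a0 - b a1) * ((2 * b ((a0 + a1) / 2) - b a0 - b a1) + 2 * (n0 * b a0 + n1 * b a1)) ≤
        (ka * (a1 - a0) + nu * s * (b a0 - b a1)) ^ 2)
    (fin : ∀ a : ℝ, 0 ≤ a → a ≤ 1 → s - 1 + 2 * √(a * (1 - a)) ≤ s * (b a + b (1 - a))) : XCore ρ :=
  xcore_of_coneU hρ0 hρ1 s0 hs Uz_conc Uz_zero Uz_one (fun _ h _ => Uz_split h) n00 n01 n10 nu0 n11 hC b b0 b1 bh bn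
    step fin

end Crest.Agent.R307
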