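import Crest.Agent.R307.OBg
import Crest.Agent.R307.OCg

/-!
# R307/OCz: `XCore ρ` on `[.66, .87]` by one cone and one hypothesis (independent backup of windows M and B)
-/

set_option autoImplicit false

namespace Crest.Agent.R307

theorem oc_core {ρ : ℝ} (h0 : 66 / 100 ≤ ρ) (h1 : ρ ≤ 87 / 100) : XCore ρ := by
  have s2 : √(1 - ρ * ρ) ^ 2 = 1 - ρ ^ 2 := by rw [Real.sq_sqrt (by nlinarith)]; ring
  have s0 : 49 / 100 ≤ √(1 - ρ * ρ) := Real.le_sqrt_of_sq_le (by nlinarith)
  have s1 : √(1 - ρ * ρ) ≤ 7513 / 10000 := Real.sqrt_le_iff.2 ⟨by norm_num, by nlinarith⟩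
  have hC := oc_cone (U := Uz) (by linarith) h1 (fun _ => rfl) rfl
  generalize √(1 - ρ * ρ) = s at *
  refine xcore_of_cone (by linarith) (by linarith) (by linarith) s2 ?_ ?_ ?_ ?_ ?_ hC (obB s) (ob_zero s) (ob_one s)
    (ob_half s).le (fun a => ob_nonneg s0 s1) (fun a0 a1 => ob_step s0 s1) fun a => ob_end s0 s1
  · unfold ocN0; positivity
  · unfold ocN0; nlinarith
  · unfold ocN1; linarith
  · unfold ocNu; positivity
  · unfold ocN1 ocNu; nlinarith

end Crest.Agent.R307
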