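import Crest.Agent.R307.Cube

/-!
# R307/Ode: the information bound under noise from the rate inequality (barrier argument)
-/

set_option autoImplicit false

namespace Crest.Agent.R307

open Crest.CubeNoise Set

variable {n : ℕ}

/-- `ψ r = log 2 - H r`. -/
noncomputable def psi (r : ℝ) : ℝ := Real.log 2 - signEntropy r

theorem continuous_signEntropy : Continuous signEntropy := by
  unfold signEntropy
  fun_prop

theorem continuous_psi : Continuous psi := continuous_const.sub continuous_signEntropy

theorem hasDerivAt_signEntropy {r : ℝ} (h : |r| < 1) : HasDerivAt signEntropy (-Real.artanh r) r := by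
  obtain ⟨h1, h2⟩ := abs_lt.1 h
  have a1 : (1 + r) / 2 ≠ 0 := by linarith
  have a2 : (1 + r) / 2 ≠ 1 := by linarith
  have h3 : HasDerivAt (fun r : ℝ => (1 + r) / 2) (1 / 2) r := ((hasDerivAt_id r).const_add 1).div_const 2
  have h4 := (Real.hasDerivAt_binEntropy a1 a2).comp r h3
  refine HasDerivAt.congr_deriv h4 ?_
  rw [Real.artanh_eq_half_log ⟨h1.le, h2.le⟩, show 1 - (1 + r) / 2 = (1 - r) / 2 by ring,
    Real.log_div (by linarith : 1 + r ≠ 0) (by linarith : 1 - r ≠ 0),
    Real.log_div (by linarith : 1 - r ≠ 0) (by norm_num), Real.log_div (by linarith : 1 + r ≠ 0) (by norm_num)]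
  ring

theorem hasDerivAt_psi {r : ℝ} (h : |r| < 1) : HasDerivAt psi (Real.artanh r) r := by
  exact ((hasDerivAt_signEntropy h).const_sub (Real.log 2)).congr_deriv (neg_neg _)

theorem psi_zero : psi 0 = 0 := by
  simp [psi, signEntropy]

theorem psi_one : psi 1 = Real.log 2 := by
  simp [psi, signEntropy]

theorem psi_nonneg (r : ℝ) : 0 ≤ psi r := sub_nonneg.2 Real.binEntropy_le_log_two

theorem signEntropy_le (r : ℝ) : signEntropy r ≤ Real.log 2 := Real.binEntropy_le_log_two

theorem signEntropy_pos {r : ℝ} (h : |r| < 1) : 0 < signEntropy r :=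
  Real.binEntropy_pos (by linarith [(abs_lt.1 h).1]) (by linarith [(abs_lt.1 h).2])

theorem signEntropy_neg (r : ℝ) : signEntropy (-r) = signEntropy r := by
  unfold signEntropy
  rw [← Real.binEntropy_one_sub]
  congr 1
  ring

theorem strictMonoOn_psi : StrictMonoOn psi (Icc 0 1) := by
  intro a ha b hb hab
  have := Real.binEntropy_strictAntiOn (a := (1 + a) / 2) (b := (1 + b) / 2)
    ⟨by linarith [ha.1], by linarith [ha.2]⟩ ⟨by linarith [hb.1], by linarith [hb.2]⟩ (by linarith)
  unfold psi signEntropy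
  linarith

theorem ode_wt_flip (ρ : ℝ) (i : Fin n) (x y : Fin n → Bool) :
    wt ρ x y - wt ρ (flipBit i x) y =
      ρ * (spin (x i) * spin (y i)) * ∏ j ∈ Finset.univ.erase i, (1 + ρ * spin (x j) * spin (y j)) / 2 := by
  unfold wt
  rw [← Finset.mul_prod_erase _ _ (Finset.mem_univ i), ← Finset.mul_prod_erase _ _ (Finset.mem_univ i)]
  have : ∏ j ∈ Finset.univ.erase i, (1 + ρ * spin (flipBit i x j) * spin (y j)) / 2 =
      ∏ j ∈ Finset.univ.erase i, (1 + ρ * spin (x j) * spin (y j)) / 2 :=
    Finset.prod_congr rfl fun j hj => by rw [flipBit, Function.update_of_ne (Finset.ne_of_mem_erase hj)]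
  rw [this, flipBit, Function.update_self, spin_not]
  ring

theorem ode_wt_deriv {ρ : ℝ} (h : ρ ≠ 0) (x y : Fin n → Bool) :
    HasDerivAt (fun ρ => wt ρ x y) ((∑ i, (wt ρ x y - wt ρ (flipBit i x) y)) / 2 / ρ) ρ := by
  have h1 : ∀ i ∈ (Finset.univ : Finset (Fin n)), HasDerivAt (fun ρ : ℝ => (1 + ρ * spin (x i) * spin (y i)) / 2)
      (spin (x i) * spin (y i) / 2) ρ := fun i _ => by
    simpa using ((((hasDerivAt_id ρ).mul_const (spin (x i))).mul_const (spin (y i))).const_add 1).div_const 2
  have h2 := HasDerivAt.fun_finsetProd h1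
  refine HasDerivAt.congr_deriv h2 (Eq.symm ?_)
  rw [Finset.sum_div, Finset.sum_div]
  refine Finset.sum_congr rfl fun i _ => ?_
  rw [ode_wt_flip, smul_eq_mul]
  field_simp

theorem ode_noise_deriv {ρ : ℝ} (h : ρ ≠ 0) (u : (Fin n → Bool) → ℝ) (x : Fin n → Bool) :
    HasDerivAt (fun ρ => noise ρ u x) ((∑ i, (noise ρ u x - noise ρ u (flipBit i x))) / 2 / ρ) ρ := by
  have h2 := HasDerivAt.fun_sum (u := Finset.univ) fun y _ => (ode_wt_deriv h x y).mul_const (u y)
  refine HasDerivAt.congr_deriv h2 (Eq.symm ?_)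
  simp only [noise_eq, ← Finset.sum_sub_distrib]
  rw [Finset.sum_comm, Finset.sum_div, Finset.sum_div]
  refine Finset.sum_congr rfl fun y _ => ?_
  simp only [← sub_mul, ← Finset.sum_mul]
  ring

theorem ode_cont (u : (Fin n → Bool) → ℝ) : Continuous fun ρ => information (noise ρ u) := by
  unfold information
  simp only [avg_noise]
  refine continuous_const.sub ?_
  unfold cubeAverage
  refine (continuous_finsetSum _ fun x _ => continuous_signEntropy.comp ?_).div_const _
  unfold noise
  fun_prop

theorem ode_info_deriv {ρ : ℝ} (h : ρ ≠ 0) (u : (Fin n → Bool) → ℝ) (hg : ∀ x, |noise ρ u x| < 1) :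
    HasDerivAt (fun ρ => information (noise ρ u)) (production (noise ρ u) / ρ) ρ := by
  unfold information
  simp only [avg_noise]
  have h2 := (HasDerivAt.fun_sum (u := Finset.univ) fun x _ =>
    (hasDerivAt_signEntropy (hg x)).comp ρ (ode_noise_deriv h u x)).div_const (2 ^ n)
  have h3 := h2.const_sub (signEntropy (cubeAverage u))
  refine HasDerivAt.congr_deriv h3 (Eq.symm ?_)
  unfold production cubeAverage
  rw [← neg_div, ← Finset.sum_neg_distrib, div_right_comm, Finset.sum_div]
  congr 1
  exact Finset.sum_congr rfl fun x _ => by ring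

/-- The rate inequality, as a hypothesis. -/
def Rate (n : ℕ) : Prop := ∀ g : (Fin n → Bool) → ℝ, (∀ x, |g x| < 1) → ∀ r : ℝ, 0 ≤ r → r < 1 →
  Real.log 2 - signEntropy r = information g → r * Real.artanh r ≤ production g

theorem ode_main (H : Rate n) (u : (Fin n → Bool) → ℝ) (hu : ∀ x, |u x| ≤ 1) {ρ : ℝ} (h0 : 0 < ρ) (h1 : ρ < 1)
    {r : ℝ} (hr : 0 ≤ r) (hr1 : r ≤ 1) (hI : information u = psi r) : information (noise ρ u) ≤ psi (ρ * r) := by
  by_cases hc : (∀ y, u y = 1) ∨ ∀ y, u y = -1
  · obtain ⟨c, hc⟩ : ∃ c, u = fun _ => c := hc.elim (fun h => ⟨_, funext h⟩) fun h => ⟨_, funext h⟩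
    have : noise ρ u = fun _ => c := funext fun x => by rw [hc, noise_const]
    rw [this, information, avg_const, avg_const, sub_self]
    exact psi_nonneg _
  have hg : ∀ t, 0 < t → t < 1 → ∀ x, |noise t u x| < 1 := by
    intro t t0 t1 x
    have ht : |t| < 1 := abs_lt.2 ⟨by linarith, t1⟩
    push Not at hc
    obtain ⟨⟨y1, hy1⟩, y2, hy2⟩ := hc
    rw [abs_lt]
    constructor
    · simpa [noise_const] using noise_lt ht (u := fun _ => -1) (fun y => (abs_le.1 (hu y)).1)
        ⟨y2, lt_of_le_of_ne (abs_le.1 (hu y2)).1 hy2.symm⟩ x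
    · simpa [noise_const] using noise_lt ht (v := fun _ => 1) (fun y => (abs_le.1 (hu y)).2)
        ⟨y1, lt_of_le_of_ne (abs_le.1 (hu y1)).2 hy1⟩ x
  by_contra hlt
  push Not at hlt
  have hρr : ρ * r < 1 := by nlinarith
  obtain ⟨c, c0, c1, c2⟩ : ∃ c, 0 < c ∧ c + r * ρ < 1 ∧ psi (c + r * ρ) ≤ information (noise ρ u) := by
    have e1 : ∀ᶠ c in nhds (0 : ℝ), psi (c + r * ρ) < information (noise ρ u) :=
      (continuous_psi.comp (continuous_id.add continuous_const)).continuousAt.eventually_lt continuousAt_const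
        (by simpa [mul_comm] using hlt)
    have e2 : ∀ᶠ c in nhds (0 : ℝ), c + r * ρ < 1 :=
      (continuous_id.add continuous_const).continuousAt.eventually_lt continuousAt_const
        (by simpa [mul_comm] using hρr)
    obtain ⟨c, hc, c0⟩ := (((e1.and e2).filter_mono nhdsWithin_le_nhds).and
      (self_mem_nhdsWithin (s := Ioi (0 : ℝ)))).exists
    exact ⟨c, c0, hc.2, hc.1.le⟩
  have key : ∀ b, ρ ≤ b → b ≤ 1 → c + r * b ≤ 1 → (r = 0 → c < 1) → psi (c + r * b) ≤ information (noise b u) := by
    intro b hb b1 b2 b3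
    have hlt1 : ∀ t ∈ Ico ρ b, 0 < c + r * t ∧ c + r * t < 1 := fun t ht => by
      refine ⟨by nlinarith [ht.1], ?_⟩
      rcases hr.eq_or_lt with e | e
      · have := b3 e.symm
        rw [← e]
        linarith
      · nlinarith [ht.2]
    refine image_le_of_deriv_right_lt_deriv_boundary' (a := ρ) (b := b) (f := fun t => psi (c + r * t))
      (f' := fun t => Real.artanh (c + r * t) * r) (B := fun t => information (noise t u))
      (B' := fun t => production (noise t u) / t) (by have := continuous_psi; fun_prop) (fun t ht => ?_) c2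
      (ode_cont u).continuousOn (fun t ht => ?_) (fun t ht e => ?_) ⟨hb, le_rfl⟩
    · have a := hlt1 t ht
      have := (hasDerivAt_psi (abs_lt.2 ⟨by linarith [a.1], a.2⟩)).comp t
        (((hasDerivAt_id t).const_mul r).const_add c)
      exact (this.congr_deriv (by simp)).hasDerivWithinAt
    · exact (ode_info_deriv (by linarith [ht.1]) u (hg t (by linarith [ht.1]) (by linarith [ht.2]))).hasDerivWithinAt
    · have a := hlt1 t ht
      have t0 : 0 < t := by linarith [ht.1]
      have a2 := H _ (hg t t0 (by linarith [ht.2])) _ a.1.le a.2 e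
      have a3 := Real.artanh_pos (x := c + r * t) a
      rw [lt_div_iff₀ t0]
      nlinarith
  by_cases hcr : c + r ≤ 1
  · have a := key 1 h1.le le_rfl (by linarith) fun e => by rw [e] at c1; linarith
    rw [mul_one, show noise 1 u = u from funext (noise_one u), hI] at a
    exact absurd (strictMonoOn_psi ⟨hr, hr1⟩ ⟨by linarith, hcr⟩ (by linarith)) (not_lt.2 a)
  · push Not at hcr
    have r0 : 0 < r := by nlinarith
    have b0 : ρ < (1 - c) / r := by rw [lt_div_iff₀ r0]; linarith
    have b1 : (1 - c) / r < 1 := by rw [div_lt_one r0]; linarith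
    have e : c + r * ((1 - c) / r) = 1 := by field_simp; ring
    have a := key _ b0.le b1.le e.le fun e => absurd e r0.ne'
    rw [e, psi_one, information] at a
    have a1 := signEntropy_le (cubeAverage (noise ((1 - c) / r) u))
    have a2 := avg_lt (f := fun _ => 0) fun x => signEntropy_pos (hg _ (by linarith) b1 x)
    rw [avg_const] at a2
    linarith

theorem information_noise_neg (ρ : ℝ) (u : (Fin n → Bool) → ℝ) :
    information (noise (-ρ) u) = information (noise ρ u) := by
  unfold information
  rw [avg_noise, avg_noise, ← avg_not fun x => signEntropy (noise ρ u x)]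
  simp only [noise_neg]

/-- `S0470` from the first part of `S0472`. -/
theorem info_noise_le (H : Rate n) (u : (Fin n → Bool) → ℝ) (hu : ∀ x, |u x| ≤ 1) (ρ : ℝ) (hρ : |ρ| ≤ 1) (r : ℝ)
    (hr : 0 ≤ r) (hr1 : r ≤ 1) (hI : information u = Real.log 2 - signEntropy r) :
    information (noise ρ u) ≤ Real.log 2 - signEntropy (|ρ| * r) := by
  have e : information (noise ρ u) = information (noise |ρ| u) := by
    rcases abs_choice ρ with e | e <;> rw [e]
    exact (information_noise_neg ρ u).symm
  rw [e]
  rcases (abs_nonneg ρ).eq_or_lt with h0 | h0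
  · have : noise |ρ| u = fun _ => cubeAverage u := funext fun x => by
      simp [← h0, noise, cubeAverage, div_eq_inv_mul, Finset.mul_sum]
    rw [this, information, avg_const, avg_const, sub_self]
    exact psi_nonneg _
  rcases hρ.eq_or_lt with h1 | h1
  · rw [h1, one_mul, show noise 1 u = u from funext (noise_one u), hI]
  · exact ode_main H u hu h0 h1 hr hr1 hI

end Crest.Agent.R307
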