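import Crest.Agent.R307.SFc
set_option autoImplicit false
set_option maxRecDepth 100000
namespace Crest.Agent.R307.SFc
open Crest.Agent.R307.IA Crest.Agent.R307.IA3

theorem k3 : Cov Q 1152922164313823641 1152922330669932925 1152922466679521619 1152922535398998401 1152921504606846976 1152921573326323899 :=
  cov_of snd 16 65535 13 _ _ _ _ _ _ 0x362a5362a50345853458521358853e1140349e5349e50103b0b5379c5379c50138fe538fe50368653686501023340533405034c6534c650232975322c5322c5013348532a4532a45012133aa533aa5232af532af521035355353552344b5344b5036235213588535885033b5533b55210213ba353ba3503a5e53a5e5003eb253eb25023960539605036cc536cc501380d535cd535cd50103b0053b005039ce539ce50021231105309c5309c5013080503196531625316250131ae5022fa452fa4502f1e52f1e5012f745030aa530345303450130225030325021313a5313a52302e5302e521032245322451321c5033de533f2533f2501230d2530a0530a050130de5030f65031bc531ca531ca50131b2502132c2532c2523146531c6521022e7452e74512f5852f58502f22512f305022f0252f025202ce252ce2502e4852e48502db85122dd852dd850012f2452f24502c9e510303a5303a502fce52fce5012ff252ff250030c8530c850303a5303a501309a5309a50023040530c05202f2c52f2c502ebc512f02502fd052fd0502f205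2f205012fa452fa450022f5c52f5c5201304e5304e522f4e52f4e50102135505355052337a5338e5338e501354852134c4534c450333653336521035ba5362a5362a50134e2534e25102315c5316a5316a50131545033205332050230365300053000501304a5030725031045310451310a502132405324052309253092521032a2532d0532d050134a8534a850232c0532c050330a52021212c5e52c8052c805022aca52aca5012c0452c045102de852de8502dd8512eb852eb8502e84512e885022c2452c24502d8052d8051212e7052e70512cf851022bac52de8402e4852e48502dc25120293c5293c50290c512bb052bb0522986512b6052b6050022aa252aa252012f3852f38502f5e522f6250303e5303e502fd052fd050122f0852f085202e0e52e0e502dda512f1a52f1a502e8e5122e0052e0050012ef052ef0502dfc52dfc501030be530c0530c05012fbc52fbc502fe050132d45306c5306c501230cc530cc50317053170502022d0452d04502d3e52d3e5022c4252c425212d2a52caa5102c7e52c7e5002ec252ec2502eb4502f8c52f8c5022cde52cde522cce5012dfc52dfc510212280c528705287050227bc50254c525ae526cc40212b1c52b1c502aee512ad2502bc452bc4512b5e512b6052b6050022adc52b5c52027ea527ea5029a4529a451228c8528c85001211 (by decide +kernel)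

theorem k4 : Cov Q 1152922164313823641 1152922330669932925 1152922466679521619 1152922535398998401 1152921573326323899 1152921642045800643 :=
  cov_of snd 16 65535 11 _ _ _ _ _ _ 0x2c3452c34512abe52f2141030ec52eec512d2a52d2a511231894327d4327d4022f6342f63421033f4533f45031d4531d452134c6534c65033e8533e8521236da436da40349d4349d401351c53a30403416537a6401202fe05300c5300c5022e7052ef05212f3052f30510317a5317a503308533085022faa52faa5031f153107531075012132135355240307d533b840102122a7652b5852b585022836528365012d2b42d2b402c094102d8852d88522c4e52c4e501301d4301d4002ec752ec7502f7452f74502f945022da952da9502e9452e94502eac50212f7a532a4402e5451022a8a52a8a512c18402d2952d29522b8b52b8b5012cc352cc35102c6152f184002121257f527294024de51278b529454029f1529f15029bd512977502266b526d75286d40212200752432525a64023aa51211 (by decide +kernel)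

theorem k5 : Cov Q 1152922164313823641 1152922330669932925 1152922466679521619 1152922535398998401 1152921642045800643 1152921779484754113 :=
  cov_of snd 16 65535 10 _ _ _ _ _ _ 0x21f5421f5402635426354121f4741f474212add42add41281d41298d402d4d42d4d41267052fc94025f05122bd1425185212c9d42c9d41022530425304022965291e40289041280f402121b5b41b5b4122d4423e0423e04021e384121 (by decide +kernel)

end Crest.Agent.R307.SFc
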