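import Crest.Agent.R307.SFcC0
import Crest.Agent.R307.SFcC1
import Crest.Agent.R307.SFcC2
set_option autoImplicit false
set_option maxRecDepth 100000
namespace Crest.Agent.R307.SFc
open Crest.Agent.R307.IA Crest.Agent.R307.IA3

theorem cov : Cov Q 1152922164313823641 1152922330669932925 1152921504606846976 1152922604118474752 1152921504606846976 1152922604118474752 :=
  (join2 1152922054362661017 k0 (join3 1152922054362661017 (join2 1152922329240568073 k1 (join2 1152922466679521619 k2 (join3 1152921779484754113 (join2 1152922535398998401 (join3 1152921642045800643 (join3 1152921573326323899 k3 k4) k5) k6) k7))) k8))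

theorem main (s r th : ℝ) (l0 : (3/5:ℝ) ≤ s) (u0 : s ≤ (7513/10000:ℝ)) (l1 : (0:ℝ) ≤ r) (u1 : r ≤ (1:ℝ)) (l2 : (0:ℝ) ≤ th) (u2 : th ≤ (1:ℝ)) : Q s r th :=
  cov s r th (le_trans (by norm_num [val, SS, BB]) l0) (le_trans u0 (by norm_num [val, SS, BB])) (le_trans (by norm_num [val, SS, BB]) l1) (le_trans u1 (by norm_num [val, SS, BB])) (le_trans (by norm_num [val, SS, BB]) l2) (le_trans u2 (by norm_num [val, SS, BB]))

end Crest.Agent.R307.SFc
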