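import Crest.Agent.R307.UKQ
set_option autoImplicit false
set_option maxRecDepth 100000
namespace Crest.Agent.R307.UKQ
open Crest.Agent.R307.IA Crest.Agent.R307.IA3

theorem k4 : Cov Q 1152921779484754113 1152922054362661017 1152921504606846976 1152921642045800643 1152922109338242252 1152922340235684086 :=
  cov_of snd 0 0 7 _ _ _ _ _ _ 0x3305510550153312452510551125505501550155055025501552120 (by decide +kernel)

theorem k5 : Cov Q 1152921779484754113 1152921916923707700 1152921642045800643 1152921779484754113 1152922109338242252 1152922340235684086 :=
  cov_of snd 0 0 13 _ _ _ _ _ _ 0x33033023304133033102033302330330412013303301332333020330333020123330033300133302330330203330233044120120330413303310333001233300330133302344120342333020120123505133300533021255051450433002555021205505500350515505102133034203303330201330330233033020330330330123303303301201243302330330103303300330441021330330133033010441330330124423303302101203303330025521550330550025521033033033012441330330120330350055033055102213305133053302123305145133033012205505500552550155251021021205350255015550255210350350155013303301533300245210350550212555005501555502255505500205525520125505505121021 (by decide +kernel)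

theorem k6 : Cov Q 1152921916923707700 1152922054362661017 1152921642045800643 1152921779484754113 1152922109338242252 1152922340235684086 :=
  cov_of snd 0 0 10 _ _ _ _ _ _ 0x330330133133302033033201233033203330013303303301233033300330120333023303303301201203303133300330103330033013330233312053330021021 (by decide +kernel)

theorem k7 : Cov Q 1152921779484754113 1152921916923707700 1152921779484754113 1152921848204231032 1152922109338242252 1152922340235684086 :=
  cov_of snd 0 0 10 _ _ _ _ _ _ 0x331333020330330033033201033133103303300333023330201233033033002330330330021023303330023330033033102033133103330233302033302333020123330033300133302433010333023330201202133033203323320133233203303303021233033042033300233033033020330330021330330234033021203323303302033300333002155033300245045021330433010330330330201203303300330330023303300333024330102133033003303300233034103413300210210 (by decide +kernel)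

end Crest.Agent.R307.UKQ
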