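import Crest.Agent.R307.UKQ
set_option autoImplicit false
set_option maxRecDepth 100000
namespace Crest.Agent.R307.UKQ
open Crest.Agent.R307.IA Crest.Agent.R307.IA3

theorem k8 : Cov Q 1152921779484754113 1152921916923707700 1152921848204231032 1152921916923707700 1152922109338242252 1152922340235684086 :=
  cov_of snd 0 0 10 _ _ _ _ _ _ 0x33133103303033233001233033103313310203313310333023320330330330021233302330330203303300332330012013330033033001331331023303300332330320133033002033033203303320133033003303300123303233032033032333003201330330330012010 (by decide +kernel)

theorem k9 : Cov Q 1152921916923707700 1152922054362661017 1152921779484754113 1152921916923707700 1152922109338242252 1152922340235684086 :=
  cov_of snd 0 0 11 _ _ _ _ _ _ 0x333033033102233033033133033010220333003333002330331330310202133300333003303301330330102233033003323300330330302120333003303310033300330330133033010233033003303301330330102021033133031033302330330331020333023330312012330330330203303330201330330330033300123303300330330033033033000120330330330123330033033302033033001201201 (by decide +kernel)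

theorem k10 : Cov Q 1152921779484754113 1152922054362661017 1152921916923707700 1152922054362661017 1152922109338242252 1152922340235684086 :=
  cov_of snd 0 0 11 _ _ _ _ _ _ 0x33033133102330330330020330330330133302023303303301333010201330330330331022330333123331202033033033033102233033033133301022011333023320330331330021330330033302332010330333023330102330331330020333003333012333120233033003303301333010201103303310331332013303302330330210330330302330330033020330330033133002330330033033002011330323303033021330330033032103303300330233033003302033133301033030233033033001330201100 (by decide +kernel)

theorem k11 : Cov Q 1152921504606846976 1152922054362661017 1152922054362661017 1152922604118474752 1152922109338242252 1152922340235684086 :=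
  cov_of snd 0 0 12 _ _ _ _ _ _ 0x3303330003303300133033016330103303300103303300330330013303300330330010133033033000330330330001330330033033000330330033033000101330303303300033133103303300013303300330330003303300330330001033030330330013303303010330330233033033002133133003303303021013303301331331003303303300133033033001010116330603303300116033033003303300133030330013306033033001330330010133033003303300330300133033003303300103313310331330003303303300133033033001013303300330300330330301330330101011066330330063301016013303300330330013303033010330330033033013330101330303303300101330330033033001330330033030330011010 (by decide +kernel)

end Crest.Agent.R307.UKQ
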