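import Crest.Agent.R307.UKQ
set_option autoImplicit false
set_option maxRecDepth 100000
namespace Crest.Agent.R307.UKQ
open Crest.Agent.R307.IA Crest.Agent.R307.IA3

theorem k12 : Cov Q 1152922054362661017 1152922604118474752 1152921504606846976 1152922054362661017 1152922109338242252 1152922340235684086 :=
  cov_of snd 0 0 13 _ _ _ _ _ _ 0x3303303301033133033010133033013303310333021033033013330330120330331330310213303330033300123313303310333300212033330023333300220330333003333002021100330333020330333020133033133102330331033033013330233302102033033033012330313331033300120101033133033010333003330211330333002333021333123303303301203330033033031021033302332133033033102330350210101 (by decide +kernel)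

theorem k13 : Cov Q 1152922054362661017 1152922604118474752 1152922054362661017 1152922604118474752 1152922109338242252 1152922340235684086 :=
  cov_of snd 0 0 12 _ _ _ _ _ _ 0x33033033100331330333001013303330003303303310013330033033003303300103330033033000133300330330003330033033000110331330330103330133300333101013303300330330330101330330033033000330330133033010103313331203303301333033012013303303300133033003330210330330330123330233303300210101010 (by decide +kernel)

end Crest.Agent.R307.UKQ
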