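import Crest.Agent.R307.UKQC0
import Crest.Agent.R307.UKQC1
import Crest.Agent.R307.UKQC2
import Crest.Agent.R307.UKQC3
set_option autoImplicit false
set_option maxRecDepth 100000
namespace Crest.Agent.R307.UKQ
open Crest.Agent.R307.IA Crest.Agent.R307.IA3

theorem cov : Cov Q 1152921504606846976 1152922604118474752 1152921504606846976 1152922604118474752 1152922109338242252 1152922340235684086 :=
  (join1 1152922054362661017 (join2 1152922054362661017 (join1 1152921779484754113 (join2 1152921779484754113 k0 (join1 1152921642045800643 k1 (join2 1152921916923707700 k2 k3))) (join2 1152921779484754113 (join2 1152921642045800643 k4 (join1 1152921916923707700 k5 k6)) (join2 1152921916923707700 (join1 1152921916923707700 (join2 1152921848204231032 k7 k8) k9) k10))) k11) (join2 1152922054362661017 k12 k13))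

theorem main (u ta s : ℝ) (l0 : (0:ℝ) ≤ u) (u0 : u ≤ (1:ℝ)) (l1 : (0:ℝ) ≤ ta) (u1 : ta ≤ (1:ℝ)) (l2 : (11/20:ℝ) ≤ s) (u2 : s ≤ (19/25:ℝ)) : Q u ta s :=
  cov u ta s (le_trans (by norm_num [val, SS, BB]) l0) (le_trans u0 (by norm_num [val, SS, BB])) (le_trans (by norm_num [val, SS, BB]) l1) (le_trans u1 (by norm_num [val, SS, BB])) (le_trans (by norm_num [val, SS, BB]) l2) (le_trans u2 (by norm_num [val, SS, BB]))

end Crest.Agent.R307.UKQ
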