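import Crest.Agent.R307.UA
import Crest.Agent.R307.UKPM
import Crest.Agent.R307.UKQM

/-!
# R307/UK: the step family (E) with a small affine term, `s ∈ [11/20, 19/25]`
-/

set_option autoImplicit false
set_option maxHeartbeats 1000000
set_option linter.unusedVariables false

namespace Crest.Agent.R307

open Set

/-- Pointwise step with the extra term `- m (1 - p1)`. -/
def UStepC (ρ : ℝ) (U : ℝ → ℝ) (K0 K1 l m : ℝ) : Prop :=
  0 ≤ K0 ∧ 0 ≤ K1 ∧ ∀ p0 p1 : ℝ, 0 ≤ p0 → p0 ≤ p1 → p1 ≤ 1 →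
    K0 * U p0 + K1 * U p1 + l * (p1 - p0) - m * (1 - p1) ≤
      U ((1 + ρ) / 2 * p1 + (1 - ρ) / 2 * p0) + U ((1 + ρ) / 2 * p0 + (1 - ρ) / 2 * p1)

theorem UStep.toC {ρ : ℝ} {U : ℝ → ℝ} {K0 K1 l : ℝ} (h : UStep ρ U K0 K1 l) : UStepC ρ U K0 K1 l 0 :=
  ⟨h.1, h.2.1, fun p0 p1 a b c => by simpa using h.2.2 p0 p1 a b c⟩

theorem UStepC.mix {ρ : ℝ} {U : ℝ → ℝ} {K0 K1 l m K0' K1' l' m' t : ℝ} (h : UStepC ρ U K0 K1 l m)
    (h' : UStepC ρ U K0' K1' l' m') (t0 : 0 ≤ t) (t1 : t ≤ 1) :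
    UStepC ρ U ((1 - t) * K0 + t * K0') ((1 - t) * K1 + t * K1') ((1 - t) * l + t * l') ((1 - t) * m + t * m') := by
  have t2 : 0 ≤ 1 - t := by linarith
  refine ⟨add_nonneg (mul_nonneg t2 h.1) (mul_nonneg t0 h'.1), add_nonneg (mul_nonneg t2 h.2.1) (mul_nonneg t0 h'.2.1),
    fun p0 p1 a b c => ?_⟩
  have := mul_le_mul_of_nonneg_left (h.2.2 p0 p1 a b c) t2
  have := mul_le_mul_of_nonneg_left (h'.2.2 p0 p1 a b c) t0
  linarith

/-- The inequality of family (E), multiplied by `1 + t²`. -/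
def FE (ρ s t p0 p1 : ℝ) : Prop :=
  2 * t * s * (p1 - p0 + 14 / 25 * (Uex p0 - Uex p1)) ≤
    (1 + t ^ 2) * (Tx ρ p0 p1 - Uex p0 - Uex p1) +
      2 * t ^ 2 * ((3 / 5 * s - 1 / 10) * Uex p0 + (101 / 100 - 3 / 5 * s) * Uex p1 + 9 / 1000 * (1 - p1))

theorem quadE {a g X s t : ℝ} (t1 : t ≤ 1 / 2)
    (h : (0 < a ∧ 0 ≤ a * g - s ^ 2 * X ^ 2) ∨ (0 < a ∧ 0 < 2 * (s * X) - a ∧ 0 < g + a / 4 - s * X)) :
    0 ≤ g + t ^ 2 * a - 2 * t * s * X := by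
  rcases h with ⟨a0, b⟩ | ⟨a0, b, c⟩
  · have : 0 ≤ a * (g + t ^ 2 * a - 2 * t * s * X) := by nlinarith [sq_nonneg (a * t - s * X)]
    exact nonneg_of_mul_nonneg_right this a0 |> fun h => h
  · have e : 0 ≤ 1 / 2 - t := by linarith
    nlinarith [mul_nonneg e b.le, mul_nonneg (sq_nonneg (1 / 2 - t)) a0.le]

theorem uk_P (hM : MConc) {ρ s t T c : ℝ} (hρ0 : 0 ≤ ρ) (hρ1 : ρ ≤ 1) (hs : s ^ 2 = 1 - ρ ^ 2) (s0 : 11 / 20 ≤ s)
    (s1 : s ≤ 19 / 25) (ht : t ≤ 1 / 2) (T0 : 0 < T) (T1 : T ≤ 18 / 25) (c0 : 0 ≤ c) (c1 : c ≤ 1) :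
    FE ρ s t ((c * T) ^ 2) (T ^ 2) := by
  have Q := UKP.main T c s T0.le T1 c0 c1 s0 s1
  have cT : c * T ≤ T := mul_le_of_le_one_left T0.le c1
  have cT0 : 0 ≤ c * T := mul_nonneg c0 T0.le
  have a0 : 0 < 1 - UKP.c2 T c s * UKP.T2 T c s := by simp only [UKP.c2, UKP.T2]; nlinarith
  have a1 : 0 < 1 - UKP.T2 T c s := by simp only [UKP.T2]; nlinarith
  have r00 : 0 < UKP.r0 T c s := Real.sqrt_pos.2 a0
  have r10 : 0 < UKP.r1 T c s := Real.sqrt_pos.2 a1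
  have e0 : UKP.r0 T c s ^ 2 + (c * T) ^ 2 = 1 := by
    rw [UKP.r0, Real.sq_sqrt a0.le]; simp only [UKP.c2, UKP.T2]; ring
  have e1 : UKP.r1 T c s ^ 2 + T ^ 2 = 1 := by
    rw [UKP.r1, Real.sq_sqrt a1.le]; simp only [UKP.T2]; ring
  have ew : UKP.w T c s = s ^ 2 * (1 - c ^ 2) ^ 2 / 4 * T ^ 4 := by
    simp only [UKP.w, UKP.hq, UKP.hh, UKP.d, UKP.c2, UKP.T2]; ring
  have w0 : 0 ≤ UKP.w T c s := by rw [ew]; positivity
  have pi0 : 0 ≤ UKP.pi T c s := Real.sqrt_nonneg _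
  have b0 : 0 ≤ UKP.b T c s := Real.sqrt_nonneg _
  have key := ug_P hM (w := UKP.w T c s) (pi := UKP.pi T c s) (sg := UKP.sg T c s) (b := UKP.b T c s)
    (v := UKP.v T c s) (G := UKP.G T c s) hρ0 hρ1 hs T0 c0 c1 r00 r10 e0 e1 ew pi0
    (by rw [UKP.pi, Real.sq_sqrt (add_nonneg (mul_self_nonneg _) w0), UKP.pi0]; ring) (Real.sqrt_nonneg _)
    (by
      have : 0 ≤ UKP.P T c s := by simp only [UKP.P, UKP.c2, UKP.T2]; nlinarith
      rw [UKP.sg, Real.sq_sqrt (by linarith)]; simp only [UKP.P, UKP.c2, UKP.T2]; ring) b0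
    (by
      rw [UKP.b, Real.sq_sqrt (show 0 ≤ UKP.c2 T c s + UKP.hq T c s from
        add_nonneg (mul_self_nonneg _) (mul_self_nonneg _))]
      simp only [UKP.hq, UKP.hh, UKP.d, UKP.c2]; ring) (Real.sqrt_nonneg _)
    (by
      rw [UKP.v, Real.sq_sqrt (by have := mul_self_nonneg c; simp only [UKP.c2]; linarith)]
      simp only [UKP.c2]; ring)
    (by simp only [UKP.G, UKP.Gp, UKP.GW, UKP.ss, UKP.P, UKP.pi0, UKP.c2, UKP.T2]; ring)
  have u0 : Uex ((c * T) ^ 2) = T ^ 2 * UKP.V0 T c s := by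
    rw [uex_t r00.le cT0 e0]; simp only [UKP.V0, UKP.U0, UKP.i0, UKP.c2]; ring
  have u1 : Uex (T ^ 2) = T ^ 2 * UKP.U1 T c s := by
    rw [uex_t r10.le T0.le e1]; simp only [UKP.U1, UKP.i1]
  have ed : UKP.d T c s = 1 - c ^ 2 := by simp only [UKP.d, UKP.c2]; ring
  have eX : UKP.X T c s = T ^ 2 - (c * T) ^ 2 + 14 / 25 * (Uex ((c * T) ^ 2) - Uex (T ^ 2)) := by
    rw [uex_dd r00.le r10.le cT0 T0.le e0 e1 (by positivity) (by positivity) (by positivity)]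
    simp only [UKP.X, UKP.Z, UKP.i0, UKP.i1, UKP.c2, ed]
    generalize UKP.r0 T c s = r0 at *
    generalize UKP.r1 T c s = r1 at *
    have f0 : (c * T) ^ 2 * (1 / (1 + r0)) = 1 - r0 := by
      rw [← mul_div_assoc, div_eq_iff (by positivity)]; linear_combination e0
    have f1 : T ^ 2 * (1 / (1 + r1)) = 1 - r1 := by
      rw [← mul_div_assoc, div_eq_iff (by positivity)]; linear_combination e1
    generalize 1 / (1 + r0) = i0 at *
    generalize 1 / (1 + r1) = i1 at *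
    have z2 : T * ((c * (1 + c * c * (1 - i0)) + c * c + (1 - i1)) / ((r0 * c + r1) * (1 + c))) =
        ((c * T) ^ 2 + T ^ 2 - 1) / (r0 * (c * T) + r1 * T) + 1 / (c * T + T) := by
      have hN : T ^ 2 * (c * (1 + c * c * (1 - i0)) + c * c + (1 - i1)) =
          ((c * T) ^ 2 + T ^ 2 - 1) * (1 + c) + (r0 * c + r1) := by linear_combination (-c) * f0 - f1
      rw [show r0 * (c * T) + r1 * T = T * (r0 * c + r1) by ring, show c * T + T = T * (1 + c) by ring]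
      have A0 : 0 < r0 * c + r1 := by positivity
      have B0 : 0 < 1 + c := by positivity
      generalize c * (1 + c * c * (1 - i0)) + c * c + (1 - i1) = N at *
      generalize (c * T) ^ 2 + T ^ 2 - 1 = E at *
      generalize r0 * c + r1 = A at *
      generalize 1 + c = B at *
      field_simp
      linear_combination hN
    rw [z2]; ring
  have k := quadE (a := UKP.a T c s) (g := UKP.g T c s) (X := UKP.X T c s) (s := s) ht (by
    rcases Q with ⟨a, b⟩ | h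
    · refine Or.inl ⟨a, ?_⟩
      have := mul_nonneg (show 0 ≤ s ^ 2 * UKP.d T c s ^ 2 * T ^ 3 / 4 by positivity) b.le
      rw [UKP.g, UKP.X]
      linear_combination this
    · exact Or.inr h)
  rw [UKP.a, eX, UKP.L, UKP.g, ed] at k
  unfold FE
  have k2 := mul_le_mul_of_nonneg_left key (show 0 ≤ 1 + t ^ 2 by positivity)
  linear_combination k2 + k - 2 * t ^ 2 * (3 / 5 * s - 1 / 10) * u0 - 2 * t ^ 2 * (101 / 100 - 3 / 5 * s) * u1

theorem uk_Q (hM : MConc) {ρ s t u R t0 ta t1 : ℝ} (hρ0 : 0 ≤ ρ) (hρ1 : ρ ≤ 1) (hs : s ^ 2 = 1 - ρ ^ 2)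
    (s0 : 11 / 20 ≤ s) (s1 : s ≤ 19 / 25) (ht : t ≤ 1 / 2) (u0 : 0 ≤ u) (u1 : u ≤ 1)
    (eR : 2 * (1 / (1 + u * u)) - 1 = R)
    (et : 2 * u * (1 / (1 + u * u)) = t0) (R0 : 0 < R) (t00 : 0 ≤ t0) (e0 : R ^ 2 + t0 ^ 2 = 1) (ta0 : 0 ≤ ta)
    (ta1 : ta ≤ 1) (r7 : R * ta ≤ 7 / 10) (t10 : 0 < t1) (e1 : (R * ta) ^ 2 + t1 ^ 2 = 1) :
    FE ρ s t (t0 ^ 2) (t1 ^ 2) := by
  have Q := UKQ.main u ta s u0 u1 ta0 ta1 s0 s1
  have hR : UKQ.R u ta s = R := eR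
  have ht0 : UKQ.t0 u ta s = t0 := et
  have ht1 : UKQ.t1 u ta s = t1 := by
    rw [UKQ.t1, UKQ.r1, hR, show 1 - R * ta * (R * ta) = t1 ^ 2 by linarith, Real.sqrt_sq t10.le]
  have om0 : 0 ≤ UKQ.om u ta s := Real.sqrt_nonneg _
  have b0 : 0 ≤ UKQ.b u ta s := Real.sqrt_nonneg _
  have eq : UKQ.hq u ta s = s ^ 2 * (1 - ta ^ 2) ^ 2 / 4 := by simp only [UKQ.hq, UKQ.hh, UKQ.d]; ring
  have eom : UKQ.om u ta s ^ 2 = ta ^ 2 + s ^ 2 * (1 - ta ^ 2) ^ 2 / 4 := by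
    rw [UKQ.om, eq, Real.sq_sqrt (by positivity)]; ring
  have eP : UKQ.Pp u ta s = t0 ^ 2 + t1 ^ 2 := by simp only [UKQ.Pp, UKQ.P, UKQ.R2, UKQ.Ph, hR]; linarith
  have key := ug_Q hM (om := UKQ.om u ta s) (sg := UKQ.sg u ta s) (b := UKQ.b u ta s)
    (v := UKQ.v u ta s) (Ga := UKQ.Ga u ta s) hρ0 hρ1 hs R0 ta0 ta1 t00 t10 e0 e1 om0 eom (Real.sqrt_nonneg _)
    (by rw [UKQ.sg, UKQ.Ph, Real.sq_sqrt (by positivity)]; ring) b0
    (by
      rw [UKQ.b, eom, eq, UKQ.b0, UKQ.R4, UKQ.R2, hR, ht0, ht1, Real.sq_sqrt (by positivity)]; ring)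
    (Real.sqrt_nonneg _) (by rw [UKQ.v, eP, Real.sq_sqrt (by positivity)]; linarith)
    (by simp only [UKQ.Ga, UKQ.Gp, UKQ.GW, UKQ.ss, UKQ.Pp, UKQ.P, UKQ.R4, UKQ.R2, UKQ.Ph, UKQ.b0, UKQ.v0, hR, ht0,
      ht1]; ring)
  have r10 : 0 ≤ R * ta := mul_nonneg R0.le ta0
  have w0 : Uex (t0 ^ 2) = R * UKQ.U0 u ta s := by
    rw [uex_r R0.le t00 e0]; simp only [UKQ.U0, hR, ht0]; ring
  have w1 : Uex (t1 ^ 2) = R * UKQ.V1 u ta s := by
    rw [uex_r r10 t10.le e1]; simp only [UKQ.V1, UKQ.U1, UKQ.r1, hR, ht1]; ring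
  have ed : UKQ.d u ta s = 1 - ta ^ 2 := by simp only [UKQ.d]; ring
  have eX : R * UKQ.X u ta s = t1 ^ 2 - t0 ^ 2 + 14 / 25 * (Uex (t0 ^ 2) - Uex (t1 ^ 2)) := by
    rw [w0, w1, UKQ.X, ed, hR]; linear_combination e0 - e1
  have z : 0 < UKQ.om u ta s + ta := by
    rcases eq_or_lt_of_le (add_nonneg om0 ta0) with z | z
    · have a : UKQ.om u ta s = 0 := by linarith
      have b : ta = 0 := by linarith
      rw [a, b] at eom
      nlinarith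
    · exact z
  have eZ : UKQ.X u ta s = (1 - ta ^ 2) * UKQ.Z u ta s := by
    rcases eq_or_lt_of_le (add_nonneg t00 (mul_nonneg ta0 t10.le)) with h | h
    · have a : t0 = 0 := by linarith [mul_nonneg ta0 t10.le]
      have b : ta = 0 := by
        rcases mul_eq_zero.1 (show ta * t1 = 0 by linarith) with h | h
        · exact h
        · exact absurd h t10.ne'
      have c : t1 = 1 := by
        rw [b] at e1
        exact (pow_eq_one_iff_of_nonneg t10.le two_ne_zero).1 (by linarith)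
      have d : R = 1 := by
        rw [a] at e0
        exact (pow_eq_one_iff_of_nonneg R0.le two_ne_zero).1 (by linarith)
      apply mul_left_cancel₀ R0.ne'
      rw [eX]
      simp only [UKQ.Z, UKQ.Hd, hR, ht0, ht1]
      rw [a, b, c, d]
      norm_num [Uex_zero, Uex_one]
    apply mul_left_cancel₀ R0.ne'
    rw [eX, uex_dd R0.le r10 t00 t10.le e0 e1 (by linarith [mul_pos R0 h]) (by positivity) (by positivity)]
    simp only [UKQ.Z, UKQ.Hd, hR, ht0, ht1]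
    rw [show t1 ^ 2 - t0 ^ 2 = R ^ 2 * (1 - ta ^ 2) by linarith, show t0 ^ 2 + t1 ^ 2 - 1 = 1 - R * R * (1 + ta * ta) by
      linarith, show R * t0 + R * ta * t1 = R * (t0 + ta * t1) by ring, show R + R * ta = R * (1 + ta) by ring]
    have : 0 < 1 + ta := by positivity
    generalize 1 / (t0 + t1) = i
    field_simp
    ring
  have k := quadE (a := UKQ.a u ta s) (g := UKQ.g u ta s) (X := UKQ.X u ta s) (s := s) ht (by
    rcases Q with ⟨a, b⟩ | ⟨a, b⟩ | h | h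
    · refine Or.inl ⟨a, ?_⟩
      have := mul_nonneg (show 0 ≤ s ^ 2 * (1 - ta ^ 2) ^ 2 by positivity) b.le
      rw [UKQ.g, eZ, ed]
      linear_combination this
    · refine Or.inl ⟨a, ?_⟩
      have := mul_nonneg (sq_nonneg s) b.le
      rw [UKQ.g]
      linear_combination this
    · exact Or.inr h
    · rw [UKQ.r1, hR] at h; linarith)
  have eh : (UKQ.om u ta s - ta) * UKQ.Ga u ta s = UKQ.g u ta s := by
    have eg : (UKQ.om u ta s + ta) * UKQ.k u ta s = UKQ.Ga u ta s / 4 := by rw [UKQ.k]; field_simp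
    apply mul_left_cancel₀ z.ne'
    rw [UKQ.g, ed]
    linear_combination UKQ.Ga u ta s * eom - s ^ 2 * (1 - ta ^ 2) ^ 2 * eg
  rw [UKQ.a, UKQ.L, UKQ.r1, hR] at k
  unfold FE
  have := mul_nonneg R0.le k
  have k2 := mul_le_mul_of_nonneg_left key (show 0 ≤ 1 + t ^ 2 by positivity)
  linear_combination k2 + this - (1 + t ^ 2) * R * eh - 2 * t * s * eX - 2 * t ^ 2 * (3 / 5 * s - 1 / 10) * w0 -
    2 * t ^ 2 * (101 / 100 - 3 / 5 * s) * w1 + 2 * t ^ 2 * (9 / 1000) * e1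

/-- Family (E): `sn = 2t/(1+t²)`, `cm = 2t²/(1+t²)`. -/
theorem ustepE_C {ρ s t sn cm : ℝ} (hρ0 : 0 ≤ ρ) (hρ1 : ρ ≤ 1) (hs : s ^ 2 = 1 - ρ ^ 2) (s0 : 11 / 20 ≤ s)
    (s1 : s ≤ 19 / 25) (t0 : 0 ≤ t) (t1 : t ≤ 1 / 2) (hsn : (1 + t ^ 2) * sn = 2 * t)
    (hcm : (1 + t ^ 2) * cm = 2 * t ^ 2) :
    UStepC ρ Uex (1 - (3 / 5 * s - 1 / 10) * cm + 14 / 25 * s * sn)
      (1 - (101 / 100 - 3 / 5 * s) * cm - 14 / 25 * s * sn) (s * sn) (9 / 1000 * cm) := by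
  have p : 0 < 1 + t ^ 2 := by positivity
  have tt : t ^ 2 ≤ t / 2 := by nlinarith
  refine ⟨nonneg_of_mul_nonneg_right (a := 1 + t ^ 2) ?_ p |> fun h => h,
    nonneg_of_mul_nonneg_right (a := 1 + t ^ 2) ?_ p |> fun h => h, fun p0 p1 h0 h01 h1 => ?_⟩
  · have : (1 + t ^ 2) * (1 - (3 / 5 * s - 1 / 10) * cm + 14 / 25 * s * sn) =
        1 + t ^ 2 - (3 / 5 * s - 1 / 10) * (2 * t ^ 2) + 14 / 25 * s * (2 * t) := by
      linear_combination (-(3 / 5 * s - 1 / 10)) * hcm + 14 / 25 * s * hsn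
    rw [this]
    nlinarith [mul_nonneg t0 (show 0 ≤ s by linarith), mul_nonneg (sq_nonneg t) (sub_nonneg.2 s1)]
  · have : (1 + t ^ 2) * (1 - (101 / 100 - 3 / 5 * s) * cm - 14 / 25 * s * sn) =
        1 + t ^ 2 - (101 / 100 - 3 / 5 * s) * (2 * t ^ 2) - 14 / 25 * s * (2 * t) := by
      linear_combination (-(101 / 100 - 3 / 5 * s)) * hcm - 14 / 25 * s * hsn
    rw [this]
    nlinarith [mul_nonneg t0 (sub_nonneg.2 s1), mul_nonneg (sq_nonneg t) (sub_nonneg.2 s0)]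
  have k : FE ρ s t p0 p1 := by
    refine step_charts (F := FE ρ s t) ?_ ?_ (fun T c a b c' d => uk_P mconc hρ0 hρ1 hs s0 s1 t1 a b c' d)
      (fun u R t0 ta t1' a b c d e' f g h i j k l => uk_Q mconc hρ0 hρ1 hs s0 s1 t1 a b c d e' f g h i j k l)
      p0 p1 h0 h01 h1
    · simp only [FE, Tx, Uex_zero, mul_zero, add_zero, sub_zero]
      positivity
    · simp [FE, Tx, Uex_one, show (1 + ρ) / 2 + (1 - ρ) / 2 = 1 by ring]
  unfold FE Tx at k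
  refine le_of_mul_le_mul_left ?_ p
  linear_combination k + s * (p1 - p0 + 14 / 25 * (Uex p0 - Uex p1)) * hsn -
    ((3 / 5 * s - 1 / 10) * Uex p0 + (101 / 100 - 3 / 5 * s) * Uex p1 + 9 / 1000 * (1 - p1)) * hcm

end Crest.Agent.R307
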