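import Crest.Agent.R307.XSh
import Crest.Agent.R307.UK
import Crest.Agent.R307.SFcM
import Crest.Agent.R307.SFeM

/-!
# R307/SF: the single hypothesis `E Uex(T 1_A) ≥ b(|A|)` for `s ∈ [3/5, 0.7513]`
-/

set_option autoImplicit false

namespace Crest.Agent.R307

open Crest.CubeNoise Set

theorem sf_conc {x c δ : ℝ} (c0 : 0 ≤ c) (c1 : c ≤ 1) (d0 : 0 ≤ δ) (d1 : δ ≤ 1) (x0 : δ * c ≤ x) (x1 : x ≤ δ * c + (1 - δ)) :
    δ * Uex c ≤ Uex x := by
  rcases d1.eq_or_lt with e | e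
  · subst e
    have : x = c := by linarith
    rw [this, one_mul]
  · have p : 0 < 1 - δ := by linarith
    have z0 : 0 ≤ (x - δ * c) / (1 - δ) := div_nonneg (by linarith) p.le
    have z1 : (x - δ * c) / (1 - δ) ≤ 1 := (div_le_one p).2 (by linarith)
    have k := Uex_conc.2 (x := c) (y := (x - δ * c) / (1 - δ)) ⟨c0, c1⟩ ⟨z0, z1⟩ d0 p.le (by ring)
    simp only [smul_eq_mul] at k
    rw [show δ * c + (1 - δ) * ((x - δ * c) / (1 - δ)) = x by field_simp; ring] at k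
    linarith [mul_nonneg p.le (Uex_nonneg z0 z1)]

/-- The dictator step. -/
theorem ustep_dict {ρ s : ℝ} (hρ0 : 0 ≤ ρ) (hρ1 : ρ ≤ 1) (s0 : 0 ≤ s) (hs : s ^ 2 = 1 - ρ ^ 2) : UStep ρ Uex 0 0 s := by
  refine ⟨le_rfl, le_rfl, fun p0 p1 h0 h01 h1 => ?_⟩
  have k1 := sf_conc (x := (1 + ρ) / 2 * p1 + (1 - ρ) / 2 * p0) (c := (1 + ρ) / 2) (δ := p1 - p0) (by linarith)
    (by linarith) (by linarith) (by linarith) (by linarith) (by linarith)
  have k2 := sf_conc (x := (1 + ρ) / 2 * p0 + (1 - ρ) / 2 * p1) (c := 1 - (1 + ρ) / 2) (δ := p1 - p0) (by linarith)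
    (by linarith) (by linarith) (by linarith) (by linarith) (by linarith)
  have e := Uex_split (p := (1 + ρ) / 2) (by linarith)
  rw [show (1 + ρ) / 2 * (1 - (1 + ρ) / 2) = (s / 2) ^ 2 by linear_combination (-1 / 4) * hs,
    Real.sqrt_sq (by linarith)] at e
  have : (p1 - p0) * Uex ((1 + ρ) / 2) + (p1 - p0) * Uex (1 - (1 + ρ) / 2) = s * (p1 - p0) := by
    linear_combination (p1 - p0) * e
  linarith

/-- The step for the single hypothesis with the extra term. -/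
def BAtF (ρ : ℝ) (U b : ℝ → ℝ) (a0 a1 : ℝ) : Prop :=
  ∃ K0 K1 l m : ℝ, UStepC ρ U K0 K1 l m ∧
    2 * b ((a0 + a1) / 2) ≤ K0 * b a0 + K1 * b a1 + l * (a1 - a0) - m * (1 - a1)

theorem xcore_of_bC {ρ : ℝ} (hρ0 : 0 ≤ ρ) (hρ1 : ρ ≤ 1) {b : ℝ → ℝ} (b0 : b 0 ≤ 0) (b1 : b 1 ≤ 0)
    (sb : ∀ a0 a1 : ℝ, 0 ≤ a0 → a0 ≤ a1 → a1 ≤ 1 → SmH a0 a1 → BAtF ρ Uex b a0 a1)
    (fin : ∀ a : ℝ, 0 ≤ a → a ≤ 1 → √(1 - ρ ^ 2) - 1 + 2 * √(a * (1 - a)) ≤ b a + b (1 - a)) : XCore ρ := by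
  have hρ : |ρ| ≤ 1 := abs_le.2 ⟨by linarith, hρ1⟩
  have key := xind_set3 (ι := Unit) hρ0 hρ1 (fun _ => Uex) (fun _ => b) (fun _ => Uex_conc)
    (fun _ => by simpa [Uex_zero] using b0) (fun _ => by simpa [Uex_one] using b1)
    (fun n v w bv bw hvw hS iv iw _ => by
      have hP := xv_noise_nonneg hρ bv
      have hQ := xv_noise_le hρ bw
      have hPQ := noise_mono hρ hvw
      have a0 : 0 ≤ cubeAverage v := by rw [← avg_noise ρ]; exact le_avg hP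
      have a1 : cubeAverage w ≤ 1 := by rw [← avg_noise ρ]; exact avg_le hQ
      obtain ⟨K0, K1, l, m, hK, hb⟩ := sb _ _ a0 (avg_mono hvw) a1 hS
      refine hb.trans (le_trans ?_ (avg_mono fun x => hK.2.2 _ _ (hP x) (hPQ x) (hQ x)))
      rw [avg_sub, avg_add, avg_add, avg_mul, avg_mul, avg_mul, avg_mul, avg_sub, avg_sub, avg_noise, avg_noise,
        avg_const]
      have := mul_le_mul_of_nonneg_left (iv ()) hK.1
      have := mul_le_mul_of_nonneg_left (iw ()) hK.2.1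
      linarith)
  intro n u hu
  have u0 : ∀ y, 0 ≤ u y := fun y => by rcases hu y with a | a <;> simp [a]
  have u1 : ∀ y, u y ≤ 1 := fun y => by rcases hu y with a | a <;> simp [a]
  have k1 := key n u hu ()
  have k2 := key n (fun y => -1 * u y + 1) (fun y => by rcases hu y with a | a <;> simp [a]) ()
  simp only [noise_affine] at k2
  rw [avg_add, avg_mul, avg_const, show -1 * cubeAverage u + 1 = 1 - cubeAverage u by ring] at k2
  refine (fin _ (le_avg u0) (avg_le u1)).trans ((add_le_add k1 k2).trans ?_)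
  rw [← avg_add]
  refine avg_mono fun x => ?_
  rw [show -1 * noise ρ u x + 1 = 1 - noise ρ u x by ring]
  exact (Uex_split (xv_noise_nonneg hρ hu x)).le

/-- The budget. -/
noncomputable def sfb (s a : ℝ) : ℝ := s * (a * SFc.fh0 s a 0 0)

open SFc in
theorem sf_id (s r th p : ℝ) :
    sfb s r = s * (r * fh0 s r th p) ∧ sfb s (r - r * th) = s * (r * fh0 s r th p - r * th * fD1 s r th p) ∧
      2 * sfb s ((r - r * th + r) / 2) =
        s * (2 * (r * fh0 s r th p) - r * th * fD1 s r th p + (r * th) ^ 2 * fD2 s r th p) := by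
  simp only [sfb, fD1, fD2, fa0, fk2, fk3, fk4, fk5, fk6, fk7, fg1, fg2, fg3, fg4, fg5, fg6, fg7, fh0, fh1, fh2, fh3,
    fh4, fh5, fh6, fh7, fh8, fm0, fmm, fm1, fd]
  refine ⟨trivial, ?_, ?_⟩ <;> ring

open SFc in
theorem sf_step {ρ s : ℝ} (hρ0 : 0 ≤ ρ) (hρ1 : ρ ≤ 1) (hs : s ^ 2 = 1 - ρ ^ 2) (s0 : 3 / 5 ≤ s) (s1 : s ≤ 7513 / 10000)
    (hA : ∀ x : ℝ, 0 ≤ x → x ≤ 3 / 4 →
      UStep ρ Uex (1 + s ^ 2 * (2 / 3 * x - 3 / 10 * x ^ 2)) (1 - s ^ 2 * (2 / 3 * x + 39 / 200 * x ^ 2)) (s ^ 2 * x))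
    (hB : ∀ t sn cm : ℝ, 3 / 10 * s ≤ t → (1 + t ^ 2) * sn = 2 * t → (1 + t ^ 2) * cm = 2 * t ^ 2 →
      0 ≤ 1 + 3 / 25 * s ^ 2 + s * (3 / 10 * sn - 1 / 4 * cm) →
      0 ≤ 1 - cm - 3 / 25 * s ^ 2 - s * (7 / 25 * sn - 1 / 4 * cm) →
      UStep ρ Uex (1 + 3 / 25 * s ^ 2 + s * (3 / 10 * sn - 1 / 4 * cm))
        (1 - cm - 3 / 25 * s ^ 2 - s * (7 / 25 * sn - 1 / 4 * cm)) (s * (499 / 500 - 3 / 500 * s) * sn))
    {r th : ℝ} (r0 : 0 ≤ r) (r1 : r ≤ 1) (t0 : 0 ≤ th) (t1 : th ≤ 1) (hd : r * th ≤ 1 / 2) :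
    BAtF ρ Uex (sfb s) (r - r * th) r := by
  have sp : 0 < s := by linarith
  obtain ⟨p, p0, -, h⟩ := SFc.main s r th s0 s1 r0 r1 t0 t1
  obtain ⟨e1, e0, em⟩ := sf_id s r th p
  have sc : 0 ≤ s * (r * th ^ 2) := by positivity
  have tn : 0 ≤ ft s r th p := by unfold ft ftp; positivity
  have wp : 0 < 1 + ft s r th p ^ 2 := by positivity
  have hw : (1 + ft s r th p ^ 2) * fw s r th p = 1 := by unfold fw; field_simp
  have hsn : (1 + ft s r th p ^ 2) * (2 * (ft s r th p * fw s r th p)) = 2 * ft s r th p := by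
    linear_combination 2 * ft s r th p * hw
  have hcm : (1 + ft s r th p ^ 2) * (2 * (ft s r th p ^ 2 * fw s r th p)) = 2 * ft s r th p ^ 2 := by
    linear_combination 2 * ft s r th p ^ 2 * hw
  unfold BAtF
  rw [e1, e0, em]
  rcases h with h | ⟨h1, h2, h3⟩ | ⟨h1, h2⟩ | ⟨h1, h2, h3, h4⟩
  · unfold fd at h
    exfalso; linarith
  · refine ⟨_, _, _, _, ustepE_C hρ0 hρ1 hs (by linarith) (by linarith) tn (by linarith) hsn hcm, ?_⟩
    have k := mul_nonneg sc h3.le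
    unfold fGE fsD frD at k
    unfold ft
    have e : s * r * (9 / 1000 * (1 - r) / (s * r)) = 9 / 1000 * (1 - r) := by field_simp
    generalize 9 / 1000 * (1 - r) / (s * r) = z at k e
    generalize fh0 s r th p = Q at *
    generalize fD1 s r th p = D1 at *
    generalize fD2 s r th p = D2 at *
    generalize fw s r th p = w at *
    generalize ftp s r th p = τ at *
    linear_combination k - 2 * τ ^ 2 * w * th ^ 2 * e
  · have l0 : 0 ≤ flam s r th p := by unfold flam ftp; positivity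
    refine ⟨_, _, _, _, (hA (th * flam s r th p / s) (by positivity) (by rw [div_le_iff₀ sp]; linarith)).toC, ?_⟩
    have k := mul_nonneg sc h2.le
    unfold fGA fsD frD at k
    have e : s * (th * flam s r th p / s) = th * flam s r th p := by field_simp
    generalize th * flam s r th p / s = x at e ⊢
    generalize fh0 s r th p = Q at *
    generalize fD1 s r th p = D1 at *
    generalize fD2 s r th p = D2 at *
    generalize flam s r th p = L at *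
    linear_combination k - (s * (r * th) - 2 / 3 * s ^ 2 * (r * th) * D1 -
      (s * x + th * L) * s * (99 / 200 * (r * Q) - 3 / 10 * (r * th) * D1)) * e
  · have w0 : 0 ≤ fw s r th p := by unfold fw; positivity
    have c1 : ft s r th p ^ 2 * fw s r th p ≤ 1 := by nlinarith
    have c0 := mul_nonneg tn w0
    refine ⟨_, _, _, _, (hB _ _ _ (by linarith) hsn hcm (by nlinarith) (by unfold fK1 at h2; linarith)).toC, ?_⟩
    have k := mul_nonneg sc h4.le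
    unfold fG0 fX fsD frD ft at k
    unfold ft
    have e : th * (s / th) = s := by field_simp
    generalize s / th = z at k e
    generalize fh0 s r th p = Q at *
    generalize fD1 s r th p = D1 at *
    generalize fD2 s r th p = D2 at *
    generalize fw s r th p = w at *
    generalize ftp s r th p = τ at *
    linear_combination k + s * r * th * (1 / 25 * (τ * w * Q) - 3 / 25 * (s * D1)) * e

open SFc in
theorem sf_end {s a : ℝ} (s0 : 3 / 5 ≤ s) (s1 : s ≤ 7513 / 10000) (a0 : 0 ≤ a) (a1 : a ≤ 1) :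
    s - 1 + 2 * √(a * (1 - a)) ≤ sfb s a + sfb s (1 - a) := by
  have pa : 0 ≤ a * (1 - a) := mul_nonneg a0 (by linarith)
  obtain ⟨c, hc, c0, c2⟩ : ∃ c : ℝ, c = 2 * √(a * (1 - a)) ∧ 0 ≤ c ∧ c ^ 2 = 4 * (a * (1 - a)) :=
    ⟨_, rfl, by positivity, by rw [mul_pow, Real.sq_sqrt pa]; ring⟩
  have c1 : c ≤ 1 := by nlinarith [sq_nonneg (2 * a - 1)]
  have k := SFe.main s c s0 s1 c0 c1
  unfold SFe.Q at k
  rw [← hc]
  have e : (1 + c) * (1 / (1 + c)) = 1 := by field_simp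
  generalize 1 / (1 + c) = z at k e
  have k2 := mul_nonneg (show 0 ≤ 1 - c ^ 2 by nlinarith) k.le
  rw [c2] at k2
  have e2 : (1 - 4 * (a * (1 - a))) * z = 1 - c := by linear_combination (1 - c) * e + z * c2
  simp only [sfb, fh0, fh1, fh2, fh3, fh4, fh5, fh6, fh7, fh8, fm1]
  linear_combination k2 + e2

open SFc in
theorem xcore_sf {ρ s : ℝ} (hρ0 : 0 ≤ ρ) (hρ1 : ρ ≤ 1) (hs : s ^ 2 = 1 - ρ ^ 2) (s0 : 3 / 5 ≤ s) (s1 : s ≤ 7513 / 10000)
    (hA : ∀ x : ℝ, 0 ≤ x → x ≤ 3 / 4 →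
      UStep ρ Uex (1 + s ^ 2 * (2 / 3 * x - 3 / 10 * x ^ 2)) (1 - s ^ 2 * (2 / 3 * x + 39 / 200 * x ^ 2)) (s ^ 2 * x))
    (hB : ∀ t sn cm : ℝ, 3 / 10 * s ≤ t → (1 + t ^ 2) * sn = 2 * t → (1 + t ^ 2) * cm = 2 * t ^ 2 →
      0 ≤ 1 + 3 / 25 * s ^ 2 + s * (3 / 10 * sn - 1 / 4 * cm) →
      0 ≤ 1 - cm - 3 / 25 * s ^ 2 - s * (7 / 25 * sn - 1 / 4 * cm) →
      UStep ρ Uex (1 + 3 / 25 * s ^ 2 + s * (3 / 10 * sn - 1 / 4 * cm))
        (1 - cm - 3 / 25 * s ^ 2 - s * (7 / 25 * sn - 1 / 4 * cm)) (s * (499 / 500 - 3 / 500 * s) * sn)) :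
    XCore ρ := by
  have sp : 0 ≤ s := by linarith
  refine xcore_of_bC hρ0 hρ1 (b := sfb s) (by simp [sfb]) ?_ (fun a0 a1 h0 h01 h1 hS => ?_) fun a h0 h1 => ?_
  · simp only [sfb, fh0, fh1, fh2, fh3, fh4, fh5, fh6, fh7, fh8, fm1]
    linarith
  · rcases hS.2 with h | ⟨rfl, rfl⟩
    · obtain ⟨th, t0, t1, e⟩ : ∃ th : ℝ, 0 ≤ th ∧ th ≤ 1 ∧ a1 * th = a1 - a0 := by
        rcases (h0.trans h01).eq_or_lt with c | c
        · exact ⟨0, le_rfl, zero_le_one, by linarith⟩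
        · exact ⟨(a1 - a0) / a1, div_nonneg (by linarith) c.le, (div_le_one c).2 (by linarith), by field_simp⟩
      have := sf_step hρ0 hρ1 hs s0 s1 hA hB (h0.trans h01) h1 t0 t1 (by linarith)
      rwa [e, sub_sub_cancel] at this
    · refine ⟨_, _, _, _, (ustep_dict hρ0 hρ1 sp hs).toC, ?_⟩
      simp only [sfb, fh0, fm1]
      norm_num
      linarith
  · rw [← hs, Real.sqrt_sq sp]
    exact sf_end s0 s1 h0 h1

end Crest.Agent.R307
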