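import Crest.Agent.R307.SFc
set_option autoImplicit false
set_option maxRecDepth 100000
namespace Crest.Agent.R307.SFc
open Crest.Agent.R307.IA Crest.Agent.R307.IA3

theorem k0 : Cov Q 1152922164313823641 1152922330669932925 1152921504606846976 1152922054362661017 1152921504606846976 1152922604118474752 :=
  cov_of snd 16 65535 13 _ _ _ _ _ _ 0x896608966008926208966089660008966089660008a2608a261089860208126081261080a60082060820600818602108b2608a84008a86108b4608b4600082460824610814601208914089140082340823401089b4089b40082940829401207c3407c34008586107934079341212076c6076c60074260742602073060730600073e6074a6069f401072c602070a6070a6206da606da60106d0606d06100718606504206ec606104006f2605fe402106dc606dc600210712407124006684066840106da406da4020617406174005e14205dd405dd4105c34005a9405a9402112108ac408ac40082e4082e40108aa408aa40083c4083c401207ba407ba4007be407be4020720407204211083440834400809408094010872407d7412079b4079b42072f4072f4211206b4406b44206504065040106b5406b542064240642401206184061840056f4056f40105d8405d84005a841211206b8606b861069e6006b6606b661066c60106c4606c6606c662106b26006a660068c6068c61058c4058c40055e4055e40120686600670601205944059c4059c401058840056e4005684056840055240205714057142054b4054b400543421055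54055541005474054740051940519401206f6605454201206826068261056f40547420519405194110654606546002062e6062e620064460644600509405094104d5404d5401066a6021051c4051c40050840508402050a4004e4404e44204da40104f0404f04004e84204c0404c04104b8401206ec606ec6104e7404e7402004e7404e74004dd40048d4048d400485402048b4048b40048740487402104d8404d84004a2404a2401047a4047a41201210537405374005174004cd4204dc404ea404ea40104bc40049640496402104ca404ca4004ba4204984049840048a42104bd404bd400044b40457404574010431402046d4046d40046540044740447402042d4042d42044f4044f4001049b404634046340100424404244203f8403f84003ee421042c4042c4002112066a6049f4049f40048d41205fa605fa6000429404294204594045942004234042340048740487400120430404304103fe4004294042940003ba403ba4103ea403ea400103c1403c14103b74003a14003c2403c240037d4003674012203c4403e6403e640206a6604444044440200388403884003b5403b54001039d4039d4003534035340036b402033d4033d4103c940121033a403684036840002f8402f840030a4020288402884002b6402b640010202402024001d8511111 (by decide +kernel)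

theorem k1 : Cov Q 1152922164313823641 1152922330669932925 1152922054362661017 1152922329240568073 1152921504606846976 1152922054362661017 :=
  cov_of snd 16 65535 10 _ _ _ _ _ _ 0xdfa40db440db44010e2640e264120e4740e474100d5540d55400cb7410d8d40d8d4120d5b40d5b40010e5c40e5c400ed6400ef440ee440ee440120de240de2410e1a40e1a4120eea40eea410120c7040c70410cb240cb24020c8840c884000bac40bac400be040be04020b6e4010cfc40cfc400d8e40d8e4120dc440dc44000bfc40c5840c584020bde401210f7740ecd4110aa410aa400fea40fea40120e1b40e1b410eb3400f0340e9740e9740121115a4115a4010844108440112834112f4112f40120fc040fc0400f0a40f0a401105441054400f8c40f8c4012120dcc40dcc410df8400dd040dd0410ece40ece40020cea40cea400d4640d464120d6640d6640010e5640e56400e3c40e3c4010ed440ed4400df240df240120d7640d16410df240df24000df240df2400d7c40d7c401212120ae140ae1420ac3400a4340a43420a254010b3540b35410a6b40a6b4010adf40adf400209b4409b440098a4098a40209124091242109904099040093e4108e3408e3400210c1040c3040c304020ad240ad24010bd040bd04000c7e40c7e410ce640ce6400c564120cf640cf64200b9c40bb840bb84020b884012096940969410945400a2740a27410a2f402121 (by decide +kernel)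

theorem k2 : Cov Q 1152922164313823641 1152922330669932925 1152922329240568073 1152922466679521619 1152921504606846976 1152922054362661017 :=
  cov_of snd 16 65535 11 _ _ _ _ _ _ 0x11a0411a041121a4121a40210424104e4104e40110b4410b4402113ca413ca4014d8414d840212284122840130241302402120f2840f28400f66400fa440fa44120e6c40e6c410ec0400f3440f34400ef040ef040121101241012401164411644020f4840f48410f9440f94412121160b4160b40191b4191b40213f9413f94015134151340211e82520ad401e954122b4522b45127175271752265f51258152581500221a542196522814021216d2416d2401c1351c614121212294122940130841308402114a410944111424117a4117a40121140241402401546415464021206412064112e0412e04021212 (by decide +kernel)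

end Crest.Agent.R307.SFc
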