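import Crest.Agent.R307.IA2
import Crest.Agent.R307.IAx
set_option autoImplicit false
set_option linter.unusedVariables false
set_option maxRecDepth 20000
namespace Crest.Agent.R307.SFe
open Crest.Agent.R307.IA Crest.Agent.R307.IA2

theorem In_cast {e1 e2 : ℝ} {x y1 y2 r : ℕ} {v w : ℝ}
    (h : In e1 e2 x y1 y2 r v) (e : v = w) : In e1 e2 x y1 y2 r w := e ▸ h


def Q (s c : ℝ) : Prop :=
  (
  (0 < ((s * ((((c ^ 2) * ((((1503/10000:ℝ) * s) + (59/100:ℝ)) + (((1:ℝ) - (c ^ 2)) * ((((17251/10000:ℝ) * s) + (-1379/1250:ℝ)) + (((1:ℝ) - (c ^ 2)) * (((-1949/5000:ℝ) * s) + (14083/10000:ℝ))))))) / (2:ℝ)) - (1:ℝ))) + ((1:ℝ) / ((1:ℝ) + c)))))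

noncomputable def alt0 (z1 w1 z2 w2 : ℕ) : Bool :=
  sqK z2 1152921504606846976 (Nat.add w2 1152921504606846976) 0 fun c1 a1_1 a1_2 q1 =>
  smulK 1503 10000 11529215046068469770000 1732841021424091004928 z1 (Nat.add w1 1152921504606846976) 1152921504606846976 0 fun c2 a2_1 a2_2 q2 =>
  addcK c2 a2_1 a2_2 q2 1152922153318707364 1 fun c3 a3_1 a3_2 q3 =>
  negK c1 a1_1 a1_2 q1 fun c4 a4_1 a4_2 q4 =>
  addcK c4 a4_1 a4_2 q4 1152922604118474752 0 fun c5 a5_1 a5_2 q5 =>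
  smulK 17251 10000 11529215046068469770000 19889048875972717182976 z1 (Nat.add w1 1152921504606846976) 1152921504606846976 0 fun c7 a7_1 a7_2 q7 =>
  addcK c7 a7_1 a7_2 q7 1152920291625619214 1 fun c8 a8_1 a8_2 q8 =>
  smulK 1949 5000 5764607523034234885000 2247044012478744756224 z1 (Nat.add w1 1152921504606846976) 1152921504606846976 0 fun c9 a9_1 a9_2 q9 =>
  negK c9 a9_1 a9_2 q9 fun c10 a10_1 a10_2 q10 =>
  addcK c10 a10_1 a10_2 q10 1152923053049072373 1 fun c12 a12_1 a12_2 q12 =>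
  mulK c5 a5_1 a5_2 q5 c12 a12_1 a12_2 q12 fun c13 a13_1 a13_2 q13 =>
  addK c8 a8_1 a8_2 q8 c13 a13_1 a13_2 q13 fun c14 a14_1 a14_2 q14 =>
  mulK c5 a5_1 a5_2 q5 c14 a14_1 a14_2 q14 fun c15 a15_1 a15_2 q15 =>
  addK c3 a3_1 a3_2 q3 c15 a15_1 a15_2 q15 fun c16 a16_1 a16_2 q16 =>
  mulK c1 a1_1 a1_2 q1 c16 a16_1 a16_2 q16 fun c17 a17_1 a17_2 q17 =>
  smulK 1 2 2305843009213693954 1152921504606846976 c17 a17_1 a17_2 q17 fun c18 a18_1 a18_2 q18 =>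
  addcK c18 a18_1 a18_2 q18 1152920405095219200 0 fun c20 a20_1 a20_2 q20 =>
  mulK z1 (Nat.add w1 1152921504606846976) 1152921504606846976 0 c20 a20_1 a20_2 q20 fun c22 a22_1 a22_2 q22 =>
  addcK z2 1152921504606846976 (Nat.add w2 1152921504606846976) 0 1152922604118474752 0 fun c23 a23_1 a23_2 q23 =>
  invK c23 a23_1 a23_2 q23 fun c25 a25_1 a25_2 q25 =>
  addK c22 a22_1 a22_2 q22 c25 a25_1 a25_2 q25 fun c27 a27_1 a27_2 q27 =>
  pos c27 a27_1 a27_2 q27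

theorem alt0_s {z1 w1 z2 w2 : ℕ} {e1 e2 s c : ℝ} (he : Ev e1 e2)
    (hx1 : In e1 e2 z1 (Nat.add w1 1152921504606846976) 1152921504606846976 0 s)
    (hx2 : In e1 e2 z2 1152921504606846976 (Nat.add w2 1152921504606846976) 0 c)
    (H0 : alt0 z1 w1 z2 w2 = true) : 0 < ((s * ((((c ^ 2) * ((((1503/10000:ℝ) * s) + (59/100:ℝ)) + (((1:ℝ) - (c ^ 2)) * ((((17251/10000:ℝ) * s) + (-1379/1250:ℝ)) + (((1:ℝ) - (c ^ 2)) * (((-1949/5000:ℝ) * s) + (14083/10000:ℝ))))))) / (2:ℝ)) - (1:ℝ))) + ((1:ℝ) / ((1:ℝ) + c))) := by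
  unfold alt0 at H0
  refine sqK_s he hx2 (fun _ _ _ _ h1 H1 => ?_) H0
  refine smulK_s he (w := (1503/10000:ℝ)) (by norm_num) (by norm_num) (by norm_num) (by norm_num) hx1 (fun _ _ _ _ h2 H2 => ?_) H1
  refine addcK_s he h2 (v' := (59/100:ℝ)) (by norm_num [SS, BB, abs_le]) (fun _ _ _ _ h3 H3 => ?_) H2
  refine negK_s he h1 (fun _ _ _ _ h4 H4 => ?_) H3
  refine addcK_s he h4 (v' := (1:ℝ)) (by norm_num [SS, BB, abs_le]) (fun _ _ _ _ h5 H5 => ?_) H4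
  have h6 := In_cast h5 (neg_add_eq_sub _ _)
  refine smulK_s he (w := (17251/10000:ℝ)) (by norm_num) (by norm_num) (by norm_num) (by norm_num) hx1 (fun _ _ _ _ h7 H6 => ?_) H5
  refine addcK_s he h7 (v' := (-1379/1250:ℝ)) (by norm_num [SS, BB, abs_le]) (fun _ _ _ _ h8 H7 => ?_) H6
  refine smulK_s he (w := (1949/5000:ℝ)) (by norm_num) (by norm_num) (by norm_num) (by norm_num) hx1 (fun _ _ _ _ h9 H8 => ?_) H7
  refine negK_s he h9 (fun _ _ _ _ h10 H9 => ?_) H8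
  have h11 := In_cast h10 (neg_mul_c (c := (-1949/5000:ℝ)) (by norm_num))
  refine addcK_s he h11 (v' := (14083/10000:ℝ)) (by norm_num [SS, BB, abs_le]) (fun _ _ _ _ h12 H10 => ?_) H9
  refine mulK_s he h6 h12 (fun _ _ _ _ h13 H11 => ?_) H10
  refine addK_s he h8 h13 (fun _ _ _ _ h14 H12 => ?_) H11
  refine mulK_s he h6 h14 (fun _ _ _ _ h15 H13 => ?_) H12
  refine addK_s he h3 h15 (fun _ _ _ _ h16 H14 => ?_) H13
  refine mulK_s he h1 h16 (fun _ _ _ _ h17 H15 => ?_) H14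
  refine smulK_s he (w := (1/2:ℝ)) (by norm_num) (by norm_num) (by norm_num) (by norm_num) h17 (fun _ _ _ _ h18 H16 => ?_) H15
  have h19 := In_cast h18 (div_c (c := (2:ℝ)) (by norm_num))
  refine addcK_s he h19 (v' := (-1:ℝ)) (by norm_num [SS, BB, abs_le]) (fun _ _ _ _ h20 H17 => ?_) H16
  have h21 := In_cast h20 (sub_c (c := (1:ℝ)) (by norm_num))
  refine mulK_s he hx1 h21 (fun _ _ _ _ h22 H18 => ?_) H17
  refine addcK_s he hx2 (v' := (1:ℝ)) (by norm_num [SS, BB, abs_le]) (fun _ _ _ _ h23 H19 => ?_) H18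
  have h24 := In_cast h23 (add_comm _ _)
  refine invK_s he h24 (fun _ _ _ _ h25 H20 => ?_) H19
  have h26 := In_cast h25 (inv_eq_one_div _)
  refine addK_s he h22 h26 (fun _ _ _ _ h27 H21 => ?_) H20
  exact pos_s he h27 H21

attribute [irreducible] alt0

noncomputable def leaf (j u z1 w1 z2 w2 : ℕ) : Bool :=
  alt0 z1 w1 z2 w2

theorem snd : Snd Q leaf := by
  intro j u z1 w1 z2 w2 e1 e2 he H
  unfold leaf at H
  unfold Q
  exact alt0_s he (var1 z1 w1) (var2 z2 w2) H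

end Crest.Agent.R307.SFe
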