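import Crest.Agent.R307.SLcC0
import Crest.Agent.R307.SLcC1
import Crest.Agent.R307.SLcC2
set_option autoImplicit false
set_option maxRecDepth 100000
namespace Crest.Agent.R307.SLc
open Crest.Agent.R307.IA Crest.Agent.R307.IA3

theorem cov : Cov Q 1152921504606846976 1152922164313823642 1152921504606846976 1152922604118474752 1152921504606846976 1152922604118474752 :=
  (join2 1152922054362661017 k0 (join2 1152922329240568073 k1 (join3 1152922054362661017 (join2 1152922466679521619 (join3 1152921779484754113 k2 k3) (join3 1152921779484754113 (join2 1152922535398998401 (join3 1152921642045800643 (join1 1152921834460336251 (join2 1152922501039262268 k4 k5) k6) k7) k8) k9)) k10)))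

theorem main (s r th : ℝ) (l0 : (0:ℝ) ≤ s) (u0 : s ≤ (3/5:ℝ)) (l1 : (0:ℝ) ≤ r) (u1 : r ≤ (1:ℝ)) (l2 : (0:ℝ) ≤ th) (u2 : th ≤ (1:ℝ)) : Q s r th :=
  cov s r th (le_trans (by norm_num [val, SS, BB]) l0) (le_trans u0 (by norm_num [val, SS, BB])) (le_trans (by norm_num [val, SS, BB]) l1) (le_trans u1 (by norm_num [val, SS, BB])) (le_trans (by norm_num [val, SS, BB]) l2) (le_trans u2 (by norm_num [val, SS, BB]))

end Crest.Agent.R307.SLc
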