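import Crest.Agent.R307.HPp
import Crest.Agent.R307.UB
import Crest.Agent.R307.SLcM
import Crest.Agent.R307.SLeM

/-!
# R307/SL: one linear hypothesis `s * slb s |A| ≤ E Uex(T 1_A)`, `s ≤ 3/5`, steps with `a1 - a0 ≤ 1/2`
-/

set_option autoImplicit false

namespace Crest.Agent.R307

open Crest.CubeNoise Set SLc

noncomputable def slb (s a : ℝ) : ℝ := a * fh0 s a 0 0

theorem slb_one' (s r th p : ℝ) : slb s r = r * fh0 s r th p := rfl

theorem slb_d1 (s r th p : ℝ) : slb s (r - r * th) = r * fh0 s r th p - r * th * fD1 s r th p := by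
  simp only [slb, fD1, fa0, fk2, fk3, fk4, fk5, fk6, fk7, fg1, fg2, fg3, fg4, fg5, fg6, fg7, fm0, fmm,
    fh0, fh1, fh2, fh3, fh4, fh5, fh6, fh7, fh8, fm1, fd]
  ring

theorem slb_d2 (s r th p : ℝ) : 2 * slb s ((r - r * th + r) / 2) =
    2 * (r * fh0 s r th p) - r * th * fD1 s r th p + (r * th) ^ 2 * fD2 s r th p := by
  simp only [slb, fD1, fD2, fa0, fk2, fk3, fk4, fk5, fk6, fk7, fg1, fg2, fg3, fg4, fg5, fg6, fg7, fm0, fmm,
    fh0, fh1, fh2, fh3, fh4, fh5, fh6, fh7, fh8, fm1, fd]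
  ring

theorem slb_zero (s : ℝ) : slb s 0 = 0 := by simp [slb]

theorem slb_one (s : ℝ) : slb s 1 = 0 := by
  simp only [slb, fh0, fh1, fh2, fh3, fh4, fh5, fh6, fh7, fh8, fm1]
  ring

theorem slb_half (s : ℝ) : slb s (1 / 2) = 1 / 2 := by
  simp only [slb, fh0, fm1]
  ring

theorem sl_A {ρ s r th p : ℝ} (hρ0 : 0 ≤ ρ) (hρ1 : ρ ≤ 1) (hs : s ^ 2 = 1 - ρ ^ 2) (s0 : 0 < s) (s1 : s ≤ 3 / 5)
    (r0 : 0 ≤ r) (t0 : 0 ≤ th) (p0 : 0 ≤ p) (hl : th * flam s r th p ≤ 3 / 4 * s) (hG : 0 < fGA s r th p) :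
    BAt ρ Uex (fun a => s * slb s a) (r - r * th) r := by
  have l0 : 0 ≤ th * flam s r th p := by unfold flam ftp; positivity
  set l := th * flam s r th p with hl'
  have hx : s * (l / s) = l := mul_div_cancel₀ _ s0.ne'
  refine ⟨_, _, _, ustepA65 hρ0 hρ1 hs s0.le (by linarith) (x := l / s) (div_nonneg l0 s0.le)
    ((div_le_iff₀ s0).2 hl), ?_⟩
  have key : 0 ≤ s * (r * th ^ 2 * fGA s r th p) := by positivity
  have e2 := slb_d2 s r th p
  simp only [slb_d1 s r th p, slb_one' s r th p]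
  have a1 : s ^ 2 * (2 / 3 * (l / s) - 3 / 10 * (l / s) ^ 2) = 2 / 3 * s * l - 3 / 10 * l ^ 2 := by
    field_simp
  have a2 : s ^ 2 * (2 / 3 * (l / s) + 39 / 200 * (l / s) ^ 2) = 2 / 3 * s * l + 39 / 200 * l ^ 2 := by
    field_simp
  have a3 : s ^ 2 * (l / s) = s * l := by field_simp
  rw [a1, a2, a3, show 2 * (s * slb s ((r - r * th + r) / 2)) = s * (2 * slb s ((r - r * th + r) / 2)) by ring, e2]
  simp only [fGA, fsD, frD] at key
  rw [hl']
  generalize flam s r th p = L at *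
  generalize fh0 s r th p = Q1 at *
  generalize fD1 s r th p = D1 at *
  generalize fD2 s r th p = D2 at *
  linarith

theorem sl_B {ρ s r th p : ℝ} (hρ0 : 0 ≤ ρ) (hρ1 : ρ ≤ 1) (hs : s ^ 2 = 1 - ρ ^ 2) (s0 : 0 < s) (s1 : s ≤ 3 / 5)
    (r0 : 0 ≤ r) (t0 : 0 ≤ th) (hl : 3 / 10 * s ≤ ft s r th p) (hK : 0 < fK1 s r th p)
    (hG : 0 ≤ th * fG0 s r th p + s * fX s r th p) :
    BAt ρ Uex (fun a => s * slb s a) (r - r * th) r := by
  have hw : (1 + ft s r th p ^ 2) * fw s r th p = 1 := by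
    unfold fw; exact mul_one_div_cancel (by positivity)
  have w0 : 0 ≤ fw s r th p := by unfold fw; positivity
  have tt : 0 ≤ ft s r th p := by linarith
  have c2 : ft s r th p ^ 2 * fw s r th p ≤ 1 := by linarith
  have c3 : 0 ≤ ft s r th p * fw s r th p := mul_nonneg tt w0
  refine ⟨_, _, _, ustepB65 hρ0 hρ1 hs s0.le (by linarith) hl (sn := 2 * (ft s r th p * fw s r th p))
    (cm := 2 * (ft s r th p ^ 2 * fw s r th p)) (by linear_combination 2 * ft s r th p * hw)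
    (by linear_combination 2 * ft s r th p ^ 2 * hw) (by nlinarith) (by unfold fK1 at hK; linarith), ?_⟩
  have key : 0 ≤ s * (r * th * (th * fG0 s r th p + s * fX s r th p)) := by positivity
  have e2 := slb_d2 s r th p
  simp only [slb_d1 s r th p, slb_one' s r th p]
  rw [show 2 * (s * slb s ((r - r * th + r) / 2)) = s * (2 * slb s ((r - r * th + r) / 2)) by ring, e2]
  simp only [fG0, fX, fsD, frD, ft] at key ⊢
  generalize fw s r th p = W at *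
  generalize ftp s r th p = T at *
  generalize fh0 s r th p = Q1 at *
  generalize fD1 s r th p = D1 at *
  generalize fD2 s r th p = D2 at *
  linarith

theorem sl_bat {ρ s : ℝ} (hρ0 : 0 ≤ ρ) (hρ1 : ρ ≤ 1) (hs : s ^ 2 = 1 - ρ ^ 2) (s0 : 0 < s) (s1 : s ≤ 3 / 5)
    {a0 a1 : ℝ} (h0 : 0 ≤ a0) (h01 : a0 ≤ a1) (h1 : a1 ≤ 1) (hd : a1 - a0 ≤ 1 / 2) :
    BAt ρ Uex (fun a => s * slb s a) a0 a1 := by
  have r0 : 0 ≤ a1 := h0.trans h01
  set th := (a1 - a0) / a1 with hth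
  have t0 : 0 ≤ th := div_nonneg (by linarith) r0
  have t1 : th ≤ 1 := div_le_one_of_le₀ (by linarith) r0
  have e : a1 * th = a1 - a0 := by
    rcases r0.eq_or_lt with h | h
    · have : a0 = 0 := le_antisymm (h ▸ h01) h0
      rw [← h, this]; ring
    · exact mul_div_cancel₀ _ h.ne'
  have e0 : a0 = a1 - a1 * th := by linarith
  rw [e0]
  obtain ⟨p, p0, -, H⟩ := SLc.main s a1 th s0.le s1 r0 h1 t0 t1
  rcases H with H | ⟨H1, H2⟩ | ⟨H1, H2, H3, H4⟩ | ⟨H1, H2, H3, H4⟩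
  · unfold fd at H; linarith
  · exact sl_A hρ0 hρ1 hs s0 s1 r0 t0 p0 (by linarith) H2
  · refine sl_B hρ0 hρ1 hs s0 s1 r0 t0 (by linarith) H2 ?_
    have := mul_pos H3 H4
    rw [mul_add, ← mul_assoc, mul_div_cancel₀ _ H3.ne'] at this
    exact this.le
  · rcases le_total (ft s a1 th p) (3 / 10 * s) with h | h
    · refine sl_A hρ0 hρ1 hs s0 s1 r0 t0 p0 ?_ H1
      unfold ft at h; unfold flam; linarith
    · refine sl_B hρ0 hρ1 hs s0 s1 r0 t0 h H3 ?_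
      rcases le_total 0 (fX s a1 th p) with x | x
      · positivity
      · have k1 := mul_nonneg t0 H4.le
        have k2 := mul_le_mul_of_nonpos_right h x
        unfold ft at k2
        linarith

/-- The step at the isolated point `(0, 1)`. -/
theorem ustep_zero {ρ s : ℝ} (hρ0 : 0 ≤ ρ) (hρ1 : ρ ≤ 1) (hs : s ^ 2 = 1 - ρ ^ 2) (s0 : 0 ≤ s) :
    UStep ρ Uex 0 0 s := by
  refine ⟨le_rfl, le_rfl, fun p0 p1 h0 h01 h1 => ?_⟩
  have k : ∀ t : ℝ, 0 ≤ t → t ≤ 1 → (p1 - p0) * Uex t ≤ Uex (t * p1 + (1 - t) * p0) := by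
    intro t t0 t1
    rcases (show p1 - p0 ≤ 1 by linarith).eq_or_lt with h | h
    · have a : p0 = 0 := by linarith
      have b : p1 = 1 := by linarith
      simp [a, b]
    · have hd : 0 < 1 - (p1 - p0) := by linarith
      have y0 : 0 ≤ p0 / (1 - (p1 - p0)) := div_nonneg h0 hd.le
      have y1 : p0 / (1 - (p1 - p0)) ≤ 1 := (div_le_one hd).2 (by linarith)
      have c := Uex_conc.2 (x := t) (y := p0 / (1 - (p1 - p0))) ⟨t0, t1⟩ ⟨y0, y1⟩ (sub_nonneg.2 h01) hd.le (by ring)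
      simp only [smul_eq_mul] at c
      rw [mul_div_cancel₀ _ hd.ne', show (p1 - p0) * t + p0 = t * p1 + (1 - t) * p0 by ring] at c
      have := mul_nonneg hd.le (Uex_nonneg y0 y1)
      linarith
  have k1 := k ((1 + ρ) / 2) (by linarith) (by linarith)
  have k2 := k (1 - (1 + ρ) / 2) (by linarith) (by linarith)
  have sp := Uex_split (p := (1 + ρ) / 2) (by linarith)
  rw [show (1 + ρ) / 2 * (1 - (1 + ρ) / 2) = (s / 2) ^ 2 by linear_combination (-1 / 4 : ℝ) * hs,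
    Real.sqrt_sq (by linarith)] at sp
  rw [show 1 - (1 + ρ) / 2 = (1 - ρ) / 2 by ring] at k1 k2 sp
  rw [show (1 - ρ) / 2 * p1 + (1 - (1 - ρ) / 2) * p0 = (1 + ρ) / 2 * p0 + (1 - ρ) / 2 * p1 by ring] at k2
  have : s * (p1 - p0) = (p1 - p0) * Uex ((1 + ρ) / 2) + (p1 - p0) * Uex ((1 - ρ) / 2) := by
    rw [← mul_add, sp]; ring
  linarith

theorem sl_01 {ρ s : ℝ} (hρ0 : 0 ≤ ρ) (hρ1 : ρ ≤ 1) (hs : s ^ 2 = 1 - ρ ^ 2) (s0 : 0 ≤ s) :
    BAt ρ Uex (fun a => s * slb s a) 0 1 := by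
  refine ⟨_, _, _, ustep_zero hρ0 hρ1 hs s0, ?_⟩
  simp only [zero_add, slb_half]
  linarith

theorem sl_end {s a : ℝ} (s0 : 0 ≤ s) (s1 : s ≤ 3 / 5) (a0 : 0 ≤ a) (a1 : a ≤ 1) :
    s - 1 + 2 * √(a * (1 - a)) ≤ s * slb s a + s * slb s (1 - a) := by
  have hq := Real.sq_sqrt (mul_nonneg a0 (sub_nonneg.2 a1))
  have c0 : 0 ≤ 2 * √(a * (1 - a)) := by positivity
  set c := 2 * √(a * (1 - a)) with hc
  have c2 : c ^ 2 = 4 * (a * (1 - a)) := by rw [hc, mul_pow, hq]; ring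
  have c1 : c ≤ 1 := by nlinarith [sq_nonneg (2 * a - 1)]
  have H : 0 < 1 - s * (1 + c) * (1 - c ^ 2 * SLe.fE s c) := SLe.main s c s0 s1 c0 c1
  have e : slb s a + slb s (1 - a) = c ^ 2 * (1 + (1 - c ^ 2) * SLe.fE s c) := by
    simp only [slb, fh0, fh1, fh2, fh3, fh4, fh5, fh6, fh7, fh8, fm1, SLe.fE, SLe.fz, c2]
    ring
  have := mul_nonneg (sub_nonneg.2 c1) H.le
  rw [← mul_add, e]
  linarith

end Crest.Agent.R307
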