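import Crest.Agent.R307.IA3
import Crest.Agent.R307.IAx
set_option autoImplicit false
set_option linter.unusedVariables false
set_option maxRecDepth 20000
namespace Crest.Agent.R307.SLc
open Crest.Agent.R307.IA Crest.Agent.R307.IA3

theorem In_cast {e1 e2 e3 : ℝ} {x y1 y2 y3 r : ℕ} {v w : ℝ}
    (h : In e1 e2 e3 x y1 y2 y3 r v) (e : v = w) : In e1 e2 e3 x y1 y2 y3 r w := e ▸ h

noncomputable def fd (s r th p : ℝ) : ℝ := (r * th)
noncomputable def ftp (s r th p : ℝ) : ℝ := ((12:ℝ) * p)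
noncomputable def flam (s r th p : ℝ) : ℝ := ((2:ℝ) * (ftp s r th p))
noncomputable def fm1 (s r th p : ℝ) : ℝ := (((2:ℝ) * r) - (1:ℝ))
noncomputable def fh8 (s r th p : ℝ) : ℝ := (((2559/10000:ℝ) * s) + (-5941/20000:ℝ))
noncomputable def fh7 (s r th p : ℝ) : ℝ := ((((-1597/2500:ℝ) * s) + (1443/5000:ℝ)) + ((fm1 s r th p) * (fh8 s r th p)))
noncomputable def fh6 (s r th p : ℝ) : ℝ := ((((-5969/20000:ℝ) * s) + (611/2000:ℝ)) + ((fm1 s r th p) * (fh7 s r th p)))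
noncomputable def fh5 (s r th p : ℝ) : ℝ := ((((18183/20000:ℝ) * s) + (-11119/20000:ℝ)) + ((fm1 s r th p) * (fh6 s r th p)))
noncomputable def fh4 (s r th p : ℝ) : ℝ := ((((-1881/5000:ℝ) * s) + (3073/20000:ℝ)) + ((fm1 s r th p) * (fh5 s r th p)))
noncomputable def fh3 (s r th p : ℝ) : ℝ := ((((-1511/5000:ℝ) * s) + (1117/20000:ℝ)) + ((fm1 s r th p) * (fh4 s r th p)))
noncomputable def fh2 (s r th p : ℝ) : ℝ := ((((31/625:ℝ) * s) + (-247/2000:ℝ)) + ((fm1 s r th p) * (fh3 s r th p)))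
noncomputable def fh1 (s r th p : ℝ) : ℝ := ((((401/1000:ℝ) * s) + (-8271/10000:ℝ)) + ((fm1 s r th p) * (fh2 s r th p)))
noncomputable def fh0 (s r th p : ℝ) : ℝ := ((1:ℝ) + ((fm1 s r th p) * (fh1 s r th p)))
noncomputable def fa0 (s r th p : ℝ) : ℝ := (r - (fd s r th p))
noncomputable def fmm (s r th p : ℝ) : ℝ := ((fm1 s r th p) - (fd s r th p))
noncomputable def fg7 (s r th p : ℝ) : ℝ := ((fh7 s r th p) + ((fmm s r th p) * (fh8 s r th p)))
noncomputable def fg6 (s r th p : ℝ) : ℝ := ((fh6 s r th p) + ((fmm s r th p) * (fg7 s r th p)))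
noncomputable def fg5 (s r th p : ℝ) : ℝ := ((fh5 s r th p) + ((fmm s r th p) * (fg6 s r th p)))
noncomputable def fg4 (s r th p : ℝ) : ℝ := ((fh4 s r th p) + ((fmm s r th p) * (fg5 s r th p)))
noncomputable def fg3 (s r th p : ℝ) : ℝ := ((fh3 s r th p) + ((fmm s r th p) * (fg4 s r th p)))
noncomputable def fg2 (s r th p : ℝ) : ℝ := ((fh2 s r th p) + ((fmm s r th p) * (fg3 s r th p)))
noncomputable def fg1 (s r th p : ℝ) : ℝ := ((fh1 s r th p) + ((fmm s r th p) * (fg2 s r th p)))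
noncomputable def fm0 (s r th p : ℝ) : ℝ := ((fmm s r th p) - (fd s r th p))
noncomputable def fk7 (s r th p : ℝ) : ℝ := ((fg7 s r th p) + ((fm0 s r th p) * (fh8 s r th p)))
noncomputable def fk6 (s r th p : ℝ) : ℝ := ((fg6 s r th p) + ((fm0 s r th p) * (fk7 s r th p)))
noncomputable def fk5 (s r th p : ℝ) : ℝ := ((fg5 s r th p) + ((fm0 s r th p) * (fk6 s r th p)))
noncomputable def fk4 (s r th p : ℝ) : ℝ := ((fg4 s r th p) + ((fm0 s r th p) * (fk5 s r th p)))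
noncomputable def fk3 (s r th p : ℝ) : ℝ := ((fg3 s r th p) + ((fm0 s r th p) * (fk4 s r th p)))
noncomputable def fk2 (s r th p : ℝ) : ℝ := ((fg2 s r th p) + ((fm0 s r th p) * (fk3 s r th p)))
noncomputable def fD1 (s r th p : ℝ) : ℝ := ((fh0 s r th p) + ((2:ℝ) * ((fa0 s r th p) * ((fg1 s r th p) - ((fd s r th p) * (fk2 s r th p))))))
noncomputable def fsD (s r th p : ℝ) : ℝ := (s * (fD1 s r th p))
noncomputable def fD2 (s r th p : ℝ) : ℝ := ((-(fg1 s r th p)) - ((2:ℝ) * ((fa0 s r th p) * (fk2 s r th p))))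
noncomputable def frD (s r th p : ℝ) : ℝ := (r * (fD2 s r th p))
noncomputable def fGA (s r th p : ℝ) : ℝ := (((flam s r th p) * (((1:ℝ) - ((2/3:ℝ) * (fsD s r th p))) - ((flam s r th p) * (((99/200:ℝ) * (fh0 s r th p)) - ((3/10:ℝ) * (th * (fD1 s r th p))))))) - (frD s r th p))
noncomputable def ft (s r th p : ℝ) : ℝ := (th * (ftp s r th p))
noncomputable def fw (s r th p : ℝ) : ℝ := ((1:ℝ) / ((1:ℝ) + ((ft s r th p) ^ 2)))
noncomputable def fK1 (s r th p : ℝ) : ℝ := ((((1:ℝ) - ((2:ℝ) * (((ft s r th p) ^ 2) * (fw s r th p)))) - ((3/25:ℝ) * (s ^ 2))) - (s * (((14/25:ℝ) * ((ft s r th p) * (fw s r th p))) - ((1/2:ℝ) * (((ft s r th p) ^ 2) * (fw s r th p))))))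
noncomputable def fG0 (s r th p : ℝ) : ℝ := ((((2:ℝ) * ((ftp s r th p) * (fw s r th p))) * (((((499/500:ℝ) - ((3/500:ℝ) * s)) - ((3/10:ℝ) * (fsD s r th p))) + ((1/4:ℝ) * ((ft s r th p) * (fsD s r th p)))) - ((ftp s r th p) * (fh0 s r th p)))) - (frD s r th p))
noncomputable def fX (s r th p : ℝ) : ℝ := (((1/25:ℝ) * (((ftp s r th p) * (fw s r th p)) * (fh0 s r th p))) - ((3/25:ℝ) * (fsD s r th p)))

def Q (s r th : ℝ) : Prop :=
  ∃ p : ℝ, 0 ≤ p ∧ p ≤ 1 ∧ (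
  (0 < ((10000:ℝ) * ((fd s r th p) - (1/2:ℝ)))) ∨
  (0 < ((1000:ℝ) * (((3/4:ℝ) * s) - (th * (flam s r th p)))) ∧ 0 < (fGA s r th p)) ∨
  (0 < ((1000:ℝ) * ((ft s r th p) - ((3/10:ℝ) * s))) ∧ 0 < (fK1 s r th p) ∧ 0 < th ∧ 0 < ((fG0 s r th p) + ((s / th) * (fX s r th p)))) ∨
  (0 < (fGA s r th p) ∧ 0 < (fG0 s r th p) ∧ 0 < (fK1 s r th p) ∧ 0 < ((fG0 s r th p) + ((10/3:ℝ) * ((ftp s r th p) * (fX s r th p))))))

noncomputable def alt0 (p1 z1 w1 z2 w2 z3 w3 : ℕ) : Bool :=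
  mulK z2 1152921504606846976 (Nat.add w2 1152921504606846976) 1152921504606846976 0 z3 1152921504606846976 1152921504606846976 (Nat.add w3 1152921504606846976) 0 fun c1 a1_1 a1_2 a1_3 q1 =>
  addcK c1 a1_1 a1_2 a1_3 q1 1152920954851033088 0 fun c3 a3_1 a3_2 a3_3 q3 =>
  smulK 10000 1 1152921504606846977 11529215046068469760000 c3 a3_1 a3_2 a3_3 q3 fun c5 a5_1 a5_2 a5_3 q5 =>
  pos c5 a5_1 a5_2 a5_3 q5

theorem alt0_s {p1 z1 w1 z2 w2 z3 w3 : ℕ} {e1 e2 e3 s r th p : ℝ} (he : Ev e1 e2 e3)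
    (hp1 : In e1 e2 e3 p1 1152921504606846976 1152921504606846976 1152921504606846976 0 p)
    (hx1 : In e1 e2 e3 z1 (Nat.add w1 1152921504606846976) 1152921504606846976 1152921504606846976 0 s)
    (hx2 : In e1 e2 e3 z2 1152921504606846976 (Nat.add w2 1152921504606846976) 1152921504606846976 0 r)
    (hx3 : In e1 e2 e3 z3 1152921504606846976 1152921504606846976 (Nat.add w3 1152921504606846976) 0 th)
    (H0 : alt0 p1 z1 w1 z2 w2 z3 w3 = true) : 0 < ((10000:ℝ) * ((fd s r th p) - (1/2:ℝ))) := by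
  unfold alt0 at H0
  refine mulK_s he hx2 hx3 (fun _ _ _ _ _ h1 H1 => ?_) H0
  have h2 := In_cast (w := (fd s r th p)) h1 rfl
  refine addcK_s he h2 (v' := (-1/2:ℝ)) (by norm_num [SS, BB, abs_le]) (fun _ _ _ _ _ h3 H2 => ?_) H1
  have h4 := In_cast h3 (sub_c (c := (1/2:ℝ)) (by norm_num))
  refine smulK_s he (w := (10000:ℝ)) (by norm_num) (by norm_num) (by norm_num) (by norm_num) h4 (fun _ _ _ _ _ h5 H3 => ?_) H2
  exact pos_s he h5 H3

noncomputable def alt1 (p1 z1 w1 z2 w2 z3 w3 : ℕ) : Bool :=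
  smulK 3 4 4611686018427387908 3458764513820540928 z1 (Nat.add w1 1152921504606846976) 1152921504606846976 1152921504606846976 0 fun c1 a1_1 a1_2 a1_3 q1 =>
  smulK 12 1 1152921504606846977 13835058055282163712 p1 1152921504606846976 1152921504606846976 1152921504606846976 0 fun c2 a2_1 a2_2 a2_3 q2 =>
  smulK 2 1 1152921504606846977 2305843009213693952 c2 a2_1 a2_2 a2_3 q2 fun c4 a4_1 a4_2 a4_3 q4 =>
  mulK z3 1152921504606846976 1152921504606846976 (Nat.add w3 1152921504606846976) 0 c4 a4_1 a4_2 a4_3 q4 fun c6 a6_1 a6_2 a6_3 q6 =>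
  subK c1 a1_1 a1_2 a1_3 q1 c6 a6_1 a6_2 a6_3 q6 fun c7 a7_1 a7_2 a7_3 q7 =>
  smulK 1000 1 1152921504606846977 1152921504606846976000 c7 a7_1 a7_2 a7_3 q7 fun c8 a8_1 a8_2 a8_3 q8 =>
  posK c8 a8_1 a8_2 a8_3 q8 <|
  smulK 2 1 1152921504606846977 2305843009213693952 z2 1152921504606846976 (Nat.add w2 1152921504606846976) 1152921504606846976 0 fun c9 a9_1 a9_2 a9_3 q9 =>
  addcK c9 a9_1 a9_2 a9_3 q9 1152920405095219200 0 fun c10 a10_1 a10_2 a10_3 q10 =>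
  smulK 401 1000 1152921504606846977000 462321523347345637376 z1 (Nat.add w1 1152921504606846976) 1152921504606846976 1152921504606846976 0 fun c13 a13_1 a13_2 a13_3 q13 =>
  addcK c13 a13_1 a13_2 a13_3 q13 1152920595200779642 1 fun c14 a14_1 a14_2 a14_3 q14 =>
  smulK 31 625 720575940379279360625 35740566642812256256 z1 (Nat.add w1 1152921504606846976) 1152921504606846976 1152921504606846976 0 fun c15 a15_1 a15_2 a15_3 q15 =>
  addcK c15 a15_1 a15_2 a15_3 q15 1152921368817160946 1 fun c16 a16_1 a16_2 a16_3 q16 =>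
  smulK 1511 5000 5764607523034234885000 1742064393460945780736 z1 (Nat.add w1 1152921504606846976) 1152921504606846976 1152921504606846976 0 fun c17 a17_1 a17_2 a17_3 q17 =>
  negK c17 a17_1 a17_2 a17_3 q17 fun c18 a18_1 a18_2 a18_3 q18 =>
  addcK c18 a18_1 a18_2 a18_3 q18 1152921566014571387 1 fun c20 a20_1 a20_2 a20_3 q20 =>
  smulK 1881 5000 5764607523034234885000 2168645350165479161856 z1 (Nat.add w1 1152921504606846976) 1152921504606846976 1152921504606846976 0 fun c21 a21_1 a21_2 a21_3 q21 =>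
  negK c21 a21_1 a21_2 a21_3 q21 fun c22 a22_1 a22_2 a22_3 q22 =>
  addcK c22 a22_1 a22_2 a22_3 q22 1152921673546808584 1 fun c24 a24_1 a24_2 a24_3 q24 =>
  smulK 18183 20000 23058430092136939540000 20963571718266298564608 z1 (Nat.add w1 1152921504606846976) 1152921504606846976 1152921504606846976 0 fun c25 a25_1 a25_2 a25_3 q25 =>
  addcK c25 a25_1 a25_2 a25_3 q25 1152920893333357514 1 fun c26 a26_1 a26_2 a26_3 q26 =>
  smulK 5969 20000 23058430092136939540000 6881788460998269599744 z1 (Nat.add w1 1152921504606846976) 1152921504606846976 1152921504606846976 0 fun c27 a27_1 a27_2 a27_3 q27 =>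
  negK c27 a27_1 a27_2 a27_3 q27 fun c28 a28_1 a28_2 a28_3 q28 =>
  addcK c28 a28_1 a28_2 a28_3 q28 1152921840507649262 1 fun c30 a30_1 a30_2 a30_3 q30 =>
  smulK 1597 2500 2882303761517117442500 1841215642857134620672 z1 (Nat.add w1 1152921504606846976) 1152921504606846976 1152921504606846976 0 fun c31 a31_1 a31_2 a31_3 q31 =>
  negK c31 a31_1 a31_2 a31_3 q31 fun c32 a32_1 a32_2 a32_3 q32 =>
  addcK c32 a32_1 a32_2 a32_3 q32 1152921821925902752 1 fun c34 a34_1 a34_2 a34_3 q34 =>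
  smulK 2559 10000 11529215046068469770000 2950326130288921411584 z1 (Nat.add w1 1152921504606846976) 1152921504606846976 1152921504606846976 0 fun c35 a35_1 a35_2 a35_3 q35 =>
  addcK c35 a35_1 a35_2 a35_3 q35 1152921177996917945 1 fun c36 a36_1 a36_2 a36_3 q36 =>
  mulK c10 a10_1 a10_2 a10_3 q10 c36 a36_1 a36_2 a36_3 q36 fun c38 a38_1 a38_2 a38_3 q38 =>
  addK c34 a34_1 a34_2 a34_3 q34 c38 a38_1 a38_2 a38_3 q38 fun c39 a39_1 a39_2 a39_3 q39 =>
  mulK c10 a10_1 a10_2 a10_3 q10 c39 a39_1 a39_2 a39_3 q39 fun c41 a41_1 a41_2 a41_3 q41 =>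
  addK c30 a30_1 a30_2 a30_3 q30 c41 a41_1 a41_2 a41_3 q41 fun c42 a42_1 a42_2 a42_3 q42 =>
  mulK c10 a10_1 a10_2 a10_3 q10 c42 a42_1 a42_2 a42_3 q42 fun c44 a44_1 a44_2 a44_3 q44 =>
  addK c26 a26_1 a26_2 a26_3 q26 c44 a44_1 a44_2 a44_3 q44 fun c45 a45_1 a45_2 a45_3 q45 =>
  mulK c10 a10_1 a10_2 a10_3 q10 c45 a45_1 a45_2 a45_3 q45 fun c47 a47_1 a47_2 a47_3 q47 =>
  addK c24 a24_1 a24_2 a24_3 q24 c47 a47_1 a47_2 a47_3 q47 fun c48 a48_1 a48_2 a48_3 q48 =>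
  mulK c10 a10_1 a10_2 a10_3 q10 c48 a48_1 a48_2 a48_3 q48 fun c50 a50_1 a50_2 a50_3 q50 =>
  addK c20 a20_1 a20_2 a20_3 q20 c50 a50_1 a50_2 a50_3 q50 fun c51 a51_1 a51_2 a51_3 q51 =>
  mulK c10 a10_1 a10_2 a10_3 q10 c51 a51_1 a51_2 a51_3 q51 fun c53 a53_1 a53_2 a53_3 q53 =>
  addK c16 a16_1 a16_2 a16_3 q16 c53 a53_1 a53_2 a53_3 q53 fun c54 a54_1 a54_2 a54_3 q54 =>
  mulK c10 a10_1 a10_2 a10_3 q10 c54 a54_1 a54_2 a54_3 q54 fun c56 a56_1 a56_2 a56_3 q56 =>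
  addK c14 a14_1 a14_2 a14_3 q14 c56 a56_1 a56_2 a56_3 q56 fun c57 a57_1 a57_2 a57_3 q57 =>
  mulK c10 a10_1 a10_2 a10_3 q10 c57 a57_1 a57_2 a57_3 q57 fun c59 a59_1 a59_2 a59_3 q59 =>
  addcK c59 a59_1 a59_2 a59_3 q59 1152922604118474752 0 fun c60 a60_1 a60_2 a60_3 q60 =>
  mulK z2 1152921504606846976 (Nat.add w2 1152921504606846976) 1152921504606846976 0 z3 1152921504606846976 1152921504606846976 (Nat.add w3 1152921504606846976) 0 fun c63 a63_1 a63_2 a63_3 q63 =>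
  subK z2 1152921504606846976 (Nat.add w2 1152921504606846976) 1152921504606846976 0 c63 a63_1 a63_2 a63_3 q63 fun c65 a65_1 a65_2 a65_3 q65 =>
  subK c10 a10_1 a10_2 a10_3 q10 c63 a63_1 a63_2 a63_3 q63 fun c67 a67_1 a67_2 a67_3 q67 =>
  mulK c67 a67_1 a67_2 a67_3 q67 c36 a36_1 a36_2 a36_3 q36 fun c69 a69_1 a69_2 a69_3 q69 =>
  addK c39 a39_1 a39_2 a39_3 q39 c69 a69_1 a69_2 a69_3 q69 fun c70 a70_1 a70_2 a70_3 q70 =>
  mulK c67 a67_1 a67_2 a67_3 q67 c70 a70_1 a70_2 a70_3 q70 fun c72 a72_1 a72_2 a72_3 q72 =>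
  addK c42 a42_1 a42_2 a42_3 q42 c72 a72_1 a72_2 a72_3 q72 fun c73 a73_1 a73_2 a73_3 q73 =>
  mulK c67 a67_1 a67_2 a67_3 q67 c73 a73_1 a73_2 a73_3 q73 fun c75 a75_1 a75_2 a75_3 q75 =>
  addK c45 a45_1 a45_2 a45_3 q45 c75 a75_1 a75_2 a75_3 q75 fun c76 a76_1 a76_2 a76_3 q76 =>
  mulK c67 a67_1 a67_2 a67_3 q67 c76 a76_1 a76_2 a76_3 q76 fun c78 a78_1 a78_2 a78_3 q78 =>
  addK c48 a48_1 a48_2 a48_3 q48 c78 a78_1 a78_2 a78_3 q78 fun c79 a79_1 a79_2 a79_3 q79 =>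
  mulK c67 a67_1 a67_2 a67_3 q67 c79 a79_1 a79_2 a79_3 q79 fun c81 a81_1 a81_2 a81_3 q81 =>
  addK c51 a51_1 a51_2 a51_3 q51 c81 a81_1 a81_2 a81_3 q81 fun c82 a82_1 a82_2 a82_3 q82 =>
  mulK c67 a67_1 a67_2 a67_3 q67 c82 a82_1 a82_2 a82_3 q82 fun c84 a84_1 a84_2 a84_3 q84 =>
  addK c54 a54_1 a54_2 a54_3 q54 c84 a84_1 a84_2 a84_3 q84 fun c85 a85_1 a85_2 a85_3 q85 =>
  mulK c67 a67_1 a67_2 a67_3 q67 c85 a85_1 a85_2 a85_3 q85 fun c87 a87_1 a87_2 a87_3 q87 =>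
  addK c57 a57_1 a57_2 a57_3 q57 c87 a87_1 a87_2 a87_3 q87 fun c88 a88_1 a88_2 a88_3 q88 =>
  subK c67 a67_1 a67_2 a67_3 q67 c63 a63_1 a63_2 a63_3 q63 fun c90 a90_1 a90_2 a90_3 q90 =>
  mulK c90 a90_1 a90_2 a90_3 q90 c36 a36_1 a36_2 a36_3 q36 fun c92 a92_1 a92_2 a92_3 q92 =>
  addK c70 a70_1 a70_2 a70_3 q70 c92 a92_1 a92_2 a92_3 q92 fun c93 a93_1 a93_2 a93_3 q93 =>
  mulK c90 a90_1 a90_2 a90_3 q90 c93 a93_1 a93_2 a93_3 q93 fun c95 a95_1 a95_2 a95_3 q95 =>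
  addK c73 a73_1 a73_2 a73_3 q73 c95 a95_1 a95_2 a95_3 q95 fun c96 a96_1 a96_2 a96_3 q96 =>
  mulK c90 a90_1 a90_2 a90_3 q90 c96 a96_1 a96_2 a96_3 q96 fun c98 a98_1 a98_2 a98_3 q98 =>
  addK c76 a76_1 a76_2 a76_3 q76 c98 a98_1 a98_2 a98_3 q98 fun c99 a99_1 a99_2 a99_3 q99 =>
  mulK c90 a90_1 a90_2 a90_3 q90 c99 a99_1 a99_2 a99_3 q99 fun c101 a101_1 a101_2 a101_3 q101 =>
  addK c79 a79_1 a79_2 a79_3 q79 c101 a101_1 a101_2 a101_3 q101 fun c102 a102_1 a102_2 a102_3 q102 =>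
  mulK c90 a90_1 a90_2 a90_3 q90 c102 a102_1 a102_2 a102_3 q102 fun c104 a104_1 a104_2 a104_3 q104 =>
  addK c82 a82_1 a82_2 a82_3 q82 c104 a104_1 a104_2 a104_3 q104 fun c105 a105_1 a105_2 a105_3 q105 =>
  mulK c90 a90_1 a90_2 a90_3 q90 c105 a105_1 a105_2 a105_3 q105 fun c107 a107_1 a107_2 a107_3 q107 =>
  addK c85 a85_1 a85_2 a85_3 q85 c107 a107_1 a107_2 a107_3 q107 fun c108 a108_1 a108_2 a108_3 q108 =>
  mulK c63 a63_1 a63_2 a63_3 q63 c108 a108_1 a108_2 a108_3 q108 fun c110 a110_1 a110_2 a110_3 q110 =>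
  subK c88 a88_1 a88_2 a88_3 q88 c110 a110_1 a110_2 a110_3 q110 fun c111 a111_1 a111_2 a111_3 q111 =>
  mulK c65 a65_1 a65_2 a65_3 q65 c111 a111_1 a111_2 a111_3 q111 fun c112 a112_1 a112_2 a112_3 q112 =>
  smulK 2 1 1152921504606846977 2305843009213693952 c112 a112_1 a112_2 a112_3 q112 fun c113 a113_1 a113_2 a113_3 q113 =>
  addK c60 a60_1 a60_2 a60_3 q60 c113 a113_1 a113_2 a113_3 q113 fun c114 a114_1 a114_2 a114_3 q114 =>
  mulK z1 (Nat.add w1 1152921504606846976) 1152921504606846976 1152921504606846976 0 c114 a114_1 a114_2 a114_3 q114 fun c116 a116_1 a116_2 a116_3 q116 =>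
  smulK 2 3 3458764513820540931 2305843009213693952 c116 a116_1 a116_2 a116_3 q116 fun c118 a118_1 a118_2 a118_3 q118 =>
  negK c118 a118_1 a118_2 a118_3 q118 fun c119 a119_1 a119_2 a119_3 q119 =>
  addcK c119 a119_1 a119_2 a119_3 q119 1152922604118474752 0 fun c120 a120_1 a120_2 a120_3 q120 =>
  smulK 99 200 230584300921369395400 114139228956077850624 c60 a60_1 a60_2 a60_3 q60 fun c122 a122_1 a122_2 a122_3 q122 =>
  mulK z3 1152921504606846976 1152921504606846976 (Nat.add w3 1152921504606846976) 0 c114 a114_1 a114_2 a114_3 q114 fun c123 a123_1 a123_2 a123_3 q123 =>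
  smulK 3 10 11529215046068469770 3458764513820540928 c123 a123_1 a123_2 a123_3 q123 fun c124 a124_1 a124_2 a124_3 q124 =>
  subK c122 a122_1 a122_2 a122_3 q122 c124 a124_1 a124_2 a124_3 q124 fun c125 a125_1 a125_2 a125_3 q125 =>
  mulK c4 a4_1 a4_2 a4_3 q4 c125 a125_1 a125_2 a125_3 q125 fun c126 a126_1 a126_2 a126_3 q126 =>
  subK c120 a120_1 a120_2 a120_3 q120 c126 a126_1 a126_2 a126_3 q126 fun c127 a127_1 a127_2 a127_3 q127 =>
  mulK c4 a4_1 a4_2 a4_3 q4 c127 a127_1 a127_2 a127_3 q127 fun c128 a128_1 a128_2 a128_3 q128 =>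
  negK c88 a88_1 a88_2 a88_3 q88 fun c129 a129_1 a129_2 a129_3 q129 =>
  mulK c65 a65_1 a65_2 a65_3 q65 c108 a108_1 a108_2 a108_3 q108 fun c130 a130_1 a130_2 a130_3 q130 =>
  smulK 2 1 1152921504606846977 2305843009213693952 c130 a130_1 a130_2 a130_3 q130 fun c131 a131_1 a131_2 a131_3 q131 =>
  subK c129 a129_1 a129_2 a129_3 q129 c131 a131_1 a131_2 a131_3 q131 fun c132 a132_1 a132_2 a132_3 q132 =>
  mulK z2 1152921504606846976 (Nat.add w2 1152921504606846976) 1152921504606846976 0 c132 a132_1 a132_2 a132_3 q132 fun c134 a134_1 a134_2 a134_3 q134 =>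
  subK c128 a128_1 a128_2 a128_3 q128 c134 a134_1 a134_2 a134_3 q134 fun c136 a136_1 a136_2 a136_3 q136 =>
  pos c136 a136_1 a136_2 a136_3 q136

theorem alt1_s {p1 z1 w1 z2 w2 z3 w3 : ℕ} {e1 e2 e3 s r th p : ℝ} (he : Ev e1 e2 e3)
    (hp1 : In e1 e2 e3 p1 1152921504606846976 1152921504606846976 1152921504606846976 0 p)
    (hx1 : In e1 e2 e3 z1 (Nat.add w1 1152921504606846976) 1152921504606846976 1152921504606846976 0 s)
    (hx2 : In e1 e2 e3 z2 1152921504606846976 (Nat.add w2 1152921504606846976) 1152921504606846976 0 r)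
    (hx3 : In e1 e2 e3 z3 1152921504606846976 1152921504606846976 (Nat.add w3 1152921504606846976) 0 th)
    (H0 : alt1 p1 z1 w1 z2 w2 z3 w3 = true) : 0 < ((1000:ℝ) * (((3/4:ℝ) * s) - (th * (flam s r th p)))) ∧ 0 < (fGA s r th p) := by
  unfold alt1 at H0
  refine smulK_s he (w := (3/4:ℝ)) (by norm_num) (by norm_num) (by norm_num) (by norm_num) hx1 (fun _ _ _ _ _ h1 H1 => ?_) H0
  refine smulK_s he (w := (12:ℝ)) (by norm_num) (by norm_num) (by norm_num) (by norm_num) hp1 (fun _ _ _ _ _ h2 H2 => ?_) H1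
  have h3 := In_cast (w := (ftp s r th p)) h2 rfl
  refine smulK_s he (w := (2:ℝ)) (by norm_num) (by norm_num) (by norm_num) (by norm_num) h3 (fun _ _ _ _ _ h4 H3 => ?_) H2
  have h5 := In_cast (w := (flam s r th p)) h4 rfl
  refine mulK_s he hx3 h5 (fun _ _ _ _ _ h6 H4 => ?_) H3
  refine subK_s he h1 h6 (fun _ _ _ _ _ h7 H5 => ?_) H4
  refine smulK_s he (w := (1000:ℝ)) (by norm_num) (by norm_num) (by norm_num) (by norm_num) h7 (fun _ _ _ _ _ h8 H6 => ?_) H5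
  refine posK_s he h8 (fun p0 H7 => ?_) H6
  refine smulK_s he (w := (2:ℝ)) (by norm_num) (by norm_num) (by norm_num) (by norm_num) hx2 (fun _ _ _ _ _ h9 H8 => ?_) H7
  refine addcK_s he h9 (v' := (-1:ℝ)) (by norm_num [SS, BB, abs_le]) (fun _ _ _ _ _ h10 H9 => ?_) H8
  have h11 := In_cast h10 (sub_c (c := (1:ℝ)) (by norm_num))
  have h12 := In_cast (w := (fm1 s r th p)) h11 rfl
  refine smulK_s he (w := (401/1000:ℝ)) (by norm_num) (by norm_num) (by norm_num) (by norm_num) hx1 (fun _ _ _ _ _ h13 H10 => ?_) H9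
  refine addcK_s he h13 (v' := (-8271/10000:ℝ)) (by norm_num [SS, BB, abs_le]) (fun _ _ _ _ _ h14 H11 => ?_) H10
  refine smulK_s he (w := (31/625:ℝ)) (by norm_num) (by norm_num) (by norm_num) (by norm_num) hx1 (fun _ _ _ _ _ h15 H12 => ?_) H11
  refine addcK_s he h15 (v' := (-247/2000:ℝ)) (by norm_num [SS, BB, abs_le]) (fun _ _ _ _ _ h16 H13 => ?_) H12
  refine smulK_s he (w := (1511/5000:ℝ)) (by norm_num) (by norm_num) (by norm_num) (by norm_num) hx1 (fun _ _ _ _ _ h17 H14 => ?_) H13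
  refine negK_s he h17 (fun _ _ _ _ _ h18 H15 => ?_) H14
  have h19 := In_cast h18 (neg_mul_c (c := (-1511/5000:ℝ)) (by norm_num))
  refine addcK_s he h19 (v' := (1117/20000:ℝ)) (by norm_num [SS, BB, abs_le]) (fun _ _ _ _ _ h20 H16 => ?_) H15
  refine smulK_s he (w := (1881/5000:ℝ)) (by norm_num) (by norm_num) (by norm_num) (by norm_num) hx1 (fun _ _ _ _ _ h21 H17 => ?_) H16
  refine negK_s he h21 (fun _ _ _ _ _ h22 H18 => ?_) H17
  have h23 := In_cast h22 (neg_mul_c (c := (-1881/5000:ℝ)) (by norm_num))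
  refine addcK_s he h23 (v' := (3073/20000:ℝ)) (by norm_num [SS, BB, abs_le]) (fun _ _ _ _ _ h24 H19 => ?_) H18
  refine smulK_s he (w := (18183/20000:ℝ)) (by norm_num) (by norm_num) (by norm_num) (by norm_num) hx1 (fun _ _ _ _ _ h25 H20 => ?_) H19
  refine addcK_s he h25 (v' := (-11119/20000:ℝ)) (by norm_num [SS, BB, abs_le]) (fun _ _ _ _ _ h26 H21 => ?_) H20
  refine smulK_s he (w := (5969/20000:ℝ)) (by norm_num) (by norm_num) (by norm_num) (by norm_num) hx1 (fun _ _ _ _ _ h27 H22 => ?_) H21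
  refine negK_s he h27 (fun _ _ _ _ _ h28 H23 => ?_) H22
  have h29 := In_cast h28 (neg_mul_c (c := (-5969/20000:ℝ)) (by norm_num))
  refine addcK_s he h29 (v' := (611/2000:ℝ)) (by norm_num [SS, BB, abs_le]) (fun _ _ _ _ _ h30 H24 => ?_) H23
  refine smulK_s he (w := (1597/2500:ℝ)) (by norm_num) (by norm_num) (by norm_num) (by norm_num) hx1 (fun _ _ _ _ _ h31 H25 => ?_) H24
  refine negK_s he h31 (fun _ _ _ _ _ h32 H26 => ?_) H25
  have h33 := In_cast h32 (neg_mul_c (c := (-1597/2500:ℝ)) (by norm_num))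
  refine addcK_s he h33 (v' := (1443/5000:ℝ)) (by norm_num [SS, BB, abs_le]) (fun _ _ _ _ _ h34 H27 => ?_) H26
  refine smulK_s he (w := (2559/10000:ℝ)) (by norm_num) (by norm_num) (by norm_num) (by norm_num) hx1 (fun _ _ _ _ _ h35 H28 => ?_) H27
  refine addcK_s he h35 (v' := (-5941/20000:ℝ)) (by norm_num [SS, BB, abs_le]) (fun _ _ _ _ _ h36 H29 => ?_) H28
  have h37 := In_cast (w := (fh8 s r th p)) h36 rfl
  refine mulK_s he h12 h37 (fun _ _ _ _ _ h38 H30 => ?_) H29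
  refine addK_s he h34 h38 (fun _ _ _ _ _ h39 H31 => ?_) H30
  have h40 := In_cast (w := (fh7 s r th p)) h39 rfl
  refine mulK_s he h12 h40 (fun _ _ _ _ _ h41 H32 => ?_) H31
  refine addK_s he h30 h41 (fun _ _ _ _ _ h42 H33 => ?_) H32
  have h43 := In_cast (w := (fh6 s r th p)) h42 rfl
  refine mulK_s he h12 h43 (fun _ _ _ _ _ h44 H34 => ?_) H33
  refine addK_s he h26 h44 (fun _ _ _ _ _ h45 H35 => ?_) H34
  have h46 := In_cast (w := (fh5 s r th p)) h45 rfl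
  refine mulK_s he h12 h46 (fun _ _ _ _ _ h47 H36 => ?_) H35
  refine addK_s he h24 h47 (fun _ _ _ _ _ h48 H37 => ?_) H36
  have h49 := In_cast (w := (fh4 s r th p)) h48 rfl
  refine mulK_s he h12 h49 (fun _ _ _ _ _ h50 H38 => ?_) H37
  refine addK_s he h20 h50 (fun _ _ _ _ _ h51 H39 => ?_) H38
  have h52 := In_cast (w := (fh3 s r th p)) h51 rfl
  refine mulK_s he h12 h52 (fun _ _ _ _ _ h53 H40 => ?_) H39
  refine addK_s he h16 h53 (fun _ _ _ _ _ h54 H41 => ?_) H40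
  have h55 := In_cast (w := (fh2 s r th p)) h54 rfl
  refine mulK_s he h12 h55 (fun _ _ _ _ _ h56 H42 => ?_) H41
  refine addK_s he h14 h56 (fun _ _ _ _ _ h57 H43 => ?_) H42
  have h58 := In_cast (w := (fh1 s r th p)) h57 rfl
  refine mulK_s he h12 h58 (fun _ _ _ _ _ h59 H44 => ?_) H43
  refine addcK_s he h59 (v' := (1:ℝ)) (by norm_num [SS, BB, abs_le]) (fun _ _ _ _ _ h60 H45 => ?_) H44
  have h61 := In_cast h60 (add_comm _ _)
  have h62 := In_cast (w := (fh0 s r th p)) h61 rfl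
  refine mulK_s he hx2 hx3 (fun _ _ _ _ _ h63 H46 => ?_) H45
  have h64 := In_cast (w := (fd s r th p)) h63 rfl
  refine subK_s he hx2 h64 (fun _ _ _ _ _ h65 H47 => ?_) H46
  have h66 := In_cast (w := (fa0 s r th p)) h65 rfl
  refine subK_s he h12 h64 (fun _ _ _ _ _ h67 H48 => ?_) H47
  have h68 := In_cast (w := (fmm s r th p)) h67 rfl
  refine mulK_s he h68 h37 (fun _ _ _ _ _ h69 H49 => ?_) H48
  refine addK_s he h40 h69 (fun _ _ _ _ _ h70 H50 => ?_) H49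
  have h71 := In_cast (w := (fg7 s r th p)) h70 rfl
  refine mulK_s he h68 h71 (fun _ _ _ _ _ h72 H51 => ?_) H50
  refine addK_s he h43 h72 (fun _ _ _ _ _ h73 H52 => ?_) H51
  have h74 := In_cast (w := (fg6 s r th p)) h73 rfl
  refine mulK_s he h68 h74 (fun _ _ _ _ _ h75 H53 => ?_) H52
  refine addK_s he h46 h75 (fun _ _ _ _ _ h76 H54 => ?_) H53
  have h77 := In_cast (w := (fg5 s r th p)) h76 rfl
  refine mulK_s he h68 h77 (fun _ _ _ _ _ h78 H55 => ?_) H54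
  refine addK_s he h49 h78 (fun _ _ _ _ _ h79 H56 => ?_) H55
  have h80 := In_cast (w := (fg4 s r th p)) h79 rfl
  refine mulK_s he h68 h80 (fun _ _ _ _ _ h81 H57 => ?_) H56
  refine addK_s he h52 h81 (fun _ _ _ _ _ h82 H58 => ?_) H57
  have h83 := In_cast (w := (fg3 s r th p)) h82 rfl
  refine mulK_s he h68 h83 (fun _ _ _ _ _ h84 H59 => ?_) H58
  refine addK_s he h55 h84 (fun _ _ _ _ _ h85 H60 => ?_) H59
  have h86 := In_cast (w := (fg2 s r th p)) h85 rfl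
  refine mulK_s he h68 h86 (fun _ _ _ _ _ h87 H61 => ?_) H60
  refine addK_s he h58 h87 (fun _ _ _ _ _ h88 H62 => ?_) H61
  have h89 := In_cast (w := (fg1 s r th p)) h88 rfl
  refine subK_s he h68 h64 (fun _ _ _ _ _ h90 H63 => ?_) H62
  have h91 := In_cast (w := (fm0 s r th p)) h90 rfl
  refine mulK_s he h91 h37 (fun _ _ _ _ _ h92 H64 => ?_) H63
  refine addK_s he h71 h92 (fun _ _ _ _ _ h93 H65 => ?_) H64
  have h94 := In_cast (w := (fk7 s r th p)) h93 rfl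
  refine mulK_s he h91 h94 (fun _ _ _ _ _ h95 H66 => ?_) H65
  refine addK_s he h74 h95 (fun _ _ _ _ _ h96 H67 => ?_) H66
  have h97 := In_cast (w := (fk6 s r th p)) h96 rfl
  refine mulK_s he h91 h97 (fun _ _ _ _ _ h98 H68 => ?_) H67
  refine addK_s he h77 h98 (fun _ _ _ _ _ h99 H69 => ?_) H68
  have h100 := In_cast (w := (fk5 s r th p)) h99 rfl
  refine mulK_s he h91 h100 (fun _ _ _ _ _ h101 H70 => ?_) H69
  refine addK_s he h80 h101 (fun _ _ _ _ _ h102 H71 => ?_) H70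
  have h103 := In_cast (w := (fk4 s r th p)) h102 rfl
  refine mulK_s he h91 h103 (fun _ _ _ _ _ h104 H72 => ?_) H71
  refine addK_s he h83 h104 (fun _ _ _ _ _ h105 H73 => ?_) H72
  have h106 := In_cast (w := (fk3 s r th p)) h105 rfl
  refine mulK_s he h91 h106 (fun _ _ _ _ _ h107 H74 => ?_) H73
  refine addK_s he h86 h107 (fun _ _ _ _ _ h108 H75 => ?_) H74
  have h109 := In_cast (w := (fk2 s r th p)) h108 rfl
  refine mulK_s he h64 h109 (fun _ _ _ _ _ h110 H76 => ?_) H75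
  refine subK_s he h89 h110 (fun _ _ _ _ _ h111 H77 => ?_) H76
  refine mulK_s he h66 h111 (fun _ _ _ _ _ h112 H78 => ?_) H77
  refine smulK_s he (w := (2:ℝ)) (by norm_num) (by norm_num) (by norm_num) (by norm_num) h112 (fun _ _ _ _ _ h113 H79 => ?_) H78
  refine addK_s he h62 h113 (fun _ _ _ _ _ h114 H80 => ?_) H79
  have h115 := In_cast (w := (fD1 s r th p)) h114 rfl
  refine mulK_s he hx1 h115 (fun _ _ _ _ _ h116 H81 => ?_) H80
  have h117 := In_cast (w := (fsD s r th p)) h116 rfl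
  refine smulK_s he (w := (2/3:ℝ)) (by norm_num) (by norm_num) (by norm_num) (by norm_num) h117 (fun _ _ _ _ _ h118 H82 => ?_) H81
  refine negK_s he h118 (fun _ _ _ _ _ h119 H83 => ?_) H82
  refine addcK_s he h119 (v' := (1:ℝ)) (by norm_num [SS, BB, abs_le]) (fun _ _ _ _ _ h120 H84 => ?_) H83
  have h121 := In_cast h120 (neg_add_eq_sub _ _)
  refine smulK_s he (w := (99/200:ℝ)) (by norm_num) (by norm_num) (by norm_num) (by norm_num) h62 (fun _ _ _ _ _ h122 H85 => ?_) H84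
  refine mulK_s he hx3 h115 (fun _ _ _ _ _ h123 H86 => ?_) H85
  refine smulK_s he (w := (3/10:ℝ)) (by norm_num) (by norm_num) (by norm_num) (by norm_num) h123 (fun _ _ _ _ _ h124 H87 => ?_) H86
  refine subK_s he h122 h124 (fun _ _ _ _ _ h125 H88 => ?_) H87
  refine mulK_s he h5 h125 (fun _ _ _ _ _ h126 H89 => ?_) H88
  refine subK_s he h121 h126 (fun _ _ _ _ _ h127 H90 => ?_) H89
  refine mulK_s he h5 h127 (fun _ _ _ _ _ h128 H91 => ?_) H90
  refine negK_s he h89 (fun _ _ _ _ _ h129 H92 => ?_) H91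
  refine mulK_s he h66 h109 (fun _ _ _ _ _ h130 H93 => ?_) H92
  refine smulK_s he (w := (2:ℝ)) (by norm_num) (by norm_num) (by norm_num) (by norm_num) h130 (fun _ _ _ _ _ h131 H94 => ?_) H93
  refine subK_s he h129 h131 (fun _ _ _ _ _ h132 H95 => ?_) H94
  have h133 := In_cast (w := (fD2 s r th p)) h132 rfl
  refine mulK_s he hx2 h133 (fun _ _ _ _ _ h134 H96 => ?_) H95
  have h135 := In_cast (w := (frD s r th p)) h134 rfl
  refine subK_s he h128 h135 (fun _ _ _ _ _ h136 H97 => ?_) H96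
  have h137 := In_cast (w := (fGA s r th p)) h136 rfl
  exact ⟨p0, pos_s he h137 H97⟩

noncomputable def alt2 (p1 z1 w1 z2 w2 z3 w3 : ℕ) : Bool :=
  smulK 12 1 1152921504606846977 13835058055282163712 p1 1152921504606846976 1152921504606846976 1152921504606846976 0 fun c1 a1_1 a1_2 a1_3 q1 =>
  mulK z3 1152921504606846976 1152921504606846976 (Nat.add w3 1152921504606846976) 0 c1 a1_1 a1_2 a1_3 q1 fun c3 a3_1 a3_2 a3_3 q3 =>
  smulK 3 10 11529215046068469770 3458764513820540928 z1 (Nat.add w1 1152921504606846976) 1152921504606846976 1152921504606846976 0 fun c5 a5_1 a5_2 a5_3 q5 =>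
  subK c3 a3_1 a3_2 a3_3 q3 c5 a5_1 a5_2 a5_3 q5 fun c6 a6_1 a6_2 a6_3 q6 =>
  smulK 1000 1 1152921504606846977 1152921504606846976000 c6 a6_1 a6_2 a6_3 q6 fun c7 a7_1 a7_2 a7_3 q7 =>
  posK c7 a7_1 a7_2 a7_3 q7 <|
  sqK c3 a3_1 a3_2 a3_3 q3 fun c8 a8_1 a8_2 a8_3 q8 =>
  addcK c8 a8_1 a8_2 a8_3 q8 1152922604118474752 0 fun c9 a9_1 a9_2 a9_3 q9 =>
  invK c9 a9_1 a9_2 a9_3 q9 fun c11 a11_1 a11_2 a11_3 q11 =>
  mulK c8 a8_1 a8_2 a8_3 q8 c11 a11_1 a11_2 a11_3 q11 fun c14 a14_1 a14_2 a14_3 q14 =>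
  smulK 2 1 1152921504606846977 2305843009213693952 c14 a14_1 a14_2 a14_3 q14 fun c15 a15_1 a15_2 a15_3 q15 =>
  negK c15 a15_1 a15_2 a15_3 q15 fun c16 a16_1 a16_2 a16_3 q16 =>
  addcK c16 a16_1 a16_2 a16_3 q16 1152922604118474752 0 fun c17 a17_1 a17_2 a17_3 q17 =>
  sqK z1 (Nat.add w1 1152921504606846976) 1152921504606846976 1152921504606846976 0 fun c19 a19_1 a19_2 a19_3 q19 =>
  smulK 3 25 28823037615171174425 3458764513820540928 c19 a19_1 a19_2 a19_3 q19 fun c20 a20_1 a20_2 a20_3 q20 =>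
  subK c17 a17_1 a17_2 a17_3 q17 c20 a20_1 a20_2 a20_3 q20 fun c21 a21_1 a21_2 a21_3 q21 =>
  mulK c3 a3_1 a3_2 a3_3 q3 c11 a11_1 a11_2 a11_3 q11 fun c22 a22_1 a22_2 a22_3 q22 =>
  smulK 14 25 28823037615171174425 16140901064495857664 c22 a22_1 a22_2 a22_3 q22 fun c23 a23_1 a23_2 a23_3 q23 =>
  smulK 1 2 2305843009213693954 1152921504606846976 c14 a14_1 a14_2 a14_3 q14 fun c24 a24_1 a24_2 a24_3 q24 =>
  subK c23 a23_1 a23_2 a23_3 q23 c24 a24_1 a24_2 a24_3 q24 fun c25 a25_1 a25_2 a25_3 q25 =>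
  mulK z1 (Nat.add w1 1152921504606846976) 1152921504606846976 1152921504606846976 0 c25 a25_1 a25_2 a25_3 q25 fun c26 a26_1 a26_2 a26_3 q26 =>
  subK c21 a21_1 a21_2 a21_3 q21 c26 a26_1 a26_2 a26_3 q26 fun c27 a27_1 a27_2 a27_3 q27 =>
  posK c27 a27_1 a27_2 a27_3 q27 <|
  posK z3 1152921504606846976 1152921504606846976 (Nat.add w3 1152921504606846976) 0 <|
  mulK c1 a1_1 a1_2 a1_3 q1 c11 a11_1 a11_2 a11_3 q11 fun c29 a29_1 a29_2 a29_3 q29 =>
  smulK 2 1 1152921504606846977 2305843009213693952 c29 a29_1 a29_2 a29_3 q29 fun c30 a30_1 a30_2 a30_3 q30 =>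
  smulK 3 500 576460752303423488500 3458764513820540928 z1 (Nat.add w1 1152921504606846976) 1152921504606846976 1152921504606846976 0 fun c31 a31_1 a31_2 a31_3 q31 =>
  negK c31 a31_1 a31_2 a31_3 q31 fun c32 a32_1 a32_2 a32_3 q32 =>
  addcK c32 a32_1 a32_2 a32_3 q32 1152922601919451496 1 fun c33 a33_1 a33_2 a33_3 q33 =>
  smulK 2 1 1152921504606846977 2305843009213693952 z2 1152921504606846976 (Nat.add w2 1152921504606846976) 1152921504606846976 0 fun c35 a35_1 a35_2 a35_3 q35 =>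
  addcK c35 a35_1 a35_2 a35_3 q35 1152920405095219200 0 fun c36 a36_1 a36_2 a36_3 q36 =>
  smulK 401 1000 1152921504606846977000 462321523347345637376 z1 (Nat.add w1 1152921504606846976) 1152921504606846976 1152921504606846976 0 fun c39 a39_1 a39_2 a39_3 q39 =>
  addcK c39 a39_1 a39_2 a39_3 q39 1152920595200779642 1 fun c40 a40_1 a40_2 a40_3 q40 =>
  smulK 31 625 720575940379279360625 35740566642812256256 z1 (Nat.add w1 1152921504606846976) 1152921504606846976 1152921504606846976 0 fun c41 a41_1 a41_2 a41_3 q41 =>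
  addcK c41 a41_1 a41_2 a41_3 q41 1152921368817160946 1 fun c42 a42_1 a42_2 a42_3 q42 =>
  smulK 1511 5000 5764607523034234885000 1742064393460945780736 z1 (Nat.add w1 1152921504606846976) 1152921504606846976 1152921504606846976 0 fun c43 a43_1 a43_2 a43_3 q43 =>
  negK c43 a43_1 a43_2 a43_3 q43 fun c44 a44_1 a44_2 a44_3 q44 =>
  addcK c44 a44_1 a44_2 a44_3 q44 1152921566014571387 1 fun c46 a46_1 a46_2 a46_3 q46 =>
  smulK 1881 5000 5764607523034234885000 2168645350165479161856 z1 (Nat.add w1 1152921504606846976) 1152921504606846976 1152921504606846976 0 fun c47 a47_1 a47_2 a47_3 q47 =>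
  negK c47 a47_1 a47_2 a47_3 q47 fun c48 a48_1 a48_2 a48_3 q48 =>
  addcK c48 a48_1 a48_2 a48_3 q48 1152921673546808584 1 fun c50 a50_1 a50_2 a50_3 q50 =>
  smulK 18183 20000 23058430092136939540000 20963571718266298564608 z1 (Nat.add w1 1152921504606846976) 1152921504606846976 1152921504606846976 0 fun c51 a51_1 a51_2 a51_3 q51 =>
  addcK c51 a51_1 a51_2 a51_3 q51 1152920893333357514 1 fun c52 a52_1 a52_2 a52_3 q52 =>
  smulK 5969 20000 23058430092136939540000 6881788460998269599744 z1 (Nat.add w1 1152921504606846976) 1152921504606846976 1152921504606846976 0 fun c53 a53_1 a53_2 a53_3 q53 =>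
  negK c53 a53_1 a53_2 a53_3 q53 fun c54 a54_1 a54_2 a54_3 q54 =>
  addcK c54 a54_1 a54_2 a54_3 q54 1152921840507649262 1 fun c56 a56_1 a56_2 a56_3 q56 =>
  smulK 1597 2500 2882303761517117442500 1841215642857134620672 z1 (Nat.add w1 1152921504606846976) 1152921504606846976 1152921504606846976 0 fun c57 a57_1 a57_2 a57_3 q57 =>
  negK c57 a57_1 a57_2 a57_3 q57 fun c58 a58_1 a58_2 a58_3 q58 =>
  addcK c58 a58_1 a58_2 a58_3 q58 1152921821925902752 1 fun c60 a60_1 a60_2 a60_3 q60 =>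
  smulK 2559 10000 11529215046068469770000 2950326130288921411584 z1 (Nat.add w1 1152921504606846976) 1152921504606846976 1152921504606846976 0 fun c61 a61_1 a61_2 a61_3 q61 =>
  addcK c61 a61_1 a61_2 a61_3 q61 1152921177996917945 1 fun c62 a62_1 a62_2 a62_3 q62 =>
  mulK c36 a36_1 a36_2 a36_3 q36 c62 a62_1 a62_2 a62_3 q62 fun c64 a64_1 a64_2 a64_3 q64 =>
  addK c60 a60_1 a60_2 a60_3 q60 c64 a64_1 a64_2 a64_3 q64 fun c65 a65_1 a65_2 a65_3 q65 =>
  mulK c36 a36_1 a36_2 a36_3 q36 c65 a65_1 a65_2 a65_3 q65 fun c67 a67_1 a67_2 a67_3 q67 =>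
  addK c56 a56_1 a56_2 a56_3 q56 c67 a67_1 a67_2 a67_3 q67 fun c68 a68_1 a68_2 a68_3 q68 =>
  mulK c36 a36_1 a36_2 a36_3 q36 c68 a68_1 a68_2 a68_3 q68 fun c70 a70_1 a70_2 a70_3 q70 =>
  addK c52 a52_1 a52_2 a52_3 q52 c70 a70_1 a70_2 a70_3 q70 fun c71 a71_1 a71_2 a71_3 q71 =>
  mulK c36 a36_1 a36_2 a36_3 q36 c71 a71_1 a71_2 a71_3 q71 fun c73 a73_1 a73_2 a73_3 q73 =>
  addK c50 a50_1 a50_2 a50_3 q50 c73 a73_1 a73_2 a73_3 q73 fun c74 a74_1 a74_2 a74_3 q74 =>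
  mulK c36 a36_1 a36_2 a36_3 q36 c74 a74_1 a74_2 a74_3 q74 fun c76 a76_1 a76_2 a76_3 q76 =>
  addK c46 a46_1 a46_2 a46_3 q46 c76 a76_1 a76_2 a76_3 q76 fun c77 a77_1 a77_2 a77_3 q77 =>
  mulK c36 a36_1 a36_2 a36_3 q36 c77 a77_1 a77_2 a77_3 q77 fun c79 a79_1 a79_2 a79_3 q79 =>
  addK c42 a42_1 a42_2 a42_3 q42 c79 a79_1 a79_2 a79_3 q79 fun c80 a80_1 a80_2 a80_3 q80 =>
  mulK c36 a36_1 a36_2 a36_3 q36 c80 a80_1 a80_2 a80_3 q80 fun c82 a82_1 a82_2 a82_3 q82 =>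
  addK c40 a40_1 a40_2 a40_3 q40 c82 a82_1 a82_2 a82_3 q82 fun c83 a83_1 a83_2 a83_3 q83 =>
  mulK c36 a36_1 a36_2 a36_3 q36 c83 a83_1 a83_2 a83_3 q83 fun c85 a85_1 a85_2 a85_3 q85 =>
  addcK c85 a85_1 a85_2 a85_3 q85 1152922604118474752 0 fun c86 a86_1 a86_2 a86_3 q86 =>
  mulK z2 1152921504606846976 (Nat.add w2 1152921504606846976) 1152921504606846976 0 z3 1152921504606846976 1152921504606846976 (Nat.add w3 1152921504606846976) 0 fun c89 a89_1 a89_2 a89_3 q89 =>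
  subK z2 1152921504606846976 (Nat.add w2 1152921504606846976) 1152921504606846976 0 c89 a89_1 a89_2 a89_3 q89 fun c91 a91_1 a91_2 a91_3 q91 =>
  subK c36 a36_1 a36_2 a36_3 q36 c89 a89_1 a89_2 a89_3 q89 fun c93 a93_1 a93_2 a93_3 q93 =>
  mulK c93 a93_1 a93_2 a93_3 q93 c62 a62_1 a62_2 a62_3 q62 fun c95 a95_1 a95_2 a95_3 q95 =>
  addK c65 a65_1 a65_2 a65_3 q65 c95 a95_1 a95_2 a95_3 q95 fun c96 a96_1 a96_2 a96_3 q96 =>
  mulK c93 a93_1 a93_2 a93_3 q93 c96 a96_1 a96_2 a96_3 q96 fun c98 a98_1 a98_2 a98_3 q98 =>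
  addK c68 a68_1 a68_2 a68_3 q68 c98 a98_1 a98_2 a98_3 q98 fun c99 a99_1 a99_2 a99_3 q99 =>
  mulK c93 a93_1 a93_2 a93_3 q93 c99 a99_1 a99_2 a99_3 q99 fun c101 a101_1 a101_2 a101_3 q101 =>
  addK c71 a71_1 a71_2 a71_3 q71 c101 a101_1 a101_2 a101_3 q101 fun c102 a102_1 a102_2 a102_3 q102 =>
  mulK c93 a93_1 a93_2 a93_3 q93 c102 a102_1 a102_2 a102_3 q102 fun c104 a104_1 a104_2 a104_3 q104 =>
  addK c74 a74_1 a74_2 a74_3 q74 c104 a104_1 a104_2 a104_3 q104 fun c105 a105_1 a105_2 a105_3 q105 =>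
  mulK c93 a93_1 a93_2 a93_3 q93 c105 a105_1 a105_2 a105_3 q105 fun c107 a107_1 a107_2 a107_3 q107 =>
  addK c77 a77_1 a77_2 a77_3 q77 c107 a107_1 a107_2 a107_3 q107 fun c108 a108_1 a108_2 a108_3 q108 =>
  mulK c93 a93_1 a93_2 a93_3 q93 c108 a108_1 a108_2 a108_3 q108 fun c110 a110_1 a110_2 a110_3 q110 =>
  addK c80 a80_1 a80_2 a80_3 q80 c110 a110_1 a110_2 a110_3 q110 fun c111 a111_1 a111_2 a111_3 q111 =>
  mulK c93 a93_1 a93_2 a93_3 q93 c111 a111_1 a111_2 a111_3 q111 fun c113 a113_1 a113_2 a113_3 q113 =>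
  addK c83 a83_1 a83_2 a83_3 q83 c113 a113_1 a113_2 a113_3 q113 fun c114 a114_1 a114_2 a114_3 q114 =>
  subK c93 a93_1 a93_2 a93_3 q93 c89 a89_1 a89_2 a89_3 q89 fun c116 a116_1 a116_2 a116_3 q116 =>
  mulK c116 a116_1 a116_2 a116_3 q116 c62 a62_1 a62_2 a62_3 q62 fun c118 a118_1 a118_2 a118_3 q118 =>
  addK c96 a96_1 a96_2 a96_3 q96 c118 a118_1 a118_2 a118_3 q118 fun c119 a119_1 a119_2 a119_3 q119 =>
  mulK c116 a116_1 a116_2 a116_3 q116 c119 a119_1 a119_2 a119_3 q119 fun c121 a121_1 a121_2 a121_3 q121 =>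
  addK c99 a99_1 a99_2 a99_3 q99 c121 a121_1 a121_2 a121_3 q121 fun c122 a122_1 a122_2 a122_3 q122 =>
  mulK c116 a116_1 a116_2 a116_3 q116 c122 a122_1 a122_2 a122_3 q122 fun c124 a124_1 a124_2 a124_3 q124 =>
  addK c102 a102_1 a102_2 a102_3 q102 c124 a124_1 a124_2 a124_3 q124 fun c125 a125_1 a125_2 a125_3 q125 =>
  mulK c116 a116_1 a116_2 a116_3 q116 c125 a125_1 a125_2 a125_3 q125 fun c127 a127_1 a127_2 a127_3 q127 =>
  addK c105 a105_1 a105_2 a105_3 q105 c127 a127_1 a127_2 a127_3 q127 fun c128 a128_1 a128_2 a128_3 q128 =>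
  mulK c116 a116_1 a116_2 a116_3 q116 c128 a128_1 a128_2 a128_3 q128 fun c130 a130_1 a130_2 a130_3 q130 =>
  addK c108 a108_1 a108_2 a108_3 q108 c130 a130_1 a130_2 a130_3 q130 fun c131 a131_1 a131_2 a131_3 q131 =>
  mulK c116 a116_1 a116_2 a116_3 q116 c131 a131_1 a131_2 a131_3 q131 fun c133 a133_1 a133_2 a133_3 q133 =>
  addK c111 a111_1 a111_2 a111_3 q111 c133 a133_1 a133_2 a133_3 q133 fun c134 a134_1 a134_2 a134_3 q134 =>
  mulK c89 a89_1 a89_2 a89_3 q89 c134 a134_1 a134_2 a134_3 q134 fun c136 a136_1 a136_2 a136_3 q136 =>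
  subK c114 a114_1 a114_2 a114_3 q114 c136 a136_1 a136_2 a136_3 q136 fun c137 a137_1 a137_2 a137_3 q137 =>
  mulK c91 a91_1 a91_2 a91_3 q91 c137 a137_1 a137_2 a137_3 q137 fun c138 a138_1 a138_2 a138_3 q138 =>
  smulK 2 1 1152921504606846977 2305843009213693952 c138 a138_1 a138_2 a138_3 q138 fun c139 a139_1 a139_2 a139_3 q139 =>
  addK c86 a86_1 a86_2 a86_3 q86 c139 a139_1 a139_2 a139_3 q139 fun c140 a140_1 a140_2 a140_3 q140 =>
  mulK z1 (Nat.add w1 1152921504606846976) 1152921504606846976 1152921504606846976 0 c140 a140_1 a140_2 a140_3 q140 fun c142 a142_1 a142_2 a142_3 q142 =>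
  smulK 3 10 11529215046068469770 3458764513820540928 c142 a142_1 a142_2 a142_3 q142 fun c144 a144_1 a144_2 a144_3 q144 =>
  subK c33 a33_1 a33_2 a33_3 q33 c144 a144_1 a144_2 a144_3 q144 fun c145 a145_1 a145_2 a145_3 q145 =>
  mulK c3 a3_1 a3_2 a3_3 q3 c142 a142_1 a142_2 a142_3 q142 fun c146 a146_1 a146_2 a146_3 q146 =>
  smulK 1 4 4611686018427387908 1152921504606846976 c146 a146_1 a146_2 a146_3 q146 fun c147 a147_1 a147_2 a147_3 q147 =>
  addK c145 a145_1 a145_2 a145_3 q145 c147 a147_1 a147_2 a147_3 q147 fun c148 a148_1 a148_2 a148_3 q148 =>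
  mulK c1 a1_1 a1_2 a1_3 q1 c86 a86_1 a86_2 a86_3 q86 fun c149 a149_1 a149_2 a149_3 q149 =>
  subK c148 a148_1 a148_2 a148_3 q148 c149 a149_1 a149_2 a149_3 q149 fun c150 a150_1 a150_2 a150_3 q150 =>
  mulK c30 a30_1 a30_2 a30_3 q30 c150 a150_1 a150_2 a150_3 q150 fun c151 a151_1 a151_2 a151_3 q151 =>
  negK c114 a114_1 a114_2 a114_3 q114 fun c152 a152_1 a152_2 a152_3 q152 =>
  mulK c91 a91_1 a91_2 a91_3 q91 c134 a134_1 a134_2 a134_3 q134 fun c153 a153_1 a153_2 a153_3 q153 =>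
  smulK 2 1 1152921504606846977 2305843009213693952 c153 a153_1 a153_2 a153_3 q153 fun c154 a154_1 a154_2 a154_3 q154 =>
  subK c152 a152_1 a152_2 a152_3 q152 c154 a154_1 a154_2 a154_3 q154 fun c155 a155_1 a155_2 a155_3 q155 =>
  mulK z2 1152921504606846976 (Nat.add w2 1152921504606846976) 1152921504606846976 0 c155 a155_1 a155_2 a155_3 q155 fun c157 a157_1 a157_2 a157_3 q157 =>
  subK c151 a151_1 a151_2 a151_3 q151 c157 a157_1 a157_2 a157_3 q157 fun c159 a159_1 a159_2 a159_3 q159 =>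
  invK z3 1152921504606846976 1152921504606846976 (Nat.add w3 1152921504606846976) 0 fun c161 a161_1 a161_2 a161_3 q161 =>
  mulK z1 (Nat.add w1 1152921504606846976) 1152921504606846976 1152921504606846976 0 c161 a161_1 a161_2 a161_3 q161 fun c162 a162_1 a162_2 a162_3 q162 =>
  mulK c29 a29_1 a29_2 a29_3 q29 c86 a86_1 a86_2 a86_3 q86 fun c164 a164_1 a164_2 a164_3 q164 =>
  smulK 1 25 28823037615171174425 1152921504606846976 c164 a164_1 a164_2 a164_3 q164 fun c165 a165_1 a165_2 a165_3 q165 =>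
  smulK 3 25 28823037615171174425 3458764513820540928 c142 a142_1 a142_2 a142_3 q142 fun c166 a166_1 a166_2 a166_3 q166 =>
  subK c165 a165_1 a165_2 a165_3 q165 c166 a166_1 a166_2 a166_3 q166 fun c167 a167_1 a167_2 a167_3 q167 =>
  mulK c162 a162_1 a162_2 a162_3 q162 c167 a167_1 a167_2 a167_3 q167 fun c169 a169_1 a169_2 a169_3 q169 =>
  addK c159 a159_1 a159_2 a159_3 q159 c169 a169_1 a169_2 a169_3 q169 fun c170 a170_1 a170_2 a170_3 q170 =>
  pos c170 a170_1 a170_2 a170_3 q170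

theorem alt2_s {p1 z1 w1 z2 w2 z3 w3 : ℕ} {e1 e2 e3 s r th p : ℝ} (he : Ev e1 e2 e3)
    (hp1 : In e1 e2 e3 p1 1152921504606846976 1152921504606846976 1152921504606846976 0 p)
    (hx1 : In e1 e2 e3 z1 (Nat.add w1 1152921504606846976) 1152921504606846976 1152921504606846976 0 s)
    (hx2 : In e1 e2 e3 z2 1152921504606846976 (Nat.add w2 1152921504606846976) 1152921504606846976 0 r)
    (hx3 : In e1 e2 e3 z3 1152921504606846976 1152921504606846976 (Nat.add w3 1152921504606846976) 0 th)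
    (H0 : alt2 p1 z1 w1 z2 w2 z3 w3 = true) : 0 < ((1000:ℝ) * ((ft s r th p) - ((3/10:ℝ) * s))) ∧ 0 < (fK1 s r th p) ∧ 0 < th ∧ 0 < ((fG0 s r th p) + ((s / th) * (fX s r th p))) := by
  unfold alt2 at H0
  refine smulK_s he (w := (12:ℝ)) (by norm_num) (by norm_num) (by norm_num) (by norm_num) hp1 (fun _ _ _ _ _ h1 H1 => ?_) H0
  have h2 := In_cast (w := (ftp s r th p)) h1 rfl
  refine mulK_s he hx3 h2 (fun _ _ _ _ _ h3 H2 => ?_) H1
  have h4 := In_cast (w := (ft s r th p)) h3 rfl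
  refine smulK_s he (w := (3/10:ℝ)) (by norm_num) (by norm_num) (by norm_num) (by norm_num) hx1 (fun _ _ _ _ _ h5 H3 => ?_) H2
  refine subK_s he h4 h5 (fun _ _ _ _ _ h6 H4 => ?_) H3
  refine smulK_s he (w := (1000:ℝ)) (by norm_num) (by norm_num) (by norm_num) (by norm_num) h6 (fun _ _ _ _ _ h7 H5 => ?_) H4
  refine posK_s he h7 (fun p0 H6 => ?_) H5
  refine sqK_s he h4 (fun _ _ _ _ _ h8 H7 => ?_) H6
  refine addcK_s he h8 (v' := (1:ℝ)) (by norm_num [SS, BB, abs_le]) (fun _ _ _ _ _ h9 H8 => ?_) H7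
  have h10 := In_cast h9 (add_comm _ _)
  refine invK_s he h10 (fun _ _ _ _ _ h11 H9 => ?_) H8
  have h12 := In_cast h11 (inv_eq_one_div _)
  have h13 := In_cast (w := (fw s r th p)) h12 rfl
  refine mulK_s he h8 h13 (fun _ _ _ _ _ h14 H10 => ?_) H9
  refine smulK_s he (w := (2:ℝ)) (by norm_num) (by norm_num) (by norm_num) (by norm_num) h14 (fun _ _ _ _ _ h15 H11 => ?_) H10
  refine negK_s he h15 (fun _ _ _ _ _ h16 H12 => ?_) H11
  refine addcK_s he h16 (v' := (1:ℝ)) (by norm_num [SS, BB, abs_le]) (fun _ _ _ _ _ h17 H13 => ?_) H12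
  have h18 := In_cast h17 (neg_add_eq_sub _ _)
  refine sqK_s he hx1 (fun _ _ _ _ _ h19 H14 => ?_) H13
  refine smulK_s he (w := (3/25:ℝ)) (by norm_num) (by norm_num) (by norm_num) (by norm_num) h19 (fun _ _ _ _ _ h20 H15 => ?_) H14
  refine subK_s he h18 h20 (fun _ _ _ _ _ h21 H16 => ?_) H15
  refine mulK_s he h4 h13 (fun _ _ _ _ _ h22 H17 => ?_) H16
  refine smulK_s he (w := (14/25:ℝ)) (by norm_num) (by norm_num) (by norm_num) (by norm_num) h22 (fun _ _ _ _ _ h23 H18 => ?_) H17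
  refine smulK_s he (w := (1/2:ℝ)) (by norm_num) (by norm_num) (by norm_num) (by norm_num) h14 (fun _ _ _ _ _ h24 H19 => ?_) H18
  refine subK_s he h23 h24 (fun _ _ _ _ _ h25 H20 => ?_) H19
  refine mulK_s he hx1 h25 (fun _ _ _ _ _ h26 H21 => ?_) H20
  refine subK_s he h21 h26 (fun _ _ _ _ _ h27 H22 => ?_) H21
  have h28 := In_cast (w := (fK1 s r th p)) h27 rfl
  refine posK_s he h28 (fun p1 H23 => ?_) H22
  refine posK_s he hx3 (fun p2 H24 => ?_) H23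
  refine mulK_s he h2 h13 (fun _ _ _ _ _ h29 H25 => ?_) H24
  refine smulK_s he (w := (2:ℝ)) (by norm_num) (by norm_num) (by norm_num) (by norm_num) h29 (fun _ _ _ _ _ h30 H26 => ?_) H25
  refine smulK_s he (w := (3/500:ℝ)) (by norm_num) (by norm_num) (by norm_num) (by norm_num) hx1 (fun _ _ _ _ _ h31 H27 => ?_) H26
  refine negK_s he h31 (fun _ _ _ _ _ h32 H28 => ?_) H27
  refine addcK_s he h32 (v' := (499/500:ℝ)) (by norm_num [SS, BB, abs_le]) (fun _ _ _ _ _ h33 H29 => ?_) H28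
  have h34 := In_cast h33 (neg_add_eq_sub _ _)
  refine smulK_s he (w := (2:ℝ)) (by norm_num) (by norm_num) (by norm_num) (by norm_num) hx2 (fun _ _ _ _ _ h35 H30 => ?_) H29
  refine addcK_s he h35 (v' := (-1:ℝ)) (by norm_num [SS, BB, abs_le]) (fun _ _ _ _ _ h36 H31 => ?_) H30
  have h37 := In_cast h36 (sub_c (c := (1:ℝ)) (by norm_num))
  have h38 := In_cast (w := (fm1 s r th p)) h37 rfl
  refine smulK_s he (w := (401/1000:ℝ)) (by norm_num) (by norm_num) (by norm_num) (by norm_num) hx1 (fun _ _ _ _ _ h39 H32 => ?_) H31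
  refine addcK_s he h39 (v' := (-8271/10000:ℝ)) (by norm_num [SS, BB, abs_le]) (fun _ _ _ _ _ h40 H33 => ?_) H32
  refine smulK_s he (w := (31/625:ℝ)) (by norm_num) (by norm_num) (by norm_num) (by norm_num) hx1 (fun _ _ _ _ _ h41 H34 => ?_) H33
  refine addcK_s he h41 (v' := (-247/2000:ℝ)) (by norm_num [SS, BB, abs_le]) (fun _ _ _ _ _ h42 H35 => ?_) H34
  refine smulK_s he (w := (1511/5000:ℝ)) (by norm_num) (by norm_num) (by norm_num) (by norm_num) hx1 (fun _ _ _ _ _ h43 H36 => ?_) H35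
  refine negK_s he h43 (fun _ _ _ _ _ h44 H37 => ?_) H36
  have h45 := In_cast h44 (neg_mul_c (c := (-1511/5000:ℝ)) (by norm_num))
  refine addcK_s he h45 (v' := (1117/20000:ℝ)) (by norm_num [SS, BB, abs_le]) (fun _ _ _ _ _ h46 H38 => ?_) H37
  refine smulK_s he (w := (1881/5000:ℝ)) (by norm_num) (by norm_num) (by norm_num) (by norm_num) hx1 (fun _ _ _ _ _ h47 H39 => ?_) H38
  refine negK_s he h47 (fun _ _ _ _ _ h48 H40 => ?_) H39
  have h49 := In_cast h48 (neg_mul_c (c := (-1881/5000:ℝ)) (by norm_num))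
  refine addcK_s he h49 (v' := (3073/20000:ℝ)) (by norm_num [SS, BB, abs_le]) (fun _ _ _ _ _ h50 H41 => ?_) H40
  refine smulK_s he (w := (18183/20000:ℝ)) (by norm_num) (by norm_num) (by norm_num) (by norm_num) hx1 (fun _ _ _ _ _ h51 H42 => ?_) H41
  refine addcK_s he h51 (v' := (-11119/20000:ℝ)) (by norm_num [SS, BB, abs_le]) (fun _ _ _ _ _ h52 H43 => ?_) H42
  refine smulK_s he (w := (5969/20000:ℝ)) (by norm_num) (by norm_num) (by norm_num) (by norm_num) hx1 (fun _ _ _ _ _ h53 H44 => ?_) H43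
  refine negK_s he h53 (fun _ _ _ _ _ h54 H45 => ?_) H44
  have h55 := In_cast h54 (neg_mul_c (c := (-5969/20000:ℝ)) (by norm_num))
  refine addcK_s he h55 (v' := (611/2000:ℝ)) (by norm_num [SS, BB, abs_le]) (fun _ _ _ _ _ h56 H46 => ?_) H45
  refine smulK_s he (w := (1597/2500:ℝ)) (by norm_num) (by norm_num) (by norm_num) (by norm_num) hx1 (fun _ _ _ _ _ h57 H47 => ?_) H46
  refine negK_s he h57 (fun _ _ _ _ _ h58 H48 => ?_) H47
  have h59 := In_cast h58 (neg_mul_c (c := (-1597/2500:ℝ)) (by norm_num))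
  refine addcK_s he h59 (v' := (1443/5000:ℝ)) (by norm_num [SS, BB, abs_le]) (fun _ _ _ _ _ h60 H49 => ?_) H48
  refine smulK_s he (w := (2559/10000:ℝ)) (by norm_num) (by norm_num) (by norm_num) (by norm_num) hx1 (fun _ _ _ _ _ h61 H50 => ?_) H49
  refine addcK_s he h61 (v' := (-5941/20000:ℝ)) (by norm_num [SS, BB, abs_le]) (fun _ _ _ _ _ h62 H51 => ?_) H50
  have h63 := In_cast (w := (fh8 s r th p)) h62 rfl
  refine mulK_s he h38 h63 (fun _ _ _ _ _ h64 H52 => ?_) H51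
  refine addK_s he h60 h64 (fun _ _ _ _ _ h65 H53 => ?_) H52
  have h66 := In_cast (w := (fh7 s r th p)) h65 rfl
  refine mulK_s he h38 h66 (fun _ _ _ _ _ h67 H54 => ?_) H53
  refine addK_s he h56 h67 (fun _ _ _ _ _ h68 H55 => ?_) H54
  have h69 := In_cast (w := (fh6 s r th p)) h68 rfl
  refine mulK_s he h38 h69 (fun _ _ _ _ _ h70 H56 => ?_) H55
  refine addK_s he h52 h70 (fun _ _ _ _ _ h71 H57 => ?_) H56
  have h72 := In_cast (w := (fh5 s r th p)) h71 rfl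
  refine mulK_s he h38 h72 (fun _ _ _ _ _ h73 H58 => ?_) H57
  refine addK_s he h50 h73 (fun _ _ _ _ _ h74 H59 => ?_) H58
  have h75 := In_cast (w := (fh4 s r th p)) h74 rfl
  refine mulK_s he h38 h75 (fun _ _ _ _ _ h76 H60 => ?_) H59
  refine addK_s he h46 h76 (fun _ _ _ _ _ h77 H61 => ?_) H60
  have h78 := In_cast (w := (fh3 s r th p)) h77 rfl
  refine mulK_s he h38 h78 (fun _ _ _ _ _ h79 H62 => ?_) H61
  refine addK_s he h42 h79 (fun _ _ _ _ _ h80 H63 => ?_) H62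
  have h81 := In_cast (w := (fh2 s r th p)) h80 rfl
  refine mulK_s he h38 h81 (fun _ _ _ _ _ h82 H64 => ?_) H63
  refine addK_s he h40 h82 (fun _ _ _ _ _ h83 H65 => ?_) H64
  have h84 := In_cast (w := (fh1 s r th p)) h83 rfl
  refine mulK_s he h38 h84 (fun _ _ _ _ _ h85 H66 => ?_) H65
  refine addcK_s he h85 (v' := (1:ℝ)) (by norm_num [SS, BB, abs_le]) (fun _ _ _ _ _ h86 H67 => ?_) H66
  have h87 := In_cast h86 (add_comm _ _)
  have h88 := In_cast (w := (fh0 s r th p)) h87 rfl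
  refine mulK_s he hx2 hx3 (fun _ _ _ _ _ h89 H68 => ?_) H67
  have h90 := In_cast (w := (fd s r th p)) h89 rfl
  refine subK_s he hx2 h90 (fun _ _ _ _ _ h91 H69 => ?_) H68
  have h92 := In_cast (w := (fa0 s r th p)) h91 rfl
  refine subK_s he h38 h90 (fun _ _ _ _ _ h93 H70 => ?_) H69
  have h94 := In_cast (w := (fmm s r th p)) h93 rfl
  refine mulK_s he h94 h63 (fun _ _ _ _ _ h95 H71 => ?_) H70
  refine addK_s he h66 h95 (fun _ _ _ _ _ h96 H72 => ?_) H71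
  have h97 := In_cast (w := (fg7 s r th p)) h96 rfl
  refine mulK_s he h94 h97 (fun _ _ _ _ _ h98 H73 => ?_) H72
  refine addK_s he h69 h98 (fun _ _ _ _ _ h99 H74 => ?_) H73
  have h100 := In_cast (w := (fg6 s r th p)) h99 rfl
  refine mulK_s he h94 h100 (fun _ _ _ _ _ h101 H75 => ?_) H74
  refine addK_s he h72 h101 (fun _ _ _ _ _ h102 H76 => ?_) H75
  have h103 := In_cast (w := (fg5 s r th p)) h102 rfl
  refine mulK_s he h94 h103 (fun _ _ _ _ _ h104 H77 => ?_) H76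
  refine addK_s he h75 h104 (fun _ _ _ _ _ h105 H78 => ?_) H77
  have h106 := In_cast (w := (fg4 s r th p)) h105 rfl
  refine mulK_s he h94 h106 (fun _ _ _ _ _ h107 H79 => ?_) H78
  refine addK_s he h78 h107 (fun _ _ _ _ _ h108 H80 => ?_) H79
  have h109 := In_cast (w := (fg3 s r th p)) h108 rfl
  refine mulK_s he h94 h109 (fun _ _ _ _ _ h110 H81 => ?_) H80
  refine addK_s he h81 h110 (fun _ _ _ _ _ h111 H82 => ?_) H81
  have h112 := In_cast (w := (fg2 s r th p)) h111 rfl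
  refine mulK_s he h94 h112 (fun _ _ _ _ _ h113 H83 => ?_) H82
  refine addK_s he h84 h113 (fun _ _ _ _ _ h114 H84 => ?_) H83
  have h115 := In_cast (w := (fg1 s r th p)) h114 rfl
  refine subK_s he h94 h90 (fun _ _ _ _ _ h116 H85 => ?_) H84
  have h117 := In_cast (w := (fm0 s r th p)) h116 rfl
  refine mulK_s he h117 h63 (fun _ _ _ _ _ h118 H86 => ?_) H85
  refine addK_s he h97 h118 (fun _ _ _ _ _ h119 H87 => ?_) H86
  have h120 := In_cast (w := (fk7 s r th p)) h119 rfl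
  refine mulK_s he h117 h120 (fun _ _ _ _ _ h121 H88 => ?_) H87
  refine addK_s he h100 h121 (fun _ _ _ _ _ h122 H89 => ?_) H88
  have h123 := In_cast (w := (fk6 s r th p)) h122 rfl
  refine mulK_s he h117 h123 (fun _ _ _ _ _ h124 H90 => ?_) H89
  refine addK_s he h103 h124 (fun _ _ _ _ _ h125 H91 => ?_) H90
  have h126 := In_cast (w := (fk5 s r th p)) h125 rfl
  refine mulK_s he h117 h126 (fun _ _ _ _ _ h127 H92 => ?_) H91
  refine addK_s he h106 h127 (fun _ _ _ _ _ h128 H93 => ?_) H92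
  have h129 := In_cast (w := (fk4 s r th p)) h128 rfl
  refine mulK_s he h117 h129 (fun _ _ _ _ _ h130 H94 => ?_) H93
  refine addK_s he h109 h130 (fun _ _ _ _ _ h131 H95 => ?_) H94
  have h132 := In_cast (w := (fk3 s r th p)) h131 rfl
  refine mulK_s he h117 h132 (fun _ _ _ _ _ h133 H96 => ?_) H95
  refine addK_s he h112 h133 (fun _ _ _ _ _ h134 H97 => ?_) H96
  have h135 := In_cast (w := (fk2 s r th p)) h134 rfl
  refine mulK_s he h90 h135 (fun _ _ _ _ _ h136 H98 => ?_) H97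
  refine subK_s he h115 h136 (fun _ _ _ _ _ h137 H99 => ?_) H98
  refine mulK_s he h92 h137 (fun _ _ _ _ _ h138 H100 => ?_) H99
  refine smulK_s he (w := (2:ℝ)) (by norm_num) (by norm_num) (by norm_num) (by norm_num) h138 (fun _ _ _ _ _ h139 H101 => ?_) H100
  refine addK_s he h88 h139 (fun _ _ _ _ _ h140 H102 => ?_) H101
  have h141 := In_cast (w := (fD1 s r th p)) h140 rfl
  refine mulK_s he hx1 h141 (fun _ _ _ _ _ h142 H103 => ?_) H102
  have h143 := In_cast (w := (fsD s r th p)) h142 rfl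
  refine smulK_s he (w := (3/10:ℝ)) (by norm_num) (by norm_num) (by norm_num) (by norm_num) h143 (fun _ _ _ _ _ h144 H104 => ?_) H103
  refine subK_s he h34 h144 (fun _ _ _ _ _ h145 H105 => ?_) H104
  refine mulK_s he h4 h143 (fun _ _ _ _ _ h146 H106 => ?_) H105
  refine smulK_s he (w := (1/4:ℝ)) (by norm_num) (by norm_num) (by norm_num) (by norm_num) h146 (fun _ _ _ _ _ h147 H107 => ?_) H106
  refine addK_s he h145 h147 (fun _ _ _ _ _ h148 H108 => ?_) H107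
  refine mulK_s he h2 h88 (fun _ _ _ _ _ h149 H109 => ?_) H108
  refine subK_s he h148 h149 (fun _ _ _ _ _ h150 H110 => ?_) H109
  refine mulK_s he h30 h150 (fun _ _ _ _ _ h151 H111 => ?_) H110
  refine negK_s he h115 (fun _ _ _ _ _ h152 H112 => ?_) H111
  refine mulK_s he h92 h135 (fun _ _ _ _ _ h153 H113 => ?_) H112
  refine smulK_s he (w := (2:ℝ)) (by norm_num) (by norm_num) (by norm_num) (by norm_num) h153 (fun _ _ _ _ _ h154 H114 => ?_) H113
  refine subK_s he h152 h154 (fun _ _ _ _ _ h155 H115 => ?_) H114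
  have h156 := In_cast (w := (fD2 s r th p)) h155 rfl
  refine mulK_s he hx2 h156 (fun _ _ _ _ _ h157 H116 => ?_) H115
  have h158 := In_cast (w := (frD s r th p)) h157 rfl
  refine subK_s he h151 h158 (fun _ _ _ _ _ h159 H117 => ?_) H116
  have h160 := In_cast (w := (fG0 s r th p)) h159 rfl
  refine invK_s he hx3 (fun _ _ _ _ _ h161 H118 => ?_) H117
  refine mulK_s he hx1 h161 (fun _ _ _ _ _ h162 H119 => ?_) H118
  have h163 := In_cast h162 ((div_eq_mul_inv _ _).symm)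
  refine mulK_s he h29 h88 (fun _ _ _ _ _ h164 H120 => ?_) H119
  refine smulK_s he (w := (1/25:ℝ)) (by norm_num) (by norm_num) (by norm_num) (by norm_num) h164 (fun _ _ _ _ _ h165 H121 => ?_) H120
  refine smulK_s he (w := (3/25:ℝ)) (by norm_num) (by norm_num) (by norm_num) (by norm_num) h143 (fun _ _ _ _ _ h166 H122 => ?_) H121
  refine subK_s he h165 h166 (fun _ _ _ _ _ h167 H123 => ?_) H122
  have h168 := In_cast (w := (fX s r th p)) h167 rfl
  refine mulK_s he h163 h168 (fun _ _ _ _ _ h169 H124 => ?_) H123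
  refine addK_s he h160 h169 (fun _ _ _ _ _ h170 H125 => ?_) H124
  exact ⟨p0, p1, p2, pos_s he h170 H125⟩

noncomputable def alt3 (p1 z1 w1 z2 w2 z3 w3 : ℕ) : Bool :=
  smulK 12 1 1152921504606846977 13835058055282163712 p1 1152921504606846976 1152921504606846976 1152921504606846976 0 fun c1 a1_1 a1_2 a1_3 q1 =>
  smulK 2 1 1152921504606846977 2305843009213693952 c1 a1_1 a1_2 a1_3 q1 fun c3 a3_1 a3_2 a3_3 q3 =>
  smulK 2 1 1152921504606846977 2305843009213693952 z2 1152921504606846976 (Nat.add w2 1152921504606846976) 1152921504606846976 0 fun c5 a5_1 a5_2 a5_3 q5 =>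
  addcK c5 a5_1 a5_2 a5_3 q5 1152920405095219200 0 fun c6 a6_1 a6_2 a6_3 q6 =>
  smulK 401 1000 1152921504606846977000 462321523347345637376 z1 (Nat.add w1 1152921504606846976) 1152921504606846976 1152921504606846976 0 fun c9 a9_1 a9_2 a9_3 q9 =>
  addcK c9 a9_1 a9_2 a9_3 q9 1152920595200779642 1 fun c10 a10_1 a10_2 a10_3 q10 =>
  smulK 31 625 720575940379279360625 35740566642812256256 z1 (Nat.add w1 1152921504606846976) 1152921504606846976 1152921504606846976 0 fun c11 a11_1 a11_2 a11_3 q11 =>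
  addcK c11 a11_1 a11_2 a11_3 q11 1152921368817160946 1 fun c12 a12_1 a12_2 a12_3 q12 =>
  smulK 1511 5000 5764607523034234885000 1742064393460945780736 z1 (Nat.add w1 1152921504606846976) 1152921504606846976 1152921504606846976 0 fun c13 a13_1 a13_2 a13_3 q13 =>
  negK c13 a13_1 a13_2 a13_3 q13 fun c14 a14_1 a14_2 a14_3 q14 =>
  addcK c14 a14_1 a14_2 a14_3 q14 1152921566014571387 1 fun c16 a16_1 a16_2 a16_3 q16 =>
  smulK 1881 5000 5764607523034234885000 2168645350165479161856 z1 (Nat.add w1 1152921504606846976) 1152921504606846976 1152921504606846976 0 fun c17 a17_1 a17_2 a17_3 q17 =>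
  negK c17 a17_1 a17_2 a17_3 q17 fun c18 a18_1 a18_2 a18_3 q18 =>
  addcK c18 a18_1 a18_2 a18_3 q18 1152921673546808584 1 fun c20 a20_1 a20_2 a20_3 q20 =>
  smulK 18183 20000 23058430092136939540000 20963571718266298564608 z1 (Nat.add w1 1152921504606846976) 1152921504606846976 1152921504606846976 0 fun c21 a21_1 a21_2 a21_3 q21 =>
  addcK c21 a21_1 a21_2 a21_3 q21 1152920893333357514 1 fun c22 a22_1 a22_2 a22_3 q22 =>
  smulK 5969 20000 23058430092136939540000 6881788460998269599744 z1 (Nat.add w1 1152921504606846976) 1152921504606846976 1152921504606846976 0 fun c23 a23_1 a23_2 a23_3 q23 =>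
  negK c23 a23_1 a23_2 a23_3 q23 fun c24 a24_1 a24_2 a24_3 q24 =>
  addcK c24 a24_1 a24_2 a24_3 q24 1152921840507649262 1 fun c26 a26_1 a26_2 a26_3 q26 =>
  smulK 1597 2500 2882303761517117442500 1841215642857134620672 z1 (Nat.add w1 1152921504606846976) 1152921504606846976 1152921504606846976 0 fun c27 a27_1 a27_2 a27_3 q27 =>
  negK c27 a27_1 a27_2 a27_3 q27 fun c28 a28_1 a28_2 a28_3 q28 =>
  addcK c28 a28_1 a28_2 a28_3 q28 1152921821925902752 1 fun c30 a30_1 a30_2 a30_3 q30 =>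
  smulK 2559 10000 11529215046068469770000 2950326130288921411584 z1 (Nat.add w1 1152921504606846976) 1152921504606846976 1152921504606846976 0 fun c31 a31_1 a31_2 a31_3 q31 =>
  addcK c31 a31_1 a31_2 a31_3 q31 1152921177996917945 1 fun c32 a32_1 a32_2 a32_3 q32 =>
  mulK c6 a6_1 a6_2 a6_3 q6 c32 a32_1 a32_2 a32_3 q32 fun c34 a34_1 a34_2 a34_3 q34 =>
  addK c30 a30_1 a30_2 a30_3 q30 c34 a34_1 a34_2 a34_3 q34 fun c35 a35_1 a35_2 a35_3 q35 =>
  mulK c6 a6_1 a6_2 a6_3 q6 c35 a35_1 a35_2 a35_3 q35 fun c37 a37_1 a37_2 a37_3 q37 =>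
  addK c26 a26_1 a26_2 a26_3 q26 c37 a37_1 a37_2 a37_3 q37 fun c38 a38_1 a38_2 a38_3 q38 =>
  mulK c6 a6_1 a6_2 a6_3 q6 c38 a38_1 a38_2 a38_3 q38 fun c40 a40_1 a40_2 a40_3 q40 =>
  addK c22 a22_1 a22_2 a22_3 q22 c40 a40_1 a40_2 a40_3 q40 fun c41 a41_1 a41_2 a41_3 q41 =>
  mulK c6 a6_1 a6_2 a6_3 q6 c41 a41_1 a41_2 a41_3 q41 fun c43 a43_1 a43_2 a43_3 q43 =>
  addK c20 a20_1 a20_2 a20_3 q20 c43 a43_1 a43_2 a43_3 q43 fun c44 a44_1 a44_2 a44_3 q44 =>
  mulK c6 a6_1 a6_2 a6_3 q6 c44 a44_1 a44_2 a44_3 q44 fun c46 a46_1 a46_2 a46_3 q46 =>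
  addK c16 a16_1 a16_2 a16_3 q16 c46 a46_1 a46_2 a46_3 q46 fun c47 a47_1 a47_2 a47_3 q47 =>
  mulK c6 a6_1 a6_2 a6_3 q6 c47 a47_1 a47_2 a47_3 q47 fun c49 a49_1 a49_2 a49_3 q49 =>
  addK c12 a12_1 a12_2 a12_3 q12 c49 a49_1 a49_2 a49_3 q49 fun c50 a50_1 a50_2 a50_3 q50 =>
  mulK c6 a6_1 a6_2 a6_3 q6 c50 a50_1 a50_2 a50_3 q50 fun c52 a52_1 a52_2 a52_3 q52 =>
  addK c10 a10_1 a10_2 a10_3 q10 c52 a52_1 a52_2 a52_3 q52 fun c53 a53_1 a53_2 a53_3 q53 =>
  mulK c6 a6_1 a6_2 a6_3 q6 c53 a53_1 a53_2 a53_3 q53 fun c55 a55_1 a55_2 a55_3 q55 =>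
  addcK c55 a55_1 a55_2 a55_3 q55 1152922604118474752 0 fun c56 a56_1 a56_2 a56_3 q56 =>
  mulK z2 1152921504606846976 (Nat.add w2 1152921504606846976) 1152921504606846976 0 z3 1152921504606846976 1152921504606846976 (Nat.add w3 1152921504606846976) 0 fun c59 a59_1 a59_2 a59_3 q59 =>
  subK z2 1152921504606846976 (Nat.add w2 1152921504606846976) 1152921504606846976 0 c59 a59_1 a59_2 a59_3 q59 fun c61 a61_1 a61_2 a61_3 q61 =>
  subK c6 a6_1 a6_2 a6_3 q6 c59 a59_1 a59_2 a59_3 q59 fun c63 a63_1 a63_2 a63_3 q63 =>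
  mulK c63 a63_1 a63_2 a63_3 q63 c32 a32_1 a32_2 a32_3 q32 fun c65 a65_1 a65_2 a65_3 q65 =>
  addK c35 a35_1 a35_2 a35_3 q35 c65 a65_1 a65_2 a65_3 q65 fun c66 a66_1 a66_2 a66_3 q66 =>
  mulK c63 a63_1 a63_2 a63_3 q63 c66 a66_1 a66_2 a66_3 q66 fun c68 a68_1 a68_2 a68_3 q68 =>
  addK c38 a38_1 a38_2 a38_3 q38 c68 a68_1 a68_2 a68_3 q68 fun c69 a69_1 a69_2 a69_3 q69 =>
  mulK c63 a63_1 a63_2 a63_3 q63 c69 a69_1 a69_2 a69_3 q69 fun c71 a71_1 a71_2 a71_3 q71 =>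
  addK c41 a41_1 a41_2 a41_3 q41 c71 a71_1 a71_2 a71_3 q71 fun c72 a72_1 a72_2 a72_3 q72 =>
  mulK c63 a63_1 a63_2 a63_3 q63 c72 a72_1 a72_2 a72_3 q72 fun c74 a74_1 a74_2 a74_3 q74 =>
  addK c44 a44_1 a44_2 a44_3 q44 c74 a74_1 a74_2 a74_3 q74 fun c75 a75_1 a75_2 a75_3 q75 =>
  mulK c63 a63_1 a63_2 a63_3 q63 c75 a75_1 a75_2 a75_3 q75 fun c77 a77_1 a77_2 a77_3 q77 =>
  addK c47 a47_1 a47_2 a47_3 q47 c77 a77_1 a77_2 a77_3 q77 fun c78 a78_1 a78_2 a78_3 q78 =>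
  mulK c63 a63_1 a63_2 a63_3 q63 c78 a78_1 a78_2 a78_3 q78 fun c80 a80_1 a80_2 a80_3 q80 =>
  addK c50 a50_1 a50_2 a50_3 q50 c80 a80_1 a80_2 a80_3 q80 fun c81 a81_1 a81_2 a81_3 q81 =>
  mulK c63 a63_1 a63_2 a63_3 q63 c81 a81_1 a81_2 a81_3 q81 fun c83 a83_1 a83_2 a83_3 q83 =>
  addK c53 a53_1 a53_2 a53_3 q53 c83 a83_1 a83_2 a83_3 q83 fun c84 a84_1 a84_2 a84_3 q84 =>
  subK c63 a63_1 a63_2 a63_3 q63 c59 a59_1 a59_2 a59_3 q59 fun c86 a86_1 a86_2 a86_3 q86 =>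
  mulK c86 a86_1 a86_2 a86_3 q86 c32 a32_1 a32_2 a32_3 q32 fun c88 a88_1 a88_2 a88_3 q88 =>
  addK c66 a66_1 a66_2 a66_3 q66 c88 a88_1 a88_2 a88_3 q88 fun c89 a89_1 a89_2 a89_3 q89 =>
  mulK c86 a86_1 a86_2 a86_3 q86 c89 a89_1 a89_2 a89_3 q89 fun c91 a91_1 a91_2 a91_3 q91 =>
  addK c69 a69_1 a69_2 a69_3 q69 c91 a91_1 a91_2 a91_3 q91 fun c92 a92_1 a92_2 a92_3 q92 =>
  mulK c86 a86_1 a86_2 a86_3 q86 c92 a92_1 a92_2 a92_3 q92 fun c94 a94_1 a94_2 a94_3 q94 =>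
  addK c72 a72_1 a72_2 a72_3 q72 c94 a94_1 a94_2 a94_3 q94 fun c95 a95_1 a95_2 a95_3 q95 =>
  mulK c86 a86_1 a86_2 a86_3 q86 c95 a95_1 a95_2 a95_3 q95 fun c97 a97_1 a97_2 a97_3 q97 =>
  addK c75 a75_1 a75_2 a75_3 q75 c97 a97_1 a97_2 a97_3 q97 fun c98 a98_1 a98_2 a98_3 q98 =>
  mulK c86 a86_1 a86_2 a86_3 q86 c98 a98_1 a98_2 a98_3 q98 fun c100 a100_1 a100_2 a100_3 q100 =>
  addK c78 a78_1 a78_2 a78_3 q78 c100 a100_1 a100_2 a100_3 q100 fun c101 a101_1 a101_2 a101_3 q101 =>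
  mulK c86 a86_1 a86_2 a86_3 q86 c101 a101_1 a101_2 a101_3 q101 fun c103 a103_1 a103_2 a103_3 q103 =>
  addK c81 a81_1 a81_2 a81_3 q81 c103 a103_1 a103_2 a103_3 q103 fun c104 a104_1 a104_2 a104_3 q104 =>
  mulK c59 a59_1 a59_2 a59_3 q59 c104 a104_1 a104_2 a104_3 q104 fun c106 a106_1 a106_2 a106_3 q106 =>
  subK c84 a84_1 a84_2 a84_3 q84 c106 a106_1 a106_2 a106_3 q106 fun c107 a107_1 a107_2 a107_3 q107 =>
  mulK c61 a61_1 a61_2 a61_3 q61 c107 a107_1 a107_2 a107_3 q107 fun c108 a108_1 a108_2 a108_3 q108 =>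
  smulK 2 1 1152921504606846977 2305843009213693952 c108 a108_1 a108_2 a108_3 q108 fun c109 a109_1 a109_2 a109_3 q109 =>
  addK c56 a56_1 a56_2 a56_3 q56 c109 a109_1 a109_2 a109_3 q109 fun c110 a110_1 a110_2 a110_3 q110 =>
  mulK z1 (Nat.add w1 1152921504606846976) 1152921504606846976 1152921504606846976 0 c110 a110_1 a110_2 a110_3 q110 fun c112 a112_1 a112_2 a112_3 q112 =>
  smulK 2 3 3458764513820540931 2305843009213693952 c112 a112_1 a112_2 a112_3 q112 fun c114 a114_1 a114_2 a114_3 q114 =>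
  negK c114 a114_1 a114_2 a114_3 q114 fun c115 a115_1 a115_2 a115_3 q115 =>
  addcK c115 a115_1 a115_2 a115_3 q115 1152922604118474752 0 fun c116 a116_1 a116_2 a116_3 q116 =>
  smulK 99 200 230584300921369395400 114139228956077850624 c56 a56_1 a56_2 a56_3 q56 fun c118 a118_1 a118_2 a118_3 q118 =>
  mulK z3 1152921504606846976 1152921504606846976 (Nat.add w3 1152921504606846976) 0 c110 a110_1 a110_2 a110_3 q110 fun c119 a119_1 a119_2 a119_3 q119 =>
  smulK 3 10 11529215046068469770 3458764513820540928 c119 a119_1 a119_2 a119_3 q119 fun c120 a120_1 a120_2 a120_3 q120 =>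
  subK c118 a118_1 a118_2 a118_3 q118 c120 a120_1 a120_2 a120_3 q120 fun c121 a121_1 a121_2 a121_3 q121 =>
  mulK c3 a3_1 a3_2 a3_3 q3 c121 a121_1 a121_2 a121_3 q121 fun c122 a122_1 a122_2 a122_3 q122 =>
  subK c116 a116_1 a116_2 a116_3 q116 c122 a122_1 a122_2 a122_3 q122 fun c123 a123_1 a123_2 a123_3 q123 =>
  mulK c3 a3_1 a3_2 a3_3 q3 c123 a123_1 a123_2 a123_3 q123 fun c124 a124_1 a124_2 a124_3 q124 =>
  negK c84 a84_1 a84_2 a84_3 q84 fun c125 a125_1 a125_2 a125_3 q125 =>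
  mulK c61 a61_1 a61_2 a61_3 q61 c104 a104_1 a104_2 a104_3 q104 fun c126 a126_1 a126_2 a126_3 q126 =>
  smulK 2 1 1152921504606846977 2305843009213693952 c126 a126_1 a126_2 a126_3 q126 fun c127 a127_1 a127_2 a127_3 q127 =>
  subK c125 a125_1 a125_2 a125_3 q125 c127 a127_1 a127_2 a127_3 q127 fun c128 a128_1 a128_2 a128_3 q128 =>
  mulK z2 1152921504606846976 (Nat.add w2 1152921504606846976) 1152921504606846976 0 c128 a128_1 a128_2 a128_3 q128 fun c130 a130_1 a130_2 a130_3 q130 =>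
  subK c124 a124_1 a124_2 a124_3 q124 c130 a130_1 a130_2 a130_3 q130 fun c132 a132_1 a132_2 a132_3 q132 =>
  posK c132 a132_1 a132_2 a132_3 q132 <|
  mulK z3 1152921504606846976 1152921504606846976 (Nat.add w3 1152921504606846976) 0 c1 a1_1 a1_2 a1_3 q1 fun c134 a134_1 a134_2 a134_3 q134 =>
  sqK c134 a134_1 a134_2 a134_3 q134 fun c136 a136_1 a136_2 a136_3 q136 =>
  addcK c136 a136_1 a136_2 a136_3 q136 1152922604118474752 0 fun c137 a137_1 a137_2 a137_3 q137 =>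
  invK c137 a137_1 a137_2 a137_3 q137 fun c139 a139_1 a139_2 a139_3 q139 =>
  mulK c1 a1_1 a1_2 a1_3 q1 c139 a139_1 a139_2 a139_3 q139 fun c142 a142_1 a142_2 a142_3 q142 =>
  smulK 2 1 1152921504606846977 2305843009213693952 c142 a142_1 a142_2 a142_3 q142 fun c143 a143_1 a143_2 a143_3 q143 =>
  smulK 3 500 576460752303423488500 3458764513820540928 z1 (Nat.add w1 1152921504606846976) 1152921504606846976 1152921504606846976 0 fun c144 a144_1 a144_2 a144_3 q144 =>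
  negK c144 a144_1 a144_2 a144_3 q144 fun c145 a145_1 a145_2 a145_3 q145 =>
  addcK c145 a145_1 a145_2 a145_3 q145 1152922601919451496 1 fun c146 a146_1 a146_2 a146_3 q146 =>
  smulK 3 10 11529215046068469770 3458764513820540928 c112 a112_1 a112_2 a112_3 q112 fun c148 a148_1 a148_2 a148_3 q148 =>
  subK c146 a146_1 a146_2 a146_3 q146 c148 a148_1 a148_2 a148_3 q148 fun c149 a149_1 a149_2 a149_3 q149 =>
  mulK c134 a134_1 a134_2 a134_3 q134 c112 a112_1 a112_2 a112_3 q112 fun c150 a150_1 a150_2 a150_3 q150 =>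
  smulK 1 4 4611686018427387908 1152921504606846976 c150 a150_1 a150_2 a150_3 q150 fun c151 a151_1 a151_2 a151_3 q151 =>
  addK c149 a149_1 a149_2 a149_3 q149 c151 a151_1 a151_2 a151_3 q151 fun c152 a152_1 a152_2 a152_3 q152 =>
  mulK c1 a1_1 a1_2 a1_3 q1 c56 a56_1 a56_2 a56_3 q56 fun c153 a153_1 a153_2 a153_3 q153 =>
  subK c152 a152_1 a152_2 a152_3 q152 c153 a153_1 a153_2 a153_3 q153 fun c154 a154_1 a154_2 a154_3 q154 =>
  mulK c143 a143_1 a143_2 a143_3 q143 c154 a154_1 a154_2 a154_3 q154 fun c155 a155_1 a155_2 a155_3 q155 =>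
  subK c155 a155_1 a155_2 a155_3 q155 c130 a130_1 a130_2 a130_3 q130 fun c156 a156_1 a156_2 a156_3 q156 =>
  posK c156 a156_1 a156_2 a156_3 q156 <|
  mulK c136 a136_1 a136_2 a136_3 q136 c139 a139_1 a139_2 a139_3 q139 fun c158 a158_1 a158_2 a158_3 q158 =>
  smulK 2 1 1152921504606846977 2305843009213693952 c158 a158_1 a158_2 a158_3 q158 fun c159 a159_1 a159_2 a159_3 q159 =>
  negK c159 a159_1 a159_2 a159_3 q159 fun c160 a160_1 a160_2 a160_3 q160 =>
  addcK c160 a160_1 a160_2 a160_3 q160 1152922604118474752 0 fun c161 a161_1 a161_2 a161_3 q161 =>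
  sqK z1 (Nat.add w1 1152921504606846976) 1152921504606846976 1152921504606846976 0 fun c163 a163_1 a163_2 a163_3 q163 =>
  smulK 3 25 28823037615171174425 3458764513820540928 c163 a163_1 a163_2 a163_3 q163 fun c164 a164_1 a164_2 a164_3 q164 =>
  subK c161 a161_1 a161_2 a161_3 q161 c164 a164_1 a164_2 a164_3 q164 fun c165 a165_1 a165_2 a165_3 q165 =>
  mulK c134 a134_1 a134_2 a134_3 q134 c139 a139_1 a139_2 a139_3 q139 fun c166 a166_1 a166_2 a166_3 q166 =>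
  smulK 14 25 28823037615171174425 16140901064495857664 c166 a166_1 a166_2 a166_3 q166 fun c167 a167_1 a167_2 a167_3 q167 =>
  smulK 1 2 2305843009213693954 1152921504606846976 c158 a158_1 a158_2 a158_3 q158 fun c168 a168_1 a168_2 a168_3 q168 =>
  subK c167 a167_1 a167_2 a167_3 q167 c168 a168_1 a168_2 a168_3 q168 fun c169 a169_1 a169_2 a169_3 q169 =>
  mulK z1 (Nat.add w1 1152921504606846976) 1152921504606846976 1152921504606846976 0 c169 a169_1 a169_2 a169_3 q169 fun c170 a170_1 a170_2 a170_3 q170 =>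
  subK c165 a165_1 a165_2 a165_3 q165 c170 a170_1 a170_2 a170_3 q170 fun c171 a171_1 a171_2 a171_3 q171 =>
  posK c171 a171_1 a171_2 a171_3 q171 <|
  mulK c142 a142_1 a142_2 a142_3 q142 c56 a56_1 a56_2 a56_3 q56 fun c173 a173_1 a173_2 a173_3 q173 =>
  smulK 1 25 28823037615171174425 1152921504606846976 c173 a173_1 a173_2 a173_3 q173 fun c174 a174_1 a174_2 a174_3 q174 =>
  smulK 3 25 28823037615171174425 3458764513820540928 c112 a112_1 a112_2 a112_3 q112 fun c175 a175_1 a175_2 a175_3 q175 =>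
  subK c174 a174_1 a174_2 a174_3 q174 c175 a175_1 a175_2 a175_3 q175 fun c176 a176_1 a176_2 a176_3 q176 =>
  mulK c1 a1_1 a1_2 a1_3 q1 c176 a176_1 a176_2 a176_3 q176 fun c178 a178_1 a178_2 a178_3 q178 =>
  smulK 10 3 3458764513820540931 11529215046068469760 c178 a178_1 a178_2 a178_3 q178 fun c179 a179_1 a179_2 a179_3 q179 =>
  addK c156 a156_1 a156_2 a156_3 q156 c179 a179_1 a179_2 a179_3 q179 fun c180 a180_1 a180_2 a180_3 q180 =>
  pos c180 a180_1 a180_2 a180_3 q180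

theorem alt3_s {p1 z1 w1 z2 w2 z3 w3 : ℕ} {e1 e2 e3 s r th p : ℝ} (he : Ev e1 e2 e3)
    (hp1 : In e1 e2 e3 p1 1152921504606846976 1152921504606846976 1152921504606846976 0 p)
    (hx1 : In e1 e2 e3 z1 (Nat.add w1 1152921504606846976) 1152921504606846976 1152921504606846976 0 s)
    (hx2 : In e1 e2 e3 z2 1152921504606846976 (Nat.add w2 1152921504606846976) 1152921504606846976 0 r)
    (hx3 : In e1 e2 e3 z3 1152921504606846976 1152921504606846976 (Nat.add w3 1152921504606846976) 0 th)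
    (H0 : alt3 p1 z1 w1 z2 w2 z3 w3 = true) : 0 < (fGA s r th p) ∧ 0 < (fG0 s r th p) ∧ 0 < (fK1 s r th p) ∧ 0 < ((fG0 s r th p) + ((10/3:ℝ) * ((ftp s r th p) * (fX s r th p)))) := by
  unfold alt3 at H0
  refine smulK_s he (w := (12:ℝ)) (by norm_num) (by norm_num) (by norm_num) (by norm_num) hp1 (fun _ _ _ _ _ h1 H1 => ?_) H0
  have h2 := In_cast (w := (ftp s r th p)) h1 rfl
  refine smulK_s he (w := (2:ℝ)) (by norm_num) (by norm_num) (by norm_num) (by norm_num) h2 (fun _ _ _ _ _ h3 H2 => ?_) H1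
  have h4 := In_cast (w := (flam s r th p)) h3 rfl
  refine smulK_s he (w := (2:ℝ)) (by norm_num) (by norm_num) (by norm_num) (by norm_num) hx2 (fun _ _ _ _ _ h5 H3 => ?_) H2
  refine addcK_s he h5 (v' := (-1:ℝ)) (by norm_num [SS, BB, abs_le]) (fun _ _ _ _ _ h6 H4 => ?_) H3
  have h7 := In_cast h6 (sub_c (c := (1:ℝ)) (by norm_num))
  have h8 := In_cast (w := (fm1 s r th p)) h7 rfl
  refine smulK_s he (w := (401/1000:ℝ)) (by norm_num) (by norm_num) (by norm_num) (by norm_num) hx1 (fun _ _ _ _ _ h9 H5 => ?_) H4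
  refine addcK_s he h9 (v' := (-8271/10000:ℝ)) (by norm_num [SS, BB, abs_le]) (fun _ _ _ _ _ h10 H6 => ?_) H5
  refine smulK_s he (w := (31/625:ℝ)) (by norm_num) (by norm_num) (by norm_num) (by norm_num) hx1 (fun _ _ _ _ _ h11 H7 => ?_) H6
  refine addcK_s he h11 (v' := (-247/2000:ℝ)) (by norm_num [SS, BB, abs_le]) (fun _ _ _ _ _ h12 H8 => ?_) H7
  refine smulK_s he (w := (1511/5000:ℝ)) (by norm_num) (by norm_num) (by norm_num) (by norm_num) hx1 (fun _ _ _ _ _ h13 H9 => ?_) H8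
  refine negK_s he h13 (fun _ _ _ _ _ h14 H10 => ?_) H9
  have h15 := In_cast h14 (neg_mul_c (c := (-1511/5000:ℝ)) (by norm_num))
  refine addcK_s he h15 (v' := (1117/20000:ℝ)) (by norm_num [SS, BB, abs_le]) (fun _ _ _ _ _ h16 H11 => ?_) H10
  refine smulK_s he (w := (1881/5000:ℝ)) (by norm_num) (by norm_num) (by norm_num) (by norm_num) hx1 (fun _ _ _ _ _ h17 H12 => ?_) H11
  refine negK_s he h17 (fun _ _ _ _ _ h18 H13 => ?_) H12
  have h19 := In_cast h18 (neg_mul_c (c := (-1881/5000:ℝ)) (by norm_num))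
  refine addcK_s he h19 (v' := (3073/20000:ℝ)) (by norm_num [SS, BB, abs_le]) (fun _ _ _ _ _ h20 H14 => ?_) H13
  refine smulK_s he (w := (18183/20000:ℝ)) (by norm_num) (by norm_num) (by norm_num) (by norm_num) hx1 (fun _ _ _ _ _ h21 H15 => ?_) H14
  refine addcK_s he h21 (v' := (-11119/20000:ℝ)) (by norm_num [SS, BB, abs_le]) (fun _ _ _ _ _ h22 H16 => ?_) H15
  refine smulK_s he (w := (5969/20000:ℝ)) (by norm_num) (by norm_num) (by norm_num) (by norm_num) hx1 (fun _ _ _ _ _ h23 H17 => ?_) H16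
  refine negK_s he h23 (fun _ _ _ _ _ h24 H18 => ?_) H17
  have h25 := In_cast h24 (neg_mul_c (c := (-5969/20000:ℝ)) (by norm_num))
  refine addcK_s he h25 (v' := (611/2000:ℝ)) (by norm_num [SS, BB, abs_le]) (fun _ _ _ _ _ h26 H19 => ?_) H18
  refine smulK_s he (w := (1597/2500:ℝ)) (by norm_num) (by norm_num) (by norm_num) (by norm_num) hx1 (fun _ _ _ _ _ h27 H20 => ?_) H19
  refine negK_s he h27 (fun _ _ _ _ _ h28 H21 => ?_) H20
  have h29 := In_cast h28 (neg_mul_c (c := (-1597/2500:ℝ)) (by norm_num))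
  refine addcK_s he h29 (v' := (1443/5000:ℝ)) (by norm_num [SS, BB, abs_le]) (fun _ _ _ _ _ h30 H22 => ?_) H21
  refine smulK_s he (w := (2559/10000:ℝ)) (by norm_num) (by norm_num) (by norm_num) (by norm_num) hx1 (fun _ _ _ _ _ h31 H23 => ?_) H22
  refine addcK_s he h31 (v' := (-5941/20000:ℝ)) (by norm_num [SS, BB, abs_le]) (fun _ _ _ _ _ h32 H24 => ?_) H23
  have h33 := In_cast (w := (fh8 s r th p)) h32 rfl
  refine mulK_s he h8 h33 (fun _ _ _ _ _ h34 H25 => ?_) H24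
  refine addK_s he h30 h34 (fun _ _ _ _ _ h35 H26 => ?_) H25
  have h36 := In_cast (w := (fh7 s r th p)) h35 rfl
  refine mulK_s he h8 h36 (fun _ _ _ _ _ h37 H27 => ?_) H26
  refine addK_s he h26 h37 (fun _ _ _ _ _ h38 H28 => ?_) H27
  have h39 := In_cast (w := (fh6 s r th p)) h38 rfl
  refine mulK_s he h8 h39 (fun _ _ _ _ _ h40 H29 => ?_) H28
  refine addK_s he h22 h40 (fun _ _ _ _ _ h41 H30 => ?_) H29
  have h42 := In_cast (w := (fh5 s r th p)) h41 rfl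
  refine mulK_s he h8 h42 (fun _ _ _ _ _ h43 H31 => ?_) H30
  refine addK_s he h20 h43 (fun _ _ _ _ _ h44 H32 => ?_) H31
  have h45 := In_cast (w := (fh4 s r th p)) h44 rfl
  refine mulK_s he h8 h45 (fun _ _ _ _ _ h46 H33 => ?_) H32
  refine addK_s he h16 h46 (fun _ _ _ _ _ h47 H34 => ?_) H33
  have h48 := In_cast (w := (fh3 s r th p)) h47 rfl
  refine mulK_s he h8 h48 (fun _ _ _ _ _ h49 H35 => ?_) H34
  refine addK_s he h12 h49 (fun _ _ _ _ _ h50 H36 => ?_) H35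
  have h51 := In_cast (w := (fh2 s r th p)) h50 rfl
  refine mulK_s he h8 h51 (fun _ _ _ _ _ h52 H37 => ?_) H36
  refine addK_s he h10 h52 (fun _ _ _ _ _ h53 H38 => ?_) H37
  have h54 := In_cast (w := (fh1 s r th p)) h53 rfl
  refine mulK_s he h8 h54 (fun _ _ _ _ _ h55 H39 => ?_) H38
  refine addcK_s he h55 (v' := (1:ℝ)) (by norm_num [SS, BB, abs_le]) (fun _ _ _ _ _ h56 H40 => ?_) H39
  have h57 := In_cast h56 (add_comm _ _)
  have h58 := In_cast (w := (fh0 s r th p)) h57 rfl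
  refine mulK_s he hx2 hx3 (fun _ _ _ _ _ h59 H41 => ?_) H40
  have h60 := In_cast (w := (fd s r th p)) h59 rfl
  refine subK_s he hx2 h60 (fun _ _ _ _ _ h61 H42 => ?_) H41
  have h62 := In_cast (w := (fa0 s r th p)) h61 rfl
  refine subK_s he h8 h60 (fun _ _ _ _ _ h63 H43 => ?_) H42
  have h64 := In_cast (w := (fmm s r th p)) h63 rfl
  refine mulK_s he h64 h33 (fun _ _ _ _ _ h65 H44 => ?_) H43
  refine addK_s he h36 h65 (fun _ _ _ _ _ h66 H45 => ?_) H44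
  have h67 := In_cast (w := (fg7 s r th p)) h66 rfl
  refine mulK_s he h64 h67 (fun _ _ _ _ _ h68 H46 => ?_) H45
  refine addK_s he h39 h68 (fun _ _ _ _ _ h69 H47 => ?_) H46
  have h70 := In_cast (w := (fg6 s r th p)) h69 rfl
  refine mulK_s he h64 h70 (fun _ _ _ _ _ h71 H48 => ?_) H47
  refine addK_s he h42 h71 (fun _ _ _ _ _ h72 H49 => ?_) H48
  have h73 := In_cast (w := (fg5 s r th p)) h72 rfl
  refine mulK_s he h64 h73 (fun _ _ _ _ _ h74 H50 => ?_) H49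
  refine addK_s he h45 h74 (fun _ _ _ _ _ h75 H51 => ?_) H50
  have h76 := In_cast (w := (fg4 s r th p)) h75 rfl
  refine mulK_s he h64 h76 (fun _ _ _ _ _ h77 H52 => ?_) H51
  refine addK_s he h48 h77 (fun _ _ _ _ _ h78 H53 => ?_) H52
  have h79 := In_cast (w := (fg3 s r th p)) h78 rfl
  refine mulK_s he h64 h79 (fun _ _ _ _ _ h80 H54 => ?_) H53
  refine addK_s he h51 h80 (fun _ _ _ _ _ h81 H55 => ?_) H54
  have h82 := In_cast (w := (fg2 s r th p)) h81 rfl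
  refine mulK_s he h64 h82 (fun _ _ _ _ _ h83 H56 => ?_) H55
  refine addK_s he h54 h83 (fun _ _ _ _ _ h84 H57 => ?_) H56
  have h85 := In_cast (w := (fg1 s r th p)) h84 rfl
  refine subK_s he h64 h60 (fun _ _ _ _ _ h86 H58 => ?_) H57
  have h87 := In_cast (w := (fm0 s r th p)) h86 rfl
  refine mulK_s he h87 h33 (fun _ _ _ _ _ h88 H59 => ?_) H58
  refine addK_s he h67 h88 (fun _ _ _ _ _ h89 H60 => ?_) H59
  have h90 := In_cast (w := (fk7 s r th p)) h89 rfl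
  refine mulK_s he h87 h90 (fun _ _ _ _ _ h91 H61 => ?_) H60
  refine addK_s he h70 h91 (fun _ _ _ _ _ h92 H62 => ?_) H61
  have h93 := In_cast (w := (fk6 s r th p)) h92 rfl
  refine mulK_s he h87 h93 (fun _ _ _ _ _ h94 H63 => ?_) H62
  refine addK_s he h73 h94 (fun _ _ _ _ _ h95 H64 => ?_) H63
  have h96 := In_cast (w := (fk5 s r th p)) h95 rfl
  refine mulK_s he h87 h96 (fun _ _ _ _ _ h97 H65 => ?_) H64
  refine addK_s he h76 h97 (fun _ _ _ _ _ h98 H66 => ?_) H65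
  have h99 := In_cast (w := (fk4 s r th p)) h98 rfl
  refine mulK_s he h87 h99 (fun _ _ _ _ _ h100 H67 => ?_) H66
  refine addK_s he h79 h100 (fun _ _ _ _ _ h101 H68 => ?_) H67
  have h102 := In_cast (w := (fk3 s r th p)) h101 rfl
  refine mulK_s he h87 h102 (fun _ _ _ _ _ h103 H69 => ?_) H68
  refine addK_s he h82 h103 (fun _ _ _ _ _ h104 H70 => ?_) H69
  have h105 := In_cast (w := (fk2 s r th p)) h104 rfl
  refine mulK_s he h60 h105 (fun _ _ _ _ _ h106 H71 => ?_) H70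
  refine subK_s he h85 h106 (fun _ _ _ _ _ h107 H72 => ?_) H71
  refine mulK_s he h62 h107 (fun _ _ _ _ _ h108 H73 => ?_) H72
  refine smulK_s he (w := (2:ℝ)) (by norm_num) (by norm_num) (by norm_num) (by norm_num) h108 (fun _ _ _ _ _ h109 H74 => ?_) H73
  refine addK_s he h58 h109 (fun _ _ _ _ _ h110 H75 => ?_) H74
  have h111 := In_cast (w := (fD1 s r th p)) h110 rfl
  refine mulK_s he hx1 h111 (fun _ _ _ _ _ h112 H76 => ?_) H75
  have h113 := In_cast (w := (fsD s r th p)) h112 rfl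
  refine smulK_s he (w := (2/3:ℝ)) (by norm_num) (by norm_num) (by norm_num) (by norm_num) h113 (fun _ _ _ _ _ h114 H77 => ?_) H76
  refine negK_s he h114 (fun _ _ _ _ _ h115 H78 => ?_) H77
  refine addcK_s he h115 (v' := (1:ℝ)) (by norm_num [SS, BB, abs_le]) (fun _ _ _ _ _ h116 H79 => ?_) H78
  have h117 := In_cast h116 (neg_add_eq_sub _ _)
  refine smulK_s he (w := (99/200:ℝ)) (by norm_num) (by norm_num) (by norm_num) (by norm_num) h58 (fun _ _ _ _ _ h118 H80 => ?_) H79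
  refine mulK_s he hx3 h111 (fun _ _ _ _ _ h119 H81 => ?_) H80
  refine smulK_s he (w := (3/10:ℝ)) (by norm_num) (by norm_num) (by norm_num) (by norm_num) h119 (fun _ _ _ _ _ h120 H82 => ?_) H81
  refine subK_s he h118 h120 (fun _ _ _ _ _ h121 H83 => ?_) H82
  refine mulK_s he h4 h121 (fun _ _ _ _ _ h122 H84 => ?_) H83
  refine subK_s he h117 h122 (fun _ _ _ _ _ h123 H85 => ?_) H84
  refine mulK_s he h4 h123 (fun _ _ _ _ _ h124 H86 => ?_) H85
  refine negK_s he h85 (fun _ _ _ _ _ h125 H87 => ?_) H86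
  refine mulK_s he h62 h105 (fun _ _ _ _ _ h126 H88 => ?_) H87
  refine smulK_s he (w := (2:ℝ)) (by norm_num) (by norm_num) (by norm_num) (by norm_num) h126 (fun _ _ _ _ _ h127 H89 => ?_) H88
  refine subK_s he h125 h127 (fun _ _ _ _ _ h128 H90 => ?_) H89
  have h129 := In_cast (w := (fD2 s r th p)) h128 rfl
  refine mulK_s he hx2 h129 (fun _ _ _ _ _ h130 H91 => ?_) H90
  have h131 := In_cast (w := (frD s r th p)) h130 rfl
  refine subK_s he h124 h131 (fun _ _ _ _ _ h132 H92 => ?_) H91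
  have h133 := In_cast (w := (fGA s r th p)) h132 rfl
  refine posK_s he h133 (fun p0 H93 => ?_) H92
  refine mulK_s he hx3 h2 (fun _ _ _ _ _ h134 H94 => ?_) H93
  have h135 := In_cast (w := (ft s r th p)) h134 rfl
  refine sqK_s he h135 (fun _ _ _ _ _ h136 H95 => ?_) H94
  refine addcK_s he h136 (v' := (1:ℝ)) (by norm_num [SS, BB, abs_le]) (fun _ _ _ _ _ h137 H96 => ?_) H95
  have h138 := In_cast h137 (add_comm _ _)
  refine invK_s he h138 (fun _ _ _ _ _ h139 H97 => ?_) H96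
  have h140 := In_cast h139 (inv_eq_one_div _)
  have h141 := In_cast (w := (fw s r th p)) h140 rfl
  refine mulK_s he h2 h141 (fun _ _ _ _ _ h142 H98 => ?_) H97
  refine smulK_s he (w := (2:ℝ)) (by norm_num) (by norm_num) (by norm_num) (by norm_num) h142 (fun _ _ _ _ _ h143 H99 => ?_) H98
  refine smulK_s he (w := (3/500:ℝ)) (by norm_num) (by norm_num) (by norm_num) (by norm_num) hx1 (fun _ _ _ _ _ h144 H100 => ?_) H99
  refine negK_s he h144 (fun _ _ _ _ _ h145 H101 => ?_) H100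
  refine addcK_s he h145 (v' := (499/500:ℝ)) (by norm_num [SS, BB, abs_le]) (fun _ _ _ _ _ h146 H102 => ?_) H101
  have h147 := In_cast h146 (neg_add_eq_sub _ _)
  refine smulK_s he (w := (3/10:ℝ)) (by norm_num) (by norm_num) (by norm_num) (by norm_num) h113 (fun _ _ _ _ _ h148 H103 => ?_) H102
  refine subK_s he h147 h148 (fun _ _ _ _ _ h149 H104 => ?_) H103
  refine mulK_s he h135 h113 (fun _ _ _ _ _ h150 H105 => ?_) H104
  refine smulK_s he (w := (1/4:ℝ)) (by norm_num) (by norm_num) (by norm_num) (by norm_num) h150 (fun _ _ _ _ _ h151 H106 => ?_) H105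
  refine addK_s he h149 h151 (fun _ _ _ _ _ h152 H107 => ?_) H106
  refine mulK_s he h2 h58 (fun _ _ _ _ _ h153 H108 => ?_) H107
  refine subK_s he h152 h153 (fun _ _ _ _ _ h154 H109 => ?_) H108
  refine mulK_s he h143 h154 (fun _ _ _ _ _ h155 H110 => ?_) H109
  refine subK_s he h155 h131 (fun _ _ _ _ _ h156 H111 => ?_) H110
  have h157 := In_cast (w := (fG0 s r th p)) h156 rfl
  refine posK_s he h157 (fun p1 H112 => ?_) H111
  refine mulK_s he h136 h141 (fun _ _ _ _ _ h158 H113 => ?_) H112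
  refine smulK_s he (w := (2:ℝ)) (by norm_num) (by norm_num) (by norm_num) (by norm_num) h158 (fun _ _ _ _ _ h159 H114 => ?_) H113
  refine negK_s he h159 (fun _ _ _ _ _ h160 H115 => ?_) H114
  refine addcK_s he h160 (v' := (1:ℝ)) (by norm_num [SS, BB, abs_le]) (fun _ _ _ _ _ h161 H116 => ?_) H115
  have h162 := In_cast h161 (neg_add_eq_sub _ _)
  refine sqK_s he hx1 (fun _ _ _ _ _ h163 H117 => ?_) H116
  refine smulK_s he (w := (3/25:ℝ)) (by norm_num) (by norm_num) (by norm_num) (by norm_num) h163 (fun _ _ _ _ _ h164 H118 => ?_) H117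
  refine subK_s he h162 h164 (fun _ _ _ _ _ h165 H119 => ?_) H118
  refine mulK_s he h135 h141 (fun _ _ _ _ _ h166 H120 => ?_) H119
  refine smulK_s he (w := (14/25:ℝ)) (by norm_num) (by norm_num) (by norm_num) (by norm_num) h166 (fun _ _ _ _ _ h167 H121 => ?_) H120
  refine smulK_s he (w := (1/2:ℝ)) (by norm_num) (by norm_num) (by norm_num) (by norm_num) h158 (fun _ _ _ _ _ h168 H122 => ?_) H121
  refine subK_s he h167 h168 (fun _ _ _ _ _ h169 H123 => ?_) H122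
  refine mulK_s he hx1 h169 (fun _ _ _ _ _ h170 H124 => ?_) H123
  refine subK_s he h165 h170 (fun _ _ _ _ _ h171 H125 => ?_) H124
  have h172 := In_cast (w := (fK1 s r th p)) h171 rfl
  refine posK_s he h172 (fun p2 H126 => ?_) H125
  refine mulK_s he h142 h58 (fun _ _ _ _ _ h173 H127 => ?_) H126
  refine smulK_s he (w := (1/25:ℝ)) (by norm_num) (by norm_num) (by norm_num) (by norm_num) h173 (fun _ _ _ _ _ h174 H128 => ?_) H127
  refine smulK_s he (w := (3/25:ℝ)) (by norm_num) (by norm_num) (by norm_num) (by norm_num) h113 (fun _ _ _ _ _ h175 H129 => ?_) H128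
  refine subK_s he h174 h175 (fun _ _ _ _ _ h176 H130 => ?_) H129
  have h177 := In_cast (w := (fX s r th p)) h176 rfl
  refine mulK_s he h2 h177 (fun _ _ _ _ _ h178 H131 => ?_) H130
  refine smulK_s he (w := (10/3:ℝ)) (by norm_num) (by norm_num) (by norm_num) (by norm_num) h178 (fun _ _ _ _ _ h179 H132 => ?_) H131
  refine addK_s he h157 h179 (fun _ _ _ _ _ h180 H133 => ?_) H132
  exact ⟨p0, p1, p2, pos_s he h180 H133⟩

attribute [irreducible] alt0 alt1 alt2 alt3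

noncomputable def leaf (j u z1 w1 z2 w2 z3 w3 : ℕ) : Bool :=
  fB (Nat.add (Nat.land (Nat.shiftRight u 0) 65535) 1) fun n1 =>
  fB (Nat.add (Nat.mul n1 16777216) 1152921504606846977) fun p1 =>
  sB j (alt0 p1 z1 w1 z2 w2 z3 w3) fun j => sB j (alt1 p1 z1 w1 z2 w2 z3 w3) fun j => sB j (alt2 p1 z1 w1 z2 w2 z3 w3) fun j => alt3 p1 z1 w1 z2 w2 z3 w3

theorem snd : Snd Q leaf := by
  intro j u z1 w1 z2 w2 z3 w3 e1 e2 e3 he H
  unfold leaf at H
  unfold Q
  replace H := frc H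
  obtain ⟨n1, hn1, H⟩ := H
  replace H := frc H
  obtain ⟨p1, hp1, H⟩ := H
  obtain ⟨hp1, ha, hb⟩ := par (e1 := e1) (e2 := e2) (e3 := e3) hn1 hp1
  refine ⟨_, ha, hb, ?_⟩
  replace H := sel H
  rcases H with H | ⟨j, H⟩
  · exact Or.inl (alt0_s he hp1 (var1 z1 w1) (var2 z2 w2) (var3 z3 w3) H)
  replace H := sel H
  rcases H with H | ⟨j, H⟩
  · exact Or.inr (Or.inl (alt1_s he hp1 (var1 z1 w1) (var2 z2 w2) (var3 z3 w3) H))
  replace H := sel H
  rcases H with H | ⟨j, H⟩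
  · exact Or.inr (Or.inr (Or.inl (alt2_s he hp1 (var1 z1 w1) (var2 z2 w2) (var3 z3 w3) H)))
  exact Or.inr (Or.inr (Or.inr (alt3_s he hp1 (var1 z1 w1) (var2 z2 w2) (var3 z3 w3) H)))

end Crest.Agent.R307.SLc
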