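import Crest.Agent.R307.IA2
import Crest.Agent.R307.IAx
set_option autoImplicit false
set_option linter.unusedVariables false
set_option maxRecDepth 20000
namespace Crest.Agent.R307.SLe
open Crest.Agent.R307.IA Crest.Agent.R307.IA2

theorem In_cast {e1 e2 : ℝ} {x y1 y2 r : ℕ} {v w : ℝ}
    (h : In e1 e2 x y1 y2 r v) (e : v = w) : In e1 e2 x y1 y2 r w := e ▸ h

noncomputable def fz (s c : ℝ) : ℝ := ((1:ℝ) - (c ^ 2))
noncomputable def fE (s c : ℝ) : ℝ := ((((247/2500:ℝ) + ((2253/2500:ℝ) * s)) + ((fz s c) * (((2589/5000:ℝ) - ((1139/2500:ℝ) * s)) + ((fz s c) * ((169/10000:ℝ) + ((3829/5000:ℝ) * s)))))) / (2:ℝ))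

def Q (s c : ℝ) : Prop :=
  (
  (0 < ((1:ℝ) - ((s * ((1:ℝ) + c)) * ((1:ℝ) - ((c ^ 2) * (fE s c)))))))

noncomputable def alt0 (z1 w1 z2 w2 : ℕ) : Bool :=
  addcK z2 1152921504606846976 (Nat.add w2 1152921504606846976) 0 1152922604118474752 0 fun c1 a1_1 a1_2 q1 =>
  mulK z1 (Nat.add w1 1152921504606846976) 1152921504606846976 0 c1 a1_1 a1_2 q1 fun c3 a3_1 a3_2 q3 =>
  sqK z2 1152921504606846976 (Nat.add w2 1152921504606846976) 0 fun c4 a4_1 a4_2 q4 =>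
  smulK 2253 2500 2882303761517117442500 2597532149879226236928 z1 (Nat.add w1 1152921504606846976) 1152921504606846976 0 fun c5 a5_1 a5_2 q5 =>
  addcK c5 a5_1 a5_2 q5 1152921613238595800 1 fun c6 a6_1 a6_2 q6 =>
  negK c4 a4_1 a4_2 q4 fun c8 a8_1 a8_2 q8 =>
  addcK c8 a8_1 a8_2 q8 1152922604118474752 0 fun c9 a9_1 a9_2 q9 =>
  smulK 1139 2500 2882303761517117442500 1313177593747198705664 z1 (Nat.add w1 1152921504606846976) 1152921504606846976 0 fun c12 a12_1 a12_2 q12 =>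
  negK c12 a12_1 a12_2 q12 fun c13 a13_1 a13_2 q13 =>
  addcK c13 a13_1 a13_2 q13 1152922073933967838 1 fun c14 a14_1 a14_2 q14 =>
  smulK 3829 5000 5764607523034234885000 4414536441139617071104 z1 (Nat.add w1 1152921504606846976) 1152921504606846976 0 fun c16 a16_1 a16_2 q16 =>
  addcK c16 a16_1 a16_2 q16 1152921523188593485 1 fun c17 a17_1 a17_2 q17 =>
  mulK c9 a9_1 a9_2 q9 c17 a17_1 a17_2 q17 fun c19 a19_1 a19_2 q19 =>
  addK c14 a14_1 a14_2 q14 c19 a19_1 a19_2 q19 fun c20 a20_1 a20_2 q20 =>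
  mulK c9 a9_1 a9_2 q9 c20 a20_1 a20_2 q20 fun c21 a21_1 a21_2 q21 =>
  addK c6 a6_1 a6_2 q6 c21 a21_1 a21_2 q21 fun c22 a22_1 a22_2 q22 =>
  smulK 1 2 2305843009213693954 1152921504606846976 c22 a22_1 a22_2 q22 fun c23 a23_1 a23_2 q23 =>
  mulK c4 a4_1 a4_2 q4 c23 a23_1 a23_2 q23 fun c26 a26_1 a26_2 q26 =>
  negK c26 a26_1 a26_2 q26 fun c27 a27_1 a27_2 q27 =>
  addcK c27 a27_1 a27_2 q27 1152922604118474752 0 fun c28 a28_1 a28_2 q28 =>
  mulK c3 a3_1 a3_2 q3 c28 a28_1 a28_2 q28 fun c30 a30_1 a30_2 q30 =>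
  negK c30 a30_1 a30_2 q30 fun c31 a31_1 a31_2 q31 =>
  addcK c31 a31_1 a31_2 q31 1152922604118474752 0 fun c32 a32_1 a32_2 q32 =>
  pos c32 a32_1 a32_2 q32

theorem alt0_s {z1 w1 z2 w2 : ℕ} {e1 e2 s c : ℝ} (he : Ev e1 e2)
    (hx1 : In e1 e2 z1 (Nat.add w1 1152921504606846976) 1152921504606846976 0 s)
    (hx2 : In e1 e2 z2 1152921504606846976 (Nat.add w2 1152921504606846976) 0 c)
    (H0 : alt0 z1 w1 z2 w2 = true) : 0 < ((1:ℝ) - ((s * ((1:ℝ) + c)) * ((1:ℝ) - ((c ^ 2) * (fE s c))))) := by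
  unfold alt0 at H0
  refine addcK_s he hx2 (v' := (1:ℝ)) (by norm_num [SS, BB, abs_le]) (fun _ _ _ _ h1 H1 => ?_) H0
  have h2 := In_cast h1 (add_comm _ _)
  refine mulK_s he hx1 h2 (fun _ _ _ _ h3 H2 => ?_) H1
  refine sqK_s he hx2 (fun _ _ _ _ h4 H3 => ?_) H2
  refine smulK_s he (w := (2253/2500:ℝ)) (by norm_num) (by norm_num) (by norm_num) (by norm_num) hx1 (fun _ _ _ _ h5 H4 => ?_) H3
  refine addcK_s he h5 (v' := (247/2500:ℝ)) (by norm_num [SS, BB, abs_le]) (fun _ _ _ _ h6 H5 => ?_) H4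
  have h7 := In_cast h6 (add_comm _ _)
  refine negK_s he h4 (fun _ _ _ _ h8 H6 => ?_) H5
  refine addcK_s he h8 (v' := (1:ℝ)) (by norm_num [SS, BB, abs_le]) (fun _ _ _ _ h9 H7 => ?_) H6
  have h10 := In_cast h9 (neg_add_eq_sub _ _)
  have h11 := In_cast (w := (fz s c)) h10 rfl
  refine smulK_s he (w := (1139/2500:ℝ)) (by norm_num) (by norm_num) (by norm_num) (by norm_num) hx1 (fun _ _ _ _ h12 H8 => ?_) H7
  refine negK_s he h12 (fun _ _ _ _ h13 H9 => ?_) H8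
  refine addcK_s he h13 (v' := (2589/5000:ℝ)) (by norm_num [SS, BB, abs_le]) (fun _ _ _ _ h14 H10 => ?_) H9
  have h15 := In_cast h14 (neg_add_eq_sub _ _)
  refine smulK_s he (w := (3829/5000:ℝ)) (by norm_num) (by norm_num) (by norm_num) (by norm_num) hx1 (fun _ _ _ _ h16 H11 => ?_) H10
  refine addcK_s he h16 (v' := (169/10000:ℝ)) (by norm_num [SS, BB, abs_le]) (fun _ _ _ _ h17 H12 => ?_) H11
  have h18 := In_cast h17 (add_comm _ _)
  refine mulK_s he h11 h18 (fun _ _ _ _ h19 H13 => ?_) H12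
  refine addK_s he h15 h19 (fun _ _ _ _ h20 H14 => ?_) H13
  refine mulK_s he h11 h20 (fun _ _ _ _ h21 H15 => ?_) H14
  refine addK_s he h7 h21 (fun _ _ _ _ h22 H16 => ?_) H15
  refine smulK_s he (w := (1/2:ℝ)) (by norm_num) (by norm_num) (by norm_num) (by norm_num) h22 (fun _ _ _ _ h23 H17 => ?_) H16
  have h24 := In_cast h23 (div_c (c := (2:ℝ)) (by norm_num))
  have h25 := In_cast (w := (fE s c)) h24 rfl
  refine mulK_s he h4 h25 (fun _ _ _ _ h26 H18 => ?_) H17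
  refine negK_s he h26 (fun _ _ _ _ h27 H19 => ?_) H18
  refine addcK_s he h27 (v' := (1:ℝ)) (by norm_num [SS, BB, abs_le]) (fun _ _ _ _ h28 H20 => ?_) H19
  have h29 := In_cast h28 (neg_add_eq_sub _ _)
  refine mulK_s he h3 h29 (fun _ _ _ _ h30 H21 => ?_) H20
  refine negK_s he h30 (fun _ _ _ _ h31 H22 => ?_) H21
  refine addcK_s he h31 (v' := (1:ℝ)) (by norm_num [SS, BB, abs_le]) (fun _ _ _ _ h32 H23 => ?_) H22
  have h33 := In_cast h32 (neg_add_eq_sub _ _)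
  exact pos_s he h33 H23

attribute [irreducible] alt0

noncomputable def leaf (j u z1 w1 z2 w2 : ℕ) : Bool :=
  alt0 z1 w1 z2 w2

theorem snd : Snd Q leaf := by
  intro j u z1 w1 z2 w2 e1 e2 he H
  unfold leaf at H
  unfold Q
  exact alt0_s he (var1 z1 w1) (var2 z2 w2) H

end Crest.Agent.R307.SLe
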