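import Crest.Agent.R307.SL
import Crest.Agent.R307.XSh

/-!
# R307/SLw: the core inequality for `ρ ≥ 4/5`
-/

set_option autoImplicit false

namespace Crest.Agent.R307

open Crest.CubeNoise Set

theorem sl_core {ρ : ℝ} (h0 : 4 / 5 ≤ ρ) (h1 : ρ ≤ 1) : XCore ρ := by
  have hρ0 : 0 ≤ ρ := by linarith
  have hq : 0 ≤ 1 - ρ ^ 2 := by nlinarith
  have hs : √(1 - ρ ^ 2) ^ 2 = 1 - ρ ^ 2 := Real.sq_sqrt hq
  have s0 : 0 ≤ √(1 - ρ ^ 2) := Real.sqrt_nonneg _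
  have s1 : √(1 - ρ ^ 2) ≤ 3 / 5 := Real.sqrt_le_iff.2 ⟨by norm_num, by nlinarith⟩
  rcases s0.eq_or_lt with z | z
  · intro n u _
    have k : 2 * √(cubeAverage u * (1 - cubeAverage u)) ≤ 1 := by
      have : √(cubeAverage u * (1 - cubeAverage u)) ≤ 1 / 2 :=
        Real.sqrt_le_iff.2 ⟨by norm_num, by nlinarith [sq_nonneg (2 * cubeAverage u - 1)]⟩
      linarith
    have k2 : 0 ≤ cubeAverage fun x => 2 * √(noise ρ u x * (1 - noise ρ u x)) := by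
      unfold cubeAverage
      positivity
    rw [← z]
    linarith
  refine xcore_of_hyp3 hρ0 h1 (b := fun a => √(1 - ρ ^ 2) * slb √(1 - ρ ^ 2) a)
    (u := fun a => √(1 - ρ ^ 2) * slb √(1 - ρ ^ 2) a) (v := fun _ => 0) (fun _ _ _ => le_rfl) ?_ ?_ ?_ ?_ ?_
  · simp [HRg, slb_zero, slb_one]
  · simp [HRg, slb_zero, slb_one]
  · intro a0 a1 x0 x1 x2 H
    rcases H.2 with H | ⟨rfl, rfl⟩
    · exact sl_bat hρ0 h1 hs z s1 x0 x1 x2 H
    · exact sl_01 hρ0 h1 hs s0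
  · intro a0 a1 _ _ _ _
    exact Or.inr ⟨le_rfl, le_rfl, by simp⟩
  · intro a x0 x1
    exact Or.inr (sl_end s0 s1 x0 x1)

end Crest.Agent.R307
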