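import Crest.Agent.R307.HWz
import Crest.Agent.R307.XVar

/-!
# R307/SM: the end step for a budget `E Φ(T 1_A) ≥ B(|A|)`
-/

set_option autoImplicit false

namespace Crest.Agent.R307

open Crest.CubeNoise

/-- Variance bound for `T 1_A`, `|A| = a ≥ 1/2`, level-one weight at most `4/5`. -/
noncomputable def smV (ρ a : ℝ) : ℝ :=
  ρ ^ 2 * ((1 - ρ ^ 2) * min (4 / 5) (2 * (1 - a)) + ρ ^ 2 * (4 * (a * (1 - a)))) / 4

/-- A one-variable minorant of `2 √(p (1-p))`. -/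
def SMFam (Φ : ℝ → ℝ) (L1 L2 c0 c1 ν : ℝ) : Prop :=
  0 ≤ L1 ∧ 0 ≤ L2 ∧ 0 ≤ ν ∧
    ∀ p : ℝ, 0 ≤ p → p ≤ 1 → L1 * Φ p + L2 * Φ (1 - p) + c0 + c1 * p - ν * p ^ 2 ≤ 2 * √(p * (1 - p))

theorem sm_main {ρ : ℝ} (h0 : 0 ≤ ρ) (h1 : ρ ≤ 1) (Φ B : ℝ → ℝ)
    (hB : ∀ (n : ℕ) (u : (Fin n → Bool) → ℝ), (∀ y, u y = 0 ∨ u y = 1) →
      B (cubeAverage u) ≤ cubeAverage fun x => Φ (noise ρ u x))
    (fin : ∀ a : ℝ, 1 / 2 ≤ a → a ≤ 1 → ∃ L1 L2 c0 c1 ν : ℝ, SMFam Φ L1 L2 c0 c1 ν ∧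
      2 * √(a * (1 - a)) - 1 + √(1 - ρ ^ 2) ≤ L1 * B a + L2 * B (1 - a) + c0 + c1 * a - ν * (a ^ 2 + smV ρ a))
    (n : ℕ) (f : (Fin n → Bool) → ℝ) (hf : ∀ x, f x = 1 ∨ f x = -1) (hm : 0 ≤ cubeAverage f) (hW : W1 f ≤ 4 / 5) :
    HN ρ f := by
  have hρ : |ρ| ≤ 1 := abs_le.2 ⟨by linarith, h1⟩
  have hρ2 : ρ ^ 2 ≤ 1 := by nlinarith
  set u : (Fin n → Bool) → ℝ := fun y => 1 / 2 * f y + 1 / 2 with hu
  set v : (Fin n → Bool) → ℝ := fun y => -(1 / 2) * f y + 1 / 2 with hv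
  have bu : ∀ y, u y = 0 ∨ u y = 1 := fun y => by
    rcases hf y with e | e <;> simp only [hu, e] <;> norm_num
  have bv : ∀ y, v y = 0 ∨ v y = 1 := fun y => by
    rcases hf y with e | e <;> simp only [hv, e] <;> norm_num
  have hle : cubeAverage f ≤ 1 := avg_le fun x => by rcases hf x with h | h <;> rw [h] <;> norm_num
  set a := (1 + cubeAverage f) / 2 with ha
  have au : cubeAverage u = a := by simp only [hu, avg_add, avg_mul, avg_const]; rw [ha]; ring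
  have av : cubeAverage v = 1 - a := by simp only [hv, avg_add, avg_mul, avg_const]; rw [ha]; ring
  have nu : ∀ x, noise ρ u x = 1 / 2 * noise ρ f x + 1 / 2 := fun x => noise_affine ρ _ _ f x
  have nv : ∀ x, noise ρ v x = 1 - noise ρ u x := fun x => by
    rw [nu x]; simp only [hv]; rw [noise_affine]; ring
  have b1 := hB n u bu
  have b2 := hB n v bv
  rw [au] at b1
  rw [av] at b2
  simp only [nv] at b2
  obtain ⟨L1, L2, c0, c1, ν, ⟨l1, l2, l3, hp⟩, hnum⟩ := fin a (by linarith) (by linarith)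
  have m1 : cubeAverage (noise ρ u) = a := by rw [avg_noise, au]
  have var : (cubeAverage fun x => (noise ρ u x - a) ^ 2) ≤ smV ρ a := by
    have e1 : ∀ x, (noise ρ u x - a) ^ 2 = (noise ρ f x - cubeAverage f) ^ 2 / 4 := fun x => by
      rw [nu x, ha]; ring
    simp only [e1, avg_div]
    have h2 := hn_var hρ2 hf
    have h3 := (W1_le_mean hf).1
    rw [abs_of_nonneg hm] at h3
    have h4 : W1 f ≤ min (4 / 5) (2 * (1 - a)) := le_min hW (by linarith)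
    have h5 := mul_le_mul_of_nonneg_left h4 (mul_nonneg (sq_nonneg ρ) (sub_nonneg.2 hρ2))
    have h6 : 1 - cubeAverage f ^ 2 = 4 * (a * (1 - a)) := by rw [ha]; ring
    rw [h6] at h2
    unfold smV
    linarith
  have pt : ∀ x, L1 * Φ (noise ρ u x) + L2 * Φ (1 - noise ρ u x) + (c0 + ν * a ^ 2) + (c1 - 2 * ν * a) * noise ρ u x
      - ν * (noise ρ u x - a) ^ 2 ≤ √(1 - noise ρ f x ^ 2) := fun x => by
    have := hp _ (xv_noise_nonneg hρ bu x) (xv_noise_le hρ bu x)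
    rw [← xind_sqrt, show 2 * noise ρ u x + -1 = noise ρ f x by rw [nu x]; ring] at this
    linarith
  have hav := avg_mono pt
  rw [avg_sub, avg_add, avg_add, avg_add, avg_mul, avg_mul, avg_mul, avg_mul, avg_const, m1] at hav
  have d1 := mul_le_mul_of_nonneg_left b1 l1
  have d2 := mul_le_mul_of_nonneg_left b2 l2
  have d3 := mul_le_mul_of_nonneg_left var l3
  rw [HN, show cubeAverage f = 2 * a + -1 by rw [ha]; ring, xind_sqrt]
  linarith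

theorem sm_core {ρ : ℝ} (h0 : 3 / 10 ≤ ρ) (h1 : ρ ≤ 87 / 100) (Φ B : ℝ → ℝ)
    (hB : ∀ (n : ℕ) (u : (Fin n → Bool) → ℝ), (∀ y, u y = 0 ∨ u y = 1) →
      B (cubeAverage u) ≤ cubeAverage fun x => Φ (noise ρ u x))
    (fin : ∀ a : ℝ, 1 / 2 ≤ a → a ≤ 1 → ∃ L1 L2 c0 c1 ν : ℝ, SMFam Φ L1 L2 c0 c1 ν ∧
      2 * √(a * (1 - a)) - 1 + √(1 - ρ ^ 2) ≤ L1 * B a + L2 * B (1 - a) + c0 + c1 * a - ν * (a ^ 2 + smV ρ a)) :
    XCore ρ :=
  hw_core h0 h1 (sm_main (by linarith) (by linarith) Φ B hB fin)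

end Crest.Agent.R307
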