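import Crest.Agent.R307.SM

/-!
# R307/SMs: a closed one-parameter family for the end step of the square-root budget
-/

set_option autoImplicit false

namespace Crest.Agent.R307

open Crest.CubeNoise

noncomputable def smE (w : ℝ) : ℝ := 70711 / 50000 * (2 * w + 70711 / 50000)

noncomputable def smD (w : ℝ) : ℝ := smE w + 3 * w ^ 2 - 2

theorem smD_pos {w : ℝ} (hw : 1 / 2 ≤ w) : 0 < smD w := by
  unfold smD smE; nlinarith

theorem sm_fam {w : ℝ} (hw : 1 / 2 ≤ w) :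
    SMFam (fun p => √p) (2 * w * (smE w + w ^ 2) / smD w) (2 * w * (smE w + w ^ 2) / smD w)
      (-1 - (1 + w ^ 2 * smE w) / smD w) (4 / smD w) (4 / smD w) := by
  have hD := smD_pos hw
  have hE : 0 ≤ smE w := by unfold smE; positivity
  have hL : 0 ≤ 2 * w * (smE w + w ^ 2) / smD w := by positivity
  refine ⟨hL, hL, by positivity, fun p p0 p1 => ?_⟩
  have y0 := Real.sqrt_nonneg p
  have z0 := Real.sqrt_nonneg (1 - p)
  have y2 := Real.sq_sqrt p0
  have z2 := Real.sq_sqrt (sub_nonneg.2 p1)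
  rw [Real.sqrt_mul p0]
  set y := √p
  set z := √(1 - p)
  have hv : y + z ≤ 70711 / 50000 := by
    refine abs_le_of_sq_le_sq' ?_ (by norm_num) |>.2
    nlinarith [sq_nonneg (y - z)]
  have key : 0 ≤ (y + z - w) ^ 2 * ((70711 / 50000 - (y + z)) * (y + z + 2 * w + 70711 / 50000)) :=
    mul_nonneg (sq_nonneg _) (mul_nonneg (by linarith) (by linarith))
  have c1 : 2 * (y * z) = (y + z) ^ 2 - 1 := by nlinarith
  have c2 : p - p ^ 2 = ((y + z) ^ 2 - 1) ^ 2 / 4 := by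
    rw [← c1]
    have : (2 * (y * z)) ^ 2 / 4 = y ^ 2 * z ^ 2 := by ring
    rw [this, y2, z2]; ring
  have e : 2 * w * (smE w + w ^ 2) / smD w * y + 2 * w * (smE w + w ^ 2) / smD w * z
      + (-1 - (1 + w ^ 2 * smE w) / smD w) + 4 / smD w * p - 4 / smD w * p ^ 2
      = (2 * w * (smE w + w ^ 2) * (y + z) - smD w - (1 + w ^ 2 * smE w) + 4 * (p - p ^ 2)) / smD w := by
    field_simp
    ring
  rw [e, c1, c2, div_le_iff₀ hD]
  generalize y + z = v at key ⊢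
  unfold smD smE at *
  nlinarith [key]

/-- The end step: only the sum `B a + B (1 - a)` enters. A good choice is `w = 1.02 + 0.37 s - 0.3 (2a-1)^2`. -/
theorem sm_sym {ρ : ℝ} (h0 : 3 / 10 ≤ ρ) (h1 : ρ ≤ 87 / 100) (B : ℝ → ℝ)
    (hB : ∀ (n : ℕ) (u : (Fin n → Bool) → ℝ), (∀ y, u y = 0 ∨ u y = 1) →
      B (cubeAverage u) ≤ cubeAverage fun x => √(noise ρ u x))
    (fin : ∀ a : ℝ, 1 / 2 ≤ a → a ≤ 1 → ∃ w : ℝ, 1 / 2 ≤ w ∧
      smD w * (2 * √(a * (1 - a)) + √(1 - ρ ^ 2)) + 1 + w ^ 2 * smE w - 4 * (a * (1 - a) - smV ρ a) ≤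
        2 * w * (smE w + w ^ 2) * (B a + B (1 - a))) : XCore ρ := by
  refine sm_core h0 h1 (fun p => √p) B hB fun a a0 a1 => ?_
  obtain ⟨w, hw, h⟩ := fin a a0 a1
  have hD := smD_pos hw
  refine ⟨_, _, _, _, _, sm_fam hw, ?_⟩
  have e : 2 * w * (smE w + w ^ 2) / smD w * B a + 2 * w * (smE w + w ^ 2) / smD w * B (1 - a)
      + (-1 - (1 + w ^ 2 * smE w) / smD w) + 4 / smD w * a - 4 / smD w * (a ^ 2 + smV ρ a)
      = (2 * w * (smE w + w ^ 2) * (B a + B (1 - a)) - smD w - (1 + w ^ 2 * smE w)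
        + 4 * (a * (1 - a) - smV ρ a)) / smD w := by
    field_simp
    ring
  rw [e, le_div_iff₀ hD]
  linarith

end Crest.Agent.R307
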