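import Crest.Agent.R307.SUcC0
import Crest.Agent.R307.SUcC1
import Crest.Agent.R307.SUcC2
import Crest.Agent.R307.SUcC3
import Crest.Agent.R307.SUcC4
set_option autoImplicit false
set_option maxRecDepth 100000
namespace Crest.Agent.R307.SUc
open Crest.Agent.R307.IA Crest.Agent.R307.IA3

theorem cov : Cov Q 1152922164313823641 1152922330889835250 1152921504606846976 1152922604118474752 1152921504606846976 1152922604118474752 :=
  (join2 1152922054362661017 (join2 1152921779484754113 (join2 1152921642045800643 (join2 1152921573326323899 (join1 1152922247601831211 k0 k1) k2) k3) (join3 1152922054362661017 k4 (join2 1152921916923707700 k5 k6))) (join3 1152922054362661017 (join2 1152922329240568073 k7 (join2 1152922466679521619 (join3 1152921779484754113 k8 k9) (join3 1152921779484754113 (join2 1152922535398998401 k10 k11) (join1 1152922247601831211 k12 (join2 1152922535398998401 k13 (join3 1152921916923707700 k14 k15)))))) (join2 1152922329240568073 (join3 1152922329240568073 k16 k17) k18)))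

theorem main (s r th : ℝ) (l0 : (3/5:ℝ) ≤ s) (u0 : s ≤ (1503/2000:ℝ)) (l1 : (0:ℝ) ≤ r) (u1 : r ≤ (1:ℝ)) (l2 : (0:ℝ) ≤ th) (u2 : th ≤ (1:ℝ)) : Q s r th :=
  cov s r th (le_trans (by norm_num [val, SS, BB]) l0) (le_trans u0 (by norm_num [val, SS, BB])) (le_trans (by norm_num [val, SS, BB]) l1) (le_trans u1 (by norm_num [val, SS, BB])) (le_trans (by norm_num [val, SS, BB]) l2) (le_trans u2 (by norm_num [val, SS, BB]))

end Crest.Agent.R307.SUc
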