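import Crest.Agent.R307.XSh
import Crest.Agent.R307.UK
import Crest.Agent.R307.SUcM
import Crest.Agent.R307.SUeM

/-!
# R307/SU: window M by the single hypothesis `E Uex (T 1_A) ≥ s b(a)`
-/

set_option autoImplicit false
set_option linter.unusedVariables false

namespace Crest.Agent.R307

open Crest.CubeNoise Set

/-- The Bellman function (divided by `s`). -/
noncomputable def suB (s a : ℝ) : ℝ := SUc.fh0 s a 0 0

open SUc in
theorem su_div (s r th p : ℝ) : suB s r = fh0 s r th p ∧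
    suB s (r - fd s r th p / 2) = fh0 s r th p - fd s r th p * fg1 s r th p ∧
    suB s (r - fd s r th p) = fh0 s r th p - fd s r th p * fD1 s r th p := by
  have e1 : ∀ a, fq1 s a 0 0 = fq1 s r th p := fun _ => rfl
  have e2 : ∀ a, fq2 s a 0 0 = fq2 s r th p := fun _ => rfl
  have e3 : ∀ a, fq3 s a 0 0 = fq3 s r th p := fun _ => rfl
  have e4 : ∀ a, fq4 s a 0 0 = fq4 s r th p := fun _ => rfl
  have e5 : ∀ a, fq5 s a 0 0 = fq5 s r th p := fun _ => rfl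
  have e6 : ∀ a, fq6 s a 0 0 = fq6 s r th p := fun _ => rfl
  have e7 : ∀ a, fq7 s a 0 0 = fq7 s r th p := fun _ => rfl
  have e8 : ∀ a, fq8 s a 0 0 = fq8 s r th p := fun _ => rfl
  have e9 : ∀ a, fq9 s a 0 0 = fq9 s r th p := fun _ => rfl
  have e10 : ∀ a, fq10 s a 0 0 = fq10 s r th p := fun _ => rfl
  have em : ∀ a th p, fm1 s a th p = 2 * a - 1 := fun _ _ _ => rfl
  simp only [suB, fD1, fk2, fk3, fk4, fk5, fk6, fk7, fk8, fk9, fg1, fg2, fg3, fg4, fg5, fg6, fg7, fg8, fg9, fh0, fh1,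
    fh2, fh3, fh4, fh5, fh6, fh7, fh8, fh9, fm0, fmm, em]
  rw [e1 r, e2 r, e3 r, e4 r, e5 r, e6 r, e7 r, e8 r, e9 r, e10 r,
    e1 (r - fd s r th p / 2), e2 (r - fd s r th p / 2), e3 (r - fd s r th p / 2), e4 (r - fd s r th p / 2),
    e5 (r - fd s r th p / 2), e6 (r - fd s r th p / 2), e7 (r - fd s r th p / 2), e8 (r - fd s r th p / 2),
    e9 (r - fd s r th p / 2), e10 (r - fd s r th p / 2),
    e1 (r - fd s r th p), e2 (r - fd s r th p), e3 (r - fd s r th p), e4 (r - fd s r th p),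
    e5 (r - fd s r th p), e6 (r - fd s r th p), e7 (r - fd s r th p), e8 (r - fd s r th p),
    e9 (r - fd s r th p), e10 (r - fd s r th p)]
  generalize fd s r th p = d
  refine ⟨rfl, by ring, by ring⟩

open SUc in
theorem su_poly (s a : ℝ) : suB s a = (1 - (2 * a - 1) ^ 2) / 4 * (2 + (2 * a - 1) *
    ((93 / 100 + 7 / 100 * (10 * s - 7) - 48 / 1000 * (10 * s - 7) ^ 2) +
     (704 / 1000 + 61 / 1000 * (10 * s - 7) - 21 / 1000 * (10 * s - 7) ^ 2) * (2 * a - 1) +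
     (412 / 1000 + 159 / 1000 * (10 * s - 7) + 121 / 1000 * (10 * s - 7) ^ 2) * (2 * a - 1) ^ 2 +
     (341 / 1000 + 44 / 1000 * (10 * s - 7) + 149 / 1000 * (10 * s - 7) ^ 2) * (2 * a - 1) ^ 3 +
     (287 / 1000 - 236 / 1000 * (10 * s - 7) - 100 / 1000 * (10 * s - 7) ^ 2) * (2 * a - 1) ^ 4 +
     (87 / 1000 + 100 / 1000 * (10 * s - 7)) * (2 * a - 1) ^ 5 +
     (371 / 1000 + 190 / 1000 * (10 * s - 7) + 93 / 1000 * (10 * s - 7) ^ 2) * (2 * a - 1) ^ 6 +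
     (546 / 1000 - 107 / 1000 * (10 * s - 7) - 51 / 1000 * (10 * s - 7) ^ 2) * (2 * a - 1) ^ 7)) := by
  have em : fm1 s a 0 0 = 2 * a - 1 := rfl
  have es : fsg s a 0 0 = 10 * s - 7 := rfl
  simp only [suB, fh0, fh1, fh2, fh3, fh4, fh5, fh6, fh7, fh8, fh9, fq1, fq2, fq3, fq4, fq5, fq6, fq7, fq8, fq9, fq10,
    em, es]
  generalize 2 * a - 1 = z
  generalize 10 * s - 7 = g
  ring

theorem su_zero (s : ℝ) : suB s 0 = 0 := by rw [su_poly]; ring

theorem su_one (s : ℝ) : suB s 1 = 0 := by rw [su_poly]; ring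

theorem su_half (s : ℝ) : suB s (1 / 2) = 1 / 2 := by rw [su_poly]; ring

open SUc in
/-- The Bellman step in the main region. -/
theorem su_step {ρ s a0 a1 : ℝ} (hρ0 : 0 ≤ ρ) (hρ1 : ρ ≤ 1) (hs : s ^ 2 = 1 - ρ ^ 2) (s0 : 3 / 5 ≤ s)
    (s1 : s ≤ 1503 / 2000) (h0 : 0 ≤ a0) (h01 : a0 ≤ a1) (h1 : a1 ≤ 1) (d1 : a1 - a0 ≤ 1 / 2)
    (d2 : 3 * (a1 - a0) ^ 2 ≤ a0 + a1) (d3 : 3 * (a1 - a0) ^ 2 ≤ 2 - (a0 + a1)) :
    ∃ K0 K1 l m : ℝ, UStepC ρ Uex K0 K1 l m ∧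
      2 * (s * suB s ((a0 + a1) / 2)) ≤ K0 * (s * suB s a0) + K1 * (s * suB s a1) + l * (a1 - a0) - m * (1 - a1) := by
  obtain ⟨th, t0, t1, eth⟩ : ∃ th : ℝ, 0 ≤ th ∧ th ≤ 1 ∧ a1 * th = a1 - a0 := by
    rcases eq_or_lt_of_le (h0.trans h01) with e | e
    · exact ⟨0, le_rfl, zero_le_one, by linarith⟩
    · exact ⟨(a1 - a0) / a1, div_nonneg (by linarith) e.le, (div_le_one e).2 (by linarith), by field_simp⟩
  obtain ⟨p, p0, p1, hQ⟩ := SUc.main s a1 th s0 s1 (h0.trans h01) h1 t0 t1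
  have ed : fd s a1 th p = a1 - a0 := eth
  obtain ⟨b1, bm, b0⟩ := su_div s a1 th p
  rw [ed, show a1 - (a1 - a0) / 2 = (a0 + a1) / 2 by ring] at bm
  rw [ed, sub_sub_cancel] at b0
  have key : ∀ t : ℝ, 0 ≤ t → t ≤ 1 / 2 →
      0 ≤ 2 * s * (a1 - a0) ^ 2 * fk2 s a1 th p * (1 + t ^ 2) - 2 * t ^ 2 * fL s a1 th p +
        2 * t * s * (a1 - a0) * fZ s a1 th p →
      ∃ K0 K1 l m : ℝ, UStepC ρ Uex K0 K1 l m ∧
      2 * (s * suB s ((a0 + a1) / 2)) ≤ K0 * (s * suB s a0) + K1 * (s * suB s a1) + l * (a1 - a0) - m * (1 - a1) := by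
    intro t t0 t1 hG
    have q : 0 < 1 + t ^ 2 := by positivity
    have hsn : (1 + t ^ 2) * (2 * t / (1 + t ^ 2)) = 2 * t := by field_simp
    have hcm : (1 + t ^ 2) * (2 * t ^ 2 / (1 + t ^ 2)) = 2 * t ^ 2 := by field_simp
    refine ⟨_, _, _, _, ustepE_C hρ0 hρ1 hs (by linarith) (by linarith) t0 t1 hsn hcm, ?_⟩
    generalize 2 * t / (1 + t ^ 2) = sn at *
    generalize 2 * t ^ 2 / (1 + t ^ 2) = cm at *
    have eD : fD1 s a1 th p = 2 * (fg1 s a1 th p - (a1 - a0) * fk2 s a1 th p) := by rw [fD1, ed]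
    rw [fL, fZ, ed] at hG
    rw [b0, bm, b1]
    rw [eD] at hG ⊢
    generalize fh0 s a1 th p = h at *
    generalize fg1 s a1 th p = g at *
    generalize fk2 s a1 th p = k at *
    rw [← sub_nonneg]
    refine nonneg_of_mul_nonneg_right (a := 1 + t ^ 2) ?_ q |> fun h => h
    refine hG.trans (le_of_eq ?_)
    linear_combination
      (s * (91 / 100 * h - (3 / 5 * s - 1 / 10) * ((a1 - a0) * (2 * (g - (a1 - a0) * k)))) + 9 / 1000 * (1 - a1)) * hcm -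
        s * (a1 - a0) * (1 - 14 / 25 * (s * (2 * (g - (a1 - a0) * k)))) * hsn
  rcases hQ with h | h | h | ⟨h, hG⟩ | h
  · rw [ed] at h; linarith
  · rw [ed] at h; linarith
  · rw [ed] at h; linarith
  · rw [ed] at h
    have a0' : 0 ≤ fta s a1 th p := mul_nonneg (by norm_num) p0
    refine key ((a1 - a0) * fta s a1 th p) (mul_nonneg (by linarith) a0') (by linarith) ?_
    rw [fG, ed] at hG
    have := mul_nonneg (sq_nonneg (a1 - a0)) hG.le
    linarith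
  · refine key (1 / 2) (by norm_num) le_rfl ?_
    rw [fH, ed] at h
    linarith

theorem su_up {x r : ℝ} (x0 : 0 ≤ x) (r0 : 0 ≤ r) (e : x ^ 2 + r ^ 2 = 1) :
    Uex (x ^ 2) = x ^ 2 * (2 - (1 + x) / (1 + r)) := by
  rw [Uex, Real.sqrt_sq x0, show 1 - x ^ 2 = r ^ 2 by linarith, Real.sqrt_sq r0]
  field_simp
  linear_combination (1 + x) * e

theorem su_uq {x r : ℝ} (x0 : 0 ≤ x) (r0 : 0 ≤ r) (e : x ^ 2 + r ^ 2 = 1) :
    Uex (1 - x ^ 2) = x * (r + 1 + x / (1 + r) - 2 * x) := by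
  rw [Uex, sub_sub_cancel, Real.sqrt_sq x0, show 1 - x ^ 2 = r ^ 2 by linarith, Real.sqrt_sq r0]
  field_simp
  linear_combination (2 * r + 1) * e

open SUe in
theorem su_cert {ρ s y r : ℝ} (h0 : 66 / 100 ≤ ρ) (h1 : ρ ≤ 4 / 5) (hs : √(1 - ρ ^ 2) = s) (y0 : 0 ≤ y) (r0 : 0 ≤ r)
    (e : r ^ 2 + y ^ 2 = 1) :
    (1 / 2 * Uex (y ^ 2) + s * (4 * suB s (1 / 4) - 1 / 2) * y ^ 2 ≤
      Uex ((1 + ρ) / 2 * y ^ 2) + Uex ((1 - ρ) / 2 * y ^ 2)) ∧
    (6 / 5 * Uex (1 - y ^ 2) + s * (4 * suB s (3 / 4) - 6 / 5) * y ^ 2 ≤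
      Uex (1 - (1 - ρ) / 2 * y ^ 2) + Uex (1 - (1 + ρ) / 2 * y ^ 2)) ∧
    s - 1 + r ≤ s * suB s ((1 + y) / 2) + s * suB s ((1 - y) / 2) := by
  obtain ⟨u, u0, u1, er, ey⟩ := circ_par r0 y0 e
  obtain ⟨F1, F2, F3⟩ := SUe.main ρ u (by linarith) h1 u0 u1
  have hy : fy ρ u = y := by rw [← ey, fy]; field_simp
  have hr : fr ρ u = r := by rw [← er, fr]; field_simp; ring
  have hs' : fs ρ u = s := hs
  have y1 : y ^ 2 ≤ 1 := by nlinarith
  have ea : fsa ρ u ^ 2 = (1 + ρ) / 2 := by rw [fsa, Real.sq_sqrt (by rw [fal]; linarith), fal]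
  have eb : fsb ρ u ^ 2 = (1 - ρ) / 2 := by rw [fsb, Real.sq_sqrt (by rw [fbe]; linarith), fbe]
  have xa : fxa ρ u ^ 2 = (1 + ρ) / 2 * y ^ 2 := by rw [fxa, hy, mul_pow, ea]
  have xb : fxb ρ u ^ 2 = (1 - ρ) / 2 * y ^ 2 := by rw [fxb, hy, mul_pow, eb]
  have xa0 : 0 ≤ fxa ρ u := by rw [fxa, hy]; exact mul_nonneg (Real.sqrt_nonneg _) y0
  have xb0 : 0 ≤ fxb ρ u := by rw [fxb, hy]; exact mul_nonneg (Real.sqrt_nonneg _) y0
  have ra : fxa ρ u ^ 2 + fra ρ u ^ 2 = 1 := by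
    rw [fra, Real.sq_sqrt (by rw [xa]; nlinarith [sq_nonneg y])]; ring
  have rb : fxb ρ u ^ 2 + frb ρ u ^ 2 = 1 := by
    rw [frb, Real.sq_sqrt (by rw [xb]; nlinarith [sq_nonneg y])]; ring
  have ra0 : 0 ≤ fra ρ u := Real.sqrt_nonneg _
  have rb0 : 0 ≤ frb ρ u := Real.sqrt_nonneg _
  have e' : y ^ 2 + r ^ 2 = 1 := by linarith
  refine ⟨?_, ?_, ?_⟩
  · have b1 : 4 * suB s (1 / 4) = fb1 ρ u := by rw [su_poly, fb1, fsg, hs']; ring
    rw [← xa, ← xb, su_up xa0 ra0 ra, su_up xb0 rb0 rb, su_up y0 r0 e', xa, xb, b1]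
    rw [fF1, hy, hr, hs', fal, fbe] at F1
    have := mul_nonneg (sq_nonneg y) F1.le
    linarith
  · have b3 : 4 * suB s (3 / 4) = fb3 ρ u := by rw [su_poly, fb3, fsg, hs']; ring
    rw [← xa, ← xb, su_uq xa0 ra0 ra, su_uq xb0 rb0 rb, su_uq y0 r0 e', b3]
    rw [fF2, hy, hr, hs'] at F2
    have := mul_nonneg y0 F2.le
    have g1 : fxa ρ u = fsa ρ u * y := by rw [fxa, hy]
    have g2 : fxb ρ u = fsb ρ u * y := by rw [fxb, hy]
    generalize fra ρ u + 1 + fxa ρ u / (1 + fra ρ u) - 2 * fxa ρ u = A at *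
    generalize frb ρ u + 1 + fxb ρ u / (1 + frb ρ u) - 2 * fxb ρ u = B at *
    rw [g1, g2]
    linarith
  · have b : suB s ((1 + y) / 2) + suB s ((1 - y) / 2) = (1 - y ^ 2) * (1 + y ^ 2 * fO ρ u / 2) := by
      rw [su_poly, su_poly, fO, fc1, fc3, fc5, fc7, fyy, fsg, hs', hy, show 2 * ((1 + y) / 2) - 1 = y by ring,
        show 2 * ((1 - y) / 2) - 1 = -y by ring]
      generalize 10 * s - 7 = g
      ring
    rw [fF3, hr, hs'] at F3
    have := mul_nonneg (sq_nonneg y) F3.le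
    have k : y ^ 2 * (1 / (1 + r)) = 1 - r := by field_simp; linarith
    rw [← mul_add, b, show 1 - y ^ 2 = r ^ 2 by linarith]
    have k2 : s * r ^ 2 = s - s * y ^ 2 := by linear_combination s * e
    linarith

theorem su_avg0 {n : ℕ} {f : (Fin n → Bool) → ℝ} (h : ∀ x, 0 ≤ f x) (e : cubeAverage f = 0) (x : Fin n → Bool) :
    f x = 0 := by
  unfold cubeAverage at e
  rw [div_eq_zero_iff] at e
  rcases e with e | e
  · exact (Finset.sum_eq_zero_iff_of_nonneg fun y _ => h y).1 e x (Finset.mem_univ _)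
  · exact absurd e (by positivity)

theorem su_core {ρ : ℝ} (h0 : 66 / 100 ≤ ρ) (h1 : ρ ≤ 4 / 5) : XCore ρ := by
  have hρ0 : 0 ≤ ρ := by linarith
  have hρ1 : ρ ≤ 1 := by linarith
  have hρ : |ρ| ≤ 1 := abs_le.2 ⟨by linarith, hρ1⟩
  obtain ⟨s, hs'⟩ : ∃ s, √(1 - ρ ^ 2) = s := ⟨_, rfl⟩
  have hs : s ^ 2 = 1 - ρ ^ 2 := by rw [← hs', Real.sq_sqrt (by nlinarith)]
  have s0 : 3 / 5 ≤ s := by rw [← hs']; exact Real.le_sqrt_of_sq_le (by nlinarith)
  have s1 : s ≤ 1503 / 2000 := by rw [← hs']; exact Real.sqrt_le_iff.2 ⟨by norm_num, by nlinarith⟩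
  have cert : ∀ p : ℝ, 0 ≤ p → p ≤ 1 → _ := fun p p0 p1 =>
    su_cert h0 h1 hs' (Real.sqrt_nonneg p) (Real.sqrt_nonneg (1 - p))
      (by rw [Real.sq_sqrt p0, Real.sq_sqrt (by linarith)]; ring)
  have key := xind_set3 (ι := Unit) hρ0 hρ1 (fun _ => Uex) (fun _ a => s * suB s a) (fun _ => Uex_conc)
    (fun _ => by simp only [su_zero, Uex_zero, mul_zero, le_refl])
    (fun _ => by simp only [su_one, Uex_one, mul_zero, le_refl]) (fun n v w bv bw hvw hS iv iw _ => ?_)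
  · intro n u hu
    have u0 : ∀ y, 0 ≤ u y := fun y => by rcases hu y with a | a <;> simp [a]
    have u1 : ∀ y, u y ≤ 1 := fun y => by rcases hu y with a | a <;> simp [a]
    have k1 := key n u hu ()
    have k2 := key n (fun y => -1 * u y + 1) (fun y => by rcases hu y with a | a <;> simp [a]) ()
    simp only [noise_affine] at k2
    rw [avg_add, avg_mul, avg_const] at k2
    have e : (cubeAverage fun x => Uex (noise ρ u x)) + (cubeAverage fun x => Uex (-1 * noise ρ u x + 1)) ≤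
        cubeAverage fun x => 2 * √(noise ρ u x * (1 - noise ρ u x)) := by
      rw [← avg_add]
      refine avg_mono fun x => ?_
      rw [show -1 * noise ρ u x + 1 = 1 - noise ρ u x by ring]
      exact (Uex_split (xv_noise_nonneg hρ hu x)).le
    have a0 := le_avg u0
    have a1 := avg_le u1
    generalize cubeAverage u = a at *
    have c0 : 0 ≤ a * (1 - a) := mul_nonneg a0 (by linarith)
    have c := (su_cert h0 h1 hs' (abs_nonneg (2 * a - 1)) (r := 2 * √(a * (1 - a))) (by positivity)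
      (by rw [mul_pow, Real.sq_sqrt c0, sq_abs]; ring)).2.2
    rw [hs']
    rcases abs_cases (2 * a - 1) with ⟨f, -⟩ | ⟨f, -⟩ <;> rw [f] at c
    · rw [show (1 + (2 * a - 1)) / 2 = a by ring, show (1 - (2 * a - 1)) / 2 = -1 * a + 1 by ring] at c
      linarith
    · rw [show (1 + -(2 * a - 1)) / 2 = -1 * a + 1 by ring, show (1 - -(2 * a - 1)) / 2 = a by ring] at c
      linarith
  have hP := xv_noise_nonneg hρ bv
  have hPQ := noise_mono hρ hvw
  have hQ := xv_noise_le hρ bw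
  have jv := iv ()
  have jw := iw ()
  have z0 : cubeAverage v = 0 → ∀ x, noise ρ v x = 0 := fun e => su_avg0 hP (by rw [← e]; exact avg_noise ρ v)
  have z1 : cubeAverage w = 1 → ∀ x, noise ρ w x = 1 := fun e x => by
    have := su_avg0 (f := fun x => 1 - noise ρ w x) (fun x => sub_nonneg.2 (hQ x))
      (by rw [avg_sub, avg_const, avg_noise, e, sub_self]) x
    linarith
  have c01 : cubeAverage v = 0 → cubeAverage w = 1 → 2 * (s * suB s ((cubeAverage v + cubeAverage w) / 2)) ≤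
      cubeAverage fun x => Uex ((1 + ρ) / 2 * noise ρ w x + (1 - ρ) / 2 * noise ρ v x) +
          Uex ((1 + ρ) / 2 * noise ρ v x + (1 - ρ) / 2 * noise ρ w x) := fun e0 e1 => by
    refine le_avg fun x => ?_
    rw [z0 e0 x, z1 e1 x, e0, e1, zero_add, su_half, show (1 + ρ) / 2 * 1 + (1 - ρ) / 2 * 0 = (1 + ρ) / 2 by ring,
      show (1 + ρ) / 2 * 0 + (1 - ρ) / 2 * 1 = 1 - (1 + ρ) / 2 by ring, Uex_split (by linarith),
      show (1 + ρ) / 2 * (1 - (1 + ρ) / 2) = (s / 2) ^ 2 by linarith, Real.sqrt_sq (by linarith)]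
    linarith
  rcases hS with ⟨⟨d2, d3, -, -⟩ | ⟨e0, e1⟩ | ⟨e0, e1⟩ | ⟨e0, e1⟩, hd⟩
  · rcases hd with d1 | ⟨e0, e1⟩
    swap
    · exact c01 e0 e1
    have a0 : 0 ≤ cubeAverage v := by rw [← avg_noise ρ]; exact le_avg hP
    have a1 : cubeAverage w ≤ 1 := by rw [← avg_noise ρ]; exact avg_le hQ
    obtain ⟨K0, K1, l, m, hK, hb⟩ := su_step hρ0 hρ1 hs s0 s1 a0 (avg_mono hvw) a1 d1 d2 d3
    refine le_trans ?_ (avg_mono fun x => hK.2.2 _ _ (hP x) (hPQ x) (hQ x))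
    rw [avg_sub, avg_add, avg_add, avg_mul, avg_mul, avg_mul, avg_mul, avg_sub, avg_sub, avg_const, avg_noise, avg_noise]
    have := mul_le_mul_of_nonneg_left jv hK.1
    have := mul_le_mul_of_nonneg_left jw hK.2.1
    linarith
  · exact c01 e0 e1
  · refine le_trans ?_ (avg_mono (f := fun x => 1 / 2 * Uex (noise ρ w x) + s * (4 * suB s (1 / 4) - 1 / 2) * noise ρ w x)
      fun x => ?_)
    · rw [avg_add, avg_mul, avg_mul, avg_noise, e0, e1, show (0 + 1 / 2 : ℝ) / 2 = 1 / 4 by norm_num]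
      rw [e1, su_half] at jw
      linarith
    · have q0 : 0 ≤ noise ρ w x := (hP x).trans (hPQ x)
      have c := (cert _ q0 (hQ x)).1
      rw [Real.sq_sqrt q0] at c
      rw [z0 e0 x, mul_zero, mul_zero, add_zero, zero_add]
      exact c
  · refine le_trans ?_ (avg_mono (f := fun x => 6 / 5 * Uex (noise ρ v x) +
      s * (4 * suB s (3 / 4) - 6 / 5) * (1 - noise ρ v x)) fun x => ?_)
    · rw [avg_add, avg_mul, avg_mul, avg_sub, avg_const, avg_noise, e0, e1, show (1 / 2 + 1 : ℝ) / 2 = 3 / 4 by norm_num]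
      rw [e0, su_half] at jv
      linarith
    · have q0 : 0 ≤ 1 - noise ρ v x := sub_nonneg.2 ((hPQ x).trans (hQ x))
      have c := (cert _ q0 (by linarith [hP x])).2.1
      rw [Real.sq_sqrt q0, sub_sub_cancel] at c
      rw [z1 e1 x, show (1 + ρ) / 2 * 1 + (1 - ρ) / 2 * noise ρ v x = 1 - (1 - ρ) / 2 * (1 - noise ρ v x) by ring,
        show (1 + ρ) / 2 * noise ρ v x + (1 - ρ) / 2 * 1 = 1 - (1 + ρ) / 2 * (1 - noise ρ v x) by ring]
      exact c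

end Crest.Agent.R307
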