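import Crest.Agent.R307.IA3
import Crest.Agent.R307.IAx
set_option autoImplicit false
set_option linter.unusedVariables false
set_option maxRecDepth 20000
namespace Crest.Agent.R307.SUc
open Crest.Agent.R307.IA Crest.Agent.R307.IA3

theorem In_cast {e1 e2 e3 : ℝ} {x y1 y2 y3 r : ℕ} {v w : ℝ}
    (h : In e1 e2 e3 x y1 y2 y3 r v) (e : v = w) : In e1 e2 e3 x y1 y2 y3 r w := e ▸ h

noncomputable def fd (s r th p : ℝ) : ℝ := (r * th)
noncomputable def fta (s r th p : ℝ) : ℝ := ((16:ℝ) * p)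
noncomputable def fm1 (s r th p : ℝ) : ℝ := (((2:ℝ) * r) - (1:ℝ))
noncomputable def fsg (s r th p : ℝ) : ℝ := (((10:ℝ) * s) - (7:ℝ))
noncomputable def fq10 (s r th p : ℝ) : ℝ := (((((51/4000:ℝ) * (fsg s r th p)) + (107/4000:ℝ)) * (fsg s r th p)) + (-273/2000:ℝ))
noncomputable def fq9 (s r th p : ℝ) : ℝ := (((((-93/4000:ℝ) * (fsg s r th p)) + (-19/400:ℝ)) * (fsg s r th p)) + (-371/4000:ℝ))
noncomputable def fh9 (s r th p : ℝ) : ℝ := (((fm1 s r th p) * (fq10 s r th p)) + (fq9 s r th p))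
noncomputable def fq8 (s r th p : ℝ) : ℝ := (((((-51/4000:ℝ) * (fsg s r th p)) + (-207/4000:ℝ)) * (fsg s r th p)) + (459/4000:ℝ))
noncomputable def fh8 (s r th p : ℝ) : ℝ := (((fm1 s r th p) * (fh9 s r th p)) + (fq8 s r th p))
noncomputable def fq7 (s r th p : ℝ) : ℝ := (((((193/4000:ℝ) * (fsg s r th p)) + (213/2000:ℝ)) * (fsg s r th p)) + (21/1000:ℝ))
noncomputable def fh7 (s r th p : ℝ) : ℝ := (((fm1 s r th p) * (fh8 s r th p)) + (fq7 s r th p))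
noncomputable def fq6 (s r th p : ℝ) : ℝ := (((((-149/4000:ℝ) * (fsg s r th p)) + (7/500:ℝ)) * (fsg s r th p)) + (-127/2000:ℝ))
noncomputable def fh6 (s r th p : ℝ) : ℝ := (((fm1 s r th p) * (fh7 s r th p)) + (fq6 s r th p))
noncomputable def fq5 (s r th p : ℝ) : ℝ := (((((-221/4000:ℝ) * (fsg s r th p)) + (-79/800:ℝ)) * (fsg s r th p)) + (-1/32:ℝ))
noncomputable def fh5 (s r th p : ℝ) : ℝ := (((fm1 s r th p) * (fh6 s r th p)) + (fq5 s r th p))
noncomputable def fq4 (s r th p : ℝ) : ℝ := (((((17/400:ℝ) * (fsg s r th p)) + (-17/4000:ℝ)) * (fsg s r th p)) + (-363/4000:ℝ))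
noncomputable def fh4 (s r th p : ℝ) : ℝ := (((fm1 s r th p) * (fh5 s r th p)) + (fq4 s r th p))
noncomputable def fq3 (s r th p : ℝ) : ℝ := (((((169/4000:ℝ) * (fsg s r th p)) + (89/4000:ℝ)) * (fsg s r th p)) + (-259/2000:ℝ))
noncomputable def fh3 (s r th p : ℝ) : ℝ := (((fm1 s r th p) * (fh4 s r th p)) + (fq3 s r th p))
noncomputable def fq2 (s r th p : ℝ) : ℝ := (((((-21/4000:ℝ) * (fsg s r th p)) + (61/4000:ℝ)) * (fsg s r th p)) + (-81/250:ℝ))
noncomputable def fh2 (s r th p : ℝ) : ℝ := (((fm1 s r th p) * (fh3 s r th p)) + (fq2 s r th p))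
noncomputable def fq1 (s r th p : ℝ) : ℝ := (((((-3/250:ℝ) * (fsg s r th p)) + (7/400:ℝ)) * (fsg s r th p)) + (93/400:ℝ))
noncomputable def fh1 (s r th p : ℝ) : ℝ := (((fm1 s r th p) * (fh2 s r th p)) + (fq1 s r th p))
noncomputable def fmm (s r th p : ℝ) : ℝ := ((fm1 s r th p) - (fd s r th p))
noncomputable def fg9 (s r th p : ℝ) : ℝ := ((fh9 s r th p) + ((fmm s r th p) * (fq10 s r th p)))
noncomputable def fg8 (s r th p : ℝ) : ℝ := ((fh8 s r th p) + ((fmm s r th p) * (fg9 s r th p)))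
noncomputable def fg7 (s r th p : ℝ) : ℝ := ((fh7 s r th p) + ((fmm s r th p) * (fg8 s r th p)))
noncomputable def fg6 (s r th p : ℝ) : ℝ := ((fh6 s r th p) + ((fmm s r th p) * (fg7 s r th p)))
noncomputable def fg5 (s r th p : ℝ) : ℝ := ((fh5 s r th p) + ((fmm s r th p) * (fg6 s r th p)))
noncomputable def fg4 (s r th p : ℝ) : ℝ := ((fh4 s r th p) + ((fmm s r th p) * (fg5 s r th p)))
noncomputable def fg3 (s r th p : ℝ) : ℝ := ((fh3 s r th p) + ((fmm s r th p) * (fg4 s r th p)))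
noncomputable def fg2 (s r th p : ℝ) : ℝ := ((fh2 s r th p) + ((fmm s r th p) * (fg3 s r th p)))
noncomputable def fg1 (s r th p : ℝ) : ℝ := ((fh1 s r th p) + ((fmm s r th p) * (fg2 s r th p)))
noncomputable def fm0 (s r th p : ℝ) : ℝ := ((fmm s r th p) - (fd s r th p))
noncomputable def fk9 (s r th p : ℝ) : ℝ := ((fg9 s r th p) + ((fm0 s r th p) * (fq10 s r th p)))
noncomputable def fk8 (s r th p : ℝ) : ℝ := ((fg8 s r th p) + ((fm0 s r th p) * (fk9 s r th p)))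
noncomputable def fk7 (s r th p : ℝ) : ℝ := ((fg7 s r th p) + ((fm0 s r th p) * (fk8 s r th p)))
noncomputable def fk6 (s r th p : ℝ) : ℝ := ((fg6 s r th p) + ((fm0 s r th p) * (fk7 s r th p)))
noncomputable def fk5 (s r th p : ℝ) : ℝ := ((fg5 s r th p) + ((fm0 s r th p) * (fk6 s r th p)))
noncomputable def fk4 (s r th p : ℝ) : ℝ := ((fg4 s r th p) + ((fm0 s r th p) * (fk5 s r th p)))
noncomputable def fk3 (s r th p : ℝ) : ℝ := ((fg3 s r th p) + ((fm0 s r th p) * (fk4 s r th p)))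
noncomputable def fk2 (s r th p : ℝ) : ℝ := ((fg2 s r th p) + ((fm0 s r th p) * (fk3 s r th p)))
noncomputable def fD1 (s r th p : ℝ) : ℝ := ((2:ℝ) * ((fg1 s r th p) - ((fd s r th p) * (fk2 s r th p))))
noncomputable def fZ (s r th p : ℝ) : ℝ := ((1:ℝ) - ((14/25:ℝ) * (s * (fD1 s r th p))))
noncomputable def fh0 (s r th p : ℝ) : ℝ := (((fm1 s r th p) * (fh1 s r th p)) + (1/2:ℝ))
noncomputable def fL (s r th p : ℝ) : ℝ := ((s * (((91/100:ℝ) * (fh0 s r th p)) - ((((3/5:ℝ) * s) - (1/10:ℝ)) * ((fd s r th p) * (fD1 s r th p))))) + ((9/1000:ℝ) * ((1:ℝ) - r)))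
noncomputable def fG (s r th p : ℝ) : ℝ := (((fta s r th p) * ((s * (fZ s r th p)) - ((fta s r th p) * (fL s r th p)))) + (s * (((1:ℝ) + (((fd s r th p) * (fta s r th p)) ^ 2)) * (fk2 s r th p))))
noncomputable def fH (s r th p : ℝ) : ℝ := ((((fd s r th p) * (s * (fZ s r th p))) - ((fL s r th p) / (2:ℝ))) + ((5/2:ℝ) * (s * (((fd s r th p) ^ 2) * (fk2 s r th p)))))

def Q (s r th : ℝ) : Prop :=
  ∃ p : ℝ, 0 ≤ p ∧ p ≤ 1 ∧ (
  (0 < ((1000:ℝ) * ((fd s r th p) - (1/2:ℝ)))) ∨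
  (0 < ((1000:ℝ) * (((3:ℝ) * ((fd s r th p) ^ 2)) - (((2:ℝ) * r) - (fd s r th p))))) ∨
  (0 < ((1000:ℝ) * (((3:ℝ) * ((fd s r th p) ^ 2)) - ((2:ℝ) - (((2:ℝ) * r) - (fd s r th p)))))) ∨
  (0 < ((1000:ℝ) * ((1/2:ℝ) - ((fd s r th p) * (fta s r th p)))) ∧ 0 < (fG s r th p)) ∨
  (0 < ((10:ℝ) * (fH s r th p))))

noncomputable def alt0 (p1 z1 w1 z2 w2 z3 w3 : ℕ) : Bool :=
  mulK z2 1152921504606846976 (Nat.add w2 1152921504606846976) 1152921504606846976 0 z3 1152921504606846976 1152921504606846976 (Nat.add w3 1152921504606846976) 0 fun c1 a1_1 a1_2 a1_3 q1 =>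
  addcK c1 a1_1 a1_2 a1_3 q1 1152920954851033088 0 fun c3 a3_1 a3_2 a3_3 q3 =>
  smulK 1000 1 1152921504606846977 1152921504606846976000 c3 a3_1 a3_2 a3_3 q3 fun c5 a5_1 a5_2 a5_3 q5 =>
  pos c5 a5_1 a5_2 a5_3 q5

theorem alt0_s {p1 z1 w1 z2 w2 z3 w3 : ℕ} {e1 e2 e3 s r th p : ℝ} (he : Ev e1 e2 e3)
    (hp1 : In e1 e2 e3 p1 1152921504606846976 1152921504606846976 1152921504606846976 0 p)
    (hx1 : In e1 e2 e3 z1 (Nat.add w1 1152921504606846976) 1152921504606846976 1152921504606846976 0 s)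
    (hx2 : In e1 e2 e3 z2 1152921504606846976 (Nat.add w2 1152921504606846976) 1152921504606846976 0 r)
    (hx3 : In e1 e2 e3 z3 1152921504606846976 1152921504606846976 (Nat.add w3 1152921504606846976) 0 th)
    (H0 : alt0 p1 z1 w1 z2 w2 z3 w3 = true) : 0 < ((1000:ℝ) * ((fd s r th p) - (1/2:ℝ))) := by
  unfold alt0 at H0
  refine mulK_s he hx2 hx3 (fun _ _ _ _ _ h1 H1 => ?_) H0
  have h2 := In_cast (w := (fd s r th p)) h1 rfl
  refine addcK_s he h2 (v' := (-1/2:ℝ)) (by norm_num [SS, BB, abs_le]) (fun _ _ _ _ _ h3 H2 => ?_) H1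
  have h4 := In_cast h3 (sub_c (c := (1/2:ℝ)) (by norm_num))
  refine smulK_s he (w := (1000:ℝ)) (by norm_num) (by norm_num) (by norm_num) (by norm_num) h4 (fun _ _ _ _ _ h5 H3 => ?_) H2
  exact pos_s he h5 H3

noncomputable def alt1 (p1 z1 w1 z2 w2 z3 w3 : ℕ) : Bool :=
  mulK z2 1152921504606846976 (Nat.add w2 1152921504606846976) 1152921504606846976 0 z3 1152921504606846976 1152921504606846976 (Nat.add w3 1152921504606846976) 0 fun c1 a1_1 a1_2 a1_3 q1 =>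
  sqK c1 a1_1 a1_2 a1_3 q1 fun c3 a3_1 a3_2 a3_3 q3 =>
  smulK 3 1 1152921504606846977 3458764513820540928 c3 a3_1 a3_2 a3_3 q3 fun c4 a4_1 a4_2 a4_3 q4 =>
  smulK 2 1 1152921504606846977 2305843009213693952 z2 1152921504606846976 (Nat.add w2 1152921504606846976) 1152921504606846976 0 fun c5 a5_1 a5_2 a5_3 q5 =>
  subK c5 a5_1 a5_2 a5_3 q5 c1 a1_1 a1_2 a1_3 q1 fun c6 a6_1 a6_2 a6_3 q6 =>
  subK c4 a4_1 a4_2 a4_3 q4 c6 a6_1 a6_2 a6_3 q6 fun c7 a7_1 a7_2 a7_3 q7 =>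
  smulK 1000 1 1152921504606846977 1152921504606846976000 c7 a7_1 a7_2 a7_3 q7 fun c8 a8_1 a8_2 a8_3 q8 =>
  pos c8 a8_1 a8_2 a8_3 q8

theorem alt1_s {p1 z1 w1 z2 w2 z3 w3 : ℕ} {e1 e2 e3 s r th p : ℝ} (he : Ev e1 e2 e3)
    (hp1 : In e1 e2 e3 p1 1152921504606846976 1152921504606846976 1152921504606846976 0 p)
    (hx1 : In e1 e2 e3 z1 (Nat.add w1 1152921504606846976) 1152921504606846976 1152921504606846976 0 s)
    (hx2 : In e1 e2 e3 z2 1152921504606846976 (Nat.add w2 1152921504606846976) 1152921504606846976 0 r)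
    (hx3 : In e1 e2 e3 z3 1152921504606846976 1152921504606846976 (Nat.add w3 1152921504606846976) 0 th)
    (H0 : alt1 p1 z1 w1 z2 w2 z3 w3 = true) : 0 < ((1000:ℝ) * (((3:ℝ) * ((fd s r th p) ^ 2)) - (((2:ℝ) * r) - (fd s r th p)))) := by
  unfold alt1 at H0
  refine mulK_s he hx2 hx3 (fun _ _ _ _ _ h1 H1 => ?_) H0
  have h2 := In_cast (w := (fd s r th p)) h1 rfl
  refine sqK_s he h2 (fun _ _ _ _ _ h3 H2 => ?_) H1
  refine smulK_s he (w := (3:ℝ)) (by norm_num) (by norm_num) (by norm_num) (by norm_num) h3 (fun _ _ _ _ _ h4 H3 => ?_) H2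
  refine smulK_s he (w := (2:ℝ)) (by norm_num) (by norm_num) (by norm_num) (by norm_num) hx2 (fun _ _ _ _ _ h5 H4 => ?_) H3
  refine subK_s he h5 h2 (fun _ _ _ _ _ h6 H5 => ?_) H4
  refine subK_s he h4 h6 (fun _ _ _ _ _ h7 H6 => ?_) H5
  refine smulK_s he (w := (1000:ℝ)) (by norm_num) (by norm_num) (by norm_num) (by norm_num) h7 (fun _ _ _ _ _ h8 H7 => ?_) H6
  exact pos_s he h8 H7

noncomputable def alt2 (p1 z1 w1 z2 w2 z3 w3 : ℕ) : Bool :=
  mulK z2 1152921504606846976 (Nat.add w2 1152921504606846976) 1152921504606846976 0 z3 1152921504606846976 1152921504606846976 (Nat.add w3 1152921504606846976) 0 fun c1 a1_1 a1_2 a1_3 q1 =>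
  sqK c1 a1_1 a1_2 a1_3 q1 fun c3 a3_1 a3_2 a3_3 q3 =>
  smulK 3 1 1152921504606846977 3458764513820540928 c3 a3_1 a3_2 a3_3 q3 fun c4 a4_1 a4_2 a4_3 q4 =>
  smulK 2 1 1152921504606846977 2305843009213693952 z2 1152921504606846976 (Nat.add w2 1152921504606846976) 1152921504606846976 0 fun c5 a5_1 a5_2 a5_3 q5 =>
  subK c5 a5_1 a5_2 a5_3 q5 c1 a1_1 a1_2 a1_3 q1 fun c6 a6_1 a6_2 a6_3 q6 =>
  negK c6 a6_1 a6_2 a6_3 q6 fun c7 a7_1 a7_2 a7_3 q7 =>
  addcK c7 a7_1 a7_2 a7_3 q7 1152923703630102528 0 fun c8 a8_1 a8_2 a8_3 q8 =>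
  subK c4 a4_1 a4_2 a4_3 q4 c8 a8_1 a8_2 a8_3 q8 fun c10 a10_1 a10_2 a10_3 q10 =>
  smulK 1000 1 1152921504606846977 1152921504606846976000 c10 a10_1 a10_2 a10_3 q10 fun c11 a11_1 a11_2 a11_3 q11 =>
  pos c11 a11_1 a11_2 a11_3 q11

theorem alt2_s {p1 z1 w1 z2 w2 z3 w3 : ℕ} {e1 e2 e3 s r th p : ℝ} (he : Ev e1 e2 e3)
    (hp1 : In e1 e2 e3 p1 1152921504606846976 1152921504606846976 1152921504606846976 0 p)
    (hx1 : In e1 e2 e3 z1 (Nat.add w1 1152921504606846976) 1152921504606846976 1152921504606846976 0 s)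
    (hx2 : In e1 e2 e3 z2 1152921504606846976 (Nat.add w2 1152921504606846976) 1152921504606846976 0 r)
    (hx3 : In e1 e2 e3 z3 1152921504606846976 1152921504606846976 (Nat.add w3 1152921504606846976) 0 th)
    (H0 : alt2 p1 z1 w1 z2 w2 z3 w3 = true) : 0 < ((1000:ℝ) * (((3:ℝ) * ((fd s r th p) ^ 2)) - ((2:ℝ) - (((2:ℝ) * r) - (fd s r th p))))) := by
  unfold alt2 at H0
  refine mulK_s he hx2 hx3 (fun _ _ _ _ _ h1 H1 => ?_) H0
  have h2 := In_cast (w := (fd s r th p)) h1 rfl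
  refine sqK_s he h2 (fun _ _ _ _ _ h3 H2 => ?_) H1
  refine smulK_s he (w := (3:ℝ)) (by norm_num) (by norm_num) (by norm_num) (by norm_num) h3 (fun _ _ _ _ _ h4 H3 => ?_) H2
  refine smulK_s he (w := (2:ℝ)) (by norm_num) (by norm_num) (by norm_num) (by norm_num) hx2 (fun _ _ _ _ _ h5 H4 => ?_) H3
  refine subK_s he h5 h2 (fun _ _ _ _ _ h6 H5 => ?_) H4
  refine negK_s he h6 (fun _ _ _ _ _ h7 H6 => ?_) H5
  refine addcK_s he h7 (v' := (2:ℝ)) (by norm_num [SS, BB, abs_le]) (fun _ _ _ _ _ h8 H7 => ?_) H6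
  have h9 := In_cast h8 (neg_add_eq_sub _ _)
  refine subK_s he h4 h9 (fun _ _ _ _ _ h10 H8 => ?_) H7
  refine smulK_s he (w := (1000:ℝ)) (by norm_num) (by norm_num) (by norm_num) (by norm_num) h10 (fun _ _ _ _ _ h11 H9 => ?_) H8
  exact pos_s he h11 H9

noncomputable def alt3 (p1 z1 w1 z2 w2 z3 w3 : ℕ) : Bool :=
  mulK z2 1152921504606846976 (Nat.add w2 1152921504606846976) 1152921504606846976 0 z3 1152921504606846976 1152921504606846976 (Nat.add w3 1152921504606846976) 0 fun c1 a1_1 a1_2 a1_3 q1 =>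
  smulK 16 1 1152921504606846977 18446744073709551616 p1 1152921504606846976 1152921504606846976 1152921504606846976 0 fun c3 a3_1 a3_2 a3_3 q3 =>
  mulK c1 a1_1 a1_2 a1_3 q1 c3 a3_1 a3_2 a3_3 q3 fun c5 a5_1 a5_2 a5_3 q5 =>
  negK c5 a5_1 a5_2 a5_3 q5 fun c6 a6_1 a6_2 a6_3 q6 =>
  addcK c6 a6_1 a6_2 a6_3 q6 1152922054362660864 0 fun c7 a7_1 a7_2 a7_3 q7 =>
  smulK 1000 1 1152921504606846977 1152921504606846976000 c7 a7_1 a7_2 a7_3 q7 fun c9 a9_1 a9_2 a9_3 q9 =>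
  posK c9 a9_1 a9_2 a9_3 q9 <|
  smulK 2 1 1152921504606846977 2305843009213693952 z2 1152921504606846976 (Nat.add w2 1152921504606846976) 1152921504606846976 0 fun c10 a10_1 a10_2 a10_3 q10 =>
  addcK c10 a10_1 a10_2 a10_3 q10 1152920405095219200 0 fun c11 a11_1 a11_2 a11_3 q11 =>
  smulK 10 1 1152921504606846977 11529215046068469760 z1 (Nat.add w1 1152921504606846976) 1152921504606846976 1152921504606846976 0 fun c14 a14_1 a14_2 a14_3 q14 =>
  addcK c14 a14_1 a14_2 a14_3 q14 1152913808025452544 0 fun c15 a15_1 a15_2 a15_3 q15 =>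
  smulK 51 4000 4611686018427387908000 58798996734949195776 c15 a15_1 a15_2 a15_3 q15 fun c18 a18_1 a18_2 a18_3 q18 =>
  addcK c18 a18_1 a18_2 a18_3 q18 1152921534018783019 1 fun c19 a19_1 a19_2 a19_3 q19 =>
  mulK c19 a19_1 a19_2 a19_3 q19 c15 a15_1 a15_2 a15_3 q15 fun c20 a20_1 a20_2 a20_3 q20 =>
  addcK c20 a20_1 a20_2 a20_3 q20 1152921354523509785 1 fun c21 a21_1 a21_2 a21_3 q21 =>
  mulK c11 a11_1 a11_2 a11_3 q11 c21 a21_1 a21_2 a21_3 q21 fun c23 a23_1 a23_2 a23_3 q23 =>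
  smulK 93 4000 4611686018427387908000 107221699928436768768 c15 a15_1 a15_2 a15_3 q15 fun c24 a24_1 a24_2 a24_3 q24 =>
  negK c24 a24_1 a24_2 a24_3 q24 fun c25 a25_1 a25_2 a25_3 q25 =>
  addcK c25 a25_1 a25_2 a25_3 q25 1152921452380044657 1 fun c27 a27_1 a27_2 a27_3 q27 =>
  mulK c27 a27_1 a27_2 a27_3 q27 c15 a15_1 a15_2 a15_3 q15 fun c28 a28_1 a28_2 a28_3 q28 =>
  addcK c28 a28_1 a28_2 a28_3 q28 1152921402627143500 1 fun c29 a29_1 a29_2 a29_3 q29 =>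
  addK c23 a23_1 a23_2 a23_3 q23 c29 a29_1 a29_2 a29_3 q29 fun c31 a31_1 a31_2 a31_3 q31 =>
  mulK c11 a11_1 a11_2 a11_3 q11 c31 a31_1 a31_2 a31_3 q31 fun c33 a33_1 a33_2 a33_3 q33 =>
  smulK 51 4000 4611686018427387908000 58798996734949195776 c15 a15_1 a15_2 a15_3 q15 fun c34 a34_1 a34_2 a34_3 q34 =>
  negK c34 a34_1 a34_2 a34_3 q34 fun c35 a35_1 a35_2 a35_3 q35 =>
  addcK c35 a35_1 a35_2 a35_3 q35 1152921447707120239 1 fun c37 a37_1 a37_2 a37_3 q37 =>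
  mulK c37 a37_1 a37_2 a37_3 q37 c15 a15_1 a15_2 a15_3 q15 fun c38 a38_1 a38_2 a38_3 q38 =>
  addcK c38 a38_1 a38_2 a38_3 q38 1152921630775806263 1 fun c39 a39_1 a39_2 a39_3 q39 =>
  addK c33 a33_1 a33_2 a33_3 q33 c39 a39_1 a39_2 a39_3 q39 fun c41 a41_1 a41_2 a41_3 q41 =>
  mulK c11 a11_1 a11_2 a11_3 q11 c41 a41_1 a41_2 a41_3 q41 fun c43 a43_1 a43_2 a43_3 q43 =>
  smulK 193 4000 4611686018427387908000 222513850389121466368 c15 a15_1 a15_2 a15_3 q15 fun c44 a44_1 a44_2 a44_3 q44 =>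
  addcK c44 a44_1 a44_2 a44_3 q44 1152921621704835334 1 fun c45 a45_1 a45_2 a45_3 q45 =>
  mulK c45 a45_1 a45_2 a45_3 q45 c15 a15_1 a15_2 a15_3 q15 fun c46 a46_1 a46_2 a46_3 q46 =>
  addcK c46 a46_1 a46_2 a46_3 q46 1152921527696591159 1 fun c47 a47_1 a47_2 a47_3 q47 =>
  addK c43 a43_1 a43_2 a43_3 q43 c47 a47_1 a47_2 a47_3 q47 fun c49 a49_1 a49_2 a49_3 q49 =>
  mulK c11 a11_1 a11_2 a11_3 q11 c49 a49_1 a49_2 a49_3 q49 fun c51 a51_1 a51_2 a51_3 q51 =>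
  smulK 149 4000 4611686018427387908000 171785304186420199424 c15 a15_1 a15_2 a15_3 q15 fun c52 a52_1 a52_2 a52_3 q52 =>
  negK c52 a52_1 a52_2 a52_3 q52 fun c53 a53_1 a53_2 a53_3 q53 =>
  addcK c53 a53_1 a53_2 a53_3 q53 1152921520000009765 1 fun c55 a55_1 a55_2 a55_3 q55 =>
  mulK c55 a55_1 a55_2 a55_3 q55 c15 a15_1 a15_2 a15_3 q15 fun c56 a56_1 a56_2 a56_3 q56 =>
  addcK c56 a56_1 a56_2 a56_3 q56 1152921434787858612 1 fun c57 a57_1 a57_2 a57_3 q57 =>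
  addK c51 a51_1 a51_2 a51_3 q51 c57 a57_1 a57_2 a57_3 q57 fun c59 a59_1 a59_2 a59_3 q59 =>
  mulK c11 a11_1 a11_2 a11_3 q11 c59 a59_1 a59_2 a59_3 q59 fun c61 a61_1 a61_2 a61_3 q61 =>
  smulK 221 4000 4611686018427387908000 254795652518113181696 c15 a15_1 a15_2 a15_3 q15 fun c62 a62_1 a62_2 a62_3 q62 =>
  negK c62 a62_1 a62_2 a62_3 q62 fun c63 a63_1 a63_2 a63_3 q63 =>
  addcK c63 a63_1 a63_2 a63_3 q63 1152921396030073733 1 fun c65 a65_1 a65_2 a65_3 q65 =>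
  mulK c65 a65_1 a65_2 a65_3 q65 c15 a15_1 a15_2 a15_3 q15 fun c66 a66_1 a66_2 a66_3 q66 =>
  addcK c66 a66_1 a66_2 a66_3 q66 1152921470247108608 0 fun c67 a67_1 a67_2 a67_3 q67 =>
  addK c61 a61_1 a61_2 a61_3 q61 c67 a67_1 a67_2 a67_3 q67 fun c69 a69_1 a69_2 a69_3 q69 =>
  mulK c11 a11_1 a11_2 a11_3 q11 c69 a69_1 a69_2 a69_3 q69 fun c71 a71_1 a71_2 a71_3 q71 =>
  smulK 17 400 461168601842738790800 19599665578316398592 c15 a15_1 a15_2 a15_3 q15 fun c72 a72_1 a72_2 a72_3 q72 =>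
  addcK c72 a72_1 a72_2 a72_3 q72 1152921499933922558 1 fun c73 a73_1 a73_2 a73_3 q73 =>
  mulK c73 a73_1 a73_2 a73_3 q73 c15 a15_1 a15_2 a15_3 q15 fun c74 a74_1 a74_2 a74_3 q74 =>
  addcK c74 a74_1 a74_2 a74_3 q74 1152921404826166755 1 fun c75 a75_1 a75_2 a75_3 q75 =>
  addK c71 a71_1 a71_2 a71_3 q71 c75 a75_1 a75_2 a75_3 q75 fun c77 a77_1 a77_2 a77_3 q77 =>
  mulK c11 a11_1 a11_2 a11_3 q11 c77 a77_1 a77_2 a77_3 q77 fun c79 a79_1 a79_2 a79_3 q79 =>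
  smulK 169 4000 4611686018427387908000 194843734278557138944 c15 a15_1 a15_2 a15_3 q15 fun c80 a80_1 a80_2 a80_3 q80 =>
  addcK c80 a80_1 a80_2 a80_3 q80 1152921529070980694 1 fun c81 a81_1 a81_2 a81_3 q81 =>
  mulK c81 a81_1 a81_2 a81_3 q81 c15 a15_1 a15_2 a15_3 q15 fun c82 a82_1 a82_2 a82_3 q82 =>
  addcK c82 a82_1 a82_2 a82_3 q82 1152921362220091179 1 fun c83 a83_1 a83_2 a83_3 q83 =>
  addK c79 a79_1 a79_2 a79_3 q79 c83 a83_1 a83_2 a83_3 q83 fun c85 a85_1 a85_2 a85_3 q85 =>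
  mulK c11 a11_1 a11_2 a11_3 q11 c85 a85_1 a85_2 a85_3 q85 fun c87 a87_1 a87_2 a87_3 q87 =>
  smulK 21 4000 4611686018427387908000 24211351596743786496 c15 a15_1 a15_2 a15_3 q15 fun c88 a88_1 a88_2 a88_3 q88 =>
  negK c88 a88_1 a88_2 a88_3 q88 fun c89 a89_1 a89_2 a89_3 q89 =>
  addcK c89 a89_1 a89_2 a89_3 q89 1152921521374399300 1 fun c91 a91_1 a91_2 a91_3 q91 =>
  mulK c91 a91_1 a91_2 a91_3 q91 c15 a15_1 a15_2 a15_3 q15 fun c92 a92_1 a92_2 a92_3 q92 =>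
  addcK c92 a92_1 a92_2 a92_3 q92 1152921148365079577 1 fun c93 a93_1 a93_2 a93_3 q93 =>
  addK c87 a87_1 a87_2 a87_3 q87 c93 a93_1 a93_2 a93_3 q93 fun c95 a95_1 a95_2 a95_3 q95 =>
  mulK c11 a11_1 a11_2 a11_3 q11 c95 a95_1 a95_2 a95_3 q95 fun c97 a97_1 a97_2 a97_3 q97 =>
  smulK 3 250 288230376151711744250 3458764513820540928 c15 a15_1 a15_2 a15_3 q15 fun c98 a98_1 a98_2 a98_3 q98 =>
  negK c98 a98_1 a98_2 a98_3 q98 fun c99 a99_1 a99_2 a99_3 q99 =>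
  addcK c99 a99_1 a99_2 a99_3 q99 1152921523848300462 1 fun c101 a101_1 a101_2 a101_3 q101 =>
  mulK c101 a101_1 a101_2 a101_3 q101 c15 a15_1 a15_2 a15_3 q15 fun c102 a102_1 a102_2 a102_3 q102 =>
  addcK c102 a102_1 a102_2 a102_3 q102 1152921760243300434 1 fun c103 a103_1 a103_2 a103_3 q103 =>
  addK c97 a97_1 a97_2 a97_3 q97 c103 a103_1 a103_2 a103_3 q103 fun c105 a105_1 a105_2 a105_3 q105 =>
  subK c11 a11_1 a11_2 a11_3 q11 c1 a1_1 a1_2 a1_3 q1 fun c107 a107_1 a107_2 a107_3 q107 =>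
  mulK c107 a107_1 a107_2 a107_3 q107 c21 a21_1 a21_2 a21_3 q21 fun c109 a109_1 a109_2 a109_3 q109 =>
  addK c31 a31_1 a31_2 a31_3 q31 c109 a109_1 a109_2 a109_3 q109 fun c110 a110_1 a110_2 a110_3 q110 =>
  mulK c107 a107_1 a107_2 a107_3 q107 c110 a110_1 a110_2 a110_3 q110 fun c112 a112_1 a112_2 a112_3 q112 =>
  addK c41 a41_1 a41_2 a41_3 q41 c112 a112_1 a112_2 a112_3 q112 fun c113 a113_1 a113_2 a113_3 q113 =>
  mulK c107 a107_1 a107_2 a107_3 q107 c113 a113_1 a113_2 a113_3 q113 fun c115 a115_1 a115_2 a115_3 q115 =>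
  addK c49 a49_1 a49_2 a49_3 q49 c115 a115_1 a115_2 a115_3 q115 fun c116 a116_1 a116_2 a116_3 q116 =>
  mulK c107 a107_1 a107_2 a107_3 q107 c116 a116_1 a116_2 a116_3 q116 fun c118 a118_1 a118_2 a118_3 q118 =>
  addK c59 a59_1 a59_2 a59_3 q59 c118 a118_1 a118_2 a118_3 q118 fun c119 a119_1 a119_2 a119_3 q119 =>
  mulK c107 a107_1 a107_2 a107_3 q107 c119 a119_1 a119_2 a119_3 q119 fun c121 a121_1 a121_2 a121_3 q121 =>
  addK c69 a69_1 a69_2 a69_3 q69 c121 a121_1 a121_2 a121_3 q121 fun c122 a122_1 a122_2 a122_3 q122 =>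
  mulK c107 a107_1 a107_2 a107_3 q107 c122 a122_1 a122_2 a122_3 q122 fun c124 a124_1 a124_2 a124_3 q124 =>
  addK c77 a77_1 a77_2 a77_3 q77 c124 a124_1 a124_2 a124_3 q124 fun c125 a125_1 a125_2 a125_3 q125 =>
  mulK c107 a107_1 a107_2 a107_3 q107 c125 a125_1 a125_2 a125_3 q125 fun c127 a127_1 a127_2 a127_3 q127 =>
  addK c85 a85_1 a85_2 a85_3 q85 c127 a127_1 a127_2 a127_3 q127 fun c128 a128_1 a128_2 a128_3 q128 =>
  mulK c107 a107_1 a107_2 a107_3 q107 c128 a128_1 a128_2 a128_3 q128 fun c130 a130_1 a130_2 a130_3 q130 =>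
  addK c95 a95_1 a95_2 a95_3 q95 c130 a130_1 a130_2 a130_3 q130 fun c131 a131_1 a131_2 a131_3 q131 =>
  mulK c107 a107_1 a107_2 a107_3 q107 c131 a131_1 a131_2 a131_3 q131 fun c133 a133_1 a133_2 a133_3 q133 =>
  addK c105 a105_1 a105_2 a105_3 q105 c133 a133_1 a133_2 a133_3 q133 fun c134 a134_1 a134_2 a134_3 q134 =>
  subK c107 a107_1 a107_2 a107_3 q107 c1 a1_1 a1_2 a1_3 q1 fun c136 a136_1 a136_2 a136_3 q136 =>
  mulK c136 a136_1 a136_2 a136_3 q136 c21 a21_1 a21_2 a21_3 q21 fun c138 a138_1 a138_2 a138_3 q138 =>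
  addK c110 a110_1 a110_2 a110_3 q110 c138 a138_1 a138_2 a138_3 q138 fun c139 a139_1 a139_2 a139_3 q139 =>
  mulK c136 a136_1 a136_2 a136_3 q136 c139 a139_1 a139_2 a139_3 q139 fun c141 a141_1 a141_2 a141_3 q141 =>
  addK c113 a113_1 a113_2 a113_3 q113 c141 a141_1 a141_2 a141_3 q141 fun c142 a142_1 a142_2 a142_3 q142 =>
  mulK c136 a136_1 a136_2 a136_3 q136 c142 a142_1 a142_2 a142_3 q142 fun c144 a144_1 a144_2 a144_3 q144 =>
  addK c116 a116_1 a116_2 a116_3 q116 c144 a144_1 a144_2 a144_3 q144 fun c145 a145_1 a145_2 a145_3 q145 =>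
  mulK c136 a136_1 a136_2 a136_3 q136 c145 a145_1 a145_2 a145_3 q145 fun c147 a147_1 a147_2 a147_3 q147 =>
  addK c119 a119_1 a119_2 a119_3 q119 c147 a147_1 a147_2 a147_3 q147 fun c148 a148_1 a148_2 a148_3 q148 =>
  mulK c136 a136_1 a136_2 a136_3 q136 c148 a148_1 a148_2 a148_3 q148 fun c150 a150_1 a150_2 a150_3 q150 =>
  addK c122 a122_1 a122_2 a122_3 q122 c150 a150_1 a150_2 a150_3 q150 fun c151 a151_1 a151_2 a151_3 q151 =>
  mulK c136 a136_1 a136_2 a136_3 q136 c151 a151_1 a151_2 a151_3 q151 fun c153 a153_1 a153_2 a153_3 q153 =>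
  addK c125 a125_1 a125_2 a125_3 q125 c153 a153_1 a153_2 a153_3 q153 fun c154 a154_1 a154_2 a154_3 q154 =>
  mulK c136 a136_1 a136_2 a136_3 q136 c154 a154_1 a154_2 a154_3 q154 fun c156 a156_1 a156_2 a156_3 q156 =>
  addK c128 a128_1 a128_2 a128_3 q128 c156 a156_1 a156_2 a156_3 q156 fun c157 a157_1 a157_2 a157_3 q157 =>
  mulK c136 a136_1 a136_2 a136_3 q136 c157 a157_1 a157_2 a157_3 q157 fun c159 a159_1 a159_2 a159_3 q159 =>
  addK c131 a131_1 a131_2 a131_3 q131 c159 a159_1 a159_2 a159_3 q159 fun c160 a160_1 a160_2 a160_3 q160 =>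
  mulK c1 a1_1 a1_2 a1_3 q1 c160 a160_1 a160_2 a160_3 q160 fun c162 a162_1 a162_2 a162_3 q162 =>
  subK c134 a134_1 a134_2 a134_3 q134 c162 a162_1 a162_2 a162_3 q162 fun c163 a163_1 a163_2 a163_3 q163 =>
  smulK 2 1 1152921504606846977 2305843009213693952 c163 a163_1 a163_2 a163_3 q163 fun c164 a164_1 a164_2 a164_3 q164 =>
  mulK z1 (Nat.add w1 1152921504606846976) 1152921504606846976 1152921504606846976 0 c164 a164_1 a164_2 a164_3 q164 fun c166 a166_1 a166_2 a166_3 q166 =>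
  smulK 14 25 28823037615171174425 16140901064495857664 c166 a166_1 a166_2 a166_3 q166 fun c167 a167_1 a167_2 a167_3 q167 =>
  negK c167 a167_1 a167_2 a167_3 q167 fun c168 a168_1 a168_2 a168_3 q168 =>
  addcK c168 a168_1 a168_2 a168_3 q168 1152922604118474752 0 fun c169 a169_1 a169_2 a169_3 q169 =>
  mulK z1 (Nat.add w1 1152921504606846976) 1152921504606846976 1152921504606846976 0 c169 a169_1 a169_2 a169_3 q169 fun c172 a172_1 a172_2 a172_3 q172 =>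
  mulK c11 a11_1 a11_2 a11_3 q11 c105 a105_1 a105_2 a105_3 q105 fun c173 a173_1 a173_2 a173_3 q173 =>
  addcK c173 a173_1 a173_2 a173_3 q173 1152922054362660864 0 fun c174 a174_1 a174_2 a174_3 q174 =>
  smulK 91 100 115292150460684697700 104915856919223074816 c174 a174_1 a174_2 a174_3 q174 fun c176 a176_1 a176_2 a176_3 q176 =>
  smulK 3 5 5764607523034234885 3458764513820540928 z1 (Nat.add w1 1152921504606846976) 1152921504606846976 1152921504606846976 0 fun c177 a177_1 a177_2 a177_3 q177 =>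
  addcK c177 a177_1 a177_2 a177_3 q177 1152921394655684198 1 fun c178 a178_1 a178_2 a178_3 q178 =>
  mulK c1 a1_1 a1_2 a1_3 q1 c164 a164_1 a164_2 a164_3 q164 fun c180 a180_1 a180_2 a180_3 q180 =>
  mulK c178 a178_1 a178_2 a178_3 q178 c180 a180_1 a180_2 a180_3 q180 fun c181 a181_1 a181_2 a181_3 q181 =>
  subK c176 a176_1 a176_2 a176_3 q176 c181 a181_1 a181_2 a181_3 q181 fun c182 a182_1 a182_2 a182_3 q182 =>
  mulK z1 (Nat.add w1 1152921504606846976) 1152921504606846976 1152921504606846976 0 c182 a182_1 a182_2 a182_3 q182 fun c183 a183_1 a183_2 a183_3 q183 =>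
  negK z2 1152921504606846976 (Nat.add w2 1152921504606846976) 1152921504606846976 0 fun c184 a184_1 a184_2 a184_3 q184 =>
  addcK c184 a184_1 a184_2 a184_3 q184 1152922604118474752 0 fun c185 a185_1 a185_2 a185_3 q185 =>
  smulK 9 1000 1152921504606846977000 10376293541461622784 c185 a185_1 a185_2 a185_3 q185 fun c187 a187_1 a187_2 a187_3 q187 =>
  addK c183 a183_1 a183_2 a183_3 q183 c187 a187_1 a187_2 a187_3 q187 fun c188 a188_1 a188_2 a188_3 q188 =>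
  mulK c3 a3_1 a3_2 a3_3 q3 c188 a188_1 a188_2 a188_3 q188 fun c190 a190_1 a190_2 a190_3 q190 =>
  subK c172 a172_1 a172_2 a172_3 q172 c190 a190_1 a190_2 a190_3 q190 fun c191 a191_1 a191_2 a191_3 q191 =>
  mulK c3 a3_1 a3_2 a3_3 q3 c191 a191_1 a191_2 a191_3 q191 fun c192 a192_1 a192_2 a192_3 q192 =>
  sqK c5 a5_1 a5_2 a5_3 q5 fun c193 a193_1 a193_2 a193_3 q193 =>
  addcK c193 a193_1 a193_2 a193_3 q193 1152922604118474752 0 fun c194 a194_1 a194_2 a194_3 q194 =>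
  mulK c194 a194_1 a194_2 a194_3 q194 c160 a160_1 a160_2 a160_3 q160 fun c196 a196_1 a196_2 a196_3 q196 =>
  mulK z1 (Nat.add w1 1152921504606846976) 1152921504606846976 1152921504606846976 0 c196 a196_1 a196_2 a196_3 q196 fun c197 a197_1 a197_2 a197_3 q197 =>
  addK c192 a192_1 a192_2 a192_3 q192 c197 a197_1 a197_2 a197_3 q197 fun c198 a198_1 a198_2 a198_3 q198 =>
  pos c198 a198_1 a198_2 a198_3 q198

theorem alt3_s {p1 z1 w1 z2 w2 z3 w3 : ℕ} {e1 e2 e3 s r th p : ℝ} (he : Ev e1 e2 e3)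
    (hp1 : In e1 e2 e3 p1 1152921504606846976 1152921504606846976 1152921504606846976 0 p)
    (hx1 : In e1 e2 e3 z1 (Nat.add w1 1152921504606846976) 1152921504606846976 1152921504606846976 0 s)
    (hx2 : In e1 e2 e3 z2 1152921504606846976 (Nat.add w2 1152921504606846976) 1152921504606846976 0 r)
    (hx3 : In e1 e2 e3 z3 1152921504606846976 1152921504606846976 (Nat.add w3 1152921504606846976) 0 th)
    (H0 : alt3 p1 z1 w1 z2 w2 z3 w3 = true) : 0 < ((1000:ℝ) * ((1/2:ℝ) - ((fd s r th p) * (fta s r th p)))) ∧ 0 < (fG s r th p) := by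
  unfold alt3 at H0
  refine mulK_s he hx2 hx3 (fun _ _ _ _ _ h1 H1 => ?_) H0
  have h2 := In_cast (w := (fd s r th p)) h1 rfl
  refine smulK_s he (w := (16:ℝ)) (by norm_num) (by norm_num) (by norm_num) (by norm_num) hp1 (fun _ _ _ _ _ h3 H2 => ?_) H1
  have h4 := In_cast (w := (fta s r th p)) h3 rfl
  refine mulK_s he h2 h4 (fun _ _ _ _ _ h5 H3 => ?_) H2
  refine negK_s he h5 (fun _ _ _ _ _ h6 H4 => ?_) H3
  refine addcK_s he h6 (v' := (1/2:ℝ)) (by norm_num [SS, BB, abs_le]) (fun _ _ _ _ _ h7 H5 => ?_) H4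
  have h8 := In_cast h7 (neg_add_eq_sub _ _)
  refine smulK_s he (w := (1000:ℝ)) (by norm_num) (by norm_num) (by norm_num) (by norm_num) h8 (fun _ _ _ _ _ h9 H6 => ?_) H5
  refine posK_s he h9 (fun p0 H7 => ?_) H6
  refine smulK_s he (w := (2:ℝ)) (by norm_num) (by norm_num) (by norm_num) (by norm_num) hx2 (fun _ _ _ _ _ h10 H8 => ?_) H7
  refine addcK_s he h10 (v' := (-1:ℝ)) (by norm_num [SS, BB, abs_le]) (fun _ _ _ _ _ h11 H9 => ?_) H8
  have h12 := In_cast h11 (sub_c (c := (1:ℝ)) (by norm_num))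
  have h13 := In_cast (w := (fm1 s r th p)) h12 rfl
  refine smulK_s he (w := (10:ℝ)) (by norm_num) (by norm_num) (by norm_num) (by norm_num) hx1 (fun _ _ _ _ _ h14 H10 => ?_) H9
  refine addcK_s he h14 (v' := (-7:ℝ)) (by norm_num [SS, BB, abs_le]) (fun _ _ _ _ _ h15 H11 => ?_) H10
  have h16 := In_cast h15 (sub_c (c := (7:ℝ)) (by norm_num))
  have h17 := In_cast (w := (fsg s r th p)) h16 rfl
  refine smulK_s he (w := (51/4000:ℝ)) (by norm_num) (by norm_num) (by norm_num) (by norm_num) h17 (fun _ _ _ _ _ h18 H12 => ?_) H11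
  refine addcK_s he h18 (v' := (107/4000:ℝ)) (by norm_num [SS, BB, abs_le]) (fun _ _ _ _ _ h19 H13 => ?_) H12
  refine mulK_s he h19 h17 (fun _ _ _ _ _ h20 H14 => ?_) H13
  refine addcK_s he h20 (v' := (-273/2000:ℝ)) (by norm_num [SS, BB, abs_le]) (fun _ _ _ _ _ h21 H15 => ?_) H14
  have h22 := In_cast (w := (fq10 s r th p)) h21 rfl
  refine mulK_s he h13 h22 (fun _ _ _ _ _ h23 H16 => ?_) H15
  refine smulK_s he (w := (93/4000:ℝ)) (by norm_num) (by norm_num) (by norm_num) (by norm_num) h17 (fun _ _ _ _ _ h24 H17 => ?_) H16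
  refine negK_s he h24 (fun _ _ _ _ _ h25 H18 => ?_) H17
  have h26 := In_cast h25 (neg_mul_c (c := (-93/4000:ℝ)) (by norm_num))
  refine addcK_s he h26 (v' := (-19/400:ℝ)) (by norm_num [SS, BB, abs_le]) (fun _ _ _ _ _ h27 H19 => ?_) H18
  refine mulK_s he h27 h17 (fun _ _ _ _ _ h28 H20 => ?_) H19
  refine addcK_s he h28 (v' := (-371/4000:ℝ)) (by norm_num [SS, BB, abs_le]) (fun _ _ _ _ _ h29 H21 => ?_) H20
  have h30 := In_cast (w := (fq9 s r th p)) h29 rfl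
  refine addK_s he h23 h30 (fun _ _ _ _ _ h31 H22 => ?_) H21
  have h32 := In_cast (w := (fh9 s r th p)) h31 rfl
  refine mulK_s he h13 h32 (fun _ _ _ _ _ h33 H23 => ?_) H22
  refine smulK_s he (w := (51/4000:ℝ)) (by norm_num) (by norm_num) (by norm_num) (by norm_num) h17 (fun _ _ _ _ _ h34 H24 => ?_) H23
  refine negK_s he h34 (fun _ _ _ _ _ h35 H25 => ?_) H24
  have h36 := In_cast h35 (neg_mul_c (c := (-51/4000:ℝ)) (by norm_num))
  refine addcK_s he h36 (v' := (-207/4000:ℝ)) (by norm_num [SS, BB, abs_le]) (fun _ _ _ _ _ h37 H26 => ?_) H25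
  refine mulK_s he h37 h17 (fun _ _ _ _ _ h38 H27 => ?_) H26
  refine addcK_s he h38 (v' := (459/4000:ℝ)) (by norm_num [SS, BB, abs_le]) (fun _ _ _ _ _ h39 H28 => ?_) H27
  have h40 := In_cast (w := (fq8 s r th p)) h39 rfl
  refine addK_s he h33 h40 (fun _ _ _ _ _ h41 H29 => ?_) H28
  have h42 := In_cast (w := (fh8 s r th p)) h41 rfl
  refine mulK_s he h13 h42 (fun _ _ _ _ _ h43 H30 => ?_) H29
  refine smulK_s he (w := (193/4000:ℝ)) (by norm_num) (by norm_num) (by norm_num) (by norm_num) h17 (fun _ _ _ _ _ h44 H31 => ?_) H30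
  refine addcK_s he h44 (v' := (213/2000:ℝ)) (by norm_num [SS, BB, abs_le]) (fun _ _ _ _ _ h45 H32 => ?_) H31
  refine mulK_s he h45 h17 (fun _ _ _ _ _ h46 H33 => ?_) H32
  refine addcK_s he h46 (v' := (21/1000:ℝ)) (by norm_num [SS, BB, abs_le]) (fun _ _ _ _ _ h47 H34 => ?_) H33
  have h48 := In_cast (w := (fq7 s r th p)) h47 rfl
  refine addK_s he h43 h48 (fun _ _ _ _ _ h49 H35 => ?_) H34
  have h50 := In_cast (w := (fh7 s r th p)) h49 rfl
  refine mulK_s he h13 h50 (fun _ _ _ _ _ h51 H36 => ?_) H35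
  refine smulK_s he (w := (149/4000:ℝ)) (by norm_num) (by norm_num) (by norm_num) (by norm_num) h17 (fun _ _ _ _ _ h52 H37 => ?_) H36
  refine negK_s he h52 (fun _ _ _ _ _ h53 H38 => ?_) H37
  have h54 := In_cast h53 (neg_mul_c (c := (-149/4000:ℝ)) (by norm_num))
  refine addcK_s he h54 (v' := (7/500:ℝ)) (by norm_num [SS, BB, abs_le]) (fun _ _ _ _ _ h55 H39 => ?_) H38
  refine mulK_s he h55 h17 (fun _ _ _ _ _ h56 H40 => ?_) H39
  refine addcK_s he h56 (v' := (-127/2000:ℝ)) (by norm_num [SS, BB, abs_le]) (fun _ _ _ _ _ h57 H41 => ?_) H40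
  have h58 := In_cast (w := (fq6 s r th p)) h57 rfl
  refine addK_s he h51 h58 (fun _ _ _ _ _ h59 H42 => ?_) H41
  have h60 := In_cast (w := (fh6 s r th p)) h59 rfl
  refine mulK_s he h13 h60 (fun _ _ _ _ _ h61 H43 => ?_) H42
  refine smulK_s he (w := (221/4000:ℝ)) (by norm_num) (by norm_num) (by norm_num) (by norm_num) h17 (fun _ _ _ _ _ h62 H44 => ?_) H43
  refine negK_s he h62 (fun _ _ _ _ _ h63 H45 => ?_) H44
  have h64 := In_cast h63 (neg_mul_c (c := (-221/4000:ℝ)) (by norm_num))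
  refine addcK_s he h64 (v' := (-79/800:ℝ)) (by norm_num [SS, BB, abs_le]) (fun _ _ _ _ _ h65 H46 => ?_) H45
  refine mulK_s he h65 h17 (fun _ _ _ _ _ h66 H47 => ?_) H46
  refine addcK_s he h66 (v' := (-1/32:ℝ)) (by norm_num [SS, BB, abs_le]) (fun _ _ _ _ _ h67 H48 => ?_) H47
  have h68 := In_cast (w := (fq5 s r th p)) h67 rfl
  refine addK_s he h61 h68 (fun _ _ _ _ _ h69 H49 => ?_) H48
  have h70 := In_cast (w := (fh5 s r th p)) h69 rfl
  refine mulK_s he h13 h70 (fun _ _ _ _ _ h71 H50 => ?_) H49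
  refine smulK_s he (w := (17/400:ℝ)) (by norm_num) (by norm_num) (by norm_num) (by norm_num) h17 (fun _ _ _ _ _ h72 H51 => ?_) H50
  refine addcK_s he h72 (v' := (-17/4000:ℝ)) (by norm_num [SS, BB, abs_le]) (fun _ _ _ _ _ h73 H52 => ?_) H51
  refine mulK_s he h73 h17 (fun _ _ _ _ _ h74 H53 => ?_) H52
  refine addcK_s he h74 (v' := (-363/4000:ℝ)) (by norm_num [SS, BB, abs_le]) (fun _ _ _ _ _ h75 H54 => ?_) H53
  have h76 := In_cast (w := (fq4 s r th p)) h75 rfl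
  refine addK_s he h71 h76 (fun _ _ _ _ _ h77 H55 => ?_) H54
  have h78 := In_cast (w := (fh4 s r th p)) h77 rfl
  refine mulK_s he h13 h78 (fun _ _ _ _ _ h79 H56 => ?_) H55
  refine smulK_s he (w := (169/4000:ℝ)) (by norm_num) (by norm_num) (by norm_num) (by norm_num) h17 (fun _ _ _ _ _ h80 H57 => ?_) H56
  refine addcK_s he h80 (v' := (89/4000:ℝ)) (by norm_num [SS, BB, abs_le]) (fun _ _ _ _ _ h81 H58 => ?_) H57
  refine mulK_s he h81 h17 (fun _ _ _ _ _ h82 H59 => ?_) H58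
  refine addcK_s he h82 (v' := (-259/2000:ℝ)) (by norm_num [SS, BB, abs_le]) (fun _ _ _ _ _ h83 H60 => ?_) H59
  have h84 := In_cast (w := (fq3 s r th p)) h83 rfl
  refine addK_s he h79 h84 (fun _ _ _ _ _ h85 H61 => ?_) H60
  have h86 := In_cast (w := (fh3 s r th p)) h85 rfl
  refine mulK_s he h13 h86 (fun _ _ _ _ _ h87 H62 => ?_) H61
  refine smulK_s he (w := (21/4000:ℝ)) (by norm_num) (by norm_num) (by norm_num) (by norm_num) h17 (fun _ _ _ _ _ h88 H63 => ?_) H62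
  refine negK_s he h88 (fun _ _ _ _ _ h89 H64 => ?_) H63
  have h90 := In_cast h89 (neg_mul_c (c := (-21/4000:ℝ)) (by norm_num))
  refine addcK_s he h90 (v' := (61/4000:ℝ)) (by norm_num [SS, BB, abs_le]) (fun _ _ _ _ _ h91 H65 => ?_) H64
  refine mulK_s he h91 h17 (fun _ _ _ _ _ h92 H66 => ?_) H65
  refine addcK_s he h92 (v' := (-81/250:ℝ)) (by norm_num [SS, BB, abs_le]) (fun _ _ _ _ _ h93 H67 => ?_) H66
  have h94 := In_cast (w := (fq2 s r th p)) h93 rfl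
  refine addK_s he h87 h94 (fun _ _ _ _ _ h95 H68 => ?_) H67
  have h96 := In_cast (w := (fh2 s r th p)) h95 rfl
  refine mulK_s he h13 h96 (fun _ _ _ _ _ h97 H69 => ?_) H68
  refine smulK_s he (w := (3/250:ℝ)) (by norm_num) (by norm_num) (by norm_num) (by norm_num) h17 (fun _ _ _ _ _ h98 H70 => ?_) H69
  refine negK_s he h98 (fun _ _ _ _ _ h99 H71 => ?_) H70
  have h100 := In_cast h99 (neg_mul_c (c := (-3/250:ℝ)) (by norm_num))
  refine addcK_s he h100 (v' := (7/400:ℝ)) (by norm_num [SS, BB, abs_le]) (fun _ _ _ _ _ h101 H72 => ?_) H71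
  refine mulK_s he h101 h17 (fun _ _ _ _ _ h102 H73 => ?_) H72
  refine addcK_s he h102 (v' := (93/400:ℝ)) (by norm_num [SS, BB, abs_le]) (fun _ _ _ _ _ h103 H74 => ?_) H73
  have h104 := In_cast (w := (fq1 s r th p)) h103 rfl
  refine addK_s he h97 h104 (fun _ _ _ _ _ h105 H75 => ?_) H74
  have h106 := In_cast (w := (fh1 s r th p)) h105 rfl
  refine subK_s he h13 h2 (fun _ _ _ _ _ h107 H76 => ?_) H75
  have h108 := In_cast (w := (fmm s r th p)) h107 rfl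
  refine mulK_s he h108 h22 (fun _ _ _ _ _ h109 H77 => ?_) H76
  refine addK_s he h32 h109 (fun _ _ _ _ _ h110 H78 => ?_) H77
  have h111 := In_cast (w := (fg9 s r th p)) h110 rfl
  refine mulK_s he h108 h111 (fun _ _ _ _ _ h112 H79 => ?_) H78
  refine addK_s he h42 h112 (fun _ _ _ _ _ h113 H80 => ?_) H79
  have h114 := In_cast (w := (fg8 s r th p)) h113 rfl
  refine mulK_s he h108 h114 (fun _ _ _ _ _ h115 H81 => ?_) H80
  refine addK_s he h50 h115 (fun _ _ _ _ _ h116 H82 => ?_) H81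
  have h117 := In_cast (w := (fg7 s r th p)) h116 rfl
  refine mulK_s he h108 h117 (fun _ _ _ _ _ h118 H83 => ?_) H82
  refine addK_s he h60 h118 (fun _ _ _ _ _ h119 H84 => ?_) H83
  have h120 := In_cast (w := (fg6 s r th p)) h119 rfl
  refine mulK_s he h108 h120 (fun _ _ _ _ _ h121 H85 => ?_) H84
  refine addK_s he h70 h121 (fun _ _ _ _ _ h122 H86 => ?_) H85
  have h123 := In_cast (w := (fg5 s r th p)) h122 rfl
  refine mulK_s he h108 h123 (fun _ _ _ _ _ h124 H87 => ?_) H86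
  refine addK_s he h78 h124 (fun _ _ _ _ _ h125 H88 => ?_) H87
  have h126 := In_cast (w := (fg4 s r th p)) h125 rfl
  refine mulK_s he h108 h126 (fun _ _ _ _ _ h127 H89 => ?_) H88
  refine addK_s he h86 h127 (fun _ _ _ _ _ h128 H90 => ?_) H89
  have h129 := In_cast (w := (fg3 s r th p)) h128 rfl
  refine mulK_s he h108 h129 (fun _ _ _ _ _ h130 H91 => ?_) H90
  refine addK_s he h96 h130 (fun _ _ _ _ _ h131 H92 => ?_) H91
  have h132 := In_cast (w := (fg2 s r th p)) h131 rfl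
  refine mulK_s he h108 h132 (fun _ _ _ _ _ h133 H93 => ?_) H92
  refine addK_s he h106 h133 (fun _ _ _ _ _ h134 H94 => ?_) H93
  have h135 := In_cast (w := (fg1 s r th p)) h134 rfl
  refine subK_s he h108 h2 (fun _ _ _ _ _ h136 H95 => ?_) H94
  have h137 := In_cast (w := (fm0 s r th p)) h136 rfl
  refine mulK_s he h137 h22 (fun _ _ _ _ _ h138 H96 => ?_) H95
  refine addK_s he h111 h138 (fun _ _ _ _ _ h139 H97 => ?_) H96
  have h140 := In_cast (w := (fk9 s r th p)) h139 rfl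
  refine mulK_s he h137 h140 (fun _ _ _ _ _ h141 H98 => ?_) H97
  refine addK_s he h114 h141 (fun _ _ _ _ _ h142 H99 => ?_) H98
  have h143 := In_cast (w := (fk8 s r th p)) h142 rfl
  refine mulK_s he h137 h143 (fun _ _ _ _ _ h144 H100 => ?_) H99
  refine addK_s he h117 h144 (fun _ _ _ _ _ h145 H101 => ?_) H100
  have h146 := In_cast (w := (fk7 s r th p)) h145 rfl
  refine mulK_s he h137 h146 (fun _ _ _ _ _ h147 H102 => ?_) H101
  refine addK_s he h120 h147 (fun _ _ _ _ _ h148 H103 => ?_) H102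
  have h149 := In_cast (w := (fk6 s r th p)) h148 rfl
  refine mulK_s he h137 h149 (fun _ _ _ _ _ h150 H104 => ?_) H103
  refine addK_s he h123 h150 (fun _ _ _ _ _ h151 H105 => ?_) H104
  have h152 := In_cast (w := (fk5 s r th p)) h151 rfl
  refine mulK_s he h137 h152 (fun _ _ _ _ _ h153 H106 => ?_) H105
  refine addK_s he h126 h153 (fun _ _ _ _ _ h154 H107 => ?_) H106
  have h155 := In_cast (w := (fk4 s r th p)) h154 rfl
  refine mulK_s he h137 h155 (fun _ _ _ _ _ h156 H108 => ?_) H107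
  refine addK_s he h129 h156 (fun _ _ _ _ _ h157 H109 => ?_) H108
  have h158 := In_cast (w := (fk3 s r th p)) h157 rfl
  refine mulK_s he h137 h158 (fun _ _ _ _ _ h159 H110 => ?_) H109
  refine addK_s he h132 h159 (fun _ _ _ _ _ h160 H111 => ?_) H110
  have h161 := In_cast (w := (fk2 s r th p)) h160 rfl
  refine mulK_s he h2 h161 (fun _ _ _ _ _ h162 H112 => ?_) H111
  refine subK_s he h135 h162 (fun _ _ _ _ _ h163 H113 => ?_) H112
  refine smulK_s he (w := (2:ℝ)) (by norm_num) (by norm_num) (by norm_num) (by norm_num) h163 (fun _ _ _ _ _ h164 H114 => ?_) H113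
  have h165 := In_cast (w := (fD1 s r th p)) h164 rfl
  refine mulK_s he hx1 h165 (fun _ _ _ _ _ h166 H115 => ?_) H114
  refine smulK_s he (w := (14/25:ℝ)) (by norm_num) (by norm_num) (by norm_num) (by norm_num) h166 (fun _ _ _ _ _ h167 H116 => ?_) H115
  refine negK_s he h167 (fun _ _ _ _ _ h168 H117 => ?_) H116
  refine addcK_s he h168 (v' := (1:ℝ)) (by norm_num [SS, BB, abs_le]) (fun _ _ _ _ _ h169 H118 => ?_) H117
  have h170 := In_cast h169 (neg_add_eq_sub _ _)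
  have h171 := In_cast (w := (fZ s r th p)) h170 rfl
  refine mulK_s he hx1 h171 (fun _ _ _ _ _ h172 H119 => ?_) H118
  refine mulK_s he h13 h106 (fun _ _ _ _ _ h173 H120 => ?_) H119
  refine addcK_s he h173 (v' := (1/2:ℝ)) (by norm_num [SS, BB, abs_le]) (fun _ _ _ _ _ h174 H121 => ?_) H120
  have h175 := In_cast (w := (fh0 s r th p)) h174 rfl
  refine smulK_s he (w := (91/100:ℝ)) (by norm_num) (by norm_num) (by norm_num) (by norm_num) h175 (fun _ _ _ _ _ h176 H122 => ?_) H121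
  refine smulK_s he (w := (3/5:ℝ)) (by norm_num) (by norm_num) (by norm_num) (by norm_num) hx1 (fun _ _ _ _ _ h177 H123 => ?_) H122
  refine addcK_s he h177 (v' := (-1/10:ℝ)) (by norm_num [SS, BB, abs_le]) (fun _ _ _ _ _ h178 H124 => ?_) H123
  have h179 := In_cast h178 (sub_c (c := (1/10:ℝ)) (by norm_num))
  refine mulK_s he h2 h165 (fun _ _ _ _ _ h180 H125 => ?_) H124
  refine mulK_s he h179 h180 (fun _ _ _ _ _ h181 H126 => ?_) H125
  refine subK_s he h176 h181 (fun _ _ _ _ _ h182 H127 => ?_) H126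
  refine mulK_s he hx1 h182 (fun _ _ _ _ _ h183 H128 => ?_) H127
  refine negK_s he hx2 (fun _ _ _ _ _ h184 H129 => ?_) H128
  refine addcK_s he h184 (v' := (1:ℝ)) (by norm_num [SS, BB, abs_le]) (fun _ _ _ _ _ h185 H130 => ?_) H129
  have h186 := In_cast h185 (neg_add_eq_sub _ _)
  refine smulK_s he (w := (9/1000:ℝ)) (by norm_num) (by norm_num) (by norm_num) (by norm_num) h186 (fun _ _ _ _ _ h187 H131 => ?_) H130
  refine addK_s he h183 h187 (fun _ _ _ _ _ h188 H132 => ?_) H131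
  have h189 := In_cast (w := (fL s r th p)) h188 rfl
  refine mulK_s he h4 h189 (fun _ _ _ _ _ h190 H133 => ?_) H132
  refine subK_s he h172 h190 (fun _ _ _ _ _ h191 H134 => ?_) H133
  refine mulK_s he h4 h191 (fun _ _ _ _ _ h192 H135 => ?_) H134
  refine sqK_s he h5 (fun _ _ _ _ _ h193 H136 => ?_) H135
  refine addcK_s he h193 (v' := (1:ℝ)) (by norm_num [SS, BB, abs_le]) (fun _ _ _ _ _ h194 H137 => ?_) H136
  have h195 := In_cast h194 (add_comm _ _)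
  refine mulK_s he h195 h161 (fun _ _ _ _ _ h196 H138 => ?_) H137
  refine mulK_s he hx1 h196 (fun _ _ _ _ _ h197 H139 => ?_) H138
  refine addK_s he h192 h197 (fun _ _ _ _ _ h198 H140 => ?_) H139
  have h199 := In_cast (w := (fG s r th p)) h198 rfl
  exact ⟨p0, pos_s he h199 H140⟩

noncomputable def alt4 (p1 z1 w1 z2 w2 z3 w3 : ℕ) : Bool :=
  mulK z2 1152921504606846976 (Nat.add w2 1152921504606846976) 1152921504606846976 0 z3 1152921504606846976 1152921504606846976 (Nat.add w3 1152921504606846976) 0 fun c1 a1_1 a1_2 a1_3 q1 =>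
  smulK 2 1 1152921504606846977 2305843009213693952 z2 1152921504606846976 (Nat.add w2 1152921504606846976) 1152921504606846976 0 fun c3 a3_1 a3_2 a3_3 q3 =>
  addcK c3 a3_1 a3_2 a3_3 q3 1152920405095219200 0 fun c4 a4_1 a4_2 a4_3 q4 =>
  smulK 10 1 1152921504606846977 11529215046068469760 z1 (Nat.add w1 1152921504606846976) 1152921504606846976 1152921504606846976 0 fun c7 a7_1 a7_2 a7_3 q7 =>
  addcK c7 a7_1 a7_2 a7_3 q7 1152913808025452544 0 fun c8 a8_1 a8_2 a8_3 q8 =>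
  smulK 51 4000 4611686018427387908000 58798996734949195776 c8 a8_1 a8_2 a8_3 q8 fun c11 a11_1 a11_2 a11_3 q11 =>
  addcK c11 a11_1 a11_2 a11_3 q11 1152921534018783019 1 fun c12 a12_1 a12_2 a12_3 q12 =>
  mulK c12 a12_1 a12_2 a12_3 q12 c8 a8_1 a8_2 a8_3 q8 fun c13 a13_1 a13_2 a13_3 q13 =>
  addcK c13 a13_1 a13_2 a13_3 q13 1152921354523509785 1 fun c14 a14_1 a14_2 a14_3 q14 =>
  mulK c4 a4_1 a4_2 a4_3 q4 c14 a14_1 a14_2 a14_3 q14 fun c16 a16_1 a16_2 a16_3 q16 =>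
  smulK 93 4000 4611686018427387908000 107221699928436768768 c8 a8_1 a8_2 a8_3 q8 fun c17 a17_1 a17_2 a17_3 q17 =>
  negK c17 a17_1 a17_2 a17_3 q17 fun c18 a18_1 a18_2 a18_3 q18 =>
  addcK c18 a18_1 a18_2 a18_3 q18 1152921452380044657 1 fun c20 a20_1 a20_2 a20_3 q20 =>
  mulK c20 a20_1 a20_2 a20_3 q20 c8 a8_1 a8_2 a8_3 q8 fun c21 a21_1 a21_2 a21_3 q21 =>
  addcK c21 a21_1 a21_2 a21_3 q21 1152921402627143500 1 fun c22 a22_1 a22_2 a22_3 q22 =>
  addK c16 a16_1 a16_2 a16_3 q16 c22 a22_1 a22_2 a22_3 q22 fun c24 a24_1 a24_2 a24_3 q24 =>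
  mulK c4 a4_1 a4_2 a4_3 q4 c24 a24_1 a24_2 a24_3 q24 fun c26 a26_1 a26_2 a26_3 q26 =>
  smulK 51 4000 4611686018427387908000 58798996734949195776 c8 a8_1 a8_2 a8_3 q8 fun c27 a27_1 a27_2 a27_3 q27 =>
  negK c27 a27_1 a27_2 a27_3 q27 fun c28 a28_1 a28_2 a28_3 q28 =>
  addcK c28 a28_1 a28_2 a28_3 q28 1152921447707120239 1 fun c30 a30_1 a30_2 a30_3 q30 =>
  mulK c30 a30_1 a30_2 a30_3 q30 c8 a8_1 a8_2 a8_3 q8 fun c31 a31_1 a31_2 a31_3 q31 =>
  addcK c31 a31_1 a31_2 a31_3 q31 1152921630775806263 1 fun c32 a32_1 a32_2 a32_3 q32 =>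
  addK c26 a26_1 a26_2 a26_3 q26 c32 a32_1 a32_2 a32_3 q32 fun c34 a34_1 a34_2 a34_3 q34 =>
  mulK c4 a4_1 a4_2 a4_3 q4 c34 a34_1 a34_2 a34_3 q34 fun c36 a36_1 a36_2 a36_3 q36 =>
  smulK 193 4000 4611686018427387908000 222513850389121466368 c8 a8_1 a8_2 a8_3 q8 fun c37 a37_1 a37_2 a37_3 q37 =>
  addcK c37 a37_1 a37_2 a37_3 q37 1152921621704835334 1 fun c38 a38_1 a38_2 a38_3 q38 =>
  mulK c38 a38_1 a38_2 a38_3 q38 c8 a8_1 a8_2 a8_3 q8 fun c39 a39_1 a39_2 a39_3 q39 =>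
  addcK c39 a39_1 a39_2 a39_3 q39 1152921527696591159 1 fun c40 a40_1 a40_2 a40_3 q40 =>
  addK c36 a36_1 a36_2 a36_3 q36 c40 a40_1 a40_2 a40_3 q40 fun c42 a42_1 a42_2 a42_3 q42 =>
  mulK c4 a4_1 a4_2 a4_3 q4 c42 a42_1 a42_2 a42_3 q42 fun c44 a44_1 a44_2 a44_3 q44 =>
  smulK 149 4000 4611686018427387908000 171785304186420199424 c8 a8_1 a8_2 a8_3 q8 fun c45 a45_1 a45_2 a45_3 q45 =>
  negK c45 a45_1 a45_2 a45_3 q45 fun c46 a46_1 a46_2 a46_3 q46 =>
  addcK c46 a46_1 a46_2 a46_3 q46 1152921520000009765 1 fun c48 a48_1 a48_2 a48_3 q48 =>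
  mulK c48 a48_1 a48_2 a48_3 q48 c8 a8_1 a8_2 a8_3 q8 fun c49 a49_1 a49_2 a49_3 q49 =>
  addcK c49 a49_1 a49_2 a49_3 q49 1152921434787858612 1 fun c50 a50_1 a50_2 a50_3 q50 =>
  addK c44 a44_1 a44_2 a44_3 q44 c50 a50_1 a50_2 a50_3 q50 fun c52 a52_1 a52_2 a52_3 q52 =>
  mulK c4 a4_1 a4_2 a4_3 q4 c52 a52_1 a52_2 a52_3 q52 fun c54 a54_1 a54_2 a54_3 q54 =>
  smulK 221 4000 4611686018427387908000 254795652518113181696 c8 a8_1 a8_2 a8_3 q8 fun c55 a55_1 a55_2 a55_3 q55 =>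
  negK c55 a55_1 a55_2 a55_3 q55 fun c56 a56_1 a56_2 a56_3 q56 =>
  addcK c56 a56_1 a56_2 a56_3 q56 1152921396030073733 1 fun c58 a58_1 a58_2 a58_3 q58 =>
  mulK c58 a58_1 a58_2 a58_3 q58 c8 a8_1 a8_2 a8_3 q8 fun c59 a59_1 a59_2 a59_3 q59 =>
  addcK c59 a59_1 a59_2 a59_3 q59 1152921470247108608 0 fun c60 a60_1 a60_2 a60_3 q60 =>
  addK c54 a54_1 a54_2 a54_3 q54 c60 a60_1 a60_2 a60_3 q60 fun c62 a62_1 a62_2 a62_3 q62 =>
  mulK c4 a4_1 a4_2 a4_3 q4 c62 a62_1 a62_2 a62_3 q62 fun c64 a64_1 a64_2 a64_3 q64 =>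
  smulK 17 400 461168601842738790800 19599665578316398592 c8 a8_1 a8_2 a8_3 q8 fun c65 a65_1 a65_2 a65_3 q65 =>
  addcK c65 a65_1 a65_2 a65_3 q65 1152921499933922558 1 fun c66 a66_1 a66_2 a66_3 q66 =>
  mulK c66 a66_1 a66_2 a66_3 q66 c8 a8_1 a8_2 a8_3 q8 fun c67 a67_1 a67_2 a67_3 q67 =>
  addcK c67 a67_1 a67_2 a67_3 q67 1152921404826166755 1 fun c68 a68_1 a68_2 a68_3 q68 =>
  addK c64 a64_1 a64_2 a64_3 q64 c68 a68_1 a68_2 a68_3 q68 fun c70 a70_1 a70_2 a70_3 q70 =>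
  mulK c4 a4_1 a4_2 a4_3 q4 c70 a70_1 a70_2 a70_3 q70 fun c72 a72_1 a72_2 a72_3 q72 =>
  smulK 169 4000 4611686018427387908000 194843734278557138944 c8 a8_1 a8_2 a8_3 q8 fun c73 a73_1 a73_2 a73_3 q73 =>
  addcK c73 a73_1 a73_2 a73_3 q73 1152921529070980694 1 fun c74 a74_1 a74_2 a74_3 q74 =>
  mulK c74 a74_1 a74_2 a74_3 q74 c8 a8_1 a8_2 a8_3 q8 fun c75 a75_1 a75_2 a75_3 q75 =>
  addcK c75 a75_1 a75_2 a75_3 q75 1152921362220091179 1 fun c76 a76_1 a76_2 a76_3 q76 =>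
  addK c72 a72_1 a72_2 a72_3 q72 c76 a76_1 a76_2 a76_3 q76 fun c78 a78_1 a78_2 a78_3 q78 =>
  mulK c4 a4_1 a4_2 a4_3 q4 c78 a78_1 a78_2 a78_3 q78 fun c80 a80_1 a80_2 a80_3 q80 =>
  smulK 21 4000 4611686018427387908000 24211351596743786496 c8 a8_1 a8_2 a8_3 q8 fun c81 a81_1 a81_2 a81_3 q81 =>
  negK c81 a81_1 a81_2 a81_3 q81 fun c82 a82_1 a82_2 a82_3 q82 =>
  addcK c82 a82_1 a82_2 a82_3 q82 1152921521374399300 1 fun c84 a84_1 a84_2 a84_3 q84 =>
  mulK c84 a84_1 a84_2 a84_3 q84 c8 a8_1 a8_2 a8_3 q8 fun c85 a85_1 a85_2 a85_3 q85 =>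
  addcK c85 a85_1 a85_2 a85_3 q85 1152921148365079577 1 fun c86 a86_1 a86_2 a86_3 q86 =>
  addK c80 a80_1 a80_2 a80_3 q80 c86 a86_1 a86_2 a86_3 q86 fun c88 a88_1 a88_2 a88_3 q88 =>
  mulK c4 a4_1 a4_2 a4_3 q4 c88 a88_1 a88_2 a88_3 q88 fun c90 a90_1 a90_2 a90_3 q90 =>
  smulK 3 250 288230376151711744250 3458764513820540928 c8 a8_1 a8_2 a8_3 q8 fun c91 a91_1 a91_2 a91_3 q91 =>
  negK c91 a91_1 a91_2 a91_3 q91 fun c92 a92_1 a92_2 a92_3 q92 =>
  addcK c92 a92_1 a92_2 a92_3 q92 1152921523848300462 1 fun c94 a94_1 a94_2 a94_3 q94 =>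
  mulK c94 a94_1 a94_2 a94_3 q94 c8 a8_1 a8_2 a8_3 q8 fun c95 a95_1 a95_2 a95_3 q95 =>
  addcK c95 a95_1 a95_2 a95_3 q95 1152921760243300434 1 fun c96 a96_1 a96_2 a96_3 q96 =>
  addK c90 a90_1 a90_2 a90_3 q90 c96 a96_1 a96_2 a96_3 q96 fun c98 a98_1 a98_2 a98_3 q98 =>
  subK c4 a4_1 a4_2 a4_3 q4 c1 a1_1 a1_2 a1_3 q1 fun c100 a100_1 a100_2 a100_3 q100 =>
  mulK c100 a100_1 a100_2 a100_3 q100 c14 a14_1 a14_2 a14_3 q14 fun c102 a102_1 a102_2 a102_3 q102 =>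
  addK c24 a24_1 a24_2 a24_3 q24 c102 a102_1 a102_2 a102_3 q102 fun c103 a103_1 a103_2 a103_3 q103 =>
  mulK c100 a100_1 a100_2 a100_3 q100 c103 a103_1 a103_2 a103_3 q103 fun c105 a105_1 a105_2 a105_3 q105 =>
  addK c34 a34_1 a34_2 a34_3 q34 c105 a105_1 a105_2 a105_3 q105 fun c106 a106_1 a106_2 a106_3 q106 =>
  mulK c100 a100_1 a100_2 a100_3 q100 c106 a106_1 a106_2 a106_3 q106 fun c108 a108_1 a108_2 a108_3 q108 =>
  addK c42 a42_1 a42_2 a42_3 q42 c108 a108_1 a108_2 a108_3 q108 fun c109 a109_1 a109_2 a109_3 q109 =>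
  mulK c100 a100_1 a100_2 a100_3 q100 c109 a109_1 a109_2 a109_3 q109 fun c111 a111_1 a111_2 a111_3 q111 =>
  addK c52 a52_1 a52_2 a52_3 q52 c111 a111_1 a111_2 a111_3 q111 fun c112 a112_1 a112_2 a112_3 q112 =>
  mulK c100 a100_1 a100_2 a100_3 q100 c112 a112_1 a112_2 a112_3 q112 fun c114 a114_1 a114_2 a114_3 q114 =>
  addK c62 a62_1 a62_2 a62_3 q62 c114 a114_1 a114_2 a114_3 q114 fun c115 a115_1 a115_2 a115_3 q115 =>
  mulK c100 a100_1 a100_2 a100_3 q100 c115 a115_1 a115_2 a115_3 q115 fun c117 a117_1 a117_2 a117_3 q117 =>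
  addK c70 a70_1 a70_2 a70_3 q70 c117 a117_1 a117_2 a117_3 q117 fun c118 a118_1 a118_2 a118_3 q118 =>
  mulK c100 a100_1 a100_2 a100_3 q100 c118 a118_1 a118_2 a118_3 q118 fun c120 a120_1 a120_2 a120_3 q120 =>
  addK c78 a78_1 a78_2 a78_3 q78 c120 a120_1 a120_2 a120_3 q120 fun c121 a121_1 a121_2 a121_3 q121 =>
  mulK c100 a100_1 a100_2 a100_3 q100 c121 a121_1 a121_2 a121_3 q121 fun c123 a123_1 a123_2 a123_3 q123 =>
  addK c88 a88_1 a88_2 a88_3 q88 c123 a123_1 a123_2 a123_3 q123 fun c124 a124_1 a124_2 a124_3 q124 =>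
  mulK c100 a100_1 a100_2 a100_3 q100 c124 a124_1 a124_2 a124_3 q124 fun c126 a126_1 a126_2 a126_3 q126 =>
  addK c98 a98_1 a98_2 a98_3 q98 c126 a126_1 a126_2 a126_3 q126 fun c127 a127_1 a127_2 a127_3 q127 =>
  subK c100 a100_1 a100_2 a100_3 q100 c1 a1_1 a1_2 a1_3 q1 fun c129 a129_1 a129_2 a129_3 q129 =>
  mulK c129 a129_1 a129_2 a129_3 q129 c14 a14_1 a14_2 a14_3 q14 fun c131 a131_1 a131_2 a131_3 q131 =>
  addK c103 a103_1 a103_2 a103_3 q103 c131 a131_1 a131_2 a131_3 q131 fun c132 a132_1 a132_2 a132_3 q132 =>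
  mulK c129 a129_1 a129_2 a129_3 q129 c132 a132_1 a132_2 a132_3 q132 fun c134 a134_1 a134_2 a134_3 q134 =>
  addK c106 a106_1 a106_2 a106_3 q106 c134 a134_1 a134_2 a134_3 q134 fun c135 a135_1 a135_2 a135_3 q135 =>
  mulK c129 a129_1 a129_2 a129_3 q129 c135 a135_1 a135_2 a135_3 q135 fun c137 a137_1 a137_2 a137_3 q137 =>
  addK c109 a109_1 a109_2 a109_3 q109 c137 a137_1 a137_2 a137_3 q137 fun c138 a138_1 a138_2 a138_3 q138 =>
  mulK c129 a129_1 a129_2 a129_3 q129 c138 a138_1 a138_2 a138_3 q138 fun c140 a140_1 a140_2 a140_3 q140 =>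
  addK c112 a112_1 a112_2 a112_3 q112 c140 a140_1 a140_2 a140_3 q140 fun c141 a141_1 a141_2 a141_3 q141 =>
  mulK c129 a129_1 a129_2 a129_3 q129 c141 a141_1 a141_2 a141_3 q141 fun c143 a143_1 a143_2 a143_3 q143 =>
  addK c115 a115_1 a115_2 a115_3 q115 c143 a143_1 a143_2 a143_3 q143 fun c144 a144_1 a144_2 a144_3 q144 =>
  mulK c129 a129_1 a129_2 a129_3 q129 c144 a144_1 a144_2 a144_3 q144 fun c146 a146_1 a146_2 a146_3 q146 =>
  addK c118 a118_1 a118_2 a118_3 q118 c146 a146_1 a146_2 a146_3 q146 fun c147 a147_1 a147_2 a147_3 q147 =>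
  mulK c129 a129_1 a129_2 a129_3 q129 c147 a147_1 a147_2 a147_3 q147 fun c149 a149_1 a149_2 a149_3 q149 =>
  addK c121 a121_1 a121_2 a121_3 q121 c149 a149_1 a149_2 a149_3 q149 fun c150 a150_1 a150_2 a150_3 q150 =>
  mulK c129 a129_1 a129_2 a129_3 q129 c150 a150_1 a150_2 a150_3 q150 fun c152 a152_1 a152_2 a152_3 q152 =>
  addK c124 a124_1 a124_2 a124_3 q124 c152 a152_1 a152_2 a152_3 q152 fun c153 a153_1 a153_2 a153_3 q153 =>
  mulK c1 a1_1 a1_2 a1_3 q1 c153 a153_1 a153_2 a153_3 q153 fun c155 a155_1 a155_2 a155_3 q155 =>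
  subK c127 a127_1 a127_2 a127_3 q127 c155 a155_1 a155_2 a155_3 q155 fun c156 a156_1 a156_2 a156_3 q156 =>
  smulK 2 1 1152921504606846977 2305843009213693952 c156 a156_1 a156_2 a156_3 q156 fun c157 a157_1 a157_2 a157_3 q157 =>
  mulK z1 (Nat.add w1 1152921504606846976) 1152921504606846976 1152921504606846976 0 c157 a157_1 a157_2 a157_3 q157 fun c159 a159_1 a159_2 a159_3 q159 =>
  smulK 14 25 28823037615171174425 16140901064495857664 c159 a159_1 a159_2 a159_3 q159 fun c160 a160_1 a160_2 a160_3 q160 =>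
  negK c160 a160_1 a160_2 a160_3 q160 fun c161 a161_1 a161_2 a161_3 q161 =>
  addcK c161 a161_1 a161_2 a161_3 q161 1152922604118474752 0 fun c162 a162_1 a162_2 a162_3 q162 =>
  mulK z1 (Nat.add w1 1152921504606846976) 1152921504606846976 1152921504606846976 0 c162 a162_1 a162_2 a162_3 q162 fun c165 a165_1 a165_2 a165_3 q165 =>
  mulK c1 a1_1 a1_2 a1_3 q1 c165 a165_1 a165_2 a165_3 q165 fun c166 a166_1 a166_2 a166_3 q166 =>
  mulK c4 a4_1 a4_2 a4_3 q4 c98 a98_1 a98_2 a98_3 q98 fun c167 a167_1 a167_2 a167_3 q167 =>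
  addcK c167 a167_1 a167_2 a167_3 q167 1152922054362660864 0 fun c168 a168_1 a168_2 a168_3 q168 =>
  smulK 91 100 115292150460684697700 104915856919223074816 c168 a168_1 a168_2 a168_3 q168 fun c170 a170_1 a170_2 a170_3 q170 =>
  smulK 3 5 5764607523034234885 3458764513820540928 z1 (Nat.add w1 1152921504606846976) 1152921504606846976 1152921504606846976 0 fun c171 a171_1 a171_2 a171_3 q171 =>
  addcK c171 a171_1 a171_2 a171_3 q171 1152921394655684198 1 fun c172 a172_1 a172_2 a172_3 q172 =>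
  mulK c1 a1_1 a1_2 a1_3 q1 c157 a157_1 a157_2 a157_3 q157 fun c174 a174_1 a174_2 a174_3 q174 =>
  mulK c172 a172_1 a172_2 a172_3 q172 c174 a174_1 a174_2 a174_3 q174 fun c175 a175_1 a175_2 a175_3 q175 =>
  subK c170 a170_1 a170_2 a170_3 q170 c175 a175_1 a175_2 a175_3 q175 fun c176 a176_1 a176_2 a176_3 q176 =>
  mulK z1 (Nat.add w1 1152921504606846976) 1152921504606846976 1152921504606846976 0 c176 a176_1 a176_2 a176_3 q176 fun c177 a177_1 a177_2 a177_3 q177 =>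
  negK z2 1152921504606846976 (Nat.add w2 1152921504606846976) 1152921504606846976 0 fun c178 a178_1 a178_2 a178_3 q178 =>
  addcK c178 a178_1 a178_2 a178_3 q178 1152922604118474752 0 fun c179 a179_1 a179_2 a179_3 q179 =>
  smulK 9 1000 1152921504606846977000 10376293541461622784 c179 a179_1 a179_2 a179_3 q179 fun c181 a181_1 a181_2 a181_3 q181 =>
  addK c177 a177_1 a177_2 a177_3 q177 c181 a181_1 a181_2 a181_3 q181 fun c182 a182_1 a182_2 a182_3 q182 =>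
  smulK 1 2 2305843009213693954 1152921504606846976 c182 a182_1 a182_2 a182_3 q182 fun c184 a184_1 a184_2 a184_3 q184 =>
  subK c166 a166_1 a166_2 a166_3 q166 c184 a184_1 a184_2 a184_3 q184 fun c186 a186_1 a186_2 a186_3 q186 =>
  sqK c1 a1_1 a1_2 a1_3 q1 fun c187 a187_1 a187_2 a187_3 q187 =>
  mulK c187 a187_1 a187_2 a187_3 q187 c153 a153_1 a153_2 a153_3 q153 fun c188 a188_1 a188_2 a188_3 q188 =>
  mulK z1 (Nat.add w1 1152921504606846976) 1152921504606846976 1152921504606846976 0 c188 a188_1 a188_2 a188_3 q188 fun c189 a189_1 a189_2 a189_3 q189 =>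
  smulK 5 2 2305843009213693954 5764607523034234880 c189 a189_1 a189_2 a189_3 q189 fun c190 a190_1 a190_2 a190_3 q190 =>
  addK c186 a186_1 a186_2 a186_3 q186 c190 a190_1 a190_2 a190_3 q190 fun c191 a191_1 a191_2 a191_3 q191 =>
  smulK 10 1 1152921504606846977 11529215046068469760 c191 a191_1 a191_2 a191_3 q191 fun c193 a193_1 a193_2 a193_3 q193 =>
  pos c193 a193_1 a193_2 a193_3 q193

theorem alt4_s {p1 z1 w1 z2 w2 z3 w3 : ℕ} {e1 e2 e3 s r th p : ℝ} (he : Ev e1 e2 e3)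
    (hp1 : In e1 e2 e3 p1 1152921504606846976 1152921504606846976 1152921504606846976 0 p)
    (hx1 : In e1 e2 e3 z1 (Nat.add w1 1152921504606846976) 1152921504606846976 1152921504606846976 0 s)
    (hx2 : In e1 e2 e3 z2 1152921504606846976 (Nat.add w2 1152921504606846976) 1152921504606846976 0 r)
    (hx3 : In e1 e2 e3 z3 1152921504606846976 1152921504606846976 (Nat.add w3 1152921504606846976) 0 th)
    (H0 : alt4 p1 z1 w1 z2 w2 z3 w3 = true) : 0 < ((10:ℝ) * (fH s r th p)) := by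
  unfold alt4 at H0
  refine mulK_s he hx2 hx3 (fun _ _ _ _ _ h1 H1 => ?_) H0
  have h2 := In_cast (w := (fd s r th p)) h1 rfl
  refine smulK_s he (w := (2:ℝ)) (by norm_num) (by norm_num) (by norm_num) (by norm_num) hx2 (fun _ _ _ _ _ h3 H2 => ?_) H1
  refine addcK_s he h3 (v' := (-1:ℝ)) (by norm_num [SS, BB, abs_le]) (fun _ _ _ _ _ h4 H3 => ?_) H2
  have h5 := In_cast h4 (sub_c (c := (1:ℝ)) (by norm_num))
  have h6 := In_cast (w := (fm1 s r th p)) h5 rfl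
  refine smulK_s he (w := (10:ℝ)) (by norm_num) (by norm_num) (by norm_num) (by norm_num) hx1 (fun _ _ _ _ _ h7 H4 => ?_) H3
  refine addcK_s he h7 (v' := (-7:ℝ)) (by norm_num [SS, BB, abs_le]) (fun _ _ _ _ _ h8 H5 => ?_) H4
  have h9 := In_cast h8 (sub_c (c := (7:ℝ)) (by norm_num))
  have h10 := In_cast (w := (fsg s r th p)) h9 rfl
  refine smulK_s he (w := (51/4000:ℝ)) (by norm_num) (by norm_num) (by norm_num) (by norm_num) h10 (fun _ _ _ _ _ h11 H6 => ?_) H5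
  refine addcK_s he h11 (v' := (107/4000:ℝ)) (by norm_num [SS, BB, abs_le]) (fun _ _ _ _ _ h12 H7 => ?_) H6
  refine mulK_s he h12 h10 (fun _ _ _ _ _ h13 H8 => ?_) H7
  refine addcK_s he h13 (v' := (-273/2000:ℝ)) (by norm_num [SS, BB, abs_le]) (fun _ _ _ _ _ h14 H9 => ?_) H8
  have h15 := In_cast (w := (fq10 s r th p)) h14 rfl
  refine mulK_s he h6 h15 (fun _ _ _ _ _ h16 H10 => ?_) H9
  refine smulK_s he (w := (93/4000:ℝ)) (by norm_num) (by norm_num) (by norm_num) (by norm_num) h10 (fun _ _ _ _ _ h17 H11 => ?_) H10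
  refine negK_s he h17 (fun _ _ _ _ _ h18 H12 => ?_) H11
  have h19 := In_cast h18 (neg_mul_c (c := (-93/4000:ℝ)) (by norm_num))
  refine addcK_s he h19 (v' := (-19/400:ℝ)) (by norm_num [SS, BB, abs_le]) (fun _ _ _ _ _ h20 H13 => ?_) H12
  refine mulK_s he h20 h10 (fun _ _ _ _ _ h21 H14 => ?_) H13
  refine addcK_s he h21 (v' := (-371/4000:ℝ)) (by norm_num [SS, BB, abs_le]) (fun _ _ _ _ _ h22 H15 => ?_) H14
  have h23 := In_cast (w := (fq9 s r th p)) h22 rfl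
  refine addK_s he h16 h23 (fun _ _ _ _ _ h24 H16 => ?_) H15
  have h25 := In_cast (w := (fh9 s r th p)) h24 rfl
  refine mulK_s he h6 h25 (fun _ _ _ _ _ h26 H17 => ?_) H16
  refine smulK_s he (w := (51/4000:ℝ)) (by norm_num) (by norm_num) (by norm_num) (by norm_num) h10 (fun _ _ _ _ _ h27 H18 => ?_) H17
  refine negK_s he h27 (fun _ _ _ _ _ h28 H19 => ?_) H18
  have h29 := In_cast h28 (neg_mul_c (c := (-51/4000:ℝ)) (by norm_num))
  refine addcK_s he h29 (v' := (-207/4000:ℝ)) (by norm_num [SS, BB, abs_le]) (fun _ _ _ _ _ h30 H20 => ?_) H19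
  refine mulK_s he h30 h10 (fun _ _ _ _ _ h31 H21 => ?_) H20
  refine addcK_s he h31 (v' := (459/4000:ℝ)) (by norm_num [SS, BB, abs_le]) (fun _ _ _ _ _ h32 H22 => ?_) H21
  have h33 := In_cast (w := (fq8 s r th p)) h32 rfl
  refine addK_s he h26 h33 (fun _ _ _ _ _ h34 H23 => ?_) H22
  have h35 := In_cast (w := (fh8 s r th p)) h34 rfl
  refine mulK_s he h6 h35 (fun _ _ _ _ _ h36 H24 => ?_) H23
  refine smulK_s he (w := (193/4000:ℝ)) (by norm_num) (by norm_num) (by norm_num) (by norm_num) h10 (fun _ _ _ _ _ h37 H25 => ?_) H24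
  refine addcK_s he h37 (v' := (213/2000:ℝ)) (by norm_num [SS, BB, abs_le]) (fun _ _ _ _ _ h38 H26 => ?_) H25
  refine mulK_s he h38 h10 (fun _ _ _ _ _ h39 H27 => ?_) H26
  refine addcK_s he h39 (v' := (21/1000:ℝ)) (by norm_num [SS, BB, abs_le]) (fun _ _ _ _ _ h40 H28 => ?_) H27
  have h41 := In_cast (w := (fq7 s r th p)) h40 rfl
  refine addK_s he h36 h41 (fun _ _ _ _ _ h42 H29 => ?_) H28
  have h43 := In_cast (w := (fh7 s r th p)) h42 rfl
  refine mulK_s he h6 h43 (fun _ _ _ _ _ h44 H30 => ?_) H29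
  refine smulK_s he (w := (149/4000:ℝ)) (by norm_num) (by norm_num) (by norm_num) (by norm_num) h10 (fun _ _ _ _ _ h45 H31 => ?_) H30
  refine negK_s he h45 (fun _ _ _ _ _ h46 H32 => ?_) H31
  have h47 := In_cast h46 (neg_mul_c (c := (-149/4000:ℝ)) (by norm_num))
  refine addcK_s he h47 (v' := (7/500:ℝ)) (by norm_num [SS, BB, abs_le]) (fun _ _ _ _ _ h48 H33 => ?_) H32
  refine mulK_s he h48 h10 (fun _ _ _ _ _ h49 H34 => ?_) H33
  refine addcK_s he h49 (v' := (-127/2000:ℝ)) (by norm_num [SS, BB, abs_le]) (fun _ _ _ _ _ h50 H35 => ?_) H34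
  have h51 := In_cast (w := (fq6 s r th p)) h50 rfl
  refine addK_s he h44 h51 (fun _ _ _ _ _ h52 H36 => ?_) H35
  have h53 := In_cast (w := (fh6 s r th p)) h52 rfl
  refine mulK_s he h6 h53 (fun _ _ _ _ _ h54 H37 => ?_) H36
  refine smulK_s he (w := (221/4000:ℝ)) (by norm_num) (by norm_num) (by norm_num) (by norm_num) h10 (fun _ _ _ _ _ h55 H38 => ?_) H37
  refine negK_s he h55 (fun _ _ _ _ _ h56 H39 => ?_) H38
  have h57 := In_cast h56 (neg_mul_c (c := (-221/4000:ℝ)) (by norm_num))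
  refine addcK_s he h57 (v' := (-79/800:ℝ)) (by norm_num [SS, BB, abs_le]) (fun _ _ _ _ _ h58 H40 => ?_) H39
  refine mulK_s he h58 h10 (fun _ _ _ _ _ h59 H41 => ?_) H40
  refine addcK_s he h59 (v' := (-1/32:ℝ)) (by norm_num [SS, BB, abs_le]) (fun _ _ _ _ _ h60 H42 => ?_) H41
  have h61 := In_cast (w := (fq5 s r th p)) h60 rfl
  refine addK_s he h54 h61 (fun _ _ _ _ _ h62 H43 => ?_) H42
  have h63 := In_cast (w := (fh5 s r th p)) h62 rfl
  refine mulK_s he h6 h63 (fun _ _ _ _ _ h64 H44 => ?_) H43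
  refine smulK_s he (w := (17/400:ℝ)) (by norm_num) (by norm_num) (by norm_num) (by norm_num) h10 (fun _ _ _ _ _ h65 H45 => ?_) H44
  refine addcK_s he h65 (v' := (-17/4000:ℝ)) (by norm_num [SS, BB, abs_le]) (fun _ _ _ _ _ h66 H46 => ?_) H45
  refine mulK_s he h66 h10 (fun _ _ _ _ _ h67 H47 => ?_) H46
  refine addcK_s he h67 (v' := (-363/4000:ℝ)) (by norm_num [SS, BB, abs_le]) (fun _ _ _ _ _ h68 H48 => ?_) H47
  have h69 := In_cast (w := (fq4 s r th p)) h68 rfl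
  refine addK_s he h64 h69 (fun _ _ _ _ _ h70 H49 => ?_) H48
  have h71 := In_cast (w := (fh4 s r th p)) h70 rfl
  refine mulK_s he h6 h71 (fun _ _ _ _ _ h72 H50 => ?_) H49
  refine smulK_s he (w := (169/4000:ℝ)) (by norm_num) (by norm_num) (by norm_num) (by norm_num) h10 (fun _ _ _ _ _ h73 H51 => ?_) H50
  refine addcK_s he h73 (v' := (89/4000:ℝ)) (by norm_num [SS, BB, abs_le]) (fun _ _ _ _ _ h74 H52 => ?_) H51
  refine mulK_s he h74 h10 (fun _ _ _ _ _ h75 H53 => ?_) H52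
  refine addcK_s he h75 (v' := (-259/2000:ℝ)) (by norm_num [SS, BB, abs_le]) (fun _ _ _ _ _ h76 H54 => ?_) H53
  have h77 := In_cast (w := (fq3 s r th p)) h76 rfl
  refine addK_s he h72 h77 (fun _ _ _ _ _ h78 H55 => ?_) H54
  have h79 := In_cast (w := (fh3 s r th p)) h78 rfl
  refine mulK_s he h6 h79 (fun _ _ _ _ _ h80 H56 => ?_) H55
  refine smulK_s he (w := (21/4000:ℝ)) (by norm_num) (by norm_num) (by norm_num) (by norm_num) h10 (fun _ _ _ _ _ h81 H57 => ?_) H56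
  refine negK_s he h81 (fun _ _ _ _ _ h82 H58 => ?_) H57
  have h83 := In_cast h82 (neg_mul_c (c := (-21/4000:ℝ)) (by norm_num))
  refine addcK_s he h83 (v' := (61/4000:ℝ)) (by norm_num [SS, BB, abs_le]) (fun _ _ _ _ _ h84 H59 => ?_) H58
  refine mulK_s he h84 h10 (fun _ _ _ _ _ h85 H60 => ?_) H59
  refine addcK_s he h85 (v' := (-81/250:ℝ)) (by norm_num [SS, BB, abs_le]) (fun _ _ _ _ _ h86 H61 => ?_) H60
  have h87 := In_cast (w := (fq2 s r th p)) h86 rfl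
  refine addK_s he h80 h87 (fun _ _ _ _ _ h88 H62 => ?_) H61
  have h89 := In_cast (w := (fh2 s r th p)) h88 rfl
  refine mulK_s he h6 h89 (fun _ _ _ _ _ h90 H63 => ?_) H62
  refine smulK_s he (w := (3/250:ℝ)) (by norm_num) (by norm_num) (by norm_num) (by norm_num) h10 (fun _ _ _ _ _ h91 H64 => ?_) H63
  refine negK_s he h91 (fun _ _ _ _ _ h92 H65 => ?_) H64
  have h93 := In_cast h92 (neg_mul_c (c := (-3/250:ℝ)) (by norm_num))
  refine addcK_s he h93 (v' := (7/400:ℝ)) (by norm_num [SS, BB, abs_le]) (fun _ _ _ _ _ h94 H66 => ?_) H65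
  refine mulK_s he h94 h10 (fun _ _ _ _ _ h95 H67 => ?_) H66
  refine addcK_s he h95 (v' := (93/400:ℝ)) (by norm_num [SS, BB, abs_le]) (fun _ _ _ _ _ h96 H68 => ?_) H67
  have h97 := In_cast (w := (fq1 s r th p)) h96 rfl
  refine addK_s he h90 h97 (fun _ _ _ _ _ h98 H69 => ?_) H68
  have h99 := In_cast (w := (fh1 s r th p)) h98 rfl
  refine subK_s he h6 h2 (fun _ _ _ _ _ h100 H70 => ?_) H69
  have h101 := In_cast (w := (fmm s r th p)) h100 rfl
  refine mulK_s he h101 h15 (fun _ _ _ _ _ h102 H71 => ?_) H70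
  refine addK_s he h25 h102 (fun _ _ _ _ _ h103 H72 => ?_) H71
  have h104 := In_cast (w := (fg9 s r th p)) h103 rfl
  refine mulK_s he h101 h104 (fun _ _ _ _ _ h105 H73 => ?_) H72
  refine addK_s he h35 h105 (fun _ _ _ _ _ h106 H74 => ?_) H73
  have h107 := In_cast (w := (fg8 s r th p)) h106 rfl
  refine mulK_s he h101 h107 (fun _ _ _ _ _ h108 H75 => ?_) H74
  refine addK_s he h43 h108 (fun _ _ _ _ _ h109 H76 => ?_) H75
  have h110 := In_cast (w := (fg7 s r th p)) h109 rfl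
  refine mulK_s he h101 h110 (fun _ _ _ _ _ h111 H77 => ?_) H76
  refine addK_s he h53 h111 (fun _ _ _ _ _ h112 H78 => ?_) H77
  have h113 := In_cast (w := (fg6 s r th p)) h112 rfl
  refine mulK_s he h101 h113 (fun _ _ _ _ _ h114 H79 => ?_) H78
  refine addK_s he h63 h114 (fun _ _ _ _ _ h115 H80 => ?_) H79
  have h116 := In_cast (w := (fg5 s r th p)) h115 rfl
  refine mulK_s he h101 h116 (fun _ _ _ _ _ h117 H81 => ?_) H80
  refine addK_s he h71 h117 (fun _ _ _ _ _ h118 H82 => ?_) H81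
  have h119 := In_cast (w := (fg4 s r th p)) h118 rfl
  refine mulK_s he h101 h119 (fun _ _ _ _ _ h120 H83 => ?_) H82
  refine addK_s he h79 h120 (fun _ _ _ _ _ h121 H84 => ?_) H83
  have h122 := In_cast (w := (fg3 s r th p)) h121 rfl
  refine mulK_s he h101 h122 (fun _ _ _ _ _ h123 H85 => ?_) H84
  refine addK_s he h89 h123 (fun _ _ _ _ _ h124 H86 => ?_) H85
  have h125 := In_cast (w := (fg2 s r th p)) h124 rfl
  refine mulK_s he h101 h125 (fun _ _ _ _ _ h126 H87 => ?_) H86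
  refine addK_s he h99 h126 (fun _ _ _ _ _ h127 H88 => ?_) H87
  have h128 := In_cast (w := (fg1 s r th p)) h127 rfl
  refine subK_s he h101 h2 (fun _ _ _ _ _ h129 H89 => ?_) H88
  have h130 := In_cast (w := (fm0 s r th p)) h129 rfl
  refine mulK_s he h130 h15 (fun _ _ _ _ _ h131 H90 => ?_) H89
  refine addK_s he h104 h131 (fun _ _ _ _ _ h132 H91 => ?_) H90
  have h133 := In_cast (w := (fk9 s r th p)) h132 rfl
  refine mulK_s he h130 h133 (fun _ _ _ _ _ h134 H92 => ?_) H91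
  refine addK_s he h107 h134 (fun _ _ _ _ _ h135 H93 => ?_) H92
  have h136 := In_cast (w := (fk8 s r th p)) h135 rfl
  refine mulK_s he h130 h136 (fun _ _ _ _ _ h137 H94 => ?_) H93
  refine addK_s he h110 h137 (fun _ _ _ _ _ h138 H95 => ?_) H94
  have h139 := In_cast (w := (fk7 s r th p)) h138 rfl
  refine mulK_s he h130 h139 (fun _ _ _ _ _ h140 H96 => ?_) H95
  refine addK_s he h113 h140 (fun _ _ _ _ _ h141 H97 => ?_) H96
  have h142 := In_cast (w := (fk6 s r th p)) h141 rfl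
  refine mulK_s he h130 h142 (fun _ _ _ _ _ h143 H98 => ?_) H97
  refine addK_s he h116 h143 (fun _ _ _ _ _ h144 H99 => ?_) H98
  have h145 := In_cast (w := (fk5 s r th p)) h144 rfl
  refine mulK_s he h130 h145 (fun _ _ _ _ _ h146 H100 => ?_) H99
  refine addK_s he h119 h146 (fun _ _ _ _ _ h147 H101 => ?_) H100
  have h148 := In_cast (w := (fk4 s r th p)) h147 rfl
  refine mulK_s he h130 h148 (fun _ _ _ _ _ h149 H102 => ?_) H101
  refine addK_s he h122 h149 (fun _ _ _ _ _ h150 H103 => ?_) H102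
  have h151 := In_cast (w := (fk3 s r th p)) h150 rfl
  refine mulK_s he h130 h151 (fun _ _ _ _ _ h152 H104 => ?_) H103
  refine addK_s he h125 h152 (fun _ _ _ _ _ h153 H105 => ?_) H104
  have h154 := In_cast (w := (fk2 s r th p)) h153 rfl
  refine mulK_s he h2 h154 (fun _ _ _ _ _ h155 H106 => ?_) H105
  refine subK_s he h128 h155 (fun _ _ _ _ _ h156 H107 => ?_) H106
  refine smulK_s he (w := (2:ℝ)) (by norm_num) (by norm_num) (by norm_num) (by norm_num) h156 (fun _ _ _ _ _ h157 H108 => ?_) H107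
  have h158 := In_cast (w := (fD1 s r th p)) h157 rfl
  refine mulK_s he hx1 h158 (fun _ _ _ _ _ h159 H109 => ?_) H108
  refine smulK_s he (w := (14/25:ℝ)) (by norm_num) (by norm_num) (by norm_num) (by norm_num) h159 (fun _ _ _ _ _ h160 H110 => ?_) H109
  refine negK_s he h160 (fun _ _ _ _ _ h161 H111 => ?_) H110
  refine addcK_s he h161 (v' := (1:ℝ)) (by norm_num [SS, BB, abs_le]) (fun _ _ _ _ _ h162 H112 => ?_) H111
  have h163 := In_cast h162 (neg_add_eq_sub _ _)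
  have h164 := In_cast (w := (fZ s r th p)) h163 rfl
  refine mulK_s he hx1 h164 (fun _ _ _ _ _ h165 H113 => ?_) H112
  refine mulK_s he h2 h165 (fun _ _ _ _ _ h166 H114 => ?_) H113
  refine mulK_s he h6 h99 (fun _ _ _ _ _ h167 H115 => ?_) H114
  refine addcK_s he h167 (v' := (1/2:ℝ)) (by norm_num [SS, BB, abs_le]) (fun _ _ _ _ _ h168 H116 => ?_) H115
  have h169 := In_cast (w := (fh0 s r th p)) h168 rfl
  refine smulK_s he (w := (91/100:ℝ)) (by norm_num) (by norm_num) (by norm_num) (by norm_num) h169 (fun _ _ _ _ _ h170 H117 => ?_) H116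
  refine smulK_s he (w := (3/5:ℝ)) (by norm_num) (by norm_num) (by norm_num) (by norm_num) hx1 (fun _ _ _ _ _ h171 H118 => ?_) H117
  refine addcK_s he h171 (v' := (-1/10:ℝ)) (by norm_num [SS, BB, abs_le]) (fun _ _ _ _ _ h172 H119 => ?_) H118
  have h173 := In_cast h172 (sub_c (c := (1/10:ℝ)) (by norm_num))
  refine mulK_s he h2 h158 (fun _ _ _ _ _ h174 H120 => ?_) H119
  refine mulK_s he h173 h174 (fun _ _ _ _ _ h175 H121 => ?_) H120
  refine subK_s he h170 h175 (fun _ _ _ _ _ h176 H122 => ?_) H121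
  refine mulK_s he hx1 h176 (fun _ _ _ _ _ h177 H123 => ?_) H122
  refine negK_s he hx2 (fun _ _ _ _ _ h178 H124 => ?_) H123
  refine addcK_s he h178 (v' := (1:ℝ)) (by norm_num [SS, BB, abs_le]) (fun _ _ _ _ _ h179 H125 => ?_) H124
  have h180 := In_cast h179 (neg_add_eq_sub _ _)
  refine smulK_s he (w := (9/1000:ℝ)) (by norm_num) (by norm_num) (by norm_num) (by norm_num) h180 (fun _ _ _ _ _ h181 H126 => ?_) H125
  refine addK_s he h177 h181 (fun _ _ _ _ _ h182 H127 => ?_) H126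
  have h183 := In_cast (w := (fL s r th p)) h182 rfl
  refine smulK_s he (w := (1/2:ℝ)) (by norm_num) (by norm_num) (by norm_num) (by norm_num) h183 (fun _ _ _ _ _ h184 H128 => ?_) H127
  have h185 := In_cast h184 (div_c (c := (2:ℝ)) (by norm_num))
  refine subK_s he h166 h185 (fun _ _ _ _ _ h186 H129 => ?_) H128
  refine sqK_s he h2 (fun _ _ _ _ _ h187 H130 => ?_) H129
  refine mulK_s he h187 h154 (fun _ _ _ _ _ h188 H131 => ?_) H130
  refine mulK_s he hx1 h188 (fun _ _ _ _ _ h189 H132 => ?_) H131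
  refine smulK_s he (w := (5/2:ℝ)) (by norm_num) (by norm_num) (by norm_num) (by norm_num) h189 (fun _ _ _ _ _ h190 H133 => ?_) H132
  refine addK_s he h186 h190 (fun _ _ _ _ _ h191 H134 => ?_) H133
  have h192 := In_cast (w := (fH s r th p)) h191 rfl
  refine smulK_s he (w := (10:ℝ)) (by norm_num) (by norm_num) (by norm_num) (by norm_num) h192 (fun _ _ _ _ _ h193 H135 => ?_) H134
  exact pos_s he h193 H135

attribute [irreducible] alt0 alt1 alt2 alt3 alt4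

noncomputable def leaf (j u z1 w1 z2 w2 z3 w3 : ℕ) : Bool :=
  fB (Nat.add (Nat.land (Nat.shiftRight u 0) 65535) 1) fun n1 =>
  fB (Nat.add (Nat.mul n1 16777216) 1152921504606846977) fun p1 =>
  sB j (alt0 p1 z1 w1 z2 w2 z3 w3) fun j => sB j (alt1 p1 z1 w1 z2 w2 z3 w3) fun j => sB j (alt2 p1 z1 w1 z2 w2 z3 w3) fun j => sB j (alt3 p1 z1 w1 z2 w2 z3 w3) fun j => alt4 p1 z1 w1 z2 w2 z3 w3

theorem snd : Snd Q leaf := by
  intro j u z1 w1 z2 w2 z3 w3 e1 e2 e3 he H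
  unfold leaf at H
  unfold Q
  replace H := frc H
  obtain ⟨n1, hn1, H⟩ := H
  replace H := frc H
  obtain ⟨p1, hp1, H⟩ := H
  obtain ⟨hp1, ha, hb⟩ := par (e1 := e1) (e2 := e2) (e3 := e3) hn1 hp1
  refine ⟨_, ha, hb, ?_⟩
  replace H := sel H
  rcases H with H | ⟨j, H⟩
  · exact Or.inl (alt0_s he hp1 (var1 z1 w1) (var2 z2 w2) (var3 z3 w3) H)
  replace H := sel H
  rcases H with H | ⟨j, H⟩
  · exact Or.inr (Or.inl (alt1_s he hp1 (var1 z1 w1) (var2 z2 w2) (var3 z3 w3) H))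
  replace H := sel H
  rcases H with H | ⟨j, H⟩
  · exact Or.inr (Or.inr (Or.inl (alt2_s he hp1 (var1 z1 w1) (var2 z2 w2) (var3 z3 w3) H)))
  replace H := sel H
  rcases H with H | ⟨j, H⟩
  · exact Or.inr (Or.inr (Or.inr (Or.inl (alt3_s he hp1 (var1 z1 w1) (var2 z2 w2) (var3 z3 w3) H))))
  exact Or.inr (Or.inr (Or.inr (Or.inr (alt4_s he hp1 (var1 z1 w1) (var2 z2 w2) (var3 z3 w3) H))))

end Crest.Agent.R307.SUc
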