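import Crest.Agent.R307.IA2
import Crest.Agent.R307.IAx
set_option autoImplicit false
set_option linter.unusedVariables false
set_option maxRecDepth 20000
namespace Crest.Agent.R307.SUe
open Crest.Agent.R307.IA Crest.Agent.R307.IA2

theorem In_cast {e1 e2 : ℝ} {x y1 y2 r : ℕ} {v w : ℝ}
    (h : In e1 e2 x y1 y2 r v) (e : v = w) : In e1 e2 x y1 y2 r w := e ▸ h

noncomputable def fal (rho u : ℝ) : ℝ := (((1:ℝ) + rho) / (2:ℝ))
noncomputable def fsa (rho u : ℝ) : ℝ := (√(fal rho u))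
noncomputable def fy (rho u : ℝ) : ℝ := (((2:ℝ) * u) / ((1:ℝ) + (u ^ 2)))
noncomputable def fxa (rho u : ℝ) : ℝ := ((fsa rho u) * (fy rho u))
noncomputable def fra (rho u : ℝ) : ℝ := (√((1:ℝ) - ((fxa rho u) ^ 2)))
noncomputable def fbe (rho u : ℝ) : ℝ := (((1:ℝ) - rho) / (2:ℝ))
noncomputable def fsb (rho u : ℝ) : ℝ := (√(fbe rho u))
noncomputable def fxb (rho u : ℝ) : ℝ := ((fsb rho u) * (fy rho u))
noncomputable def frb (rho u : ℝ) : ℝ := (√((1:ℝ) - ((fxb rho u) ^ 2)))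
noncomputable def fr (rho u : ℝ) : ℝ := (((1:ℝ) - (u ^ 2)) / ((1:ℝ) + (u ^ 2)))
noncomputable def fs (rho u : ℝ) : ℝ := (√((1:ℝ) - (rho ^ 2)))
noncomputable def fsg (rho u : ℝ) : ℝ := (((10:ℝ) * (fs rho u)) - (7:ℝ))
noncomputable def fb1 (rho u : ℝ) : ℝ := (((((93/8192:ℝ) * (fsg rho u)) + (-22917/1024000:ℝ)) * (fsg rho u)) + (80277/64000:ℝ))
noncomputable def fF1 (rho u : ℝ) : ℝ := (((((fal rho u) * ((2:ℝ) - (((1:ℝ) + (fxa rho u)) / ((1:ℝ) + (fra rho u))))) + ((fbe rho u) * ((2:ℝ) - (((1:ℝ) + (fxb rho u)) / ((1:ℝ) + (frb rho u)))))) - ((1/2:ℝ) * ((2:ℝ) - (((1:ℝ) + (fy rho u)) / ((1:ℝ) + (fr rho u)))))) - ((fs rho u) * ((fb1 rho u) - (1/2:ℝ))))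
noncomputable def fb3 (rho u : ℝ) : ℝ := (((((-5691/1024000:ℝ) * (fsg rho u)) + (52323/1024000:ℝ)) * (fsg rho u)) + (524001/256000:ℝ))
noncomputable def fF2 (rho u : ℝ) : ℝ := (((((fsa rho u) * ((((fra rho u) + (1:ℝ)) + ((fxa rho u) / ((1:ℝ) + (fra rho u)))) - ((2:ℝ) * (fxa rho u)))) + ((fsb rho u) * ((((frb rho u) + (1:ℝ)) + ((fxb rho u) / ((1:ℝ) + (frb rho u)))) - ((2:ℝ) * (fxb rho u))))) - ((6/5:ℝ) * ((((fr rho u) + (1:ℝ)) + ((fy rho u) / ((1:ℝ) + (fr rho u)))) - ((2:ℝ) * (fy rho u))))) - (((fs rho u) * ((fb3 rho u) - (6/5:ℝ))) * (fy rho u)))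
noncomputable def fc7 (rho u : ℝ) : ℝ := (((((-51/1000:ℝ) * (fsg rho u)) + (-107/1000:ℝ)) * (fsg rho u)) + (273/500:ℝ))
noncomputable def fyy (rho u : ℝ) : ℝ := ((fy rho u) ^ 2)
noncomputable def fc5 (rho u : ℝ) : ℝ := (((((0:ℝ) * (fsg rho u)) + (1/10:ℝ)) * (fsg rho u)) + (87/1000:ℝ))
noncomputable def fc3 (rho u : ℝ) : ℝ := (((((149/1000:ℝ) * (fsg rho u)) + (11/250:ℝ)) * (fsg rho u)) + (341/1000:ℝ))
noncomputable def fc1 (rho u : ℝ) : ℝ := (((((-21/1000:ℝ) * (fsg rho u)) + (61/1000:ℝ)) * (fsg rho u)) + (88/125:ℝ))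
noncomputable def fO (rho u : ℝ) : ℝ := (((((((fc7 rho u) * (fyy rho u)) + (fc5 rho u)) * (fyy rho u)) + (fc3 rho u)) * (fyy rho u)) + (fc1 rho u))
noncomputable def fF3 (rho u : ℝ) : ℝ := (((fs rho u) * (((((fr rho u) ^ 2) * (fO rho u)) / (2:ℝ)) - (1:ℝ))) + ((1:ℝ) / ((1:ℝ) + (fr rho u))))

def Q (rho u : ℝ) : Prop :=
  (
  (0 < (fF1 rho u) ∧ 0 < (fF2 rho u) ∧ 0 < (fF3 rho u)))

noncomputable def alt0 (z1 w1 z2 w2 : ℕ) : Bool :=
  addcK z1 (Nat.add w1 1152921504606846976) 1152921504606846976 0 1152922604118474752 0 fun c1 a1_1 a1_2 q1 =>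
  smulK 1 2 2305843009213693954 1152921504606846976 c1 a1_1 a1_2 q1 fun c3 a3_1 a3_2 q3 =>
  sqrtK c3 a3_1 a3_2 q3 fun c6 a6_1 a6_2 q6 =>
  sqK z2 1152921504606846976 (Nat.add w2 1152921504606846976) 0 fun c8 a8_1 a8_2 q8 =>
  addcK c8 a8_1 a8_2 q8 1152922604118474752 0 fun c9 a9_1 a9_2 q9 =>
  invK c9 a9_1 a9_2 q9 fun c11 a11_1 a11_2 q11 =>
  smulK 2 1 1152921504606846977 2305843009213693952 z2 1152921504606846976 (Nat.add w2 1152921504606846976) 0 fun c12 a12_1 a12_2 q12 =>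
  mulK c12 a12_1 a12_2 q12 c11 a11_1 a11_2 q11 fun c13 a13_1 a13_2 q13 =>
  mulK c6 a6_1 a6_2 q6 c13 a13_1 a13_2 q13 fun c16 a16_1 a16_2 q16 =>
  sqK c16 a16_1 a16_2 q16 fun c18 a18_1 a18_2 q18 =>
  negK c18 a18_1 a18_2 q18 fun c19 a19_1 a19_2 q19 =>
  addcK c19 a19_1 a19_2 q19 1152922604118474752 0 fun c20 a20_1 a20_2 q20 =>
  sqrtK c20 a20_1 a20_2 q20 fun c22 a22_1 a22_2 q22 =>
  addcK c22 a22_1 a22_2 q22 1152922604118474752 0 fun c24 a24_1 a24_2 q24 =>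
  invK c24 a24_1 a24_2 q24 fun c26 a26_1 a26_2 q26 =>
  addcK c16 a16_1 a16_2 q16 1152922604118474752 0 fun c27 a27_1 a27_2 q27 =>
  mulK c27 a27_1 a27_2 q27 c26 a26_1 a26_2 q26 fun c29 a29_1 a29_2 q29 =>
  negK c29 a29_1 a29_2 q29 fun c31 a31_1 a31_2 q31 =>
  addcK c31 a31_1 a31_2 q31 1152923703630102528 0 fun c32 a32_1 a32_2 q32 =>
  mulK c3 a3_1 a3_2 q3 c32 a32_1 a32_2 q32 fun c34 a34_1 a34_2 q34 =>
  negK z1 (Nat.add w1 1152921504606846976) 1152921504606846976 0 fun c35 a35_1 a35_2 q35 =>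
  addcK c35 a35_1 a35_2 q35 1152922604118474752 0 fun c36 a36_1 a36_2 q36 =>
  smulK 1 2 2305843009213693954 1152921504606846976 c36 a36_1 a36_2 q36 fun c38 a38_1 a38_2 q38 =>
  sqrtK c38 a38_1 a38_2 q38 fun c41 a41_1 a41_2 q41 =>
  mulK c41 a41_1 a41_2 q41 c13 a13_1 a13_2 q13 fun c43 a43_1 a43_2 q43 =>
  sqK c43 a43_1 a43_2 q43 fun c45 a45_1 a45_2 q45 =>
  negK c45 a45_1 a45_2 q45 fun c46 a46_1 a46_2 q46 =>
  addcK c46 a46_1 a46_2 q46 1152922604118474752 0 fun c47 a47_1 a47_2 q47 =>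
  sqrtK c47 a47_1 a47_2 q47 fun c49 a49_1 a49_2 q49 =>
  addcK c49 a49_1 a49_2 q49 1152922604118474752 0 fun c51 a51_1 a51_2 q51 =>
  invK c51 a51_1 a51_2 q51 fun c53 a53_1 a53_2 q53 =>
  addcK c43 a43_1 a43_2 q43 1152922604118474752 0 fun c54 a54_1 a54_2 q54 =>
  mulK c54 a54_1 a54_2 q54 c53 a53_1 a53_2 q53 fun c56 a56_1 a56_2 q56 =>
  negK c56 a56_1 a56_2 q56 fun c58 a58_1 a58_2 q58 =>
  addcK c58 a58_1 a58_2 q58 1152923703630102528 0 fun c59 a59_1 a59_2 q59 =>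
  mulK c38 a38_1 a38_2 q38 c59 a59_1 a59_2 q59 fun c61 a61_1 a61_2 q61 =>
  addK c34 a34_1 a34_2 q34 c61 a61_1 a61_2 q61 fun c62 a62_1 a62_2 q62 =>
  negK c8 a8_1 a8_2 q8 fun c63 a63_1 a63_2 q63 =>
  addcK c63 a63_1 a63_2 q63 1152922604118474752 0 fun c64 a64_1 a64_2 q64 =>
  mulK c64 a64_1 a64_2 q64 c11 a11_1 a11_2 q11 fun c66 a66_1 a66_2 q66 =>
  addcK c66 a66_1 a66_2 q66 1152922604118474752 0 fun c69 a69_1 a69_2 q69 =>
  invK c69 a69_1 a69_2 q69 fun c71 a71_1 a71_2 q71 =>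
  addcK c13 a13_1 a13_2 q13 1152922604118474752 0 fun c72 a72_1 a72_2 q72 =>
  mulK c72 a72_1 a72_2 q72 c71 a71_1 a71_2 q71 fun c74 a74_1 a74_2 q74 =>
  negK c74 a74_1 a74_2 q74 fun c76 a76_1 a76_2 q76 =>
  addcK c76 a76_1 a76_2 q76 1152923703630102528 0 fun c77 a77_1 a77_2 q77 =>
  smulK 1 2 2305843009213693954 1152921504606846976 c77 a77_1 a77_2 q77 fun c79 a79_1 a79_2 q79 =>
  subK c62 a62_1 a62_2 q62 c79 a79_1 a79_2 q79 fun c80 a80_1 a80_2 q80 =>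
  sqK z1 (Nat.add w1 1152921504606846976) 1152921504606846976 0 fun c81 a81_1 a81_2 q81 =>
  negK c81 a81_1 a81_2 q81 fun c82 a82_1 a82_2 q82 =>
  addcK c82 a82_1 a82_2 q82 1152922604118474752 0 fun c83 a83_1 a83_2 q83 =>
  sqrtK c83 a83_1 a83_2 q83 fun c85 a85_1 a85_2 q85 =>
  smulK 10 1 1152921504606846977 11529215046068469760 c85 a85_1 a85_2 q85 fun c87 a87_1 a87_2 q87 =>
  addcK c87 a87_1 a87_2 q87 1152913808025452544 0 fun c88 a88_1 a88_2 q88 =>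
  smulK 93 8192 9444732965739290435584 107221699928436768768 c88 a88_1 a88_2 q88 fun c91 a91_1 a91_2 q91 =>
  addcK c91 a91_1 a91_2 q91 1152921479999905595 1 fun c92 a92_1 a92_2 q92 =>
  mulK c92 a92_1 a92_2 q92 c88 a88_1 a88_2 q88 fun c93 a93_1 a93_2 q93 =>
  addcK c93 a93_1 a93_2 q93 1152922883755205460 1 fun c94 a94_1 a94_2 q94 =>
  addcK c94 a94_1 a94_2 q94 1152920954851033088 0 fun c96 a96_1 a96_2 q96 =>
  mulK c85 a85_1 a85_2 q85 c96 a96_1 a96_2 q96 fun c98 a98_1 a98_2 q98 =>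
  subK c80 a80_1 a80_2 q80 c98 a98_1 a98_2 q98 fun c99 a99_1 a99_2 q99 =>
  posK c99 a99_1 a99_2 q99 <|
  addcK c22 a22_1 a22_2 q22 1152922604118474752 0 fun c101 a101_1 a101_2 q101 =>
  mulK c16 a16_1 a16_2 q16 c26 a26_1 a26_2 q26 fun c102 a102_1 a102_2 q102 =>
  addK c101 a101_1 a101_2 q101 c102 a102_1 a102_2 q102 fun c104 a104_1 a104_2 q104 =>
  smulK 2 1 1152921504606846977 2305843009213693952 c16 a16_1 a16_2 q16 fun c105 a105_1 a105_2 q105 =>
  subK c104 a104_1 a104_2 q104 c105 a105_1 a105_2 q105 fun c106 a106_1 a106_2 q106 =>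
  mulK c6 a6_1 a6_2 q6 c106 a106_1 a106_2 q106 fun c107 a107_1 a107_2 q107 =>
  addcK c49 a49_1 a49_2 q49 1152922604118474752 0 fun c108 a108_1 a108_2 q108 =>
  mulK c43 a43_1 a43_2 q43 c53 a53_1 a53_2 q53 fun c109 a109_1 a109_2 q109 =>
  addK c108 a108_1 a108_2 q108 c109 a109_1 a109_2 q109 fun c111 a111_1 a111_2 q111 =>
  smulK 2 1 1152921504606846977 2305843009213693952 c43 a43_1 a43_2 q43 fun c112 a112_1 a112_2 q112 =>
  subK c111 a111_1 a111_2 q111 c112 a112_1 a112_2 q112 fun c113 a113_1 a113_2 q113 =>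
  mulK c41 a41_1 a41_2 q41 c113 a113_1 a113_2 q113 fun c114 a114_1 a114_2 q114 =>
  addK c107 a107_1 a107_2 q107 c114 a114_1 a114_2 q114 fun c115 a115_1 a115_2 q115 =>
  addcK c66 a66_1 a66_2 q66 1152922604118474752 0 fun c116 a116_1 a116_2 q116 =>
  mulK c13 a13_1 a13_2 q13 c71 a71_1 a71_2 q71 fun c117 a117_1 a117_2 q117 =>
  addK c116 a116_1 a116_2 q116 c117 a117_1 a117_2 q117 fun c119 a119_1 a119_2 q119 =>
  smulK 2 1 1152921504606846977 2305843009213693952 c13 a13_1 a13_2 q13 fun c120 a120_1 a120_2 q120 =>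
  subK c119 a119_1 a119_2 q119 c120 a120_1 a120_2 q120 fun c121 a121_1 a121_2 q121 =>
  smulK 6 5 5764607523034234885 6917529027641081856 c121 a121_1 a121_2 q121 fun c122 a122_1 a122_2 q122 =>
  subK c115 a115_1 a115_2 q115 c122 a122_1 a122_2 q122 fun c123 a123_1 a123_2 q123 =>
  smulK 5691 1024000 1180591620717411304448000 6561276282717566140416 c88 a88_1 a88_2 q88 fun c124 a124_1 a124_2 q124 =>
  negK c124 a124_1 a124_2 q124 fun c125 a125_1 a125_2 q125 =>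
  addcK c125 a125_1 a125_2 q125 1152921560788240433 1 fun c127 a127_1 a127_2 q127 =>
  mulK c127 a127_1 a127_2 q127 c88 a88_1 a88_2 q88 fun c128 a128_1 a128_2 q128 =>
  addcK c128 a128_1 a128_2 q128 1152923755174005047 1 fun c129 a129_1 a129_2 q129 =>
  addcK c129 a129_1 a129_2 q129 1152920185192893645 1 fun c131 a131_1 a131_2 q131 =>
  mulK c85 a85_1 a85_2 q85 c131 a131_1 a131_2 q131 fun c133 a133_1 a133_2 q133 =>
  mulK c133 a133_1 a133_2 q133 c13 a13_1 a13_2 q13 fun c134 a134_1 a134_2 q134 =>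
  subK c123 a123_1 a123_2 q123 c134 a134_1 a134_2 q134 fun c135 a135_1 a135_2 q135 =>
  posK c135 a135_1 a135_2 q135 <|
  sqK c66 a66_1 a66_2 q66 fun c137 a137_1 a137_2 q137 =>
  smulK 51 1000 1152921504606846977000 58798996734949195776 c88 a88_1 a88_2 q88 fun c138 a138_1 a138_2 q138 =>
  negK c138 a138_1 a138_2 q138 fun c139 a139_1 a139_2 q139 =>
  addcK c139 a139_1 a139_2 q139 1152921386959102804 1 fun c141 a141_1 a141_2 q141 =>
  mulK c141 a141_1 a141_2 q141 c88 a88_1 a88_2 q88 fun c142 a142_1 a142_2 q142 =>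
  addcK c142 a142_1 a142_2 q142 1152922104940195742 1 fun c143 a143_1 a143_2 q143 =>
  sqK c13 a13_1 a13_2 q13 fun c145 a145_1 a145_2 q145 =>
  mulK c143 a143_1 a143_2 q143 c145 a145_1 a145_2 q145 fun c147 a147_1 a147_2 q147 =>
  smulK 0 1 1152921504606846977 0 c88 a88_1 a88_2 q88 fun c148 a148_1 a148_2 q148 =>
  addcK c148 a148_1 a148_2 q148 1152921614558009754 1 fun c149 a149_1 a149_2 q149 =>
  mulK c149 a149_1 a149_2 q149 c88 a88_1 a88_2 q88 fun c150 a150_1 a150_2 q150 =>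
  addcK c150 a150_1 a150_2 q150 1152921600264358593 1 fun c151 a151_1 a151_2 q151 =>
  addK c147 a147_1 a147_2 q147 c151 a151_1 a151_2 q151 fun c153 a153_1 a153_2 q153 =>
  mulK c153 a153_1 a153_2 q153 c145 a145_1 a145_2 q145 fun c154 a154_1 a154_2 q154 =>
  smulK 149 1000 1152921504606846977000 171785304186420199424 c88 a88_1 a88_2 q88 fun c155 a155_1 a155_2 q155 =>
  addcK c155 a155_1 a155_2 q155 1152921552985358598 1 fun c156 a156_1 a156_2 q156 =>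
  mulK c156 a156_1 a156_2 q156 c88 a88_1 a88_2 q88 fun c157 a157_1 a157_2 q157 =>
  addcK c157 a157_1 a157_2 q157 1152921879540312048 1 fun c158 a158_1 a158_2 q158 =>
  addK c154 a154_1 a154_2 q154 c158 a158_1 a158_2 q158 fun c160 a160_1 a160_2 q160 =>
  mulK c160 a160_1 a160_2 q160 c145 a145_1 a145_2 q145 fun c161 a161_1 a161_2 q161 =>
  smulK 21 1000 1152921504606846977000 24211351596743786496 c88 a88_1 a88_2 q88 fun c162 a162_1 a162_2 q162 =>
  negK c162 a162_1 a162_2 q162 fun c163 a163_1 a163_2 q163 =>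
  addcK c163 a163_1 a163_2 q163 1152921571677056270 1 fun c165 a165_1 a165_2 q165 =>
  mulK c165 a165_1 a165_2 q165 c88 a88_1 a88_2 q88 fun c166 a166_1 a166_2 q166 =>
  addcK c166 a166_1 a166_2 q166 1152922278663032930 1 fun c167 a167_1 a167_2 q167 =>
  addK c161 a161_1 a161_2 q161 c167 a167_1 a167_2 q167 fun c169 a169_1 a169_2 q169 =>
  mulK c137 a137_1 a137_2 q137 c169 a169_1 a169_2 q169 fun c171 a171_1 a171_2 q171 =>
  smulK 1 2 2305843009213693954 1152921504606846976 c171 a171_1 a171_2 q171 fun c172 a172_1 a172_2 q172 =>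
  addcK c172 a172_1 a172_2 q172 1152920405095219200 0 fun c174 a174_1 a174_2 q174 =>
  mulK c85 a85_1 a85_2 q85 c174 a174_1 a174_2 q174 fun c176 a176_1 a176_2 q176 =>
  addK c176 a176_1 a176_2 q176 c71 a71_1 a71_2 q71 fun c178 a178_1 a178_2 q178 =>
  pos c178 a178_1 a178_2 q178

theorem alt0_s {z1 w1 z2 w2 : ℕ} {e1 e2 rho u : ℝ} (he : Ev e1 e2)
    (hx1 : In e1 e2 z1 (Nat.add w1 1152921504606846976) 1152921504606846976 0 rho)
    (hx2 : In e1 e2 z2 1152921504606846976 (Nat.add w2 1152921504606846976) 0 u)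
    (H0 : alt0 z1 w1 z2 w2 = true) : 0 < (fF1 rho u) ∧ 0 < (fF2 rho u) ∧ 0 < (fF3 rho u) := by
  unfold alt0 at H0
  refine addcK_s he hx1 (v' := (1:ℝ)) (by norm_num [SS, BB, abs_le]) (fun _ _ _ _ h1 H1 => ?_) H0
  have h2 := In_cast h1 (add_comm _ _)
  refine smulK_s he (w := (1/2:ℝ)) (by norm_num) (by norm_num) (by norm_num) (by norm_num) h2 (fun _ _ _ _ h3 H2 => ?_) H1
  have h4 := In_cast h3 (div_c (c := (2:ℝ)) (by norm_num))
  have h5 := In_cast (w := (fal rho u)) h4 rfl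
  refine sqrtK_s he h5 (fun _ _ _ _ h6 H3 => ?_) H2
  have h7 := In_cast (w := (fsa rho u)) h6 rfl
  refine sqK_s he hx2 (fun _ _ _ _ h8 H4 => ?_) H3
  refine addcK_s he h8 (v' := (1:ℝ)) (by norm_num [SS, BB, abs_le]) (fun _ _ _ _ h9 H5 => ?_) H4
  have h10 := In_cast h9 (add_comm _ _)
  refine invK_s he h10 (fun _ _ _ _ h11 H6 => ?_) H5
  refine smulK_s he (w := (2:ℝ)) (by norm_num) (by norm_num) (by norm_num) (by norm_num) hx2 (fun _ _ _ _ h12 H7 => ?_) H6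
  refine mulK_s he h12 h11 (fun _ _ _ _ h13 H8 => ?_) H7
  have h14 := In_cast h13 ((div_eq_mul_inv _ _).symm)
  have h15 := In_cast (w := (fy rho u)) h14 rfl
  refine mulK_s he h7 h15 (fun _ _ _ _ h16 H9 => ?_) H8
  have h17 := In_cast (w := (fxa rho u)) h16 rfl
  refine sqK_s he h17 (fun _ _ _ _ h18 H10 => ?_) H9
  refine negK_s he h18 (fun _ _ _ _ h19 H11 => ?_) H10
  refine addcK_s he h19 (v' := (1:ℝ)) (by norm_num [SS, BB, abs_le]) (fun _ _ _ _ h20 H12 => ?_) H11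
  have h21 := In_cast h20 (neg_add_eq_sub _ _)
  refine sqrtK_s he h21 (fun _ _ _ _ h22 H13 => ?_) H12
  have h23 := In_cast (w := (fra rho u)) h22 rfl
  refine addcK_s he h23 (v' := (1:ℝ)) (by norm_num [SS, BB, abs_le]) (fun _ _ _ _ h24 H14 => ?_) H13
  have h25 := In_cast h24 (add_comm _ _)
  refine invK_s he h25 (fun _ _ _ _ h26 H15 => ?_) H14
  refine addcK_s he h17 (v' := (1:ℝ)) (by norm_num [SS, BB, abs_le]) (fun _ _ _ _ h27 H16 => ?_) H15
  have h28 := In_cast h27 (add_comm _ _)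
  refine mulK_s he h28 h26 (fun _ _ _ _ h29 H17 => ?_) H16
  have h30 := In_cast h29 ((div_eq_mul_inv _ _).symm)
  refine negK_s he h30 (fun _ _ _ _ h31 H18 => ?_) H17
  refine addcK_s he h31 (v' := (2:ℝ)) (by norm_num [SS, BB, abs_le]) (fun _ _ _ _ h32 H19 => ?_) H18
  have h33 := In_cast h32 (neg_add_eq_sub _ _)
  refine mulK_s he h5 h33 (fun _ _ _ _ h34 H20 => ?_) H19
  refine negK_s he hx1 (fun _ _ _ _ h35 H21 => ?_) H20
  refine addcK_s he h35 (v' := (1:ℝ)) (by norm_num [SS, BB, abs_le]) (fun _ _ _ _ h36 H22 => ?_) H21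
  have h37 := In_cast h36 (neg_add_eq_sub _ _)
  refine smulK_s he (w := (1/2:ℝ)) (by norm_num) (by norm_num) (by norm_num) (by norm_num) h37 (fun _ _ _ _ h38 H23 => ?_) H22
  have h39 := In_cast h38 (div_c (c := (2:ℝ)) (by norm_num))
  have h40 := In_cast (w := (fbe rho u)) h39 rfl
  refine sqrtK_s he h40 (fun _ _ _ _ h41 H24 => ?_) H23
  have h42 := In_cast (w := (fsb rho u)) h41 rfl
  refine mulK_s he h42 h15 (fun _ _ _ _ h43 H25 => ?_) H24
  have h44 := In_cast (w := (fxb rho u)) h43 rfl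
  refine sqK_s he h44 (fun _ _ _ _ h45 H26 => ?_) H25
  refine negK_s he h45 (fun _ _ _ _ h46 H27 => ?_) H26
  refine addcK_s he h46 (v' := (1:ℝ)) (by norm_num [SS, BB, abs_le]) (fun _ _ _ _ h47 H28 => ?_) H27
  have h48 := In_cast h47 (neg_add_eq_sub _ _)
  refine sqrtK_s he h48 (fun _ _ _ _ h49 H29 => ?_) H28
  have h50 := In_cast (w := (frb rho u)) h49 rfl
  refine addcK_s he h50 (v' := (1:ℝ)) (by norm_num [SS, BB, abs_le]) (fun _ _ _ _ h51 H30 => ?_) H29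
  have h52 := In_cast h51 (add_comm _ _)
  refine invK_s he h52 (fun _ _ _ _ h53 H31 => ?_) H30
  refine addcK_s he h44 (v' := (1:ℝ)) (by norm_num [SS, BB, abs_le]) (fun _ _ _ _ h54 H32 => ?_) H31
  have h55 := In_cast h54 (add_comm _ _)
  refine mulK_s he h55 h53 (fun _ _ _ _ h56 H33 => ?_) H32
  have h57 := In_cast h56 ((div_eq_mul_inv _ _).symm)
  refine negK_s he h57 (fun _ _ _ _ h58 H34 => ?_) H33
  refine addcK_s he h58 (v' := (2:ℝ)) (by norm_num [SS, BB, abs_le]) (fun _ _ _ _ h59 H35 => ?_) H34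
  have h60 := In_cast h59 (neg_add_eq_sub _ _)
  refine mulK_s he h40 h60 (fun _ _ _ _ h61 H36 => ?_) H35
  refine addK_s he h34 h61 (fun _ _ _ _ h62 H37 => ?_) H36
  refine negK_s he h8 (fun _ _ _ _ h63 H38 => ?_) H37
  refine addcK_s he h63 (v' := (1:ℝ)) (by norm_num [SS, BB, abs_le]) (fun _ _ _ _ h64 H39 => ?_) H38
  have h65 := In_cast h64 (neg_add_eq_sub _ _)
  refine mulK_s he h65 h11 (fun _ _ _ _ h66 H40 => ?_) H39
  have h67 := In_cast h66 ((div_eq_mul_inv _ _).symm)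
  have h68 := In_cast (w := (fr rho u)) h67 rfl
  refine addcK_s he h68 (v' := (1:ℝ)) (by norm_num [SS, BB, abs_le]) (fun _ _ _ _ h69 H41 => ?_) H40
  have h70 := In_cast h69 (add_comm _ _)
  refine invK_s he h70 (fun _ _ _ _ h71 H42 => ?_) H41
  refine addcK_s he h15 (v' := (1:ℝ)) (by norm_num [SS, BB, abs_le]) (fun _ _ _ _ h72 H43 => ?_) H42
  have h73 := In_cast h72 (add_comm _ _)
  refine mulK_s he h73 h71 (fun _ _ _ _ h74 H44 => ?_) H43
  have h75 := In_cast h74 ((div_eq_mul_inv _ _).symm)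
  refine negK_s he h75 (fun _ _ _ _ h76 H45 => ?_) H44
  refine addcK_s he h76 (v' := (2:ℝ)) (by norm_num [SS, BB, abs_le]) (fun _ _ _ _ h77 H46 => ?_) H45
  have h78 := In_cast h77 (neg_add_eq_sub _ _)
  refine smulK_s he (w := (1/2:ℝ)) (by norm_num) (by norm_num) (by norm_num) (by norm_num) h78 (fun _ _ _ _ h79 H47 => ?_) H46
  refine subK_s he h62 h79 (fun _ _ _ _ h80 H48 => ?_) H47
  refine sqK_s he hx1 (fun _ _ _ _ h81 H49 => ?_) H48
  refine negK_s he h81 (fun _ _ _ _ h82 H50 => ?_) H49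
  refine addcK_s he h82 (v' := (1:ℝ)) (by norm_num [SS, BB, abs_le]) (fun _ _ _ _ h83 H51 => ?_) H50
  have h84 := In_cast h83 (neg_add_eq_sub _ _)
  refine sqrtK_s he h84 (fun _ _ _ _ h85 H52 => ?_) H51
  have h86 := In_cast (w := (fs rho u)) h85 rfl
  refine smulK_s he (w := (10:ℝ)) (by norm_num) (by norm_num) (by norm_num) (by norm_num) h86 (fun _ _ _ _ h87 H53 => ?_) H52
  refine addcK_s he h87 (v' := (-7:ℝ)) (by norm_num [SS, BB, abs_le]) (fun _ _ _ _ h88 H54 => ?_) H53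
  have h89 := In_cast h88 (sub_c (c := (7:ℝ)) (by norm_num))
  have h90 := In_cast (w := (fsg rho u)) h89 rfl
  refine smulK_s he (w := (93/8192:ℝ)) (by norm_num) (by norm_num) (by norm_num) (by norm_num) h90 (fun _ _ _ _ h91 H55 => ?_) H54
  refine addcK_s he h91 (v' := (-22917/1024000:ℝ)) (by norm_num [SS, BB, abs_le]) (fun _ _ _ _ h92 H56 => ?_) H55
  refine mulK_s he h92 h90 (fun _ _ _ _ h93 H57 => ?_) H56
  refine addcK_s he h93 (v' := (80277/64000:ℝ)) (by norm_num [SS, BB, abs_le]) (fun _ _ _ _ h94 H58 => ?_) H57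
  have h95 := In_cast (w := (fb1 rho u)) h94 rfl
  refine addcK_s he h95 (v' := (-1/2:ℝ)) (by norm_num [SS, BB, abs_le]) (fun _ _ _ _ h96 H59 => ?_) H58
  have h97 := In_cast h96 (sub_c (c := (1/2:ℝ)) (by norm_num))
  refine mulK_s he h86 h97 (fun _ _ _ _ h98 H60 => ?_) H59
  refine subK_s he h80 h98 (fun _ _ _ _ h99 H61 => ?_) H60
  have h100 := In_cast (w := (fF1 rho u)) h99 rfl
  refine posK_s he h100 (fun p0 H62 => ?_) H61
  refine addcK_s he h23 (v' := (1:ℝ)) (by norm_num [SS, BB, abs_le]) (fun _ _ _ _ h101 H63 => ?_) H62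
  refine mulK_s he h17 h26 (fun _ _ _ _ h102 H64 => ?_) H63
  have h103 := In_cast h102 ((div_eq_mul_inv _ _).symm)
  refine addK_s he h101 h103 (fun _ _ _ _ h104 H65 => ?_) H64
  refine smulK_s he (w := (2:ℝ)) (by norm_num) (by norm_num) (by norm_num) (by norm_num) h17 (fun _ _ _ _ h105 H66 => ?_) H65
  refine subK_s he h104 h105 (fun _ _ _ _ h106 H67 => ?_) H66
  refine mulK_s he h7 h106 (fun _ _ _ _ h107 H68 => ?_) H67
  refine addcK_s he h50 (v' := (1:ℝ)) (by norm_num [SS, BB, abs_le]) (fun _ _ _ _ h108 H69 => ?_) H68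
  refine mulK_s he h44 h53 (fun _ _ _ _ h109 H70 => ?_) H69
  have h110 := In_cast h109 ((div_eq_mul_inv _ _).symm)
  refine addK_s he h108 h110 (fun _ _ _ _ h111 H71 => ?_) H70
  refine smulK_s he (w := (2:ℝ)) (by norm_num) (by norm_num) (by norm_num) (by norm_num) h44 (fun _ _ _ _ h112 H72 => ?_) H71
  refine subK_s he h111 h112 (fun _ _ _ _ h113 H73 => ?_) H72
  refine mulK_s he h42 h113 (fun _ _ _ _ h114 H74 => ?_) H73
  refine addK_s he h107 h114 (fun _ _ _ _ h115 H75 => ?_) H74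
  refine addcK_s he h68 (v' := (1:ℝ)) (by norm_num [SS, BB, abs_le]) (fun _ _ _ _ h116 H76 => ?_) H75
  refine mulK_s he h15 h71 (fun _ _ _ _ h117 H77 => ?_) H76
  have h118 := In_cast h117 ((div_eq_mul_inv _ _).symm)
  refine addK_s he h116 h118 (fun _ _ _ _ h119 H78 => ?_) H77
  refine smulK_s he (w := (2:ℝ)) (by norm_num) (by norm_num) (by norm_num) (by norm_num) h15 (fun _ _ _ _ h120 H79 => ?_) H78
  refine subK_s he h119 h120 (fun _ _ _ _ h121 H80 => ?_) H79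
  refine smulK_s he (w := (6/5:ℝ)) (by norm_num) (by norm_num) (by norm_num) (by norm_num) h121 (fun _ _ _ _ h122 H81 => ?_) H80
  refine subK_s he h115 h122 (fun _ _ _ _ h123 H82 => ?_) H81
  refine smulK_s he (w := (5691/1024000:ℝ)) (by norm_num) (by norm_num) (by norm_num) (by norm_num) h90 (fun _ _ _ _ h124 H83 => ?_) H82
  refine negK_s he h124 (fun _ _ _ _ h125 H84 => ?_) H83
  have h126 := In_cast h125 (neg_mul_c (c := (-5691/1024000:ℝ)) (by norm_num))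
  refine addcK_s he h126 (v' := (52323/1024000:ℝ)) (by norm_num [SS, BB, abs_le]) (fun _ _ _ _ h127 H85 => ?_) H84
  refine mulK_s he h127 h90 (fun _ _ _ _ h128 H86 => ?_) H85
  refine addcK_s he h128 (v' := (524001/256000:ℝ)) (by norm_num [SS, BB, abs_le]) (fun _ _ _ _ h129 H87 => ?_) H86
  have h130 := In_cast (w := (fb3 rho u)) h129 rfl
  refine addcK_s he h130 (v' := (-6/5:ℝ)) (by norm_num [SS, BB, abs_le]) (fun _ _ _ _ h131 H88 => ?_) H87
  have h132 := In_cast h131 (sub_c (c := (6/5:ℝ)) (by norm_num))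
  refine mulK_s he h86 h132 (fun _ _ _ _ h133 H89 => ?_) H88
  refine mulK_s he h133 h15 (fun _ _ _ _ h134 H90 => ?_) H89
  refine subK_s he h123 h134 (fun _ _ _ _ h135 H91 => ?_) H90
  have h136 := In_cast (w := (fF2 rho u)) h135 rfl
  refine posK_s he h136 (fun p1 H92 => ?_) H91
  refine sqK_s he h68 (fun _ _ _ _ h137 H93 => ?_) H92
  refine smulK_s he (w := (51/1000:ℝ)) (by norm_num) (by norm_num) (by norm_num) (by norm_num) h90 (fun _ _ _ _ h138 H94 => ?_) H93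
  refine negK_s he h138 (fun _ _ _ _ h139 H95 => ?_) H94
  have h140 := In_cast h139 (neg_mul_c (c := (-51/1000:ℝ)) (by norm_num))
  refine addcK_s he h140 (v' := (-107/1000:ℝ)) (by norm_num [SS, BB, abs_le]) (fun _ _ _ _ h141 H96 => ?_) H95
  refine mulK_s he h141 h90 (fun _ _ _ _ h142 H97 => ?_) H96
  refine addcK_s he h142 (v' := (273/500:ℝ)) (by norm_num [SS, BB, abs_le]) (fun _ _ _ _ h143 H98 => ?_) H97
  have h144 := In_cast (w := (fc7 rho u)) h143 rfl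
  refine sqK_s he h15 (fun _ _ _ _ h145 H99 => ?_) H98
  have h146 := In_cast (w := (fyy rho u)) h145 rfl
  refine mulK_s he h144 h146 (fun _ _ _ _ h147 H100 => ?_) H99
  refine smulK_s he (w := (0:ℝ)) (by norm_num) (by norm_num) (by norm_num) (by norm_num) h90 (fun _ _ _ _ h148 H101 => ?_) H100
  refine addcK_s he h148 (v' := (1/10:ℝ)) (by norm_num [SS, BB, abs_le]) (fun _ _ _ _ h149 H102 => ?_) H101
  refine mulK_s he h149 h90 (fun _ _ _ _ h150 H103 => ?_) H102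
  refine addcK_s he h150 (v' := (87/1000:ℝ)) (by norm_num [SS, BB, abs_le]) (fun _ _ _ _ h151 H104 => ?_) H103
  have h152 := In_cast (w := (fc5 rho u)) h151 rfl
  refine addK_s he h147 h152 (fun _ _ _ _ h153 H105 => ?_) H104
  refine mulK_s he h153 h146 (fun _ _ _ _ h154 H106 => ?_) H105
  refine smulK_s he (w := (149/1000:ℝ)) (by norm_num) (by norm_num) (by norm_num) (by norm_num) h90 (fun _ _ _ _ h155 H107 => ?_) H106
  refine addcK_s he h155 (v' := (11/250:ℝ)) (by norm_num [SS, BB, abs_le]) (fun _ _ _ _ h156 H108 => ?_) H107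
  refine mulK_s he h156 h90 (fun _ _ _ _ h157 H109 => ?_) H108
  refine addcK_s he h157 (v' := (341/1000:ℝ)) (by norm_num [SS, BB, abs_le]) (fun _ _ _ _ h158 H110 => ?_) H109
  have h159 := In_cast (w := (fc3 rho u)) h158 rfl
  refine addK_s he h154 h159 (fun _ _ _ _ h160 H111 => ?_) H110
  refine mulK_s he h160 h146 (fun _ _ _ _ h161 H112 => ?_) H111
  refine smulK_s he (w := (21/1000:ℝ)) (by norm_num) (by norm_num) (by norm_num) (by norm_num) h90 (fun _ _ _ _ h162 H113 => ?_) H112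
  refine negK_s he h162 (fun _ _ _ _ h163 H114 => ?_) H113
  have h164 := In_cast h163 (neg_mul_c (c := (-21/1000:ℝ)) (by norm_num))
  refine addcK_s he h164 (v' := (61/1000:ℝ)) (by norm_num [SS, BB, abs_le]) (fun _ _ _ _ h165 H115 => ?_) H114
  refine mulK_s he h165 h90 (fun _ _ _ _ h166 H116 => ?_) H115
  refine addcK_s he h166 (v' := (88/125:ℝ)) (by norm_num [SS, BB, abs_le]) (fun _ _ _ _ h167 H117 => ?_) H116
  have h168 := In_cast (w := (fc1 rho u)) h167 rfl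
  refine addK_s he h161 h168 (fun _ _ _ _ h169 H118 => ?_) H117
  have h170 := In_cast (w := (fO rho u)) h169 rfl
  refine mulK_s he h137 h170 (fun _ _ _ _ h171 H119 => ?_) H118
  refine smulK_s he (w := (1/2:ℝ)) (by norm_num) (by norm_num) (by norm_num) (by norm_num) h171 (fun _ _ _ _ h172 H120 => ?_) H119
  have h173 := In_cast h172 (div_c (c := (2:ℝ)) (by norm_num))
  refine addcK_s he h173 (v' := (-1:ℝ)) (by norm_num [SS, BB, abs_le]) (fun _ _ _ _ h174 H121 => ?_) H120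
  have h175 := In_cast h174 (sub_c (c := (1:ℝ)) (by norm_num))
  refine mulK_s he h86 h175 (fun _ _ _ _ h176 H122 => ?_) H121
  have h177 := In_cast h71 (inv_eq_one_div _)
  refine addK_s he h176 h177 (fun _ _ _ _ h178 H123 => ?_) H122
  have h179 := In_cast (w := (fF3 rho u)) h178 rfl
  exact ⟨p0, p1, pos_s he h179 H123⟩

attribute [irreducible] alt0

noncomputable def leaf (j u z1 w1 z2 w2 : ℕ) : Bool :=
  alt0 z1 w1 z2 w2

theorem snd : Snd Q leaf := by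
  intro j u z1 w1 z2 w2 e1 e2 he H
  unfold leaf at H
  unfold Q
  exact alt0_s he (var1 z1 w1) (var2 z2 w2) H

end Crest.Agent.R307.SUe
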