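import Crest.Agent.R307.SUe
set_option autoImplicit false
set_option maxRecDepth 100000
namespace Crest.Agent.R307.SUe
open Crest.Agent.R307.IA Crest.Agent.R307.IA2

theorem k0 : Cov Q 1152922230284521308 1152922384216149197 1152921504606846976 1152922604118474752 :=
  cov_of snd 0 0 7 _ _ _ _ 0x2212202022120112212022012202201112202201220220012202111 (by decide +kernel)

end Crest.Agent.R307.SUe
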