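import Crest.Agent.R307.UA7PC0
set_option autoImplicit false
set_option maxRecDepth 100000
namespace Crest.Agent.R307.UA7P
open Crest.Agent.R307.IA Crest.Agent.R307.IA3

theorem cov : Cov Q 1152921504606846976 1152922296255218975 1152921504606846976 1152922604118474752 1152921504606846976 1152922340235684086 :=
  k0

theorem main (T c s : ℝ) (l0 : (0:ℝ) ≤ T) (u0 : T ≤ (18/25:ℝ)) (l1 : (0:ℝ) ≤ c) (u1 : c ≤ (1:ℝ)) (l2 : (0:ℝ) ≤ s) (u2 : s ≤ (19/25:ℝ)) : Q T c s :=
  cov T c s (le_trans (by norm_num [val, SS, BB]) l0) (le_trans u0 (by norm_num [val, SS, BB])) (le_trans (by norm_num [val, SS, BB]) l1) (le_trans u1 (by norm_num [val, SS, BB])) (le_trans (by norm_num [val, SS, BB]) l2) (le_trans u2 (by norm_num [val, SS, BB]))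

end Crest.Agent.R307.UA7P
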