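import Crest.Agent.R307.UA
import Crest.Agent.R307.UA7PM
import Crest.Agent.R307.UA7QM

/-!
# R307/UA7: family (A) for `s ≤ 19/25`
-/

set_option autoImplicit false
set_option maxHeartbeats 1000000
set_option linter.unusedVariables false

namespace Crest.Agent.R307

open Set

theorem ua7_P (hM : MConc) {ρ s x T c : ℝ} (hρ0 : 0 ≤ ρ) (hρ1 : ρ ≤ 1) (hs : s ^ 2 = 1 - ρ ^ 2) (s0 : 0 ≤ s)
    (s1 : s ≤ 19 / 25) (x0 : 0 ≤ x) (x1 : x ≤ 3 / 4) (T0 : 0 < T) (T1 : T ≤ 18 / 25) (c0 : 0 ≤ c) (c1 : c ≤ 1) :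
    (1 + s ^ 2 * (2 / 3 * x - 3 / 10 * x ^ 2)) * Uex ((c * T) ^ 2) +
      (1 - s ^ 2 * (2 / 3 * x + 39 / 200 * x ^ 2)) * Uex (T ^ 2) + s ^ 2 * x * (T ^ 2 - (c * T) ^ 2) ≤
      Tx ρ ((c * T) ^ 2) (T ^ 2) := by
  have Q := UA7P.main T c s T0.le T1 c0 c1 s0 s1
  have cT : c * T ≤ T := mul_le_of_le_one_left T0.le c1
  have cT0 : 0 ≤ c * T := mul_nonneg c0 T0.le
  have a0 : 0 < 1 - UA7P.c2 T c s * UA7P.T2 T c s := by simp only [UA7P.c2, UA7P.T2]; nlinarith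
  have a1 : 0 < 1 - UA7P.T2 T c s := by simp only [UA7P.T2]; nlinarith
  have r00 : 0 < UA7P.r0 T c s := Real.sqrt_pos.2 a0
  have r10 : 0 < UA7P.r1 T c s := Real.sqrt_pos.2 a1
  have e0 : UA7P.r0 T c s ^ 2 + (c * T) ^ 2 = 1 := by
    rw [UA7P.r0, Real.sq_sqrt a0.le]; simp only [UA7P.c2, UA7P.T2]; ring
  have e1 : UA7P.r1 T c s ^ 2 + T ^ 2 = 1 := by
    rw [UA7P.r1, Real.sq_sqrt a1.le]; simp only [UA7P.T2]; ring
  have ew : UA7P.w T c s = s ^ 2 * (1 - c ^ 2) ^ 2 / 4 * T ^ 4 := by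
    simp only [UA7P.w, UA7P.hq, UA7P.hh, UA7P.d, UA7P.c2, UA7P.T2]; ring
  have w0 : 0 ≤ UA7P.w T c s := by rw [ew]; positivity
  have pi0 : 0 ≤ UA7P.pi T c s := Real.sqrt_nonneg _
  have b0 : 0 ≤ UA7P.b T c s := Real.sqrt_nonneg _
  have key := ug_P hM (w := UA7P.w T c s) (pi := UA7P.pi T c s) (sg := UA7P.sg T c s) (b := UA7P.b T c s)
    (v := UA7P.v T c s) (G := UA7P.G T c s) hρ0 hρ1 hs T0 c0 c1 r00 r10 e0 e1 ew pi0
    (by rw [UA7P.pi, Real.sq_sqrt (add_nonneg (mul_self_nonneg _) w0), UA7P.pi0]; ring) (Real.sqrt_nonneg _)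
    (by
      have : 0 ≤ UA7P.P T c s := by simp only [UA7P.P, UA7P.c2, UA7P.T2]; nlinarith
      rw [UA7P.sg, Real.sq_sqrt (by linarith)]; simp only [UA7P.P, UA7P.c2, UA7P.T2]; ring) b0
    (by
      rw [UA7P.b, Real.sq_sqrt (show 0 ≤ UA7P.c2 T c s + UA7P.hq T c s from
        add_nonneg (mul_self_nonneg _) (mul_self_nonneg _))]
      simp only [UA7P.hq, UA7P.hh, UA7P.d, UA7P.c2]; ring) (Real.sqrt_nonneg _)
    (by
      rw [UA7P.v, Real.sq_sqrt (by have := mul_self_nonneg c; simp only [UA7P.c2]; linarith)]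
      simp only [UA7P.c2]; ring)
    (by simp only [UA7P.G, UA7P.Gp, UA7P.GW, UA7P.ss, UA7P.P, UA7P.pi0, UA7P.c2, UA7P.T2]; ring)
  have u0 := uex_t r00.le cT0 e0
  have u1 := uex_t r10.le T0.le e1
  have n0 := Uex_nonneg (sq_nonneg (c * T)) (by linarith [sq_nonneg (UA7P.r0 T c s)])
  have n1 := Uex_nonneg (sq_nonneg T) (by linarith [sq_nonneg (UA7P.r1 T c s)])
  have eL : T ^ 2 * UA7P.L T c s = 3 / 10 * Uex ((c * T) ^ 2) + 39 / 200 * Uex (T ^ 2) := by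
    rw [u0, u1]; simp only [UA7P.L, UA7P.V0, UA7P.U0, UA7P.U1, UA7P.i0, UA7P.i1, UA7P.c2]; ring
  have eZ : T ^ 3 * (1 - c ^ 2) * UA7P.Z T c s =
      T ^ 2 - (c * T) ^ 2 + 2 / 3 * (Uex ((c * T) ^ 2) - Uex (T ^ 2)) := by
    rw [uex_dd r00.le r10.le cT0 T0.le e0 e1 (by positivity) (by positivity) (by positivity)]
    simp only [UA7P.Z, UA7P.i0, UA7P.i1, UA7P.c2]
    generalize UA7P.r0 T c s = r0 at *
    generalize UA7P.r1 T c s = r1 at *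
    have f0 : (c * T) ^ 2 * (1 / (1 + r0)) = 1 - r0 := by
      rw [← mul_div_assoc, div_eq_iff (by positivity)]; linear_combination e0
    have f1 : T ^ 2 * (1 / (1 + r1)) = 1 - r1 := by
      rw [← mul_div_assoc, div_eq_iff (by positivity)]; linear_combination e1
    generalize 1 / (1 + r0) = i0 at *
    generalize 1 / (1 + r1) = i1 at *
    have z1 : T * (T * (c * c * i0 + i1) / (3 * (r0 + r1))) = 2 / 3 * (1 / (r0 + r1)) - 1 / 3 := by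
      rw [← mul_div_assoc, show T * (T * (c * c * i0 + i1)) = 2 - (r0 + r1) by linear_combination f0 + f1]
      field_simp
    have z2 : T * ((c * (1 + c * c * (1 - i0)) + c * c + (1 - i1)) / ((r0 * c + r1) * (1 + c))) =
        ((c * T) ^ 2 + T ^ 2 - 1) / (r0 * (c * T) + r1 * T) + 1 / (c * T + T) := by
      have hN : T ^ 2 * (c * (1 + c * c * (1 - i0)) + c * c + (1 - i1)) =
          ((c * T) ^ 2 + T ^ 2 - 1) * (1 + c) + (r0 * c + r1) := by linear_combination (-c) * f0 - f1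
      rw [show r0 * (c * T) + r1 * T = T * (r0 * c + r1) by ring, show c * T + T = T * (1 + c) by ring]
      have A0 : 0 < r0 * c + r1 := by positivity
      have B0 : 0 < 1 + c := by positivity
      generalize c * (1 + c * c * (1 - i0)) + c * c + (1 - i1) = N at *
      generalize (c * T) ^ 2 + T ^ 2 - 1 = E at *
      generalize r0 * c + r1 = A at *
      generalize 1 + c = B at *
      field_simp
      linear_combination hN
    linear_combination T ^ 2 * (1 - c ^ 2) * (z1 + 2 / 3 * z2)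
  have L0 : 0 ≤ UA7P.L T c s := by
    have : 0 ≤ T ^ 2 * UA7P.L T c s := by rw [eL]; positivity
    exact nonneg_of_mul_nonneg_right this (by positivity) |> fun h => h
  have ed : UA7P.d T c s = 1 - c ^ 2 := by simp only [UA7P.d, UA7P.c2]; ring
  unfold UA7P.Q at Q
  rw [ed] at Q
  generalize UA7P.L T c s = L at *
  generalize UA7P.Z T c s = Z at *
  generalize UA7P.G T c s = G at *
  have k := quadA (G := T * (1 - c ^ 2) ^ 2 * G / 4) (L := L) (X := T * (1 - c ^ 2) * Z) x0 x1 L0 (by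
    rcases Q with ⟨a, b⟩ | ⟨a, b⟩
    · left
      refine ⟨a, ?_⟩
      have := mul_nonneg (mul_nonneg T0.le (sq_nonneg (1 - c ^ 2))) b.le
      linarith
    · right
      exact ⟨a, by linarith⟩)
  have := mul_nonneg (mul_nonneg (sq_nonneg s) (sq_nonneg T)) k
  linear_combination key + this + s ^ 2 * x ^ 2 * eL - s ^ 2 * x * eZ

theorem ua7_Q (hM : MConc) {ρ s x u R t0 ta t1 : ℝ} (hρ0 : 0 ≤ ρ) (hρ1 : ρ ≤ 1) (hs : s ^ 2 = 1 - ρ ^ 2) (s0 : 0 ≤ s)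
    (s1 : s ≤ 19 / 25) (x0 : 0 ≤ x) (x1 : x ≤ 3 / 4) (u0 : 0 ≤ u) (u1 : u ≤ 1) (eR : 2 * (1 / (1 + u * u)) - 1 = R)
    (et : 2 * u * (1 / (1 + u * u)) = t0) (R0 : 0 < R) (t00 : 0 ≤ t0) (e0 : R ^ 2 + t0 ^ 2 = 1) (ta0 : 0 ≤ ta)
    (ta1 : ta ≤ 1) (r7 : R * ta ≤ 7 / 10) (t10 : 0 < t1) (e1 : (R * ta) ^ 2 + t1 ^ 2 = 1) :
    (1 + s ^ 2 * (2 / 3 * x - 3 / 10 * x ^ 2)) * Uex (t0 ^ 2) +
      (1 - s ^ 2 * (2 / 3 * x + 39 / 200 * x ^ 2)) * Uex (t1 ^ 2) + s ^ 2 * x * (t1 ^ 2 - t0 ^ 2) ≤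
      Tx ρ (t0 ^ 2) (t1 ^ 2) := by
  have Q := UA7Q.main u ta s u0 u1 ta0 ta1 s0 s1
  have hR : UA7Q.R u ta s = R := eR
  have ht0 : UA7Q.t0 u ta s = t0 := et
  have ht1 : UA7Q.t1 u ta s = t1 := by
    rw [UA7Q.t1, UA7Q.r1, hR, show 1 - R * ta * (R * ta) = t1 ^ 2 by linarith, Real.sqrt_sq t10.le]
  have om0 : 0 ≤ UA7Q.om u ta s := Real.sqrt_nonneg _
  have b0 : 0 ≤ UA7Q.b u ta s := Real.sqrt_nonneg _
  have eq : UA7Q.hq u ta s = s ^ 2 * (1 - ta ^ 2) ^ 2 / 4 := by simp only [UA7Q.hq, UA7Q.hh, UA7Q.d]; ring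
  have eom : UA7Q.om u ta s ^ 2 = ta ^ 2 + s ^ 2 * (1 - ta ^ 2) ^ 2 / 4 := by
    rw [UA7Q.om, eq, Real.sq_sqrt (by positivity)]; ring
  have eP : UA7Q.Pp u ta s = t0 ^ 2 + t1 ^ 2 := by simp only [UA7Q.Pp, UA7Q.P, UA7Q.R2, UA7Q.Ph, hR]; linarith
  have key := ug_Q hM (om := UA7Q.om u ta s) (sg := UA7Q.sg u ta s) (b := UA7Q.b u ta s)
    (v := UA7Q.v u ta s) (Ga := UA7Q.Ga u ta s) hρ0 hρ1 hs R0 ta0 ta1 t00 t10 e0 e1 om0 eom (Real.sqrt_nonneg _)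
    (by rw [UA7Q.sg, UA7Q.Ph, Real.sq_sqrt (by positivity)]; ring) b0
    (by
      rw [UA7Q.b, eom, eq, UA7Q.b0, UA7Q.R4, UA7Q.R2, hR, ht0, ht1, Real.sq_sqrt (by positivity)]; ring)
    (Real.sqrt_nonneg _) (by rw [UA7Q.v, eP, Real.sq_sqrt (by positivity)]; linarith)
    (by simp only [UA7Q.Ga, UA7Q.Gp, UA7Q.GW, UA7Q.ss, UA7Q.Pp, UA7Q.P, UA7Q.R4, UA7Q.R2, UA7Q.Ph, UA7Q.b0, UA7Q.v0, hR, ht0,
      ht1]; ring)
  have r10 : 0 ≤ R * ta := mul_nonneg R0.le ta0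
  have w0 : Uex (t0 ^ 2) = R * UA7Q.U0 u ta s := by
    rw [uex_r R0.le t00 e0]; simp only [UA7Q.U0, hR, ht0]; ring
  have w1 : Uex (t1 ^ 2) = R * UA7Q.V1 u ta s := by
    rw [uex_r r10 t10.le e1]; simp only [UA7Q.V1, UA7Q.U1, UA7Q.r1, hR, ht1]; ring
  have n0 := Uex_nonneg (sq_nonneg t0) (by linarith [sq_nonneg R])
  have n1 := Uex_nonneg (sq_nonneg t1) (by linarith [sq_nonneg (R * ta)])
  have eL : R * UA7Q.L u ta s = 3 / 10 * Uex (t0 ^ 2) + 39 / 200 * Uex (t1 ^ 2) := by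
    rw [w0, w1, UA7Q.L]; ring
  have ed : UA7Q.d u ta s = 1 - ta ^ 2 := by simp only [UA7Q.d]; ring
  have eX : R * UA7Q.X u ta s = t1 ^ 2 - t0 ^ 2 + 2 / 3 * (Uex (t0 ^ 2) - Uex (t1 ^ 2)) := by
    rw [w0, w1, UA7Q.X, ed, hR]; linear_combination e0 - e1
  have L0 : 0 ≤ UA7Q.L u ta s := by
    have : 0 ≤ R * UA7Q.L u ta s := by rw [eL]; positivity
    exact nonneg_of_mul_nonneg_right this R0 |> fun h => h
  rcases eq_or_lt_of_le (add_nonneg om0 ta0) with z | z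
  · have a : UA7Q.om u ta s = 0 := by linarith
    have b : ta = 0 := by linarith
    rw [a, b] at eom
    have c : s ^ 2 = 0 := by linarith
    rw [a, b] at key
    rw [c]
    linarith
  have eZ : 0 < t0 + ta * t1 → UA7Q.X u ta s = (1 - ta ^ 2) * UA7Q.Z u ta s := fun h => by
    apply mul_left_cancel₀ R0.ne'
    rw [eX, uex_dd R0.le r10 t00 t10.le e0 e1 (by linarith [mul_pos R0 h]) (by positivity) (by positivity)]
    simp only [UA7Q.Z, UA7Q.Hd, hR, ht0, ht1]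
    rw [show t1 ^ 2 - t0 ^ 2 = R ^ 2 * (1 - ta ^ 2) by linarith, show t0 ^ 2 + t1 ^ 2 - 1 = 1 - R * R * (1 + ta * ta) by
      linarith, show R * t0 + R * ta * t1 = R * (t0 + ta * t1) by ring, show R + R * ta = R * (1 + ta) by ring]
    have : 0 < 1 + ta := by positivity
    generalize 1 / (t0 + t1) = i
    field_simp
    ring
  have eZ0 : t0 + ta * t1 = 0 → UA7Q.L u ta s = 0 := fun h => by
    have a : t0 = 0 := by linarith [mul_nonneg ta0 t10.le]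
    have b : ta = 0 := by
      rcases mul_eq_zero.1 (show ta * t1 = 0 by linarith) with h | h
      · exact h
      · exact absurd h t10.ne'
    have c : t1 ^ 2 = 1 := by rw [b] at e1; linarith
    apply mul_left_cancel₀ R0.ne'
    rw [eL, a, c, Uex_one, zero_pow two_ne_zero, Uex_zero]; ring
  unfold UA7Q.Q at Q
  rw [ed, UA7Q.r1, hR] at Q
  generalize UA7Q.L u ta s = L at *
  generalize UA7Q.Z u ta s = Z at *
  generalize UA7Q.X u ta s = X at *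
  generalize UA7Q.Ga u ta s = G at *
  generalize UA7Q.om u ta s = om at *
  have eg : (om + ta) * ((1 - ta ^ 2) ^ 2 * G / (4 * (om + ta))) = (1 - ta ^ 2) ^ 2 * G / 4 := by field_simp
  have eh : (om - ta) * G = s ^ 2 * ((1 - ta ^ 2) ^ 2 * G / (4 * (om + ta))) := by
    apply mul_left_cancel₀ z.ne'
    linear_combination G * eom - s ^ 2 * eg
  generalize (1 - ta ^ 2) ^ 2 * G / (4 * (om + ta)) = g at *
  have k := quadA (G := g) (L := L) (X := X) x0 x1 L0 (by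
    rcases Q with ⟨a, b⟩ | ⟨a, b⟩ | ⟨a, b⟩ | a
    · left
      refine ⟨a, nonneg_of_mul_nonneg_right (a := om + ta) ?_ z |> fun h => h⟩
      rcases eq_or_lt_of_le (add_nonneg t00 (mul_nonneg ta0 t10.le)) with h | h
      · exact absurd (eZ0 h.symm) a.ne'
      rw [eZ h]
      have := mul_nonneg (sq_nonneg (1 - ta ^ 2)) b.le
      linear_combination this - 4 * L * eg
    · left
      refine ⟨a, nonneg_of_mul_nonneg_right (a := om + ta) ?_ z |> fun h => h⟩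
      linear_combination b.le - 4 * L * eg
    · right
      refine ⟨a, nonneg_of_mul_nonneg_right (a := om + ta) ?_ z |> fun h => h⟩
      linear_combination (1 / 4) * b.le - eg
    · linarith)
  have := mul_nonneg (mul_nonneg (sq_nonneg s) R0.le) k
  linear_combination key + this + s ^ 2 * x ^ 2 * eL - s ^ 2 * x * eX - R * eh

/-- Family (A). -/
theorem ustepA7' (hM : MConc) {ρ s x : ℝ} (hρ0 : 0 ≤ ρ) (hρ1 : ρ ≤ 1) (hs : s ^ 2 = 1 - ρ ^ 2) (s0 : 0 ≤ s)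
    (s1 : s ≤ 19 / 25) (x0 : 0 ≤ x) (x1 : x ≤ 3 / 4) :
    UStep ρ Uex (1 + s ^ 2 * (2 / 3 * x - 3 / 10 * x ^ 2)) (1 - s ^ 2 * (2 / 3 * x + 39 / 200 * x ^ 2)) (s ^ 2 * x) := by
  have a1 : 0 ≤ 2 / 3 * x - 3 / 10 * x ^ 2 := by nlinarith
  have a2 : 2 / 3 * x + 39 / 200 * x ^ 2 ≤ 1 := by nlinarith
  have a3 : s ^ 2 ≤ 1 := by nlinarith
  refine ⟨by positivity, by nlinarith [mul_le_mul a3 a2 (by positivity) zero_le_one], ?_⟩
  refine step_charts (F := fun p0 p1 => (1 + s ^ 2 * (2 / 3 * x - 3 / 10 * x ^ 2)) * Uex p0 +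
      (1 - s ^ 2 * (2 / 3 * x + 39 / 200 * x ^ 2)) * Uex p1 + s ^ 2 * x * (p1 - p0) ≤ Tx ρ p0 p1) ?_ ?_
    (fun T c a b c' d => ua7_P hM hρ0 hρ1 hs s0 s1 x0 x1 a b c' d)
    fun u R t0 ta t1 a b c d e f g h i j k l => ua7_Q hM hρ0 hρ1 hs s0 s1 x0 x1 a b c d e f g h i j k l
  · simp [Tx, Uex_zero]
  · simp [Tx, Uex_one, show (1 + ρ) / 2 + (1 - ρ) / 2 = 1 by ring]

theorem ustepA76 {ρ s x : ℝ} (hρ0 : 0 ≤ ρ) (hρ1 : ρ ≤ 1) (hs : s ^ 2 = 1 - ρ ^ 2) (s0 : 0 ≤ s)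
    (s1 : s ≤ 19 / 25) (x0 : 0 ≤ x) (x1 : x ≤ 3 / 4) :
    UStep ρ Uex (1 + s ^ 2 * (2 / 3 * x - 3 / 10 * x ^ 2)) (1 - s ^ 2 * (2 / 3 * x + 39 / 200 * x ^ 2)) (s ^ 2 * x) :=
  ustepA7' mconc hρ0 hρ1 hs s0 s1 x0 x1

end Crest.Agent.R307
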