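import Crest.Agent.R307.IA3
import Crest.Agent.R307.IAx
set_option autoImplicit false
set_option linter.unusedVariables false
set_option maxRecDepth 20000
namespace Crest.Agent.R307.UA7P
open Crest.Agent.R307.IA Crest.Agent.R307.IA3

theorem In_cast {e1 e2 e3 : ℝ} {x y1 y2 y3 r : ℕ} {v w : ℝ}
    (h : In e1 e2 e3 x y1 y2 y3 r v) (e : v = w) : In e1 e2 e3 x y1 y2 y3 r w := e ▸ h

noncomputable def c2 (T c s : ℝ) : ℝ := (c * c)
noncomputable def T2 (T c s : ℝ) : ℝ := (T * T)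
noncomputable def r0 (T c s : ℝ) : ℝ := (√((1:ℝ) - ((c2 T c s) * (T2 T c s))))
noncomputable def i0 (T c s : ℝ) : ℝ := ((1:ℝ) / ((1:ℝ) + (r0 T c s)))
noncomputable def U0 (T c s : ℝ) : ℝ := ((2:ℝ) - (((1:ℝ) + (c * T)) * (i0 T c s)))
noncomputable def V0 (T c s : ℝ) : ℝ := ((c2 T c s) * (U0 T c s))
noncomputable def r1 (T c s : ℝ) : ℝ := (√((1:ℝ) - (T2 T c s)))
noncomputable def i1 (T c s : ℝ) : ℝ := ((1:ℝ) / ((1:ℝ) + (r1 T c s)))
noncomputable def U1 (T c s : ℝ) : ℝ := ((2:ℝ) - (((1:ℝ) + T) * (i1 T c s)))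
noncomputable def L (T c s : ℝ) : ℝ := (((3/10:ℝ) * (V0 T c s)) + ((39/200:ℝ) * (U1 T c s)))
noncomputable def P (T c s : ℝ) : ℝ := ((2:ℝ) - ((T2 T c s) * ((1:ℝ) + (c2 T c s))))
noncomputable def pi0 (T c s : ℝ) : ℝ := ((r0 T c s) * (r1 T c s))
noncomputable def d (T c s : ℝ) : ℝ := ((1:ℝ) - (c2 T c s))
noncomputable def hh (T c s : ℝ) : ℝ := ((s * (d T c s)) / (2:ℝ))
noncomputable def hq (T c s : ℝ) : ℝ := ((hh T c s) * (hh T c s))
noncomputable def w (T c s : ℝ) : ℝ := ((hq T c s) * ((T2 T c s) * (T2 T c s)))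
noncomputable def pi (T c s : ℝ) : ℝ := (√(((pi0 T c s) * (pi0 T c s)) + (w T c s)))
noncomputable def sg (T c s : ℝ) : ℝ := (√((P T c s) + ((2:ℝ) * (pi T c s))))
noncomputable def ss (T c s : ℝ) : ℝ := (((sg T c s) + (r0 T c s)) + (r1 T c s))
noncomputable def Gp (T c s : ℝ) : ℝ := (((-1391/2500:ℝ) - ((-1971/10000:ℝ) * (P T c s))) + ((24/625:ℝ) * (((2:ℝ) * (((2:ℝ) * ((pi0 T c s) * (pi0 T c s))) + (w T c s))) - ((4:ℝ) * ((P T c s) * (P T c s))))))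
noncomputable def b (T c s : ℝ) : ℝ := (√((c2 T c s) + (hq T c s)))
noncomputable def v (T c s : ℝ) : ℝ := (√(((1:ℝ) + (c2 T c s)) + ((2:ℝ) * (b T c s))))
noncomputable def GW (T c s : ℝ) : ℝ := (((1:ℝ) + ((((1:ℝ) + (c2 T c s)) + c) / (((v T c s) * ((1:ℝ) + c)) + ((1:ℝ) + (c2 T c s))))) / ((v T c s) + ((1:ℝ) + c)))
noncomputable def G (T c s : ℝ) : ℝ := ((T * ((((4:ℝ) + ((-2479/5000:ℝ) * (((2:ℝ) * ((P T c s) - (pi0 T c s))) - ((sg T c s) * (ss T c s))))) / ((ss T c s) * ((pi T c s) + (pi0 T c s)))) + (Gp T c s))) + (GW T c s))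
noncomputable def Z (T c s : ℝ) : ℝ := (((T * (((c2 T c s) * (i0 T c s)) + (i1 T c s))) / ((3:ℝ) * ((r0 T c s) + (r1 T c s)))) + ((2/3:ℝ) * ((((c * ((1:ℝ) + ((c2 T c s) * ((1:ℝ) - (i0 T c s))))) + (c2 T c s)) + ((1:ℝ) - (i1 T c s))) / ((((r0 T c s) * c) + (r1 T c s)) * ((1:ℝ) + c)))))

def Q (T c s : ℝ) : Prop :=
  (
  (0 < (L T c s) ∧ 0 < (((G T c s) * (L T c s)) - (T * ((Z T c s) * (Z T c s))))) ∨
  (0 < (((T * (d T c s)) * (Z T c s)) - ((3/2:ℝ) * (L T c s))) ∧ 0 < (((T * (d T c s)) * (((d T c s) * (G T c s)) - ((3:ℝ) * (Z T c s)))) + ((9/4:ℝ) * (L T c s)))))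

noncomputable def alt0 (z1 w1 z2 w2 z3 w3 : ℕ) : Bool :=
  sqK z2 1152921504606846976 (Nat.add w2 1152921504606846976) 1152921504606846976 0 fun c1 a1_1 a1_2 a1_3 q1 =>
  mulK z2 1152921504606846976 (Nat.add w2 1152921504606846976) 1152921504606846976 0 z1 (Nat.add w1 1152921504606846976) 1152921504606846976 1152921504606846976 0 fun c4 a4_1 a4_2 a4_3 q4 =>
  addcK c4 a4_1 a4_2 a4_3 q4 1152922604118474752 0 fun c5 a5_1 a5_2 a5_3 q5 =>
  sqK z1 (Nat.add w1 1152921504606846976) 1152921504606846976 1152921504606846976 0 fun c7 a7_1 a7_2 a7_3 q7 =>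
  mulK c1 a1_1 a1_2 a1_3 q1 c7 a7_1 a7_2 a7_3 q7 fun c10 a10_1 a10_2 a10_3 q10 =>
  negK c10 a10_1 a10_2 a10_3 q10 fun c11 a11_1 a11_2 a11_3 q11 =>
  addcK c11 a11_1 a11_2 a11_3 q11 1152922604118474752 0 fun c12 a12_1 a12_2 a12_3 q12 =>
  sqrtK c12 a12_1 a12_2 a12_3 q12 fun c14 a14_1 a14_2 a14_3 q14 =>
  addcK c14 a14_1 a14_2 a14_3 q14 1152922604118474752 0 fun c16 a16_1 a16_2 a16_3 q16 =>
  invK c16 a16_1 a16_2 a16_3 q16 fun c18 a18_1 a18_2 a18_3 q18 =>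
  mulK c5 a5_1 a5_2 a5_3 q5 c18 a18_1 a18_2 a18_3 q18 fun c21 a21_1 a21_2 a21_3 q21 =>
  negK c21 a21_1 a21_2 a21_3 q21 fun c22 a22_1 a22_2 a22_3 q22 =>
  addcK c22 a22_1 a22_2 a22_3 q22 1152923703630102528 0 fun c23 a23_1 a23_2 a23_3 q23 =>
  mulK c1 a1_1 a1_2 a1_3 q1 c23 a23_1 a23_2 a23_3 q23 fun c26 a26_1 a26_2 a26_3 q26 =>
  smulK 3 10 11529215046068469770 3458764513820540928 c26 a26_1 a26_2 a26_3 q26 fun c28 a28_1 a28_2 a28_3 q28 =>
  addcK z1 (Nat.add w1 1152921504606846976) 1152921504606846976 1152921504606846976 0 1152922604118474752 0 fun c29 a29_1 a29_2 a29_3 q29 =>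
  negK c7 a7_1 a7_2 a7_3 q7 fun c31 a31_1 a31_2 a31_3 q31 =>
  addcK c31 a31_1 a31_2 a31_3 q31 1152922604118474752 0 fun c32 a32_1 a32_2 a32_3 q32 =>
  sqrtK c32 a32_1 a32_2 a32_3 q32 fun c34 a34_1 a34_2 a34_3 q34 =>
  addcK c34 a34_1 a34_2 a34_3 q34 1152922604118474752 0 fun c36 a36_1 a36_2 a36_3 q36 =>
  invK c36 a36_1 a36_2 a36_3 q36 fun c38 a38_1 a38_2 a38_3 q38 =>
  mulK c29 a29_1 a29_2 a29_3 q29 c38 a38_1 a38_2 a38_3 q38 fun c41 a41_1 a41_2 a41_3 q41 =>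
  negK c41 a41_1 a41_2 a41_3 q41 fun c42 a42_1 a42_2 a42_3 q42 =>
  addcK c42 a42_1 a42_2 a42_3 q42 1152923703630102528 0 fun c43 a43_1 a43_2 a43_3 q43 =>
  smulK 39 200 230584300921369395400 44963938679667032064 c43 a43_1 a43_2 a43_3 q43 fun c46 a46_1 a46_2 a46_3 q46 =>
  addK c28 a28_1 a28_2 a28_3 q28 c46 a46_1 a46_2 a46_3 q46 fun c47 a47_1 a47_2 a47_3 q47 =>
  posK c47 a47_1 a47_2 a47_3 q47 <|
  addcK c1 a1_1 a1_2 a1_3 q1 1152922604118474752 0 fun c49 a49_1 a49_2 a49_3 q49 =>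
  mulK c7 a7_1 a7_2 a7_3 q7 c49 a49_1 a49_2 a49_3 q49 fun c51 a51_1 a51_2 a51_3 q51 =>
  negK c51 a51_1 a51_2 a51_3 q51 fun c52 a52_1 a52_2 a52_3 q52 =>
  addcK c52 a52_1 a52_2 a52_3 q52 1152923703630102528 0 fun c53 a53_1 a53_2 a53_3 q53 =>
  mulK c14 a14_1 a14_2 a14_3 q14 c34 a34_1 a34_2 a34_3 q34 fun c56 a56_1 a56_2 a56_3 q56 =>
  sqK c56 a56_1 a56_2 a56_3 q56 fun c58 a58_1 a58_2 a58_3 q58 =>
  negK c1 a1_1 a1_2 a1_3 q1 fun c60 a60_1 a60_2 a60_3 q60 =>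
  addcK c60 a60_1 a60_2 a60_3 q60 1152922604118474752 0 fun c61 a61_1 a61_2 a61_3 q61 =>
  mulK z3 1152921504606846976 1152921504606846976 (Nat.add w3 1152921504606846976) 0 c61 a61_1 a61_2 a61_3 q61 fun c64 a64_1 a64_2 a64_3 q64 =>
  smulK 1 2 2305843009213693954 1152921504606846976 c64 a64_1 a64_2 a64_3 q64 fun c65 a65_1 a65_2 a65_3 q65 =>
  sqK c65 a65_1 a65_2 a65_3 q65 fun c68 a68_1 a68_2 a68_3 q68 =>
  sqK c7 a7_1 a7_2 a7_3 q7 fun c71 a71_1 a71_2 a71_3 q71 =>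
  mulK c68 a68_1 a68_2 a68_3 q68 c71 a71_1 a71_2 a71_3 q71 fun c73 a73_1 a73_2 a73_3 q73 =>
  addK c58 a58_1 a58_2 a58_3 q58 c73 a73_1 a73_2 a73_3 q73 fun c75 a75_1 a75_2 a75_3 q75 =>
  sqrtK c75 a75_1 a75_2 a75_3 q75 fun c76 a76_1 a76_2 a76_3 q76 =>
  smulK 2 1 1152921504606846977 2305843009213693952 c76 a76_1 a76_2 a76_3 q76 fun c78 a78_1 a78_2 a78_3 q78 =>
  addK c53 a53_1 a53_2 a53_3 q53 c78 a78_1 a78_2 a78_3 q78 fun c79 a79_1 a79_2 a79_3 q79 =>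
  sqrtK c79 a79_1 a79_2 a79_3 q79 fun c80 a80_1 a80_2 a80_3 q80 =>
  addK c80 a80_1 a80_2 a80_3 q80 c14 a14_1 a14_2 a14_3 q14 fun c82 a82_1 a82_2 a82_3 q82 =>
  addK c82 a82_1 a82_2 a82_3 q82 c34 a34_1 a34_2 a34_3 q34 fun c83 a83_1 a83_2 a83_3 q83 =>
  addK c76 a76_1 a76_2 a76_3 q76 c56 a56_1 a56_2 a56_3 q56 fun c85 a85_1 a85_2 a85_3 q85 =>
  mulK c83 a83_1 a83_2 a83_3 q83 c85 a85_1 a85_2 a85_3 q85 fun c86 a86_1 a86_2 a86_3 q86 =>
  invK c86 a86_1 a86_2 a86_3 q86 fun c87 a87_1 a87_2 a87_3 q87 =>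
  subK c53 a53_1 a53_2 a53_3 q53 c56 a56_1 a56_2 a56_3 q56 fun c88 a88_1 a88_2 a88_3 q88 =>
  smulK 2 1 1152921504606846977 2305843009213693952 c88 a88_1 a88_2 a88_3 q88 fun c89 a89_1 a89_2 a89_3 q89 =>
  mulK c80 a80_1 a80_2 a80_3 q80 c83 a83_1 a83_2 a83_3 q83 fun c90 a90_1 a90_2 a90_3 q90 =>
  subK c89 a89_1 a89_2 a89_3 q89 c90 a90_1 a90_2 a90_3 q90 fun c91 a91_1 a91_2 a91_3 q91 =>
  smulK 2479 5000 5764607523034234885000 2858092409920373653504 c91 a91_1 a91_2 a91_3 q91 fun c92 a92_1 a92_2 a92_3 q92 =>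
  negK c92 a92_1 a92_2 a92_3 q92 fun c93 a93_1 a93_2 a93_3 q93 =>
  addcK c93 a93_1 a93_2 a93_3 q93 1152925902653358080 0 fun c95 a95_1 a95_2 a95_3 q95 =>
  mulK c95 a95_1 a95_2 a95_3 q95 c87 a87_1 a87_2 a87_3 q87 fun c97 a97_1 a97_2 a97_3 q97 =>
  smulK 1971 10000 11529215046068469770000 2272408285580095389696 c53 a53_1 a53_2 a53_3 q53 fun c99 a99_1 a99_2 a99_3 q99 =>
  negK c99 a99_1 a99_2 a99_3 q99 fun c100 a100_1 a100_2 a100_3 q100 =>
  negK c100 a100_1 a100_2 a100_3 q100 fun c102 a102_1 a102_2 a102_3 q102 =>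
  addcK c102 a102_1 a102_2 a102_3 q102 1152920892838577281 1 fun c103 a103_1 a103_2 a103_3 q103 =>
  smulK 2 1 1152921504606846977 2305843009213693952 c58 a58_1 a58_2 a58_3 q58 fun c105 a105_1 a105_2 a105_3 q105 =>
  addK c105 a105_1 a105_2 a105_3 q105 c73 a73_1 a73_2 a73_3 q73 fun c106 a106_1 a106_2 a106_3 q106 =>
  smulK 2 1 1152921504606846977 2305843009213693952 c106 a106_1 a106_2 a106_3 q106 fun c107 a107_1 a107_2 a107_3 q107 =>
  sqK c53 a53_1 a53_2 a53_3 q53 fun c108 a108_1 a108_2 a108_3 q108 =>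
  smulK 4 1 1152921504606846977 4611686018427387904 c108 a108_1 a108_2 a108_3 q108 fun c110 a110_1 a110_2 a110_3 q110 =>
  subK c107 a107_1 a107_2 a107_3 q107 c110 a110_1 a110_2 a110_3 q110 fun c111 a111_1 a111_2 a111_3 q111 =>
  smulK 24 625 720575940379279360625 27670116110564327424 c111 a111_1 a111_2 a111_3 q111 fun c112 a112_1 a112_2 a112_3 q112 =>
  addK c103 a103_1 a103_2 a103_3 q103 c112 a112_1 a112_2 a112_3 q112 fun c113 a113_1 a113_2 a113_3 q113 =>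
  addK c97 a97_1 a97_2 a97_3 q97 c113 a113_1 a113_2 a113_3 q113 fun c115 a115_1 a115_2 a115_3 q115 =>
  mulK z1 (Nat.add w1 1152921504606846976) 1152921504606846976 1152921504606846976 0 c115 a115_1 a115_2 a115_3 q115 fun c116 a116_1 a116_2 a116_3 q116 =>
  addK c1 a1_1 a1_2 a1_3 q1 c68 a68_1 a68_2 a68_3 q68 fun c117 a117_1 a117_2 a117_3 q117 =>
  sqrtK c117 a117_1 a117_2 a117_3 q117 fun c118 a118_1 a118_2 a118_3 q118 =>
  smulK 2 1 1152921504606846977 2305843009213693952 c118 a118_1 a118_2 a118_3 q118 fun c120 a120_1 a120_2 a120_3 q120 =>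
  addK c49 a49_1 a49_2 a49_3 q49 c120 a120_1 a120_2 a120_3 q120 fun c121 a121_1 a121_2 a121_3 q121 =>
  sqrtK c121 a121_1 a121_2 a121_3 q121 fun c122 a122_1 a122_2 a122_3 q122 =>
  addcK z2 1152921504606846976 (Nat.add w2 1152921504606846976) 1152921504606846976 0 1152922604118474752 0 fun c124 a124_1 a124_2 a124_3 q124 =>
  addK c122 a122_1 a122_2 a122_3 q122 c124 a124_1 a124_2 a124_3 q124 fun c126 a126_1 a126_2 a126_3 q126 =>
  invK c126 a126_1 a126_2 a126_3 q126 fun c127 a127_1 a127_2 a127_3 q127 =>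
  mulK c122 a122_1 a122_2 a122_3 q122 c124 a124_1 a124_2 a124_3 q124 fun c128 a128_1 a128_2 a128_3 q128 =>
  addK c128 a128_1 a128_2 a128_3 q128 c49 a49_1 a49_2 a49_3 q49 fun c129 a129_1 a129_2 a129_3 q129 =>
  invK c129 a129_1 a129_2 a129_3 q129 fun c130 a130_1 a130_2 a130_3 q130 =>
  addK c49 a49_1 a49_2 a49_3 q49 z2 1152921504606846976 (Nat.add w2 1152921504606846976) 1152921504606846976 0 fun c131 a131_1 a131_2 a131_3 q131 =>
  mulK c131 a131_1 a131_2 a131_3 q131 c130 a130_1 a130_2 a130_3 q130 fun c132 a132_1 a132_2 a132_3 q132 =>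
  addcK c132 a132_1 a132_2 a132_3 q132 1152922604118474752 0 fun c134 a134_1 a134_2 a134_3 q134 =>
  mulK c134 a134_1 a134_2 a134_3 q134 c127 a127_1 a127_2 a127_3 q127 fun c136 a136_1 a136_2 a136_3 q136 =>
  addK c116 a116_1 a116_2 a116_3 q116 c136 a136_1 a136_2 a136_3 q136 fun c139 a139_1 a139_2 a139_3 q139 =>
  mulK c139 a139_1 a139_2 a139_3 q139 c47 a47_1 a47_2 a47_3 q47 fun c141 a141_1 a141_2 a141_3 q141 =>
  addK c14 a14_1 a14_2 a14_3 q14 c34 a34_1 a34_2 a34_3 q34 fun c142 a142_1 a142_2 a142_3 q142 =>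
  smulK 3 1 1152921504606846977 3458764513820540928 c142 a142_1 a142_2 a142_3 q142 fun c143 a143_1 a143_2 a143_3 q143 =>
  invK c143 a143_1 a143_2 a143_3 q143 fun c144 a144_1 a144_2 a144_3 q144 =>
  mulK c1 a1_1 a1_2 a1_3 q1 c18 a18_1 a18_2 a18_3 q18 fun c145 a145_1 a145_2 a145_3 q145 =>
  addK c145 a145_1 a145_2 a145_3 q145 c38 a38_1 a38_2 a38_3 q38 fun c146 a146_1 a146_2 a146_3 q146 =>
  mulK z1 (Nat.add w1 1152921504606846976) 1152921504606846976 1152921504606846976 0 c146 a146_1 a146_2 a146_3 q146 fun c147 a147_1 a147_2 a147_3 q147 =>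
  mulK c147 a147_1 a147_2 a147_3 q147 c144 a144_1 a144_2 a144_3 q144 fun c148 a148_1 a148_2 a148_3 q148 =>
  mulK c14 a14_1 a14_2 a14_3 q14 z2 1152921504606846976 (Nat.add w2 1152921504606846976) 1152921504606846976 0 fun c150 a150_1 a150_2 a150_3 q150 =>
  addK c150 a150_1 a150_2 a150_3 q150 c34 a34_1 a34_2 a34_3 q34 fun c151 a151_1 a151_2 a151_3 q151 =>
  mulK c151 a151_1 a151_2 a151_3 q151 c124 a124_1 a124_2 a124_3 q124 fun c152 a152_1 a152_2 a152_3 q152 =>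
  invK c152 a152_1 a152_2 a152_3 q152 fun c153 a153_1 a153_2 a153_3 q153 =>
  negK c18 a18_1 a18_2 a18_3 q18 fun c154 a154_1 a154_2 a154_3 q154 =>
  addcK c154 a154_1 a154_2 a154_3 q154 1152922604118474752 0 fun c155 a155_1 a155_2 a155_3 q155 =>
  mulK c1 a1_1 a1_2 a1_3 q1 c155 a155_1 a155_2 a155_3 q155 fun c157 a157_1 a157_2 a157_3 q157 =>
  addcK c157 a157_1 a157_2 a157_3 q157 1152922604118474752 0 fun c158 a158_1 a158_2 a158_3 q158 =>
  mulK z2 1152921504606846976 (Nat.add w2 1152921504606846976) 1152921504606846976 0 c158 a158_1 a158_2 a158_3 q158 fun c160 a160_1 a160_2 a160_3 q160 =>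
  addK c160 a160_1 a160_2 a160_3 q160 c1 a1_1 a1_2 a1_3 q1 fun c161 a161_1 a161_2 a161_3 q161 =>
  negK c38 a38_1 a38_2 a38_3 q38 fun c162 a162_1 a162_2 a162_3 q162 =>
  addcK c162 a162_1 a162_2 a162_3 q162 1152922604118474752 0 fun c163 a163_1 a163_2 a163_3 q163 =>
  addK c161 a161_1 a161_2 a161_3 q161 c163 a163_1 a163_2 a163_3 q163 fun c165 a165_1 a165_2 a165_3 q165 =>
  mulK c165 a165_1 a165_2 a165_3 q165 c153 a153_1 a153_2 a153_3 q153 fun c166 a166_1 a166_2 a166_3 q166 =>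
  smulK 2 3 3458764513820540931 2305843009213693952 c166 a166_1 a166_2 a166_3 q166 fun c168 a168_1 a168_2 a168_3 q168 =>
  addK c148 a148_1 a148_2 a148_3 q148 c168 a168_1 a168_2 a168_3 q168 fun c169 a169_1 a169_2 a169_3 q169 =>
  sqK c169 a169_1 a169_2 a169_3 q169 fun c171 a171_1 a171_2 a171_3 q171 =>
  mulK z1 (Nat.add w1 1152921504606846976) 1152921504606846976 1152921504606846976 0 c171 a171_1 a171_2 a171_3 q171 fun c173 a173_1 a173_2 a173_3 q173 =>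
  subK c141 a141_1 a141_2 a141_3 q141 c173 a173_1 a173_2 a173_3 q173 fun c174 a174_1 a174_2 a174_3 q174 =>
  pos c174 a174_1 a174_2 a174_3 q174

theorem alt0_s {z1 w1 z2 w2 z3 w3 : ℕ} {e1 e2 e3 T c s : ℝ} (he : Ev e1 e2 e3)
    (hx1 : In e1 e2 e3 z1 (Nat.add w1 1152921504606846976) 1152921504606846976 1152921504606846976 0 T)
    (hx2 : In e1 e2 e3 z2 1152921504606846976 (Nat.add w2 1152921504606846976) 1152921504606846976 0 c)
    (hx3 : In e1 e2 e3 z3 1152921504606846976 1152921504606846976 (Nat.add w3 1152921504606846976) 0 s)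
    (H0 : alt0 z1 w1 z2 w2 z3 w3 = true) : 0 < (L T c s) ∧ 0 < (((G T c s) * (L T c s)) - (T * ((Z T c s) * (Z T c s)))) := by
  unfold alt0 at H0
  refine sqK_s he hx2 (fun _ _ _ _ _ h1 H1 => ?_) H0
  have h2 := In_cast h1 (sq _)
  have h3 := In_cast (w := (c2 T c s)) h2 rfl
  refine mulK_s he hx2 hx1 (fun _ _ _ _ _ h4 H2 => ?_) H1
  refine addcK_s he h4 (v' := (1:ℝ)) (by norm_num [SS, BB, abs_le]) (fun _ _ _ _ _ h5 H3 => ?_) H2
  have h6 := In_cast h5 (add_comm _ _)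
  refine sqK_s he hx1 (fun _ _ _ _ _ h7 H4 => ?_) H3
  have h8 := In_cast h7 (sq _)
  have h9 := In_cast (w := (T2 T c s)) h8 rfl
  refine mulK_s he h3 h9 (fun _ _ _ _ _ h10 H5 => ?_) H4
  refine negK_s he h10 (fun _ _ _ _ _ h11 H6 => ?_) H5
  refine addcK_s he h11 (v' := (1:ℝ)) (by norm_num [SS, BB, abs_le]) (fun _ _ _ _ _ h12 H7 => ?_) H6
  have h13 := In_cast h12 (neg_add_eq_sub _ _)
  refine sqrtK_s he h13 (fun _ _ _ _ _ h14 H8 => ?_) H7
  have h15 := In_cast (w := (r0 T c s)) h14 rfl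
  refine addcK_s he h15 (v' := (1:ℝ)) (by norm_num [SS, BB, abs_le]) (fun _ _ _ _ _ h16 H9 => ?_) H8
  have h17 := In_cast h16 (add_comm _ _)
  refine invK_s he h17 (fun _ _ _ _ _ h18 H10 => ?_) H9
  have h19 := In_cast h18 (inv_eq_one_div _)
  have h20 := In_cast (w := (i0 T c s)) h19 rfl
  refine mulK_s he h6 h20 (fun _ _ _ _ _ h21 H11 => ?_) H10
  refine negK_s he h21 (fun _ _ _ _ _ h22 H12 => ?_) H11
  refine addcK_s he h22 (v' := (2:ℝ)) (by norm_num [SS, BB, abs_le]) (fun _ _ _ _ _ h23 H13 => ?_) H12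
  have h24 := In_cast h23 (neg_add_eq_sub _ _)
  have h25 := In_cast (w := (U0 T c s)) h24 rfl
  refine mulK_s he h3 h25 (fun _ _ _ _ _ h26 H14 => ?_) H13
  have h27 := In_cast (w := (V0 T c s)) h26 rfl
  refine smulK_s he (w := (3/10:ℝ)) (by norm_num) (by norm_num) (by norm_num) (by norm_num) h27 (fun _ _ _ _ _ h28 H15 => ?_) H14
  refine addcK_s he hx1 (v' := (1:ℝ)) (by norm_num [SS, BB, abs_le]) (fun _ _ _ _ _ h29 H16 => ?_) H15
  have h30 := In_cast h29 (add_comm _ _)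
  refine negK_s he h9 (fun _ _ _ _ _ h31 H17 => ?_) H16
  refine addcK_s he h31 (v' := (1:ℝ)) (by norm_num [SS, BB, abs_le]) (fun _ _ _ _ _ h32 H18 => ?_) H17
  have h33 := In_cast h32 (neg_add_eq_sub _ _)
  refine sqrtK_s he h33 (fun _ _ _ _ _ h34 H19 => ?_) H18
  have h35 := In_cast (w := (r1 T c s)) h34 rfl
  refine addcK_s he h35 (v' := (1:ℝ)) (by norm_num [SS, BB, abs_le]) (fun _ _ _ _ _ h36 H20 => ?_) H19
  have h37 := In_cast h36 (add_comm _ _)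
  refine invK_s he h37 (fun _ _ _ _ _ h38 H21 => ?_) H20
  have h39 := In_cast h38 (inv_eq_one_div _)
  have h40 := In_cast (w := (i1 T c s)) h39 rfl
  refine mulK_s he h30 h40 (fun _ _ _ _ _ h41 H22 => ?_) H21
  refine negK_s he h41 (fun _ _ _ _ _ h42 H23 => ?_) H22
  refine addcK_s he h42 (v' := (2:ℝ)) (by norm_num [SS, BB, abs_le]) (fun _ _ _ _ _ h43 H24 => ?_) H23
  have h44 := In_cast h43 (neg_add_eq_sub _ _)
  have h45 := In_cast (w := (U1 T c s)) h44 rfl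
  refine smulK_s he (w := (39/200:ℝ)) (by norm_num) (by norm_num) (by norm_num) (by norm_num) h45 (fun _ _ _ _ _ h46 H25 => ?_) H24
  refine addK_s he h28 h46 (fun _ _ _ _ _ h47 H26 => ?_) H25
  have h48 := In_cast (w := (L T c s)) h47 rfl
  refine posK_s he h48 (fun p0 H27 => ?_) H26
  refine addcK_s he h3 (v' := (1:ℝ)) (by norm_num [SS, BB, abs_le]) (fun _ _ _ _ _ h49 H28 => ?_) H27
  have h50 := In_cast h49 (add_comm _ _)
  refine mulK_s he h9 h50 (fun _ _ _ _ _ h51 H29 => ?_) H28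
  refine negK_s he h51 (fun _ _ _ _ _ h52 H30 => ?_) H29
  refine addcK_s he h52 (v' := (2:ℝ)) (by norm_num [SS, BB, abs_le]) (fun _ _ _ _ _ h53 H31 => ?_) H30
  have h54 := In_cast h53 (neg_add_eq_sub _ _)
  have h55 := In_cast (w := (P T c s)) h54 rfl
  refine mulK_s he h15 h35 (fun _ _ _ _ _ h56 H32 => ?_) H31
  have h57 := In_cast (w := (pi0 T c s)) h56 rfl
  refine sqK_s he h57 (fun _ _ _ _ _ h58 H33 => ?_) H32
  have h59 := In_cast h58 (sq _)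
  refine negK_s he h3 (fun _ _ _ _ _ h60 H34 => ?_) H33
  refine addcK_s he h60 (v' := (1:ℝ)) (by norm_num [SS, BB, abs_le]) (fun _ _ _ _ _ h61 H35 => ?_) H34
  have h62 := In_cast h61 (neg_add_eq_sub _ _)
  have h63 := In_cast (w := (d T c s)) h62 rfl
  refine mulK_s he hx3 h63 (fun _ _ _ _ _ h64 H36 => ?_) H35
  refine smulK_s he (w := (1/2:ℝ)) (by norm_num) (by norm_num) (by norm_num) (by norm_num) h64 (fun _ _ _ _ _ h65 H37 => ?_) H36
  have h66 := In_cast h65 (div_c (c := (2:ℝ)) (by norm_num))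
  have h67 := In_cast (w := (hh T c s)) h66 rfl
  refine sqK_s he h67 (fun _ _ _ _ _ h68 H38 => ?_) H37
  have h69 := In_cast h68 (sq _)
  have h70 := In_cast (w := (hq T c s)) h69 rfl
  refine sqK_s he h9 (fun _ _ _ _ _ h71 H39 => ?_) H38
  have h72 := In_cast h71 (sq _)
  refine mulK_s he h70 h72 (fun _ _ _ _ _ h73 H40 => ?_) H39
  have h74 := In_cast (w := (w T c s)) h73 rfl
  refine addK_s he h59 h74 (fun _ _ _ _ _ h75 H41 => ?_) H40
  refine sqrtK_s he h75 (fun _ _ _ _ _ h76 H42 => ?_) H41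
  have h77 := In_cast (w := (pi T c s)) h76 rfl
  refine smulK_s he (w := (2:ℝ)) (by norm_num) (by norm_num) (by norm_num) (by norm_num) h77 (fun _ _ _ _ _ h78 H43 => ?_) H42
  refine addK_s he h55 h78 (fun _ _ _ _ _ h79 H44 => ?_) H43
  refine sqrtK_s he h79 (fun _ _ _ _ _ h80 H45 => ?_) H44
  have h81 := In_cast (w := (sg T c s)) h80 rfl
  refine addK_s he h81 h15 (fun _ _ _ _ _ h82 H46 => ?_) H45
  refine addK_s he h82 h35 (fun _ _ _ _ _ h83 H47 => ?_) H46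
  have h84 := In_cast (w := (ss T c s)) h83 rfl
  refine addK_s he h77 h57 (fun _ _ _ _ _ h85 H48 => ?_) H47
  refine mulK_s he h84 h85 (fun _ _ _ _ _ h86 H49 => ?_) H48
  refine invK_s he h86 (fun _ _ _ _ _ h87 H50 => ?_) H49
  refine subK_s he h55 h57 (fun _ _ _ _ _ h88 H51 => ?_) H50
  refine smulK_s he (w := (2:ℝ)) (by norm_num) (by norm_num) (by norm_num) (by norm_num) h88 (fun _ _ _ _ _ h89 H52 => ?_) H51
  refine mulK_s he h81 h84 (fun _ _ _ _ _ h90 H53 => ?_) H52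
  refine subK_s he h89 h90 (fun _ _ _ _ _ h91 H54 => ?_) H53
  refine smulK_s he (w := (2479/5000:ℝ)) (by norm_num) (by norm_num) (by norm_num) (by norm_num) h91 (fun _ _ _ _ _ h92 H55 => ?_) H54
  refine negK_s he h92 (fun _ _ _ _ _ h93 H56 => ?_) H55
  have h94 := In_cast h93 (neg_mul_c (c := (-2479/5000:ℝ)) (by norm_num))
  refine addcK_s he h94 (v' := (4:ℝ)) (by norm_num [SS, BB, abs_le]) (fun _ _ _ _ _ h95 H57 => ?_) H56
  have h96 := In_cast h95 (add_comm _ _)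
  refine mulK_s he h96 h87 (fun _ _ _ _ _ h97 H58 => ?_) H57
  have h98 := In_cast h97 ((div_eq_mul_inv _ _).symm)
  refine smulK_s he (w := (1971/10000:ℝ)) (by norm_num) (by norm_num) (by norm_num) (by norm_num) h55 (fun _ _ _ _ _ h99 H59 => ?_) H58
  refine negK_s he h99 (fun _ _ _ _ _ h100 H60 => ?_) H59
  have h101 := In_cast h100 (neg_mul_c (c := (-1971/10000:ℝ)) (by norm_num))
  refine negK_s he h101 (fun _ _ _ _ _ h102 H61 => ?_) H60
  refine addcK_s he h102 (v' := (-1391/2500:ℝ)) (by norm_num [SS, BB, abs_le]) (fun _ _ _ _ _ h103 H62 => ?_) H61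
  have h104 := In_cast h103 (neg_add_eq_sub _ _)
  refine smulK_s he (w := (2:ℝ)) (by norm_num) (by norm_num) (by norm_num) (by norm_num) h59 (fun _ _ _ _ _ h105 H63 => ?_) H62
  refine addK_s he h105 h74 (fun _ _ _ _ _ h106 H64 => ?_) H63
  refine smulK_s he (w := (2:ℝ)) (by norm_num) (by norm_num) (by norm_num) (by norm_num) h106 (fun _ _ _ _ _ h107 H65 => ?_) H64
  refine sqK_s he h55 (fun _ _ _ _ _ h108 H66 => ?_) H65
  have h109 := In_cast h108 (sq _)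
  refine smulK_s he (w := (4:ℝ)) (by norm_num) (by norm_num) (by norm_num) (by norm_num) h109 (fun _ _ _ _ _ h110 H67 => ?_) H66
  refine subK_s he h107 h110 (fun _ _ _ _ _ h111 H68 => ?_) H67
  refine smulK_s he (w := (24/625:ℝ)) (by norm_num) (by norm_num) (by norm_num) (by norm_num) h111 (fun _ _ _ _ _ h112 H69 => ?_) H68
  refine addK_s he h104 h112 (fun _ _ _ _ _ h113 H70 => ?_) H69
  have h114 := In_cast (w := (Gp T c s)) h113 rfl
  refine addK_s he h98 h114 (fun _ _ _ _ _ h115 H71 => ?_) H70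
  refine mulK_s he hx1 h115 (fun _ _ _ _ _ h116 H72 => ?_) H71
  refine addK_s he h3 h70 (fun _ _ _ _ _ h117 H73 => ?_) H72
  refine sqrtK_s he h117 (fun _ _ _ _ _ h118 H74 => ?_) H73
  have h119 := In_cast (w := (b T c s)) h118 rfl
  refine smulK_s he (w := (2:ℝ)) (by norm_num) (by norm_num) (by norm_num) (by norm_num) h119 (fun _ _ _ _ _ h120 H75 => ?_) H74
  refine addK_s he h50 h120 (fun _ _ _ _ _ h121 H76 => ?_) H75
  refine sqrtK_s he h121 (fun _ _ _ _ _ h122 H77 => ?_) H76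
  have h123 := In_cast (w := (v T c s)) h122 rfl
  refine addcK_s he hx2 (v' := (1:ℝ)) (by norm_num [SS, BB, abs_le]) (fun _ _ _ _ _ h124 H78 => ?_) H77
  have h125 := In_cast h124 (add_comm _ _)
  refine addK_s he h123 h125 (fun _ _ _ _ _ h126 H79 => ?_) H78
  refine invK_s he h126 (fun _ _ _ _ _ h127 H80 => ?_) H79
  refine mulK_s he h123 h125 (fun _ _ _ _ _ h128 H81 => ?_) H80
  refine addK_s he h128 h50 (fun _ _ _ _ _ h129 H82 => ?_) H81
  refine invK_s he h129 (fun _ _ _ _ _ h130 H83 => ?_) H82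
  refine addK_s he h50 hx2 (fun _ _ _ _ _ h131 H84 => ?_) H83
  refine mulK_s he h131 h130 (fun _ _ _ _ _ h132 H85 => ?_) H84
  have h133 := In_cast h132 ((div_eq_mul_inv _ _).symm)
  refine addcK_s he h133 (v' := (1:ℝ)) (by norm_num [SS, BB, abs_le]) (fun _ _ _ _ _ h134 H86 => ?_) H85
  have h135 := In_cast h134 (add_comm _ _)
  refine mulK_s he h135 h127 (fun _ _ _ _ _ h136 H87 => ?_) H86
  have h137 := In_cast h136 ((div_eq_mul_inv _ _).symm)
  have h138 := In_cast (w := (GW T c s)) h137 rfl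
  refine addK_s he h116 h138 (fun _ _ _ _ _ h139 H88 => ?_) H87
  have h140 := In_cast (w := (G T c s)) h139 rfl
  refine mulK_s he h140 h48 (fun _ _ _ _ _ h141 H89 => ?_) H88
  refine addK_s he h15 h35 (fun _ _ _ _ _ h142 H90 => ?_) H89
  refine smulK_s he (w := (3:ℝ)) (by norm_num) (by norm_num) (by norm_num) (by norm_num) h142 (fun _ _ _ _ _ h143 H91 => ?_) H90
  refine invK_s he h143 (fun _ _ _ _ _ h144 H92 => ?_) H91
  refine mulK_s he h3 h20 (fun _ _ _ _ _ h145 H93 => ?_) H92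
  refine addK_s he h145 h40 (fun _ _ _ _ _ h146 H94 => ?_) H93
  refine mulK_s he hx1 h146 (fun _ _ _ _ _ h147 H95 => ?_) H94
  refine mulK_s he h147 h144 (fun _ _ _ _ _ h148 H96 => ?_) H95
  have h149 := In_cast h148 ((div_eq_mul_inv _ _).symm)
  refine mulK_s he h15 hx2 (fun _ _ _ _ _ h150 H97 => ?_) H96
  refine addK_s he h150 h35 (fun _ _ _ _ _ h151 H98 => ?_) H97
  refine mulK_s he h151 h125 (fun _ _ _ _ _ h152 H99 => ?_) H98
  refine invK_s he h152 (fun _ _ _ _ _ h153 H100 => ?_) H99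
  refine negK_s he h20 (fun _ _ _ _ _ h154 H101 => ?_) H100
  refine addcK_s he h154 (v' := (1:ℝ)) (by norm_num [SS, BB, abs_le]) (fun _ _ _ _ _ h155 H102 => ?_) H101
  have h156 := In_cast h155 (neg_add_eq_sub _ _)
  refine mulK_s he h3 h156 (fun _ _ _ _ _ h157 H103 => ?_) H102
  refine addcK_s he h157 (v' := (1:ℝ)) (by norm_num [SS, BB, abs_le]) (fun _ _ _ _ _ h158 H104 => ?_) H103
  have h159 := In_cast h158 (add_comm _ _)
  refine mulK_s he hx2 h159 (fun _ _ _ _ _ h160 H105 => ?_) H104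
  refine addK_s he h160 h3 (fun _ _ _ _ _ h161 H106 => ?_) H105
  refine negK_s he h40 (fun _ _ _ _ _ h162 H107 => ?_) H106
  refine addcK_s he h162 (v' := (1:ℝ)) (by norm_num [SS, BB, abs_le]) (fun _ _ _ _ _ h163 H108 => ?_) H107
  have h164 := In_cast h163 (neg_add_eq_sub _ _)
  refine addK_s he h161 h164 (fun _ _ _ _ _ h165 H109 => ?_) H108
  refine mulK_s he h165 h153 (fun _ _ _ _ _ h166 H110 => ?_) H109
  have h167 := In_cast h166 ((div_eq_mul_inv _ _).symm)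
  refine smulK_s he (w := (2/3:ℝ)) (by norm_num) (by norm_num) (by norm_num) (by norm_num) h167 (fun _ _ _ _ _ h168 H111 => ?_) H110
  refine addK_s he h149 h168 (fun _ _ _ _ _ h169 H112 => ?_) H111
  have h170 := In_cast (w := (Z T c s)) h169 rfl
  refine sqK_s he h170 (fun _ _ _ _ _ h171 H113 => ?_) H112
  have h172 := In_cast h171 (sq _)
  refine mulK_s he hx1 h172 (fun _ _ _ _ _ h173 H114 => ?_) H113
  refine subK_s he h141 h173 (fun _ _ _ _ _ h174 H115 => ?_) H114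
  exact ⟨p0, pos_s he h174 H115⟩

noncomputable def alt1 (z1 w1 z2 w2 z3 w3 : ℕ) : Bool :=
  sqK z2 1152921504606846976 (Nat.add w2 1152921504606846976) 1152921504606846976 0 fun c1 a1_1 a1_2 a1_3 q1 =>
  negK c1 a1_1 a1_2 a1_3 q1 fun c4 a4_1 a4_2 a4_3 q4 =>
  addcK c4 a4_1 a4_2 a4_3 q4 1152922604118474752 0 fun c5 a5_1 a5_2 a5_3 q5 =>
  mulK z1 (Nat.add w1 1152921504606846976) 1152921504606846976 1152921504606846976 0 c5 a5_1 a5_2 a5_3 q5 fun c8 a8_1 a8_2 a8_3 q8 =>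
  sqK z1 (Nat.add w1 1152921504606846976) 1152921504606846976 1152921504606846976 0 fun c9 a9_1 a9_2 a9_3 q9 =>
  mulK c1 a1_1 a1_2 a1_3 q1 c9 a9_1 a9_2 a9_3 q9 fun c12 a12_1 a12_2 a12_3 q12 =>
  negK c12 a12_1 a12_2 a12_3 q12 fun c13 a13_1 a13_2 a13_3 q13 =>
  addcK c13 a13_1 a13_2 a13_3 q13 1152922604118474752 0 fun c14 a14_1 a14_2 a14_3 q14 =>
  sqrtK c14 a14_1 a14_2 a14_3 q14 fun c16 a16_1 a16_2 a16_3 q16 =>
  negK c9 a9_1 a9_2 a9_3 q9 fun c18 a18_1 a18_2 a18_3 q18 =>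
  addcK c18 a18_1 a18_2 a18_3 q18 1152922604118474752 0 fun c19 a19_1 a19_2 a19_3 q19 =>
  sqrtK c19 a19_1 a19_2 a19_3 q19 fun c21 a21_1 a21_2 a21_3 q21 =>
  addK c16 a16_1 a16_2 a16_3 q16 c21 a21_1 a21_2 a21_3 q21 fun c23 a23_1 a23_2 a23_3 q23 =>
  smulK 3 1 1152921504606846977 3458764513820540928 c23 a23_1 a23_2 a23_3 q23 fun c24 a24_1 a24_2 a24_3 q24 =>
  invK c24 a24_1 a24_2 a24_3 q24 fun c25 a25_1 a25_2 a25_3 q25 =>
  addcK c16 a16_1 a16_2 a16_3 q16 1152922604118474752 0 fun c26 a26_1 a26_2 a26_3 q26 =>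
  invK c26 a26_1 a26_2 a26_3 q26 fun c28 a28_1 a28_2 a28_3 q28 =>
  mulK c1 a1_1 a1_2 a1_3 q1 c28 a28_1 a28_2 a28_3 q28 fun c31 a31_1 a31_2 a31_3 q31 =>
  addcK c21 a21_1 a21_2 a21_3 q21 1152922604118474752 0 fun c32 a32_1 a32_2 a32_3 q32 =>
  invK c32 a32_1 a32_2 a32_3 q32 fun c34 a34_1 a34_2 a34_3 q34 =>
  addK c31 a31_1 a31_2 a31_3 q31 c34 a34_1 a34_2 a34_3 q34 fun c37 a37_1 a37_2 a37_3 q37 =>
  mulK z1 (Nat.add w1 1152921504606846976) 1152921504606846976 1152921504606846976 0 c37 a37_1 a37_2 a37_3 q37 fun c38 a38_1 a38_2 a38_3 q38 =>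
  mulK c38 a38_1 a38_2 a38_3 q38 c25 a25_1 a25_2 a25_3 q25 fun c39 a39_1 a39_2 a39_3 q39 =>
  mulK c16 a16_1 a16_2 a16_3 q16 z2 1152921504606846976 (Nat.add w2 1152921504606846976) 1152921504606846976 0 fun c41 a41_1 a41_2 a41_3 q41 =>
  addK c41 a41_1 a41_2 a41_3 q41 c21 a21_1 a21_2 a21_3 q21 fun c42 a42_1 a42_2 a42_3 q42 =>
  addcK z2 1152921504606846976 (Nat.add w2 1152921504606846976) 1152921504606846976 0 1152922604118474752 0 fun c43 a43_1 a43_2 a43_3 q43 =>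
  mulK c42 a42_1 a42_2 a42_3 q42 c43 a43_1 a43_2 a43_3 q43 fun c45 a45_1 a45_2 a45_3 q45 =>
  invK c45 a45_1 a45_2 a45_3 q45 fun c46 a46_1 a46_2 a46_3 q46 =>
  negK c28 a28_1 a28_2 a28_3 q28 fun c47 a47_1 a47_2 a47_3 q47 =>
  addcK c47 a47_1 a47_2 a47_3 q47 1152922604118474752 0 fun c48 a48_1 a48_2 a48_3 q48 =>
  mulK c1 a1_1 a1_2 a1_3 q1 c48 a48_1 a48_2 a48_3 q48 fun c50 a50_1 a50_2 a50_3 q50 =>
  addcK c50 a50_1 a50_2 a50_3 q50 1152922604118474752 0 fun c51 a51_1 a51_2 a51_3 q51 =>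
  mulK z2 1152921504606846976 (Nat.add w2 1152921504606846976) 1152921504606846976 0 c51 a51_1 a51_2 a51_3 q51 fun c53 a53_1 a53_2 a53_3 q53 =>
  addK c53 a53_1 a53_2 a53_3 q53 c1 a1_1 a1_2 a1_3 q1 fun c54 a54_1 a54_2 a54_3 q54 =>
  negK c34 a34_1 a34_2 a34_3 q34 fun c55 a55_1 a55_2 a55_3 q55 =>
  addcK c55 a55_1 a55_2 a55_3 q55 1152922604118474752 0 fun c56 a56_1 a56_2 a56_3 q56 =>
  addK c54 a54_1 a54_2 a54_3 q54 c56 a56_1 a56_2 a56_3 q56 fun c58 a58_1 a58_2 a58_3 q58 =>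
  mulK c58 a58_1 a58_2 a58_3 q58 c46 a46_1 a46_2 a46_3 q46 fun c59 a59_1 a59_2 a59_3 q59 =>
  smulK 2 3 3458764513820540931 2305843009213693952 c59 a59_1 a59_2 a59_3 q59 fun c61 a61_1 a61_2 a61_3 q61 =>
  addK c39 a39_1 a39_2 a39_3 q39 c61 a61_1 a61_2 a61_3 q61 fun c62 a62_1 a62_2 a62_3 q62 =>
  mulK c8 a8_1 a8_2 a8_3 q8 c62 a62_1 a62_2 a62_3 q62 fun c64 a64_1 a64_2 a64_3 q64 =>
  mulK z2 1152921504606846976 (Nat.add w2 1152921504606846976) 1152921504606846976 0 z1 (Nat.add w1 1152921504606846976) 1152921504606846976 1152921504606846976 0 fun c65 a65_1 a65_2 a65_3 q65 =>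
  addcK c65 a65_1 a65_2 a65_3 q65 1152922604118474752 0 fun c66 a66_1 a66_2 a66_3 q66 =>
  mulK c66 a66_1 a66_2 a66_3 q66 c28 a28_1 a28_2 a28_3 q28 fun c68 a68_1 a68_2 a68_3 q68 =>
  negK c68 a68_1 a68_2 a68_3 q68 fun c69 a69_1 a69_2 a69_3 q69 =>
  addcK c69 a69_1 a69_2 a69_3 q69 1152923703630102528 0 fun c70 a70_1 a70_2 a70_3 q70 =>
  mulK c1 a1_1 a1_2 a1_3 q1 c70 a70_1 a70_2 a70_3 q70 fun c73 a73_1 a73_2 a73_3 q73 =>
  smulK 3 10 11529215046068469770 3458764513820540928 c73 a73_1 a73_2 a73_3 q73 fun c75 a75_1 a75_2 a75_3 q75 =>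
  addcK z1 (Nat.add w1 1152921504606846976) 1152921504606846976 1152921504606846976 0 1152922604118474752 0 fun c76 a76_1 a76_2 a76_3 q76 =>
  mulK c76 a76_1 a76_2 a76_3 q76 c34 a34_1 a34_2 a34_3 q34 fun c78 a78_1 a78_2 a78_3 q78 =>
  negK c78 a78_1 a78_2 a78_3 q78 fun c79 a79_1 a79_2 a79_3 q79 =>
  addcK c79 a79_1 a79_2 a79_3 q79 1152923703630102528 0 fun c80 a80_1 a80_2 a80_3 q80 =>
  smulK 39 200 230584300921369395400 44963938679667032064 c80 a80_1 a80_2 a80_3 q80 fun c83 a83_1 a83_2 a83_3 q83 =>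
  addK c75 a75_1 a75_2 a75_3 q75 c83 a83_1 a83_2 a83_3 q83 fun c84 a84_1 a84_2 a84_3 q84 =>
  smulK 3 2 2305843009213693954 3458764513820540928 c84 a84_1 a84_2 a84_3 q84 fun c86 a86_1 a86_2 a86_3 q86 =>
  subK c64 a64_1 a64_2 a64_3 q64 c86 a86_1 a86_2 a86_3 q86 fun c87 a87_1 a87_2 a87_3 q87 =>
  posK c87 a87_1 a87_2 a87_3 q87 <|
  addcK c1 a1_1 a1_2 a1_3 q1 1152922604118474752 0 fun c88 a88_1 a88_2 a88_3 q88 =>
  mulK c9 a9_1 a9_2 a9_3 q9 c88 a88_1 a88_2 a88_3 q88 fun c90 a90_1 a90_2 a90_3 q90 =>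
  negK c90 a90_1 a90_2 a90_3 q90 fun c91 a91_1 a91_2 a91_3 q91 =>
  addcK c91 a91_1 a91_2 a91_3 q91 1152923703630102528 0 fun c92 a92_1 a92_2 a92_3 q92 =>
  mulK c16 a16_1 a16_2 a16_3 q16 c21 a21_1 a21_2 a21_3 q21 fun c95 a95_1 a95_2 a95_3 q95 =>
  sqK c95 a95_1 a95_2 a95_3 q95 fun c97 a97_1 a97_2 a97_3 q97 =>
  mulK z3 1152921504606846976 1152921504606846976 (Nat.add w3 1152921504606846976) 0 c5 a5_1 a5_2 a5_3 q5 fun c99 a99_1 a99_2 a99_3 q99 =>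
  smulK 1 2 2305843009213693954 1152921504606846976 c99 a99_1 a99_2 a99_3 q99 fun c100 a100_1 a100_2 a100_3 q100 =>
  sqK c100 a100_1 a100_2 a100_3 q100 fun c103 a103_1 a103_2 a103_3 q103 =>
  sqK c9 a9_1 a9_2 a9_3 q9 fun c106 a106_1 a106_2 a106_3 q106 =>
  mulK c103 a103_1 a103_2 a103_3 q103 c106 a106_1 a106_2 a106_3 q106 fun c108 a108_1 a108_2 a108_3 q108 =>
  addK c97 a97_1 a97_2 a97_3 q97 c108 a108_1 a108_2 a108_3 q108 fun c110 a110_1 a110_2 a110_3 q110 =>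
  sqrtK c110 a110_1 a110_2 a110_3 q110 fun c111 a111_1 a111_2 a111_3 q111 =>
  smulK 2 1 1152921504606846977 2305843009213693952 c111 a111_1 a111_2 a111_3 q111 fun c113 a113_1 a113_2 a113_3 q113 =>
  addK c92 a92_1 a92_2 a92_3 q92 c113 a113_1 a113_2 a113_3 q113 fun c114 a114_1 a114_2 a114_3 q114 =>
  sqrtK c114 a114_1 a114_2 a114_3 q114 fun c115 a115_1 a115_2 a115_3 q115 =>
  addK c115 a115_1 a115_2 a115_3 q115 c16 a16_1 a16_2 a16_3 q16 fun c117 a117_1 a117_2 a117_3 q117 =>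
  addK c117 a117_1 a117_2 a117_3 q117 c21 a21_1 a21_2 a21_3 q21 fun c118 a118_1 a118_2 a118_3 q118 =>
  addK c111 a111_1 a111_2 a111_3 q111 c95 a95_1 a95_2 a95_3 q95 fun c120 a120_1 a120_2 a120_3 q120 =>
  mulK c118 a118_1 a118_2 a118_3 q118 c120 a120_1 a120_2 a120_3 q120 fun c121 a121_1 a121_2 a121_3 q121 =>
  invK c121 a121_1 a121_2 a121_3 q121 fun c122 a122_1 a122_2 a122_3 q122 =>
  subK c92 a92_1 a92_2 a92_3 q92 c95 a95_1 a95_2 a95_3 q95 fun c123 a123_1 a123_2 a123_3 q123 =>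
  smulK 2 1 1152921504606846977 2305843009213693952 c123 a123_1 a123_2 a123_3 q123 fun c124 a124_1 a124_2 a124_3 q124 =>
  mulK c115 a115_1 a115_2 a115_3 q115 c118 a118_1 a118_2 a118_3 q118 fun c125 a125_1 a125_2 a125_3 q125 =>
  subK c124 a124_1 a124_2 a124_3 q124 c125 a125_1 a125_2 a125_3 q125 fun c126 a126_1 a126_2 a126_3 q126 =>
  smulK 2479 5000 5764607523034234885000 2858092409920373653504 c126 a126_1 a126_2 a126_3 q126 fun c127 a127_1 a127_2 a127_3 q127 =>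
  negK c127 a127_1 a127_2 a127_3 q127 fun c128 a128_1 a128_2 a128_3 q128 =>
  addcK c128 a128_1 a128_2 a128_3 q128 1152925902653358080 0 fun c130 a130_1 a130_2 a130_3 q130 =>
  mulK c130 a130_1 a130_2 a130_3 q130 c122 a122_1 a122_2 a122_3 q122 fun c132 a132_1 a132_2 a132_3 q132 =>
  smulK 1971 10000 11529215046068469770000 2272408285580095389696 c92 a92_1 a92_2 a92_3 q92 fun c134 a134_1 a134_2 a134_3 q134 =>
  negK c134 a134_1 a134_2 a134_3 q134 fun c135 a135_1 a135_2 a135_3 q135 =>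
  negK c135 a135_1 a135_2 a135_3 q135 fun c137 a137_1 a137_2 a137_3 q137 =>
  addcK c137 a137_1 a137_2 a137_3 q137 1152920892838577281 1 fun c138 a138_1 a138_2 a138_3 q138 =>
  smulK 2 1 1152921504606846977 2305843009213693952 c97 a97_1 a97_2 a97_3 q97 fun c140 a140_1 a140_2 a140_3 q140 =>
  addK c140 a140_1 a140_2 a140_3 q140 c108 a108_1 a108_2 a108_3 q108 fun c141 a141_1 a141_2 a141_3 q141 =>
  smulK 2 1 1152921504606846977 2305843009213693952 c141 a141_1 a141_2 a141_3 q141 fun c142 a142_1 a142_2 a142_3 q142 =>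
  sqK c92 a92_1 a92_2 a92_3 q92 fun c143 a143_1 a143_2 a143_3 q143 =>
  smulK 4 1 1152921504606846977 4611686018427387904 c143 a143_1 a143_2 a143_3 q143 fun c145 a145_1 a145_2 a145_3 q145 =>
  subK c142 a142_1 a142_2 a142_3 q142 c145 a145_1 a145_2 a145_3 q145 fun c146 a146_1 a146_2 a146_3 q146 =>
  smulK 24 625 720575940379279360625 27670116110564327424 c146 a146_1 a146_2 a146_3 q146 fun c147 a147_1 a147_2 a147_3 q147 =>
  addK c138 a138_1 a138_2 a138_3 q138 c147 a147_1 a147_2 a147_3 q147 fun c148 a148_1 a148_2 a148_3 q148 =>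
  addK c132 a132_1 a132_2 a132_3 q132 c148 a148_1 a148_2 a148_3 q148 fun c150 a150_1 a150_2 a150_3 q150 =>
  mulK z1 (Nat.add w1 1152921504606846976) 1152921504606846976 1152921504606846976 0 c150 a150_1 a150_2 a150_3 q150 fun c151 a151_1 a151_2 a151_3 q151 =>
  addK c1 a1_1 a1_2 a1_3 q1 c103 a103_1 a103_2 a103_3 q103 fun c152 a152_1 a152_2 a152_3 q152 =>
  sqrtK c152 a152_1 a152_2 a152_3 q152 fun c153 a153_1 a153_2 a153_3 q153 =>
  smulK 2 1 1152921504606846977 2305843009213693952 c153 a153_1 a153_2 a153_3 q153 fun c155 a155_1 a155_2 a155_3 q155 =>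
  addK c88 a88_1 a88_2 a88_3 q88 c155 a155_1 a155_2 a155_3 q155 fun c156 a156_1 a156_2 a156_3 q156 =>
  sqrtK c156 a156_1 a156_2 a156_3 q156 fun c157 a157_1 a157_2 a157_3 q157 =>
  addK c157 a157_1 a157_2 a157_3 q157 c43 a43_1 a43_2 a43_3 q43 fun c159 a159_1 a159_2 a159_3 q159 =>
  invK c159 a159_1 a159_2 a159_3 q159 fun c160 a160_1 a160_2 a160_3 q160 =>
  mulK c157 a157_1 a157_2 a157_3 q157 c43 a43_1 a43_2 a43_3 q43 fun c161 a161_1 a161_2 a161_3 q161 =>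
  addK c161 a161_1 a161_2 a161_3 q161 c88 a88_1 a88_2 a88_3 q88 fun c162 a162_1 a162_2 a162_3 q162 =>
  invK c162 a162_1 a162_2 a162_3 q162 fun c163 a163_1 a163_2 a163_3 q163 =>
  addK c88 a88_1 a88_2 a88_3 q88 z2 1152921504606846976 (Nat.add w2 1152921504606846976) 1152921504606846976 0 fun c164 a164_1 a164_2 a164_3 q164 =>
  mulK c164 a164_1 a164_2 a164_3 q164 c163 a163_1 a163_2 a163_3 q163 fun c165 a165_1 a165_2 a165_3 q165 =>
  addcK c165 a165_1 a165_2 a165_3 q165 1152922604118474752 0 fun c167 a167_1 a167_2 a167_3 q167 =>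
  mulK c167 a167_1 a167_2 a167_3 q167 c160 a160_1 a160_2 a160_3 q160 fun c169 a169_1 a169_2 a169_3 q169 =>
  addK c151 a151_1 a151_2 a151_3 q151 c169 a169_1 a169_2 a169_3 q169 fun c172 a172_1 a172_2 a172_3 q172 =>
  mulK c5 a5_1 a5_2 a5_3 q5 c172 a172_1 a172_2 a172_3 q172 fun c174 a174_1 a174_2 a174_3 q174 =>
  smulK 3 1 1152921504606846977 3458764513820540928 c62 a62_1 a62_2 a62_3 q62 fun c175 a175_1 a175_2 a175_3 q175 =>
  subK c174 a174_1 a174_2 a174_3 q174 c175 a175_1 a175_2 a175_3 q175 fun c176 a176_1 a176_2 a176_3 q176 =>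
  mulK c8 a8_1 a8_2 a8_3 q8 c176 a176_1 a176_2 a176_3 q176 fun c177 a177_1 a177_2 a177_3 q177 =>
  smulK 9 4 4611686018427387908 10376293541461622784 c84 a84_1 a84_2 a84_3 q84 fun c178 a178_1 a178_2 a178_3 q178 =>
  addK c177 a177_1 a177_2 a177_3 q177 c178 a178_1 a178_2 a178_3 q178 fun c179 a179_1 a179_2 a179_3 q179 =>
  pos c179 a179_1 a179_2 a179_3 q179

theorem alt1_s {z1 w1 z2 w2 z3 w3 : ℕ} {e1 e2 e3 T c s : ℝ} (he : Ev e1 e2 e3)
    (hx1 : In e1 e2 e3 z1 (Nat.add w1 1152921504606846976) 1152921504606846976 1152921504606846976 0 T)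
    (hx2 : In e1 e2 e3 z2 1152921504606846976 (Nat.add w2 1152921504606846976) 1152921504606846976 0 c)
    (hx3 : In e1 e2 e3 z3 1152921504606846976 1152921504606846976 (Nat.add w3 1152921504606846976) 0 s)
    (H0 : alt1 z1 w1 z2 w2 z3 w3 = true) : 0 < (((T * (d T c s)) * (Z T c s)) - ((3/2:ℝ) * (L T c s))) ∧ 0 < (((T * (d T c s)) * (((d T c s) * (G T c s)) - ((3:ℝ) * (Z T c s)))) + ((9/4:ℝ) * (L T c s))) := by
  unfold alt1 at H0
  refine sqK_s he hx2 (fun _ _ _ _ _ h1 H1 => ?_) H0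
  have h2 := In_cast h1 (sq _)
  have h3 := In_cast (w := (c2 T c s)) h2 rfl
  refine negK_s he h3 (fun _ _ _ _ _ h4 H2 => ?_) H1
  refine addcK_s he h4 (v' := (1:ℝ)) (by norm_num [SS, BB, abs_le]) (fun _ _ _ _ _ h5 H3 => ?_) H2
  have h6 := In_cast h5 (neg_add_eq_sub _ _)
  have h7 := In_cast (w := (d T c s)) h6 rfl
  refine mulK_s he hx1 h7 (fun _ _ _ _ _ h8 H4 => ?_) H3
  refine sqK_s he hx1 (fun _ _ _ _ _ h9 H5 => ?_) H4
  have h10 := In_cast h9 (sq _)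
  have h11 := In_cast (w := (T2 T c s)) h10 rfl
  refine mulK_s he h3 h11 (fun _ _ _ _ _ h12 H6 => ?_) H5
  refine negK_s he h12 (fun _ _ _ _ _ h13 H7 => ?_) H6
  refine addcK_s he h13 (v' := (1:ℝ)) (by norm_num [SS, BB, abs_le]) (fun _ _ _ _ _ h14 H8 => ?_) H7
  have h15 := In_cast h14 (neg_add_eq_sub _ _)
  refine sqrtK_s he h15 (fun _ _ _ _ _ h16 H9 => ?_) H8
  have h17 := In_cast (w := (r0 T c s)) h16 rfl
  refine negK_s he h11 (fun _ _ _ _ _ h18 H10 => ?_) H9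
  refine addcK_s he h18 (v' := (1:ℝ)) (by norm_num [SS, BB, abs_le]) (fun _ _ _ _ _ h19 H11 => ?_) H10
  have h20 := In_cast h19 (neg_add_eq_sub _ _)
  refine sqrtK_s he h20 (fun _ _ _ _ _ h21 H12 => ?_) H11
  have h22 := In_cast (w := (r1 T c s)) h21 rfl
  refine addK_s he h17 h22 (fun _ _ _ _ _ h23 H13 => ?_) H12
  refine smulK_s he (w := (3:ℝ)) (by norm_num) (by norm_num) (by norm_num) (by norm_num) h23 (fun _ _ _ _ _ h24 H14 => ?_) H13
  refine invK_s he h24 (fun _ _ _ _ _ h25 H15 => ?_) H14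
  refine addcK_s he h17 (v' := (1:ℝ)) (by norm_num [SS, BB, abs_le]) (fun _ _ _ _ _ h26 H16 => ?_) H15
  have h27 := In_cast h26 (add_comm _ _)
  refine invK_s he h27 (fun _ _ _ _ _ h28 H17 => ?_) H16
  have h29 := In_cast h28 (inv_eq_one_div _)
  have h30 := In_cast (w := (i0 T c s)) h29 rfl
  refine mulK_s he h3 h30 (fun _ _ _ _ _ h31 H18 => ?_) H17
  refine addcK_s he h22 (v' := (1:ℝ)) (by norm_num [SS, BB, abs_le]) (fun _ _ _ _ _ h32 H19 => ?_) H18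
  have h33 := In_cast h32 (add_comm _ _)
  refine invK_s he h33 (fun _ _ _ _ _ h34 H20 => ?_) H19
  have h35 := In_cast h34 (inv_eq_one_div _)
  have h36 := In_cast (w := (i1 T c s)) h35 rfl
  refine addK_s he h31 h36 (fun _ _ _ _ _ h37 H21 => ?_) H20
  refine mulK_s he hx1 h37 (fun _ _ _ _ _ h38 H22 => ?_) H21
  refine mulK_s he h38 h25 (fun _ _ _ _ _ h39 H23 => ?_) H22
  have h40 := In_cast h39 ((div_eq_mul_inv _ _).symm)
  refine mulK_s he h17 hx2 (fun _ _ _ _ _ h41 H24 => ?_) H23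
  refine addK_s he h41 h22 (fun _ _ _ _ _ h42 H25 => ?_) H24
  refine addcK_s he hx2 (v' := (1:ℝ)) (by norm_num [SS, BB, abs_le]) (fun _ _ _ _ _ h43 H26 => ?_) H25
  have h44 := In_cast h43 (add_comm _ _)
  refine mulK_s he h42 h44 (fun _ _ _ _ _ h45 H27 => ?_) H26
  refine invK_s he h45 (fun _ _ _ _ _ h46 H28 => ?_) H27
  refine negK_s he h30 (fun _ _ _ _ _ h47 H29 => ?_) H28
  refine addcK_s he h47 (v' := (1:ℝ)) (by norm_num [SS, BB, abs_le]) (fun _ _ _ _ _ h48 H30 => ?_) H29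
  have h49 := In_cast h48 (neg_add_eq_sub _ _)
  refine mulK_s he h3 h49 (fun _ _ _ _ _ h50 H31 => ?_) H30
  refine addcK_s he h50 (v' := (1:ℝ)) (by norm_num [SS, BB, abs_le]) (fun _ _ _ _ _ h51 H32 => ?_) H31
  have h52 := In_cast h51 (add_comm _ _)
  refine mulK_s he hx2 h52 (fun _ _ _ _ _ h53 H33 => ?_) H32
  refine addK_s he h53 h3 (fun _ _ _ _ _ h54 H34 => ?_) H33
  refine negK_s he h36 (fun _ _ _ _ _ h55 H35 => ?_) H34
  refine addcK_s he h55 (v' := (1:ℝ)) (by norm_num [SS, BB, abs_le]) (fun _ _ _ _ _ h56 H36 => ?_) H35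
  have h57 := In_cast h56 (neg_add_eq_sub _ _)
  refine addK_s he h54 h57 (fun _ _ _ _ _ h58 H37 => ?_) H36
  refine mulK_s he h58 h46 (fun _ _ _ _ _ h59 H38 => ?_) H37
  have h60 := In_cast h59 ((div_eq_mul_inv _ _).symm)
  refine smulK_s he (w := (2/3:ℝ)) (by norm_num) (by norm_num) (by norm_num) (by norm_num) h60 (fun _ _ _ _ _ h61 H39 => ?_) H38
  refine addK_s he h40 h61 (fun _ _ _ _ _ h62 H40 => ?_) H39
  have h63 := In_cast (w := (Z T c s)) h62 rfl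
  refine mulK_s he h8 h63 (fun _ _ _ _ _ h64 H41 => ?_) H40
  refine mulK_s he hx2 hx1 (fun _ _ _ _ _ h65 H42 => ?_) H41
  refine addcK_s he h65 (v' := (1:ℝ)) (by norm_num [SS, BB, abs_le]) (fun _ _ _ _ _ h66 H43 => ?_) H42
  have h67 := In_cast h66 (add_comm _ _)
  refine mulK_s he h67 h30 (fun _ _ _ _ _ h68 H44 => ?_) H43
  refine negK_s he h68 (fun _ _ _ _ _ h69 H45 => ?_) H44
  refine addcK_s he h69 (v' := (2:ℝ)) (by norm_num [SS, BB, abs_le]) (fun _ _ _ _ _ h70 H46 => ?_) H45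
  have h71 := In_cast h70 (neg_add_eq_sub _ _)
  have h72 := In_cast (w := (U0 T c s)) h71 rfl
  refine mulK_s he h3 h72 (fun _ _ _ _ _ h73 H47 => ?_) H46
  have h74 := In_cast (w := (V0 T c s)) h73 rfl
  refine smulK_s he (w := (3/10:ℝ)) (by norm_num) (by norm_num) (by norm_num) (by norm_num) h74 (fun _ _ _ _ _ h75 H48 => ?_) H47
  refine addcK_s he hx1 (v' := (1:ℝ)) (by norm_num [SS, BB, abs_le]) (fun _ _ _ _ _ h76 H49 => ?_) H48
  have h77 := In_cast h76 (add_comm _ _)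
  refine mulK_s he h77 h36 (fun _ _ _ _ _ h78 H50 => ?_) H49
  refine negK_s he h78 (fun _ _ _ _ _ h79 H51 => ?_) H50
  refine addcK_s he h79 (v' := (2:ℝ)) (by norm_num [SS, BB, abs_le]) (fun _ _ _ _ _ h80 H52 => ?_) H51
  have h81 := In_cast h80 (neg_add_eq_sub _ _)
  have h82 := In_cast (w := (U1 T c s)) h81 rfl
  refine smulK_s he (w := (39/200:ℝ)) (by norm_num) (by norm_num) (by norm_num) (by norm_num) h82 (fun _ _ _ _ _ h83 H53 => ?_) H52
  refine addK_s he h75 h83 (fun _ _ _ _ _ h84 H54 => ?_) H53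
  have h85 := In_cast (w := (L T c s)) h84 rfl
  refine smulK_s he (w := (3/2:ℝ)) (by norm_num) (by norm_num) (by norm_num) (by norm_num) h85 (fun _ _ _ _ _ h86 H55 => ?_) H54
  refine subK_s he h64 h86 (fun _ _ _ _ _ h87 H56 => ?_) H55
  refine posK_s he h87 (fun p0 H57 => ?_) H56
  refine addcK_s he h3 (v' := (1:ℝ)) (by norm_num [SS, BB, abs_le]) (fun _ _ _ _ _ h88 H58 => ?_) H57
  have h89 := In_cast h88 (add_comm _ _)
  refine mulK_s he h11 h89 (fun _ _ _ _ _ h90 H59 => ?_) H58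
  refine negK_s he h90 (fun _ _ _ _ _ h91 H60 => ?_) H59
  refine addcK_s he h91 (v' := (2:ℝ)) (by norm_num [SS, BB, abs_le]) (fun _ _ _ _ _ h92 H61 => ?_) H60
  have h93 := In_cast h92 (neg_add_eq_sub _ _)
  have h94 := In_cast (w := (P T c s)) h93 rfl
  refine mulK_s he h17 h22 (fun _ _ _ _ _ h95 H62 => ?_) H61
  have h96 := In_cast (w := (pi0 T c s)) h95 rfl
  refine sqK_s he h96 (fun _ _ _ _ _ h97 H63 => ?_) H62
  have h98 := In_cast h97 (sq _)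
  refine mulK_s he hx3 h7 (fun _ _ _ _ _ h99 H64 => ?_) H63
  refine smulK_s he (w := (1/2:ℝ)) (by norm_num) (by norm_num) (by norm_num) (by norm_num) h99 (fun _ _ _ _ _ h100 H65 => ?_) H64
  have h101 := In_cast h100 (div_c (c := (2:ℝ)) (by norm_num))
  have h102 := In_cast (w := (hh T c s)) h101 rfl
  refine sqK_s he h102 (fun _ _ _ _ _ h103 H66 => ?_) H65
  have h104 := In_cast h103 (sq _)
  have h105 := In_cast (w := (hq T c s)) h104 rfl
  refine sqK_s he h11 (fun _ _ _ _ _ h106 H67 => ?_) H66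
  have h107 := In_cast h106 (sq _)
  refine mulK_s he h105 h107 (fun _ _ _ _ _ h108 H68 => ?_) H67
  have h109 := In_cast (w := (w T c s)) h108 rfl
  refine addK_s he h98 h109 (fun _ _ _ _ _ h110 H69 => ?_) H68
  refine sqrtK_s he h110 (fun _ _ _ _ _ h111 H70 => ?_) H69
  have h112 := In_cast (w := (pi T c s)) h111 rfl
  refine smulK_s he (w := (2:ℝ)) (by norm_num) (by norm_num) (by norm_num) (by norm_num) h112 (fun _ _ _ _ _ h113 H71 => ?_) H70
  refine addK_s he h94 h113 (fun _ _ _ _ _ h114 H72 => ?_) H71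
  refine sqrtK_s he h114 (fun _ _ _ _ _ h115 H73 => ?_) H72
  have h116 := In_cast (w := (sg T c s)) h115 rfl
  refine addK_s he h116 h17 (fun _ _ _ _ _ h117 H74 => ?_) H73
  refine addK_s he h117 h22 (fun _ _ _ _ _ h118 H75 => ?_) H74
  have h119 := In_cast (w := (ss T c s)) h118 rfl
  refine addK_s he h112 h96 (fun _ _ _ _ _ h120 H76 => ?_) H75
  refine mulK_s he h119 h120 (fun _ _ _ _ _ h121 H77 => ?_) H76
  refine invK_s he h121 (fun _ _ _ _ _ h122 H78 => ?_) H77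
  refine subK_s he h94 h96 (fun _ _ _ _ _ h123 H79 => ?_) H78
  refine smulK_s he (w := (2:ℝ)) (by norm_num) (by norm_num) (by norm_num) (by norm_num) h123 (fun _ _ _ _ _ h124 H80 => ?_) H79
  refine mulK_s he h116 h119 (fun _ _ _ _ _ h125 H81 => ?_) H80
  refine subK_s he h124 h125 (fun _ _ _ _ _ h126 H82 => ?_) H81
  refine smulK_s he (w := (2479/5000:ℝ)) (by norm_num) (by norm_num) (by norm_num) (by norm_num) h126 (fun _ _ _ _ _ h127 H83 => ?_) H82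
  refine negK_s he h127 (fun _ _ _ _ _ h128 H84 => ?_) H83
  have h129 := In_cast h128 (neg_mul_c (c := (-2479/5000:ℝ)) (by norm_num))
  refine addcK_s he h129 (v' := (4:ℝ)) (by norm_num [SS, BB, abs_le]) (fun _ _ _ _ _ h130 H85 => ?_) H84
  have h131 := In_cast h130 (add_comm _ _)
  refine mulK_s he h131 h122 (fun _ _ _ _ _ h132 H86 => ?_) H85
  have h133 := In_cast h132 ((div_eq_mul_inv _ _).symm)
  refine smulK_s he (w := (1971/10000:ℝ)) (by norm_num) (by norm_num) (by norm_num) (by norm_num) h94 (fun _ _ _ _ _ h134 H87 => ?_) H86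
  refine negK_s he h134 (fun _ _ _ _ _ h135 H88 => ?_) H87
  have h136 := In_cast h135 (neg_mul_c (c := (-1971/10000:ℝ)) (by norm_num))
  refine negK_s he h136 (fun _ _ _ _ _ h137 H89 => ?_) H88
  refine addcK_s he h137 (v' := (-1391/2500:ℝ)) (by norm_num [SS, BB, abs_le]) (fun _ _ _ _ _ h138 H90 => ?_) H89
  have h139 := In_cast h138 (neg_add_eq_sub _ _)
  refine smulK_s he (w := (2:ℝ)) (by norm_num) (by norm_num) (by norm_num) (by norm_num) h98 (fun _ _ _ _ _ h140 H91 => ?_) H90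
  refine addK_s he h140 h109 (fun _ _ _ _ _ h141 H92 => ?_) H91
  refine smulK_s he (w := (2:ℝ)) (by norm_num) (by norm_num) (by norm_num) (by norm_num) h141 (fun _ _ _ _ _ h142 H93 => ?_) H92
  refine sqK_s he h94 (fun _ _ _ _ _ h143 H94 => ?_) H93
  have h144 := In_cast h143 (sq _)
  refine smulK_s he (w := (4:ℝ)) (by norm_num) (by norm_num) (by norm_num) (by norm_num) h144 (fun _ _ _ _ _ h145 H95 => ?_) H94
  refine subK_s he h142 h145 (fun _ _ _ _ _ h146 H96 => ?_) H95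
  refine smulK_s he (w := (24/625:ℝ)) (by norm_num) (by norm_num) (by norm_num) (by norm_num) h146 (fun _ _ _ _ _ h147 H97 => ?_) H96
  refine addK_s he h139 h147 (fun _ _ _ _ _ h148 H98 => ?_) H97
  have h149 := In_cast (w := (Gp T c s)) h148 rfl
  refine addK_s he h133 h149 (fun _ _ _ _ _ h150 H99 => ?_) H98
  refine mulK_s he hx1 h150 (fun _ _ _ _ _ h151 H100 => ?_) H99
  refine addK_s he h3 h105 (fun _ _ _ _ _ h152 H101 => ?_) H100
  refine sqrtK_s he h152 (fun _ _ _ _ _ h153 H102 => ?_) H101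
  have h154 := In_cast (w := (b T c s)) h153 rfl
  refine smulK_s he (w := (2:ℝ)) (by norm_num) (by norm_num) (by norm_num) (by norm_num) h154 (fun _ _ _ _ _ h155 H103 => ?_) H102
  refine addK_s he h89 h155 (fun _ _ _ _ _ h156 H104 => ?_) H103
  refine sqrtK_s he h156 (fun _ _ _ _ _ h157 H105 => ?_) H104
  have h158 := In_cast (w := (v T c s)) h157 rfl
  refine addK_s he h158 h44 (fun _ _ _ _ _ h159 H106 => ?_) H105
  refine invK_s he h159 (fun _ _ _ _ _ h160 H107 => ?_) H106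
  refine mulK_s he h158 h44 (fun _ _ _ _ _ h161 H108 => ?_) H107
  refine addK_s he h161 h89 (fun _ _ _ _ _ h162 H109 => ?_) H108
  refine invK_s he h162 (fun _ _ _ _ _ h163 H110 => ?_) H109
  refine addK_s he h89 hx2 (fun _ _ _ _ _ h164 H111 => ?_) H110
  refine mulK_s he h164 h163 (fun _ _ _ _ _ h165 H112 => ?_) H111
  have h166 := In_cast h165 ((div_eq_mul_inv _ _).symm)
  refine addcK_s he h166 (v' := (1:ℝ)) (by norm_num [SS, BB, abs_le]) (fun _ _ _ _ _ h167 H113 => ?_) H112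
  have h168 := In_cast h167 (add_comm _ _)
  refine mulK_s he h168 h160 (fun _ _ _ _ _ h169 H114 => ?_) H113
  have h170 := In_cast h169 ((div_eq_mul_inv _ _).symm)
  have h171 := In_cast (w := (GW T c s)) h170 rfl
  refine addK_s he h151 h171 (fun _ _ _ _ _ h172 H115 => ?_) H114
  have h173 := In_cast (w := (G T c s)) h172 rfl
  refine mulK_s he h7 h173 (fun _ _ _ _ _ h174 H116 => ?_) H115
  refine smulK_s he (w := (3:ℝ)) (by norm_num) (by norm_num) (by norm_num) (by norm_num) h63 (fun _ _ _ _ _ h175 H117 => ?_) H116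
  refine subK_s he h174 h175 (fun _ _ _ _ _ h176 H118 => ?_) H117
  refine mulK_s he h8 h176 (fun _ _ _ _ _ h177 H119 => ?_) H118
  refine smulK_s he (w := (9/4:ℝ)) (by norm_num) (by norm_num) (by norm_num) (by norm_num) h85 (fun _ _ _ _ _ h178 H120 => ?_) H119
  refine addK_s he h177 h178 (fun _ _ _ _ _ h179 H121 => ?_) H120
  exact ⟨p0, pos_s he h179 H121⟩

attribute [irreducible] alt0 alt1

noncomputable def leaf (j u z1 w1 z2 w2 z3 w3 : ℕ) : Bool :=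
  sB j (alt0 z1 w1 z2 w2 z3 w3) fun j => alt1 z1 w1 z2 w2 z3 w3

theorem snd : Snd Q leaf := by
  intro j u z1 w1 z2 w2 z3 w3 e1 e2 e3 he H
  unfold leaf at H
  unfold Q
  replace H := sel H
  rcases H with H | ⟨j, H⟩
  · exact Or.inl (alt0_s he (var1 z1 w1) (var2 z2 w2) (var3 z3 w3) H)
  exact Or.inr (alt1_s he (var1 z1 w1) (var2 z2 w2) (var3 z3 w3) H)

end Crest.Agent.R307.UA7P
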