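import Crest.Agent.R307.UA7P
set_option autoImplicit false
set_option maxRecDepth 100000
namespace Crest.Agent.R307.UA7P
open Crest.Agent.R307.IA Crest.Agent.R307.IA3

theorem k0 : Cov Q 1152921504606846976 1152922296255218975 1152921504606846976 1152922604118474752 1152921504606846976 1152922340235684086 :=
  cov_of snd 0 0 7 _ _ _ _ _ _ 0x33133003033033013013303301303303301301133133110 (by decide +kernel)

end Crest.Agent.R307.UA7P
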