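import Crest.Agent.R307.UA7Q
set_option autoImplicit false
set_option maxRecDepth 100000
namespace Crest.Agent.R307.UA7Q
open Crest.Agent.R307.IA Crest.Agent.R307.IA3

theorem k0 : Cov Q 1152921504606846976 1152922054362661017 1152921504606846976 1152922604118474752 1152921504606846976 1152922340235684086 :=
  cov_of snd 0 0 16 _ _ _ _ _ _ 0x3303300330330013330133030033033033003330101330333300133330032101011330603303300133033300033033033055013213305503210133300555015550101011066333001601333013303301033050551550015505501013303305013305105505055050110103303303550101323303331005505550013213203255500550155055005501055155101350252135133051055055050152133025515510325505055015210330255050550155051052550515510152105505500550155051052550550052115505500525505055011551551105502551550055015215505055015502550505501105515500525505211055051551055025505500115505501551155055010550515502155055015505110550505502550521101 (by decide +kernel)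

theorem k1 : Cov Q 1152922054362661017 1152922604118474752 1152921504606846976 1152922604118474752 1152921504606846976 1152922340235684086 :=
  cov_of snd 0 0 14 _ _ _ _ _ _ 0x330330133033003330013303303301010330330133033103303310101330330033033001330330133033010133033003303300330010330330133033010330330133033010133033013303301033033033001330331333010101010333310033033033010133531005113303301330330133032103313305103302133300330333010133023330133033300103330133510550103302133120350515505500510550550013305121055155051035025501101 (by decide +kernel)

end Crest.Agent.R307.UA7Q
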