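import Crest.Agent.R307.IA3
import Crest.Agent.R307.IAx
set_option autoImplicit false
set_option linter.unusedVariables false
set_option maxRecDepth 20000
namespace Crest.Agent.R307.UAQ
open Crest.Agent.R307.IA Crest.Agent.R307.IA3

theorem In_cast {e1 e2 e3 : ℝ} {x y1 y2 y3 r : ℕ} {v w : ℝ}
    (h : In e1 e2 e3 x y1 y2 y3 r v) (e : v = w) : In e1 e2 e3 x y1 y2 y3 r w := e ▸ h

noncomputable def iu (u ta s : ℝ) : ℝ := ((1:ℝ) / ((1:ℝ) + (u * u)))
noncomputable def t0 (u ta s : ℝ) : ℝ := (((2:ℝ) * u) * (iu u ta s))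
noncomputable def R (u ta s : ℝ) : ℝ := (((2:ℝ) * (iu u ta s)) - (1:ℝ))
noncomputable def U0 (u ta s : ℝ) : ℝ := ((((t0 u ta s) - (1:ℝ)) + (((1:ℝ) - (R u ta s)) * (2:ℝ))) + ((R u ta s) / ((1:ℝ) + (t0 u ta s))))
noncomputable def r1 (u ta s : ℝ) : ℝ := ((R u ta s) * ta)
noncomputable def t1 (u ta s : ℝ) : ℝ := (√((1:ℝ) - ((r1 u ta s) * (r1 u ta s))))
noncomputable def U1 (u ta s : ℝ) : ℝ := ((((1:ℝ) + (t1 u ta s)) - ((2:ℝ) * (r1 u ta s))) + ((r1 u ta s) / ((1:ℝ) + (t1 u ta s))))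
noncomputable def V1 (u ta s : ℝ) : ℝ := (ta * (U1 u ta s))
noncomputable def L (u ta s : ℝ) : ℝ := (((3/10:ℝ) * (U0 u ta s)) + ((39/200:ℝ) * (V1 u ta s)))
noncomputable def R2 (u ta s : ℝ) : ℝ := ((R u ta s) * (R u ta s))
noncomputable def Ph (u ta s : ℝ) : ℝ := ((1:ℝ) + (ta * ta))
noncomputable def d (u ta s : ℝ) : ℝ := ((1:ℝ) - (ta * ta))
noncomputable def hh (u ta s : ℝ) : ℝ := ((s * (d u ta s)) / (2:ℝ))
noncomputable def hq (u ta s : ℝ) : ℝ := ((hh u ta s) * (hh u ta s))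
noncomputable def om (u ta s : ℝ) : ℝ := (√((ta * ta) + (hq u ta s)))
noncomputable def sg (u ta s : ℝ) : ℝ := (√((Ph u ta s) + ((2:ℝ) * (om u ta s))))
noncomputable def ss (u ta s : ℝ) : ℝ := (((sg u ta s) + (1:ℝ)) + ta)
noncomputable def P (u ta s : ℝ) : ℝ := ((R2 u ta s) * (Ph u ta s))
noncomputable def R4 (u ta s : ℝ) : ℝ := ((R2 u ta s) * (R2 u ta s))
noncomputable def Gp (u ta s : ℝ) : ℝ := (((-1391/2500:ℝ) - ((-1971/10000:ℝ) * (P u ta s))) + ((24/625:ℝ) * (((R4 u ta s) * ((2:ℝ) * (((om u ta s) * (om u ta s)) + (ta * ta)))) - ((4:ℝ) * ((P u ta s) * (P u ta s))))))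
noncomputable def Pp (u ta s : ℝ) : ℝ := ((2:ℝ) - (P u ta s))
noncomputable def b0 (u ta s : ℝ) : ℝ := ((t0 u ta s) * (t1 u ta s))
noncomputable def b (u ta s : ℝ) : ℝ := (√(((b0 u ta s) * (b0 u ta s)) + ((R4 u ta s) * (hq u ta s))))
noncomputable def v (u ta s : ℝ) : ℝ := (√((Pp u ta s) + ((2:ℝ) * (b u ta s))))
noncomputable def v0 (u ta s : ℝ) : ℝ := ((t0 u ta s) + (t1 u ta s))
noncomputable def GW (u ta s : ℝ) : ℝ := (((1:ℝ) + (((Pp u ta s) + (b0 u ta s)) / (((v u ta s) * (v0 u ta s)) + (Pp u ta s)))) / ((v u ta s) + (v0 u ta s)))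
noncomputable def Ga (u ta s : ℝ) : ℝ := ((((4:ℝ) + ((-2479/5000:ℝ) * ((R2 u ta s) * (((2:ℝ) * ((Ph u ta s) - ta)) - ((sg u ta s) * (ss u ta s)))))) / (ss u ta s)) + ((((R2 u ta s) * (R u ta s)) * ((om u ta s) + ta)) * ((Gp u ta s) + (GW u ta s))))
noncomputable def Hd (u ta s : ℝ) : ℝ := (((((1:ℝ) - (((R u ta s) * (R u ta s)) * ((1:ℝ) + (ta * ta)))) / ((t0 u ta s) + (ta * (t1 u ta s)))) + ((1:ℝ) / ((1:ℝ) + ta))) + ((R u ta s) * (((1:ℝ) / ((t0 u ta s) + (t1 u ta s))) - (2:ℝ))))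
noncomputable def Z (u ta s : ℝ) : ℝ := ((R u ta s) + ((2/3:ℝ) * (Hd u ta s)))
noncomputable def X (u ta s : ℝ) : ℝ := (((d u ta s) * (R u ta s)) + ((2/3:ℝ) * ((U0 u ta s) - (V1 u ta s))))

def Q (u ta s : ℝ) : Prop :=
  (
  (0 < (L u ta s) ∧ 0 < (((Ga u ta s) * (L u ta s)) - (((om u ta s) + ta) * ((Z u ta s) * (Z u ta s))))) ∨
  (0 < (L u ta s) ∧ 0 < (((((d u ta s) * (d u ta s)) * (Ga u ta s)) * (L u ta s)) - (((om u ta s) + ta) * ((X u ta s) * (X u ta s))))) ∨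
  (0 < ((X u ta s) - ((3/2:ℝ) * (L u ta s))) ∧ 0 < ((((d u ta s) * (d u ta s)) * (Ga u ta s)) - (((4:ℝ) * ((om u ta s) + ta)) * (((3/4:ℝ) * (X u ta s)) - ((9/16:ℝ) * (L u ta s)))))) ∨
  (0 < (((100:ℝ) * (r1 u ta s)) - (70:ℝ))))

noncomputable def alt0 (z1 w1 z2 w2 z3 w3 : ℕ) : Bool :=
  smulK 2 1 1152921504606846977 2305843009213693952 z1 (Nat.add w1 1152921504606846976) 1152921504606846976 1152921504606846976 0 fun c1 a1_1 a1_2 a1_3 q1 =>
  sqK z1 (Nat.add w1 1152921504606846976) 1152921504606846976 1152921504606846976 0 fun c2 a2_1 a2_2 a2_3 q2 =>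
  addcK c2 a2_1 a2_2 a2_3 q2 1152922604118474752 0 fun c4 a4_1 a4_2 a4_3 q4 =>
  invK c4 a4_1 a4_2 a4_3 q4 fun c6 a6_1 a6_2 a6_3 q6 =>
  mulK c1 a1_1 a1_2 a1_3 q1 c6 a6_1 a6_2 a6_3 q6 fun c9 a9_1 a9_2 a9_3 q9 =>
  addcK c9 a9_1 a9_2 a9_3 q9 1152920405095219200 0 fun c11 a11_1 a11_2 a11_3 q11 =>
  smulK 2 1 1152921504606846977 2305843009213693952 c6 a6_1 a6_2 a6_3 q6 fun c13 a13_1 a13_2 a13_3 q13 =>
  addcK c13 a13_1 a13_2 a13_3 q13 1152920405095219200 0 fun c14 a14_1 a14_2 a14_3 q14 =>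
  negK c14 a14_1 a14_2 a14_3 q14 fun c17 a17_1 a17_2 a17_3 q17 =>
  addcK c17 a17_1 a17_2 a17_3 q17 1152922604118474752 0 fun c18 a18_1 a18_2 a18_3 q18 =>
  smulK 2 1 1152921504606846977 2305843009213693952 c18 a18_1 a18_2 a18_3 q18 fun c20 a20_1 a20_2 a20_3 q20 =>
  addK c11 a11_1 a11_2 a11_3 q11 c20 a20_1 a20_2 a20_3 q20 fun c22 a22_1 a22_2 a22_3 q22 =>
  addcK c9 a9_1 a9_2 a9_3 q9 1152922604118474752 0 fun c23 a23_1 a23_2 a23_3 q23 =>
  invK c23 a23_1 a23_2 a23_3 q23 fun c25 a25_1 a25_2 a25_3 q25 =>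
  mulK c14 a14_1 a14_2 a14_3 q14 c25 a25_1 a25_2 a25_3 q25 fun c26 a26_1 a26_2 a26_3 q26 =>
  addK c22 a22_1 a22_2 a22_3 q22 c26 a26_1 a26_2 a26_3 q26 fun c28 a28_1 a28_2 a28_3 q28 =>
  smulK 3 10 11529215046068469770 3458764513820540928 c28 a28_1 a28_2 a28_3 q28 fun c30 a30_1 a30_2 a30_3 q30 =>
  mulK c14 a14_1 a14_2 a14_3 q14 z2 1152921504606846976 (Nat.add w2 1152921504606846976) 1152921504606846976 0 fun c31 a31_1 a31_2 a31_3 q31 =>
  sqK c31 a31_1 a31_2 a31_3 q31 fun c33 a33_1 a33_2 a33_3 q33 =>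
  negK c33 a33_1 a33_2 a33_3 q33 fun c35 a35_1 a35_2 a35_3 q35 =>
  addcK c35 a35_1 a35_2 a35_3 q35 1152922604118474752 0 fun c36 a36_1 a36_2 a36_3 q36 =>
  sqrtK c36 a36_1 a36_2 a36_3 q36 fun c38 a38_1 a38_2 a38_3 q38 =>
  addcK c38 a38_1 a38_2 a38_3 q38 1152922604118474752 0 fun c40 a40_1 a40_2 a40_3 q40 =>
  smulK 2 1 1152921504606846977 2305843009213693952 c31 a31_1 a31_2 a31_3 q31 fun c42 a42_1 a42_2 a42_3 q42 =>
  subK c40 a40_1 a40_2 a40_3 q40 c42 a42_1 a42_2 a42_3 q42 fun c43 a43_1 a43_2 a43_3 q43 =>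
  invK c40 a40_1 a40_2 a40_3 q40 fun c44 a44_1 a44_2 a44_3 q44 =>
  mulK c31 a31_1 a31_2 a31_3 q31 c44 a44_1 a44_2 a44_3 q44 fun c45 a45_1 a45_2 a45_3 q45 =>
  addK c43 a43_1 a43_2 a43_3 q43 c45 a45_1 a45_2 a45_3 q45 fun c47 a47_1 a47_2 a47_3 q47 =>
  mulK z2 1152921504606846976 (Nat.add w2 1152921504606846976) 1152921504606846976 0 c47 a47_1 a47_2 a47_3 q47 fun c49 a49_1 a49_2 a49_3 q49 =>
  smulK 39 200 230584300921369395400 44963938679667032064 c49 a49_1 a49_2 a49_3 q49 fun c51 a51_1 a51_2 a51_3 q51 =>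
  addK c30 a30_1 a30_2 a30_3 q30 c51 a51_1 a51_2 a51_3 q51 fun c52 a52_1 a52_2 a52_3 q52 =>
  posK c52 a52_1 a52_2 a52_3 q52 <|
  sqK z2 1152921504606846976 (Nat.add w2 1152921504606846976) 1152921504606846976 0 fun c54 a54_1 a54_2 a54_3 q54 =>
  addcK c54 a54_1 a54_2 a54_3 q54 1152922604118474752 0 fun c56 a56_1 a56_2 a56_3 q56 =>
  negK c54 a54_1 a54_2 a54_3 q54 fun c59 a59_1 a59_2 a59_3 q59 =>
  addcK c59 a59_1 a59_2 a59_3 q59 1152922604118474752 0 fun c60 a60_1 a60_2 a60_3 q60 =>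
  mulK z3 1152921504606846976 1152921504606846976 (Nat.add w3 1152921504606846976) 0 c60 a60_1 a60_2 a60_3 q60 fun c63 a63_1 a63_2 a63_3 q63 =>
  smulK 1 2 2305843009213693954 1152921504606846976 c63 a63_1 a63_2 a63_3 q63 fun c64 a64_1 a64_2 a64_3 q64 =>
  sqK c64 a64_1 a64_2 a64_3 q64 fun c67 a67_1 a67_2 a67_3 q67 =>
  addK c54 a54_1 a54_2 a54_3 q54 c67 a67_1 a67_2 a67_3 q67 fun c70 a70_1 a70_2 a70_3 q70 =>
  sqrtK c70 a70_1 a70_2 a70_3 q70 fun c71 a71_1 a71_2 a71_3 q71 =>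
  smulK 2 1 1152921504606846977 2305843009213693952 c71 a71_1 a71_2 a71_3 q71 fun c73 a73_1 a73_2 a73_3 q73 =>
  addK c56 a56_1 a56_2 a56_3 q56 c73 a73_1 a73_2 a73_3 q73 fun c74 a74_1 a74_2 a74_3 q74 =>
  sqrtK c74 a74_1 a74_2 a74_3 q74 fun c75 a75_1 a75_2 a75_3 q75 =>
  addcK c75 a75_1 a75_2 a75_3 q75 1152922604118474752 0 fun c77 a77_1 a77_2 a77_3 q77 =>
  addK c77 a77_1 a77_2 a77_3 q77 z2 1152921504606846976 (Nat.add w2 1152921504606846976) 1152921504606846976 0 fun c78 a78_1 a78_2 a78_3 q78 =>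
  invK c78 a78_1 a78_2 a78_3 q78 fun c80 a80_1 a80_2 a80_3 q80 =>
  sqK c14 a14_1 a14_2 a14_3 q14 fun c81 a81_1 a81_2 a81_3 q81 =>
  subK c56 a56_1 a56_2 a56_3 q56 z2 1152921504606846976 (Nat.add w2 1152921504606846976) 1152921504606846976 0 fun c84 a84_1 a84_2 a84_3 q84 =>
  smulK 2 1 1152921504606846977 2305843009213693952 c84 a84_1 a84_2 a84_3 q84 fun c85 a85_1 a85_2 a85_3 q85 =>
  mulK c75 a75_1 a75_2 a75_3 q75 c78 a78_1 a78_2 a78_3 q78 fun c86 a86_1 a86_2 a86_3 q86 =>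
  subK c85 a85_1 a85_2 a85_3 q85 c86 a86_1 a86_2 a86_3 q86 fun c87 a87_1 a87_2 a87_3 q87 =>
  mulK c81 a81_1 a81_2 a81_3 q81 c87 a87_1 a87_2 a87_3 q87 fun c88 a88_1 a88_2 a88_3 q88 =>
  smulK 2479 5000 5764607523034234885000 2858092409920373653504 c88 a88_1 a88_2 a88_3 q88 fun c89 a89_1 a89_2 a89_3 q89 =>
  negK c89 a89_1 a89_2 a89_3 q89 fun c90 a90_1 a90_2 a90_3 q90 =>
  addcK c90 a90_1 a90_2 a90_3 q90 1152925902653358080 0 fun c92 a92_1 a92_2 a92_3 q92 =>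
  mulK c92 a92_1 a92_2 a92_3 q92 c80 a80_1 a80_2 a80_3 q80 fun c94 a94_1 a94_2 a94_3 q94 =>
  mulK c81 a81_1 a81_2 a81_3 q81 c14 a14_1 a14_2 a14_3 q14 fun c96 a96_1 a96_2 a96_3 q96 =>
  addK c71 a71_1 a71_2 a71_3 q71 z2 1152921504606846976 (Nat.add w2 1152921504606846976) 1152921504606846976 0 fun c97 a97_1 a97_2 a97_3 q97 =>
  mulK c96 a96_1 a96_2 a96_3 q96 c97 a97_1 a97_2 a97_3 q97 fun c98 a98_1 a98_2 a98_3 q98 =>
  mulK c81 a81_1 a81_2 a81_3 q81 c56 a56_1 a56_2 a56_3 q56 fun c99 a99_1 a99_2 a99_3 q99 =>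
  smulK 1971 10000 11529215046068469770000 2272408285580095389696 c99 a99_1 a99_2 a99_3 q99 fun c101 a101_1 a101_2 a101_3 q101 =>
  negK c101 a101_1 a101_2 a101_3 q101 fun c102 a102_1 a102_2 a102_3 q102 =>
  negK c102 a102_1 a102_2 a102_3 q102 fun c104 a104_1 a104_2 a104_3 q104 =>
  addcK c104 a104_1 a104_2 a104_3 q104 1152920892838577281 1 fun c105 a105_1 a105_2 a105_3 q105 =>
  sqK c81 a81_1 a81_2 a81_3 q81 fun c107 a107_1 a107_2 a107_3 q107 =>
  sqK c71 a71_1 a71_2 a71_3 q71 fun c110 a110_1 a110_2 a110_3 q110 =>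
  addK c110 a110_1 a110_2 a110_3 q110 c54 a54_1 a54_2 a54_3 q54 fun c112 a112_1 a112_2 a112_3 q112 =>
  smulK 2 1 1152921504606846977 2305843009213693952 c112 a112_1 a112_2 a112_3 q112 fun c113 a113_1 a113_2 a113_3 q113 =>
  mulK c107 a107_1 a107_2 a107_3 q107 c113 a113_1 a113_2 a113_3 q113 fun c114 a114_1 a114_2 a114_3 q114 =>
  sqK c99 a99_1 a99_2 a99_3 q99 fun c115 a115_1 a115_2 a115_3 q115 =>
  smulK 4 1 1152921504606846977 4611686018427387904 c115 a115_1 a115_2 a115_3 q115 fun c117 a117_1 a117_2 a117_3 q117 =>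
  subK c114 a114_1 a114_2 a114_3 q114 c117 a117_1 a117_2 a117_3 q117 fun c118 a118_1 a118_2 a118_3 q118 =>
  smulK 24 625 720575940379279360625 27670116110564327424 c118 a118_1 a118_2 a118_3 q118 fun c119 a119_1 a119_2 a119_3 q119 =>
  addK c105 a105_1 a105_2 a105_3 q105 c119 a119_1 a119_2 a119_3 q119 fun c120 a120_1 a120_2 a120_3 q120 =>
  negK c99 a99_1 a99_2 a99_3 q99 fun c122 a122_1 a122_2 a122_3 q122 =>
  addcK c122 a122_1 a122_2 a122_3 q122 1152923703630102528 0 fun c123 a123_1 a123_2 a123_3 q123 =>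
  mulK c9 a9_1 a9_2 a9_3 q9 c38 a38_1 a38_2 a38_3 q38 fun c126 a126_1 a126_2 a126_3 q126 =>
  sqK c126 a126_1 a126_2 a126_3 q126 fun c128 a128_1 a128_2 a128_3 q128 =>
  mulK c107 a107_1 a107_2 a107_3 q107 c67 a67_1 a67_2 a67_3 q67 fun c130 a130_1 a130_2 a130_3 q130 =>
  addK c128 a128_1 a128_2 a128_3 q128 c130 a130_1 a130_2 a130_3 q130 fun c131 a131_1 a131_2 a131_3 q131 =>
  sqrtK c131 a131_1 a131_2 a131_3 q131 fun c132 a132_1 a132_2 a132_3 q132 =>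
  smulK 2 1 1152921504606846977 2305843009213693952 c132 a132_1 a132_2 a132_3 q132 fun c134 a134_1 a134_2 a134_3 q134 =>
  addK c123 a123_1 a123_2 a123_3 q123 c134 a134_1 a134_2 a134_3 q134 fun c135 a135_1 a135_2 a135_3 q135 =>
  sqrtK c135 a135_1 a135_2 a135_3 q135 fun c136 a136_1 a136_2 a136_3 q136 =>
  addK c9 a9_1 a9_2 a9_3 q9 c38 a38_1 a38_2 a38_3 q38 fun c138 a138_1 a138_2 a138_3 q138 =>
  addK c136 a136_1 a136_2 a136_3 q136 c138 a138_1 a138_2 a138_3 q138 fun c140 a140_1 a140_2 a140_3 q140 =>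
  invK c140 a140_1 a140_2 a140_3 q140 fun c141 a141_1 a141_2 a141_3 q141 =>
  mulK c136 a136_1 a136_2 a136_3 q136 c138 a138_1 a138_2 a138_3 q138 fun c142 a142_1 a142_2 a142_3 q142 =>
  addK c142 a142_1 a142_2 a142_3 q142 c123 a123_1 a123_2 a123_3 q123 fun c143 a143_1 a143_2 a143_3 q143 =>
  invK c143 a143_1 a143_2 a143_3 q143 fun c144 a144_1 a144_2 a144_3 q144 =>
  addK c123 a123_1 a123_2 a123_3 q123 c126 a126_1 a126_2 a126_3 q126 fun c145 a145_1 a145_2 a145_3 q145 =>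
  mulK c145 a145_1 a145_2 a145_3 q145 c144 a144_1 a144_2 a144_3 q144 fun c146 a146_1 a146_2 a146_3 q146 =>
  addcK c146 a146_1 a146_2 a146_3 q146 1152922604118474752 0 fun c148 a148_1 a148_2 a148_3 q148 =>
  mulK c148 a148_1 a148_2 a148_3 q148 c141 a141_1 a141_2 a141_3 q141 fun c150 a150_1 a150_2 a150_3 q150 =>
  addK c120 a120_1 a120_2 a120_3 q120 c150 a150_1 a150_2 a150_3 q150 fun c153 a153_1 a153_2 a153_3 q153 =>
  mulK c98 a98_1 a98_2 a98_3 q98 c153 a153_1 a153_2 a153_3 q153 fun c154 a154_1 a154_2 a154_3 q154 =>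
  addK c94 a94_1 a94_2 a94_3 q94 c154 a154_1 a154_2 a154_3 q154 fun c155 a155_1 a155_2 a155_3 q155 =>
  mulK c155 a155_1 a155_2 a155_3 q155 c52 a52_1 a52_2 a52_3 q52 fun c157 a157_1 a157_2 a157_3 q157 =>
  mulK z2 1152921504606846976 (Nat.add w2 1152921504606846976) 1152921504606846976 0 c38 a38_1 a38_2 a38_3 q38 fun c158 a158_1 a158_2 a158_3 q158 =>
  addK c9 a9_1 a9_2 a9_3 q9 c158 a158_1 a158_2 a158_3 q158 fun c159 a159_1 a159_2 a159_3 q159 =>
  invK c159 a159_1 a159_2 a159_3 q159 fun c160 a160_1 a160_2 a160_3 q160 =>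
  mulK c81 a81_1 a81_2 a81_3 q81 c56 a56_1 a56_2 a56_3 q56 fun c161 a161_1 a161_2 a161_3 q161 =>
  negK c161 a161_1 a161_2 a161_3 q161 fun c162 a162_1 a162_2 a162_3 q162 =>
  addcK c162 a162_1 a162_2 a162_3 q162 1152922604118474752 0 fun c163 a163_1 a163_2 a163_3 q163 =>
  mulK c163 a163_1 a163_2 a163_3 q163 c160 a160_1 a160_2 a160_3 q160 fun c165 a165_1 a165_2 a165_3 q165 =>
  addcK z2 1152921504606846976 (Nat.add w2 1152921504606846976) 1152921504606846976 0 1152922604118474752 0 fun c167 a167_1 a167_2 a167_3 q167 =>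
  invK c167 a167_1 a167_2 a167_3 q167 fun c169 a169_1 a169_2 a169_3 q169 =>
  addK c165 a165_1 a165_2 a165_3 q165 c169 a169_1 a169_2 a169_3 q169 fun c171 a171_1 a171_2 a171_3 q171 =>
  invK c138 a138_1 a138_2 a138_3 q138 fun c172 a172_1 a172_2 a172_3 q172 =>
  addcK c172 a172_1 a172_2 a172_3 q172 1152919305583591424 0 fun c174 a174_1 a174_2 a174_3 q174 =>
  mulK c14 a14_1 a14_2 a14_3 q14 c174 a174_1 a174_2 a174_3 q174 fun c176 a176_1 a176_2 a176_3 q176 =>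
  addK c171 a171_1 a171_2 a171_3 q171 c176 a176_1 a176_2 a176_3 q176 fun c177 a177_1 a177_2 a177_3 q177 =>
  smulK 2 3 3458764513820540931 2305843009213693952 c177 a177_1 a177_2 a177_3 q177 fun c179 a179_1 a179_2 a179_3 q179 =>
  addK c14 a14_1 a14_2 a14_3 q14 c179 a179_1 a179_2 a179_3 q179 fun c180 a180_1 a180_2 a180_3 q180 =>
  sqK c180 a180_1 a180_2 a180_3 q180 fun c182 a182_1 a182_2 a182_3 q182 =>
  mulK c97 a97_1 a97_2 a97_3 q97 c182 a182_1 a182_2 a182_3 q182 fun c184 a184_1 a184_2 a184_3 q184 =>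
  subK c157 a157_1 a157_2 a157_3 q157 c184 a184_1 a184_2 a184_3 q184 fun c185 a185_1 a185_2 a185_3 q185 =>
  pos c185 a185_1 a185_2 a185_3 q185

theorem alt0_s {z1 w1 z2 w2 z3 w3 : ℕ} {e1 e2 e3 u ta s : ℝ} (he : Ev e1 e2 e3)
    (hx1 : In e1 e2 e3 z1 (Nat.add w1 1152921504606846976) 1152921504606846976 1152921504606846976 0 u)
    (hx2 : In e1 e2 e3 z2 1152921504606846976 (Nat.add w2 1152921504606846976) 1152921504606846976 0 ta)
    (hx3 : In e1 e2 e3 z3 1152921504606846976 1152921504606846976 (Nat.add w3 1152921504606846976) 0 s)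
    (H0 : alt0 z1 w1 z2 w2 z3 w3 = true) : 0 < (L u ta s) ∧ 0 < (((Ga u ta s) * (L u ta s)) - (((om u ta s) + ta) * ((Z u ta s) * (Z u ta s)))) := by
  unfold alt0 at H0
  refine smulK_s he (w := (2:ℝ)) (by norm_num) (by norm_num) (by norm_num) (by norm_num) hx1 (fun _ _ _ _ _ h1 H1 => ?_) H0
  refine sqK_s he hx1 (fun _ _ _ _ _ h2 H2 => ?_) H1
  have h3 := In_cast h2 (sq _)
  refine addcK_s he h3 (v' := (1:ℝ)) (by norm_num [SS, BB, abs_le]) (fun _ _ _ _ _ h4 H3 => ?_) H2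
  have h5 := In_cast h4 (add_comm _ _)
  refine invK_s he h5 (fun _ _ _ _ _ h6 H4 => ?_) H3
  have h7 := In_cast h6 (inv_eq_one_div _)
  have h8 := In_cast (w := (iu u ta s)) h7 rfl
  refine mulK_s he h1 h8 (fun _ _ _ _ _ h9 H5 => ?_) H4
  have h10 := In_cast (w := (t0 u ta s)) h9 rfl
  refine addcK_s he h10 (v' := (-1:ℝ)) (by norm_num [SS, BB, abs_le]) (fun _ _ _ _ _ h11 H6 => ?_) H5
  have h12 := In_cast h11 (sub_c (c := (1:ℝ)) (by norm_num))
  refine smulK_s he (w := (2:ℝ)) (by norm_num) (by norm_num) (by norm_num) (by norm_num) h8 (fun _ _ _ _ _ h13 H7 => ?_) H6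
  refine addcK_s he h13 (v' := (-1:ℝ)) (by norm_num [SS, BB, abs_le]) (fun _ _ _ _ _ h14 H8 => ?_) H7
  have h15 := In_cast h14 (sub_c (c := (1:ℝ)) (by norm_num))
  have h16 := In_cast (w := (R u ta s)) h15 rfl
  refine negK_s he h16 (fun _ _ _ _ _ h17 H9 => ?_) H8
  refine addcK_s he h17 (v' := (1:ℝ)) (by norm_num [SS, BB, abs_le]) (fun _ _ _ _ _ h18 H10 => ?_) H9
  have h19 := In_cast h18 (neg_add_eq_sub _ _)
  refine smulK_s he (w := (2:ℝ)) (by norm_num) (by norm_num) (by norm_num) (by norm_num) h19 (fun _ _ _ _ _ h20 H11 => ?_) H10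
  have h21 := In_cast h20 (mul_comm _ _)
  refine addK_s he h12 h21 (fun _ _ _ _ _ h22 H12 => ?_) H11
  refine addcK_s he h10 (v' := (1:ℝ)) (by norm_num [SS, BB, abs_le]) (fun _ _ _ _ _ h23 H13 => ?_) H12
  have h24 := In_cast h23 (add_comm _ _)
  refine invK_s he h24 (fun _ _ _ _ _ h25 H14 => ?_) H13
  refine mulK_s he h16 h25 (fun _ _ _ _ _ h26 H15 => ?_) H14
  have h27 := In_cast h26 ((div_eq_mul_inv _ _).symm)
  refine addK_s he h22 h27 (fun _ _ _ _ _ h28 H16 => ?_) H15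
  have h29 := In_cast (w := (U0 u ta s)) h28 rfl
  refine smulK_s he (w := (3/10:ℝ)) (by norm_num) (by norm_num) (by norm_num) (by norm_num) h29 (fun _ _ _ _ _ h30 H17 => ?_) H16
  refine mulK_s he h16 hx2 (fun _ _ _ _ _ h31 H18 => ?_) H17
  have h32 := In_cast (w := (r1 u ta s)) h31 rfl
  refine sqK_s he h32 (fun _ _ _ _ _ h33 H19 => ?_) H18
  have h34 := In_cast h33 (sq _)
  refine negK_s he h34 (fun _ _ _ _ _ h35 H20 => ?_) H19
  refine addcK_s he h35 (v' := (1:ℝ)) (by norm_num [SS, BB, abs_le]) (fun _ _ _ _ _ h36 H21 => ?_) H20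
  have h37 := In_cast h36 (neg_add_eq_sub _ _)
  refine sqrtK_s he h37 (fun _ _ _ _ _ h38 H22 => ?_) H21
  have h39 := In_cast (w := (t1 u ta s)) h38 rfl
  refine addcK_s he h39 (v' := (1:ℝ)) (by norm_num [SS, BB, abs_le]) (fun _ _ _ _ _ h40 H23 => ?_) H22
  have h41 := In_cast h40 (add_comm _ _)
  refine smulK_s he (w := (2:ℝ)) (by norm_num) (by norm_num) (by norm_num) (by norm_num) h32 (fun _ _ _ _ _ h42 H24 => ?_) H23
  refine subK_s he h41 h42 (fun _ _ _ _ _ h43 H25 => ?_) H24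
  refine invK_s he h41 (fun _ _ _ _ _ h44 H26 => ?_) H25
  refine mulK_s he h32 h44 (fun _ _ _ _ _ h45 H27 => ?_) H26
  have h46 := In_cast h45 ((div_eq_mul_inv _ _).symm)
  refine addK_s he h43 h46 (fun _ _ _ _ _ h47 H28 => ?_) H27
  have h48 := In_cast (w := (U1 u ta s)) h47 rfl
  refine mulK_s he hx2 h48 (fun _ _ _ _ _ h49 H29 => ?_) H28
  have h50 := In_cast (w := (V1 u ta s)) h49 rfl
  refine smulK_s he (w := (39/200:ℝ)) (by norm_num) (by norm_num) (by norm_num) (by norm_num) h50 (fun _ _ _ _ _ h51 H30 => ?_) H29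
  refine addK_s he h30 h51 (fun _ _ _ _ _ h52 H31 => ?_) H30
  have h53 := In_cast (w := (L u ta s)) h52 rfl
  refine posK_s he h53 (fun p0 H32 => ?_) H31
  refine sqK_s he hx2 (fun _ _ _ _ _ h54 H33 => ?_) H32
  have h55 := In_cast h54 (sq _)
  refine addcK_s he h55 (v' := (1:ℝ)) (by norm_num [SS, BB, abs_le]) (fun _ _ _ _ _ h56 H34 => ?_) H33
  have h57 := In_cast h56 (add_comm _ _)
  have h58 := In_cast (w := (Ph u ta s)) h57 rfl
  refine negK_s he h55 (fun _ _ _ _ _ h59 H35 => ?_) H34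
  refine addcK_s he h59 (v' := (1:ℝ)) (by norm_num [SS, BB, abs_le]) (fun _ _ _ _ _ h60 H36 => ?_) H35
  have h61 := In_cast h60 (neg_add_eq_sub _ _)
  have h62 := In_cast (w := (d u ta s)) h61 rfl
  refine mulK_s he hx3 h62 (fun _ _ _ _ _ h63 H37 => ?_) H36
  refine smulK_s he (w := (1/2:ℝ)) (by norm_num) (by norm_num) (by norm_num) (by norm_num) h63 (fun _ _ _ _ _ h64 H38 => ?_) H37
  have h65 := In_cast h64 (div_c (c := (2:ℝ)) (by norm_num))
  have h66 := In_cast (w := (hh u ta s)) h65 rfl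
  refine sqK_s he h66 (fun _ _ _ _ _ h67 H39 => ?_) H38
  have h68 := In_cast h67 (sq _)
  have h69 := In_cast (w := (hq u ta s)) h68 rfl
  refine addK_s he h55 h69 (fun _ _ _ _ _ h70 H40 => ?_) H39
  refine sqrtK_s he h70 (fun _ _ _ _ _ h71 H41 => ?_) H40
  have h72 := In_cast (w := (om u ta s)) h71 rfl
  refine smulK_s he (w := (2:ℝ)) (by norm_num) (by norm_num) (by norm_num) (by norm_num) h72 (fun _ _ _ _ _ h73 H42 => ?_) H41
  refine addK_s he h58 h73 (fun _ _ _ _ _ h74 H43 => ?_) H42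
  refine sqrtK_s he h74 (fun _ _ _ _ _ h75 H44 => ?_) H43
  have h76 := In_cast (w := (sg u ta s)) h75 rfl
  refine addcK_s he h76 (v' := (1:ℝ)) (by norm_num [SS, BB, abs_le]) (fun _ _ _ _ _ h77 H45 => ?_) H44
  refine addK_s he h77 hx2 (fun _ _ _ _ _ h78 H46 => ?_) H45
  have h79 := In_cast (w := (ss u ta s)) h78 rfl
  refine invK_s he h79 (fun _ _ _ _ _ h80 H47 => ?_) H46
  refine sqK_s he h16 (fun _ _ _ _ _ h81 H48 => ?_) H47
  have h82 := In_cast h81 (sq _)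
  have h83 := In_cast (w := (R2 u ta s)) h82 rfl
  refine subK_s he h58 hx2 (fun _ _ _ _ _ h84 H49 => ?_) H48
  refine smulK_s he (w := (2:ℝ)) (by norm_num) (by norm_num) (by norm_num) (by norm_num) h84 (fun _ _ _ _ _ h85 H50 => ?_) H49
  refine mulK_s he h76 h79 (fun _ _ _ _ _ h86 H51 => ?_) H50
  refine subK_s he h85 h86 (fun _ _ _ _ _ h87 H52 => ?_) H51
  refine mulK_s he h83 h87 (fun _ _ _ _ _ h88 H53 => ?_) H52
  refine smulK_s he (w := (2479/5000:ℝ)) (by norm_num) (by norm_num) (by norm_num) (by norm_num) h88 (fun _ _ _ _ _ h89 H54 => ?_) H53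
  refine negK_s he h89 (fun _ _ _ _ _ h90 H55 => ?_) H54
  have h91 := In_cast h90 (neg_mul_c (c := (-2479/5000:ℝ)) (by norm_num))
  refine addcK_s he h91 (v' := (4:ℝ)) (by norm_num [SS, BB, abs_le]) (fun _ _ _ _ _ h92 H56 => ?_) H55
  have h93 := In_cast h92 (add_comm _ _)
  refine mulK_s he h93 h80 (fun _ _ _ _ _ h94 H57 => ?_) H56
  have h95 := In_cast h94 ((div_eq_mul_inv _ _).symm)
  refine mulK_s he h83 h16 (fun _ _ _ _ _ h96 H58 => ?_) H57
  refine addK_s he h72 hx2 (fun _ _ _ _ _ h97 H59 => ?_) H58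
  refine mulK_s he h96 h97 (fun _ _ _ _ _ h98 H60 => ?_) H59
  refine mulK_s he h83 h58 (fun _ _ _ _ _ h99 H61 => ?_) H60
  have h100 := In_cast (w := (P u ta s)) h99 rfl
  refine smulK_s he (w := (1971/10000:ℝ)) (by norm_num) (by norm_num) (by norm_num) (by norm_num) h100 (fun _ _ _ _ _ h101 H62 => ?_) H61
  refine negK_s he h101 (fun _ _ _ _ _ h102 H63 => ?_) H62
  have h103 := In_cast h102 (neg_mul_c (c := (-1971/10000:ℝ)) (by norm_num))
  refine negK_s he h103 (fun _ _ _ _ _ h104 H64 => ?_) H63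
  refine addcK_s he h104 (v' := (-1391/2500:ℝ)) (by norm_num [SS, BB, abs_le]) (fun _ _ _ _ _ h105 H65 => ?_) H64
  have h106 := In_cast h105 (neg_add_eq_sub _ _)
  refine sqK_s he h83 (fun _ _ _ _ _ h107 H66 => ?_) H65
  have h108 := In_cast h107 (sq _)
  have h109 := In_cast (w := (R4 u ta s)) h108 rfl
  refine sqK_s he h72 (fun _ _ _ _ _ h110 H67 => ?_) H66
  have h111 := In_cast h110 (sq _)
  refine addK_s he h111 h55 (fun _ _ _ _ _ h112 H68 => ?_) H67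
  refine smulK_s he (w := (2:ℝ)) (by norm_num) (by norm_num) (by norm_num) (by norm_num) h112 (fun _ _ _ _ _ h113 H69 => ?_) H68
  refine mulK_s he h109 h113 (fun _ _ _ _ _ h114 H70 => ?_) H69
  refine sqK_s he h100 (fun _ _ _ _ _ h115 H71 => ?_) H70
  have h116 := In_cast h115 (sq _)
  refine smulK_s he (w := (4:ℝ)) (by norm_num) (by norm_num) (by norm_num) (by norm_num) h116 (fun _ _ _ _ _ h117 H72 => ?_) H71
  refine subK_s he h114 h117 (fun _ _ _ _ _ h118 H73 => ?_) H72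
  refine smulK_s he (w := (24/625:ℝ)) (by norm_num) (by norm_num) (by norm_num) (by norm_num) h118 (fun _ _ _ _ _ h119 H74 => ?_) H73
  refine addK_s he h106 h119 (fun _ _ _ _ _ h120 H75 => ?_) H74
  have h121 := In_cast (w := (Gp u ta s)) h120 rfl
  refine negK_s he h100 (fun _ _ _ _ _ h122 H76 => ?_) H75
  refine addcK_s he h122 (v' := (2:ℝ)) (by norm_num [SS, BB, abs_le]) (fun _ _ _ _ _ h123 H77 => ?_) H76
  have h124 := In_cast h123 (neg_add_eq_sub _ _)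
  have h125 := In_cast (w := (Pp u ta s)) h124 rfl
  refine mulK_s he h10 h39 (fun _ _ _ _ _ h126 H78 => ?_) H77
  have h127 := In_cast (w := (b0 u ta s)) h126 rfl
  refine sqK_s he h127 (fun _ _ _ _ _ h128 H79 => ?_) H78
  have h129 := In_cast h128 (sq _)
  refine mulK_s he h109 h69 (fun _ _ _ _ _ h130 H80 => ?_) H79
  refine addK_s he h129 h130 (fun _ _ _ _ _ h131 H81 => ?_) H80
  refine sqrtK_s he h131 (fun _ _ _ _ _ h132 H82 => ?_) H81
  have h133 := In_cast (w := (b u ta s)) h132 rfl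
  refine smulK_s he (w := (2:ℝ)) (by norm_num) (by norm_num) (by norm_num) (by norm_num) h133 (fun _ _ _ _ _ h134 H83 => ?_) H82
  refine addK_s he h125 h134 (fun _ _ _ _ _ h135 H84 => ?_) H83
  refine sqrtK_s he h135 (fun _ _ _ _ _ h136 H85 => ?_) H84
  have h137 := In_cast (w := (v u ta s)) h136 rfl
  refine addK_s he h10 h39 (fun _ _ _ _ _ h138 H86 => ?_) H85
  have h139 := In_cast (w := (v0 u ta s)) h138 rfl
  refine addK_s he h137 h139 (fun _ _ _ _ _ h140 H87 => ?_) H86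
  refine invK_s he h140 (fun _ _ _ _ _ h141 H88 => ?_) H87
  refine mulK_s he h137 h139 (fun _ _ _ _ _ h142 H89 => ?_) H88
  refine addK_s he h142 h125 (fun _ _ _ _ _ h143 H90 => ?_) H89
  refine invK_s he h143 (fun _ _ _ _ _ h144 H91 => ?_) H90
  refine addK_s he h125 h127 (fun _ _ _ _ _ h145 H92 => ?_) H91
  refine mulK_s he h145 h144 (fun _ _ _ _ _ h146 H93 => ?_) H92
  have h147 := In_cast h146 ((div_eq_mul_inv _ _).symm)
  refine addcK_s he h147 (v' := (1:ℝ)) (by norm_num [SS, BB, abs_le]) (fun _ _ _ _ _ h148 H94 => ?_) H93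
  have h149 := In_cast h148 (add_comm _ _)
  refine mulK_s he h149 h141 (fun _ _ _ _ _ h150 H95 => ?_) H94
  have h151 := In_cast h150 ((div_eq_mul_inv _ _).symm)
  have h152 := In_cast (w := (GW u ta s)) h151 rfl
  refine addK_s he h121 h152 (fun _ _ _ _ _ h153 H96 => ?_) H95
  refine mulK_s he h98 h153 (fun _ _ _ _ _ h154 H97 => ?_) H96
  refine addK_s he h95 h154 (fun _ _ _ _ _ h155 H98 => ?_) H97
  have h156 := In_cast (w := (Ga u ta s)) h155 rfl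
  refine mulK_s he h156 h53 (fun _ _ _ _ _ h157 H99 => ?_) H98
  refine mulK_s he hx2 h39 (fun _ _ _ _ _ h158 H100 => ?_) H99
  refine addK_s he h10 h158 (fun _ _ _ _ _ h159 H101 => ?_) H100
  refine invK_s he h159 (fun _ _ _ _ _ h160 H102 => ?_) H101
  refine mulK_s he h82 h57 (fun _ _ _ _ _ h161 H103 => ?_) H102
  refine negK_s he h161 (fun _ _ _ _ _ h162 H104 => ?_) H103
  refine addcK_s he h162 (v' := (1:ℝ)) (by norm_num [SS, BB, abs_le]) (fun _ _ _ _ _ h163 H105 => ?_) H104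
  have h164 := In_cast h163 (neg_add_eq_sub _ _)
  refine mulK_s he h164 h160 (fun _ _ _ _ _ h165 H106 => ?_) H105
  have h166 := In_cast h165 ((div_eq_mul_inv _ _).symm)
  refine addcK_s he hx2 (v' := (1:ℝ)) (by norm_num [SS, BB, abs_le]) (fun _ _ _ _ _ h167 H107 => ?_) H106
  have h168 := In_cast h167 (add_comm _ _)
  refine invK_s he h168 (fun _ _ _ _ _ h169 H108 => ?_) H107
  have h170 := In_cast h169 (inv_eq_one_div _)
  refine addK_s he h166 h170 (fun _ _ _ _ _ h171 H109 => ?_) H108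
  refine invK_s he h138 (fun _ _ _ _ _ h172 H110 => ?_) H109
  have h173 := In_cast h172 (inv_eq_one_div _)
  refine addcK_s he h173 (v' := (-2:ℝ)) (by norm_num [SS, BB, abs_le]) (fun _ _ _ _ _ h174 H111 => ?_) H110
  have h175 := In_cast h174 (sub_c (c := (2:ℝ)) (by norm_num))
  refine mulK_s he h16 h175 (fun _ _ _ _ _ h176 H112 => ?_) H111
  refine addK_s he h171 h176 (fun _ _ _ _ _ h177 H113 => ?_) H112
  have h178 := In_cast (w := (Hd u ta s)) h177 rfl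
  refine smulK_s he (w := (2/3:ℝ)) (by norm_num) (by norm_num) (by norm_num) (by norm_num) h178 (fun _ _ _ _ _ h179 H114 => ?_) H113
  refine addK_s he h16 h179 (fun _ _ _ _ _ h180 H115 => ?_) H114
  have h181 := In_cast (w := (Z u ta s)) h180 rfl
  refine sqK_s he h181 (fun _ _ _ _ _ h182 H116 => ?_) H115
  have h183 := In_cast h182 (sq _)
  refine mulK_s he h97 h183 (fun _ _ _ _ _ h184 H117 => ?_) H116
  refine subK_s he h157 h184 (fun _ _ _ _ _ h185 H118 => ?_) H117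
  exact ⟨p0, pos_s he h185 H118⟩

noncomputable def alt1 (z1 w1 z2 w2 z3 w3 : ℕ) : Bool :=
  smulK 2 1 1152921504606846977 2305843009213693952 z1 (Nat.add w1 1152921504606846976) 1152921504606846976 1152921504606846976 0 fun c1 a1_1 a1_2 a1_3 q1 =>
  sqK z1 (Nat.add w1 1152921504606846976) 1152921504606846976 1152921504606846976 0 fun c2 a2_1 a2_2 a2_3 q2 =>
  addcK c2 a2_1 a2_2 a2_3 q2 1152922604118474752 0 fun c4 a4_1 a4_2 a4_3 q4 =>
  invK c4 a4_1 a4_2 a4_3 q4 fun c6 a6_1 a6_2 a6_3 q6 =>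
  mulK c1 a1_1 a1_2 a1_3 q1 c6 a6_1 a6_2 a6_3 q6 fun c9 a9_1 a9_2 a9_3 q9 =>
  addcK c9 a9_1 a9_2 a9_3 q9 1152920405095219200 0 fun c11 a11_1 a11_2 a11_3 q11 =>
  smulK 2 1 1152921504606846977 2305843009213693952 c6 a6_1 a6_2 a6_3 q6 fun c13 a13_1 a13_2 a13_3 q13 =>
  addcK c13 a13_1 a13_2 a13_3 q13 1152920405095219200 0 fun c14 a14_1 a14_2 a14_3 q14 =>
  negK c14 a14_1 a14_2 a14_3 q14 fun c17 a17_1 a17_2 a17_3 q17 =>
  addcK c17 a17_1 a17_2 a17_3 q17 1152922604118474752 0 fun c18 a18_1 a18_2 a18_3 q18 =>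
  smulK 2 1 1152921504606846977 2305843009213693952 c18 a18_1 a18_2 a18_3 q18 fun c20 a20_1 a20_2 a20_3 q20 =>
  addK c11 a11_1 a11_2 a11_3 q11 c20 a20_1 a20_2 a20_3 q20 fun c22 a22_1 a22_2 a22_3 q22 =>
  addcK c9 a9_1 a9_2 a9_3 q9 1152922604118474752 0 fun c23 a23_1 a23_2 a23_3 q23 =>
  invK c23 a23_1 a23_2 a23_3 q23 fun c25 a25_1 a25_2 a25_3 q25 =>
  mulK c14 a14_1 a14_2 a14_3 q14 c25 a25_1 a25_2 a25_3 q25 fun c26 a26_1 a26_2 a26_3 q26 =>
  addK c22 a22_1 a22_2 a22_3 q22 c26 a26_1 a26_2 a26_3 q26 fun c28 a28_1 a28_2 a28_3 q28 =>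
  smulK 3 10 11529215046068469770 3458764513820540928 c28 a28_1 a28_2 a28_3 q28 fun c30 a30_1 a30_2 a30_3 q30 =>
  mulK c14 a14_1 a14_2 a14_3 q14 z2 1152921504606846976 (Nat.add w2 1152921504606846976) 1152921504606846976 0 fun c31 a31_1 a31_2 a31_3 q31 =>
  sqK c31 a31_1 a31_2 a31_3 q31 fun c33 a33_1 a33_2 a33_3 q33 =>
  negK c33 a33_1 a33_2 a33_3 q33 fun c35 a35_1 a35_2 a35_3 q35 =>
  addcK c35 a35_1 a35_2 a35_3 q35 1152922604118474752 0 fun c36 a36_1 a36_2 a36_3 q36 =>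
  sqrtK c36 a36_1 a36_2 a36_3 q36 fun c38 a38_1 a38_2 a38_3 q38 =>
  addcK c38 a38_1 a38_2 a38_3 q38 1152922604118474752 0 fun c40 a40_1 a40_2 a40_3 q40 =>
  smulK 2 1 1152921504606846977 2305843009213693952 c31 a31_1 a31_2 a31_3 q31 fun c42 a42_1 a42_2 a42_3 q42 =>
  subK c40 a40_1 a40_2 a40_3 q40 c42 a42_1 a42_2 a42_3 q42 fun c43 a43_1 a43_2 a43_3 q43 =>
  invK c40 a40_1 a40_2 a40_3 q40 fun c44 a44_1 a44_2 a44_3 q44 =>
  mulK c31 a31_1 a31_2 a31_3 q31 c44 a44_1 a44_2 a44_3 q44 fun c45 a45_1 a45_2 a45_3 q45 =>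
  addK c43 a43_1 a43_2 a43_3 q43 c45 a45_1 a45_2 a45_3 q45 fun c47 a47_1 a47_2 a47_3 q47 =>
  mulK z2 1152921504606846976 (Nat.add w2 1152921504606846976) 1152921504606846976 0 c47 a47_1 a47_2 a47_3 q47 fun c49 a49_1 a49_2 a49_3 q49 =>
  smulK 39 200 230584300921369395400 44963938679667032064 c49 a49_1 a49_2 a49_3 q49 fun c51 a51_1 a51_2 a51_3 q51 =>
  addK c30 a30_1 a30_2 a30_3 q30 c51 a51_1 a51_2 a51_3 q51 fun c52 a52_1 a52_2 a52_3 q52 =>
  posK c52 a52_1 a52_2 a52_3 q52 <|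
  sqK z2 1152921504606846976 (Nat.add w2 1152921504606846976) 1152921504606846976 0 fun c54 a54_1 a54_2 a54_3 q54 =>
  negK c54 a54_1 a54_2 a54_3 q54 fun c56 a56_1 a56_2 a56_3 q56 =>
  addcK c56 a56_1 a56_2 a56_3 q56 1152922604118474752 0 fun c57 a57_1 a57_2 a57_3 q57 =>
  sqK c57 a57_1 a57_2 a57_3 q57 fun c60 a60_1 a60_2 a60_3 q60 =>
  addcK c54 a54_1 a54_2 a54_3 q54 1152922604118474752 0 fun c62 a62_1 a62_2 a62_3 q62 =>
  mulK z3 1152921504606846976 1152921504606846976 (Nat.add w3 1152921504606846976) 0 c57 a57_1 a57_2 a57_3 q57 fun c65 a65_1 a65_2 a65_3 q65 =>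
  smulK 1 2 2305843009213693954 1152921504606846976 c65 a65_1 a65_2 a65_3 q65 fun c66 a66_1 a66_2 a66_3 q66 =>
  sqK c66 a66_1 a66_2 a66_3 q66 fun c69 a69_1 a69_2 a69_3 q69 =>
  addK c54 a54_1 a54_2 a54_3 q54 c69 a69_1 a69_2 a69_3 q69 fun c72 a72_1 a72_2 a72_3 q72 =>
  sqrtK c72 a72_1 a72_2 a72_3 q72 fun c73 a73_1 a73_2 a73_3 q73 =>
  smulK 2 1 1152921504606846977 2305843009213693952 c73 a73_1 a73_2 a73_3 q73 fun c75 a75_1 a75_2 a75_3 q75 =>
  addK c62 a62_1 a62_2 a62_3 q62 c75 a75_1 a75_2 a75_3 q75 fun c76 a76_1 a76_2 a76_3 q76 =>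
  sqrtK c76 a76_1 a76_2 a76_3 q76 fun c77 a77_1 a77_2 a77_3 q77 =>
  addcK c77 a77_1 a77_2 a77_3 q77 1152922604118474752 0 fun c79 a79_1 a79_2 a79_3 q79 =>
  addK c79 a79_1 a79_2 a79_3 q79 z2 1152921504606846976 (Nat.add w2 1152921504606846976) 1152921504606846976 0 fun c80 a80_1 a80_2 a80_3 q80 =>
  invK c80 a80_1 a80_2 a80_3 q80 fun c82 a82_1 a82_2 a82_3 q82 =>
  sqK c14 a14_1 a14_2 a14_3 q14 fun c83 a83_1 a83_2 a83_3 q83 =>
  subK c62 a62_1 a62_2 a62_3 q62 z2 1152921504606846976 (Nat.add w2 1152921504606846976) 1152921504606846976 0 fun c86 a86_1 a86_2 a86_3 q86 =>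
  smulK 2 1 1152921504606846977 2305843009213693952 c86 a86_1 a86_2 a86_3 q86 fun c87 a87_1 a87_2 a87_3 q87 =>
  mulK c77 a77_1 a77_2 a77_3 q77 c80 a80_1 a80_2 a80_3 q80 fun c88 a88_1 a88_2 a88_3 q88 =>
  subK c87 a87_1 a87_2 a87_3 q87 c88 a88_1 a88_2 a88_3 q88 fun c89 a89_1 a89_2 a89_3 q89 =>
  mulK c83 a83_1 a83_2 a83_3 q83 c89 a89_1 a89_2 a89_3 q89 fun c90 a90_1 a90_2 a90_3 q90 =>
  smulK 2479 5000 5764607523034234885000 2858092409920373653504 c90 a90_1 a90_2 a90_3 q90 fun c91 a91_1 a91_2 a91_3 q91 =>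
  negK c91 a91_1 a91_2 a91_3 q91 fun c92 a92_1 a92_2 a92_3 q92 =>
  addcK c92 a92_1 a92_2 a92_3 q92 1152925902653358080 0 fun c94 a94_1 a94_2 a94_3 q94 =>
  mulK c94 a94_1 a94_2 a94_3 q94 c82 a82_1 a82_2 a82_3 q82 fun c96 a96_1 a96_2 a96_3 q96 =>
  mulK c83 a83_1 a83_2 a83_3 q83 c14 a14_1 a14_2 a14_3 q14 fun c98 a98_1 a98_2 a98_3 q98 =>
  addK c73 a73_1 a73_2 a73_3 q73 z2 1152921504606846976 (Nat.add w2 1152921504606846976) 1152921504606846976 0 fun c99 a99_1 a99_2 a99_3 q99 =>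
  mulK c98 a98_1 a98_2 a98_3 q98 c99 a99_1 a99_2 a99_3 q99 fun c100 a100_1 a100_2 a100_3 q100 =>
  mulK c83 a83_1 a83_2 a83_3 q83 c62 a62_1 a62_2 a62_3 q62 fun c101 a101_1 a101_2 a101_3 q101 =>
  smulK 1971 10000 11529215046068469770000 2272408285580095389696 c101 a101_1 a101_2 a101_3 q101 fun c103 a103_1 a103_2 a103_3 q103 =>
  negK c103 a103_1 a103_2 a103_3 q103 fun c104 a104_1 a104_2 a104_3 q104 =>
  negK c104 a104_1 a104_2 a104_3 q104 fun c106 a106_1 a106_2 a106_3 q106 =>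
  addcK c106 a106_1 a106_2 a106_3 q106 1152920892838577281 1 fun c107 a107_1 a107_2 a107_3 q107 =>
  sqK c83 a83_1 a83_2 a83_3 q83 fun c109 a109_1 a109_2 a109_3 q109 =>
  sqK c73 a73_1 a73_2 a73_3 q73 fun c112 a112_1 a112_2 a112_3 q112 =>
  addK c112 a112_1 a112_2 a112_3 q112 c54 a54_1 a54_2 a54_3 q54 fun c114 a114_1 a114_2 a114_3 q114 =>
  smulK 2 1 1152921504606846977 2305843009213693952 c114 a114_1 a114_2 a114_3 q114 fun c115 a115_1 a115_2 a115_3 q115 =>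
  mulK c109 a109_1 a109_2 a109_3 q109 c115 a115_1 a115_2 a115_3 q115 fun c116 a116_1 a116_2 a116_3 q116 =>
  sqK c101 a101_1 a101_2 a101_3 q101 fun c117 a117_1 a117_2 a117_3 q117 =>
  smulK 4 1 1152921504606846977 4611686018427387904 c117 a117_1 a117_2 a117_3 q117 fun c119 a119_1 a119_2 a119_3 q119 =>
  subK c116 a116_1 a116_2 a116_3 q116 c119 a119_1 a119_2 a119_3 q119 fun c120 a120_1 a120_2 a120_3 q120 =>
  smulK 24 625 720575940379279360625 27670116110564327424 c120 a120_1 a120_2 a120_3 q120 fun c121 a121_1 a121_2 a121_3 q121 =>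
  addK c107 a107_1 a107_2 a107_3 q107 c121 a121_1 a121_2 a121_3 q121 fun c122 a122_1 a122_2 a122_3 q122 =>
  negK c101 a101_1 a101_2 a101_3 q101 fun c124 a124_1 a124_2 a124_3 q124 =>
  addcK c124 a124_1 a124_2 a124_3 q124 1152923703630102528 0 fun c125 a125_1 a125_2 a125_3 q125 =>
  mulK c9 a9_1 a9_2 a9_3 q9 c38 a38_1 a38_2 a38_3 q38 fun c128 a128_1 a128_2 a128_3 q128 =>
  sqK c128 a128_1 a128_2 a128_3 q128 fun c130 a130_1 a130_2 a130_3 q130 =>
  mulK c109 a109_1 a109_2 a109_3 q109 c69 a69_1 a69_2 a69_3 q69 fun c132 a132_1 a132_2 a132_3 q132 =>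
  addK c130 a130_1 a130_2 a130_3 q130 c132 a132_1 a132_2 a132_3 q132 fun c133 a133_1 a133_2 a133_3 q133 =>
  sqrtK c133 a133_1 a133_2 a133_3 q133 fun c134 a134_1 a134_2 a134_3 q134 =>
  smulK 2 1 1152921504606846977 2305843009213693952 c134 a134_1 a134_2 a134_3 q134 fun c136 a136_1 a136_2 a136_3 q136 =>
  addK c125 a125_1 a125_2 a125_3 q125 c136 a136_1 a136_2 a136_3 q136 fun c137 a137_1 a137_2 a137_3 q137 =>
  sqrtK c137 a137_1 a137_2 a137_3 q137 fun c138 a138_1 a138_2 a138_3 q138 =>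
  addK c9 a9_1 a9_2 a9_3 q9 c38 a38_1 a38_2 a38_3 q38 fun c140 a140_1 a140_2 a140_3 q140 =>
  addK c138 a138_1 a138_2 a138_3 q138 c140 a140_1 a140_2 a140_3 q140 fun c142 a142_1 a142_2 a142_3 q142 =>
  invK c142 a142_1 a142_2 a142_3 q142 fun c143 a143_1 a143_2 a143_3 q143 =>
  mulK c138 a138_1 a138_2 a138_3 q138 c140 a140_1 a140_2 a140_3 q140 fun c144 a144_1 a144_2 a144_3 q144 =>
  addK c144 a144_1 a144_2 a144_3 q144 c125 a125_1 a125_2 a125_3 q125 fun c145 a145_1 a145_2 a145_3 q145 =>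
  invK c145 a145_1 a145_2 a145_3 q145 fun c146 a146_1 a146_2 a146_3 q146 =>
  addK c125 a125_1 a125_2 a125_3 q125 c128 a128_1 a128_2 a128_3 q128 fun c147 a147_1 a147_2 a147_3 q147 =>
  mulK c147 a147_1 a147_2 a147_3 q147 c146 a146_1 a146_2 a146_3 q146 fun c148 a148_1 a148_2 a148_3 q148 =>
  addcK c148 a148_1 a148_2 a148_3 q148 1152922604118474752 0 fun c150 a150_1 a150_2 a150_3 q150 =>
  mulK c150 a150_1 a150_2 a150_3 q150 c143 a143_1 a143_2 a143_3 q143 fun c152 a152_1 a152_2 a152_3 q152 =>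
  addK c122 a122_1 a122_2 a122_3 q122 c152 a152_1 a152_2 a152_3 q152 fun c155 a155_1 a155_2 a155_3 q155 =>
  mulK c100 a100_1 a100_2 a100_3 q100 c155 a155_1 a155_2 a155_3 q155 fun c156 a156_1 a156_2 a156_3 q156 =>
  addK c96 a96_1 a96_2 a96_3 q96 c156 a156_1 a156_2 a156_3 q156 fun c157 a157_1 a157_2 a157_3 q157 =>
  mulK c60 a60_1 a60_2 a60_3 q60 c157 a157_1 a157_2 a157_3 q157 fun c159 a159_1 a159_2 a159_3 q159 =>
  mulK c159 a159_1 a159_2 a159_3 q159 c52 a52_1 a52_2 a52_3 q52 fun c160 a160_1 a160_2 a160_3 q160 =>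
  mulK c57 a57_1 a57_2 a57_3 q57 c14 a14_1 a14_2 a14_3 q14 fun c161 a161_1 a161_2 a161_3 q161 =>
  subK c28 a28_1 a28_2 a28_3 q28 c49 a49_1 a49_2 a49_3 q49 fun c162 a162_1 a162_2 a162_3 q162 =>
  smulK 2 3 3458764513820540931 2305843009213693952 c162 a162_1 a162_2 a162_3 q162 fun c163 a163_1 a163_2 a163_3 q163 =>
  addK c161 a161_1 a161_2 a161_3 q161 c163 a163_1 a163_2 a163_3 q163 fun c164 a164_1 a164_2 a164_3 q164 =>
  sqK c164 a164_1 a164_2 a164_3 q164 fun c166 a166_1 a166_2 a166_3 q166 =>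
  mulK c99 a99_1 a99_2 a99_3 q99 c166 a166_1 a166_2 a166_3 q166 fun c168 a168_1 a168_2 a168_3 q168 =>
  subK c160 a160_1 a160_2 a160_3 q160 c168 a168_1 a168_2 a168_3 q168 fun c169 a169_1 a169_2 a169_3 q169 =>
  pos c169 a169_1 a169_2 a169_3 q169

theorem alt1_s {z1 w1 z2 w2 z3 w3 : ℕ} {e1 e2 e3 u ta s : ℝ} (he : Ev e1 e2 e3)
    (hx1 : In e1 e2 e3 z1 (Nat.add w1 1152921504606846976) 1152921504606846976 1152921504606846976 0 u)
    (hx2 : In e1 e2 e3 z2 1152921504606846976 (Nat.add w2 1152921504606846976) 1152921504606846976 0 ta)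
    (hx3 : In e1 e2 e3 z3 1152921504606846976 1152921504606846976 (Nat.add w3 1152921504606846976) 0 s)
    (H0 : alt1 z1 w1 z2 w2 z3 w3 = true) : 0 < (L u ta s) ∧ 0 < (((((d u ta s) * (d u ta s)) * (Ga u ta s)) * (L u ta s)) - (((om u ta s) + ta) * ((X u ta s) * (X u ta s)))) := by
  unfold alt1 at H0
  refine smulK_s he (w := (2:ℝ)) (by norm_num) (by norm_num) (by norm_num) (by norm_num) hx1 (fun _ _ _ _ _ h1 H1 => ?_) H0
  refine sqK_s he hx1 (fun _ _ _ _ _ h2 H2 => ?_) H1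
  have h3 := In_cast h2 (sq _)
  refine addcK_s he h3 (v' := (1:ℝ)) (by norm_num [SS, BB, abs_le]) (fun _ _ _ _ _ h4 H3 => ?_) H2
  have h5 := In_cast h4 (add_comm _ _)
  refine invK_s he h5 (fun _ _ _ _ _ h6 H4 => ?_) H3
  have h7 := In_cast h6 (inv_eq_one_div _)
  have h8 := In_cast (w := (iu u ta s)) h7 rfl
  refine mulK_s he h1 h8 (fun _ _ _ _ _ h9 H5 => ?_) H4
  have h10 := In_cast (w := (t0 u ta s)) h9 rfl
  refine addcK_s he h10 (v' := (-1:ℝ)) (by norm_num [SS, BB, abs_le]) (fun _ _ _ _ _ h11 H6 => ?_) H5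
  have h12 := In_cast h11 (sub_c (c := (1:ℝ)) (by norm_num))
  refine smulK_s he (w := (2:ℝ)) (by norm_num) (by norm_num) (by norm_num) (by norm_num) h8 (fun _ _ _ _ _ h13 H7 => ?_) H6
  refine addcK_s he h13 (v' := (-1:ℝ)) (by norm_num [SS, BB, abs_le]) (fun _ _ _ _ _ h14 H8 => ?_) H7
  have h15 := In_cast h14 (sub_c (c := (1:ℝ)) (by norm_num))
  have h16 := In_cast (w := (R u ta s)) h15 rfl
  refine negK_s he h16 (fun _ _ _ _ _ h17 H9 => ?_) H8
  refine addcK_s he h17 (v' := (1:ℝ)) (by norm_num [SS, BB, abs_le]) (fun _ _ _ _ _ h18 H10 => ?_) H9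
  have h19 := In_cast h18 (neg_add_eq_sub _ _)
  refine smulK_s he (w := (2:ℝ)) (by norm_num) (by norm_num) (by norm_num) (by norm_num) h19 (fun _ _ _ _ _ h20 H11 => ?_) H10
  have h21 := In_cast h20 (mul_comm _ _)
  refine addK_s he h12 h21 (fun _ _ _ _ _ h22 H12 => ?_) H11
  refine addcK_s he h10 (v' := (1:ℝ)) (by norm_num [SS, BB, abs_le]) (fun _ _ _ _ _ h23 H13 => ?_) H12
  have h24 := In_cast h23 (add_comm _ _)
  refine invK_s he h24 (fun _ _ _ _ _ h25 H14 => ?_) H13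
  refine mulK_s he h16 h25 (fun _ _ _ _ _ h26 H15 => ?_) H14
  have h27 := In_cast h26 ((div_eq_mul_inv _ _).symm)
  refine addK_s he h22 h27 (fun _ _ _ _ _ h28 H16 => ?_) H15
  have h29 := In_cast (w := (U0 u ta s)) h28 rfl
  refine smulK_s he (w := (3/10:ℝ)) (by norm_num) (by norm_num) (by norm_num) (by norm_num) h29 (fun _ _ _ _ _ h30 H17 => ?_) H16
  refine mulK_s he h16 hx2 (fun _ _ _ _ _ h31 H18 => ?_) H17
  have h32 := In_cast (w := (r1 u ta s)) h31 rfl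
  refine sqK_s he h32 (fun _ _ _ _ _ h33 H19 => ?_) H18
  have h34 := In_cast h33 (sq _)
  refine negK_s he h34 (fun _ _ _ _ _ h35 H20 => ?_) H19
  refine addcK_s he h35 (v' := (1:ℝ)) (by norm_num [SS, BB, abs_le]) (fun _ _ _ _ _ h36 H21 => ?_) H20
  have h37 := In_cast h36 (neg_add_eq_sub _ _)
  refine sqrtK_s he h37 (fun _ _ _ _ _ h38 H22 => ?_) H21
  have h39 := In_cast (w := (t1 u ta s)) h38 rfl
  refine addcK_s he h39 (v' := (1:ℝ)) (by norm_num [SS, BB, abs_le]) (fun _ _ _ _ _ h40 H23 => ?_) H22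
  have h41 := In_cast h40 (add_comm _ _)
  refine smulK_s he (w := (2:ℝ)) (by norm_num) (by norm_num) (by norm_num) (by norm_num) h32 (fun _ _ _ _ _ h42 H24 => ?_) H23
  refine subK_s he h41 h42 (fun _ _ _ _ _ h43 H25 => ?_) H24
  refine invK_s he h41 (fun _ _ _ _ _ h44 H26 => ?_) H25
  refine mulK_s he h32 h44 (fun _ _ _ _ _ h45 H27 => ?_) H26
  have h46 := In_cast h45 ((div_eq_mul_inv _ _).symm)
  refine addK_s he h43 h46 (fun _ _ _ _ _ h47 H28 => ?_) H27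
  have h48 := In_cast (w := (U1 u ta s)) h47 rfl
  refine mulK_s he hx2 h48 (fun _ _ _ _ _ h49 H29 => ?_) H28
  have h50 := In_cast (w := (V1 u ta s)) h49 rfl
  refine smulK_s he (w := (39/200:ℝ)) (by norm_num) (by norm_num) (by norm_num) (by norm_num) h50 (fun _ _ _ _ _ h51 H30 => ?_) H29
  refine addK_s he h30 h51 (fun _ _ _ _ _ h52 H31 => ?_) H30
  have h53 := In_cast (w := (L u ta s)) h52 rfl
  refine posK_s he h53 (fun p0 H32 => ?_) H31
  refine sqK_s he hx2 (fun _ _ _ _ _ h54 H33 => ?_) H32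
  have h55 := In_cast h54 (sq _)
  refine negK_s he h55 (fun _ _ _ _ _ h56 H34 => ?_) H33
  refine addcK_s he h56 (v' := (1:ℝ)) (by norm_num [SS, BB, abs_le]) (fun _ _ _ _ _ h57 H35 => ?_) H34
  have h58 := In_cast h57 (neg_add_eq_sub _ _)
  have h59 := In_cast (w := (d u ta s)) h58 rfl
  refine sqK_s he h59 (fun _ _ _ _ _ h60 H36 => ?_) H35
  have h61 := In_cast h60 (sq _)
  refine addcK_s he h55 (v' := (1:ℝ)) (by norm_num [SS, BB, abs_le]) (fun _ _ _ _ _ h62 H37 => ?_) H36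
  have h63 := In_cast h62 (add_comm _ _)
  have h64 := In_cast (w := (Ph u ta s)) h63 rfl
  refine mulK_s he hx3 h59 (fun _ _ _ _ _ h65 H38 => ?_) H37
  refine smulK_s he (w := (1/2:ℝ)) (by norm_num) (by norm_num) (by norm_num) (by norm_num) h65 (fun _ _ _ _ _ h66 H39 => ?_) H38
  have h67 := In_cast h66 (div_c (c := (2:ℝ)) (by norm_num))
  have h68 := In_cast (w := (hh u ta s)) h67 rfl
  refine sqK_s he h68 (fun _ _ _ _ _ h69 H40 => ?_) H39
  have h70 := In_cast h69 (sq _)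
  have h71 := In_cast (w := (hq u ta s)) h70 rfl
  refine addK_s he h55 h71 (fun _ _ _ _ _ h72 H41 => ?_) H40
  refine sqrtK_s he h72 (fun _ _ _ _ _ h73 H42 => ?_) H41
  have h74 := In_cast (w := (om u ta s)) h73 rfl
  refine smulK_s he (w := (2:ℝ)) (by norm_num) (by norm_num) (by norm_num) (by norm_num) h74 (fun _ _ _ _ _ h75 H43 => ?_) H42
  refine addK_s he h64 h75 (fun _ _ _ _ _ h76 H44 => ?_) H43
  refine sqrtK_s he h76 (fun _ _ _ _ _ h77 H45 => ?_) H44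
  have h78 := In_cast (w := (sg u ta s)) h77 rfl
  refine addcK_s he h78 (v' := (1:ℝ)) (by norm_num [SS, BB, abs_le]) (fun _ _ _ _ _ h79 H46 => ?_) H45
  refine addK_s he h79 hx2 (fun _ _ _ _ _ h80 H47 => ?_) H46
  have h81 := In_cast (w := (ss u ta s)) h80 rfl
  refine invK_s he h81 (fun _ _ _ _ _ h82 H48 => ?_) H47
  refine sqK_s he h16 (fun _ _ _ _ _ h83 H49 => ?_) H48
  have h84 := In_cast h83 (sq _)
  have h85 := In_cast (w := (R2 u ta s)) h84 rfl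
  refine subK_s he h64 hx2 (fun _ _ _ _ _ h86 H50 => ?_) H49
  refine smulK_s he (w := (2:ℝ)) (by norm_num) (by norm_num) (by norm_num) (by norm_num) h86 (fun _ _ _ _ _ h87 H51 => ?_) H50
  refine mulK_s he h78 h81 (fun _ _ _ _ _ h88 H52 => ?_) H51
  refine subK_s he h87 h88 (fun _ _ _ _ _ h89 H53 => ?_) H52
  refine mulK_s he h85 h89 (fun _ _ _ _ _ h90 H54 => ?_) H53
  refine smulK_s he (w := (2479/5000:ℝ)) (by norm_num) (by norm_num) (by norm_num) (by norm_num) h90 (fun _ _ _ _ _ h91 H55 => ?_) H54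
  refine negK_s he h91 (fun _ _ _ _ _ h92 H56 => ?_) H55
  have h93 := In_cast h92 (neg_mul_c (c := (-2479/5000:ℝ)) (by norm_num))
  refine addcK_s he h93 (v' := (4:ℝ)) (by norm_num [SS, BB, abs_le]) (fun _ _ _ _ _ h94 H57 => ?_) H56
  have h95 := In_cast h94 (add_comm _ _)
  refine mulK_s he h95 h82 (fun _ _ _ _ _ h96 H58 => ?_) H57
  have h97 := In_cast h96 ((div_eq_mul_inv _ _).symm)
  refine mulK_s he h85 h16 (fun _ _ _ _ _ h98 H59 => ?_) H58
  refine addK_s he h74 hx2 (fun _ _ _ _ _ h99 H60 => ?_) H59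
  refine mulK_s he h98 h99 (fun _ _ _ _ _ h100 H61 => ?_) H60
  refine mulK_s he h85 h64 (fun _ _ _ _ _ h101 H62 => ?_) H61
  have h102 := In_cast (w := (P u ta s)) h101 rfl
  refine smulK_s he (w := (1971/10000:ℝ)) (by norm_num) (by norm_num) (by norm_num) (by norm_num) h102 (fun _ _ _ _ _ h103 H63 => ?_) H62
  refine negK_s he h103 (fun _ _ _ _ _ h104 H64 => ?_) H63
  have h105 := In_cast h104 (neg_mul_c (c := (-1971/10000:ℝ)) (by norm_num))
  refine negK_s he h105 (fun _ _ _ _ _ h106 H65 => ?_) H64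
  refine addcK_s he h106 (v' := (-1391/2500:ℝ)) (by norm_num [SS, BB, abs_le]) (fun _ _ _ _ _ h107 H66 => ?_) H65
  have h108 := In_cast h107 (neg_add_eq_sub _ _)
  refine sqK_s he h85 (fun _ _ _ _ _ h109 H67 => ?_) H66
  have h110 := In_cast h109 (sq _)
  have h111 := In_cast (w := (R4 u ta s)) h110 rfl
  refine sqK_s he h74 (fun _ _ _ _ _ h112 H68 => ?_) H67
  have h113 := In_cast h112 (sq _)
  refine addK_s he h113 h55 (fun _ _ _ _ _ h114 H69 => ?_) H68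
  refine smulK_s he (w := (2:ℝ)) (by norm_num) (by norm_num) (by norm_num) (by norm_num) h114 (fun _ _ _ _ _ h115 H70 => ?_) H69
  refine mulK_s he h111 h115 (fun _ _ _ _ _ h116 H71 => ?_) H70
  refine sqK_s he h102 (fun _ _ _ _ _ h117 H72 => ?_) H71
  have h118 := In_cast h117 (sq _)
  refine smulK_s he (w := (4:ℝ)) (by norm_num) (by norm_num) (by norm_num) (by norm_num) h118 (fun _ _ _ _ _ h119 H73 => ?_) H72
  refine subK_s he h116 h119 (fun _ _ _ _ _ h120 H74 => ?_) H73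
  refine smulK_s he (w := (24/625:ℝ)) (by norm_num) (by norm_num) (by norm_num) (by norm_num) h120 (fun _ _ _ _ _ h121 H75 => ?_) H74
  refine addK_s he h108 h121 (fun _ _ _ _ _ h122 H76 => ?_) H75
  have h123 := In_cast (w := (Gp u ta s)) h122 rfl
  refine negK_s he h102 (fun _ _ _ _ _ h124 H77 => ?_) H76
  refine addcK_s he h124 (v' := (2:ℝ)) (by norm_num [SS, BB, abs_le]) (fun _ _ _ _ _ h125 H78 => ?_) H77
  have h126 := In_cast h125 (neg_add_eq_sub _ _)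
  have h127 := In_cast (w := (Pp u ta s)) h126 rfl
  refine mulK_s he h10 h39 (fun _ _ _ _ _ h128 H79 => ?_) H78
  have h129 := In_cast (w := (b0 u ta s)) h128 rfl
  refine sqK_s he h129 (fun _ _ _ _ _ h130 H80 => ?_) H79
  have h131 := In_cast h130 (sq _)
  refine mulK_s he h111 h71 (fun _ _ _ _ _ h132 H81 => ?_) H80
  refine addK_s he h131 h132 (fun _ _ _ _ _ h133 H82 => ?_) H81
  refine sqrtK_s he h133 (fun _ _ _ _ _ h134 H83 => ?_) H82
  have h135 := In_cast (w := (b u ta s)) h134 rfl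
  refine smulK_s he (w := (2:ℝ)) (by norm_num) (by norm_num) (by norm_num) (by norm_num) h135 (fun _ _ _ _ _ h136 H84 => ?_) H83
  refine addK_s he h127 h136 (fun _ _ _ _ _ h137 H85 => ?_) H84
  refine sqrtK_s he h137 (fun _ _ _ _ _ h138 H86 => ?_) H85
  have h139 := In_cast (w := (v u ta s)) h138 rfl
  refine addK_s he h10 h39 (fun _ _ _ _ _ h140 H87 => ?_) H86
  have h141 := In_cast (w := (v0 u ta s)) h140 rfl
  refine addK_s he h139 h141 (fun _ _ _ _ _ h142 H88 => ?_) H87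
  refine invK_s he h142 (fun _ _ _ _ _ h143 H89 => ?_) H88
  refine mulK_s he h139 h141 (fun _ _ _ _ _ h144 H90 => ?_) H89
  refine addK_s he h144 h127 (fun _ _ _ _ _ h145 H91 => ?_) H90
  refine invK_s he h145 (fun _ _ _ _ _ h146 H92 => ?_) H91
  refine addK_s he h127 h129 (fun _ _ _ _ _ h147 H93 => ?_) H92
  refine mulK_s he h147 h146 (fun _ _ _ _ _ h148 H94 => ?_) H93
  have h149 := In_cast h148 ((div_eq_mul_inv _ _).symm)
  refine addcK_s he h149 (v' := (1:ℝ)) (by norm_num [SS, BB, abs_le]) (fun _ _ _ _ _ h150 H95 => ?_) H94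
  have h151 := In_cast h150 (add_comm _ _)
  refine mulK_s he h151 h143 (fun _ _ _ _ _ h152 H96 => ?_) H95
  have h153 := In_cast h152 ((div_eq_mul_inv _ _).symm)
  have h154 := In_cast (w := (GW u ta s)) h153 rfl
  refine addK_s he h123 h154 (fun _ _ _ _ _ h155 H97 => ?_) H96
  refine mulK_s he h100 h155 (fun _ _ _ _ _ h156 H98 => ?_) H97
  refine addK_s he h97 h156 (fun _ _ _ _ _ h157 H99 => ?_) H98
  have h158 := In_cast (w := (Ga u ta s)) h157 rfl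
  refine mulK_s he h61 h158 (fun _ _ _ _ _ h159 H100 => ?_) H99
  refine mulK_s he h159 h53 (fun _ _ _ _ _ h160 H101 => ?_) H100
  refine mulK_s he h59 h16 (fun _ _ _ _ _ h161 H102 => ?_) H101
  refine subK_s he h29 h50 (fun _ _ _ _ _ h162 H103 => ?_) H102
  refine smulK_s he (w := (2/3:ℝ)) (by norm_num) (by norm_num) (by norm_num) (by norm_num) h162 (fun _ _ _ _ _ h163 H104 => ?_) H103
  refine addK_s he h161 h163 (fun _ _ _ _ _ h164 H105 => ?_) H104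
  have h165 := In_cast (w := (X u ta s)) h164 rfl
  refine sqK_s he h165 (fun _ _ _ _ _ h166 H106 => ?_) H105
  have h167 := In_cast h166 (sq _)
  refine mulK_s he h99 h167 (fun _ _ _ _ _ h168 H107 => ?_) H106
  refine subK_s he h160 h168 (fun _ _ _ _ _ h169 H108 => ?_) H107
  exact ⟨p0, pos_s he h169 H108⟩

noncomputable def alt2 (z1 w1 z2 w2 z3 w3 : ℕ) : Bool :=
  sqK z2 1152921504606846976 (Nat.add w2 1152921504606846976) 1152921504606846976 0 fun c1 a1_1 a1_2 a1_3 q1 =>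
  negK c1 a1_1 a1_2 a1_3 q1 fun c3 a3_1 a3_2 a3_3 q3 =>
  addcK c3 a3_1 a3_2 a3_3 q3 1152922604118474752 0 fun c4 a4_1 a4_2 a4_3 q4 =>
  sqK z1 (Nat.add w1 1152921504606846976) 1152921504606846976 1152921504606846976 0 fun c7 a7_1 a7_2 a7_3 q7 =>
  addcK c7 a7_1 a7_2 a7_3 q7 1152922604118474752 0 fun c9 a9_1 a9_2 a9_3 q9 =>
  invK c9 a9_1 a9_2 a9_3 q9 fun c11 a11_1 a11_2 a11_3 q11 =>
  smulK 2 1 1152921504606846977 2305843009213693952 c11 a11_1 a11_2 a11_3 q11 fun c14 a14_1 a14_2 a14_3 q14 =>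
  addcK c14 a14_1 a14_2 a14_3 q14 1152920405095219200 0 fun c15 a15_1 a15_2 a15_3 q15 =>
  mulK c4 a4_1 a4_2 a4_3 q4 c15 a15_1 a15_2 a15_3 q15 fun c18 a18_1 a18_2 a18_3 q18 =>
  smulK 2 1 1152921504606846977 2305843009213693952 z1 (Nat.add w1 1152921504606846976) 1152921504606846976 1152921504606846976 0 fun c19 a19_1 a19_2 a19_3 q19 =>
  mulK c19 a19_1 a19_2 a19_3 q19 c11 a11_1 a11_2 a11_3 q11 fun c20 a20_1 a20_2 a20_3 q20 =>
  addcK c20 a20_1 a20_2 a20_3 q20 1152920405095219200 0 fun c22 a22_1 a22_2 a22_3 q22 =>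
  negK c15 a15_1 a15_2 a15_3 q15 fun c24 a24_1 a24_2 a24_3 q24 =>
  addcK c24 a24_1 a24_2 a24_3 q24 1152922604118474752 0 fun c25 a25_1 a25_2 a25_3 q25 =>
  smulK 2 1 1152921504606846977 2305843009213693952 c25 a25_1 a25_2 a25_3 q25 fun c27 a27_1 a27_2 a27_3 q27 =>
  addK c22 a22_1 a22_2 a22_3 q22 c27 a27_1 a27_2 a27_3 q27 fun c29 a29_1 a29_2 a29_3 q29 =>
  addcK c20 a20_1 a20_2 a20_3 q20 1152922604118474752 0 fun c30 a30_1 a30_2 a30_3 q30 =>
  invK c30 a30_1 a30_2 a30_3 q30 fun c32 a32_1 a32_2 a32_3 q32 =>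
  mulK c15 a15_1 a15_2 a15_3 q15 c32 a32_1 a32_2 a32_3 q32 fun c33 a33_1 a33_2 a33_3 q33 =>
  addK c29 a29_1 a29_2 a29_3 q29 c33 a33_1 a33_2 a33_3 q33 fun c35 a35_1 a35_2 a35_3 q35 =>
  mulK c15 a15_1 a15_2 a15_3 q15 z2 1152921504606846976 (Nat.add w2 1152921504606846976) 1152921504606846976 0 fun c37 a37_1 a37_2 a37_3 q37 =>
  sqK c37 a37_1 a37_2 a37_3 q37 fun c39 a39_1 a39_2 a39_3 q39 =>
  negK c39 a39_1 a39_2 a39_3 q39 fun c41 a41_1 a41_2 a41_3 q41 =>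
  addcK c41 a41_1 a41_2 a41_3 q41 1152922604118474752 0 fun c42 a42_1 a42_2 a42_3 q42 =>
  sqrtK c42 a42_1 a42_2 a42_3 q42 fun c44 a44_1 a44_2 a44_3 q44 =>
  addcK c44 a44_1 a44_2 a44_3 q44 1152922604118474752 0 fun c46 a46_1 a46_2 a46_3 q46 =>
  smulK 2 1 1152921504606846977 2305843009213693952 c37 a37_1 a37_2 a37_3 q37 fun c48 a48_1 a48_2 a48_3 q48 =>
  subK c46 a46_1 a46_2 a46_3 q46 c48 a48_1 a48_2 a48_3 q48 fun c49 a49_1 a49_2 a49_3 q49 =>
  invK c46 a46_1 a46_2 a46_3 q46 fun c50 a50_1 a50_2 a50_3 q50 =>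
  mulK c37 a37_1 a37_2 a37_3 q37 c50 a50_1 a50_2 a50_3 q50 fun c51 a51_1 a51_2 a51_3 q51 =>
  addK c49 a49_1 a49_2 a49_3 q49 c51 a51_1 a51_2 a51_3 q51 fun c53 a53_1 a53_2 a53_3 q53 =>
  mulK z2 1152921504606846976 (Nat.add w2 1152921504606846976) 1152921504606846976 0 c53 a53_1 a53_2 a53_3 q53 fun c55 a55_1 a55_2 a55_3 q55 =>
  subK c35 a35_1 a35_2 a35_3 q35 c55 a55_1 a55_2 a55_3 q55 fun c57 a57_1 a57_2 a57_3 q57 =>
  smulK 2 3 3458764513820540931 2305843009213693952 c57 a57_1 a57_2 a57_3 q57 fun c58 a58_1 a58_2 a58_3 q58 =>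
  addK c18 a18_1 a18_2 a18_3 q18 c58 a58_1 a58_2 a58_3 q58 fun c59 a59_1 a59_2 a59_3 q59 =>
  smulK 3 10 11529215046068469770 3458764513820540928 c35 a35_1 a35_2 a35_3 q35 fun c61 a61_1 a61_2 a61_3 q61 =>
  smulK 39 200 230584300921369395400 44963938679667032064 c55 a55_1 a55_2 a55_3 q55 fun c62 a62_1 a62_2 a62_3 q62 =>
  addK c61 a61_1 a61_2 a61_3 q61 c62 a62_1 a62_2 a62_3 q62 fun c63 a63_1 a63_2 a63_3 q63 =>
  smulK 3 2 2305843009213693954 3458764513820540928 c63 a63_1 a63_2 a63_3 q63 fun c65 a65_1 a65_2 a65_3 q65 =>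
  subK c59 a59_1 a59_2 a59_3 q59 c65 a65_1 a65_2 a65_3 q65 fun c66 a66_1 a66_2 a66_3 q66 =>
  posK c66 a66_1 a66_2 a66_3 q66 <|
  sqK c4 a4_1 a4_2 a4_3 q4 fun c67 a67_1 a67_2 a67_3 q67 =>
  addcK c1 a1_1 a1_2 a1_3 q1 1152922604118474752 0 fun c69 a69_1 a69_2 a69_3 q69 =>
  mulK z3 1152921504606846976 1152921504606846976 (Nat.add w3 1152921504606846976) 0 c4 a4_1 a4_2 a4_3 q4 fun c72 a72_1 a72_2 a72_3 q72 =>
  smulK 1 2 2305843009213693954 1152921504606846976 c72 a72_1 a72_2 a72_3 q72 fun c73 a73_1 a73_2 a73_3 q73 =>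
  sqK c73 a73_1 a73_2 a73_3 q73 fun c76 a76_1 a76_2 a76_3 q76 =>
  addK c1 a1_1 a1_2 a1_3 q1 c76 a76_1 a76_2 a76_3 q76 fun c79 a79_1 a79_2 a79_3 q79 =>
  sqrtK c79 a79_1 a79_2 a79_3 q79 fun c80 a80_1 a80_2 a80_3 q80 =>
  smulK 2 1 1152921504606846977 2305843009213693952 c80 a80_1 a80_2 a80_3 q80 fun c82 a82_1 a82_2 a82_3 q82 =>
  addK c69 a69_1 a69_2 a69_3 q69 c82 a82_1 a82_2 a82_3 q82 fun c83 a83_1 a83_2 a83_3 q83 =>
  sqrtK c83 a83_1 a83_2 a83_3 q83 fun c84 a84_1 a84_2 a84_3 q84 =>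
  addcK c84 a84_1 a84_2 a84_3 q84 1152922604118474752 0 fun c86 a86_1 a86_2 a86_3 q86 =>
  addK c86 a86_1 a86_2 a86_3 q86 z2 1152921504606846976 (Nat.add w2 1152921504606846976) 1152921504606846976 0 fun c87 a87_1 a87_2 a87_3 q87 =>
  invK c87 a87_1 a87_2 a87_3 q87 fun c89 a89_1 a89_2 a89_3 q89 =>
  sqK c15 a15_1 a15_2 a15_3 q15 fun c90 a90_1 a90_2 a90_3 q90 =>
  subK c69 a69_1 a69_2 a69_3 q69 z2 1152921504606846976 (Nat.add w2 1152921504606846976) 1152921504606846976 0 fun c93 a93_1 a93_2 a93_3 q93 =>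
  smulK 2 1 1152921504606846977 2305843009213693952 c93 a93_1 a93_2 a93_3 q93 fun c94 a94_1 a94_2 a94_3 q94 =>
  mulK c84 a84_1 a84_2 a84_3 q84 c87 a87_1 a87_2 a87_3 q87 fun c95 a95_1 a95_2 a95_3 q95 =>
  subK c94 a94_1 a94_2 a94_3 q94 c95 a95_1 a95_2 a95_3 q95 fun c96 a96_1 a96_2 a96_3 q96 =>
  mulK c90 a90_1 a90_2 a90_3 q90 c96 a96_1 a96_2 a96_3 q96 fun c97 a97_1 a97_2 a97_3 q97 =>
  smulK 2479 5000 5764607523034234885000 2858092409920373653504 c97 a97_1 a97_2 a97_3 q97 fun c98 a98_1 a98_2 a98_3 q98 =>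
  negK c98 a98_1 a98_2 a98_3 q98 fun c99 a99_1 a99_2 a99_3 q99 =>
  addcK c99 a99_1 a99_2 a99_3 q99 1152925902653358080 0 fun c101 a101_1 a101_2 a101_3 q101 =>
  mulK c101 a101_1 a101_2 a101_3 q101 c89 a89_1 a89_2 a89_3 q89 fun c103 a103_1 a103_2 a103_3 q103 =>
  mulK c90 a90_1 a90_2 a90_3 q90 c15 a15_1 a15_2 a15_3 q15 fun c105 a105_1 a105_2 a105_3 q105 =>
  addK c80 a80_1 a80_2 a80_3 q80 z2 1152921504606846976 (Nat.add w2 1152921504606846976) 1152921504606846976 0 fun c106 a106_1 a106_2 a106_3 q106 =>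
  mulK c105 a105_1 a105_2 a105_3 q105 c106 a106_1 a106_2 a106_3 q106 fun c107 a107_1 a107_2 a107_3 q107 =>
  mulK c90 a90_1 a90_2 a90_3 q90 c69 a69_1 a69_2 a69_3 q69 fun c108 a108_1 a108_2 a108_3 q108 =>
  smulK 1971 10000 11529215046068469770000 2272408285580095389696 c108 a108_1 a108_2 a108_3 q108 fun c110 a110_1 a110_2 a110_3 q110 =>
  negK c110 a110_1 a110_2 a110_3 q110 fun c111 a111_1 a111_2 a111_3 q111 =>
  negK c111 a111_1 a111_2 a111_3 q111 fun c113 a113_1 a113_2 a113_3 q113 =>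
  addcK c113 a113_1 a113_2 a113_3 q113 1152920892838577281 1 fun c114 a114_1 a114_2 a114_3 q114 =>
  sqK c90 a90_1 a90_2 a90_3 q90 fun c116 a116_1 a116_2 a116_3 q116 =>
  sqK c80 a80_1 a80_2 a80_3 q80 fun c119 a119_1 a119_2 a119_3 q119 =>
  addK c119 a119_1 a119_2 a119_3 q119 c1 a1_1 a1_2 a1_3 q1 fun c121 a121_1 a121_2 a121_3 q121 =>
  smulK 2 1 1152921504606846977 2305843009213693952 c121 a121_1 a121_2 a121_3 q121 fun c122 a122_1 a122_2 a122_3 q122 =>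
  mulK c116 a116_1 a116_2 a116_3 q116 c122 a122_1 a122_2 a122_3 q122 fun c123 a123_1 a123_2 a123_3 q123 =>
  sqK c108 a108_1 a108_2 a108_3 q108 fun c124 a124_1 a124_2 a124_3 q124 =>
  smulK 4 1 1152921504606846977 4611686018427387904 c124 a124_1 a124_2 a124_3 q124 fun c126 a126_1 a126_2 a126_3 q126 =>
  subK c123 a123_1 a123_2 a123_3 q123 c126 a126_1 a126_2 a126_3 q126 fun c127 a127_1 a127_2 a127_3 q127 =>
  smulK 24 625 720575940379279360625 27670116110564327424 c127 a127_1 a127_2 a127_3 q127 fun c128 a128_1 a128_2 a128_3 q128 =>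
  addK c114 a114_1 a114_2 a114_3 q114 c128 a128_1 a128_2 a128_3 q128 fun c129 a129_1 a129_2 a129_3 q129 =>
  negK c108 a108_1 a108_2 a108_3 q108 fun c131 a131_1 a131_2 a131_3 q131 =>
  addcK c131 a131_1 a131_2 a131_3 q131 1152923703630102528 0 fun c132 a132_1 a132_2 a132_3 q132 =>
  mulK c20 a20_1 a20_2 a20_3 q20 c44 a44_1 a44_2 a44_3 q44 fun c135 a135_1 a135_2 a135_3 q135 =>
  sqK c135 a135_1 a135_2 a135_3 q135 fun c137 a137_1 a137_2 a137_3 q137 =>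
  mulK c116 a116_1 a116_2 a116_3 q116 c76 a76_1 a76_2 a76_3 q76 fun c139 a139_1 a139_2 a139_3 q139 =>
  addK c137 a137_1 a137_2 a137_3 q137 c139 a139_1 a139_2 a139_3 q139 fun c140 a140_1 a140_2 a140_3 q140 =>
  sqrtK c140 a140_1 a140_2 a140_3 q140 fun c141 a141_1 a141_2 a141_3 q141 =>
  smulK 2 1 1152921504606846977 2305843009213693952 c141 a141_1 a141_2 a141_3 q141 fun c143 a143_1 a143_2 a143_3 q143 =>
  addK c132 a132_1 a132_2 a132_3 q132 c143 a143_1 a143_2 a143_3 q143 fun c144 a144_1 a144_2 a144_3 q144 =>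
  sqrtK c144 a144_1 a144_2 a144_3 q144 fun c145 a145_1 a145_2 a145_3 q145 =>
  addK c20 a20_1 a20_2 a20_3 q20 c44 a44_1 a44_2 a44_3 q44 fun c147 a147_1 a147_2 a147_3 q147 =>
  addK c145 a145_1 a145_2 a145_3 q145 c147 a147_1 a147_2 a147_3 q147 fun c149 a149_1 a149_2 a149_3 q149 =>
  invK c149 a149_1 a149_2 a149_3 q149 fun c150 a150_1 a150_2 a150_3 q150 =>
  mulK c145 a145_1 a145_2 a145_3 q145 c147 a147_1 a147_2 a147_3 q147 fun c151 a151_1 a151_2 a151_3 q151 =>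
  addK c151 a151_1 a151_2 a151_3 q151 c132 a132_1 a132_2 a132_3 q132 fun c152 a152_1 a152_2 a152_3 q152 =>
  invK c152 a152_1 a152_2 a152_3 q152 fun c153 a153_1 a153_2 a153_3 q153 =>
  addK c132 a132_1 a132_2 a132_3 q132 c135 a135_1 a135_2 a135_3 q135 fun c154 a154_1 a154_2 a154_3 q154 =>
  mulK c154 a154_1 a154_2 a154_3 q154 c153 a153_1 a153_2 a153_3 q153 fun c155 a155_1 a155_2 a155_3 q155 =>
  addcK c155 a155_1 a155_2 a155_3 q155 1152922604118474752 0 fun c157 a157_1 a157_2 a157_3 q157 =>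
  mulK c157 a157_1 a157_2 a157_3 q157 c150 a150_1 a150_2 a150_3 q150 fun c159 a159_1 a159_2 a159_3 q159 =>
  addK c129 a129_1 a129_2 a129_3 q129 c159 a159_1 a159_2 a159_3 q159 fun c162 a162_1 a162_2 a162_3 q162 =>
  mulK c107 a107_1 a107_2 a107_3 q107 c162 a162_1 a162_2 a162_3 q162 fun c163 a163_1 a163_2 a163_3 q163 =>
  addK c103 a103_1 a103_2 a103_3 q103 c163 a163_1 a163_2 a163_3 q163 fun c164 a164_1 a164_2 a164_3 q164 =>
  mulK c67 a67_1 a67_2 a67_3 q67 c164 a164_1 a164_2 a164_3 q164 fun c166 a166_1 a166_2 a166_3 q166 =>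
  smulK 4 1 1152921504606846977 4611686018427387904 c106 a106_1 a106_2 a106_3 q106 fun c167 a167_1 a167_2 a167_3 q167 =>
  smulK 3 4 4611686018427387908 3458764513820540928 c59 a59_1 a59_2 a59_3 q59 fun c168 a168_1 a168_2 a168_3 q168 =>
  smulK 9 16 18446744073709551632 10376293541461622784 c63 a63_1 a63_2 a63_3 q63 fun c169 a169_1 a169_2 a169_3 q169 =>
  subK c168 a168_1 a168_2 a168_3 q168 c169 a169_1 a169_2 a169_3 q169 fun c170 a170_1 a170_2 a170_3 q170 =>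
  mulK c167 a167_1 a167_2 a167_3 q167 c170 a170_1 a170_2 a170_3 q170 fun c171 a171_1 a171_2 a171_3 q171 =>
  subK c166 a166_1 a166_2 a166_3 q166 c171 a171_1 a171_2 a171_3 q171 fun c172 a172_1 a172_2 a172_3 q172 =>
  pos c172 a172_1 a172_2 a172_3 q172

theorem alt2_s {z1 w1 z2 w2 z3 w3 : ℕ} {e1 e2 e3 u ta s : ℝ} (he : Ev e1 e2 e3)
    (hx1 : In e1 e2 e3 z1 (Nat.add w1 1152921504606846976) 1152921504606846976 1152921504606846976 0 u)
    (hx2 : In e1 e2 e3 z2 1152921504606846976 (Nat.add w2 1152921504606846976) 1152921504606846976 0 ta)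
    (hx3 : In e1 e2 e3 z3 1152921504606846976 1152921504606846976 (Nat.add w3 1152921504606846976) 0 s)
    (H0 : alt2 z1 w1 z2 w2 z3 w3 = true) : 0 < ((X u ta s) - ((3/2:ℝ) * (L u ta s))) ∧ 0 < ((((d u ta s) * (d u ta s)) * (Ga u ta s)) - (((4:ℝ) * ((om u ta s) + ta)) * (((3/4:ℝ) * (X u ta s)) - ((9/16:ℝ) * (L u ta s))))) := by
  unfold alt2 at H0
  refine sqK_s he hx2 (fun _ _ _ _ _ h1 H1 => ?_) H0
  have h2 := In_cast h1 (sq _)
  refine negK_s he h2 (fun _ _ _ _ _ h3 H2 => ?_) H1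
  refine addcK_s he h3 (v' := (1:ℝ)) (by norm_num [SS, BB, abs_le]) (fun _ _ _ _ _ h4 H3 => ?_) H2
  have h5 := In_cast h4 (neg_add_eq_sub _ _)
  have h6 := In_cast (w := (d u ta s)) h5 rfl
  refine sqK_s he hx1 (fun _ _ _ _ _ h7 H4 => ?_) H3
  have h8 := In_cast h7 (sq _)
  refine addcK_s he h8 (v' := (1:ℝ)) (by norm_num [SS, BB, abs_le]) (fun _ _ _ _ _ h9 H5 => ?_) H4
  have h10 := In_cast h9 (add_comm _ _)
  refine invK_s he h10 (fun _ _ _ _ _ h11 H6 => ?_) H5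
  have h12 := In_cast h11 (inv_eq_one_div _)
  have h13 := In_cast (w := (iu u ta s)) h12 rfl
  refine smulK_s he (w := (2:ℝ)) (by norm_num) (by norm_num) (by norm_num) (by norm_num) h13 (fun _ _ _ _ _ h14 H7 => ?_) H6
  refine addcK_s he h14 (v' := (-1:ℝ)) (by norm_num [SS, BB, abs_le]) (fun _ _ _ _ _ h15 H8 => ?_) H7
  have h16 := In_cast h15 (sub_c (c := (1:ℝ)) (by norm_num))
  have h17 := In_cast (w := (R u ta s)) h16 rfl
  refine mulK_s he h6 h17 (fun _ _ _ _ _ h18 H9 => ?_) H8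
  refine smulK_s he (w := (2:ℝ)) (by norm_num) (by norm_num) (by norm_num) (by norm_num) hx1 (fun _ _ _ _ _ h19 H10 => ?_) H9
  refine mulK_s he h19 h13 (fun _ _ _ _ _ h20 H11 => ?_) H10
  have h21 := In_cast (w := (t0 u ta s)) h20 rfl
  refine addcK_s he h21 (v' := (-1:ℝ)) (by norm_num [SS, BB, abs_le]) (fun _ _ _ _ _ h22 H12 => ?_) H11
  have h23 := In_cast h22 (sub_c (c := (1:ℝ)) (by norm_num))
  refine negK_s he h17 (fun _ _ _ _ _ h24 H13 => ?_) H12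
  refine addcK_s he h24 (v' := (1:ℝ)) (by norm_num [SS, BB, abs_le]) (fun _ _ _ _ _ h25 H14 => ?_) H13
  have h26 := In_cast h25 (neg_add_eq_sub _ _)
  refine smulK_s he (w := (2:ℝ)) (by norm_num) (by norm_num) (by norm_num) (by norm_num) h26 (fun _ _ _ _ _ h27 H15 => ?_) H14
  have h28 := In_cast h27 (mul_comm _ _)
  refine addK_s he h23 h28 (fun _ _ _ _ _ h29 H16 => ?_) H15
  refine addcK_s he h21 (v' := (1:ℝ)) (by norm_num [SS, BB, abs_le]) (fun _ _ _ _ _ h30 H17 => ?_) H16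
  have h31 := In_cast h30 (add_comm _ _)
  refine invK_s he h31 (fun _ _ _ _ _ h32 H18 => ?_) H17
  refine mulK_s he h17 h32 (fun _ _ _ _ _ h33 H19 => ?_) H18
  have h34 := In_cast h33 ((div_eq_mul_inv _ _).symm)
  refine addK_s he h29 h34 (fun _ _ _ _ _ h35 H20 => ?_) H19
  have h36 := In_cast (w := (U0 u ta s)) h35 rfl
  refine mulK_s he h17 hx2 (fun _ _ _ _ _ h37 H21 => ?_) H20
  have h38 := In_cast (w := (r1 u ta s)) h37 rfl
  refine sqK_s he h38 (fun _ _ _ _ _ h39 H22 => ?_) H21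
  have h40 := In_cast h39 (sq _)
  refine negK_s he h40 (fun _ _ _ _ _ h41 H23 => ?_) H22
  refine addcK_s he h41 (v' := (1:ℝ)) (by norm_num [SS, BB, abs_le]) (fun _ _ _ _ _ h42 H24 => ?_) H23
  have h43 := In_cast h42 (neg_add_eq_sub _ _)
  refine sqrtK_s he h43 (fun _ _ _ _ _ h44 H25 => ?_) H24
  have h45 := In_cast (w := (t1 u ta s)) h44 rfl
  refine addcK_s he h45 (v' := (1:ℝ)) (by norm_num [SS, BB, abs_le]) (fun _ _ _ _ _ h46 H26 => ?_) H25
  have h47 := In_cast h46 (add_comm _ _)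
  refine smulK_s he (w := (2:ℝ)) (by norm_num) (by norm_num) (by norm_num) (by norm_num) h38 (fun _ _ _ _ _ h48 H27 => ?_) H26
  refine subK_s he h47 h48 (fun _ _ _ _ _ h49 H28 => ?_) H27
  refine invK_s he h47 (fun _ _ _ _ _ h50 H29 => ?_) H28
  refine mulK_s he h38 h50 (fun _ _ _ _ _ h51 H30 => ?_) H29
  have h52 := In_cast h51 ((div_eq_mul_inv _ _).symm)
  refine addK_s he h49 h52 (fun _ _ _ _ _ h53 H31 => ?_) H30
  have h54 := In_cast (w := (U1 u ta s)) h53 rfl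
  refine mulK_s he hx2 h54 (fun _ _ _ _ _ h55 H32 => ?_) H31
  have h56 := In_cast (w := (V1 u ta s)) h55 rfl
  refine subK_s he h36 h56 (fun _ _ _ _ _ h57 H33 => ?_) H32
  refine smulK_s he (w := (2/3:ℝ)) (by norm_num) (by norm_num) (by norm_num) (by norm_num) h57 (fun _ _ _ _ _ h58 H34 => ?_) H33
  refine addK_s he h18 h58 (fun _ _ _ _ _ h59 H35 => ?_) H34
  have h60 := In_cast (w := (X u ta s)) h59 rfl
  refine smulK_s he (w := (3/10:ℝ)) (by norm_num) (by norm_num) (by norm_num) (by norm_num) h36 (fun _ _ _ _ _ h61 H36 => ?_) H35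
  refine smulK_s he (w := (39/200:ℝ)) (by norm_num) (by norm_num) (by norm_num) (by norm_num) h56 (fun _ _ _ _ _ h62 H37 => ?_) H36
  refine addK_s he h61 h62 (fun _ _ _ _ _ h63 H38 => ?_) H37
  have h64 := In_cast (w := (L u ta s)) h63 rfl
  refine smulK_s he (w := (3/2:ℝ)) (by norm_num) (by norm_num) (by norm_num) (by norm_num) h64 (fun _ _ _ _ _ h65 H39 => ?_) H38
  refine subK_s he h60 h65 (fun _ _ _ _ _ h66 H40 => ?_) H39
  refine posK_s he h66 (fun p0 H41 => ?_) H40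
  refine sqK_s he h6 (fun _ _ _ _ _ h67 H42 => ?_) H41
  have h68 := In_cast h67 (sq _)
  refine addcK_s he h2 (v' := (1:ℝ)) (by norm_num [SS, BB, abs_le]) (fun _ _ _ _ _ h69 H43 => ?_) H42
  have h70 := In_cast h69 (add_comm _ _)
  have h71 := In_cast (w := (Ph u ta s)) h70 rfl
  refine mulK_s he hx3 h6 (fun _ _ _ _ _ h72 H44 => ?_) H43
  refine smulK_s he (w := (1/2:ℝ)) (by norm_num) (by norm_num) (by norm_num) (by norm_num) h72 (fun _ _ _ _ _ h73 H45 => ?_) H44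
  have h74 := In_cast h73 (div_c (c := (2:ℝ)) (by norm_num))
  have h75 := In_cast (w := (hh u ta s)) h74 rfl
  refine sqK_s he h75 (fun _ _ _ _ _ h76 H46 => ?_) H45
  have h77 := In_cast h76 (sq _)
  have h78 := In_cast (w := (hq u ta s)) h77 rfl
  refine addK_s he h2 h78 (fun _ _ _ _ _ h79 H47 => ?_) H46
  refine sqrtK_s he h79 (fun _ _ _ _ _ h80 H48 => ?_) H47
  have h81 := In_cast (w := (om u ta s)) h80 rfl
  refine smulK_s he (w := (2:ℝ)) (by norm_num) (by norm_num) (by norm_num) (by norm_num) h81 (fun _ _ _ _ _ h82 H49 => ?_) H48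
  refine addK_s he h71 h82 (fun _ _ _ _ _ h83 H50 => ?_) H49
  refine sqrtK_s he h83 (fun _ _ _ _ _ h84 H51 => ?_) H50
  have h85 := In_cast (w := (sg u ta s)) h84 rfl
  refine addcK_s he h85 (v' := (1:ℝ)) (by norm_num [SS, BB, abs_le]) (fun _ _ _ _ _ h86 H52 => ?_) H51
  refine addK_s he h86 hx2 (fun _ _ _ _ _ h87 H53 => ?_) H52
  have h88 := In_cast (w := (ss u ta s)) h87 rfl
  refine invK_s he h88 (fun _ _ _ _ _ h89 H54 => ?_) H53
  refine sqK_s he h17 (fun _ _ _ _ _ h90 H55 => ?_) H54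
  have h91 := In_cast h90 (sq _)
  have h92 := In_cast (w := (R2 u ta s)) h91 rfl
  refine subK_s he h71 hx2 (fun _ _ _ _ _ h93 H56 => ?_) H55
  refine smulK_s he (w := (2:ℝ)) (by norm_num) (by norm_num) (by norm_num) (by norm_num) h93 (fun _ _ _ _ _ h94 H57 => ?_) H56
  refine mulK_s he h85 h88 (fun _ _ _ _ _ h95 H58 => ?_) H57
  refine subK_s he h94 h95 (fun _ _ _ _ _ h96 H59 => ?_) H58
  refine mulK_s he h92 h96 (fun _ _ _ _ _ h97 H60 => ?_) H59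
  refine smulK_s he (w := (2479/5000:ℝ)) (by norm_num) (by norm_num) (by norm_num) (by norm_num) h97 (fun _ _ _ _ _ h98 H61 => ?_) H60
  refine negK_s he h98 (fun _ _ _ _ _ h99 H62 => ?_) H61
  have h100 := In_cast h99 (neg_mul_c (c := (-2479/5000:ℝ)) (by norm_num))
  refine addcK_s he h100 (v' := (4:ℝ)) (by norm_num [SS, BB, abs_le]) (fun _ _ _ _ _ h101 H63 => ?_) H62
  have h102 := In_cast h101 (add_comm _ _)
  refine mulK_s he h102 h89 (fun _ _ _ _ _ h103 H64 => ?_) H63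
  have h104 := In_cast h103 ((div_eq_mul_inv _ _).symm)
  refine mulK_s he h92 h17 (fun _ _ _ _ _ h105 H65 => ?_) H64
  refine addK_s he h81 hx2 (fun _ _ _ _ _ h106 H66 => ?_) H65
  refine mulK_s he h105 h106 (fun _ _ _ _ _ h107 H67 => ?_) H66
  refine mulK_s he h92 h71 (fun _ _ _ _ _ h108 H68 => ?_) H67
  have h109 := In_cast (w := (P u ta s)) h108 rfl
  refine smulK_s he (w := (1971/10000:ℝ)) (by norm_num) (by norm_num) (by norm_num) (by norm_num) h109 (fun _ _ _ _ _ h110 H69 => ?_) H68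
  refine negK_s he h110 (fun _ _ _ _ _ h111 H70 => ?_) H69
  have h112 := In_cast h111 (neg_mul_c (c := (-1971/10000:ℝ)) (by norm_num))
  refine negK_s he h112 (fun _ _ _ _ _ h113 H71 => ?_) H70
  refine addcK_s he h113 (v' := (-1391/2500:ℝ)) (by norm_num [SS, BB, abs_le]) (fun _ _ _ _ _ h114 H72 => ?_) H71
  have h115 := In_cast h114 (neg_add_eq_sub _ _)
  refine sqK_s he h92 (fun _ _ _ _ _ h116 H73 => ?_) H72
  have h117 := In_cast h116 (sq _)
  have h118 := In_cast (w := (R4 u ta s)) h117 rfl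
  refine sqK_s he h81 (fun _ _ _ _ _ h119 H74 => ?_) H73
  have h120 := In_cast h119 (sq _)
  refine addK_s he h120 h2 (fun _ _ _ _ _ h121 H75 => ?_) H74
  refine smulK_s he (w := (2:ℝ)) (by norm_num) (by norm_num) (by norm_num) (by norm_num) h121 (fun _ _ _ _ _ h122 H76 => ?_) H75
  refine mulK_s he h118 h122 (fun _ _ _ _ _ h123 H77 => ?_) H76
  refine sqK_s he h109 (fun _ _ _ _ _ h124 H78 => ?_) H77
  have h125 := In_cast h124 (sq _)
  refine smulK_s he (w := (4:ℝ)) (by norm_num) (by norm_num) (by norm_num) (by norm_num) h125 (fun _ _ _ _ _ h126 H79 => ?_) H78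
  refine subK_s he h123 h126 (fun _ _ _ _ _ h127 H80 => ?_) H79
  refine smulK_s he (w := (24/625:ℝ)) (by norm_num) (by norm_num) (by norm_num) (by norm_num) h127 (fun _ _ _ _ _ h128 H81 => ?_) H80
  refine addK_s he h115 h128 (fun _ _ _ _ _ h129 H82 => ?_) H81
  have h130 := In_cast (w := (Gp u ta s)) h129 rfl
  refine negK_s he h109 (fun _ _ _ _ _ h131 H83 => ?_) H82
  refine addcK_s he h131 (v' := (2:ℝ)) (by norm_num [SS, BB, abs_le]) (fun _ _ _ _ _ h132 H84 => ?_) H83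
  have h133 := In_cast h132 (neg_add_eq_sub _ _)
  have h134 := In_cast (w := (Pp u ta s)) h133 rfl
  refine mulK_s he h21 h45 (fun _ _ _ _ _ h135 H85 => ?_) H84
  have h136 := In_cast (w := (b0 u ta s)) h135 rfl
  refine sqK_s he h136 (fun _ _ _ _ _ h137 H86 => ?_) H85
  have h138 := In_cast h137 (sq _)
  refine mulK_s he h118 h78 (fun _ _ _ _ _ h139 H87 => ?_) H86
  refine addK_s he h138 h139 (fun _ _ _ _ _ h140 H88 => ?_) H87
  refine sqrtK_s he h140 (fun _ _ _ _ _ h141 H89 => ?_) H88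
  have h142 := In_cast (w := (b u ta s)) h141 rfl
  refine smulK_s he (w := (2:ℝ)) (by norm_num) (by norm_num) (by norm_num) (by norm_num) h142 (fun _ _ _ _ _ h143 H90 => ?_) H89
  refine addK_s he h134 h143 (fun _ _ _ _ _ h144 H91 => ?_) H90
  refine sqrtK_s he h144 (fun _ _ _ _ _ h145 H92 => ?_) H91
  have h146 := In_cast (w := (v u ta s)) h145 rfl
  refine addK_s he h21 h45 (fun _ _ _ _ _ h147 H93 => ?_) H92
  have h148 := In_cast (w := (v0 u ta s)) h147 rfl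
  refine addK_s he h146 h148 (fun _ _ _ _ _ h149 H94 => ?_) H93
  refine invK_s he h149 (fun _ _ _ _ _ h150 H95 => ?_) H94
  refine mulK_s he h146 h148 (fun _ _ _ _ _ h151 H96 => ?_) H95
  refine addK_s he h151 h134 (fun _ _ _ _ _ h152 H97 => ?_) H96
  refine invK_s he h152 (fun _ _ _ _ _ h153 H98 => ?_) H97
  refine addK_s he h134 h136 (fun _ _ _ _ _ h154 H99 => ?_) H98
  refine mulK_s he h154 h153 (fun _ _ _ _ _ h155 H100 => ?_) H99
  have h156 := In_cast h155 ((div_eq_mul_inv _ _).symm)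
  refine addcK_s he h156 (v' := (1:ℝ)) (by norm_num [SS, BB, abs_le]) (fun _ _ _ _ _ h157 H101 => ?_) H100
  have h158 := In_cast h157 (add_comm _ _)
  refine mulK_s he h158 h150 (fun _ _ _ _ _ h159 H102 => ?_) H101
  have h160 := In_cast h159 ((div_eq_mul_inv _ _).symm)
  have h161 := In_cast (w := (GW u ta s)) h160 rfl
  refine addK_s he h130 h161 (fun _ _ _ _ _ h162 H103 => ?_) H102
  refine mulK_s he h107 h162 (fun _ _ _ _ _ h163 H104 => ?_) H103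
  refine addK_s he h104 h163 (fun _ _ _ _ _ h164 H105 => ?_) H104
  have h165 := In_cast (w := (Ga u ta s)) h164 rfl
  refine mulK_s he h68 h165 (fun _ _ _ _ _ h166 H106 => ?_) H105
  refine smulK_s he (w := (4:ℝ)) (by norm_num) (by norm_num) (by norm_num) (by norm_num) h106 (fun _ _ _ _ _ h167 H107 => ?_) H106
  refine smulK_s he (w := (3/4:ℝ)) (by norm_num) (by norm_num) (by norm_num) (by norm_num) h60 (fun _ _ _ _ _ h168 H108 => ?_) H107
  refine smulK_s he (w := (9/16:ℝ)) (by norm_num) (by norm_num) (by norm_num) (by norm_num) h64 (fun _ _ _ _ _ h169 H109 => ?_) H108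
  refine subK_s he h168 h169 (fun _ _ _ _ _ h170 H110 => ?_) H109
  refine mulK_s he h167 h170 (fun _ _ _ _ _ h171 H111 => ?_) H110
  refine subK_s he h166 h171 (fun _ _ _ _ _ h172 H112 => ?_) H111
  exact ⟨p0, pos_s he h172 H112⟩

noncomputable def alt3 (z1 w1 z2 w2 z3 w3 : ℕ) : Bool :=
  sqK z1 (Nat.add w1 1152921504606846976) 1152921504606846976 1152921504606846976 0 fun c1 a1_1 a1_2 a1_3 q1 =>
  addcK c1 a1_1 a1_2 a1_3 q1 1152922604118474752 0 fun c3 a3_1 a3_2 a3_3 q3 =>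
  invK c3 a3_1 a3_2 a3_3 q3 fun c5 a5_1 a5_2 a5_3 q5 =>
  smulK 2 1 1152921504606846977 2305843009213693952 c5 a5_1 a5_2 a5_3 q5 fun c8 a8_1 a8_2 a8_3 q8 =>
  addcK c8 a8_1 a8_2 a8_3 q8 1152920405095219200 0 fun c9 a9_1 a9_2 a9_3 q9 =>
  mulK c9 a9_1 a9_2 a9_3 q9 z2 1152921504606846976 (Nat.add w2 1152921504606846976) 1152921504606846976 0 fun c12 a12_1 a12_2 a12_3 q12 =>
  smulK 100 1 1152921504606846977 115292150460684697600 c12 a12_1 a12_2 a12_3 q12 fun c14 a14_1 a14_2 a14_3 q14 =>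
  addcK c14 a14_1 a14_2 a14_3 q14 1152844538792902656 0 fun c15 a15_1 a15_2 a15_3 q15 =>
  pos c15 a15_1 a15_2 a15_3 q15

theorem alt3_s {z1 w1 z2 w2 z3 w3 : ℕ} {e1 e2 e3 u ta s : ℝ} (he : Ev e1 e2 e3)
    (hx1 : In e1 e2 e3 z1 (Nat.add w1 1152921504606846976) 1152921504606846976 1152921504606846976 0 u)
    (hx2 : In e1 e2 e3 z2 1152921504606846976 (Nat.add w2 1152921504606846976) 1152921504606846976 0 ta)
    (hx3 : In e1 e2 e3 z3 1152921504606846976 1152921504606846976 (Nat.add w3 1152921504606846976) 0 s)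
    (H0 : alt3 z1 w1 z2 w2 z3 w3 = true) : 0 < (((100:ℝ) * (r1 u ta s)) - (70:ℝ)) := by
  unfold alt3 at H0
  refine sqK_s he hx1 (fun _ _ _ _ _ h1 H1 => ?_) H0
  have h2 := In_cast h1 (sq _)
  refine addcK_s he h2 (v' := (1:ℝ)) (by norm_num [SS, BB, abs_le]) (fun _ _ _ _ _ h3 H2 => ?_) H1
  have h4 := In_cast h3 (add_comm _ _)
  refine invK_s he h4 (fun _ _ _ _ _ h5 H3 => ?_) H2
  have h6 := In_cast h5 (inv_eq_one_div _)
  have h7 := In_cast (w := (iu u ta s)) h6 rfl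
  refine smulK_s he (w := (2:ℝ)) (by norm_num) (by norm_num) (by norm_num) (by norm_num) h7 (fun _ _ _ _ _ h8 H4 => ?_) H3
  refine addcK_s he h8 (v' := (-1:ℝ)) (by norm_num [SS, BB, abs_le]) (fun _ _ _ _ _ h9 H5 => ?_) H4
  have h10 := In_cast h9 (sub_c (c := (1:ℝ)) (by norm_num))
  have h11 := In_cast (w := (R u ta s)) h10 rfl
  refine mulK_s he h11 hx2 (fun _ _ _ _ _ h12 H6 => ?_) H5
  have h13 := In_cast (w := (r1 u ta s)) h12 rfl
  refine smulK_s he (w := (100:ℝ)) (by norm_num) (by norm_num) (by norm_num) (by norm_num) h13 (fun _ _ _ _ _ h14 H7 => ?_) H6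
  refine addcK_s he h14 (v' := (-70:ℝ)) (by norm_num [SS, BB, abs_le]) (fun _ _ _ _ _ h15 H8 => ?_) H7
  have h16 := In_cast h15 (sub_c (c := (70:ℝ)) (by norm_num))
  exact pos_s he h16 H8

attribute [irreducible] alt0 alt1 alt2 alt3

noncomputable def leaf (j u z1 w1 z2 w2 z3 w3 : ℕ) : Bool :=
  sB j (alt0 z1 w1 z2 w2 z3 w3) fun j => sB j (alt1 z1 w1 z2 w2 z3 w3) fun j => sB j (alt2 z1 w1 z2 w2 z3 w3) fun j => alt3 z1 w1 z2 w2 z3 w3

theorem snd : Snd Q leaf := by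
  intro j u z1 w1 z2 w2 z3 w3 e1 e2 e3 he H
  unfold leaf at H
  unfold Q
  replace H := sel H
  rcases H with H | ⟨j, H⟩
  · exact Or.inl (alt0_s he (var1 z1 w1) (var2 z2 w2) (var3 z3 w3) H)
  replace H := sel H
  rcases H with H | ⟨j, H⟩
  · exact Or.inr (Or.inl (alt1_s he (var1 z1 w1) (var2 z2 w2) (var3 z3 w3) H))
  replace H := sel H
  rcases H with H | ⟨j, H⟩
  · exact Or.inr (Or.inr (Or.inl (alt2_s he (var1 z1 w1) (var2 z2 w2) (var3 z3 w3) H)))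
  exact Or.inr (Or.inr (Or.inr (alt3_s he (var1 z1 w1) (var2 z2 w2) (var3 z3 w3) H)))

end Crest.Agent.R307.UAQ
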