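import Crest.Agent.R307.UAQ
set_option autoImplicit false
set_option maxRecDepth 100000
namespace Crest.Agent.R307.UAQ
open Crest.Agent.R307.IA Crest.Agent.R307.IA3

theorem k0 : Cov Q 1152921504606846976 1152922604118474752 1152921504606846976 1152922604118474752 1152921504606846976 1152922219289405031 :=
  cov_of snd 0 0 12 _ _ _ _ _ _ 0x330330133031330330103303303101033031333103330010133033003303300133033013303301013303300330303300103303133033010331330310133033013303300033033013303301010103330033300133300511331331033033011330330133300330351010331551055011055055015110133033003303300133033003303301330330330010113306033033001330330033033300351013303515500101106633016013330133033010330505511550550101330350133051055051551010103313330103505132133055113505501055050550110551551055011550550135025505115505501551105505055011055050550255011550505501550511550550155110550550255011010 (by decide +kernel)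

end Crest.Agent.R307.UAQ
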