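import Crest.Agent.R307.UB7O
set_option autoImplicit false
set_option maxRecDepth 100000
namespace Crest.Agent.R307.UB7O
open Crest.Agent.R307.IA Crest.Agent.R307.IA3

theorem k4 : Cov Q 1152922054362661017 1152922604118474752 1152921504606846976 1152922010382195753 1152921504606846976 1152922054362661017 :=
  cov_of snd 0 0 9 _ _ _ _ _ _ 0x33300623330216330331012332313313320330106333300012633033026316312012033031330312330332033300133033033020333001201 (by decide +kernel)

theorem k5 : Cov Q 1152921504606846976 1152921779484754113 1152921504606846976 1152921757494522787 1152922054362661017 1152922329240568073 :=
  cov_of snd 0 0 11 _ _ _ _ _ _ 0x330330233033013303301203323303133031201331330312333003330013331033300120330313303302330330210123303310330332013313320331333020123303302330330033033002133033023303300330331021203303330203332013303303302033303101233133123313312033133301233033013303301201331331233133120333013330123303301330330120120133133203313303302013313320331330330201233033023313310332332011330330233133003323320112033133033020330330330101331330330203303303301012331331233233210330330133301233033023303302101332332133233210332330330213303302330330210120120 (by decide +kernel)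

theorem k6 : Cov Q 1152921504606846976 1152921779484754113 1152921757494522787 1152922010382195753 1152922054362661017 1152922329240568073 :=
  cov_of snd 0 0 9 _ _ _ _ _ _ 0x331533010330330133033010233133031233033013303301201533033001330330133301023323303310133233033021033233033021332330330210210330330133033010330330133233302102330330133033012333023330013303302330331012013303321330330103323330213303311023330233033021332330330210330330233033021333023303302102102 (by decide +kernel)

theorem k7 : Cov Q 1152921504606846976 1152921779484754113 1152921504606846976 1152921757494522787 1152922329240568073 1152922604118474752 :=
  cov_of snd 0 0 11 _ _ _ _ _ _ 0x332313330033300233033021033302333103331020330330331201233031330330233032103303133233210233133103302330330233120333103302330330133120133033023303302033033023313302012033133133010331331330102333003302330330213303301330330123313310330330121033033023330133301203303302330330133033012012013313313311033033103303320123303302330330233033020133033023303302330330201203313313311033320333101233033023313312033133123303301330330120133133123313312033133123303301330330120120120 (by decide +kernel)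

end Crest.Agent.R307.UB7O
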