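import Crest.Agent.R307.UB7O
set_option autoImplicit false
set_option maxRecDepth 100000
namespace Crest.Agent.R307.UB7O
open Crest.Agent.R307.IA Crest.Agent.R307.IA3

theorem k8 : Cov Q 1152921504606846976 1152921779484754113 1152921757494522787 1152922010382195753 1152922329240568073 1152922604118474752 :=
  cov_of snd 0 0 13 _ _ _ _ _ _ 0x533033021330330215332330320133133231015333001330331012053323303302013303302330331033033102012533133132033023303133031033023302013330033013312332330320333101330330120153303133103302330303302033033002133033003302330330213303302330330210330330133033010210533233201330330233133120153303302133233203303233032011025330323302330323302013303310330331013303302332332010330330233033101330323303302102120 (by decide +kernel)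

theorem k9 : Cov Q 1152921779484754113 1152922054362661017 1152921504606846976 1152922010382195753 1152922054362661017 1152922604118474752 :=
  cov_of snd 0 0 10 _ _ _ _ _ _ 0x3331033300330123303153301330105333001330332012033302333103330033012013303320330133302330330203313330201033233302033310133033031033133033010233302330331201023313303123331033013303330203330012012 (by decide +kernel)

theorem k10 : Cov Q 1152922054362661017 1152922604118474752 1152921504606846976 1152922010382195753 1152922054362661017 1152922604118474752 :=
  cov_of snd 0 0 9 _ _ _ _ _ _ 0x333023133233033120333101033033310233013303303103303133302330102331333020102 (by decide +kernel)

end Crest.Agent.R307.UB7O
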