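import Crest.Agent.R307.UB7OC0
import Crest.Agent.R307.UB7OC1
import Crest.Agent.R307.UB7OC2
set_option autoImplicit false
set_option maxRecDepth 100000
namespace Crest.Agent.R307.UB7O
open Crest.Agent.R307.IA Crest.Agent.R307.IA3

theorem cov : Cov Q 1152921504606846976 1152922604118474752 1152921504606846976 1152922010382195753 1152921504606846976 1152922604118474752 :=
  (join3 1152922054362661017 (join1 1152922054362661017 (join1 1152921779484754113 (join3 1152921779484754113 k0 (join2 1152921757494522787 k1 k2)) k3) k4) (join1 1152922054362661017 (join1 1152921779484754113 (join3 1152922329240568073 (join2 1152921757494522787 k5 k6) (join2 1152921757494522787 k7 k8)) k9) k10))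

theorem main (u om z : ℝ) (l0 : (0:ℝ) ≤ u) (u0 : u ≤ (1:ℝ)) (l1 : (0:ℝ) ≤ om) (u1 : om ≤ (23/50:ℝ)) (l2 : (0:ℝ) ≤ z) (u2 : z ≤ (1:ℝ)) : Q u om z :=
  cov u om z (le_trans (by norm_num [val, SS, BB]) l0) (le_trans u0 (by norm_num [val, SS, BB])) (le_trans (by norm_num [val, SS, BB]) l1) (le_trans u1 (by norm_num [val, SS, BB])) (le_trans (by norm_num [val, SS, BB]) l2) (le_trans u2 (by norm_num [val, SS, BB]))

end Crest.Agent.R307.UB7O
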