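import Crest.Agent.R307.UB7Q
set_option autoImplicit false
set_option maxRecDepth 100000
namespace Crest.Agent.R307.UB7Q
open Crest.Agent.R307.IA Crest.Agent.R307.IA3

theorem k4 : Cov Q 1152921504606846976 1152922054362661017 1152922191801614507 1152922604118474752 1152921504606846976 1152922340235684086 :=
  cov_of snd 0 0 10 _ _ _ _ _ _ 0x444014440044044144201440440423304201011440444001444013304330010330330033033023303201331332033032330320101105433003303310153303233032010332330320330330033021330330033023303300330210153303250501330330033023303300330213303301330233033013302101010 (by decide +kernel)

theorem k5 : Cov Q 1152922054362661017 1152922604118474752 1152921779484753920 1152922604118474752 1152921504606846976 1152922340235684086 :=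
  cov_of snd 0 0 12 _ _ _ _ _ _ 0x444410144400444400144044401444400101010444014440044043311010444014404440210440443120332330330201144044204404402144402444020443104403303012104313303301233031330330120330330233033031201100330330133233210330331033033012133033023303302133300333001330330033300120330330133300330321033033013331033033021021011 (by decide +kernel)

end Crest.Agent.R307.UB7Q
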