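import Crest.Agent.R307.UB7QC0
import Crest.Agent.R307.UB7QC1
set_option autoImplicit false
set_option maxRecDepth 100000
namespace Crest.Agent.R307.UB7Q
open Crest.Agent.R307.IA Crest.Agent.R307.IA3

theorem cov : Cov Q 1152921504606846976 1152922604118474752 1152921779484753920 1152922604118474752 1152921504606846976 1152922340235684086 :=
  (join1 1152922054362661017 (join2 1152922191801614507 (join1 1152921779484754113 (join2 1152921985643184357 k0 k1) (join2 1152921985643184357 k2 k3)) k4) k5)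

theorem main (u ta s : ℝ) (l0 : (0:ℝ) ≤ u) (u0 : u ≤ (1:ℝ)) (l1 : (1/4:ℝ) ≤ ta) (u1 : ta ≤ (1:ℝ)) (l2 : (0:ℝ) ≤ s) (u2 : s ≤ (19/25:ℝ)) : Q u ta s :=
  cov u ta s (le_trans (by norm_num [val, SS, BB]) l0) (le_trans u0 (by norm_num [val, SS, BB])) (le_trans (by norm_num [val, SS, BB]) l1) (le_trans u1 (by norm_num [val, SS, BB])) (le_trans (by norm_num [val, SS, BB]) l2) (le_trans u2 (by norm_num [val, SS, BB]))

end Crest.Agent.R307.UB7Q
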