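import Crest.Agent.R307.UA
import Crest.Agent.R307.UB7PM
import Crest.Agent.R307.UB7QM
import Crest.Agent.R307.UB7OM

/-!
# R307/UB7: family (B) for `s ≤ 19/25`
-/

set_option autoImplicit false
set_option maxHeartbeats 1000000
set_option linter.unusedVariables false

namespace Crest.Agent.R307

open Set

/-- The inequality of family (B), multiplied by `1 + t²`. -/
def FB7 (ρ s t p0 p1 : ℝ) : Prop :=
  2 * t * s * ((499 / 500 - 3 / 500 * s) * (p1 - p0) + 3 / 10 * Uex p0 - 7 / 25 * Uex p1) ≤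
    (1 + t ^ 2) * (Tx ρ p0 p1 - Uex p0 - Uex p1 - 3 / 25 * s ^ 2 * (Uex p0 - Uex p1)) +
      2 * t ^ 2 * (Uex p1 + s / 4 * (Uex p0 - Uex p1))

theorem quadB7 {a g X s t : ℝ} (s0 : 0 ≤ s) (ht : 3 / 10 * s ≤ t)
    (h : (0 < a ∧ 0 < a * g - X * X) ∨ (0 < a ∧ 0 < 3 / 5 * a - 2 * X ∧ 0 < 4 * g + 9 / 25 * a - 12 / 5 * X)) :
    0 ≤ s ^ 2 * g + t ^ 2 * a - 2 * t * s * X := by
  rcases h with ⟨a0, b⟩ | ⟨a0, b, c⟩
  · have : 0 ≤ a * (s ^ 2 * g + t ^ 2 * a - 2 * t * s * X) := by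
      nlinarith [sq_nonneg (a * t - s * X), mul_nonneg (sq_nonneg s) b.le]
    exact nonneg_of_mul_nonneg_right this a0 |> fun h => h
  · have e : 0 ≤ t - 3 / 10 * s := by linarith
    nlinarith [mul_nonneg (sq_nonneg s) c.le, mul_nonneg (mul_nonneg s0 e) b.le, mul_nonneg (sq_nonneg (t - 3 / 10 * s)) a0.le]

theorem ub7_P (hM : MConc) {ρ s t T c : ℝ} (hρ0 : 0 ≤ ρ) (hρ1 : ρ ≤ 1) (hs : s ^ 2 = 1 - ρ ^ 2) (s0 : 0 ≤ s)
    (s1 : s ≤ 19 / 25) (ht : 3 / 10 * s ≤ t) (T0 : 0 < T) (T1 : T ≤ 18 / 25) (c0 : 0 ≤ c) (c1 : c ≤ 1) :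
    FB7 ρ s t ((c * T) ^ 2) (T ^ 2) := by
  have Q := UB7P.main T c s T0.le T1 c0 c1 s0 s1
  have cT : c * T ≤ T := mul_le_of_le_one_left T0.le c1
  have cT0 : 0 ≤ c * T := mul_nonneg c0 T0.le
  have a0 : 0 < 1 - UB7P.c2 T c s * UB7P.T2 T c s := by simp only [UB7P.c2, UB7P.T2]; nlinarith
  have a1 : 0 < 1 - UB7P.T2 T c s := by simp only [UB7P.T2]; nlinarith
  have r00 : 0 < UB7P.r0 T c s := Real.sqrt_pos.2 a0
  have r10 : 0 < UB7P.r1 T c s := Real.sqrt_pos.2 a1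
  have e0 : UB7P.r0 T c s ^ 2 + (c * T) ^ 2 = 1 := by
    rw [UB7P.r0, Real.sq_sqrt a0.le]; simp only [UB7P.c2, UB7P.T2]; ring
  have e1 : UB7P.r1 T c s ^ 2 + T ^ 2 = 1 := by
    rw [UB7P.r1, Real.sq_sqrt a1.le]; simp only [UB7P.T2]; ring
  have ew : UB7P.w T c s = s ^ 2 * (1 - c ^ 2) ^ 2 / 4 * T ^ 4 := by
    simp only [UB7P.w, UB7P.hq, UB7P.hh, UB7P.d, UB7P.c2, UB7P.T2]; ring
  have w0 : 0 ≤ UB7P.w T c s := by rw [ew]; positivity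
  have pi0 : 0 ≤ UB7P.pi T c s := Real.sqrt_nonneg _
  have b0 : 0 ≤ UB7P.b T c s := Real.sqrt_nonneg _
  have key := ug_P hM (w := UB7P.w T c s) (pi := UB7P.pi T c s) (sg := UB7P.sg T c s) (b := UB7P.b T c s)
    (v := UB7P.v T c s) (G := UB7P.G T c s) hρ0 hρ1 hs T0 c0 c1 r00 r10 e0 e1 ew pi0
    (by rw [UB7P.pi, Real.sq_sqrt (add_nonneg (mul_self_nonneg _) w0), UB7P.pi0]; ring) (Real.sqrt_nonneg _)
    (by
      have : 0 ≤ UB7P.P T c s := by simp only [UB7P.P, UB7P.c2, UB7P.T2]; nlinarith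
      rw [UB7P.sg, Real.sq_sqrt (by linarith)]; simp only [UB7P.P, UB7P.c2, UB7P.T2]; ring) b0
    (by
      rw [UB7P.b, Real.sq_sqrt (show 0 ≤ UB7P.c2 T c s + UB7P.hq T c s from
        add_nonneg (mul_self_nonneg _) (mul_self_nonneg _))]
      simp only [UB7P.hq, UB7P.hh, UB7P.d, UB7P.c2]; ring) (Real.sqrt_nonneg _)
    (by
      rw [UB7P.v, Real.sq_sqrt (by have := mul_self_nonneg c; simp only [UB7P.c2]; linarith)]
      simp only [UB7P.c2]; ring)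
    (by simp only [UB7P.G, UB7P.Gp, UB7P.GW, UB7P.ss, UB7P.P, UB7P.pi0, UB7P.c2, UB7P.T2]; ring)
  have u0 : Uex ((c * T) ^ 2) = T ^ 2 * UB7P.V0 T c s := by
    rw [uex_t r00.le cT0 e0]; simp only [UB7P.V0, UB7P.U0, UB7P.i0, UB7P.c2]; ring
  have u1 : Uex (T ^ 2) = T ^ 2 * UB7P.U1 T c s := by
    rw [uex_t r10.le T0.le e1]; simp only [UB7P.U1, UB7P.i1]
  have k := quadB7 s0 ht Q
  have ed : UB7P.d T c s = 1 - c ^ 2 := by simp only [UB7P.d, UB7P.c2]; ring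
  simp only [UB7P.a, UB7P.gg, UB7P.X, UB7P.D, ed] at k
  unfold FB7
  rw [u0, u1] at key ⊢
  have := mul_nonneg (sq_nonneg T) k
  have k2 := mul_le_mul_of_nonneg_left key (show 0 ≤ 1 + t ^ 2 by positivity)
  linear_combination k2 + this

theorem ub7_Q (hM : MConc) {ρ s t u R t0 ta t1 : ℝ} (hρ0 : 0 ≤ ρ) (hρ1 : ρ ≤ 1) (hs : s ^ 2 = 1 - ρ ^ 2) (s0 : 0 ≤ s)
    (s1 : s ≤ 19 / 25) (ht : 3 / 10 * s ≤ t) (u0 : 0 ≤ u) (u1 : u ≤ 1) (eR : 2 * (1 / (1 + u * u)) - 1 = R)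
    (et : 2 * u * (1 / (1 + u * u)) = t0) (R0 : 0 < R) (t00 : 0 ≤ t0) (e0 : R ^ 2 + t0 ^ 2 = 1) (ta4 : 1 / 4 ≤ ta)
    (ta1 : ta ≤ 1) (r7 : R * ta ≤ 7 / 10) (t10 : 0 < t1) (e1 : (R * ta) ^ 2 + t1 ^ 2 = 1) :
    FB7 ρ s t (t0 ^ 2) (t1 ^ 2) := by
  have Q := UB7Q.main u ta s u0 u1 ta4 ta1 s0 s1
  have ta0 : 0 < ta := by linarith
  have hR : UB7Q.R u ta s = R := eR
  have ht0 : UB7Q.t0 u ta s = t0 := et
  have ht1 : UB7Q.t1 u ta s = t1 := by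
    rw [UB7Q.t1, UB7Q.r1, hR, show 1 - R * ta * (R * ta) = t1 ^ 2 by linarith, Real.sqrt_sq t10.le]
  have om0 : 0 ≤ UB7Q.om u ta s := Real.sqrt_nonneg _
  have b0 : 0 ≤ UB7Q.b u ta s := Real.sqrt_nonneg _
  have eq : UB7Q.hq u ta s = s ^ 2 * (1 - ta ^ 2) ^ 2 / 4 := by simp only [UB7Q.hq, UB7Q.hh, UB7Q.d]; ring
  have eom : UB7Q.om u ta s ^ 2 = ta ^ 2 + s ^ 2 * (1 - ta ^ 2) ^ 2 / 4 := by
    rw [UB7Q.om, eq, Real.sq_sqrt (by positivity)]; ring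
  have eP : UB7Q.Pp u ta s = t0 ^ 2 + t1 ^ 2 := by simp only [UB7Q.Pp, UB7Q.P, UB7Q.R2, UB7Q.Ph, hR]; linarith
  have key := ug_Q hM (om := UB7Q.om u ta s) (sg := UB7Q.sg u ta s) (b := UB7Q.b u ta s)
    (v := UB7Q.v u ta s) (Ga := UB7Q.Ga u ta s) hρ0 hρ1 hs R0 ta0.le ta1 t00 t10 e0 e1 om0 eom (Real.sqrt_nonneg _)
    (by rw [UB7Q.sg, UB7Q.Ph, Real.sq_sqrt (by positivity)]; ring) b0
    (by
      rw [UB7Q.b, eom, eq, UB7Q.b0, UB7Q.R4, UB7Q.R2, hR, ht0, ht1, Real.sq_sqrt (by positivity)]; ring)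
    (Real.sqrt_nonneg _) (by rw [UB7Q.v, eP, Real.sq_sqrt (by positivity)]; linarith)
    (by simp only [UB7Q.Ga, UB7Q.Gp, UB7Q.GW, UB7Q.ss, UB7Q.Pp, UB7Q.P, UB7Q.R4, UB7Q.R2, UB7Q.Ph, UB7Q.b0, UB7Q.v0, hR, ht0,
      ht1]; ring)
  have r10 : 0 ≤ R * ta := mul_nonneg R0.le ta0.le
  have w0 : Uex (t0 ^ 2) = R * UB7Q.U0 u ta s := by
    rw [uex_r R0.le t00 e0]; simp only [UB7Q.U0, hR, ht0]; ring
  have w1 : Uex (t1 ^ 2) = R * UB7Q.V1 u ta s := by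
    rw [uex_r r10 t10.le e1]; simp only [UB7Q.V1, UB7Q.U1, UB7Q.r1, hR, ht1]; ring
  have ed : UB7Q.d u ta s = 1 - ta ^ 2 := by simp only [UB7Q.d]; ring
  have z : 0 < UB7Q.om u ta s + ta := by positivity
  have k := quadB7 (a := UB7Q.a u ta s) (g := UB7Q.gg u ta s) (X := UB7Q.X u ta s) s0 ht (by
    rcases Q with h | h | h
    · exact Or.inl h
    · exact Or.inr h
    · rw [UB7Q.r1, hR] at h; linarith)
  simp only [UB7Q.a, UB7Q.gg, UB7Q.X, UB7Q.D, ed, hR] at k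
  unfold FB7
  rw [w0, w1] at key ⊢
  generalize UB7Q.Ga u ta s = G at *
  generalize UB7Q.om u ta s = om at *
  have eg : (om + ta) * ((1 - ta ^ 2) * (1 - ta ^ 2) * G / (4 * (om + ta))) = (1 - ta ^ 2) ^ 2 * G / 4 := by field_simp
  have eh : (om - ta) * G = s ^ 2 * ((1 - ta ^ 2) * (1 - ta ^ 2) * G / (4 * (om + ta))) := by
    apply mul_left_cancel₀ z.ne'
    linear_combination G * eom - s ^ 2 * eg
  generalize (1 - ta ^ 2) * (1 - ta ^ 2) * G / (4 * (om + ta)) = g at *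
  have := mul_nonneg R0.le k
  have k2 := mul_le_mul_of_nonneg_left key (show 0 ≤ 1 + t ^ 2 by positivity)
  have e2 : t1 ^ 2 - t0 ^ 2 = R ^ 2 * (1 - ta ^ 2) := by linarith
  rw [e2]
  linear_combination k2 + this - (1 + t ^ 2) * R * eh

theorem ub7_O (hM : MConc) {ρ s t u R t0 ta t1 : ℝ} (hρ0 : 0 ≤ ρ) (hρ1 : ρ ≤ 1) (hs : s ^ 2 = 1 - ρ ^ 2) (s0 : 0 < s)
    (s1 : s ≤ 19 / 25) (ht : 3 / 10 * s ≤ t) (u0 : 0 ≤ u) (u1 : u ≤ 1) (eR : 2 * (1 / (1 + u * u)) - 1 = R)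
    (et : 2 * u * (1 / (1 + u * u)) = t0) (R0 : 0 < R) (t00 : 0 ≤ t0) (e0 : R ^ 2 + t0 ^ 2 = 1) (ta0 : 0 ≤ ta)
    (ta4 : ta ≤ 1 / 4) (t10 : 0 < t1) (e1 : (R * ta) ^ 2 + t1 ^ 2 = 1) :
    FB7 ρ s t (t0 ^ 2) (t1 ^ 2) := by
  have d0 : 0 < 1 - ta ^ 2 := by nlinarith
  have d1 : 1 - ta ^ 2 ≤ 1 := by nlinarith
  obtain ⟨om, om0, eom⟩ : ∃ om : ℝ, 0 < om ∧ om ^ 2 = ta ^ 2 + s ^ 2 * (1 - ta ^ 2) ^ 2 / 4 :=
    ⟨√(ta ^ 2 + s ^ 2 * (1 - ta ^ 2) ^ 2 / 4), Real.sqrt_pos.2 (by positivity), Real.sq_sqrt (by positivity)⟩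
  have om1 : om ≤ 23 / 50 := by
    have a : s * (1 - ta ^ 2) ≤ 19 / 25 := by nlinarith
    have b : 0 ≤ s * (1 - ta ^ 2) := by positivity
    have c : (s * (1 - ta ^ 2)) ^ 2 ≤ (19 / 25) ^ 2 := pow_le_pow_left₀ b a 2
    have e : ta ^ 2 ≤ (1 / 4) ^ 2 := pow_le_pow_left₀ ta0 ta4 2
    refine (pow_le_pow_iff_left₀ om0.le (by norm_num) two_ne_zero).1 ?_
    rw [eom]; linarith
  obtain ⟨z, z0, z1, ec, ez⟩ := circ_par (r := ta / om) (t := s * (1 - ta ^ 2) / 2 / om) (by positivity) (by positivity)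
    (by field_simp; linarith)
  have Q := UB7O.main u om z u0 u1 om0.le om1 z0 z1
  have hR : UB7O.R u om z = R := eR
  have ht0 : UB7O.t0 u om z = t0 := et
  have hcv : UB7O.cv u om z = ta / om := ec
  have hsz : UB7O.sz u om z = s * (1 - ta ^ 2) / 2 / om := ez
  have hta : UB7O.ta u om z = ta := by rw [UB7O.ta, hcv]; field_simp
  have ed : UB7O.d u om z = 1 - ta ^ 2 := by simp only [UB7O.d, hta]; ring
  have hsh : UB7O.sh u om z = s / om := by rw [UB7O.sh, hsz, ed]; field_simp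
  have hs' : UB7O.s u om z = s := by rw [UB7O.s, hsh]; field_simp
  have ht1 : UB7O.t1 u om z = t1 := by
    rw [UB7O.t1, UB7O.r1, hR, hta, show 1 - R * ta * (R * ta) = t1 ^ 2 by linarith, Real.sqrt_sq t10.le]
  have b0 : 0 ≤ UB7O.b u om z := Real.sqrt_nonneg _
  have eq : UB7O.hq u om z = s ^ 2 * (1 - ta ^ 2) ^ 2 / 4 := by
    simp only [UB7O.hq, UB7O.hh, hsz]; field_simp; ring
  have eP : UB7O.Pp u om z = t0 ^ 2 + t1 ^ 2 := by simp only [UB7O.Pp, UB7O.P, UB7O.R2, UB7O.Ph, hR, hta]; linarith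
  have key := ug_Q hM (om := om) (sg := UB7O.sg u om z) (b := UB7O.b u om z)
    (v := UB7O.v u om z) (Ga := UB7O.Ga u om z) hρ0 hρ1 hs R0 ta0 (by linarith) t00 t10 e0 e1 om0.le eom
    (Real.sqrt_nonneg _) (by rw [UB7O.sg, UB7O.Ph, hta, Real.sq_sqrt (by positivity)]; ring) b0
    (by
      rw [UB7O.b, eom, eq, UB7O.b0, UB7O.R4, UB7O.R2, hR, ht0, ht1, Real.sq_sqrt (by positivity)]; ring)
    (Real.sqrt_nonneg _) (by rw [UB7O.v, eP, Real.sq_sqrt (by positivity)]; linarith)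
    (by simp only [UB7O.Ga, UB7O.Gp, UB7O.GW, UB7O.ss, UB7O.Pp, UB7O.P, UB7O.R4, UB7O.R2, UB7O.Ph, UB7O.b0, UB7O.v0, hR, ht0,
      ht1, hta]; ring)
  have r10 : 0 ≤ R * ta := mul_nonneg R0.le ta0
  have w0 : Uex (t0 ^ 2) = R * UB7O.U0 u om z := by
    rw [uex_r R0.le t00 e0]; simp only [UB7O.U0, hR, ht0]; ring
  have w1 : Uex (t1 ^ 2) = R * (ta * UB7O.U1 u om z) := by
    rw [uex_r r10 t10.le e1]; simp only [UB7O.U1, UB7O.r1, hR, ht1, hta]; ring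
  have k := quadB7 (a := om * UB7O.a u om z) (g := UB7O.gg u om z / om) (X := UB7O.X u om z) s0.le ht (by
    have e : om * UB7O.a u om z * (UB7O.gg u om z / om) = UB7O.a u om z * UB7O.gg u om z := by field_simp
    rcases Q with ⟨a, b⟩ | ⟨a, b, c⟩ | h | h
    · exact Or.inl ⟨mul_pos om0 a, by rw [e]; exact b⟩
    · refine Or.inr ⟨mul_pos om0 a, b, pos_of_mul_pos_left (b := om) ?_ om0.le⟩
      have : UB7O.gg u om z / om * om = UB7O.gg u om z := by field_simp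
      linear_combination c - 4 * this
    · rw [hs'] at h; linarith
    · rw [hta] at h; linarith)
  have hiz : 2 * UB7O.iz u om z - 1 = ta / om := ec
  have hz : (1 + z * z) * UB7O.iz u om z = 1 := by rw [UB7O.iz]; field_simp
  have f1 : om * (2 - 2 * UB7O.iz u om z) = om - ta := by
    have : om * (ta / om) = ta := by field_simp
    linear_combination (-om) * hiz - this
  have f2 : s ^ 2 * ((1 - ta ^ 2) * (1 - ta ^ 2) * (1 + z * z) / 8) = om * (om - ta) := by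
    have i0 : 0 < UB7O.iz u om z := by rw [UB7O.iz]; positivity
    apply mul_left_cancel₀ (mul_pos om0 i0).ne'
    linear_combination om * s ^ 2 * (1 - ta ^ 2) ^ 2 / 8 * hz - om / 2 * eom + om * (om - ta) / 2 * f1
  have ea : om * UB7O.a u om z = (om - ta) * UB7O.Ga u om z + s * (1 / 2 - 3 / 25 * s) * UB7O.D u om z +
      2 * ta * UB7O.U1 u om z := by
    rw [UB7O.a, hsh, hs', hcv, ← f1]; field_simp
  have eg : s ^ 2 * (UB7O.gg u om z / om) = (om - ta) * UB7O.Ga u om z - 3 / 25 * s ^ 2 * UB7O.D u om z := by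
    apply mul_left_cancel₀ om0.ne'
    have : om * (UB7O.gg u om z / om) = UB7O.gg u om z := by field_simp
    rw [mul_left_comm, this, UB7O.gg, ed]
    linear_combination UB7O.Ga u om z * f2
  rw [ea, eg] at k
  simp only [UB7O.X, UB7O.D, UB7O.V1, ed, hR, hs', hta] at k
  unfold FB7
  rw [w0, w1] at key ⊢
  have := mul_nonneg R0.le k
  have k2 := mul_le_mul_of_nonneg_left key (show 0 ≤ 1 + t ^ 2 by positivity)
  have e2 : t1 ^ 2 - t0 ^ 2 = R ^ 2 * (1 - ta ^ 2) := by linarith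
  rw [e2]
  linear_combination k2 + this

theorem ub7_all {ρ s t : ℝ} (hρ0 : 0 ≤ ρ) (hρ1 : ρ ≤ 1) (hs : s ^ 2 = 1 - ρ ^ 2) (s0 : 0 ≤ s)
    (s1 : s ≤ 19 / 25) (ht : 3 / 10 * s ≤ t) (p0 p1 : ℝ) (h0 : 0 ≤ p0) (h01 : p0 ≤ p1) (h1 : p1 ≤ 1) :
    FB7 ρ s t p0 p1 := by
  rcases eq_or_lt_of_le s0 with e | e
  · have : ρ = 1 := by
      rw [← e] at hs
      nlinarith
    have n := mul_nonneg (sq_nonneg t) (Uex_nonneg (h0.trans h01) h1)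
    simp only [FB7, Tx, this, ← e]
    norm_num
    linarith
  refine step_charts (F := FB7 ρ s t) ?_ ?_ (fun T c a b c' d => ub7_P mconc hρ0 hρ1 hs s0 s1 ht a b c' d)
    (fun u R t0 ta t1 a b c d e' f g h i j k l => ?_) p0 p1 h0 h01 h1
  · simp [FB7, Tx, Uex_zero]
  · simp [FB7, Tx, Uex_one, show (1 + ρ) / 2 + (1 - ρ) / 2 = 1 by ring]
  · rcases le_total ta (1 / 4) with h4 | h4
    · exact ub7_O mconc hρ0 hρ1 hs e s1 ht a b c d e' f g h h4 k l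
    · exact ub7_Q mconc hρ0 hρ1 hs s0 s1 ht a b c d e' f g h4 i j k l

/-- Family (B): `sn = 2t/(1+t²)`, `cm = 2t²/(1+t²)` (`= 1 - cos`). -/
theorem ustepB76 {ρ s t sn cm : ℝ} (hρ0 : 0 ≤ ρ) (hρ1 : ρ ≤ 1) (hs : s ^ 2 = 1 - ρ ^ 2) (s0 : 0 ≤ s)
    (s1 : s ≤ 19 / 25) (ht : 3 / 10 * s ≤ t) (hsn : (1 + t ^ 2) * sn = 2 * t) (hcm : (1 + t ^ 2) * cm = 2 * t ^ 2)
    (k0 : 0 ≤ 1 + 3 / 25 * s ^ 2 + s * (3 / 10 * sn - 1 / 4 * cm))
    (k1 : 0 ≤ 1 - cm - 3 / 25 * s ^ 2 - s * (7 / 25 * sn - 1 / 4 * cm)) :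
    UStep ρ Uex (1 + 3 / 25 * s ^ 2 + s * (3 / 10 * sn - 1 / 4 * cm))
      (1 - cm - 3 / 25 * s ^ 2 - s * (7 / 25 * sn - 1 / 4 * cm)) (s * (499 / 500 - 3 / 500 * s) * sn) := by
  refine ⟨k0, k1, fun p0 p1 h0 h01 h1 => ?_⟩
  have k := ub7_all hρ0 hρ1 hs s0 s1 ht p0 p1 h0 h01 h1
  unfold FB7 Tx at k
  refine le_of_mul_le_mul_left ?_ (show 0 < 1 + t ^ 2 by positivity)
  linear_combination k + s * ((499 / 500 - 3 / 500 * s) * (p1 - p0) + 3 / 10 * Uex p0 - 7 / 25 * Uex p1) * hsn -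
    (Uex p1 + s / 4 * (Uex p0 - Uex p1)) * hcm

end Crest.Agent.R307
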