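import Crest.Agent.R307.UB7O
set_option autoImplicit false
set_option maxRecDepth 100000
namespace Crest.Agent.R307.UB7O
open Crest.Agent.R307.IA Crest.Agent.R307.IA3

theorem k0 : Cov Q 1152921504606846976 1152921779484754113 1152921504606846976 1152922010382195753 1152921504606846976 1152921779484754113 :=
  cov_of snd 0 0 12 _ _ _ _ _ _ 0x663330033023303301330201663301330320126330330033023303302016330323300120133033023303302133033003302333003302103303233013303233032102330330133023330133020330330133023303301330201330323303213313303210203323301330330233033021033033013303233033021023303301333012330330133033012033033103303310233033003323303321013303323332101201330330233133020330330133301233033023323330103313303302021012011 (by decide +kernel)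

theorem k1 : Cov Q 1152921504606846976 1152921779484754113 1152921504606846976 1152921757494522787 1152921779484754113 1152922054362661017 :=
  cov_of snd 0 0 11 _ _ _ _ _ _ 0x3303302330330213303310333101330331033310120330330233033021331331033033102330331033300210233033023303301233030330302330330301203313303302033133033010233033003313310133033003303300120133033013303301233033013303301203303301330330123303303013303301201203323301333003330023303302103323301333003330023303302102331330330103313303301023323321332332103313310332332012033133033010331330330102332330330213303302330330210332330330203323313312012013313303301033133102330330033133101330330330012033133033010331331023323303203323303302013313320332330330201201201 (by decide +kernel)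

theorem k2 : Cov Q 1152921504606846976 1152921779484754113 1152921757494522787 1152922010382195753 1152921779484754113 1152922054362661017 :=
  cov_of snd 0 0 9 _ _ _ _ _ _ 0x3623303302133062330330210663301633010123330033013303302331331010330331033300133033023313310102136233033021330331106633013310123303302330330213303302330330210330330233033021330330233033021021063313310333101633013303310123303302331331016330133133101203303302330330116330133133101233032330330213313303302120012 (by decide +kernel)

theorem k3 : Cov Q 1152921779484754113 1152922054362661017 1152921504606846976 1152922010382195753 1152921504606846976 1152922054362661017 :=
  cov_of snd 0 0 11 _ _ _ _ _ _ 0x330330233133120330333020163313313101233031330330106330633010123303312330313303301201633302332133300633012330330210120333003330023330213313323301033031332330102333103303310210166333001633012633233033020163306310120133310333102330330213303133233010330313303301023303310330331021012 (by decide +kernel)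

end Crest.Agent.R307.UB7O
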