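import Crest.Agent.R307.IA3
import Crest.Agent.R307.IAx
set_option autoImplicit false
set_option linter.unusedVariables false
set_option maxRecDepth 20000
namespace Crest.Agent.R307.UB7P
open Crest.Agent.R307.IA Crest.Agent.R307.IA3

theorem In_cast {e1 e2 e3 : ℝ} {x y1 y2 y3 r : ℕ} {v w : ℝ}
    (h : In e1 e2 e3 x y1 y2 y3 r v) (e : v = w) : In e1 e2 e3 x y1 y2 y3 r w := e ▸ h

noncomputable def c2 (T c s : ℝ) : ℝ := (c * c)
noncomputable def d (T c s : ℝ) : ℝ := ((1:ℝ) - (c2 T c s))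
noncomputable def T2 (T c s : ℝ) : ℝ := (T * T)
noncomputable def P (T c s : ℝ) : ℝ := ((2:ℝ) - ((T2 T c s) * ((1:ℝ) + (c2 T c s))))
noncomputable def r0 (T c s : ℝ) : ℝ := (√((1:ℝ) - ((c2 T c s) * (T2 T c s))))
noncomputable def r1 (T c s : ℝ) : ℝ := (√((1:ℝ) - (T2 T c s)))
noncomputable def pi0 (T c s : ℝ) : ℝ := ((r0 T c s) * (r1 T c s))
noncomputable def hh (T c s : ℝ) : ℝ := ((s * (d T c s)) / (2:ℝ))
noncomputable def hq (T c s : ℝ) : ℝ := ((hh T c s) * (hh T c s))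
noncomputable def w (T c s : ℝ) : ℝ := ((hq T c s) * ((T2 T c s) * (T2 T c s)))
noncomputable def pi (T c s : ℝ) : ℝ := (√(((pi0 T c s) * (pi0 T c s)) + (w T c s)))
noncomputable def sg (T c s : ℝ) : ℝ := (√((P T c s) + ((2:ℝ) * (pi T c s))))
noncomputable def ss (T c s : ℝ) : ℝ := (((sg T c s) + (r0 T c s)) + (r1 T c s))
noncomputable def Gp (T c s : ℝ) : ℝ := (((-1391/2500:ℝ) - ((-1971/10000:ℝ) * (P T c s))) + ((24/625:ℝ) * (((2:ℝ) * (((2:ℝ) * ((pi0 T c s) * (pi0 T c s))) + (w T c s))) - ((4:ℝ) * ((P T c s) * (P T c s))))))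
noncomputable def b (T c s : ℝ) : ℝ := (√((c2 T c s) + (hq T c s)))
noncomputable def v (T c s : ℝ) : ℝ := (√(((1:ℝ) + (c2 T c s)) + ((2:ℝ) * (b T c s))))
noncomputable def GW (T c s : ℝ) : ℝ := (((1:ℝ) + ((((1:ℝ) + (c2 T c s)) + c) / (((v T c s) * ((1:ℝ) + c)) + ((1:ℝ) + (c2 T c s))))) / ((v T c s) + ((1:ℝ) + c)))
noncomputable def G (T c s : ℝ) : ℝ := ((T * ((((4:ℝ) + ((-2479/5000:ℝ) * (((2:ℝ) * ((P T c s) - (pi0 T c s))) - ((sg T c s) * (ss T c s))))) / ((ss T c s) * ((pi T c s) + (pi0 T c s)))) + (Gp T c s))) + (GW T c s))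
noncomputable def i0 (T c s : ℝ) : ℝ := ((1:ℝ) / ((1:ℝ) + (r0 T c s)))
noncomputable def U0 (T c s : ℝ) : ℝ := ((2:ℝ) - (((1:ℝ) + (c * T)) * (i0 T c s)))
noncomputable def V0 (T c s : ℝ) : ℝ := ((c2 T c s) * (U0 T c s))
noncomputable def i1 (T c s : ℝ) : ℝ := ((1:ℝ) / ((1:ℝ) + (r1 T c s)))
noncomputable def U1 (T c s : ℝ) : ℝ := ((2:ℝ) - (((1:ℝ) + T) * (i1 T c s)))
noncomputable def D (T c s : ℝ) : ℝ := ((V0 T c s) - (U1 T c s))
noncomputable def gg (T c s : ℝ) : ℝ := ((((T * ((d T c s) * (d T c s))) * (G T c s)) / (4:ℝ)) - ((3/25:ℝ) * (D T c s)))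
noncomputable def a (T c s : ℝ) : ℝ := ((s * ((s * (gg T c s)) + ((1/2:ℝ) * (D T c s)))) + ((2:ℝ) * (U1 T c s)))
noncomputable def X (T c s : ℝ) : ℝ := (((((499/500:ℝ) - ((3/500:ℝ) * s)) * (d T c s)) + ((3/10:ℝ) * (V0 T c s))) - ((7/25:ℝ) * (U1 T c s)))

def Q (T c s : ℝ) : Prop :=
  (
  (0 < (a T c s) ∧ 0 < (((a T c s) * (gg T c s)) - ((X T c s) * (X T c s)))) ∨
  (0 < (a T c s) ∧ 0 < (((3/5:ℝ) * (a T c s)) - ((2:ℝ) * (X T c s))) ∧ 0 < ((((4:ℝ) * (gg T c s)) + ((9/25:ℝ) * (a T c s))) - ((12/5:ℝ) * (X T c s)))))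

noncomputable def alt0 (z1 w1 z2 w2 z3 w3 : ℕ) : Bool :=
  sqK z2 1152921504606846976 (Nat.add w2 1152921504606846976) 1152921504606846976 0 fun c1 a1_1 a1_2 a1_3 q1 =>
  negK c1 a1_1 a1_2 a1_3 q1 fun c4 a4_1 a4_2 a4_3 q4 =>
  addcK c4 a4_1 a4_2 a4_3 q4 1152922604118474752 0 fun c5 a5_1 a5_2 a5_3 q5 =>
  sqK c5 a5_1 a5_2 a5_3 q5 fun c8 a8_1 a8_2 a8_3 q8 =>
  mulK z1 (Nat.add w1 1152921504606846976) 1152921504606846976 1152921504606846976 0 c8 a8_1 a8_2 a8_3 q8 fun c10 a10_1 a10_2 a10_3 q10 =>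
  sqK z1 (Nat.add w1 1152921504606846976) 1152921504606846976 1152921504606846976 0 fun c11 a11_1 a11_2 a11_3 q11 =>
  addcK c1 a1_1 a1_2 a1_3 q1 1152922604118474752 0 fun c14 a14_1 a14_2 a14_3 q14 =>
  mulK c11 a11_1 a11_2 a11_3 q11 c14 a14_1 a14_2 a14_3 q14 fun c16 a16_1 a16_2 a16_3 q16 =>
  negK c16 a16_1 a16_2 a16_3 q16 fun c17 a17_1 a17_2 a17_3 q17 =>
  addcK c17 a17_1 a17_2 a17_3 q17 1152923703630102528 0 fun c18 a18_1 a18_2 a18_3 q18 =>
  mulK c1 a1_1 a1_2 a1_3 q1 c11 a11_1 a11_2 a11_3 q11 fun c21 a21_1 a21_2 a21_3 q21 =>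
  negK c21 a21_1 a21_2 a21_3 q21 fun c22 a22_1 a22_2 a22_3 q22 =>
  addcK c22 a22_1 a22_2 a22_3 q22 1152922604118474752 0 fun c23 a23_1 a23_2 a23_3 q23 =>
  sqrtK c23 a23_1 a23_2 a23_3 q23 fun c25 a25_1 a25_2 a25_3 q25 =>
  negK c11 a11_1 a11_2 a11_3 q11 fun c27 a27_1 a27_2 a27_3 q27 =>
  addcK c27 a27_1 a27_2 a27_3 q27 1152922604118474752 0 fun c28 a28_1 a28_2 a28_3 q28 =>
  sqrtK c28 a28_1 a28_2 a28_3 q28 fun c30 a30_1 a30_2 a30_3 q30 =>
  mulK c25 a25_1 a25_2 a25_3 q25 c30 a30_1 a30_2 a30_3 q30 fun c32 a32_1 a32_2 a32_3 q32 =>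
  sqK c32 a32_1 a32_2 a32_3 q32 fun c34 a34_1 a34_2 a34_3 q34 =>
  mulK z3 1152921504606846976 1152921504606846976 (Nat.add w3 1152921504606846976) 0 c5 a5_1 a5_2 a5_3 q5 fun c36 a36_1 a36_2 a36_3 q36 =>
  smulK 1 2 2305843009213693954 1152921504606846976 c36 a36_1 a36_2 a36_3 q36 fun c37 a37_1 a37_2 a37_3 q37 =>
  sqK c37 a37_1 a37_2 a37_3 q37 fun c40 a40_1 a40_2 a40_3 q40 =>
  sqK c11 a11_1 a11_2 a11_3 q11 fun c43 a43_1 a43_2 a43_3 q43 =>
  mulK c40 a40_1 a40_2 a40_3 q40 c43 a43_1 a43_2 a43_3 q43 fun c45 a45_1 a45_2 a45_3 q45 =>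
  addK c34 a34_1 a34_2 a34_3 q34 c45 a45_1 a45_2 a45_3 q45 fun c47 a47_1 a47_2 a47_3 q47 =>
  sqrtK c47 a47_1 a47_2 a47_3 q47 fun c48 a48_1 a48_2 a48_3 q48 =>
  smulK 2 1 1152921504606846977 2305843009213693952 c48 a48_1 a48_2 a48_3 q48 fun c50 a50_1 a50_2 a50_3 q50 =>
  addK c18 a18_1 a18_2 a18_3 q18 c50 a50_1 a50_2 a50_3 q50 fun c51 a51_1 a51_2 a51_3 q51 =>
  sqrtK c51 a51_1 a51_2 a51_3 q51 fun c52 a52_1 a52_2 a52_3 q52 =>
  addK c52 a52_1 a52_2 a52_3 q52 c25 a25_1 a25_2 a25_3 q25 fun c54 a54_1 a54_2 a54_3 q54 =>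
  addK c54 a54_1 a54_2 a54_3 q54 c30 a30_1 a30_2 a30_3 q30 fun c55 a55_1 a55_2 a55_3 q55 =>
  addK c48 a48_1 a48_2 a48_3 q48 c32 a32_1 a32_2 a32_3 q32 fun c57 a57_1 a57_2 a57_3 q57 =>
  mulK c55 a55_1 a55_2 a55_3 q55 c57 a57_1 a57_2 a57_3 q57 fun c58 a58_1 a58_2 a58_3 q58 =>
  invK c58 a58_1 a58_2 a58_3 q58 fun c59 a59_1 a59_2 a59_3 q59 =>
  subK c18 a18_1 a18_2 a18_3 q18 c32 a32_1 a32_2 a32_3 q32 fun c60 a60_1 a60_2 a60_3 q60 =>
  smulK 2 1 1152921504606846977 2305843009213693952 c60 a60_1 a60_2 a60_3 q60 fun c61 a61_1 a61_2 a61_3 q61 =>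
  mulK c52 a52_1 a52_2 a52_3 q52 c55 a55_1 a55_2 a55_3 q55 fun c62 a62_1 a62_2 a62_3 q62 =>
  subK c61 a61_1 a61_2 a61_3 q61 c62 a62_1 a62_2 a62_3 q62 fun c63 a63_1 a63_2 a63_3 q63 =>
  smulK 2479 5000 5764607523034234885000 2858092409920373653504 c63 a63_1 a63_2 a63_3 q63 fun c64 a64_1 a64_2 a64_3 q64 =>
  negK c64 a64_1 a64_2 a64_3 q64 fun c65 a65_1 a65_2 a65_3 q65 =>
  addcK c65 a65_1 a65_2 a65_3 q65 1152925902653358080 0 fun c67 a67_1 a67_2 a67_3 q67 =>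
  mulK c67 a67_1 a67_2 a67_3 q67 c59 a59_1 a59_2 a59_3 q59 fun c69 a69_1 a69_2 a69_3 q69 =>
  smulK 1971 10000 11529215046068469770000 2272408285580095389696 c18 a18_1 a18_2 a18_3 q18 fun c71 a71_1 a71_2 a71_3 q71 =>
  negK c71 a71_1 a71_2 a71_3 q71 fun c72 a72_1 a72_2 a72_3 q72 =>
  negK c72 a72_1 a72_2 a72_3 q72 fun c74 a74_1 a74_2 a74_3 q74 =>
  addcK c74 a74_1 a74_2 a74_3 q74 1152920892838577281 1 fun c75 a75_1 a75_2 a75_3 q75 =>
  smulK 2 1 1152921504606846977 2305843009213693952 c34 a34_1 a34_2 a34_3 q34 fun c77 a77_1 a77_2 a77_3 q77 =>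
  addK c77 a77_1 a77_2 a77_3 q77 c45 a45_1 a45_2 a45_3 q45 fun c78 a78_1 a78_2 a78_3 q78 =>
  smulK 2 1 1152921504606846977 2305843009213693952 c78 a78_1 a78_2 a78_3 q78 fun c79 a79_1 a79_2 a79_3 q79 =>
  sqK c18 a18_1 a18_2 a18_3 q18 fun c80 a80_1 a80_2 a80_3 q80 =>
  smulK 4 1 1152921504606846977 4611686018427387904 c80 a80_1 a80_2 a80_3 q80 fun c82 a82_1 a82_2 a82_3 q82 =>
  subK c79 a79_1 a79_2 a79_3 q79 c82 a82_1 a82_2 a82_3 q82 fun c83 a83_1 a83_2 a83_3 q83 =>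
  smulK 24 625 720575940379279360625 27670116110564327424 c83 a83_1 a83_2 a83_3 q83 fun c84 a84_1 a84_2 a84_3 q84 =>
  addK c75 a75_1 a75_2 a75_3 q75 c84 a84_1 a84_2 a84_3 q84 fun c85 a85_1 a85_2 a85_3 q85 =>
  addK c69 a69_1 a69_2 a69_3 q69 c85 a85_1 a85_2 a85_3 q85 fun c87 a87_1 a87_2 a87_3 q87 =>
  mulK z1 (Nat.add w1 1152921504606846976) 1152921504606846976 1152921504606846976 0 c87 a87_1 a87_2 a87_3 q87 fun c88 a88_1 a88_2 a88_3 q88 =>
  addK c1 a1_1 a1_2 a1_3 q1 c40 a40_1 a40_2 a40_3 q40 fun c89 a89_1 a89_2 a89_3 q89 =>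
  sqrtK c89 a89_1 a89_2 a89_3 q89 fun c90 a90_1 a90_2 a90_3 q90 =>
  smulK 2 1 1152921504606846977 2305843009213693952 c90 a90_1 a90_2 a90_3 q90 fun c92 a92_1 a92_2 a92_3 q92 =>
  addK c14 a14_1 a14_2 a14_3 q14 c92 a92_1 a92_2 a92_3 q92 fun c93 a93_1 a93_2 a93_3 q93 =>
  sqrtK c93 a93_1 a93_2 a93_3 q93 fun c94 a94_1 a94_2 a94_3 q94 =>
  addcK z2 1152921504606846976 (Nat.add w2 1152921504606846976) 1152921504606846976 0 1152922604118474752 0 fun c96 a96_1 a96_2 a96_3 q96 =>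
  addK c94 a94_1 a94_2 a94_3 q94 c96 a96_1 a96_2 a96_3 q96 fun c98 a98_1 a98_2 a98_3 q98 =>
  invK c98 a98_1 a98_2 a98_3 q98 fun c99 a99_1 a99_2 a99_3 q99 =>
  mulK c94 a94_1 a94_2 a94_3 q94 c96 a96_1 a96_2 a96_3 q96 fun c100 a100_1 a100_2 a100_3 q100 =>
  addK c100 a100_1 a100_2 a100_3 q100 c14 a14_1 a14_2 a14_3 q14 fun c101 a101_1 a101_2 a101_3 q101 =>
  invK c101 a101_1 a101_2 a101_3 q101 fun c102 a102_1 a102_2 a102_3 q102 =>
  addK c14 a14_1 a14_2 a14_3 q14 z2 1152921504606846976 (Nat.add w2 1152921504606846976) 1152921504606846976 0 fun c103 a103_1 a103_2 a103_3 q103 =>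
  mulK c103 a103_1 a103_2 a103_3 q103 c102 a102_1 a102_2 a102_3 q102 fun c104 a104_1 a104_2 a104_3 q104 =>
  addcK c104 a104_1 a104_2 a104_3 q104 1152922604118474752 0 fun c106 a106_1 a106_2 a106_3 q106 =>
  mulK c106 a106_1 a106_2 a106_3 q106 c99 a99_1 a99_2 a99_3 q99 fun c108 a108_1 a108_2 a108_3 q108 =>
  addK c88 a88_1 a88_2 a88_3 q88 c108 a108_1 a108_2 a108_3 q108 fun c111 a111_1 a111_2 a111_3 q111 =>
  mulK c10 a10_1 a10_2 a10_3 q10 c111 a111_1 a111_2 a111_3 q111 fun c113 a113_1 a113_2 a113_3 q113 =>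
  smulK 1 4 4611686018427387908 1152921504606846976 c113 a113_1 a113_2 a113_3 q113 fun c114 a114_1 a114_2 a114_3 q114 =>
  mulK z2 1152921504606846976 (Nat.add w2 1152921504606846976) 1152921504606846976 0 z1 (Nat.add w1 1152921504606846976) 1152921504606846976 1152921504606846976 0 fun c116 a116_1 a116_2 a116_3 q116 =>
  addcK c116 a116_1 a116_2 a116_3 q116 1152922604118474752 0 fun c117 a117_1 a117_2 a117_3 q117 =>
  addcK c25 a25_1 a25_2 a25_3 q25 1152922604118474752 0 fun c119 a119_1 a119_2 a119_3 q119 =>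
  invK c119 a119_1 a119_2 a119_3 q119 fun c121 a121_1 a121_2 a121_3 q121 =>
  mulK c117 a117_1 a117_2 a117_3 q117 c121 a121_1 a121_2 a121_3 q121 fun c124 a124_1 a124_2 a124_3 q124 =>
  negK c124 a124_1 a124_2 a124_3 q124 fun c125 a125_1 a125_2 a125_3 q125 =>
  addcK c125 a125_1 a125_2 a125_3 q125 1152923703630102528 0 fun c126 a126_1 a126_2 a126_3 q126 =>
  mulK c1 a1_1 a1_2 a1_3 q1 c126 a126_1 a126_2 a126_3 q126 fun c129 a129_1 a129_2 a129_3 q129 =>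
  addcK z1 (Nat.add w1 1152921504606846976) 1152921504606846976 1152921504606846976 0 1152922604118474752 0 fun c131 a131_1 a131_2 a131_3 q131 =>
  addcK c30 a30_1 a30_2 a30_3 q30 1152922604118474752 0 fun c133 a133_1 a133_2 a133_3 q133 =>
  invK c133 a133_1 a133_2 a133_3 q133 fun c135 a135_1 a135_2 a135_3 q135 =>
  mulK c131 a131_1 a131_2 a131_3 q131 c135 a135_1 a135_2 a135_3 q135 fun c138 a138_1 a138_2 a138_3 q138 =>
  negK c138 a138_1 a138_2 a138_3 q138 fun c139 a139_1 a139_2 a139_3 q139 =>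
  addcK c139 a139_1 a139_2 a139_3 q139 1152923703630102528 0 fun c140 a140_1 a140_2 a140_3 q140 =>
  subK c129 a129_1 a129_2 a129_3 q129 c140 a140_1 a140_2 a140_3 q140 fun c143 a143_1 a143_2 a143_3 q143 =>
  smulK 3 25 28823037615171174425 3458764513820540928 c143 a143_1 a143_2 a143_3 q143 fun c145 a145_1 a145_2 a145_3 q145 =>
  subK c114 a114_1 a114_2 a114_3 q114 c145 a145_1 a145_2 a145_3 q145 fun c146 a146_1 a146_2 a146_3 q146 =>
  mulK z3 1152921504606846976 1152921504606846976 (Nat.add w3 1152921504606846976) 0 c146 a146_1 a146_2 a146_3 q146 fun c148 a148_1 a148_2 a148_3 q148 =>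
  smulK 1 2 2305843009213693954 1152921504606846976 c143 a143_1 a143_2 a143_3 q143 fun c149 a149_1 a149_2 a149_3 q149 =>
  addK c148 a148_1 a148_2 a148_3 q148 c149 a149_1 a149_2 a149_3 q149 fun c150 a150_1 a150_2 a150_3 q150 =>
  mulK z3 1152921504606846976 1152921504606846976 (Nat.add w3 1152921504606846976) 0 c150 a150_1 a150_2 a150_3 q150 fun c151 a151_1 a151_2 a151_3 q151 =>
  smulK 2 1 1152921504606846977 2305843009213693952 c140 a140_1 a140_2 a140_3 q140 fun c152 a152_1 a152_2 a152_3 q152 =>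
  addK c151 a151_1 a151_2 a151_3 q151 c152 a152_1 a152_2 a152_3 q152 fun c153 a153_1 a153_2 a153_3 q153 =>
  posK c153 a153_1 a153_2 a153_3 q153 <|
  mulK c153 a153_1 a153_2 a153_3 q153 c146 a146_1 a146_2 a146_3 q146 fun c155 a155_1 a155_2 a155_3 q155 =>
  smulK 3 500 576460752303423488500 3458764513820540928 z3 1152921504606846976 1152921504606846976 (Nat.add w3 1152921504606846976) 0 fun c156 a156_1 a156_2 a156_3 q156 =>
  negK c156 a156_1 a156_2 a156_3 q156 fun c157 a157_1 a157_2 a157_3 q157 =>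
  addcK c157 a157_1 a157_2 a157_3 q157 1152922601919451496 1 fun c158 a158_1 a158_2 a158_3 q158 =>
  mulK c158 a158_1 a158_2 a158_3 q158 c5 a5_1 a5_2 a5_3 q5 fun c160 a160_1 a160_2 a160_3 q160 =>
  smulK 3 10 11529215046068469770 3458764513820540928 c129 a129_1 a129_2 a129_3 q129 fun c161 a161_1 a161_2 a161_3 q161 =>
  addK c160 a160_1 a160_2 a160_3 q160 c161 a161_1 a161_2 a161_3 q161 fun c162 a162_1 a162_2 a162_3 q162 =>
  smulK 7 25 28823037615171174425 8070450532247928832 c140 a140_1 a140_2 a140_3 q140 fun c163 a163_1 a163_2 a163_3 q163 =>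
  subK c162 a162_1 a162_2 a162_3 q162 c163 a163_1 a163_2 a163_3 q163 fun c164 a164_1 a164_2 a164_3 q164 =>
  sqK c164 a164_1 a164_2 a164_3 q164 fun c166 a166_1 a166_2 a166_3 q166 =>
  subK c155 a155_1 a155_2 a155_3 q155 c166 a166_1 a166_2 a166_3 q166 fun c168 a168_1 a168_2 a168_3 q168 =>
  pos c168 a168_1 a168_2 a168_3 q168

theorem alt0_s {z1 w1 z2 w2 z3 w3 : ℕ} {e1 e2 e3 T c s : ℝ} (he : Ev e1 e2 e3)
    (hx1 : In e1 e2 e3 z1 (Nat.add w1 1152921504606846976) 1152921504606846976 1152921504606846976 0 T)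
    (hx2 : In e1 e2 e3 z2 1152921504606846976 (Nat.add w2 1152921504606846976) 1152921504606846976 0 c)
    (hx3 : In e1 e2 e3 z3 1152921504606846976 1152921504606846976 (Nat.add w3 1152921504606846976) 0 s)
    (H0 : alt0 z1 w1 z2 w2 z3 w3 = true) : 0 < (a T c s) ∧ 0 < (((a T c s) * (gg T c s)) - ((X T c s) * (X T c s))) := by
  unfold alt0 at H0
  refine sqK_s he hx2 (fun _ _ _ _ _ h1 H1 => ?_) H0
  have h2 := In_cast h1 (sq _)
  have h3 := In_cast (w := (c2 T c s)) h2 rfl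
  refine negK_s he h3 (fun _ _ _ _ _ h4 H2 => ?_) H1
  refine addcK_s he h4 (v' := (1:ℝ)) (by norm_num [SS, BB, abs_le]) (fun _ _ _ _ _ h5 H3 => ?_) H2
  have h6 := In_cast h5 (neg_add_eq_sub _ _)
  have h7 := In_cast (w := (d T c s)) h6 rfl
  refine sqK_s he h7 (fun _ _ _ _ _ h8 H4 => ?_) H3
  have h9 := In_cast h8 (sq _)
  refine mulK_s he hx1 h9 (fun _ _ _ _ _ h10 H5 => ?_) H4
  refine sqK_s he hx1 (fun _ _ _ _ _ h11 H6 => ?_) H5
  have h12 := In_cast h11 (sq _)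
  have h13 := In_cast (w := (T2 T c s)) h12 rfl
  refine addcK_s he h3 (v' := (1:ℝ)) (by norm_num [SS, BB, abs_le]) (fun _ _ _ _ _ h14 H7 => ?_) H6
  have h15 := In_cast h14 (add_comm _ _)
  refine mulK_s he h13 h15 (fun _ _ _ _ _ h16 H8 => ?_) H7
  refine negK_s he h16 (fun _ _ _ _ _ h17 H9 => ?_) H8
  refine addcK_s he h17 (v' := (2:ℝ)) (by norm_num [SS, BB, abs_le]) (fun _ _ _ _ _ h18 H10 => ?_) H9
  have h19 := In_cast h18 (neg_add_eq_sub _ _)
  have h20 := In_cast (w := (P T c s)) h19 rfl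
  refine mulK_s he h3 h13 (fun _ _ _ _ _ h21 H11 => ?_) H10
  refine negK_s he h21 (fun _ _ _ _ _ h22 H12 => ?_) H11
  refine addcK_s he h22 (v' := (1:ℝ)) (by norm_num [SS, BB, abs_le]) (fun _ _ _ _ _ h23 H13 => ?_) H12
  have h24 := In_cast h23 (neg_add_eq_sub _ _)
  refine sqrtK_s he h24 (fun _ _ _ _ _ h25 H14 => ?_) H13
  have h26 := In_cast (w := (r0 T c s)) h25 rfl
  refine negK_s he h13 (fun _ _ _ _ _ h27 H15 => ?_) H14
  refine addcK_s he h27 (v' := (1:ℝ)) (by norm_num [SS, BB, abs_le]) (fun _ _ _ _ _ h28 H16 => ?_) H15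
  have h29 := In_cast h28 (neg_add_eq_sub _ _)
  refine sqrtK_s he h29 (fun _ _ _ _ _ h30 H17 => ?_) H16
  have h31 := In_cast (w := (r1 T c s)) h30 rfl
  refine mulK_s he h26 h31 (fun _ _ _ _ _ h32 H18 => ?_) H17
  have h33 := In_cast (w := (pi0 T c s)) h32 rfl
  refine sqK_s he h33 (fun _ _ _ _ _ h34 H19 => ?_) H18
  have h35 := In_cast h34 (sq _)
  refine mulK_s he hx3 h7 (fun _ _ _ _ _ h36 H20 => ?_) H19
  refine smulK_s he (w := (1/2:ℝ)) (by norm_num) (by norm_num) (by norm_num) (by norm_num) h36 (fun _ _ _ _ _ h37 H21 => ?_) H20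
  have h38 := In_cast h37 (div_c (c := (2:ℝ)) (by norm_num))
  have h39 := In_cast (w := (hh T c s)) h38 rfl
  refine sqK_s he h39 (fun _ _ _ _ _ h40 H22 => ?_) H21
  have h41 := In_cast h40 (sq _)
  have h42 := In_cast (w := (hq T c s)) h41 rfl
  refine sqK_s he h13 (fun _ _ _ _ _ h43 H23 => ?_) H22
  have h44 := In_cast h43 (sq _)
  refine mulK_s he h42 h44 (fun _ _ _ _ _ h45 H24 => ?_) H23
  have h46 := In_cast (w := (w T c s)) h45 rfl
  refine addK_s he h35 h46 (fun _ _ _ _ _ h47 H25 => ?_) H24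
  refine sqrtK_s he h47 (fun _ _ _ _ _ h48 H26 => ?_) H25
  have h49 := In_cast (w := (pi T c s)) h48 rfl
  refine smulK_s he (w := (2:ℝ)) (by norm_num) (by norm_num) (by norm_num) (by norm_num) h49 (fun _ _ _ _ _ h50 H27 => ?_) H26
  refine addK_s he h20 h50 (fun _ _ _ _ _ h51 H28 => ?_) H27
  refine sqrtK_s he h51 (fun _ _ _ _ _ h52 H29 => ?_) H28
  have h53 := In_cast (w := (sg T c s)) h52 rfl
  refine addK_s he h53 h26 (fun _ _ _ _ _ h54 H30 => ?_) H29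
  refine addK_s he h54 h31 (fun _ _ _ _ _ h55 H31 => ?_) H30
  have h56 := In_cast (w := (ss T c s)) h55 rfl
  refine addK_s he h49 h33 (fun _ _ _ _ _ h57 H32 => ?_) H31
  refine mulK_s he h56 h57 (fun _ _ _ _ _ h58 H33 => ?_) H32
  refine invK_s he h58 (fun _ _ _ _ _ h59 H34 => ?_) H33
  refine subK_s he h20 h33 (fun _ _ _ _ _ h60 H35 => ?_) H34
  refine smulK_s he (w := (2:ℝ)) (by norm_num) (by norm_num) (by norm_num) (by norm_num) h60 (fun _ _ _ _ _ h61 H36 => ?_) H35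
  refine mulK_s he h53 h56 (fun _ _ _ _ _ h62 H37 => ?_) H36
  refine subK_s he h61 h62 (fun _ _ _ _ _ h63 H38 => ?_) H37
  refine smulK_s he (w := (2479/5000:ℝ)) (by norm_num) (by norm_num) (by norm_num) (by norm_num) h63 (fun _ _ _ _ _ h64 H39 => ?_) H38
  refine negK_s he h64 (fun _ _ _ _ _ h65 H40 => ?_) H39
  have h66 := In_cast h65 (neg_mul_c (c := (-2479/5000:ℝ)) (by norm_num))
  refine addcK_s he h66 (v' := (4:ℝ)) (by norm_num [SS, BB, abs_le]) (fun _ _ _ _ _ h67 H41 => ?_) H40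
  have h68 := In_cast h67 (add_comm _ _)
  refine mulK_s he h68 h59 (fun _ _ _ _ _ h69 H42 => ?_) H41
  have h70 := In_cast h69 ((div_eq_mul_inv _ _).symm)
  refine smulK_s he (w := (1971/10000:ℝ)) (by norm_num) (by norm_num) (by norm_num) (by norm_num) h20 (fun _ _ _ _ _ h71 H43 => ?_) H42
  refine negK_s he h71 (fun _ _ _ _ _ h72 H44 => ?_) H43
  have h73 := In_cast h72 (neg_mul_c (c := (-1971/10000:ℝ)) (by norm_num))
  refine negK_s he h73 (fun _ _ _ _ _ h74 H45 => ?_) H44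
  refine addcK_s he h74 (v' := (-1391/2500:ℝ)) (by norm_num [SS, BB, abs_le]) (fun _ _ _ _ _ h75 H46 => ?_) H45
  have h76 := In_cast h75 (neg_add_eq_sub _ _)
  refine smulK_s he (w := (2:ℝ)) (by norm_num) (by norm_num) (by norm_num) (by norm_num) h35 (fun _ _ _ _ _ h77 H47 => ?_) H46
  refine addK_s he h77 h46 (fun _ _ _ _ _ h78 H48 => ?_) H47
  refine smulK_s he (w := (2:ℝ)) (by norm_num) (by norm_num) (by norm_num) (by norm_num) h78 (fun _ _ _ _ _ h79 H49 => ?_) H48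
  refine sqK_s he h20 (fun _ _ _ _ _ h80 H50 => ?_) H49
  have h81 := In_cast h80 (sq _)
  refine smulK_s he (w := (4:ℝ)) (by norm_num) (by norm_num) (by norm_num) (by norm_num) h81 (fun _ _ _ _ _ h82 H51 => ?_) H50
  refine subK_s he h79 h82 (fun _ _ _ _ _ h83 H52 => ?_) H51
  refine smulK_s he (w := (24/625:ℝ)) (by norm_num) (by norm_num) (by norm_num) (by norm_num) h83 (fun _ _ _ _ _ h84 H53 => ?_) H52
  refine addK_s he h76 h84 (fun _ _ _ _ _ h85 H54 => ?_) H53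
  have h86 := In_cast (w := (Gp T c s)) h85 rfl
  refine addK_s he h70 h86 (fun _ _ _ _ _ h87 H55 => ?_) H54
  refine mulK_s he hx1 h87 (fun _ _ _ _ _ h88 H56 => ?_) H55
  refine addK_s he h3 h42 (fun _ _ _ _ _ h89 H57 => ?_) H56
  refine sqrtK_s he h89 (fun _ _ _ _ _ h90 H58 => ?_) H57
  have h91 := In_cast (w := (b T c s)) h90 rfl
  refine smulK_s he (w := (2:ℝ)) (by norm_num) (by norm_num) (by norm_num) (by norm_num) h91 (fun _ _ _ _ _ h92 H59 => ?_) H58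
  refine addK_s he h15 h92 (fun _ _ _ _ _ h93 H60 => ?_) H59
  refine sqrtK_s he h93 (fun _ _ _ _ _ h94 H61 => ?_) H60
  have h95 := In_cast (w := (v T c s)) h94 rfl
  refine addcK_s he hx2 (v' := (1:ℝ)) (by norm_num [SS, BB, abs_le]) (fun _ _ _ _ _ h96 H62 => ?_) H61
  have h97 := In_cast h96 (add_comm _ _)
  refine addK_s he h95 h97 (fun _ _ _ _ _ h98 H63 => ?_) H62
  refine invK_s he h98 (fun _ _ _ _ _ h99 H64 => ?_) H63
  refine mulK_s he h95 h97 (fun _ _ _ _ _ h100 H65 => ?_) H64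
  refine addK_s he h100 h15 (fun _ _ _ _ _ h101 H66 => ?_) H65
  refine invK_s he h101 (fun _ _ _ _ _ h102 H67 => ?_) H66
  refine addK_s he h15 hx2 (fun _ _ _ _ _ h103 H68 => ?_) H67
  refine mulK_s he h103 h102 (fun _ _ _ _ _ h104 H69 => ?_) H68
  have h105 := In_cast h104 ((div_eq_mul_inv _ _).symm)
  refine addcK_s he h105 (v' := (1:ℝ)) (by norm_num [SS, BB, abs_le]) (fun _ _ _ _ _ h106 H70 => ?_) H69
  have h107 := In_cast h106 (add_comm _ _)
  refine mulK_s he h107 h99 (fun _ _ _ _ _ h108 H71 => ?_) H70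
  have h109 := In_cast h108 ((div_eq_mul_inv _ _).symm)
  have h110 := In_cast (w := (GW T c s)) h109 rfl
  refine addK_s he h88 h110 (fun _ _ _ _ _ h111 H72 => ?_) H71
  have h112 := In_cast (w := (G T c s)) h111 rfl
  refine mulK_s he h10 h112 (fun _ _ _ _ _ h113 H73 => ?_) H72
  refine smulK_s he (w := (1/4:ℝ)) (by norm_num) (by norm_num) (by norm_num) (by norm_num) h113 (fun _ _ _ _ _ h114 H74 => ?_) H73
  have h115 := In_cast h114 (div_c (c := (4:ℝ)) (by norm_num))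
  refine mulK_s he hx2 hx1 (fun _ _ _ _ _ h116 H75 => ?_) H74
  refine addcK_s he h116 (v' := (1:ℝ)) (by norm_num [SS, BB, abs_le]) (fun _ _ _ _ _ h117 H76 => ?_) H75
  have h118 := In_cast h117 (add_comm _ _)
  refine addcK_s he h26 (v' := (1:ℝ)) (by norm_num [SS, BB, abs_le]) (fun _ _ _ _ _ h119 H77 => ?_) H76
  have h120 := In_cast h119 (add_comm _ _)
  refine invK_s he h120 (fun _ _ _ _ _ h121 H78 => ?_) H77
  have h122 := In_cast h121 (inv_eq_one_div _)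
  have h123 := In_cast (w := (i0 T c s)) h122 rfl
  refine mulK_s he h118 h123 (fun _ _ _ _ _ h124 H79 => ?_) H78
  refine negK_s he h124 (fun _ _ _ _ _ h125 H80 => ?_) H79
  refine addcK_s he h125 (v' := (2:ℝ)) (by norm_num [SS, BB, abs_le]) (fun _ _ _ _ _ h126 H81 => ?_) H80
  have h127 := In_cast h126 (neg_add_eq_sub _ _)
  have h128 := In_cast (w := (U0 T c s)) h127 rfl
  refine mulK_s he h3 h128 (fun _ _ _ _ _ h129 H82 => ?_) H81
  have h130 := In_cast (w := (V0 T c s)) h129 rfl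
  refine addcK_s he hx1 (v' := (1:ℝ)) (by norm_num [SS, BB, abs_le]) (fun _ _ _ _ _ h131 H83 => ?_) H82
  have h132 := In_cast h131 (add_comm _ _)
  refine addcK_s he h31 (v' := (1:ℝ)) (by norm_num [SS, BB, abs_le]) (fun _ _ _ _ _ h133 H84 => ?_) H83
  have h134 := In_cast h133 (add_comm _ _)
  refine invK_s he h134 (fun _ _ _ _ _ h135 H85 => ?_) H84
  have h136 := In_cast h135 (inv_eq_one_div _)
  have h137 := In_cast (w := (i1 T c s)) h136 rfl
  refine mulK_s he h132 h137 (fun _ _ _ _ _ h138 H86 => ?_) H85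
  refine negK_s he h138 (fun _ _ _ _ _ h139 H87 => ?_) H86
  refine addcK_s he h139 (v' := (2:ℝ)) (by norm_num [SS, BB, abs_le]) (fun _ _ _ _ _ h140 H88 => ?_) H87
  have h141 := In_cast h140 (neg_add_eq_sub _ _)
  have h142 := In_cast (w := (U1 T c s)) h141 rfl
  refine subK_s he h130 h142 (fun _ _ _ _ _ h143 H89 => ?_) H88
  have h144 := In_cast (w := (D T c s)) h143 rfl
  refine smulK_s he (w := (3/25:ℝ)) (by norm_num) (by norm_num) (by norm_num) (by norm_num) h144 (fun _ _ _ _ _ h145 H90 => ?_) H89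
  refine subK_s he h115 h145 (fun _ _ _ _ _ h146 H91 => ?_) H90
  have h147 := In_cast (w := (gg T c s)) h146 rfl
  refine mulK_s he hx3 h147 (fun _ _ _ _ _ h148 H92 => ?_) H91
  refine smulK_s he (w := (1/2:ℝ)) (by norm_num) (by norm_num) (by norm_num) (by norm_num) h144 (fun _ _ _ _ _ h149 H93 => ?_) H92
  refine addK_s he h148 h149 (fun _ _ _ _ _ h150 H94 => ?_) H93
  refine mulK_s he hx3 h150 (fun _ _ _ _ _ h151 H95 => ?_) H94
  refine smulK_s he (w := (2:ℝ)) (by norm_num) (by norm_num) (by norm_num) (by norm_num) h142 (fun _ _ _ _ _ h152 H96 => ?_) H95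
  refine addK_s he h151 h152 (fun _ _ _ _ _ h153 H97 => ?_) H96
  have h154 := In_cast (w := (a T c s)) h153 rfl
  refine posK_s he h154 (fun p0 H98 => ?_) H97
  refine mulK_s he h154 h147 (fun _ _ _ _ _ h155 H99 => ?_) H98
  refine smulK_s he (w := (3/500:ℝ)) (by norm_num) (by norm_num) (by norm_num) (by norm_num) hx3 (fun _ _ _ _ _ h156 H100 => ?_) H99
  refine negK_s he h156 (fun _ _ _ _ _ h157 H101 => ?_) H100
  refine addcK_s he h157 (v' := (499/500:ℝ)) (by norm_num [SS, BB, abs_le]) (fun _ _ _ _ _ h158 H102 => ?_) H101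
  have h159 := In_cast h158 (neg_add_eq_sub _ _)
  refine mulK_s he h159 h7 (fun _ _ _ _ _ h160 H103 => ?_) H102
  refine smulK_s he (w := (3/10:ℝ)) (by norm_num) (by norm_num) (by norm_num) (by norm_num) h130 (fun _ _ _ _ _ h161 H104 => ?_) H103
  refine addK_s he h160 h161 (fun _ _ _ _ _ h162 H105 => ?_) H104
  refine smulK_s he (w := (7/25:ℝ)) (by norm_num) (by norm_num) (by norm_num) (by norm_num) h142 (fun _ _ _ _ _ h163 H106 => ?_) H105
  refine subK_s he h162 h163 (fun _ _ _ _ _ h164 H107 => ?_) H106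
  have h165 := In_cast (w := (X T c s)) h164 rfl
  refine sqK_s he h165 (fun _ _ _ _ _ h166 H108 => ?_) H107
  have h167 := In_cast h166 (sq _)
  refine subK_s he h155 h167 (fun _ _ _ _ _ h168 H109 => ?_) H108
  exact ⟨p0, pos_s he h168 H109⟩

noncomputable def alt1 (z1 w1 z2 w2 z3 w3 : ℕ) : Bool :=
  sqK z2 1152921504606846976 (Nat.add w2 1152921504606846976) 1152921504606846976 0 fun c1 a1_1 a1_2 a1_3 q1 =>
  negK c1 a1_1 a1_2 a1_3 q1 fun c4 a4_1 a4_2 a4_3 q4 =>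
  addcK c4 a4_1 a4_2 a4_3 q4 1152922604118474752 0 fun c5 a5_1 a5_2 a5_3 q5 =>
  sqK c5 a5_1 a5_2 a5_3 q5 fun c8 a8_1 a8_2 a8_3 q8 =>
  mulK z1 (Nat.add w1 1152921504606846976) 1152921504606846976 1152921504606846976 0 c8 a8_1 a8_2 a8_3 q8 fun c10 a10_1 a10_2 a10_3 q10 =>
  sqK z1 (Nat.add w1 1152921504606846976) 1152921504606846976 1152921504606846976 0 fun c11 a11_1 a11_2 a11_3 q11 =>
  addcK c1 a1_1 a1_2 a1_3 q1 1152922604118474752 0 fun c14 a14_1 a14_2 a14_3 q14 =>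
  mulK c11 a11_1 a11_2 a11_3 q11 c14 a14_1 a14_2 a14_3 q14 fun c16 a16_1 a16_2 a16_3 q16 =>
  negK c16 a16_1 a16_2 a16_3 q16 fun c17 a17_1 a17_2 a17_3 q17 =>
  addcK c17 a17_1 a17_2 a17_3 q17 1152923703630102528 0 fun c18 a18_1 a18_2 a18_3 q18 =>
  mulK c1 a1_1 a1_2 a1_3 q1 c11 a11_1 a11_2 a11_3 q11 fun c21 a21_1 a21_2 a21_3 q21 =>
  negK c21 a21_1 a21_2 a21_3 q21 fun c22 a22_1 a22_2 a22_3 q22 =>
  addcK c22 a22_1 a22_2 a22_3 q22 1152922604118474752 0 fun c23 a23_1 a23_2 a23_3 q23 =>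
  sqrtK c23 a23_1 a23_2 a23_3 q23 fun c25 a25_1 a25_2 a25_3 q25 =>
  negK c11 a11_1 a11_2 a11_3 q11 fun c27 a27_1 a27_2 a27_3 q27 =>
  addcK c27 a27_1 a27_2 a27_3 q27 1152922604118474752 0 fun c28 a28_1 a28_2 a28_3 q28 =>
  sqrtK c28 a28_1 a28_2 a28_3 q28 fun c30 a30_1 a30_2 a30_3 q30 =>
  mulK c25 a25_1 a25_2 a25_3 q25 c30 a30_1 a30_2 a30_3 q30 fun c32 a32_1 a32_2 a32_3 q32 =>
  sqK c32 a32_1 a32_2 a32_3 q32 fun c34 a34_1 a34_2 a34_3 q34 =>
  mulK z3 1152921504606846976 1152921504606846976 (Nat.add w3 1152921504606846976) 0 c5 a5_1 a5_2 a5_3 q5 fun c36 a36_1 a36_2 a36_3 q36 =>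
  smulK 1 2 2305843009213693954 1152921504606846976 c36 a36_1 a36_2 a36_3 q36 fun c37 a37_1 a37_2 a37_3 q37 =>
  sqK c37 a37_1 a37_2 a37_3 q37 fun c40 a40_1 a40_2 a40_3 q40 =>
  sqK c11 a11_1 a11_2 a11_3 q11 fun c43 a43_1 a43_2 a43_3 q43 =>
  mulK c40 a40_1 a40_2 a40_3 q40 c43 a43_1 a43_2 a43_3 q43 fun c45 a45_1 a45_2 a45_3 q45 =>
  addK c34 a34_1 a34_2 a34_3 q34 c45 a45_1 a45_2 a45_3 q45 fun c47 a47_1 a47_2 a47_3 q47 =>
  sqrtK c47 a47_1 a47_2 a47_3 q47 fun c48 a48_1 a48_2 a48_3 q48 =>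
  smulK 2 1 1152921504606846977 2305843009213693952 c48 a48_1 a48_2 a48_3 q48 fun c50 a50_1 a50_2 a50_3 q50 =>
  addK c18 a18_1 a18_2 a18_3 q18 c50 a50_1 a50_2 a50_3 q50 fun c51 a51_1 a51_2 a51_3 q51 =>
  sqrtK c51 a51_1 a51_2 a51_3 q51 fun c52 a52_1 a52_2 a52_3 q52 =>
  addK c52 a52_1 a52_2 a52_3 q52 c25 a25_1 a25_2 a25_3 q25 fun c54 a54_1 a54_2 a54_3 q54 =>
  addK c54 a54_1 a54_2 a54_3 q54 c30 a30_1 a30_2 a30_3 q30 fun c55 a55_1 a55_2 a55_3 q55 =>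
  addK c48 a48_1 a48_2 a48_3 q48 c32 a32_1 a32_2 a32_3 q32 fun c57 a57_1 a57_2 a57_3 q57 =>
  mulK c55 a55_1 a55_2 a55_3 q55 c57 a57_1 a57_2 a57_3 q57 fun c58 a58_1 a58_2 a58_3 q58 =>
  invK c58 a58_1 a58_2 a58_3 q58 fun c59 a59_1 a59_2 a59_3 q59 =>
  subK c18 a18_1 a18_2 a18_3 q18 c32 a32_1 a32_2 a32_3 q32 fun c60 a60_1 a60_2 a60_3 q60 =>
  smulK 2 1 1152921504606846977 2305843009213693952 c60 a60_1 a60_2 a60_3 q60 fun c61 a61_1 a61_2 a61_3 q61 =>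
  mulK c52 a52_1 a52_2 a52_3 q52 c55 a55_1 a55_2 a55_3 q55 fun c62 a62_1 a62_2 a62_3 q62 =>
  subK c61 a61_1 a61_2 a61_3 q61 c62 a62_1 a62_2 a62_3 q62 fun c63 a63_1 a63_2 a63_3 q63 =>
  smulK 2479 5000 5764607523034234885000 2858092409920373653504 c63 a63_1 a63_2 a63_3 q63 fun c64 a64_1 a64_2 a64_3 q64 =>
  negK c64 a64_1 a64_2 a64_3 q64 fun c65 a65_1 a65_2 a65_3 q65 =>
  addcK c65 a65_1 a65_2 a65_3 q65 1152925902653358080 0 fun c67 a67_1 a67_2 a67_3 q67 =>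
  mulK c67 a67_1 a67_2 a67_3 q67 c59 a59_1 a59_2 a59_3 q59 fun c69 a69_1 a69_2 a69_3 q69 =>
  smulK 1971 10000 11529215046068469770000 2272408285580095389696 c18 a18_1 a18_2 a18_3 q18 fun c71 a71_1 a71_2 a71_3 q71 =>
  negK c71 a71_1 a71_2 a71_3 q71 fun c72 a72_1 a72_2 a72_3 q72 =>
  negK c72 a72_1 a72_2 a72_3 q72 fun c74 a74_1 a74_2 a74_3 q74 =>
  addcK c74 a74_1 a74_2 a74_3 q74 1152920892838577281 1 fun c75 a75_1 a75_2 a75_3 q75 =>
  smulK 2 1 1152921504606846977 2305843009213693952 c34 a34_1 a34_2 a34_3 q34 fun c77 a77_1 a77_2 a77_3 q77 =>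
  addK c77 a77_1 a77_2 a77_3 q77 c45 a45_1 a45_2 a45_3 q45 fun c78 a78_1 a78_2 a78_3 q78 =>
  smulK 2 1 1152921504606846977 2305843009213693952 c78 a78_1 a78_2 a78_3 q78 fun c79 a79_1 a79_2 a79_3 q79 =>
  sqK c18 a18_1 a18_2 a18_3 q18 fun c80 a80_1 a80_2 a80_3 q80 =>
  smulK 4 1 1152921504606846977 4611686018427387904 c80 a80_1 a80_2 a80_3 q80 fun c82 a82_1 a82_2 a82_3 q82 =>
  subK c79 a79_1 a79_2 a79_3 q79 c82 a82_1 a82_2 a82_3 q82 fun c83 a83_1 a83_2 a83_3 q83 =>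
  smulK 24 625 720575940379279360625 27670116110564327424 c83 a83_1 a83_2 a83_3 q83 fun c84 a84_1 a84_2 a84_3 q84 =>
  addK c75 a75_1 a75_2 a75_3 q75 c84 a84_1 a84_2 a84_3 q84 fun c85 a85_1 a85_2 a85_3 q85 =>
  addK c69 a69_1 a69_2 a69_3 q69 c85 a85_1 a85_2 a85_3 q85 fun c87 a87_1 a87_2 a87_3 q87 =>
  mulK z1 (Nat.add w1 1152921504606846976) 1152921504606846976 1152921504606846976 0 c87 a87_1 a87_2 a87_3 q87 fun c88 a88_1 a88_2 a88_3 q88 =>
  addK c1 a1_1 a1_2 a1_3 q1 c40 a40_1 a40_2 a40_3 q40 fun c89 a89_1 a89_2 a89_3 q89 =>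
  sqrtK c89 a89_1 a89_2 a89_3 q89 fun c90 a90_1 a90_2 a90_3 q90 =>
  smulK 2 1 1152921504606846977 2305843009213693952 c90 a90_1 a90_2 a90_3 q90 fun c92 a92_1 a92_2 a92_3 q92 =>
  addK c14 a14_1 a14_2 a14_3 q14 c92 a92_1 a92_2 a92_3 q92 fun c93 a93_1 a93_2 a93_3 q93 =>
  sqrtK c93 a93_1 a93_2 a93_3 q93 fun c94 a94_1 a94_2 a94_3 q94 =>
  addcK z2 1152921504606846976 (Nat.add w2 1152921504606846976) 1152921504606846976 0 1152922604118474752 0 fun c96 a96_1 a96_2 a96_3 q96 =>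
  addK c94 a94_1 a94_2 a94_3 q94 c96 a96_1 a96_2 a96_3 q96 fun c98 a98_1 a98_2 a98_3 q98 =>
  invK c98 a98_1 a98_2 a98_3 q98 fun c99 a99_1 a99_2 a99_3 q99 =>
  mulK c94 a94_1 a94_2 a94_3 q94 c96 a96_1 a96_2 a96_3 q96 fun c100 a100_1 a100_2 a100_3 q100 =>
  addK c100 a100_1 a100_2 a100_3 q100 c14 a14_1 a14_2 a14_3 q14 fun c101 a101_1 a101_2 a101_3 q101 =>
  invK c101 a101_1 a101_2 a101_3 q101 fun c102 a102_1 a102_2 a102_3 q102 =>
  addK c14 a14_1 a14_2 a14_3 q14 z2 1152921504606846976 (Nat.add w2 1152921504606846976) 1152921504606846976 0 fun c103 a103_1 a103_2 a103_3 q103 =>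
  mulK c103 a103_1 a103_2 a103_3 q103 c102 a102_1 a102_2 a102_3 q102 fun c104 a104_1 a104_2 a104_3 q104 =>
  addcK c104 a104_1 a104_2 a104_3 q104 1152922604118474752 0 fun c106 a106_1 a106_2 a106_3 q106 =>
  mulK c106 a106_1 a106_2 a106_3 q106 c99 a99_1 a99_2 a99_3 q99 fun c108 a108_1 a108_2 a108_3 q108 =>
  addK c88 a88_1 a88_2 a88_3 q88 c108 a108_1 a108_2 a108_3 q108 fun c111 a111_1 a111_2 a111_3 q111 =>
  mulK c10 a10_1 a10_2 a10_3 q10 c111 a111_1 a111_2 a111_3 q111 fun c113 a113_1 a113_2 a113_3 q113 =>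
  smulK 1 4 4611686018427387908 1152921504606846976 c113 a113_1 a113_2 a113_3 q113 fun c114 a114_1 a114_2 a114_3 q114 =>
  mulK z2 1152921504606846976 (Nat.add w2 1152921504606846976) 1152921504606846976 0 z1 (Nat.add w1 1152921504606846976) 1152921504606846976 1152921504606846976 0 fun c116 a116_1 a116_2 a116_3 q116 =>
  addcK c116 a116_1 a116_2 a116_3 q116 1152922604118474752 0 fun c117 a117_1 a117_2 a117_3 q117 =>
  addcK c25 a25_1 a25_2 a25_3 q25 1152922604118474752 0 fun c119 a119_1 a119_2 a119_3 q119 =>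
  invK c119 a119_1 a119_2 a119_3 q119 fun c121 a121_1 a121_2 a121_3 q121 =>
  mulK c117 a117_1 a117_2 a117_3 q117 c121 a121_1 a121_2 a121_3 q121 fun c124 a124_1 a124_2 a124_3 q124 =>
  negK c124 a124_1 a124_2 a124_3 q124 fun c125 a125_1 a125_2 a125_3 q125 =>
  addcK c125 a125_1 a125_2 a125_3 q125 1152923703630102528 0 fun c126 a126_1 a126_2 a126_3 q126 =>
  mulK c1 a1_1 a1_2 a1_3 q1 c126 a126_1 a126_2 a126_3 q126 fun c129 a129_1 a129_2 a129_3 q129 =>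
  addcK z1 (Nat.add w1 1152921504606846976) 1152921504606846976 1152921504606846976 0 1152922604118474752 0 fun c131 a131_1 a131_2 a131_3 q131 =>
  addcK c30 a30_1 a30_2 a30_3 q30 1152922604118474752 0 fun c133 a133_1 a133_2 a133_3 q133 =>
  invK c133 a133_1 a133_2 a133_3 q133 fun c135 a135_1 a135_2 a135_3 q135 =>
  mulK c131 a131_1 a131_2 a131_3 q131 c135 a135_1 a135_2 a135_3 q135 fun c138 a138_1 a138_2 a138_3 q138 =>
  negK c138 a138_1 a138_2 a138_3 q138 fun c139 a139_1 a139_2 a139_3 q139 =>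
  addcK c139 a139_1 a139_2 a139_3 q139 1152923703630102528 0 fun c140 a140_1 a140_2 a140_3 q140 =>
  subK c129 a129_1 a129_2 a129_3 q129 c140 a140_1 a140_2 a140_3 q140 fun c143 a143_1 a143_2 a143_3 q143 =>
  smulK 3 25 28823037615171174425 3458764513820540928 c143 a143_1 a143_2 a143_3 q143 fun c145 a145_1 a145_2 a145_3 q145 =>
  subK c114 a114_1 a114_2 a114_3 q114 c145 a145_1 a145_2 a145_3 q145 fun c146 a146_1 a146_2 a146_3 q146 =>
  mulK z3 1152921504606846976 1152921504606846976 (Nat.add w3 1152921504606846976) 0 c146 a146_1 a146_2 a146_3 q146 fun c148 a148_1 a148_2 a148_3 q148 =>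
  smulK 1 2 2305843009213693954 1152921504606846976 c143 a143_1 a143_2 a143_3 q143 fun c149 a149_1 a149_2 a149_3 q149 =>
  addK c148 a148_1 a148_2 a148_3 q148 c149 a149_1 a149_2 a149_3 q149 fun c150 a150_1 a150_2 a150_3 q150 =>
  mulK z3 1152921504606846976 1152921504606846976 (Nat.add w3 1152921504606846976) 0 c150 a150_1 a150_2 a150_3 q150 fun c151 a151_1 a151_2 a151_3 q151 =>
  smulK 2 1 1152921504606846977 2305843009213693952 c140 a140_1 a140_2 a140_3 q140 fun c152 a152_1 a152_2 a152_3 q152 =>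
  addK c151 a151_1 a151_2 a151_3 q151 c152 a152_1 a152_2 a152_3 q152 fun c153 a153_1 a153_2 a153_3 q153 =>
  posK c153 a153_1 a153_2 a153_3 q153 <|
  smulK 3 5 5764607523034234885 3458764513820540928 c153 a153_1 a153_2 a153_3 q153 fun c155 a155_1 a155_2 a155_3 q155 =>
  smulK 3 500 576460752303423488500 3458764513820540928 z3 1152921504606846976 1152921504606846976 (Nat.add w3 1152921504606846976) 0 fun c156 a156_1 a156_2 a156_3 q156 =>
  negK c156 a156_1 a156_2 a156_3 q156 fun c157 a157_1 a157_2 a157_3 q157 =>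
  addcK c157 a157_1 a157_2 a157_3 q157 1152922601919451496 1 fun c158 a158_1 a158_2 a158_3 q158 =>
  mulK c158 a158_1 a158_2 a158_3 q158 c5 a5_1 a5_2 a5_3 q5 fun c160 a160_1 a160_2 a160_3 q160 =>
  smulK 3 10 11529215046068469770 3458764513820540928 c129 a129_1 a129_2 a129_3 q129 fun c161 a161_1 a161_2 a161_3 q161 =>
  addK c160 a160_1 a160_2 a160_3 q160 c161 a161_1 a161_2 a161_3 q161 fun c162 a162_1 a162_2 a162_3 q162 =>
  smulK 7 25 28823037615171174425 8070450532247928832 c140 a140_1 a140_2 a140_3 q140 fun c163 a163_1 a163_2 a163_3 q163 =>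
  subK c162 a162_1 a162_2 a162_3 q162 c163 a163_1 a163_2 a163_3 q163 fun c164 a164_1 a164_2 a164_3 q164 =>
  smulK 2 1 1152921504606846977 2305843009213693952 c164 a164_1 a164_2 a164_3 q164 fun c166 a166_1 a166_2 a166_3 q166 =>
  subK c155 a155_1 a155_2 a155_3 q155 c166 a166_1 a166_2 a166_3 q166 fun c167 a167_1 a167_2 a167_3 q167 =>
  posK c167 a167_1 a167_2 a167_3 q167 <|
  smulK 4 1 1152921504606846977 4611686018427387904 c146 a146_1 a146_2 a146_3 q146 fun c168 a168_1 a168_2 a168_3 q168 =>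
  smulK 9 25 28823037615171174425 10376293541461622784 c153 a153_1 a153_2 a153_3 q153 fun c169 a169_1 a169_2 a169_3 q169 =>
  addK c168 a168_1 a168_2 a168_3 q168 c169 a169_1 a169_2 a169_3 q169 fun c170 a170_1 a170_2 a170_3 q170 =>
  smulK 12 5 5764607523034234885 13835058055282163712 c164 a164_1 a164_2 a164_3 q164 fun c171 a171_1 a171_2 a171_3 q171 =>
  subK c170 a170_1 a170_2 a170_3 q170 c171 a171_1 a171_2 a171_3 q171 fun c172 a172_1 a172_2 a172_3 q172 =>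
  pos c172 a172_1 a172_2 a172_3 q172

theorem alt1_s {z1 w1 z2 w2 z3 w3 : ℕ} {e1 e2 e3 T c s : ℝ} (he : Ev e1 e2 e3)
    (hx1 : In e1 e2 e3 z1 (Nat.add w1 1152921504606846976) 1152921504606846976 1152921504606846976 0 T)
    (hx2 : In e1 e2 e3 z2 1152921504606846976 (Nat.add w2 1152921504606846976) 1152921504606846976 0 c)
    (hx3 : In e1 e2 e3 z3 1152921504606846976 1152921504606846976 (Nat.add w3 1152921504606846976) 0 s)
    (H0 : alt1 z1 w1 z2 w2 z3 w3 = true) : 0 < (a T c s) ∧ 0 < (((3/5:ℝ) * (a T c s)) - ((2:ℝ) * (X T c s))) ∧ 0 < ((((4:ℝ) * (gg T c s)) + ((9/25:ℝ) * (a T c s))) - ((12/5:ℝ) * (X T c s))) := by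
  unfold alt1 at H0
  refine sqK_s he hx2 (fun _ _ _ _ _ h1 H1 => ?_) H0
  have h2 := In_cast h1 (sq _)
  have h3 := In_cast (w := (c2 T c s)) h2 rfl
  refine negK_s he h3 (fun _ _ _ _ _ h4 H2 => ?_) H1
  refine addcK_s he h4 (v' := (1:ℝ)) (by norm_num [SS, BB, abs_le]) (fun _ _ _ _ _ h5 H3 => ?_) H2
  have h6 := In_cast h5 (neg_add_eq_sub _ _)
  have h7 := In_cast (w := (d T c s)) h6 rfl
  refine sqK_s he h7 (fun _ _ _ _ _ h8 H4 => ?_) H3
  have h9 := In_cast h8 (sq _)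
  refine mulK_s he hx1 h9 (fun _ _ _ _ _ h10 H5 => ?_) H4
  refine sqK_s he hx1 (fun _ _ _ _ _ h11 H6 => ?_) H5
  have h12 := In_cast h11 (sq _)
  have h13 := In_cast (w := (T2 T c s)) h12 rfl
  refine addcK_s he h3 (v' := (1:ℝ)) (by norm_num [SS, BB, abs_le]) (fun _ _ _ _ _ h14 H7 => ?_) H6
  have h15 := In_cast h14 (add_comm _ _)
  refine mulK_s he h13 h15 (fun _ _ _ _ _ h16 H8 => ?_) H7
  refine negK_s he h16 (fun _ _ _ _ _ h17 H9 => ?_) H8
  refine addcK_s he h17 (v' := (2:ℝ)) (by norm_num [SS, BB, abs_le]) (fun _ _ _ _ _ h18 H10 => ?_) H9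
  have h19 := In_cast h18 (neg_add_eq_sub _ _)
  have h20 := In_cast (w := (P T c s)) h19 rfl
  refine mulK_s he h3 h13 (fun _ _ _ _ _ h21 H11 => ?_) H10
  refine negK_s he h21 (fun _ _ _ _ _ h22 H12 => ?_) H11
  refine addcK_s he h22 (v' := (1:ℝ)) (by norm_num [SS, BB, abs_le]) (fun _ _ _ _ _ h23 H13 => ?_) H12
  have h24 := In_cast h23 (neg_add_eq_sub _ _)
  refine sqrtK_s he h24 (fun _ _ _ _ _ h25 H14 => ?_) H13
  have h26 := In_cast (w := (r0 T c s)) h25 rfl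
  refine negK_s he h13 (fun _ _ _ _ _ h27 H15 => ?_) H14
  refine addcK_s he h27 (v' := (1:ℝ)) (by norm_num [SS, BB, abs_le]) (fun _ _ _ _ _ h28 H16 => ?_) H15
  have h29 := In_cast h28 (neg_add_eq_sub _ _)
  refine sqrtK_s he h29 (fun _ _ _ _ _ h30 H17 => ?_) H16
  have h31 := In_cast (w := (r1 T c s)) h30 rfl
  refine mulK_s he h26 h31 (fun _ _ _ _ _ h32 H18 => ?_) H17
  have h33 := In_cast (w := (pi0 T c s)) h32 rfl
  refine sqK_s he h33 (fun _ _ _ _ _ h34 H19 => ?_) H18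
  have h35 := In_cast h34 (sq _)
  refine mulK_s he hx3 h7 (fun _ _ _ _ _ h36 H20 => ?_) H19
  refine smulK_s he (w := (1/2:ℝ)) (by norm_num) (by norm_num) (by norm_num) (by norm_num) h36 (fun _ _ _ _ _ h37 H21 => ?_) H20
  have h38 := In_cast h37 (div_c (c := (2:ℝ)) (by norm_num))
  have h39 := In_cast (w := (hh T c s)) h38 rfl
  refine sqK_s he h39 (fun _ _ _ _ _ h40 H22 => ?_) H21
  have h41 := In_cast h40 (sq _)
  have h42 := In_cast (w := (hq T c s)) h41 rfl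
  refine sqK_s he h13 (fun _ _ _ _ _ h43 H23 => ?_) H22
  have h44 := In_cast h43 (sq _)
  refine mulK_s he h42 h44 (fun _ _ _ _ _ h45 H24 => ?_) H23
  have h46 := In_cast (w := (w T c s)) h45 rfl
  refine addK_s he h35 h46 (fun _ _ _ _ _ h47 H25 => ?_) H24
  refine sqrtK_s he h47 (fun _ _ _ _ _ h48 H26 => ?_) H25
  have h49 := In_cast (w := (pi T c s)) h48 rfl
  refine smulK_s he (w := (2:ℝ)) (by norm_num) (by norm_num) (by norm_num) (by norm_num) h49 (fun _ _ _ _ _ h50 H27 => ?_) H26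
  refine addK_s he h20 h50 (fun _ _ _ _ _ h51 H28 => ?_) H27
  refine sqrtK_s he h51 (fun _ _ _ _ _ h52 H29 => ?_) H28
  have h53 := In_cast (w := (sg T c s)) h52 rfl
  refine addK_s he h53 h26 (fun _ _ _ _ _ h54 H30 => ?_) H29
  refine addK_s he h54 h31 (fun _ _ _ _ _ h55 H31 => ?_) H30
  have h56 := In_cast (w := (ss T c s)) h55 rfl
  refine addK_s he h49 h33 (fun _ _ _ _ _ h57 H32 => ?_) H31
  refine mulK_s he h56 h57 (fun _ _ _ _ _ h58 H33 => ?_) H32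
  refine invK_s he h58 (fun _ _ _ _ _ h59 H34 => ?_) H33
  refine subK_s he h20 h33 (fun _ _ _ _ _ h60 H35 => ?_) H34
  refine smulK_s he (w := (2:ℝ)) (by norm_num) (by norm_num) (by norm_num) (by norm_num) h60 (fun _ _ _ _ _ h61 H36 => ?_) H35
  refine mulK_s he h53 h56 (fun _ _ _ _ _ h62 H37 => ?_) H36
  refine subK_s he h61 h62 (fun _ _ _ _ _ h63 H38 => ?_) H37
  refine smulK_s he (w := (2479/5000:ℝ)) (by norm_num) (by norm_num) (by norm_num) (by norm_num) h63 (fun _ _ _ _ _ h64 H39 => ?_) H38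
  refine negK_s he h64 (fun _ _ _ _ _ h65 H40 => ?_) H39
  have h66 := In_cast h65 (neg_mul_c (c := (-2479/5000:ℝ)) (by norm_num))
  refine addcK_s he h66 (v' := (4:ℝ)) (by norm_num [SS, BB, abs_le]) (fun _ _ _ _ _ h67 H41 => ?_) H40
  have h68 := In_cast h67 (add_comm _ _)
  refine mulK_s he h68 h59 (fun _ _ _ _ _ h69 H42 => ?_) H41
  have h70 := In_cast h69 ((div_eq_mul_inv _ _).symm)
  refine smulK_s he (w := (1971/10000:ℝ)) (by norm_num) (by norm_num) (by norm_num) (by norm_num) h20 (fun _ _ _ _ _ h71 H43 => ?_) H42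
  refine negK_s he h71 (fun _ _ _ _ _ h72 H44 => ?_) H43
  have h73 := In_cast h72 (neg_mul_c (c := (-1971/10000:ℝ)) (by norm_num))
  refine negK_s he h73 (fun _ _ _ _ _ h74 H45 => ?_) H44
  refine addcK_s he h74 (v' := (-1391/2500:ℝ)) (by norm_num [SS, BB, abs_le]) (fun _ _ _ _ _ h75 H46 => ?_) H45
  have h76 := In_cast h75 (neg_add_eq_sub _ _)
  refine smulK_s he (w := (2:ℝ)) (by norm_num) (by norm_num) (by norm_num) (by norm_num) h35 (fun _ _ _ _ _ h77 H47 => ?_) H46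
  refine addK_s he h77 h46 (fun _ _ _ _ _ h78 H48 => ?_) H47
  refine smulK_s he (w := (2:ℝ)) (by norm_num) (by norm_num) (by norm_num) (by norm_num) h78 (fun _ _ _ _ _ h79 H49 => ?_) H48
  refine sqK_s he h20 (fun _ _ _ _ _ h80 H50 => ?_) H49
  have h81 := In_cast h80 (sq _)
  refine smulK_s he (w := (4:ℝ)) (by norm_num) (by norm_num) (by norm_num) (by norm_num) h81 (fun _ _ _ _ _ h82 H51 => ?_) H50
  refine subK_s he h79 h82 (fun _ _ _ _ _ h83 H52 => ?_) H51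
  refine smulK_s he (w := (24/625:ℝ)) (by norm_num) (by norm_num) (by norm_num) (by norm_num) h83 (fun _ _ _ _ _ h84 H53 => ?_) H52
  refine addK_s he h76 h84 (fun _ _ _ _ _ h85 H54 => ?_) H53
  have h86 := In_cast (w := (Gp T c s)) h85 rfl
  refine addK_s he h70 h86 (fun _ _ _ _ _ h87 H55 => ?_) H54
  refine mulK_s he hx1 h87 (fun _ _ _ _ _ h88 H56 => ?_) H55
  refine addK_s he h3 h42 (fun _ _ _ _ _ h89 H57 => ?_) H56
  refine sqrtK_s he h89 (fun _ _ _ _ _ h90 H58 => ?_) H57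
  have h91 := In_cast (w := (b T c s)) h90 rfl
  refine smulK_s he (w := (2:ℝ)) (by norm_num) (by norm_num) (by norm_num) (by norm_num) h91 (fun _ _ _ _ _ h92 H59 => ?_) H58
  refine addK_s he h15 h92 (fun _ _ _ _ _ h93 H60 => ?_) H59
  refine sqrtK_s he h93 (fun _ _ _ _ _ h94 H61 => ?_) H60
  have h95 := In_cast (w := (v T c s)) h94 rfl
  refine addcK_s he hx2 (v' := (1:ℝ)) (by norm_num [SS, BB, abs_le]) (fun _ _ _ _ _ h96 H62 => ?_) H61
  have h97 := In_cast h96 (add_comm _ _)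
  refine addK_s he h95 h97 (fun _ _ _ _ _ h98 H63 => ?_) H62
  refine invK_s he h98 (fun _ _ _ _ _ h99 H64 => ?_) H63
  refine mulK_s he h95 h97 (fun _ _ _ _ _ h100 H65 => ?_) H64
  refine addK_s he h100 h15 (fun _ _ _ _ _ h101 H66 => ?_) H65
  refine invK_s he h101 (fun _ _ _ _ _ h102 H67 => ?_) H66
  refine addK_s he h15 hx2 (fun _ _ _ _ _ h103 H68 => ?_) H67
  refine mulK_s he h103 h102 (fun _ _ _ _ _ h104 H69 => ?_) H68
  have h105 := In_cast h104 ((div_eq_mul_inv _ _).symm)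
  refine addcK_s he h105 (v' := (1:ℝ)) (by norm_num [SS, BB, abs_le]) (fun _ _ _ _ _ h106 H70 => ?_) H69
  have h107 := In_cast h106 (add_comm _ _)
  refine mulK_s he h107 h99 (fun _ _ _ _ _ h108 H71 => ?_) H70
  have h109 := In_cast h108 ((div_eq_mul_inv _ _).symm)
  have h110 := In_cast (w := (GW T c s)) h109 rfl
  refine addK_s he h88 h110 (fun _ _ _ _ _ h111 H72 => ?_) H71
  have h112 := In_cast (w := (G T c s)) h111 rfl
  refine mulK_s he h10 h112 (fun _ _ _ _ _ h113 H73 => ?_) H72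
  refine smulK_s he (w := (1/4:ℝ)) (by norm_num) (by norm_num) (by norm_num) (by norm_num) h113 (fun _ _ _ _ _ h114 H74 => ?_) H73
  have h115 := In_cast h114 (div_c (c := (4:ℝ)) (by norm_num))
  refine mulK_s he hx2 hx1 (fun _ _ _ _ _ h116 H75 => ?_) H74
  refine addcK_s he h116 (v' := (1:ℝ)) (by norm_num [SS, BB, abs_le]) (fun _ _ _ _ _ h117 H76 => ?_) H75
  have h118 := In_cast h117 (add_comm _ _)
  refine addcK_s he h26 (v' := (1:ℝ)) (by norm_num [SS, BB, abs_le]) (fun _ _ _ _ _ h119 H77 => ?_) H76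
  have h120 := In_cast h119 (add_comm _ _)
  refine invK_s he h120 (fun _ _ _ _ _ h121 H78 => ?_) H77
  have h122 := In_cast h121 (inv_eq_one_div _)
  have h123 := In_cast (w := (i0 T c s)) h122 rfl
  refine mulK_s he h118 h123 (fun _ _ _ _ _ h124 H79 => ?_) H78
  refine negK_s he h124 (fun _ _ _ _ _ h125 H80 => ?_) H79
  refine addcK_s he h125 (v' := (2:ℝ)) (by norm_num [SS, BB, abs_le]) (fun _ _ _ _ _ h126 H81 => ?_) H80
  have h127 := In_cast h126 (neg_add_eq_sub _ _)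
  have h128 := In_cast (w := (U0 T c s)) h127 rfl
  refine mulK_s he h3 h128 (fun _ _ _ _ _ h129 H82 => ?_) H81
  have h130 := In_cast (w := (V0 T c s)) h129 rfl
  refine addcK_s he hx1 (v' := (1:ℝ)) (by norm_num [SS, BB, abs_le]) (fun _ _ _ _ _ h131 H83 => ?_) H82
  have h132 := In_cast h131 (add_comm _ _)
  refine addcK_s he h31 (v' := (1:ℝ)) (by norm_num [SS, BB, abs_le]) (fun _ _ _ _ _ h133 H84 => ?_) H83
  have h134 := In_cast h133 (add_comm _ _)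
  refine invK_s he h134 (fun _ _ _ _ _ h135 H85 => ?_) H84
  have h136 := In_cast h135 (inv_eq_one_div _)
  have h137 := In_cast (w := (i1 T c s)) h136 rfl
  refine mulK_s he h132 h137 (fun _ _ _ _ _ h138 H86 => ?_) H85
  refine negK_s he h138 (fun _ _ _ _ _ h139 H87 => ?_) H86
  refine addcK_s he h139 (v' := (2:ℝ)) (by norm_num [SS, BB, abs_le]) (fun _ _ _ _ _ h140 H88 => ?_) H87
  have h141 := In_cast h140 (neg_add_eq_sub _ _)
  have h142 := In_cast (w := (U1 T c s)) h141 rfl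
  refine subK_s he h130 h142 (fun _ _ _ _ _ h143 H89 => ?_) H88
  have h144 := In_cast (w := (D T c s)) h143 rfl
  refine smulK_s he (w := (3/25:ℝ)) (by norm_num) (by norm_num) (by norm_num) (by norm_num) h144 (fun _ _ _ _ _ h145 H90 => ?_) H89
  refine subK_s he h115 h145 (fun _ _ _ _ _ h146 H91 => ?_) H90
  have h147 := In_cast (w := (gg T c s)) h146 rfl
  refine mulK_s he hx3 h147 (fun _ _ _ _ _ h148 H92 => ?_) H91
  refine smulK_s he (w := (1/2:ℝ)) (by norm_num) (by norm_num) (by norm_num) (by norm_num) h144 (fun _ _ _ _ _ h149 H93 => ?_) H92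
  refine addK_s he h148 h149 (fun _ _ _ _ _ h150 H94 => ?_) H93
  refine mulK_s he hx3 h150 (fun _ _ _ _ _ h151 H95 => ?_) H94
  refine smulK_s he (w := (2:ℝ)) (by norm_num) (by norm_num) (by norm_num) (by norm_num) h142 (fun _ _ _ _ _ h152 H96 => ?_) H95
  refine addK_s he h151 h152 (fun _ _ _ _ _ h153 H97 => ?_) H96
  have h154 := In_cast (w := (a T c s)) h153 rfl
  refine posK_s he h154 (fun p0 H98 => ?_) H97
  refine smulK_s he (w := (3/5:ℝ)) (by norm_num) (by norm_num) (by norm_num) (by norm_num) h154 (fun _ _ _ _ _ h155 H99 => ?_) H98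
  refine smulK_s he (w := (3/500:ℝ)) (by norm_num) (by norm_num) (by norm_num) (by norm_num) hx3 (fun _ _ _ _ _ h156 H100 => ?_) H99
  refine negK_s he h156 (fun _ _ _ _ _ h157 H101 => ?_) H100
  refine addcK_s he h157 (v' := (499/500:ℝ)) (by norm_num [SS, BB, abs_le]) (fun _ _ _ _ _ h158 H102 => ?_) H101
  have h159 := In_cast h158 (neg_add_eq_sub _ _)
  refine mulK_s he h159 h7 (fun _ _ _ _ _ h160 H103 => ?_) H102
  refine smulK_s he (w := (3/10:ℝ)) (by norm_num) (by norm_num) (by norm_num) (by norm_num) h130 (fun _ _ _ _ _ h161 H104 => ?_) H103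
  refine addK_s he h160 h161 (fun _ _ _ _ _ h162 H105 => ?_) H104
  refine smulK_s he (w := (7/25:ℝ)) (by norm_num) (by norm_num) (by norm_num) (by norm_num) h142 (fun _ _ _ _ _ h163 H106 => ?_) H105
  refine subK_s he h162 h163 (fun _ _ _ _ _ h164 H107 => ?_) H106
  have h165 := In_cast (w := (X T c s)) h164 rfl
  refine smulK_s he (w := (2:ℝ)) (by norm_num) (by norm_num) (by norm_num) (by norm_num) h165 (fun _ _ _ _ _ h166 H108 => ?_) H107
  refine subK_s he h155 h166 (fun _ _ _ _ _ h167 H109 => ?_) H108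
  refine posK_s he h167 (fun p1 H110 => ?_) H109
  refine smulK_s he (w := (4:ℝ)) (by norm_num) (by norm_num) (by norm_num) (by norm_num) h147 (fun _ _ _ _ _ h168 H111 => ?_) H110
  refine smulK_s he (w := (9/25:ℝ)) (by norm_num) (by norm_num) (by norm_num) (by norm_num) h154 (fun _ _ _ _ _ h169 H112 => ?_) H111
  refine addK_s he h168 h169 (fun _ _ _ _ _ h170 H113 => ?_) H112
  refine smulK_s he (w := (12/5:ℝ)) (by norm_num) (by norm_num) (by norm_num) (by norm_num) h165 (fun _ _ _ _ _ h171 H114 => ?_) H113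
  refine subK_s he h170 h171 (fun _ _ _ _ _ h172 H115 => ?_) H114
  exact ⟨p0, p1, pos_s he h172 H115⟩

attribute [irreducible] alt0 alt1

noncomputable def leaf (j u z1 w1 z2 w2 z3 w3 : ℕ) : Bool :=
  sB j (alt0 z1 w1 z2 w2 z3 w3) fun j => alt1 z1 w1 z2 w2 z3 w3

theorem snd : Snd Q leaf := by
  intro j u z1 w1 z2 w2 z3 w3 e1 e2 e3 he H
  unfold leaf at H
  unfold Q
  replace H := sel H
  rcases H with H | ⟨j, H⟩
  · exact Or.inl (alt0_s he (var1 z1 w1) (var2 z2 w2) (var3 z3 w3) H)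
  exact Or.inr (alt1_s he (var1 z1 w1) (var2 z2 w2) (var3 z3 w3) H)

end Crest.Agent.R307.UB7P
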