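import Crest.Agent.R307.IA3
import Crest.Agent.R307.IAx
set_option autoImplicit false
set_option linter.unusedVariables false
set_option maxRecDepth 20000
namespace Crest.Agent.R307.UB7Q
open Crest.Agent.R307.IA Crest.Agent.R307.IA3

theorem In_cast {e1 e2 e3 : ℝ} {x y1 y2 y3 r : ℕ} {v w : ℝ}
    (h : In e1 e2 e3 x y1 y2 y3 r v) (e : v = w) : In e1 e2 e3 x y1 y2 y3 r w := e ▸ h

noncomputable def d (u ta s : ℝ) : ℝ := ((1:ℝ) - (ta * ta))
noncomputable def iu (u ta s : ℝ) : ℝ := ((1:ℝ) / ((1:ℝ) + (u * u)))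
noncomputable def R (u ta s : ℝ) : ℝ := (((2:ℝ) * (iu u ta s)) - (1:ℝ))
noncomputable def R2 (u ta s : ℝ) : ℝ := ((R u ta s) * (R u ta s))
noncomputable def Ph (u ta s : ℝ) : ℝ := ((1:ℝ) + (ta * ta))
noncomputable def hh (u ta s : ℝ) : ℝ := ((s * (d u ta s)) / (2:ℝ))
noncomputable def hq (u ta s : ℝ) : ℝ := ((hh u ta s) * (hh u ta s))
noncomputable def om (u ta s : ℝ) : ℝ := (√((ta * ta) + (hq u ta s)))
noncomputable def sg (u ta s : ℝ) : ℝ := (√((Ph u ta s) + ((2:ℝ) * (om u ta s))))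
noncomputable def ss (u ta s : ℝ) : ℝ := (((sg u ta s) + (1:ℝ)) + ta)
noncomputable def P (u ta s : ℝ) : ℝ := ((R2 u ta s) * (Ph u ta s))
noncomputable def R4 (u ta s : ℝ) : ℝ := ((R2 u ta s) * (R2 u ta s))
noncomputable def Gp (u ta s : ℝ) : ℝ := (((-1391/2500:ℝ) - ((-1971/10000:ℝ) * (P u ta s))) + ((24/625:ℝ) * (((R4 u ta s) * ((2:ℝ) * (((om u ta s) * (om u ta s)) + (ta * ta)))) - ((4:ℝ) * ((P u ta s) * (P u ta s))))))
noncomputable def Pp (u ta s : ℝ) : ℝ := ((2:ℝ) - (P u ta s))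
noncomputable def t0 (u ta s : ℝ) : ℝ := (((2:ℝ) * u) * (iu u ta s))
noncomputable def r1 (u ta s : ℝ) : ℝ := ((R u ta s) * ta)
noncomputable def t1 (u ta s : ℝ) : ℝ := (√((1:ℝ) - ((r1 u ta s) * (r1 u ta s))))
noncomputable def b0 (u ta s : ℝ) : ℝ := ((t0 u ta s) * (t1 u ta s))
noncomputable def b (u ta s : ℝ) : ℝ := (√(((b0 u ta s) * (b0 u ta s)) + ((R4 u ta s) * (hq u ta s))))
noncomputable def v (u ta s : ℝ) : ℝ := (√((Pp u ta s) + ((2:ℝ) * (b u ta s))))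
noncomputable def v0 (u ta s : ℝ) : ℝ := ((t0 u ta s) + (t1 u ta s))
noncomputable def GW (u ta s : ℝ) : ℝ := (((1:ℝ) + (((Pp u ta s) + (b0 u ta s)) / (((v u ta s) * (v0 u ta s)) + (Pp u ta s)))) / ((v u ta s) + (v0 u ta s)))
noncomputable def Ga (u ta s : ℝ) : ℝ := ((((4:ℝ) + ((-2479/5000:ℝ) * ((R2 u ta s) * (((2:ℝ) * ((Ph u ta s) - ta)) - ((sg u ta s) * (ss u ta s)))))) / (ss u ta s)) + ((((R2 u ta s) * (R u ta s)) * ((om u ta s) + ta)) * ((Gp u ta s) + (GW u ta s))))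
noncomputable def U0 (u ta s : ℝ) : ℝ := ((((t0 u ta s) - (1:ℝ)) + (((1:ℝ) - (R u ta s)) * (2:ℝ))) + ((R u ta s) / ((1:ℝ) + (t0 u ta s))))
noncomputable def U1 (u ta s : ℝ) : ℝ := ((((1:ℝ) + (t1 u ta s)) - ((2:ℝ) * (r1 u ta s))) + ((r1 u ta s) / ((1:ℝ) + (t1 u ta s))))
noncomputable def V1 (u ta s : ℝ) : ℝ := (ta * (U1 u ta s))
noncomputable def D (u ta s : ℝ) : ℝ := ((U0 u ta s) - (V1 u ta s))
noncomputable def gg (u ta s : ℝ) : ℝ := (((((d u ta s) * (d u ta s)) * (Ga u ta s)) / ((4:ℝ) * ((om u ta s) + ta))) - ((3/25:ℝ) * (D u ta s)))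
noncomputable def a (u ta s : ℝ) : ℝ := ((s * ((s * (gg u ta s)) + ((1/2:ℝ) * (D u ta s)))) + ((2:ℝ) * (V1 u ta s)))
noncomputable def X (u ta s : ℝ) : ℝ := (((((499/500:ℝ) - ((3/500:ℝ) * s)) * ((R u ta s) * (d u ta s))) + ((3/10:ℝ) * (U0 u ta s))) - ((7/25:ℝ) * (V1 u ta s)))

def Q (u ta s : ℝ) : Prop :=
  (
  (0 < (a u ta s) ∧ 0 < (((a u ta s) * (gg u ta s)) - ((X u ta s) * (X u ta s)))) ∨
  (0 < (a u ta s) ∧ 0 < (((3/5:ℝ) * (a u ta s)) - ((2:ℝ) * (X u ta s))) ∧ 0 < ((((4:ℝ) * (gg u ta s)) + ((9/25:ℝ) * (a u ta s))) - ((12/5:ℝ) * (X u ta s)))) ∨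
  (0 < (((100:ℝ) * (r1 u ta s)) - (70:ℝ))))

noncomputable def alt0 (z1 w1 z2 w2 z3 w3 : ℕ) : Bool :=
  sqK z2 1152921504606846976 (Nat.add w2 1152921504606846976) 1152921504606846976 0 fun c1 a1_1 a1_2 a1_3 q1 =>
  negK c1 a1_1 a1_2 a1_3 q1 fun c3 a3_1 a3_2 a3_3 q3 =>
  addcK c3 a3_1 a3_2 a3_3 q3 1152922604118474752 0 fun c4 a4_1 a4_2 a4_3 q4 =>
  mulK z3 1152921504606846976 1152921504606846976 (Nat.add w3 1152921504606846976) 0 c4 a4_1 a4_2 a4_3 q4 fun c7 a7_1 a7_2 a7_3 q7 =>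
  smulK 1 2 2305843009213693954 1152921504606846976 c7 a7_1 a7_2 a7_3 q7 fun c8 a8_1 a8_2 a8_3 q8 =>
  sqK c8 a8_1 a8_2 a8_3 q8 fun c11 a11_1 a11_2 a11_3 q11 =>
  addK c1 a1_1 a1_2 a1_3 q1 c11 a11_1 a11_2 a11_3 q11 fun c14 a14_1 a14_2 a14_3 q14 =>
  sqrtK c14 a14_1 a14_2 a14_3 q14 fun c15 a15_1 a15_2 a15_3 q15 =>
  addK c15 a15_1 a15_2 a15_3 q15 z2 1152921504606846976 (Nat.add w2 1152921504606846976) 1152921504606846976 0 fun c17 a17_1 a17_2 a17_3 q17 =>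
  smulK 4 1 1152921504606846977 4611686018427387904 c17 a17_1 a17_2 a17_3 q17 fun c18 a18_1 a18_2 a18_3 q18 =>
  invK c18 a18_1 a18_2 a18_3 q18 fun c19 a19_1 a19_2 a19_3 q19 =>
  sqK c4 a4_1 a4_2 a4_3 q4 fun c20 a20_1 a20_2 a20_3 q20 =>
  addcK c1 a1_1 a1_2 a1_3 q1 1152922604118474752 0 fun c22 a22_1 a22_2 a22_3 q22 =>
  smulK 2 1 1152921504606846977 2305843009213693952 c15 a15_1 a15_2 a15_3 q15 fun c25 a25_1 a25_2 a25_3 q25 =>
  addK c22 a22_1 a22_2 a22_3 q22 c25 a25_1 a25_2 a25_3 q25 fun c26 a26_1 a26_2 a26_3 q26 =>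
  sqrtK c26 a26_1 a26_2 a26_3 q26 fun c27 a27_1 a27_2 a27_3 q27 =>
  addcK c27 a27_1 a27_2 a27_3 q27 1152922604118474752 0 fun c29 a29_1 a29_2 a29_3 q29 =>
  addK c29 a29_1 a29_2 a29_3 q29 z2 1152921504606846976 (Nat.add w2 1152921504606846976) 1152921504606846976 0 fun c30 a30_1 a30_2 a30_3 q30 =>
  invK c30 a30_1 a30_2 a30_3 q30 fun c32 a32_1 a32_2 a32_3 q32 =>
  sqK z1 (Nat.add w1 1152921504606846976) 1152921504606846976 1152921504606846976 0 fun c33 a33_1 a33_2 a33_3 q33 =>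
  addcK c33 a33_1 a33_2 a33_3 q33 1152922604118474752 0 fun c35 a35_1 a35_2 a35_3 q35 =>
  invK c35 a35_1 a35_2 a35_3 q35 fun c37 a37_1 a37_2 a37_3 q37 =>
  smulK 2 1 1152921504606846977 2305843009213693952 c37 a37_1 a37_2 a37_3 q37 fun c40 a40_1 a40_2 a40_3 q40 =>
  addcK c40 a40_1 a40_2 a40_3 q40 1152920405095219200 0 fun c41 a41_1 a41_2 a41_3 q41 =>
  sqK c41 a41_1 a41_2 a41_3 q41 fun c44 a44_1 a44_2 a44_3 q44 =>
  subK c22 a22_1 a22_2 a22_3 q22 z2 1152921504606846976 (Nat.add w2 1152921504606846976) 1152921504606846976 0 fun c47 a47_1 a47_2 a47_3 q47 =>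
  smulK 2 1 1152921504606846977 2305843009213693952 c47 a47_1 a47_2 a47_3 q47 fun c48 a48_1 a48_2 a48_3 q48 =>
  mulK c27 a27_1 a27_2 a27_3 q27 c30 a30_1 a30_2 a30_3 q30 fun c49 a49_1 a49_2 a49_3 q49 =>
  subK c48 a48_1 a48_2 a48_3 q48 c49 a49_1 a49_2 a49_3 q49 fun c50 a50_1 a50_2 a50_3 q50 =>
  mulK c44 a44_1 a44_2 a44_3 q44 c50 a50_1 a50_2 a50_3 q50 fun c51 a51_1 a51_2 a51_3 q51 =>
  smulK 2479 5000 5764607523034234885000 2858092409920373653504 c51 a51_1 a51_2 a51_3 q51 fun c52 a52_1 a52_2 a52_3 q52 =>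
  negK c52 a52_1 a52_2 a52_3 q52 fun c53 a53_1 a53_2 a53_3 q53 =>
  addcK c53 a53_1 a53_2 a53_3 q53 1152925902653358080 0 fun c55 a55_1 a55_2 a55_3 q55 =>
  mulK c55 a55_1 a55_2 a55_3 q55 c32 a32_1 a32_2 a32_3 q32 fun c57 a57_1 a57_2 a57_3 q57 =>
  mulK c44 a44_1 a44_2 a44_3 q44 c41 a41_1 a41_2 a41_3 q41 fun c59 a59_1 a59_2 a59_3 q59 =>
  mulK c59 a59_1 a59_2 a59_3 q59 c17 a17_1 a17_2 a17_3 q17 fun c60 a60_1 a60_2 a60_3 q60 =>
  mulK c44 a44_1 a44_2 a44_3 q44 c22 a22_1 a22_2 a22_3 q22 fun c61 a61_1 a61_2 a61_3 q61 =>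
  smulK 1971 10000 11529215046068469770000 2272408285580095389696 c61 a61_1 a61_2 a61_3 q61 fun c63 a63_1 a63_2 a63_3 q63 =>
  negK c63 a63_1 a63_2 a63_3 q63 fun c64 a64_1 a64_2 a64_3 q64 =>
  negK c64 a64_1 a64_2 a64_3 q64 fun c66 a66_1 a66_2 a66_3 q66 =>
  addcK c66 a66_1 a66_2 a66_3 q66 1152920892838577281 1 fun c67 a67_1 a67_2 a67_3 q67 =>
  sqK c44 a44_1 a44_2 a44_3 q44 fun c69 a69_1 a69_2 a69_3 q69 =>
  sqK c15 a15_1 a15_2 a15_3 q15 fun c72 a72_1 a72_2 a72_3 q72 =>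
  addK c72 a72_1 a72_2 a72_3 q72 c1 a1_1 a1_2 a1_3 q1 fun c74 a74_1 a74_2 a74_3 q74 =>
  smulK 2 1 1152921504606846977 2305843009213693952 c74 a74_1 a74_2 a74_3 q74 fun c75 a75_1 a75_2 a75_3 q75 =>
  mulK c69 a69_1 a69_2 a69_3 q69 c75 a75_1 a75_2 a75_3 q75 fun c76 a76_1 a76_2 a76_3 q76 =>
  sqK c61 a61_1 a61_2 a61_3 q61 fun c77 a77_1 a77_2 a77_3 q77 =>
  smulK 4 1 1152921504606846977 4611686018427387904 c77 a77_1 a77_2 a77_3 q77 fun c79 a79_1 a79_2 a79_3 q79 =>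
  subK c76 a76_1 a76_2 a76_3 q76 c79 a79_1 a79_2 a79_3 q79 fun c80 a80_1 a80_2 a80_3 q80 =>
  smulK 24 625 720575940379279360625 27670116110564327424 c80 a80_1 a80_2 a80_3 q80 fun c81 a81_1 a81_2 a81_3 q81 =>
  addK c67 a67_1 a67_2 a67_3 q67 c81 a81_1 a81_2 a81_3 q81 fun c82 a82_1 a82_2 a82_3 q82 =>
  negK c61 a61_1 a61_2 a61_3 q61 fun c84 a84_1 a84_2 a84_3 q84 =>
  addcK c84 a84_1 a84_2 a84_3 q84 1152923703630102528 0 fun c85 a85_1 a85_2 a85_3 q85 =>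
  smulK 2 1 1152921504606846977 2305843009213693952 z1 (Nat.add w1 1152921504606846976) 1152921504606846976 1152921504606846976 0 fun c88 a88_1 a88_2 a88_3 q88 =>
  mulK c88 a88_1 a88_2 a88_3 q88 c37 a37_1 a37_2 a37_3 q37 fun c89 a89_1 a89_2 a89_3 q89 =>
  mulK c41 a41_1 a41_2 a41_3 q41 z2 1152921504606846976 (Nat.add w2 1152921504606846976) 1152921504606846976 0 fun c91 a91_1 a91_2 a91_3 q91 =>
  sqK c91 a91_1 a91_2 a91_3 q91 fun c93 a93_1 a93_2 a93_3 q93 =>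
  negK c93 a93_1 a93_2 a93_3 q93 fun c95 a95_1 a95_2 a95_3 q95 =>
  addcK c95 a95_1 a95_2 a95_3 q95 1152922604118474752 0 fun c96 a96_1 a96_2 a96_3 q96 =>
  sqrtK c96 a96_1 a96_2 a96_3 q96 fun c98 a98_1 a98_2 a98_3 q98 =>
  mulK c89 a89_1 a89_2 a89_3 q89 c98 a98_1 a98_2 a98_3 q98 fun c100 a100_1 a100_2 a100_3 q100 =>
  sqK c100 a100_1 a100_2 a100_3 q100 fun c102 a102_1 a102_2 a102_3 q102 =>
  mulK c69 a69_1 a69_2 a69_3 q69 c11 a11_1 a11_2 a11_3 q11 fun c104 a104_1 a104_2 a104_3 q104 =>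
  addK c102 a102_1 a102_2 a102_3 q102 c104 a104_1 a104_2 a104_3 q104 fun c105 a105_1 a105_2 a105_3 q105 =>
  sqrtK c105 a105_1 a105_2 a105_3 q105 fun c106 a106_1 a106_2 a106_3 q106 =>
  smulK 2 1 1152921504606846977 2305843009213693952 c106 a106_1 a106_2 a106_3 q106 fun c108 a108_1 a108_2 a108_3 q108 =>
  addK c85 a85_1 a85_2 a85_3 q85 c108 a108_1 a108_2 a108_3 q108 fun c109 a109_1 a109_2 a109_3 q109 =>
  sqrtK c109 a109_1 a109_2 a109_3 q109 fun c110 a110_1 a110_2 a110_3 q110 =>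
  addK c89 a89_1 a89_2 a89_3 q89 c98 a98_1 a98_2 a98_3 q98 fun c112 a112_1 a112_2 a112_3 q112 =>
  addK c110 a110_1 a110_2 a110_3 q110 c112 a112_1 a112_2 a112_3 q112 fun c114 a114_1 a114_2 a114_3 q114 =>
  invK c114 a114_1 a114_2 a114_3 q114 fun c115 a115_1 a115_2 a115_3 q115 =>
  mulK c110 a110_1 a110_2 a110_3 q110 c112 a112_1 a112_2 a112_3 q112 fun c116 a116_1 a116_2 a116_3 q116 =>
  addK c116 a116_1 a116_2 a116_3 q116 c85 a85_1 a85_2 a85_3 q85 fun c117 a117_1 a117_2 a117_3 q117 =>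
  invK c117 a117_1 a117_2 a117_3 q117 fun c118 a118_1 a118_2 a118_3 q118 =>
  addK c85 a85_1 a85_2 a85_3 q85 c100 a100_1 a100_2 a100_3 q100 fun c119 a119_1 a119_2 a119_3 q119 =>
  mulK c119 a119_1 a119_2 a119_3 q119 c118 a118_1 a118_2 a118_3 q118 fun c120 a120_1 a120_2 a120_3 q120 =>
  addcK c120 a120_1 a120_2 a120_3 q120 1152922604118474752 0 fun c122 a122_1 a122_2 a122_3 q122 =>
  mulK c122 a122_1 a122_2 a122_3 q122 c115 a115_1 a115_2 a115_3 q115 fun c124 a124_1 a124_2 a124_3 q124 =>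
  addK c82 a82_1 a82_2 a82_3 q82 c124 a124_1 a124_2 a124_3 q124 fun c127 a127_1 a127_2 a127_3 q127 =>
  mulK c60 a60_1 a60_2 a60_3 q60 c127 a127_1 a127_2 a127_3 q127 fun c128 a128_1 a128_2 a128_3 q128 =>
  addK c57 a57_1 a57_2 a57_3 q57 c128 a128_1 a128_2 a128_3 q128 fun c129 a129_1 a129_2 a129_3 q129 =>
  mulK c20 a20_1 a20_2 a20_3 q20 c129 a129_1 a129_2 a129_3 q129 fun c131 a131_1 a131_2 a131_3 q131 =>
  mulK c131 a131_1 a131_2 a131_3 q131 c19 a19_1 a19_2 a19_3 q19 fun c132 a132_1 a132_2 a132_3 q132 =>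
  addcK c89 a89_1 a89_2 a89_3 q89 1152920405095219200 0 fun c134 a134_1 a134_2 a134_3 q134 =>
  negK c41 a41_1 a41_2 a41_3 q41 fun c136 a136_1 a136_2 a136_3 q136 =>
  addcK c136 a136_1 a136_2 a136_3 q136 1152922604118474752 0 fun c137 a137_1 a137_2 a137_3 q137 =>
  smulK 2 1 1152921504606846977 2305843009213693952 c137 a137_1 a137_2 a137_3 q137 fun c139 a139_1 a139_2 a139_3 q139 =>
  addK c134 a134_1 a134_2 a134_3 q134 c139 a139_1 a139_2 a139_3 q139 fun c141 a141_1 a141_2 a141_3 q141 =>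
  addcK c89 a89_1 a89_2 a89_3 q89 1152922604118474752 0 fun c142 a142_1 a142_2 a142_3 q142 =>
  invK c142 a142_1 a142_2 a142_3 q142 fun c144 a144_1 a144_2 a144_3 q144 =>
  mulK c41 a41_1 a41_2 a41_3 q41 c144 a144_1 a144_2 a144_3 q144 fun c145 a145_1 a145_2 a145_3 q145 =>
  addK c141 a141_1 a141_2 a141_3 q141 c145 a145_1 a145_2 a145_3 q145 fun c147 a147_1 a147_2 a147_3 q147 =>
  addcK c98 a98_1 a98_2 a98_3 q98 1152922604118474752 0 fun c149 a149_1 a149_2 a149_3 q149 =>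
  smulK 2 1 1152921504606846977 2305843009213693952 c91 a91_1 a91_2 a91_3 q91 fun c151 a151_1 a151_2 a151_3 q151 =>
  subK c149 a149_1 a149_2 a149_3 q149 c151 a151_1 a151_2 a151_3 q151 fun c152 a152_1 a152_2 a152_3 q152 =>
  invK c149 a149_1 a149_2 a149_3 q149 fun c153 a153_1 a153_2 a153_3 q153 =>
  mulK c91 a91_1 a91_2 a91_3 q91 c153 a153_1 a153_2 a153_3 q153 fun c154 a154_1 a154_2 a154_3 q154 =>
  addK c152 a152_1 a152_2 a152_3 q152 c154 a154_1 a154_2 a154_3 q154 fun c156 a156_1 a156_2 a156_3 q156 =>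
  mulK z2 1152921504606846976 (Nat.add w2 1152921504606846976) 1152921504606846976 0 c156 a156_1 a156_2 a156_3 q156 fun c158 a158_1 a158_2 a158_3 q158 =>
  subK c147 a147_1 a147_2 a147_3 q147 c158 a158_1 a158_2 a158_3 q158 fun c160 a160_1 a160_2 a160_3 q160 =>
  smulK 3 25 28823037615171174425 3458764513820540928 c160 a160_1 a160_2 a160_3 q160 fun c162 a162_1 a162_2 a162_3 q162 =>
  subK c132 a132_1 a132_2 a132_3 q132 c162 a162_1 a162_2 a162_3 q162 fun c163 a163_1 a163_2 a163_3 q163 =>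
  mulK z3 1152921504606846976 1152921504606846976 (Nat.add w3 1152921504606846976) 0 c163 a163_1 a163_2 a163_3 q163 fun c165 a165_1 a165_2 a165_3 q165 =>
  smulK 1 2 2305843009213693954 1152921504606846976 c160 a160_1 a160_2 a160_3 q160 fun c166 a166_1 a166_2 a166_3 q166 =>
  addK c165 a165_1 a165_2 a165_3 q165 c166 a166_1 a166_2 a166_3 q166 fun c167 a167_1 a167_2 a167_3 q167 =>
  mulK z3 1152921504606846976 1152921504606846976 (Nat.add w3 1152921504606846976) 0 c167 a167_1 a167_2 a167_3 q167 fun c168 a168_1 a168_2 a168_3 q168 =>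
  smulK 2 1 1152921504606846977 2305843009213693952 c158 a158_1 a158_2 a158_3 q158 fun c169 a169_1 a169_2 a169_3 q169 =>
  addK c168 a168_1 a168_2 a168_3 q168 c169 a169_1 a169_2 a169_3 q169 fun c170 a170_1 a170_2 a170_3 q170 =>
  posK c170 a170_1 a170_2 a170_3 q170 <|
  mulK c170 a170_1 a170_2 a170_3 q170 c163 a163_1 a163_2 a163_3 q163 fun c172 a172_1 a172_2 a172_3 q172 =>
  smulK 3 500 576460752303423488500 3458764513820540928 z3 1152921504606846976 1152921504606846976 (Nat.add w3 1152921504606846976) 0 fun c173 a173_1 a173_2 a173_3 q173 =>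
  negK c173 a173_1 a173_2 a173_3 q173 fun c174 a174_1 a174_2 a174_3 q174 =>
  addcK c174 a174_1 a174_2 a174_3 q174 1152922601919451496 1 fun c175 a175_1 a175_2 a175_3 q175 =>
  mulK c41 a41_1 a41_2 a41_3 q41 c4 a4_1 a4_2 a4_3 q4 fun c177 a177_1 a177_2 a177_3 q177 =>
  mulK c175 a175_1 a175_2 a175_3 q175 c177 a177_1 a177_2 a177_3 q177 fun c178 a178_1 a178_2 a178_3 q178 =>
  smulK 3 10 11529215046068469770 3458764513820540928 c147 a147_1 a147_2 a147_3 q147 fun c179 a179_1 a179_2 a179_3 q179 =>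
  addK c178 a178_1 a178_2 a178_3 q178 c179 a179_1 a179_2 a179_3 q179 fun c180 a180_1 a180_2 a180_3 q180 =>
  smulK 7 25 28823037615171174425 8070450532247928832 c158 a158_1 a158_2 a158_3 q158 fun c181 a181_1 a181_2 a181_3 q181 =>
  subK c180 a180_1 a180_2 a180_3 q180 c181 a181_1 a181_2 a181_3 q181 fun c182 a182_1 a182_2 a182_3 q182 =>
  sqK c182 a182_1 a182_2 a182_3 q182 fun c184 a184_1 a184_2 a184_3 q184 =>
  subK c172 a172_1 a172_2 a172_3 q172 c184 a184_1 a184_2 a184_3 q184 fun c186 a186_1 a186_2 a186_3 q186 =>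
  pos c186 a186_1 a186_2 a186_3 q186

theorem alt0_s {z1 w1 z2 w2 z3 w3 : ℕ} {e1 e2 e3 u ta s : ℝ} (he : Ev e1 e2 e3)
    (hx1 : In e1 e2 e3 z1 (Nat.add w1 1152921504606846976) 1152921504606846976 1152921504606846976 0 u)
    (hx2 : In e1 e2 e3 z2 1152921504606846976 (Nat.add w2 1152921504606846976) 1152921504606846976 0 ta)
    (hx3 : In e1 e2 e3 z3 1152921504606846976 1152921504606846976 (Nat.add w3 1152921504606846976) 0 s)
    (H0 : alt0 z1 w1 z2 w2 z3 w3 = true) : 0 < (a u ta s) ∧ 0 < (((a u ta s) * (gg u ta s)) - ((X u ta s) * (X u ta s))) := by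
  unfold alt0 at H0
  refine sqK_s he hx2 (fun _ _ _ _ _ h1 H1 => ?_) H0
  have h2 := In_cast h1 (sq _)
  refine negK_s he h2 (fun _ _ _ _ _ h3 H2 => ?_) H1
  refine addcK_s he h3 (v' := (1:ℝ)) (by norm_num [SS, BB, abs_le]) (fun _ _ _ _ _ h4 H3 => ?_) H2
  have h5 := In_cast h4 (neg_add_eq_sub _ _)
  have h6 := In_cast (w := (d u ta s)) h5 rfl
  refine mulK_s he hx3 h6 (fun _ _ _ _ _ h7 H4 => ?_) H3
  refine smulK_s he (w := (1/2:ℝ)) (by norm_num) (by norm_num) (by norm_num) (by norm_num) h7 (fun _ _ _ _ _ h8 H5 => ?_) H4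
  have h9 := In_cast h8 (div_c (c := (2:ℝ)) (by norm_num))
  have h10 := In_cast (w := (hh u ta s)) h9 rfl
  refine sqK_s he h10 (fun _ _ _ _ _ h11 H6 => ?_) H5
  have h12 := In_cast h11 (sq _)
  have h13 := In_cast (w := (hq u ta s)) h12 rfl
  refine addK_s he h2 h13 (fun _ _ _ _ _ h14 H7 => ?_) H6
  refine sqrtK_s he h14 (fun _ _ _ _ _ h15 H8 => ?_) H7
  have h16 := In_cast (w := (om u ta s)) h15 rfl
  refine addK_s he h16 hx2 (fun _ _ _ _ _ h17 H9 => ?_) H8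
  refine smulK_s he (w := (4:ℝ)) (by norm_num) (by norm_num) (by norm_num) (by norm_num) h17 (fun _ _ _ _ _ h18 H10 => ?_) H9
  refine invK_s he h18 (fun _ _ _ _ _ h19 H11 => ?_) H10
  refine sqK_s he h6 (fun _ _ _ _ _ h20 H12 => ?_) H11
  have h21 := In_cast h20 (sq _)
  refine addcK_s he h2 (v' := (1:ℝ)) (by norm_num [SS, BB, abs_le]) (fun _ _ _ _ _ h22 H13 => ?_) H12
  have h23 := In_cast h22 (add_comm _ _)
  have h24 := In_cast (w := (Ph u ta s)) h23 rfl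
  refine smulK_s he (w := (2:ℝ)) (by norm_num) (by norm_num) (by norm_num) (by norm_num) h16 (fun _ _ _ _ _ h25 H14 => ?_) H13
  refine addK_s he h24 h25 (fun _ _ _ _ _ h26 H15 => ?_) H14
  refine sqrtK_s he h26 (fun _ _ _ _ _ h27 H16 => ?_) H15
  have h28 := In_cast (w := (sg u ta s)) h27 rfl
  refine addcK_s he h28 (v' := (1:ℝ)) (by norm_num [SS, BB, abs_le]) (fun _ _ _ _ _ h29 H17 => ?_) H16
  refine addK_s he h29 hx2 (fun _ _ _ _ _ h30 H18 => ?_) H17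
  have h31 := In_cast (w := (ss u ta s)) h30 rfl
  refine invK_s he h31 (fun _ _ _ _ _ h32 H19 => ?_) H18
  refine sqK_s he hx1 (fun _ _ _ _ _ h33 H20 => ?_) H19
  have h34 := In_cast h33 (sq _)
  refine addcK_s he h34 (v' := (1:ℝ)) (by norm_num [SS, BB, abs_le]) (fun _ _ _ _ _ h35 H21 => ?_) H20
  have h36 := In_cast h35 (add_comm _ _)
  refine invK_s he h36 (fun _ _ _ _ _ h37 H22 => ?_) H21
  have h38 := In_cast h37 (inv_eq_one_div _)
  have h39 := In_cast (w := (iu u ta s)) h38 rfl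
  refine smulK_s he (w := (2:ℝ)) (by norm_num) (by norm_num) (by norm_num) (by norm_num) h39 (fun _ _ _ _ _ h40 H23 => ?_) H22
  refine addcK_s he h40 (v' := (-1:ℝ)) (by norm_num [SS, BB, abs_le]) (fun _ _ _ _ _ h41 H24 => ?_) H23
  have h42 := In_cast h41 (sub_c (c := (1:ℝ)) (by norm_num))
  have h43 := In_cast (w := (R u ta s)) h42 rfl
  refine sqK_s he h43 (fun _ _ _ _ _ h44 H25 => ?_) H24
  have h45 := In_cast h44 (sq _)
  have h46 := In_cast (w := (R2 u ta s)) h45 rfl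
  refine subK_s he h24 hx2 (fun _ _ _ _ _ h47 H26 => ?_) H25
  refine smulK_s he (w := (2:ℝ)) (by norm_num) (by norm_num) (by norm_num) (by norm_num) h47 (fun _ _ _ _ _ h48 H27 => ?_) H26
  refine mulK_s he h28 h31 (fun _ _ _ _ _ h49 H28 => ?_) H27
  refine subK_s he h48 h49 (fun _ _ _ _ _ h50 H29 => ?_) H28
  refine mulK_s he h46 h50 (fun _ _ _ _ _ h51 H30 => ?_) H29
  refine smulK_s he (w := (2479/5000:ℝ)) (by norm_num) (by norm_num) (by norm_num) (by norm_num) h51 (fun _ _ _ _ _ h52 H31 => ?_) H30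
  refine negK_s he h52 (fun _ _ _ _ _ h53 H32 => ?_) H31
  have h54 := In_cast h53 (neg_mul_c (c := (-2479/5000:ℝ)) (by norm_num))
  refine addcK_s he h54 (v' := (4:ℝ)) (by norm_num [SS, BB, abs_le]) (fun _ _ _ _ _ h55 H33 => ?_) H32
  have h56 := In_cast h55 (add_comm _ _)
  refine mulK_s he h56 h32 (fun _ _ _ _ _ h57 H34 => ?_) H33
  have h58 := In_cast h57 ((div_eq_mul_inv _ _).symm)
  refine mulK_s he h46 h43 (fun _ _ _ _ _ h59 H35 => ?_) H34
  refine mulK_s he h59 h17 (fun _ _ _ _ _ h60 H36 => ?_) H35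
  refine mulK_s he h46 h24 (fun _ _ _ _ _ h61 H37 => ?_) H36
  have h62 := In_cast (w := (P u ta s)) h61 rfl
  refine smulK_s he (w := (1971/10000:ℝ)) (by norm_num) (by norm_num) (by norm_num) (by norm_num) h62 (fun _ _ _ _ _ h63 H38 => ?_) H37
  refine negK_s he h63 (fun _ _ _ _ _ h64 H39 => ?_) H38
  have h65 := In_cast h64 (neg_mul_c (c := (-1971/10000:ℝ)) (by norm_num))
  refine negK_s he h65 (fun _ _ _ _ _ h66 H40 => ?_) H39
  refine addcK_s he h66 (v' := (-1391/2500:ℝ)) (by norm_num [SS, BB, abs_le]) (fun _ _ _ _ _ h67 H41 => ?_) H40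
  have h68 := In_cast h67 (neg_add_eq_sub _ _)
  refine sqK_s he h46 (fun _ _ _ _ _ h69 H42 => ?_) H41
  have h70 := In_cast h69 (sq _)
  have h71 := In_cast (w := (R4 u ta s)) h70 rfl
  refine sqK_s he h16 (fun _ _ _ _ _ h72 H43 => ?_) H42
  have h73 := In_cast h72 (sq _)
  refine addK_s he h73 h2 (fun _ _ _ _ _ h74 H44 => ?_) H43
  refine smulK_s he (w := (2:ℝ)) (by norm_num) (by norm_num) (by norm_num) (by norm_num) h74 (fun _ _ _ _ _ h75 H45 => ?_) H44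
  refine mulK_s he h71 h75 (fun _ _ _ _ _ h76 H46 => ?_) H45
  refine sqK_s he h62 (fun _ _ _ _ _ h77 H47 => ?_) H46
  have h78 := In_cast h77 (sq _)
  refine smulK_s he (w := (4:ℝ)) (by norm_num) (by norm_num) (by norm_num) (by norm_num) h78 (fun _ _ _ _ _ h79 H48 => ?_) H47
  refine subK_s he h76 h79 (fun _ _ _ _ _ h80 H49 => ?_) H48
  refine smulK_s he (w := (24/625:ℝ)) (by norm_num) (by norm_num) (by norm_num) (by norm_num) h80 (fun _ _ _ _ _ h81 H50 => ?_) H49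
  refine addK_s he h68 h81 (fun _ _ _ _ _ h82 H51 => ?_) H50
  have h83 := In_cast (w := (Gp u ta s)) h82 rfl
  refine negK_s he h62 (fun _ _ _ _ _ h84 H52 => ?_) H51
  refine addcK_s he h84 (v' := (2:ℝ)) (by norm_num [SS, BB, abs_le]) (fun _ _ _ _ _ h85 H53 => ?_) H52
  have h86 := In_cast h85 (neg_add_eq_sub _ _)
  have h87 := In_cast (w := (Pp u ta s)) h86 rfl
  refine smulK_s he (w := (2:ℝ)) (by norm_num) (by norm_num) (by norm_num) (by norm_num) hx1 (fun _ _ _ _ _ h88 H54 => ?_) H53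
  refine mulK_s he h88 h39 (fun _ _ _ _ _ h89 H55 => ?_) H54
  have h90 := In_cast (w := (t0 u ta s)) h89 rfl
  refine mulK_s he h43 hx2 (fun _ _ _ _ _ h91 H56 => ?_) H55
  have h92 := In_cast (w := (r1 u ta s)) h91 rfl
  refine sqK_s he h92 (fun _ _ _ _ _ h93 H57 => ?_) H56
  have h94 := In_cast h93 (sq _)
  refine negK_s he h94 (fun _ _ _ _ _ h95 H58 => ?_) H57
  refine addcK_s he h95 (v' := (1:ℝ)) (by norm_num [SS, BB, abs_le]) (fun _ _ _ _ _ h96 H59 => ?_) H58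
  have h97 := In_cast h96 (neg_add_eq_sub _ _)
  refine sqrtK_s he h97 (fun _ _ _ _ _ h98 H60 => ?_) H59
  have h99 := In_cast (w := (t1 u ta s)) h98 rfl
  refine mulK_s he h90 h99 (fun _ _ _ _ _ h100 H61 => ?_) H60
  have h101 := In_cast (w := (b0 u ta s)) h100 rfl
  refine sqK_s he h101 (fun _ _ _ _ _ h102 H62 => ?_) H61
  have h103 := In_cast h102 (sq _)
  refine mulK_s he h71 h13 (fun _ _ _ _ _ h104 H63 => ?_) H62
  refine addK_s he h103 h104 (fun _ _ _ _ _ h105 H64 => ?_) H63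
  refine sqrtK_s he h105 (fun _ _ _ _ _ h106 H65 => ?_) H64
  have h107 := In_cast (w := (b u ta s)) h106 rfl
  refine smulK_s he (w := (2:ℝ)) (by norm_num) (by norm_num) (by norm_num) (by norm_num) h107 (fun _ _ _ _ _ h108 H66 => ?_) H65
  refine addK_s he h87 h108 (fun _ _ _ _ _ h109 H67 => ?_) H66
  refine sqrtK_s he h109 (fun _ _ _ _ _ h110 H68 => ?_) H67
  have h111 := In_cast (w := (v u ta s)) h110 rfl
  refine addK_s he h90 h99 (fun _ _ _ _ _ h112 H69 => ?_) H68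
  have h113 := In_cast (w := (v0 u ta s)) h112 rfl
  refine addK_s he h111 h113 (fun _ _ _ _ _ h114 H70 => ?_) H69
  refine invK_s he h114 (fun _ _ _ _ _ h115 H71 => ?_) H70
  refine mulK_s he h111 h113 (fun _ _ _ _ _ h116 H72 => ?_) H71
  refine addK_s he h116 h87 (fun _ _ _ _ _ h117 H73 => ?_) H72
  refine invK_s he h117 (fun _ _ _ _ _ h118 H74 => ?_) H73
  refine addK_s he h87 h101 (fun _ _ _ _ _ h119 H75 => ?_) H74
  refine mulK_s he h119 h118 (fun _ _ _ _ _ h120 H76 => ?_) H75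
  have h121 := In_cast h120 ((div_eq_mul_inv _ _).symm)
  refine addcK_s he h121 (v' := (1:ℝ)) (by norm_num [SS, BB, abs_le]) (fun _ _ _ _ _ h122 H77 => ?_) H76
  have h123 := In_cast h122 (add_comm _ _)
  refine mulK_s he h123 h115 (fun _ _ _ _ _ h124 H78 => ?_) H77
  have h125 := In_cast h124 ((div_eq_mul_inv _ _).symm)
  have h126 := In_cast (w := (GW u ta s)) h125 rfl
  refine addK_s he h83 h126 (fun _ _ _ _ _ h127 H79 => ?_) H78
  refine mulK_s he h60 h127 (fun _ _ _ _ _ h128 H80 => ?_) H79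
  refine addK_s he h58 h128 (fun _ _ _ _ _ h129 H81 => ?_) H80
  have h130 := In_cast (w := (Ga u ta s)) h129 rfl
  refine mulK_s he h21 h130 (fun _ _ _ _ _ h131 H82 => ?_) H81
  refine mulK_s he h131 h19 (fun _ _ _ _ _ h132 H83 => ?_) H82
  have h133 := In_cast h132 ((div_eq_mul_inv _ _).symm)
  refine addcK_s he h90 (v' := (-1:ℝ)) (by norm_num [SS, BB, abs_le]) (fun _ _ _ _ _ h134 H84 => ?_) H83
  have h135 := In_cast h134 (sub_c (c := (1:ℝ)) (by norm_num))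
  refine negK_s he h43 (fun _ _ _ _ _ h136 H85 => ?_) H84
  refine addcK_s he h136 (v' := (1:ℝ)) (by norm_num [SS, BB, abs_le]) (fun _ _ _ _ _ h137 H86 => ?_) H85
  have h138 := In_cast h137 (neg_add_eq_sub _ _)
  refine smulK_s he (w := (2:ℝ)) (by norm_num) (by norm_num) (by norm_num) (by norm_num) h138 (fun _ _ _ _ _ h139 H87 => ?_) H86
  have h140 := In_cast h139 (mul_comm _ _)
  refine addK_s he h135 h140 (fun _ _ _ _ _ h141 H88 => ?_) H87
  refine addcK_s he h90 (v' := (1:ℝ)) (by norm_num [SS, BB, abs_le]) (fun _ _ _ _ _ h142 H89 => ?_) H88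
  have h143 := In_cast h142 (add_comm _ _)
  refine invK_s he h143 (fun _ _ _ _ _ h144 H90 => ?_) H89
  refine mulK_s he h43 h144 (fun _ _ _ _ _ h145 H91 => ?_) H90
  have h146 := In_cast h145 ((div_eq_mul_inv _ _).symm)
  refine addK_s he h141 h146 (fun _ _ _ _ _ h147 H92 => ?_) H91
  have h148 := In_cast (w := (U0 u ta s)) h147 rfl
  refine addcK_s he h99 (v' := (1:ℝ)) (by norm_num [SS, BB, abs_le]) (fun _ _ _ _ _ h149 H93 => ?_) H92
  have h150 := In_cast h149 (add_comm _ _)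
  refine smulK_s he (w := (2:ℝ)) (by norm_num) (by norm_num) (by norm_num) (by norm_num) h92 (fun _ _ _ _ _ h151 H94 => ?_) H93
  refine subK_s he h150 h151 (fun _ _ _ _ _ h152 H95 => ?_) H94
  refine invK_s he h150 (fun _ _ _ _ _ h153 H96 => ?_) H95
  refine mulK_s he h92 h153 (fun _ _ _ _ _ h154 H97 => ?_) H96
  have h155 := In_cast h154 ((div_eq_mul_inv _ _).symm)
  refine addK_s he h152 h155 (fun _ _ _ _ _ h156 H98 => ?_) H97
  have h157 := In_cast (w := (U1 u ta s)) h156 rfl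
  refine mulK_s he hx2 h157 (fun _ _ _ _ _ h158 H99 => ?_) H98
  have h159 := In_cast (w := (V1 u ta s)) h158 rfl
  refine subK_s he h148 h159 (fun _ _ _ _ _ h160 H100 => ?_) H99
  have h161 := In_cast (w := (D u ta s)) h160 rfl
  refine smulK_s he (w := (3/25:ℝ)) (by norm_num) (by norm_num) (by norm_num) (by norm_num) h161 (fun _ _ _ _ _ h162 H101 => ?_) H100
  refine subK_s he h133 h162 (fun _ _ _ _ _ h163 H102 => ?_) H101
  have h164 := In_cast (w := (gg u ta s)) h163 rfl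
  refine mulK_s he hx3 h164 (fun _ _ _ _ _ h165 H103 => ?_) H102
  refine smulK_s he (w := (1/2:ℝ)) (by norm_num) (by norm_num) (by norm_num) (by norm_num) h161 (fun _ _ _ _ _ h166 H104 => ?_) H103
  refine addK_s he h165 h166 (fun _ _ _ _ _ h167 H105 => ?_) H104
  refine mulK_s he hx3 h167 (fun _ _ _ _ _ h168 H106 => ?_) H105
  refine smulK_s he (w := (2:ℝ)) (by norm_num) (by norm_num) (by norm_num) (by norm_num) h159 (fun _ _ _ _ _ h169 H107 => ?_) H106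
  refine addK_s he h168 h169 (fun _ _ _ _ _ h170 H108 => ?_) H107
  have h171 := In_cast (w := (a u ta s)) h170 rfl
  refine posK_s he h171 (fun p0 H109 => ?_) H108
  refine mulK_s he h171 h164 (fun _ _ _ _ _ h172 H110 => ?_) H109
  refine smulK_s he (w := (3/500:ℝ)) (by norm_num) (by norm_num) (by norm_num) (by norm_num) hx3 (fun _ _ _ _ _ h173 H111 => ?_) H110
  refine negK_s he h173 (fun _ _ _ _ _ h174 H112 => ?_) H111
  refine addcK_s he h174 (v' := (499/500:ℝ)) (by norm_num [SS, BB, abs_le]) (fun _ _ _ _ _ h175 H113 => ?_) H112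
  have h176 := In_cast h175 (neg_add_eq_sub _ _)
  refine mulK_s he h43 h6 (fun _ _ _ _ _ h177 H114 => ?_) H113
  refine mulK_s he h176 h177 (fun _ _ _ _ _ h178 H115 => ?_) H114
  refine smulK_s he (w := (3/10:ℝ)) (by norm_num) (by norm_num) (by norm_num) (by norm_num) h148 (fun _ _ _ _ _ h179 H116 => ?_) H115
  refine addK_s he h178 h179 (fun _ _ _ _ _ h180 H117 => ?_) H116
  refine smulK_s he (w := (7/25:ℝ)) (by norm_num) (by norm_num) (by norm_num) (by norm_num) h159 (fun _ _ _ _ _ h181 H118 => ?_) H117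
  refine subK_s he h180 h181 (fun _ _ _ _ _ h182 H119 => ?_) H118
  have h183 := In_cast (w := (X u ta s)) h182 rfl
  refine sqK_s he h183 (fun _ _ _ _ _ h184 H120 => ?_) H119
  have h185 := In_cast h184 (sq _)
  refine subK_s he h172 h185 (fun _ _ _ _ _ h186 H121 => ?_) H120
  exact ⟨p0, pos_s he h186 H121⟩

noncomputable def alt1 (z1 w1 z2 w2 z3 w3 : ℕ) : Bool :=
  sqK z2 1152921504606846976 (Nat.add w2 1152921504606846976) 1152921504606846976 0 fun c1 a1_1 a1_2 a1_3 q1 =>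
  negK c1 a1_1 a1_2 a1_3 q1 fun c3 a3_1 a3_2 a3_3 q3 =>
  addcK c3 a3_1 a3_2 a3_3 q3 1152922604118474752 0 fun c4 a4_1 a4_2 a4_3 q4 =>
  mulK z3 1152921504606846976 1152921504606846976 (Nat.add w3 1152921504606846976) 0 c4 a4_1 a4_2 a4_3 q4 fun c7 a7_1 a7_2 a7_3 q7 =>
  smulK 1 2 2305843009213693954 1152921504606846976 c7 a7_1 a7_2 a7_3 q7 fun c8 a8_1 a8_2 a8_3 q8 =>
  sqK c8 a8_1 a8_2 a8_3 q8 fun c11 a11_1 a11_2 a11_3 q11 =>
  addK c1 a1_1 a1_2 a1_3 q1 c11 a11_1 a11_2 a11_3 q11 fun c14 a14_1 a14_2 a14_3 q14 =>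
  sqrtK c14 a14_1 a14_2 a14_3 q14 fun c15 a15_1 a15_2 a15_3 q15 =>
  addK c15 a15_1 a15_2 a15_3 q15 z2 1152921504606846976 (Nat.add w2 1152921504606846976) 1152921504606846976 0 fun c17 a17_1 a17_2 a17_3 q17 =>
  smulK 4 1 1152921504606846977 4611686018427387904 c17 a17_1 a17_2 a17_3 q17 fun c18 a18_1 a18_2 a18_3 q18 =>
  invK c18 a18_1 a18_2 a18_3 q18 fun c19 a19_1 a19_2 a19_3 q19 =>
  sqK c4 a4_1 a4_2 a4_3 q4 fun c20 a20_1 a20_2 a20_3 q20 =>
  addcK c1 a1_1 a1_2 a1_3 q1 1152922604118474752 0 fun c22 a22_1 a22_2 a22_3 q22 =>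
  smulK 2 1 1152921504606846977 2305843009213693952 c15 a15_1 a15_2 a15_3 q15 fun c25 a25_1 a25_2 a25_3 q25 =>
  addK c22 a22_1 a22_2 a22_3 q22 c25 a25_1 a25_2 a25_3 q25 fun c26 a26_1 a26_2 a26_3 q26 =>
  sqrtK c26 a26_1 a26_2 a26_3 q26 fun c27 a27_1 a27_2 a27_3 q27 =>
  addcK c27 a27_1 a27_2 a27_3 q27 1152922604118474752 0 fun c29 a29_1 a29_2 a29_3 q29 =>
  addK c29 a29_1 a29_2 a29_3 q29 z2 1152921504606846976 (Nat.add w2 1152921504606846976) 1152921504606846976 0 fun c30 a30_1 a30_2 a30_3 q30 =>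
  invK c30 a30_1 a30_2 a30_3 q30 fun c32 a32_1 a32_2 a32_3 q32 =>
  sqK z1 (Nat.add w1 1152921504606846976) 1152921504606846976 1152921504606846976 0 fun c33 a33_1 a33_2 a33_3 q33 =>
  addcK c33 a33_1 a33_2 a33_3 q33 1152922604118474752 0 fun c35 a35_1 a35_2 a35_3 q35 =>
  invK c35 a35_1 a35_2 a35_3 q35 fun c37 a37_1 a37_2 a37_3 q37 =>
  smulK 2 1 1152921504606846977 2305843009213693952 c37 a37_1 a37_2 a37_3 q37 fun c40 a40_1 a40_2 a40_3 q40 =>
  addcK c40 a40_1 a40_2 a40_3 q40 1152920405095219200 0 fun c41 a41_1 a41_2 a41_3 q41 =>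
  sqK c41 a41_1 a41_2 a41_3 q41 fun c44 a44_1 a44_2 a44_3 q44 =>
  subK c22 a22_1 a22_2 a22_3 q22 z2 1152921504606846976 (Nat.add w2 1152921504606846976) 1152921504606846976 0 fun c47 a47_1 a47_2 a47_3 q47 =>
  smulK 2 1 1152921504606846977 2305843009213693952 c47 a47_1 a47_2 a47_3 q47 fun c48 a48_1 a48_2 a48_3 q48 =>
  mulK c27 a27_1 a27_2 a27_3 q27 c30 a30_1 a30_2 a30_3 q30 fun c49 a49_1 a49_2 a49_3 q49 =>
  subK c48 a48_1 a48_2 a48_3 q48 c49 a49_1 a49_2 a49_3 q49 fun c50 a50_1 a50_2 a50_3 q50 =>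
  mulK c44 a44_1 a44_2 a44_3 q44 c50 a50_1 a50_2 a50_3 q50 fun c51 a51_1 a51_2 a51_3 q51 =>
  smulK 2479 5000 5764607523034234885000 2858092409920373653504 c51 a51_1 a51_2 a51_3 q51 fun c52 a52_1 a52_2 a52_3 q52 =>
  negK c52 a52_1 a52_2 a52_3 q52 fun c53 a53_1 a53_2 a53_3 q53 =>
  addcK c53 a53_1 a53_2 a53_3 q53 1152925902653358080 0 fun c55 a55_1 a55_2 a55_3 q55 =>
  mulK c55 a55_1 a55_2 a55_3 q55 c32 a32_1 a32_2 a32_3 q32 fun c57 a57_1 a57_2 a57_3 q57 =>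
  mulK c44 a44_1 a44_2 a44_3 q44 c41 a41_1 a41_2 a41_3 q41 fun c59 a59_1 a59_2 a59_3 q59 =>
  mulK c59 a59_1 a59_2 a59_3 q59 c17 a17_1 a17_2 a17_3 q17 fun c60 a60_1 a60_2 a60_3 q60 =>
  mulK c44 a44_1 a44_2 a44_3 q44 c22 a22_1 a22_2 a22_3 q22 fun c61 a61_1 a61_2 a61_3 q61 =>
  smulK 1971 10000 11529215046068469770000 2272408285580095389696 c61 a61_1 a61_2 a61_3 q61 fun c63 a63_1 a63_2 a63_3 q63 =>
  negK c63 a63_1 a63_2 a63_3 q63 fun c64 a64_1 a64_2 a64_3 q64 =>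
  negK c64 a64_1 a64_2 a64_3 q64 fun c66 a66_1 a66_2 a66_3 q66 =>
  addcK c66 a66_1 a66_2 a66_3 q66 1152920892838577281 1 fun c67 a67_1 a67_2 a67_3 q67 =>
  sqK c44 a44_1 a44_2 a44_3 q44 fun c69 a69_1 a69_2 a69_3 q69 =>
  sqK c15 a15_1 a15_2 a15_3 q15 fun c72 a72_1 a72_2 a72_3 q72 =>
  addK c72 a72_1 a72_2 a72_3 q72 c1 a1_1 a1_2 a1_3 q1 fun c74 a74_1 a74_2 a74_3 q74 =>
  smulK 2 1 1152921504606846977 2305843009213693952 c74 a74_1 a74_2 a74_3 q74 fun c75 a75_1 a75_2 a75_3 q75 =>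
  mulK c69 a69_1 a69_2 a69_3 q69 c75 a75_1 a75_2 a75_3 q75 fun c76 a76_1 a76_2 a76_3 q76 =>
  sqK c61 a61_1 a61_2 a61_3 q61 fun c77 a77_1 a77_2 a77_3 q77 =>
  smulK 4 1 1152921504606846977 4611686018427387904 c77 a77_1 a77_2 a77_3 q77 fun c79 a79_1 a79_2 a79_3 q79 =>
  subK c76 a76_1 a76_2 a76_3 q76 c79 a79_1 a79_2 a79_3 q79 fun c80 a80_1 a80_2 a80_3 q80 =>
  smulK 24 625 720575940379279360625 27670116110564327424 c80 a80_1 a80_2 a80_3 q80 fun c81 a81_1 a81_2 a81_3 q81 =>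
  addK c67 a67_1 a67_2 a67_3 q67 c81 a81_1 a81_2 a81_3 q81 fun c82 a82_1 a82_2 a82_3 q82 =>
  negK c61 a61_1 a61_2 a61_3 q61 fun c84 a84_1 a84_2 a84_3 q84 =>
  addcK c84 a84_1 a84_2 a84_3 q84 1152923703630102528 0 fun c85 a85_1 a85_2 a85_3 q85 =>
  smulK 2 1 1152921504606846977 2305843009213693952 z1 (Nat.add w1 1152921504606846976) 1152921504606846976 1152921504606846976 0 fun c88 a88_1 a88_2 a88_3 q88 =>
  mulK c88 a88_1 a88_2 a88_3 q88 c37 a37_1 a37_2 a37_3 q37 fun c89 a89_1 a89_2 a89_3 q89 =>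
  mulK c41 a41_1 a41_2 a41_3 q41 z2 1152921504606846976 (Nat.add w2 1152921504606846976) 1152921504606846976 0 fun c91 a91_1 a91_2 a91_3 q91 =>
  sqK c91 a91_1 a91_2 a91_3 q91 fun c93 a93_1 a93_2 a93_3 q93 =>
  negK c93 a93_1 a93_2 a93_3 q93 fun c95 a95_1 a95_2 a95_3 q95 =>
  addcK c95 a95_1 a95_2 a95_3 q95 1152922604118474752 0 fun c96 a96_1 a96_2 a96_3 q96 =>
  sqrtK c96 a96_1 a96_2 a96_3 q96 fun c98 a98_1 a98_2 a98_3 q98 =>
  mulK c89 a89_1 a89_2 a89_3 q89 c98 a98_1 a98_2 a98_3 q98 fun c100 a100_1 a100_2 a100_3 q100 =>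
  sqK c100 a100_1 a100_2 a100_3 q100 fun c102 a102_1 a102_2 a102_3 q102 =>
  mulK c69 a69_1 a69_2 a69_3 q69 c11 a11_1 a11_2 a11_3 q11 fun c104 a104_1 a104_2 a104_3 q104 =>
  addK c102 a102_1 a102_2 a102_3 q102 c104 a104_1 a104_2 a104_3 q104 fun c105 a105_1 a105_2 a105_3 q105 =>
  sqrtK c105 a105_1 a105_2 a105_3 q105 fun c106 a106_1 a106_2 a106_3 q106 =>
  smulK 2 1 1152921504606846977 2305843009213693952 c106 a106_1 a106_2 a106_3 q106 fun c108 a108_1 a108_2 a108_3 q108 =>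
  addK c85 a85_1 a85_2 a85_3 q85 c108 a108_1 a108_2 a108_3 q108 fun c109 a109_1 a109_2 a109_3 q109 =>
  sqrtK c109 a109_1 a109_2 a109_3 q109 fun c110 a110_1 a110_2 a110_3 q110 =>
  addK c89 a89_1 a89_2 a89_3 q89 c98 a98_1 a98_2 a98_3 q98 fun c112 a112_1 a112_2 a112_3 q112 =>
  addK c110 a110_1 a110_2 a110_3 q110 c112 a112_1 a112_2 a112_3 q112 fun c114 a114_1 a114_2 a114_3 q114 =>
  invK c114 a114_1 a114_2 a114_3 q114 fun c115 a115_1 a115_2 a115_3 q115 =>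
  mulK c110 a110_1 a110_2 a110_3 q110 c112 a112_1 a112_2 a112_3 q112 fun c116 a116_1 a116_2 a116_3 q116 =>
  addK c116 a116_1 a116_2 a116_3 q116 c85 a85_1 a85_2 a85_3 q85 fun c117 a117_1 a117_2 a117_3 q117 =>
  invK c117 a117_1 a117_2 a117_3 q117 fun c118 a118_1 a118_2 a118_3 q118 =>
  addK c85 a85_1 a85_2 a85_3 q85 c100 a100_1 a100_2 a100_3 q100 fun c119 a119_1 a119_2 a119_3 q119 =>
  mulK c119 a119_1 a119_2 a119_3 q119 c118 a118_1 a118_2 a118_3 q118 fun c120 a120_1 a120_2 a120_3 q120 =>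
  addcK c120 a120_1 a120_2 a120_3 q120 1152922604118474752 0 fun c122 a122_1 a122_2 a122_3 q122 =>
  mulK c122 a122_1 a122_2 a122_3 q122 c115 a115_1 a115_2 a115_3 q115 fun c124 a124_1 a124_2 a124_3 q124 =>
  addK c82 a82_1 a82_2 a82_3 q82 c124 a124_1 a124_2 a124_3 q124 fun c127 a127_1 a127_2 a127_3 q127 =>
  mulK c60 a60_1 a60_2 a60_3 q60 c127 a127_1 a127_2 a127_3 q127 fun c128 a128_1 a128_2 a128_3 q128 =>
  addK c57 a57_1 a57_2 a57_3 q57 c128 a128_1 a128_2 a128_3 q128 fun c129 a129_1 a129_2 a129_3 q129 =>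
  mulK c20 a20_1 a20_2 a20_3 q20 c129 a129_1 a129_2 a129_3 q129 fun c131 a131_1 a131_2 a131_3 q131 =>
  mulK c131 a131_1 a131_2 a131_3 q131 c19 a19_1 a19_2 a19_3 q19 fun c132 a132_1 a132_2 a132_3 q132 =>
  addcK c89 a89_1 a89_2 a89_3 q89 1152920405095219200 0 fun c134 a134_1 a134_2 a134_3 q134 =>
  negK c41 a41_1 a41_2 a41_3 q41 fun c136 a136_1 a136_2 a136_3 q136 =>
  addcK c136 a136_1 a136_2 a136_3 q136 1152922604118474752 0 fun c137 a137_1 a137_2 a137_3 q137 =>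
  smulK 2 1 1152921504606846977 2305843009213693952 c137 a137_1 a137_2 a137_3 q137 fun c139 a139_1 a139_2 a139_3 q139 =>
  addK c134 a134_1 a134_2 a134_3 q134 c139 a139_1 a139_2 a139_3 q139 fun c141 a141_1 a141_2 a141_3 q141 =>
  addcK c89 a89_1 a89_2 a89_3 q89 1152922604118474752 0 fun c142 a142_1 a142_2 a142_3 q142 =>
  invK c142 a142_1 a142_2 a142_3 q142 fun c144 a144_1 a144_2 a144_3 q144 =>
  mulK c41 a41_1 a41_2 a41_3 q41 c144 a144_1 a144_2 a144_3 q144 fun c145 a145_1 a145_2 a145_3 q145 =>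
  addK c141 a141_1 a141_2 a141_3 q141 c145 a145_1 a145_2 a145_3 q145 fun c147 a147_1 a147_2 a147_3 q147 =>
  addcK c98 a98_1 a98_2 a98_3 q98 1152922604118474752 0 fun c149 a149_1 a149_2 a149_3 q149 =>
  smulK 2 1 1152921504606846977 2305843009213693952 c91 a91_1 a91_2 a91_3 q91 fun c151 a151_1 a151_2 a151_3 q151 =>
  subK c149 a149_1 a149_2 a149_3 q149 c151 a151_1 a151_2 a151_3 q151 fun c152 a152_1 a152_2 a152_3 q152 =>
  invK c149 a149_1 a149_2 a149_3 q149 fun c153 a153_1 a153_2 a153_3 q153 =>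
  mulK c91 a91_1 a91_2 a91_3 q91 c153 a153_1 a153_2 a153_3 q153 fun c154 a154_1 a154_2 a154_3 q154 =>
  addK c152 a152_1 a152_2 a152_3 q152 c154 a154_1 a154_2 a154_3 q154 fun c156 a156_1 a156_2 a156_3 q156 =>
  mulK z2 1152921504606846976 (Nat.add w2 1152921504606846976) 1152921504606846976 0 c156 a156_1 a156_2 a156_3 q156 fun c158 a158_1 a158_2 a158_3 q158 =>
  subK c147 a147_1 a147_2 a147_3 q147 c158 a158_1 a158_2 a158_3 q158 fun c160 a160_1 a160_2 a160_3 q160 =>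
  smulK 3 25 28823037615171174425 3458764513820540928 c160 a160_1 a160_2 a160_3 q160 fun c162 a162_1 a162_2 a162_3 q162 =>
  subK c132 a132_1 a132_2 a132_3 q132 c162 a162_1 a162_2 a162_3 q162 fun c163 a163_1 a163_2 a163_3 q163 =>
  mulK z3 1152921504606846976 1152921504606846976 (Nat.add w3 1152921504606846976) 0 c163 a163_1 a163_2 a163_3 q163 fun c165 a165_1 a165_2 a165_3 q165 =>
  smulK 1 2 2305843009213693954 1152921504606846976 c160 a160_1 a160_2 a160_3 q160 fun c166 a166_1 a166_2 a166_3 q166 =>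
  addK c165 a165_1 a165_2 a165_3 q165 c166 a166_1 a166_2 a166_3 q166 fun c167 a167_1 a167_2 a167_3 q167 =>
  mulK z3 1152921504606846976 1152921504606846976 (Nat.add w3 1152921504606846976) 0 c167 a167_1 a167_2 a167_3 q167 fun c168 a168_1 a168_2 a168_3 q168 =>
  smulK 2 1 1152921504606846977 2305843009213693952 c158 a158_1 a158_2 a158_3 q158 fun c169 a169_1 a169_2 a169_3 q169 =>
  addK c168 a168_1 a168_2 a168_3 q168 c169 a169_1 a169_2 a169_3 q169 fun c170 a170_1 a170_2 a170_3 q170 =>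
  posK c170 a170_1 a170_2 a170_3 q170 <|
  smulK 3 5 5764607523034234885 3458764513820540928 c170 a170_1 a170_2 a170_3 q170 fun c172 a172_1 a172_2 a172_3 q172 =>
  smulK 3 500 576460752303423488500 3458764513820540928 z3 1152921504606846976 1152921504606846976 (Nat.add w3 1152921504606846976) 0 fun c173 a173_1 a173_2 a173_3 q173 =>
  negK c173 a173_1 a173_2 a173_3 q173 fun c174 a174_1 a174_2 a174_3 q174 =>
  addcK c174 a174_1 a174_2 a174_3 q174 1152922601919451496 1 fun c175 a175_1 a175_2 a175_3 q175 =>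
  mulK c41 a41_1 a41_2 a41_3 q41 c4 a4_1 a4_2 a4_3 q4 fun c177 a177_1 a177_2 a177_3 q177 =>
  mulK c175 a175_1 a175_2 a175_3 q175 c177 a177_1 a177_2 a177_3 q177 fun c178 a178_1 a178_2 a178_3 q178 =>
  smulK 3 10 11529215046068469770 3458764513820540928 c147 a147_1 a147_2 a147_3 q147 fun c179 a179_1 a179_2 a179_3 q179 =>
  addK c178 a178_1 a178_2 a178_3 q178 c179 a179_1 a179_2 a179_3 q179 fun c180 a180_1 a180_2 a180_3 q180 =>
  smulK 7 25 28823037615171174425 8070450532247928832 c158 a158_1 a158_2 a158_3 q158 fun c181 a181_1 a181_2 a181_3 q181 =>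
  subK c180 a180_1 a180_2 a180_3 q180 c181 a181_1 a181_2 a181_3 q181 fun c182 a182_1 a182_2 a182_3 q182 =>
  smulK 2 1 1152921504606846977 2305843009213693952 c182 a182_1 a182_2 a182_3 q182 fun c184 a184_1 a184_2 a184_3 q184 =>
  subK c172 a172_1 a172_2 a172_3 q172 c184 a184_1 a184_2 a184_3 q184 fun c185 a185_1 a185_2 a185_3 q185 =>
  posK c185 a185_1 a185_2 a185_3 q185 <|
  smulK 4 1 1152921504606846977 4611686018427387904 c163 a163_1 a163_2 a163_3 q163 fun c186 a186_1 a186_2 a186_3 q186 =>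
  smulK 9 25 28823037615171174425 10376293541461622784 c170 a170_1 a170_2 a170_3 q170 fun c187 a187_1 a187_2 a187_3 q187 =>
  addK c186 a186_1 a186_2 a186_3 q186 c187 a187_1 a187_2 a187_3 q187 fun c188 a188_1 a188_2 a188_3 q188 =>
  smulK 12 5 5764607523034234885 13835058055282163712 c182 a182_1 a182_2 a182_3 q182 fun c189 a189_1 a189_2 a189_3 q189 =>
  subK c188 a188_1 a188_2 a188_3 q188 c189 a189_1 a189_2 a189_3 q189 fun c190 a190_1 a190_2 a190_3 q190 =>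
  pos c190 a190_1 a190_2 a190_3 q190

theorem alt1_s {z1 w1 z2 w2 z3 w3 : ℕ} {e1 e2 e3 u ta s : ℝ} (he : Ev e1 e2 e3)
    (hx1 : In e1 e2 e3 z1 (Nat.add w1 1152921504606846976) 1152921504606846976 1152921504606846976 0 u)
    (hx2 : In e1 e2 e3 z2 1152921504606846976 (Nat.add w2 1152921504606846976) 1152921504606846976 0 ta)
    (hx3 : In e1 e2 e3 z3 1152921504606846976 1152921504606846976 (Nat.add w3 1152921504606846976) 0 s)
    (H0 : alt1 z1 w1 z2 w2 z3 w3 = true) : 0 < (a u ta s) ∧ 0 < (((3/5:ℝ) * (a u ta s)) - ((2:ℝ) * (X u ta s))) ∧ 0 < ((((4:ℝ) * (gg u ta s)) + ((9/25:ℝ) * (a u ta s))) - ((12/5:ℝ) * (X u ta s))) := by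
  unfold alt1 at H0
  refine sqK_s he hx2 (fun _ _ _ _ _ h1 H1 => ?_) H0
  have h2 := In_cast h1 (sq _)
  refine negK_s he h2 (fun _ _ _ _ _ h3 H2 => ?_) H1
  refine addcK_s he h3 (v' := (1:ℝ)) (by norm_num [SS, BB, abs_le]) (fun _ _ _ _ _ h4 H3 => ?_) H2
  have h5 := In_cast h4 (neg_add_eq_sub _ _)
  have h6 := In_cast (w := (d u ta s)) h5 rfl
  refine mulK_s he hx3 h6 (fun _ _ _ _ _ h7 H4 => ?_) H3
  refine smulK_s he (w := (1/2:ℝ)) (by norm_num) (by norm_num) (by norm_num) (by norm_num) h7 (fun _ _ _ _ _ h8 H5 => ?_) H4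
  have h9 := In_cast h8 (div_c (c := (2:ℝ)) (by norm_num))
  have h10 := In_cast (w := (hh u ta s)) h9 rfl
  refine sqK_s he h10 (fun _ _ _ _ _ h11 H6 => ?_) H5
  have h12 := In_cast h11 (sq _)
  have h13 := In_cast (w := (hq u ta s)) h12 rfl
  refine addK_s he h2 h13 (fun _ _ _ _ _ h14 H7 => ?_) H6
  refine sqrtK_s he h14 (fun _ _ _ _ _ h15 H8 => ?_) H7
  have h16 := In_cast (w := (om u ta s)) h15 rfl
  refine addK_s he h16 hx2 (fun _ _ _ _ _ h17 H9 => ?_) H8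
  refine smulK_s he (w := (4:ℝ)) (by norm_num) (by norm_num) (by norm_num) (by norm_num) h17 (fun _ _ _ _ _ h18 H10 => ?_) H9
  refine invK_s he h18 (fun _ _ _ _ _ h19 H11 => ?_) H10
  refine sqK_s he h6 (fun _ _ _ _ _ h20 H12 => ?_) H11
  have h21 := In_cast h20 (sq _)
  refine addcK_s he h2 (v' := (1:ℝ)) (by norm_num [SS, BB, abs_le]) (fun _ _ _ _ _ h22 H13 => ?_) H12
  have h23 := In_cast h22 (add_comm _ _)
  have h24 := In_cast (w := (Ph u ta s)) h23 rfl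
  refine smulK_s he (w := (2:ℝ)) (by norm_num) (by norm_num) (by norm_num) (by norm_num) h16 (fun _ _ _ _ _ h25 H14 => ?_) H13
  refine addK_s he h24 h25 (fun _ _ _ _ _ h26 H15 => ?_) H14
  refine sqrtK_s he h26 (fun _ _ _ _ _ h27 H16 => ?_) H15
  have h28 := In_cast (w := (sg u ta s)) h27 rfl
  refine addcK_s he h28 (v' := (1:ℝ)) (by norm_num [SS, BB, abs_le]) (fun _ _ _ _ _ h29 H17 => ?_) H16
  refine addK_s he h29 hx2 (fun _ _ _ _ _ h30 H18 => ?_) H17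
  have h31 := In_cast (w := (ss u ta s)) h30 rfl
  refine invK_s he h31 (fun _ _ _ _ _ h32 H19 => ?_) H18
  refine sqK_s he hx1 (fun _ _ _ _ _ h33 H20 => ?_) H19
  have h34 := In_cast h33 (sq _)
  refine addcK_s he h34 (v' := (1:ℝ)) (by norm_num [SS, BB, abs_le]) (fun _ _ _ _ _ h35 H21 => ?_) H20
  have h36 := In_cast h35 (add_comm _ _)
  refine invK_s he h36 (fun _ _ _ _ _ h37 H22 => ?_) H21
  have h38 := In_cast h37 (inv_eq_one_div _)
  have h39 := In_cast (w := (iu u ta s)) h38 rfl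
  refine smulK_s he (w := (2:ℝ)) (by norm_num) (by norm_num) (by norm_num) (by norm_num) h39 (fun _ _ _ _ _ h40 H23 => ?_) H22
  refine addcK_s he h40 (v' := (-1:ℝ)) (by norm_num [SS, BB, abs_le]) (fun _ _ _ _ _ h41 H24 => ?_) H23
  have h42 := In_cast h41 (sub_c (c := (1:ℝ)) (by norm_num))
  have h43 := In_cast (w := (R u ta s)) h42 rfl
  refine sqK_s he h43 (fun _ _ _ _ _ h44 H25 => ?_) H24
  have h45 := In_cast h44 (sq _)
  have h46 := In_cast (w := (R2 u ta s)) h45 rfl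
  refine subK_s he h24 hx2 (fun _ _ _ _ _ h47 H26 => ?_) H25
  refine smulK_s he (w := (2:ℝ)) (by norm_num) (by norm_num) (by norm_num) (by norm_num) h47 (fun _ _ _ _ _ h48 H27 => ?_) H26
  refine mulK_s he h28 h31 (fun _ _ _ _ _ h49 H28 => ?_) H27
  refine subK_s he h48 h49 (fun _ _ _ _ _ h50 H29 => ?_) H28
  refine mulK_s he h46 h50 (fun _ _ _ _ _ h51 H30 => ?_) H29
  refine smulK_s he (w := (2479/5000:ℝ)) (by norm_num) (by norm_num) (by norm_num) (by norm_num) h51 (fun _ _ _ _ _ h52 H31 => ?_) H30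
  refine negK_s he h52 (fun _ _ _ _ _ h53 H32 => ?_) H31
  have h54 := In_cast h53 (neg_mul_c (c := (-2479/5000:ℝ)) (by norm_num))
  refine addcK_s he h54 (v' := (4:ℝ)) (by norm_num [SS, BB, abs_le]) (fun _ _ _ _ _ h55 H33 => ?_) H32
  have h56 := In_cast h55 (add_comm _ _)
  refine mulK_s he h56 h32 (fun _ _ _ _ _ h57 H34 => ?_) H33
  have h58 := In_cast h57 ((div_eq_mul_inv _ _).symm)
  refine mulK_s he h46 h43 (fun _ _ _ _ _ h59 H35 => ?_) H34
  refine mulK_s he h59 h17 (fun _ _ _ _ _ h60 H36 => ?_) H35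
  refine mulK_s he h46 h24 (fun _ _ _ _ _ h61 H37 => ?_) H36
  have h62 := In_cast (w := (P u ta s)) h61 rfl
  refine smulK_s he (w := (1971/10000:ℝ)) (by norm_num) (by norm_num) (by norm_num) (by norm_num) h62 (fun _ _ _ _ _ h63 H38 => ?_) H37
  refine negK_s he h63 (fun _ _ _ _ _ h64 H39 => ?_) H38
  have h65 := In_cast h64 (neg_mul_c (c := (-1971/10000:ℝ)) (by norm_num))
  refine negK_s he h65 (fun _ _ _ _ _ h66 H40 => ?_) H39
  refine addcK_s he h66 (v' := (-1391/2500:ℝ)) (by norm_num [SS, BB, abs_le]) (fun _ _ _ _ _ h67 H41 => ?_) H40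
  have h68 := In_cast h67 (neg_add_eq_sub _ _)
  refine sqK_s he h46 (fun _ _ _ _ _ h69 H42 => ?_) H41
  have h70 := In_cast h69 (sq _)
  have h71 := In_cast (w := (R4 u ta s)) h70 rfl
  refine sqK_s he h16 (fun _ _ _ _ _ h72 H43 => ?_) H42
  have h73 := In_cast h72 (sq _)
  refine addK_s he h73 h2 (fun _ _ _ _ _ h74 H44 => ?_) H43
  refine smulK_s he (w := (2:ℝ)) (by norm_num) (by norm_num) (by norm_num) (by norm_num) h74 (fun _ _ _ _ _ h75 H45 => ?_) H44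
  refine mulK_s he h71 h75 (fun _ _ _ _ _ h76 H46 => ?_) H45
  refine sqK_s he h62 (fun _ _ _ _ _ h77 H47 => ?_) H46
  have h78 := In_cast h77 (sq _)
  refine smulK_s he (w := (4:ℝ)) (by norm_num) (by norm_num) (by norm_num) (by norm_num) h78 (fun _ _ _ _ _ h79 H48 => ?_) H47
  refine subK_s he h76 h79 (fun _ _ _ _ _ h80 H49 => ?_) H48
  refine smulK_s he (w := (24/625:ℝ)) (by norm_num) (by norm_num) (by norm_num) (by norm_num) h80 (fun _ _ _ _ _ h81 H50 => ?_) H49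
  refine addK_s he h68 h81 (fun _ _ _ _ _ h82 H51 => ?_) H50
  have h83 := In_cast (w := (Gp u ta s)) h82 rfl
  refine negK_s he h62 (fun _ _ _ _ _ h84 H52 => ?_) H51
  refine addcK_s he h84 (v' := (2:ℝ)) (by norm_num [SS, BB, abs_le]) (fun _ _ _ _ _ h85 H53 => ?_) H52
  have h86 := In_cast h85 (neg_add_eq_sub _ _)
  have h87 := In_cast (w := (Pp u ta s)) h86 rfl
  refine smulK_s he (w := (2:ℝ)) (by norm_num) (by norm_num) (by norm_num) (by norm_num) hx1 (fun _ _ _ _ _ h88 H54 => ?_) H53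
  refine mulK_s he h88 h39 (fun _ _ _ _ _ h89 H55 => ?_) H54
  have h90 := In_cast (w := (t0 u ta s)) h89 rfl
  refine mulK_s he h43 hx2 (fun _ _ _ _ _ h91 H56 => ?_) H55
  have h92 := In_cast (w := (r1 u ta s)) h91 rfl
  refine sqK_s he h92 (fun _ _ _ _ _ h93 H57 => ?_) H56
  have h94 := In_cast h93 (sq _)
  refine negK_s he h94 (fun _ _ _ _ _ h95 H58 => ?_) H57
  refine addcK_s he h95 (v' := (1:ℝ)) (by norm_num [SS, BB, abs_le]) (fun _ _ _ _ _ h96 H59 => ?_) H58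
  have h97 := In_cast h96 (neg_add_eq_sub _ _)
  refine sqrtK_s he h97 (fun _ _ _ _ _ h98 H60 => ?_) H59
  have h99 := In_cast (w := (t1 u ta s)) h98 rfl
  refine mulK_s he h90 h99 (fun _ _ _ _ _ h100 H61 => ?_) H60
  have h101 := In_cast (w := (b0 u ta s)) h100 rfl
  refine sqK_s he h101 (fun _ _ _ _ _ h102 H62 => ?_) H61
  have h103 := In_cast h102 (sq _)
  refine mulK_s he h71 h13 (fun _ _ _ _ _ h104 H63 => ?_) H62
  refine addK_s he h103 h104 (fun _ _ _ _ _ h105 H64 => ?_) H63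
  refine sqrtK_s he h105 (fun _ _ _ _ _ h106 H65 => ?_) H64
  have h107 := In_cast (w := (b u ta s)) h106 rfl
  refine smulK_s he (w := (2:ℝ)) (by norm_num) (by norm_num) (by norm_num) (by norm_num) h107 (fun _ _ _ _ _ h108 H66 => ?_) H65
  refine addK_s he h87 h108 (fun _ _ _ _ _ h109 H67 => ?_) H66
  refine sqrtK_s he h109 (fun _ _ _ _ _ h110 H68 => ?_) H67
  have h111 := In_cast (w := (v u ta s)) h110 rfl
  refine addK_s he h90 h99 (fun _ _ _ _ _ h112 H69 => ?_) H68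
  have h113 := In_cast (w := (v0 u ta s)) h112 rfl
  refine addK_s he h111 h113 (fun _ _ _ _ _ h114 H70 => ?_) H69
  refine invK_s he h114 (fun _ _ _ _ _ h115 H71 => ?_) H70
  refine mulK_s he h111 h113 (fun _ _ _ _ _ h116 H72 => ?_) H71
  refine addK_s he h116 h87 (fun _ _ _ _ _ h117 H73 => ?_) H72
  refine invK_s he h117 (fun _ _ _ _ _ h118 H74 => ?_) H73
  refine addK_s he h87 h101 (fun _ _ _ _ _ h119 H75 => ?_) H74
  refine mulK_s he h119 h118 (fun _ _ _ _ _ h120 H76 => ?_) H75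
  have h121 := In_cast h120 ((div_eq_mul_inv _ _).symm)
  refine addcK_s he h121 (v' := (1:ℝ)) (by norm_num [SS, BB, abs_le]) (fun _ _ _ _ _ h122 H77 => ?_) H76
  have h123 := In_cast h122 (add_comm _ _)
  refine mulK_s he h123 h115 (fun _ _ _ _ _ h124 H78 => ?_) H77
  have h125 := In_cast h124 ((div_eq_mul_inv _ _).symm)
  have h126 := In_cast (w := (GW u ta s)) h125 rfl
  refine addK_s he h83 h126 (fun _ _ _ _ _ h127 H79 => ?_) H78
  refine mulK_s he h60 h127 (fun _ _ _ _ _ h128 H80 => ?_) H79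
  refine addK_s he h58 h128 (fun _ _ _ _ _ h129 H81 => ?_) H80
  have h130 := In_cast (w := (Ga u ta s)) h129 rfl
  refine mulK_s he h21 h130 (fun _ _ _ _ _ h131 H82 => ?_) H81
  refine mulK_s he h131 h19 (fun _ _ _ _ _ h132 H83 => ?_) H82
  have h133 := In_cast h132 ((div_eq_mul_inv _ _).symm)
  refine addcK_s he h90 (v' := (-1:ℝ)) (by norm_num [SS, BB, abs_le]) (fun _ _ _ _ _ h134 H84 => ?_) H83
  have h135 := In_cast h134 (sub_c (c := (1:ℝ)) (by norm_num))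
  refine negK_s he h43 (fun _ _ _ _ _ h136 H85 => ?_) H84
  refine addcK_s he h136 (v' := (1:ℝ)) (by norm_num [SS, BB, abs_le]) (fun _ _ _ _ _ h137 H86 => ?_) H85
  have h138 := In_cast h137 (neg_add_eq_sub _ _)
  refine smulK_s he (w := (2:ℝ)) (by norm_num) (by norm_num) (by norm_num) (by norm_num) h138 (fun _ _ _ _ _ h139 H87 => ?_) H86
  have h140 := In_cast h139 (mul_comm _ _)
  refine addK_s he h135 h140 (fun _ _ _ _ _ h141 H88 => ?_) H87
  refine addcK_s he h90 (v' := (1:ℝ)) (by norm_num [SS, BB, abs_le]) (fun _ _ _ _ _ h142 H89 => ?_) H88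
  have h143 := In_cast h142 (add_comm _ _)
  refine invK_s he h143 (fun _ _ _ _ _ h144 H90 => ?_) H89
  refine mulK_s he h43 h144 (fun _ _ _ _ _ h145 H91 => ?_) H90
  have h146 := In_cast h145 ((div_eq_mul_inv _ _).symm)
  refine addK_s he h141 h146 (fun _ _ _ _ _ h147 H92 => ?_) H91
  have h148 := In_cast (w := (U0 u ta s)) h147 rfl
  refine addcK_s he h99 (v' := (1:ℝ)) (by norm_num [SS, BB, abs_le]) (fun _ _ _ _ _ h149 H93 => ?_) H92
  have h150 := In_cast h149 (add_comm _ _)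
  refine smulK_s he (w := (2:ℝ)) (by norm_num) (by norm_num) (by norm_num) (by norm_num) h92 (fun _ _ _ _ _ h151 H94 => ?_) H93
  refine subK_s he h150 h151 (fun _ _ _ _ _ h152 H95 => ?_) H94
  refine invK_s he h150 (fun _ _ _ _ _ h153 H96 => ?_) H95
  refine mulK_s he h92 h153 (fun _ _ _ _ _ h154 H97 => ?_) H96
  have h155 := In_cast h154 ((div_eq_mul_inv _ _).symm)
  refine addK_s he h152 h155 (fun _ _ _ _ _ h156 H98 => ?_) H97
  have h157 := In_cast (w := (U1 u ta s)) h156 rfl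
  refine mulK_s he hx2 h157 (fun _ _ _ _ _ h158 H99 => ?_) H98
  have h159 := In_cast (w := (V1 u ta s)) h158 rfl
  refine subK_s he h148 h159 (fun _ _ _ _ _ h160 H100 => ?_) H99
  have h161 := In_cast (w := (D u ta s)) h160 rfl
  refine smulK_s he (w := (3/25:ℝ)) (by norm_num) (by norm_num) (by norm_num) (by norm_num) h161 (fun _ _ _ _ _ h162 H101 => ?_) H100
  refine subK_s he h133 h162 (fun _ _ _ _ _ h163 H102 => ?_) H101
  have h164 := In_cast (w := (gg u ta s)) h163 rfl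
  refine mulK_s he hx3 h164 (fun _ _ _ _ _ h165 H103 => ?_) H102
  refine smulK_s he (w := (1/2:ℝ)) (by norm_num) (by norm_num) (by norm_num) (by norm_num) h161 (fun _ _ _ _ _ h166 H104 => ?_) H103
  refine addK_s he h165 h166 (fun _ _ _ _ _ h167 H105 => ?_) H104
  refine mulK_s he hx3 h167 (fun _ _ _ _ _ h168 H106 => ?_) H105
  refine smulK_s he (w := (2:ℝ)) (by norm_num) (by norm_num) (by norm_num) (by norm_num) h159 (fun _ _ _ _ _ h169 H107 => ?_) H106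
  refine addK_s he h168 h169 (fun _ _ _ _ _ h170 H108 => ?_) H107
  have h171 := In_cast (w := (a u ta s)) h170 rfl
  refine posK_s he h171 (fun p0 H109 => ?_) H108
  refine smulK_s he (w := (3/5:ℝ)) (by norm_num) (by norm_num) (by norm_num) (by norm_num) h171 (fun _ _ _ _ _ h172 H110 => ?_) H109
  refine smulK_s he (w := (3/500:ℝ)) (by norm_num) (by norm_num) (by norm_num) (by norm_num) hx3 (fun _ _ _ _ _ h173 H111 => ?_) H110
  refine negK_s he h173 (fun _ _ _ _ _ h174 H112 => ?_) H111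
  refine addcK_s he h174 (v' := (499/500:ℝ)) (by norm_num [SS, BB, abs_le]) (fun _ _ _ _ _ h175 H113 => ?_) H112
  have h176 := In_cast h175 (neg_add_eq_sub _ _)
  refine mulK_s he h43 h6 (fun _ _ _ _ _ h177 H114 => ?_) H113
  refine mulK_s he h176 h177 (fun _ _ _ _ _ h178 H115 => ?_) H114
  refine smulK_s he (w := (3/10:ℝ)) (by norm_num) (by norm_num) (by norm_num) (by norm_num) h148 (fun _ _ _ _ _ h179 H116 => ?_) H115
  refine addK_s he h178 h179 (fun _ _ _ _ _ h180 H117 => ?_) H116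
  refine smulK_s he (w := (7/25:ℝ)) (by norm_num) (by norm_num) (by norm_num) (by norm_num) h159 (fun _ _ _ _ _ h181 H118 => ?_) H117
  refine subK_s he h180 h181 (fun _ _ _ _ _ h182 H119 => ?_) H118
  have h183 := In_cast (w := (X u ta s)) h182 rfl
  refine smulK_s he (w := (2:ℝ)) (by norm_num) (by norm_num) (by norm_num) (by norm_num) h183 (fun _ _ _ _ _ h184 H120 => ?_) H119
  refine subK_s he h172 h184 (fun _ _ _ _ _ h185 H121 => ?_) H120
  refine posK_s he h185 (fun p1 H122 => ?_) H121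
  refine smulK_s he (w := (4:ℝ)) (by norm_num) (by norm_num) (by norm_num) (by norm_num) h164 (fun _ _ _ _ _ h186 H123 => ?_) H122
  refine smulK_s he (w := (9/25:ℝ)) (by norm_num) (by norm_num) (by norm_num) (by norm_num) h171 (fun _ _ _ _ _ h187 H124 => ?_) H123
  refine addK_s he h186 h187 (fun _ _ _ _ _ h188 H125 => ?_) H124
  refine smulK_s he (w := (12/5:ℝ)) (by norm_num) (by norm_num) (by norm_num) (by norm_num) h183 (fun _ _ _ _ _ h189 H126 => ?_) H125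
  refine subK_s he h188 h189 (fun _ _ _ _ _ h190 H127 => ?_) H126
  exact ⟨p0, p1, pos_s he h190 H127⟩

noncomputable def alt2 (z1 w1 z2 w2 z3 w3 : ℕ) : Bool :=
  sqK z1 (Nat.add w1 1152921504606846976) 1152921504606846976 1152921504606846976 0 fun c1 a1_1 a1_2 a1_3 q1 =>
  addcK c1 a1_1 a1_2 a1_3 q1 1152922604118474752 0 fun c3 a3_1 a3_2 a3_3 q3 =>
  invK c3 a3_1 a3_2 a3_3 q3 fun c5 a5_1 a5_2 a5_3 q5 =>
  smulK 2 1 1152921504606846977 2305843009213693952 c5 a5_1 a5_2 a5_3 q5 fun c8 a8_1 a8_2 a8_3 q8 =>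
  addcK c8 a8_1 a8_2 a8_3 q8 1152920405095219200 0 fun c9 a9_1 a9_2 a9_3 q9 =>
  mulK c9 a9_1 a9_2 a9_3 q9 z2 1152921504606846976 (Nat.add w2 1152921504606846976) 1152921504606846976 0 fun c12 a12_1 a12_2 a12_3 q12 =>
  smulK 100 1 1152921504606846977 115292150460684697600 c12 a12_1 a12_2 a12_3 q12 fun c14 a14_1 a14_2 a14_3 q14 =>
  addcK c14 a14_1 a14_2 a14_3 q14 1152844538792902656 0 fun c15 a15_1 a15_2 a15_3 q15 =>
  pos c15 a15_1 a15_2 a15_3 q15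

theorem alt2_s {z1 w1 z2 w2 z3 w3 : ℕ} {e1 e2 e3 u ta s : ℝ} (he : Ev e1 e2 e3)
    (hx1 : In e1 e2 e3 z1 (Nat.add w1 1152921504606846976) 1152921504606846976 1152921504606846976 0 u)
    (hx2 : In e1 e2 e3 z2 1152921504606846976 (Nat.add w2 1152921504606846976) 1152921504606846976 0 ta)
    (hx3 : In e1 e2 e3 z3 1152921504606846976 1152921504606846976 (Nat.add w3 1152921504606846976) 0 s)
    (H0 : alt2 z1 w1 z2 w2 z3 w3 = true) : 0 < (((100:ℝ) * (r1 u ta s)) - (70:ℝ)) := by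
  unfold alt2 at H0
  refine sqK_s he hx1 (fun _ _ _ _ _ h1 H1 => ?_) H0
  have h2 := In_cast h1 (sq _)
  refine addcK_s he h2 (v' := (1:ℝ)) (by norm_num [SS, BB, abs_le]) (fun _ _ _ _ _ h3 H2 => ?_) H1
  have h4 := In_cast h3 (add_comm _ _)
  refine invK_s he h4 (fun _ _ _ _ _ h5 H3 => ?_) H2
  have h6 := In_cast h5 (inv_eq_one_div _)
  have h7 := In_cast (w := (iu u ta s)) h6 rfl
  refine smulK_s he (w := (2:ℝ)) (by norm_num) (by norm_num) (by norm_num) (by norm_num) h7 (fun _ _ _ _ _ h8 H4 => ?_) H3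
  refine addcK_s he h8 (v' := (-1:ℝ)) (by norm_num [SS, BB, abs_le]) (fun _ _ _ _ _ h9 H5 => ?_) H4
  have h10 := In_cast h9 (sub_c (c := (1:ℝ)) (by norm_num))
  have h11 := In_cast (w := (R u ta s)) h10 rfl
  refine mulK_s he h11 hx2 (fun _ _ _ _ _ h12 H6 => ?_) H5
  have h13 := In_cast (w := (r1 u ta s)) h12 rfl
  refine smulK_s he (w := (100:ℝ)) (by norm_num) (by norm_num) (by norm_num) (by norm_num) h13 (fun _ _ _ _ _ h14 H7 => ?_) H6
  refine addcK_s he h14 (v' := (-70:ℝ)) (by norm_num [SS, BB, abs_le]) (fun _ _ _ _ _ h15 H8 => ?_) H7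
  have h16 := In_cast h15 (sub_c (c := (70:ℝ)) (by norm_num))
  exact pos_s he h16 H8

attribute [irreducible] alt0 alt1 alt2

noncomputable def leaf (j u z1 w1 z2 w2 z3 w3 : ℕ) : Bool :=
  sB j (alt0 z1 w1 z2 w2 z3 w3) fun j => sB j (alt1 z1 w1 z2 w2 z3 w3) fun j => alt2 z1 w1 z2 w2 z3 w3

theorem snd : Snd Q leaf := by
  intro j u z1 w1 z2 w2 z3 w3 e1 e2 e3 he H
  unfold leaf at H
  unfold Q
  replace H := sel H
  rcases H with H | ⟨j, H⟩
  · exact Or.inl (alt0_s he (var1 z1 w1) (var2 z2 w2) (var3 z3 w3) H)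
  replace H := sel H
  rcases H with H | ⟨j, H⟩
  · exact Or.inr (Or.inl (alt1_s he (var1 z1 w1) (var2 z2 w2) (var3 z3 w3) H))
  exact Or.inr (Or.inr (alt2_s he (var1 z1 w1) (var2 z2 w2) (var3 z3 w3) H))

end Crest.Agent.R307.UB7Q
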