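import Crest.Agent.R307.UB7Q
set_option autoImplicit false
set_option maxRecDepth 100000
namespace Crest.Agent.R307.UB7Q
open Crest.Agent.R307.IA Crest.Agent.R307.IA3

theorem k0 : Cov Q 1152921504606846976 1152921779484754113 1152921779484753920 1152921985643184357 1152921504606846976 1152922340235684086 :=
  cov_of snd 0 0 10 _ _ _ _ _ _ 0x33133103313310233033300133033033001213313310331330023303303013313310210330303303023313310331330021330330233033021003303300333021330330330120331330330123313303301201330330033033021330330033033021033033013303301233033013303301201233033023330203303303301233033020133033033021330330103303301330330123313312012013313310330233033013303300213303300330233133103303021033033023320331330033023303201033300330330213303301233033003303302133033012033033023303302133033013303301203303321333013302021330330321330320330303300233033013303301233133120331330233032021012 (by decide +kernel)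

theorem k1 : Cov Q 1152921504606846976 1152921779484754113 1152921985643184357 1152922191801614507 1152921504606846976 1152922340235684086 :=
  cov_of snd 0 0 9 _ _ _ _ _ _ 0x330331033033002331333010330330021331330033030233133103303300210330330133033020331331033033002133233203303300330212330330233203303300330330021330330233033021201330330033133001330330123323321330330120330330233033021332332103303033032133033210210 (by decide +kernel)

theorem k2 : Cov Q 1152921779484754113 1152922054362661017 1152921779484753920 1152921985643184357 1152921504606846976 1152922340235684086 :=
  cov_of snd 0 0 10 _ _ _ _ _ _ 0x330313303302033133033020133033013303301033302330330201233300330330023313310331331020330330133033012331331033033012013330033023303310330203303301330233033013312012033233033020333003330021331330330123303301330333021203313303301033033013323321021033233033020333003330021330330133023303301330330120330330133033210333013303301021021 (by decide +kernel)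

theorem k3 : Cov Q 1152921779484754113 1152922054362661017 1152921985643184357 1152922191801614507 1152921504606846976 1152922340235684086 :=
  cov_of snd 0 0 9 _ _ _ _ _ _ 0x440440244043301203313310330313310213313312331330203313310331330021033033013303301233033013303301213313310331331023303301331331021013303302330330203313310330330021330330033033002331331033033002103330133033010331331023303302330330203313330102133033013303301033033103303300213313303203303233032012010 (by decide +kernel)

end Crest.Agent.R307.UB7Q
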