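import Crest.Agent.R307.IA3
import Crest.Agent.R307.IAx
set_option autoImplicit false
set_option linter.unusedVariables false
set_option maxRecDepth 20000
namespace Crest.Agent.R307.UBO
open Crest.Agent.R307.IA Crest.Agent.R307.IA3

theorem In_cast {e1 e2 e3 : ℝ} {x y1 y2 y3 r : ℕ} {v w : ℝ}
    (h : In e1 e2 e3 x y1 y2 y3 r v) (e : v = w) : In e1 e2 e3 x y1 y2 y3 r w := e ▸ h

noncomputable def iz (u om z : ℝ) : ℝ := ((1:ℝ) / ((1:ℝ) + (z * z)))
noncomputable def iu (u om z : ℝ) : ℝ := ((1:ℝ) / ((1:ℝ) + (u * u)))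
noncomputable def R (u om z : ℝ) : ℝ := (((2:ℝ) * (iu u om z)) - (1:ℝ))
noncomputable def R2 (u om z : ℝ) : ℝ := ((R u om z) * (R u om z))
noncomputable def cv (u om z : ℝ) : ℝ := (((2:ℝ) * (iz u om z)) - (1:ℝ))
noncomputable def ta (u om z : ℝ) : ℝ := (om * (cv u om z))
noncomputable def Ph (u om z : ℝ) : ℝ := ((1:ℝ) + ((ta u om z) * (ta u om z)))
noncomputable def sg (u om z : ℝ) : ℝ := (√((Ph u om z) + ((2:ℝ) * om)))
noncomputable def ss (u om z : ℝ) : ℝ := (((sg u om z) + (1:ℝ)) + (ta u om z))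
noncomputable def P (u om z : ℝ) : ℝ := ((R2 u om z) * (Ph u om z))
noncomputable def R4 (u om z : ℝ) : ℝ := ((R2 u om z) * (R2 u om z))
noncomputable def Gp (u om z : ℝ) : ℝ := (((-1391/2500:ℝ) - ((-1971/10000:ℝ) * (P u om z))) + ((24/625:ℝ) * (((R4 u om z) * ((2:ℝ) * ((om * om) + ((ta u om z) * (ta u om z))))) - ((4:ℝ) * ((P u om z) * (P u om z))))))
noncomputable def Pp (u om z : ℝ) : ℝ := ((2:ℝ) - (P u om z))
noncomputable def t0 (u om z : ℝ) : ℝ := (((2:ℝ) * u) * (iu u om z))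
noncomputable def r1 (u om z : ℝ) : ℝ := ((R u om z) * (ta u om z))
noncomputable def t1 (u om z : ℝ) : ℝ := (√((1:ℝ) - ((r1 u om z) * (r1 u om z))))
noncomputable def b0 (u om z : ℝ) : ℝ := ((t0 u om z) * (t1 u om z))
noncomputable def sz (u om z : ℝ) : ℝ := (((2:ℝ) * z) * (iz u om z))
noncomputable def hh (u om z : ℝ) : ℝ := (om * (sz u om z))
noncomputable def hq (u om z : ℝ) : ℝ := ((hh u om z) * (hh u om z))
noncomputable def b (u om z : ℝ) : ℝ := (√(((b0 u om z) * (b0 u om z)) + ((R4 u om z) * (hq u om z))))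
noncomputable def v (u om z : ℝ) : ℝ := (√((Pp u om z) + ((2:ℝ) * (b u om z))))
noncomputable def v0 (u om z : ℝ) : ℝ := ((t0 u om z) + (t1 u om z))
noncomputable def GW (u om z : ℝ) : ℝ := (((1:ℝ) + (((Pp u om z) + (b0 u om z)) / (((v u om z) * (v0 u om z)) + (Pp u om z)))) / ((v u om z) + (v0 u om z)))
noncomputable def Ga (u om z : ℝ) : ℝ := ((((4:ℝ) + ((-2479/5000:ℝ) * ((R2 u om z) * (((2:ℝ) * ((Ph u om z) - (ta u om z))) - ((sg u om z) * (ss u om z)))))) / (ss u om z)) + ((((R2 u om z) * (R u om z)) * (om + (ta u om z))) * ((Gp u om z) + (GW u om z))))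
noncomputable def d (u om z : ℝ) : ℝ := ((1:ℝ) - ((ta u om z) * (ta u om z)))
noncomputable def sh (u om z : ℝ) : ℝ := (((2:ℝ) * (sz u om z)) / (d u om z))
noncomputable def s (u om z : ℝ) : ℝ := (om * (sh u om z))
noncomputable def U0 (u om z : ℝ) : ℝ := ((((t0 u om z) - (1:ℝ)) + (((1:ℝ) - (R u om z)) * (2:ℝ))) + ((R u om z) / ((1:ℝ) + (t0 u om z))))
noncomputable def U1 (u om z : ℝ) : ℝ := ((((1:ℝ) + (t1 u om z)) - ((2:ℝ) * (r1 u om z))) + ((r1 u om z) / ((1:ℝ) + (t1 u om z))))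
noncomputable def V1 (u om z : ℝ) : ℝ := ((ta u om z) * (U1 u om z))
noncomputable def D (u om z : ℝ) : ℝ := ((U0 u om z) - (V1 u om z))
noncomputable def a (u om z : ℝ) : ℝ := (((((2:ℝ) - ((2:ℝ) * (iz u om z))) * (Ga u om z)) + (((sh u om z) * ((1/2:ℝ) - ((3/25:ℝ) * (s u om z)))) * (D u om z))) + (((2:ℝ) * (cv u om z)) * (U1 u om z)))
noncomputable def gg (u om z : ℝ) : ℝ := ((((((d u om z) * (d u om z)) * (Ga u om z)) * ((1:ℝ) + (z * z))) / (8:ℝ)) - ((3/25:ℝ) * (om * (D u om z))))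
noncomputable def X (u om z : ℝ) : ℝ := (((((499/500:ℝ) - ((3/500:ℝ) * (s u om z))) * ((R u om z) * (d u om z))) + ((3/10:ℝ) * (U0 u om z))) - ((7/25:ℝ) * (V1 u om z)))

def Q (u om z : ℝ) : Prop :=
  (
  (0 < (a u om z) ∧ 0 < (((a u om z) * (gg u om z)) - ((X u om z) * (X u om z)))) ∨
  (0 < (a u om z) ∧ 0 < (((3/5:ℝ) * (om * (a u om z))) - ((2:ℝ) * (X u om z))) ∧ 0 < (((4:ℝ) * (gg u om z)) + (om * (((9/25:ℝ) * (om * (a u om z))) - ((12/5:ℝ) * (X u om z)))))) ∨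
  (0 < (((100:ℝ) * (s u om z)) - (65:ℝ))) ∨
  (0 < (((100:ℝ) * (ta u om z)) - (25:ℝ))))

noncomputable def alt0 (z1 w1 z2 w2 z3 w3 : ℕ) : Bool :=
  sqK z3 1152921504606846976 1152921504606846976 (Nat.add w3 1152921504606846976) 0 fun c1 a1_1 a1_2 a1_3 q1 =>
  addcK c1 a1_1 a1_2 a1_3 q1 1152922604118474752 0 fun c3 a3_1 a3_2 a3_3 q3 =>
  invK c3 a3_1 a3_2 a3_3 q3 fun c5 a5_1 a5_2 a5_3 q5 =>
  smulK 2 1 1152921504606846977 2305843009213693952 c5 a5_1 a5_2 a5_3 q5 fun c8 a8_1 a8_2 a8_3 q8 =>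
  negK c8 a8_1 a8_2 a8_3 q8 fun c9 a9_1 a9_2 a9_3 q9 =>
  addcK c9 a9_1 a9_2 a9_3 q9 1152923703630102528 0 fun c10 a10_1 a10_2 a10_3 q10 =>
  addcK c8 a8_1 a8_2 a8_3 q8 1152920405095219200 0 fun c12 a12_1 a12_2 a12_3 q12 =>
  mulK z2 1152921504606846976 (Nat.add w2 1152921504606846976) 1152921504606846976 0 c12 a12_1 a12_2 a12_3 q12 fun c15 a15_1 a15_2 a15_3 q15 =>
  sqK c15 a15_1 a15_2 a15_3 q15 fun c17 a17_1 a17_2 a17_3 q17 =>
  addcK c17 a17_1 a17_2 a17_3 q17 1152922604118474752 0 fun c19 a19_1 a19_2 a19_3 q19 =>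
  smulK 2 1 1152921504606846977 2305843009213693952 z2 1152921504606846976 (Nat.add w2 1152921504606846976) 1152921504606846976 0 fun c22 a22_1 a22_2 a22_3 q22 =>
  addK c19 a19_1 a19_2 a19_3 q19 c22 a22_1 a22_2 a22_3 q22 fun c23 a23_1 a23_2 a23_3 q23 =>
  sqrtK c23 a23_1 a23_2 a23_3 q23 fun c24 a24_1 a24_2 a24_3 q24 =>
  addcK c24 a24_1 a24_2 a24_3 q24 1152922604118474752 0 fun c26 a26_1 a26_2 a26_3 q26 =>
  addK c26 a26_1 a26_2 a26_3 q26 c15 a15_1 a15_2 a15_3 q15 fun c27 a27_1 a27_2 a27_3 q27 =>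
  invK c27 a27_1 a27_2 a27_3 q27 fun c29 a29_1 a29_2 a29_3 q29 =>
  sqK z1 (Nat.add w1 1152921504606846976) 1152921504606846976 1152921504606846976 0 fun c30 a30_1 a30_2 a30_3 q30 =>
  addcK c30 a30_1 a30_2 a30_3 q30 1152922604118474752 0 fun c32 a32_1 a32_2 a32_3 q32 =>
  invK c32 a32_1 a32_2 a32_3 q32 fun c34 a34_1 a34_2 a34_3 q34 =>
  smulK 2 1 1152921504606846977 2305843009213693952 c34 a34_1 a34_2 a34_3 q34 fun c37 a37_1 a37_2 a37_3 q37 =>
  addcK c37 a37_1 a37_2 a37_3 q37 1152920405095219200 0 fun c38 a38_1 a38_2 a38_3 q38 =>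
  sqK c38 a38_1 a38_2 a38_3 q38 fun c41 a41_1 a41_2 a41_3 q41 =>
  subK c19 a19_1 a19_2 a19_3 q19 c15 a15_1 a15_2 a15_3 q15 fun c44 a44_1 a44_2 a44_3 q44 =>
  smulK 2 1 1152921504606846977 2305843009213693952 c44 a44_1 a44_2 a44_3 q44 fun c45 a45_1 a45_2 a45_3 q45 =>
  mulK c24 a24_1 a24_2 a24_3 q24 c27 a27_1 a27_2 a27_3 q27 fun c46 a46_1 a46_2 a46_3 q46 =>
  subK c45 a45_1 a45_2 a45_3 q45 c46 a46_1 a46_2 a46_3 q46 fun c47 a47_1 a47_2 a47_3 q47 =>
  mulK c41 a41_1 a41_2 a41_3 q41 c47 a47_1 a47_2 a47_3 q47 fun c48 a48_1 a48_2 a48_3 q48 =>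
  smulK 2479 5000 5764607523034234885000 2858092409920373653504 c48 a48_1 a48_2 a48_3 q48 fun c49 a49_1 a49_2 a49_3 q49 =>
  negK c49 a49_1 a49_2 a49_3 q49 fun c50 a50_1 a50_2 a50_3 q50 =>
  addcK c50 a50_1 a50_2 a50_3 q50 1152925902653358080 0 fun c52 a52_1 a52_2 a52_3 q52 =>
  mulK c52 a52_1 a52_2 a52_3 q52 c29 a29_1 a29_2 a29_3 q29 fun c54 a54_1 a54_2 a54_3 q54 =>
  mulK c41 a41_1 a41_2 a41_3 q41 c38 a38_1 a38_2 a38_3 q38 fun c56 a56_1 a56_2 a56_3 q56 =>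
  addK z2 1152921504606846976 (Nat.add w2 1152921504606846976) 1152921504606846976 0 c15 a15_1 a15_2 a15_3 q15 fun c57 a57_1 a57_2 a57_3 q57 =>
  mulK c56 a56_1 a56_2 a56_3 q56 c57 a57_1 a57_2 a57_3 q57 fun c58 a58_1 a58_2 a58_3 q58 =>
  mulK c41 a41_1 a41_2 a41_3 q41 c19 a19_1 a19_2 a19_3 q19 fun c59 a59_1 a59_2 a59_3 q59 =>
  smulK 1971 10000 11529215046068469770000 2272408285580095389696 c59 a59_1 a59_2 a59_3 q59 fun c61 a61_1 a61_2 a61_3 q61 =>
  negK c61 a61_1 a61_2 a61_3 q61 fun c62 a62_1 a62_2 a62_3 q62 =>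
  negK c62 a62_1 a62_2 a62_3 q62 fun c64 a64_1 a64_2 a64_3 q64 =>
  addcK c64 a64_1 a64_2 a64_3 q64 1152920892838577281 1 fun c65 a65_1 a65_2 a65_3 q65 =>
  sqK c41 a41_1 a41_2 a41_3 q41 fun c67 a67_1 a67_2 a67_3 q67 =>
  sqK z2 1152921504606846976 (Nat.add w2 1152921504606846976) 1152921504606846976 0 fun c70 a70_1 a70_2 a70_3 q70 =>
  addK c70 a70_1 a70_2 a70_3 q70 c17 a17_1 a17_2 a17_3 q17 fun c72 a72_1 a72_2 a72_3 q72 =>
  smulK 2 1 1152921504606846977 2305843009213693952 c72 a72_1 a72_2 a72_3 q72 fun c73 a73_1 a73_2 a73_3 q73 =>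
  mulK c67 a67_1 a67_2 a67_3 q67 c73 a73_1 a73_2 a73_3 q73 fun c74 a74_1 a74_2 a74_3 q74 =>
  sqK c59 a59_1 a59_2 a59_3 q59 fun c75 a75_1 a75_2 a75_3 q75 =>
  smulK 4 1 1152921504606846977 4611686018427387904 c75 a75_1 a75_2 a75_3 q75 fun c77 a77_1 a77_2 a77_3 q77 =>
  subK c74 a74_1 a74_2 a74_3 q74 c77 a77_1 a77_2 a77_3 q77 fun c78 a78_1 a78_2 a78_3 q78 =>
  smulK 24 625 720575940379279360625 27670116110564327424 c78 a78_1 a78_2 a78_3 q78 fun c79 a79_1 a79_2 a79_3 q79 =>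
  addK c65 a65_1 a65_2 a65_3 q65 c79 a79_1 a79_2 a79_3 q79 fun c80 a80_1 a80_2 a80_3 q80 =>
  negK c59 a59_1 a59_2 a59_3 q59 fun c82 a82_1 a82_2 a82_3 q82 =>
  addcK c82 a82_1 a82_2 a82_3 q82 1152923703630102528 0 fun c83 a83_1 a83_2 a83_3 q83 =>
  smulK 2 1 1152921504606846977 2305843009213693952 z1 (Nat.add w1 1152921504606846976) 1152921504606846976 1152921504606846976 0 fun c86 a86_1 a86_2 a86_3 q86 =>
  mulK c86 a86_1 a86_2 a86_3 q86 c34 a34_1 a34_2 a34_3 q34 fun c87 a87_1 a87_2 a87_3 q87 =>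
  mulK c38 a38_1 a38_2 a38_3 q38 c15 a15_1 a15_2 a15_3 q15 fun c89 a89_1 a89_2 a89_3 q89 =>
  sqK c89 a89_1 a89_2 a89_3 q89 fun c91 a91_1 a91_2 a91_3 q91 =>
  negK c91 a91_1 a91_2 a91_3 q91 fun c93 a93_1 a93_2 a93_3 q93 =>
  addcK c93 a93_1 a93_2 a93_3 q93 1152922604118474752 0 fun c94 a94_1 a94_2 a94_3 q94 =>
  sqrtK c94 a94_1 a94_2 a94_3 q94 fun c96 a96_1 a96_2 a96_3 q96 =>
  mulK c87 a87_1 a87_2 a87_3 q87 c96 a96_1 a96_2 a96_3 q96 fun c98 a98_1 a98_2 a98_3 q98 =>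
  sqK c98 a98_1 a98_2 a98_3 q98 fun c100 a100_1 a100_2 a100_3 q100 =>
  smulK 2 1 1152921504606846977 2305843009213693952 z3 1152921504606846976 1152921504606846976 (Nat.add w3 1152921504606846976) 0 fun c102 a102_1 a102_2 a102_3 q102 =>
  mulK c102 a102_1 a102_2 a102_3 q102 c5 a5_1 a5_2 a5_3 q5 fun c103 a103_1 a103_2 a103_3 q103 =>
  mulK z2 1152921504606846976 (Nat.add w2 1152921504606846976) 1152921504606846976 0 c103 a103_1 a103_2 a103_3 q103 fun c105 a105_1 a105_2 a105_3 q105 =>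
  sqK c105 a105_1 a105_2 a105_3 q105 fun c107 a107_1 a107_2 a107_3 q107 =>
  mulK c67 a67_1 a67_2 a67_3 q67 c107 a107_1 a107_2 a107_3 q107 fun c110 a110_1 a110_2 a110_3 q110 =>
  addK c100 a100_1 a100_2 a100_3 q100 c110 a110_1 a110_2 a110_3 q110 fun c111 a111_1 a111_2 a111_3 q111 =>
  sqrtK c111 a111_1 a111_2 a111_3 q111 fun c112 a112_1 a112_2 a112_3 q112 =>
  smulK 2 1 1152921504606846977 2305843009213693952 c112 a112_1 a112_2 a112_3 q112 fun c114 a114_1 a114_2 a114_3 q114 =>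
  addK c83 a83_1 a83_2 a83_3 q83 c114 a114_1 a114_2 a114_3 q114 fun c115 a115_1 a115_2 a115_3 q115 =>
  sqrtK c115 a115_1 a115_2 a115_3 q115 fun c116 a116_1 a116_2 a116_3 q116 =>
  addK c87 a87_1 a87_2 a87_3 q87 c96 a96_1 a96_2 a96_3 q96 fun c118 a118_1 a118_2 a118_3 q118 =>
  addK c116 a116_1 a116_2 a116_3 q116 c118 a118_1 a118_2 a118_3 q118 fun c120 a120_1 a120_2 a120_3 q120 =>
  invK c120 a120_1 a120_2 a120_3 q120 fun c121 a121_1 a121_2 a121_3 q121 =>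
  mulK c116 a116_1 a116_2 a116_3 q116 c118 a118_1 a118_2 a118_3 q118 fun c122 a122_1 a122_2 a122_3 q122 =>
  addK c122 a122_1 a122_2 a122_3 q122 c83 a83_1 a83_2 a83_3 q83 fun c123 a123_1 a123_2 a123_3 q123 =>
  invK c123 a123_1 a123_2 a123_3 q123 fun c124 a124_1 a124_2 a124_3 q124 =>
  addK c83 a83_1 a83_2 a83_3 q83 c98 a98_1 a98_2 a98_3 q98 fun c125 a125_1 a125_2 a125_3 q125 =>
  mulK c125 a125_1 a125_2 a125_3 q125 c124 a124_1 a124_2 a124_3 q124 fun c126 a126_1 a126_2 a126_3 q126 =>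
  addcK c126 a126_1 a126_2 a126_3 q126 1152922604118474752 0 fun c128 a128_1 a128_2 a128_3 q128 =>
  mulK c128 a128_1 a128_2 a128_3 q128 c121 a121_1 a121_2 a121_3 q121 fun c130 a130_1 a130_2 a130_3 q130 =>
  addK c80 a80_1 a80_2 a80_3 q80 c130 a130_1 a130_2 a130_3 q130 fun c133 a133_1 a133_2 a133_3 q133 =>
  mulK c58 a58_1 a58_2 a58_3 q58 c133 a133_1 a133_2 a133_3 q133 fun c134 a134_1 a134_2 a134_3 q134 =>
  addK c54 a54_1 a54_2 a54_3 q54 c134 a134_1 a134_2 a134_3 q134 fun c135 a135_1 a135_2 a135_3 q135 =>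
  mulK c10 a10_1 a10_2 a10_3 q10 c135 a135_1 a135_2 a135_3 q135 fun c137 a137_1 a137_2 a137_3 q137 =>
  negK c17 a17_1 a17_2 a17_3 q17 fun c138 a138_1 a138_2 a138_3 q138 =>
  addcK c138 a138_1 a138_2 a138_3 q138 1152922604118474752 0 fun c139 a139_1 a139_2 a139_3 q139 =>
  invK c139 a139_1 a139_2 a139_3 q139 fun c142 a142_1 a142_2 a142_3 q142 =>
  smulK 2 1 1152921504606846977 2305843009213693952 c103 a103_1 a103_2 a103_3 q103 fun c143 a143_1 a143_2 a143_3 q143 =>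
  mulK c143 a143_1 a143_2 a143_3 q143 c142 a142_1 a142_2 a142_3 q142 fun c144 a144_1 a144_2 a144_3 q144 =>
  mulK z2 1152921504606846976 (Nat.add w2 1152921504606846976) 1152921504606846976 0 c144 a144_1 a144_2 a144_3 q144 fun c147 a147_1 a147_2 a147_3 q147 =>
  smulK 3 25 28823037615171174425 3458764513820540928 c147 a147_1 a147_2 a147_3 q147 fun c149 a149_1 a149_2 a149_3 q149 =>
  negK c149 a149_1 a149_2 a149_3 q149 fun c150 a150_1 a150_2 a150_3 q150 =>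
  addcK c150 a150_1 a150_2 a150_3 q150 1152922054362660864 0 fun c151 a151_1 a151_2 a151_3 q151 =>
  mulK c144 a144_1 a144_2 a144_3 q144 c151 a151_1 a151_2 a151_3 q151 fun c153 a153_1 a153_2 a153_3 q153 =>
  addcK c87 a87_1 a87_2 a87_3 q87 1152920405095219200 0 fun c154 a154_1 a154_2 a154_3 q154 =>
  negK c38 a38_1 a38_2 a38_3 q38 fun c156 a156_1 a156_2 a156_3 q156 =>
  addcK c156 a156_1 a156_2 a156_3 q156 1152922604118474752 0 fun c157 a157_1 a157_2 a157_3 q157 =>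
  smulK 2 1 1152921504606846977 2305843009213693952 c157 a157_1 a157_2 a157_3 q157 fun c159 a159_1 a159_2 a159_3 q159 =>
  addK c154 a154_1 a154_2 a154_3 q154 c159 a159_1 a159_2 a159_3 q159 fun c161 a161_1 a161_2 a161_3 q161 =>
  addcK c87 a87_1 a87_2 a87_3 q87 1152922604118474752 0 fun c162 a162_1 a162_2 a162_3 q162 =>
  invK c162 a162_1 a162_2 a162_3 q162 fun c164 a164_1 a164_2 a164_3 q164 =>
  mulK c38 a38_1 a38_2 a38_3 q38 c164 a164_1 a164_2 a164_3 q164 fun c165 a165_1 a165_2 a165_3 q165 =>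
  addK c161 a161_1 a161_2 a161_3 q161 c165 a165_1 a165_2 a165_3 q165 fun c167 a167_1 a167_2 a167_3 q167 =>
  addcK c96 a96_1 a96_2 a96_3 q96 1152922604118474752 0 fun c169 a169_1 a169_2 a169_3 q169 =>
  smulK 2 1 1152921504606846977 2305843009213693952 c89 a89_1 a89_2 a89_3 q89 fun c171 a171_1 a171_2 a171_3 q171 =>
  subK c169 a169_1 a169_2 a169_3 q169 c171 a171_1 a171_2 a171_3 q171 fun c172 a172_1 a172_2 a172_3 q172 =>
  invK c169 a169_1 a169_2 a169_3 q169 fun c173 a173_1 a173_2 a173_3 q173 =>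
  mulK c89 a89_1 a89_2 a89_3 q89 c173 a173_1 a173_2 a173_3 q173 fun c174 a174_1 a174_2 a174_3 q174 =>
  addK c172 a172_1 a172_2 a172_3 q172 c174 a174_1 a174_2 a174_3 q174 fun c176 a176_1 a176_2 a176_3 q176 =>
  mulK c15 a15_1 a15_2 a15_3 q15 c176 a176_1 a176_2 a176_3 q176 fun c178 a178_1 a178_2 a178_3 q178 =>
  subK c167 a167_1 a167_2 a167_3 q167 c178 a178_1 a178_2 a178_3 q178 fun c180 a180_1 a180_2 a180_3 q180 =>
  mulK c153 a153_1 a153_2 a153_3 q153 c180 a180_1 a180_2 a180_3 q180 fun c182 a182_1 a182_2 a182_3 q182 =>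
  addK c137 a137_1 a137_2 a137_3 q137 c182 a182_1 a182_2 a182_3 q182 fun c183 a183_1 a183_2 a183_3 q183 =>
  smulK 2 1 1152921504606846977 2305843009213693952 c12 a12_1 a12_2 a12_3 q12 fun c184 a184_1 a184_2 a184_3 q184 =>
  mulK c184 a184_1 a184_2 a184_3 q184 c176 a176_1 a176_2 a176_3 q176 fun c185 a185_1 a185_2 a185_3 q185 =>
  addK c183 a183_1 a183_2 a183_3 q183 c185 a185_1 a185_2 a185_3 q185 fun c186 a186_1 a186_2 a186_3 q186 =>
  posK c186 a186_1 a186_2 a186_3 q186 <|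
  sqK c139 a139_1 a139_2 a139_3 q139 fun c188 a188_1 a188_2 a188_3 q188 =>
  mulK c188 a188_1 a188_2 a188_3 q188 c135 a135_1 a135_2 a135_3 q135 fun c190 a190_1 a190_2 a190_3 q190 =>
  mulK c190 a190_1 a190_2 a190_3 q190 c3 a3_1 a3_2 a3_3 q3 fun c191 a191_1 a191_2 a191_3 q191 =>
  smulK 1 8 9223372036854775816 1152921504606846976 c191 a191_1 a191_2 a191_3 q191 fun c192 a192_1 a192_2 a192_3 q192 =>
  mulK z2 1152921504606846976 (Nat.add w2 1152921504606846976) 1152921504606846976 0 c180 a180_1 a180_2 a180_3 q180 fun c194 a194_1 a194_2 a194_3 q194 =>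
  smulK 3 25 28823037615171174425 3458764513820540928 c194 a194_1 a194_2 a194_3 q194 fun c195 a195_1 a195_2 a195_3 q195 =>
  subK c192 a192_1 a192_2 a192_3 q192 c195 a195_1 a195_2 a195_3 q195 fun c196 a196_1 a196_2 a196_3 q196 =>
  mulK c186 a186_1 a186_2 a186_3 q186 c196 a196_1 a196_2 a196_3 q196 fun c198 a198_1 a198_2 a198_3 q198 =>
  smulK 3 500 576460752303423488500 3458764513820540928 c147 a147_1 a147_2 a147_3 q147 fun c199 a199_1 a199_2 a199_3 q199 =>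
  negK c199 a199_1 a199_2 a199_3 q199 fun c200 a200_1 a200_2 a200_3 q200 =>
  addcK c200 a200_1 a200_2 a200_3 q200 1152922601919451496 1 fun c201 a201_1 a201_2 a201_3 q201 =>
  mulK c38 a38_1 a38_2 a38_3 q38 c139 a139_1 a139_2 a139_3 q139 fun c203 a203_1 a203_2 a203_3 q203 =>
  mulK c201 a201_1 a201_2 a201_3 q201 c203 a203_1 a203_2 a203_3 q203 fun c204 a204_1 a204_2 a204_3 q204 =>
  smulK 3 10 11529215046068469770 3458764513820540928 c167 a167_1 a167_2 a167_3 q167 fun c205 a205_1 a205_2 a205_3 q205 =>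
  addK c204 a204_1 a204_2 a204_3 q204 c205 a205_1 a205_2 a205_3 q205 fun c206 a206_1 a206_2 a206_3 q206 =>
  smulK 7 25 28823037615171174425 8070450532247928832 c178 a178_1 a178_2 a178_3 q178 fun c207 a207_1 a207_2 a207_3 q207 =>
  subK c206 a206_1 a206_2 a206_3 q206 c207 a207_1 a207_2 a207_3 q207 fun c208 a208_1 a208_2 a208_3 q208 =>
  sqK c208 a208_1 a208_2 a208_3 q208 fun c210 a210_1 a210_2 a210_3 q210 =>
  subK c198 a198_1 a198_2 a198_3 q198 c210 a210_1 a210_2 a210_3 q210 fun c212 a212_1 a212_2 a212_3 q212 =>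
  pos c212 a212_1 a212_2 a212_3 q212

theorem alt0_s {z1 w1 z2 w2 z3 w3 : ℕ} {e1 e2 e3 u om z : ℝ} (he : Ev e1 e2 e3)
    (hx1 : In e1 e2 e3 z1 (Nat.add w1 1152921504606846976) 1152921504606846976 1152921504606846976 0 u)
    (hx2 : In e1 e2 e3 z2 1152921504606846976 (Nat.add w2 1152921504606846976) 1152921504606846976 0 om)
    (hx3 : In e1 e2 e3 z3 1152921504606846976 1152921504606846976 (Nat.add w3 1152921504606846976) 0 z)
    (H0 : alt0 z1 w1 z2 w2 z3 w3 = true) : 0 < (a u om z) ∧ 0 < (((a u om z) * (gg u om z)) - ((X u om z) * (X u om z))) := by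
  unfold alt0 at H0
  refine sqK_s he hx3 (fun _ _ _ _ _ h1 H1 => ?_) H0
  have h2 := In_cast h1 (sq _)
  refine addcK_s he h2 (v' := (1:ℝ)) (by norm_num [SS, BB, abs_le]) (fun _ _ _ _ _ h3 H2 => ?_) H1
  have h4 := In_cast h3 (add_comm _ _)
  refine invK_s he h4 (fun _ _ _ _ _ h5 H3 => ?_) H2
  have h6 := In_cast h5 (inv_eq_one_div _)
  have h7 := In_cast (w := (iz u om z)) h6 rfl
  refine smulK_s he (w := (2:ℝ)) (by norm_num) (by norm_num) (by norm_num) (by norm_num) h7 (fun _ _ _ _ _ h8 H4 => ?_) H3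
  refine negK_s he h8 (fun _ _ _ _ _ h9 H5 => ?_) H4
  refine addcK_s he h9 (v' := (2:ℝ)) (by norm_num [SS, BB, abs_le]) (fun _ _ _ _ _ h10 H6 => ?_) H5
  have h11 := In_cast h10 (neg_add_eq_sub _ _)
  refine addcK_s he h8 (v' := (-1:ℝ)) (by norm_num [SS, BB, abs_le]) (fun _ _ _ _ _ h12 H7 => ?_) H6
  have h13 := In_cast h12 (sub_c (c := (1:ℝ)) (by norm_num))
  have h14 := In_cast (w := (cv u om z)) h13 rfl
  refine mulK_s he hx2 h14 (fun _ _ _ _ _ h15 H8 => ?_) H7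
  have h16 := In_cast (w := (ta u om z)) h15 rfl
  refine sqK_s he h16 (fun _ _ _ _ _ h17 H9 => ?_) H8
  have h18 := In_cast h17 (sq _)
  refine addcK_s he h18 (v' := (1:ℝ)) (by norm_num [SS, BB, abs_le]) (fun _ _ _ _ _ h19 H10 => ?_) H9
  have h20 := In_cast h19 (add_comm _ _)
  have h21 := In_cast (w := (Ph u om z)) h20 rfl
  refine smulK_s he (w := (2:ℝ)) (by norm_num) (by norm_num) (by norm_num) (by norm_num) hx2 (fun _ _ _ _ _ h22 H11 => ?_) H10
  refine addK_s he h21 h22 (fun _ _ _ _ _ h23 H12 => ?_) H11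
  refine sqrtK_s he h23 (fun _ _ _ _ _ h24 H13 => ?_) H12
  have h25 := In_cast (w := (sg u om z)) h24 rfl
  refine addcK_s he h25 (v' := (1:ℝ)) (by norm_num [SS, BB, abs_le]) (fun _ _ _ _ _ h26 H14 => ?_) H13
  refine addK_s he h26 h16 (fun _ _ _ _ _ h27 H15 => ?_) H14
  have h28 := In_cast (w := (ss u om z)) h27 rfl
  refine invK_s he h28 (fun _ _ _ _ _ h29 H16 => ?_) H15
  refine sqK_s he hx1 (fun _ _ _ _ _ h30 H17 => ?_) H16
  have h31 := In_cast h30 (sq _)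
  refine addcK_s he h31 (v' := (1:ℝ)) (by norm_num [SS, BB, abs_le]) (fun _ _ _ _ _ h32 H18 => ?_) H17
  have h33 := In_cast h32 (add_comm _ _)
  refine invK_s he h33 (fun _ _ _ _ _ h34 H19 => ?_) H18
  have h35 := In_cast h34 (inv_eq_one_div _)
  have h36 := In_cast (w := (iu u om z)) h35 rfl
  refine smulK_s he (w := (2:ℝ)) (by norm_num) (by norm_num) (by norm_num) (by norm_num) h36 (fun _ _ _ _ _ h37 H20 => ?_) H19
  refine addcK_s he h37 (v' := (-1:ℝ)) (by norm_num [SS, BB, abs_le]) (fun _ _ _ _ _ h38 H21 => ?_) H20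
  have h39 := In_cast h38 (sub_c (c := (1:ℝ)) (by norm_num))
  have h40 := In_cast (w := (R u om z)) h39 rfl
  refine sqK_s he h40 (fun _ _ _ _ _ h41 H22 => ?_) H21
  have h42 := In_cast h41 (sq _)
  have h43 := In_cast (w := (R2 u om z)) h42 rfl
  refine subK_s he h21 h16 (fun _ _ _ _ _ h44 H23 => ?_) H22
  refine smulK_s he (w := (2:ℝ)) (by norm_num) (by norm_num) (by norm_num) (by norm_num) h44 (fun _ _ _ _ _ h45 H24 => ?_) H23
  refine mulK_s he h25 h28 (fun _ _ _ _ _ h46 H25 => ?_) H24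
  refine subK_s he h45 h46 (fun _ _ _ _ _ h47 H26 => ?_) H25
  refine mulK_s he h43 h47 (fun _ _ _ _ _ h48 H27 => ?_) H26
  refine smulK_s he (w := (2479/5000:ℝ)) (by norm_num) (by norm_num) (by norm_num) (by norm_num) h48 (fun _ _ _ _ _ h49 H28 => ?_) H27
  refine negK_s he h49 (fun _ _ _ _ _ h50 H29 => ?_) H28
  have h51 := In_cast h50 (neg_mul_c (c := (-2479/5000:ℝ)) (by norm_num))
  refine addcK_s he h51 (v' := (4:ℝ)) (by norm_num [SS, BB, abs_le]) (fun _ _ _ _ _ h52 H30 => ?_) H29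
  have h53 := In_cast h52 (add_comm _ _)
  refine mulK_s he h53 h29 (fun _ _ _ _ _ h54 H31 => ?_) H30
  have h55 := In_cast h54 ((div_eq_mul_inv _ _).symm)
  refine mulK_s he h43 h40 (fun _ _ _ _ _ h56 H32 => ?_) H31
  refine addK_s he hx2 h16 (fun _ _ _ _ _ h57 H33 => ?_) H32
  refine mulK_s he h56 h57 (fun _ _ _ _ _ h58 H34 => ?_) H33
  refine mulK_s he h43 h21 (fun _ _ _ _ _ h59 H35 => ?_) H34
  have h60 := In_cast (w := (P u om z)) h59 rfl
  refine smulK_s he (w := (1971/10000:ℝ)) (by norm_num) (by norm_num) (by norm_num) (by norm_num) h60 (fun _ _ _ _ _ h61 H36 => ?_) H35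
  refine negK_s he h61 (fun _ _ _ _ _ h62 H37 => ?_) H36
  have h63 := In_cast h62 (neg_mul_c (c := (-1971/10000:ℝ)) (by norm_num))
  refine negK_s he h63 (fun _ _ _ _ _ h64 H38 => ?_) H37
  refine addcK_s he h64 (v' := (-1391/2500:ℝ)) (by norm_num [SS, BB, abs_le]) (fun _ _ _ _ _ h65 H39 => ?_) H38
  have h66 := In_cast h65 (neg_add_eq_sub _ _)
  refine sqK_s he h43 (fun _ _ _ _ _ h67 H40 => ?_) H39
  have h68 := In_cast h67 (sq _)
  have h69 := In_cast (w := (R4 u om z)) h68 rfl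
  refine sqK_s he hx2 (fun _ _ _ _ _ h70 H41 => ?_) H40
  have h71 := In_cast h70 (sq _)
  refine addK_s he h71 h18 (fun _ _ _ _ _ h72 H42 => ?_) H41
  refine smulK_s he (w := (2:ℝ)) (by norm_num) (by norm_num) (by norm_num) (by norm_num) h72 (fun _ _ _ _ _ h73 H43 => ?_) H42
  refine mulK_s he h69 h73 (fun _ _ _ _ _ h74 H44 => ?_) H43
  refine sqK_s he h60 (fun _ _ _ _ _ h75 H45 => ?_) H44
  have h76 := In_cast h75 (sq _)
  refine smulK_s he (w := (4:ℝ)) (by norm_num) (by norm_num) (by norm_num) (by norm_num) h76 (fun _ _ _ _ _ h77 H46 => ?_) H45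
  refine subK_s he h74 h77 (fun _ _ _ _ _ h78 H47 => ?_) H46
  refine smulK_s he (w := (24/625:ℝ)) (by norm_num) (by norm_num) (by norm_num) (by norm_num) h78 (fun _ _ _ _ _ h79 H48 => ?_) H47
  refine addK_s he h66 h79 (fun _ _ _ _ _ h80 H49 => ?_) H48
  have h81 := In_cast (w := (Gp u om z)) h80 rfl
  refine negK_s he h60 (fun _ _ _ _ _ h82 H50 => ?_) H49
  refine addcK_s he h82 (v' := (2:ℝ)) (by norm_num [SS, BB, abs_le]) (fun _ _ _ _ _ h83 H51 => ?_) H50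
  have h84 := In_cast h83 (neg_add_eq_sub _ _)
  have h85 := In_cast (w := (Pp u om z)) h84 rfl
  refine smulK_s he (w := (2:ℝ)) (by norm_num) (by norm_num) (by norm_num) (by norm_num) hx1 (fun _ _ _ _ _ h86 H52 => ?_) H51
  refine mulK_s he h86 h36 (fun _ _ _ _ _ h87 H53 => ?_) H52
  have h88 := In_cast (w := (t0 u om z)) h87 rfl
  refine mulK_s he h40 h16 (fun _ _ _ _ _ h89 H54 => ?_) H53
  have h90 := In_cast (w := (r1 u om z)) h89 rfl
  refine sqK_s he h90 (fun _ _ _ _ _ h91 H55 => ?_) H54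
  have h92 := In_cast h91 (sq _)
  refine negK_s he h92 (fun _ _ _ _ _ h93 H56 => ?_) H55
  refine addcK_s he h93 (v' := (1:ℝ)) (by norm_num [SS, BB, abs_le]) (fun _ _ _ _ _ h94 H57 => ?_) H56
  have h95 := In_cast h94 (neg_add_eq_sub _ _)
  refine sqrtK_s he h95 (fun _ _ _ _ _ h96 H58 => ?_) H57
  have h97 := In_cast (w := (t1 u om z)) h96 rfl
  refine mulK_s he h88 h97 (fun _ _ _ _ _ h98 H59 => ?_) H58
  have h99 := In_cast (w := (b0 u om z)) h98 rfl
  refine sqK_s he h99 (fun _ _ _ _ _ h100 H60 => ?_) H59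
  have h101 := In_cast h100 (sq _)
  refine smulK_s he (w := (2:ℝ)) (by norm_num) (by norm_num) (by norm_num) (by norm_num) hx3 (fun _ _ _ _ _ h102 H61 => ?_) H60
  refine mulK_s he h102 h7 (fun _ _ _ _ _ h103 H62 => ?_) H61
  have h104 := In_cast (w := (sz u om z)) h103 rfl
  refine mulK_s he hx2 h104 (fun _ _ _ _ _ h105 H63 => ?_) H62
  have h106 := In_cast (w := (hh u om z)) h105 rfl
  refine sqK_s he h106 (fun _ _ _ _ _ h107 H64 => ?_) H63
  have h108 := In_cast h107 (sq _)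
  have h109 := In_cast (w := (hq u om z)) h108 rfl
  refine mulK_s he h69 h109 (fun _ _ _ _ _ h110 H65 => ?_) H64
  refine addK_s he h101 h110 (fun _ _ _ _ _ h111 H66 => ?_) H65
  refine sqrtK_s he h111 (fun _ _ _ _ _ h112 H67 => ?_) H66
  have h113 := In_cast (w := (b u om z)) h112 rfl
  refine smulK_s he (w := (2:ℝ)) (by norm_num) (by norm_num) (by norm_num) (by norm_num) h113 (fun _ _ _ _ _ h114 H68 => ?_) H67
  refine addK_s he h85 h114 (fun _ _ _ _ _ h115 H69 => ?_) H68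
  refine sqrtK_s he h115 (fun _ _ _ _ _ h116 H70 => ?_) H69
  have h117 := In_cast (w := (v u om z)) h116 rfl
  refine addK_s he h88 h97 (fun _ _ _ _ _ h118 H71 => ?_) H70
  have h119 := In_cast (w := (v0 u om z)) h118 rfl
  refine addK_s he h117 h119 (fun _ _ _ _ _ h120 H72 => ?_) H71
  refine invK_s he h120 (fun _ _ _ _ _ h121 H73 => ?_) H72
  refine mulK_s he h117 h119 (fun _ _ _ _ _ h122 H74 => ?_) H73
  refine addK_s he h122 h85 (fun _ _ _ _ _ h123 H75 => ?_) H74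
  refine invK_s he h123 (fun _ _ _ _ _ h124 H76 => ?_) H75
  refine addK_s he h85 h99 (fun _ _ _ _ _ h125 H77 => ?_) H76
  refine mulK_s he h125 h124 (fun _ _ _ _ _ h126 H78 => ?_) H77
  have h127 := In_cast h126 ((div_eq_mul_inv _ _).symm)
  refine addcK_s he h127 (v' := (1:ℝ)) (by norm_num [SS, BB, abs_le]) (fun _ _ _ _ _ h128 H79 => ?_) H78
  have h129 := In_cast h128 (add_comm _ _)
  refine mulK_s he h129 h121 (fun _ _ _ _ _ h130 H80 => ?_) H79
  have h131 := In_cast h130 ((div_eq_mul_inv _ _).symm)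
  have h132 := In_cast (w := (GW u om z)) h131 rfl
  refine addK_s he h81 h132 (fun _ _ _ _ _ h133 H81 => ?_) H80
  refine mulK_s he h58 h133 (fun _ _ _ _ _ h134 H82 => ?_) H81
  refine addK_s he h55 h134 (fun _ _ _ _ _ h135 H83 => ?_) H82
  have h136 := In_cast (w := (Ga u om z)) h135 rfl
  refine mulK_s he h11 h136 (fun _ _ _ _ _ h137 H84 => ?_) H83
  refine negK_s he h18 (fun _ _ _ _ _ h138 H85 => ?_) H84
  refine addcK_s he h138 (v' := (1:ℝ)) (by norm_num [SS, BB, abs_le]) (fun _ _ _ _ _ h139 H86 => ?_) H85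
  have h140 := In_cast h139 (neg_add_eq_sub _ _)
  have h141 := In_cast (w := (d u om z)) h140 rfl
  refine invK_s he h141 (fun _ _ _ _ _ h142 H87 => ?_) H86
  refine smulK_s he (w := (2:ℝ)) (by norm_num) (by norm_num) (by norm_num) (by norm_num) h104 (fun _ _ _ _ _ h143 H88 => ?_) H87
  refine mulK_s he h143 h142 (fun _ _ _ _ _ h144 H89 => ?_) H88
  have h145 := In_cast h144 ((div_eq_mul_inv _ _).symm)
  have h146 := In_cast (w := (sh u om z)) h145 rfl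
  refine mulK_s he hx2 h146 (fun _ _ _ _ _ h147 H90 => ?_) H89
  have h148 := In_cast (w := (s u om z)) h147 rfl
  refine smulK_s he (w := (3/25:ℝ)) (by norm_num) (by norm_num) (by norm_num) (by norm_num) h148 (fun _ _ _ _ _ h149 H91 => ?_) H90
  refine negK_s he h149 (fun _ _ _ _ _ h150 H92 => ?_) H91
  refine addcK_s he h150 (v' := (1/2:ℝ)) (by norm_num [SS, BB, abs_le]) (fun _ _ _ _ _ h151 H93 => ?_) H92
  have h152 := In_cast h151 (neg_add_eq_sub _ _)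
  refine mulK_s he h146 h152 (fun _ _ _ _ _ h153 H94 => ?_) H93
  refine addcK_s he h88 (v' := (-1:ℝ)) (by norm_num [SS, BB, abs_le]) (fun _ _ _ _ _ h154 H95 => ?_) H94
  have h155 := In_cast h154 (sub_c (c := (1:ℝ)) (by norm_num))
  refine negK_s he h40 (fun _ _ _ _ _ h156 H96 => ?_) H95
  refine addcK_s he h156 (v' := (1:ℝ)) (by norm_num [SS, BB, abs_le]) (fun _ _ _ _ _ h157 H97 => ?_) H96
  have h158 := In_cast h157 (neg_add_eq_sub _ _)
  refine smulK_s he (w := (2:ℝ)) (by norm_num) (by norm_num) (by norm_num) (by norm_num) h158 (fun _ _ _ _ _ h159 H98 => ?_) H97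
  have h160 := In_cast h159 (mul_comm _ _)
  refine addK_s he h155 h160 (fun _ _ _ _ _ h161 H99 => ?_) H98
  refine addcK_s he h88 (v' := (1:ℝ)) (by norm_num [SS, BB, abs_le]) (fun _ _ _ _ _ h162 H100 => ?_) H99
  have h163 := In_cast h162 (add_comm _ _)
  refine invK_s he h163 (fun _ _ _ _ _ h164 H101 => ?_) H100
  refine mulK_s he h40 h164 (fun _ _ _ _ _ h165 H102 => ?_) H101
  have h166 := In_cast h165 ((div_eq_mul_inv _ _).symm)
  refine addK_s he h161 h166 (fun _ _ _ _ _ h167 H103 => ?_) H102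
  have h168 := In_cast (w := (U0 u om z)) h167 rfl
  refine addcK_s he h97 (v' := (1:ℝ)) (by norm_num [SS, BB, abs_le]) (fun _ _ _ _ _ h169 H104 => ?_) H103
  have h170 := In_cast h169 (add_comm _ _)
  refine smulK_s he (w := (2:ℝ)) (by norm_num) (by norm_num) (by norm_num) (by norm_num) h90 (fun _ _ _ _ _ h171 H105 => ?_) H104
  refine subK_s he h170 h171 (fun _ _ _ _ _ h172 H106 => ?_) H105
  refine invK_s he h170 (fun _ _ _ _ _ h173 H107 => ?_) H106
  refine mulK_s he h90 h173 (fun _ _ _ _ _ h174 H108 => ?_) H107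
  have h175 := In_cast h174 ((div_eq_mul_inv _ _).symm)
  refine addK_s he h172 h175 (fun _ _ _ _ _ h176 H109 => ?_) H108
  have h177 := In_cast (w := (U1 u om z)) h176 rfl
  refine mulK_s he h16 h177 (fun _ _ _ _ _ h178 H110 => ?_) H109
  have h179 := In_cast (w := (V1 u om z)) h178 rfl
  refine subK_s he h168 h179 (fun _ _ _ _ _ h180 H111 => ?_) H110
  have h181 := In_cast (w := (D u om z)) h180 rfl
  refine mulK_s he h153 h181 (fun _ _ _ _ _ h182 H112 => ?_) H111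
  refine addK_s he h137 h182 (fun _ _ _ _ _ h183 H113 => ?_) H112
  refine smulK_s he (w := (2:ℝ)) (by norm_num) (by norm_num) (by norm_num) (by norm_num) h14 (fun _ _ _ _ _ h184 H114 => ?_) H113
  refine mulK_s he h184 h177 (fun _ _ _ _ _ h185 H115 => ?_) H114
  refine addK_s he h183 h185 (fun _ _ _ _ _ h186 H116 => ?_) H115
  have h187 := In_cast (w := (a u om z)) h186 rfl
  refine posK_s he h187 (fun p0 H117 => ?_) H116
  refine sqK_s he h141 (fun _ _ _ _ _ h188 H118 => ?_) H117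
  have h189 := In_cast h188 (sq _)
  refine mulK_s he h189 h136 (fun _ _ _ _ _ h190 H119 => ?_) H118
  refine mulK_s he h190 h4 (fun _ _ _ _ _ h191 H120 => ?_) H119
  refine smulK_s he (w := (1/8:ℝ)) (by norm_num) (by norm_num) (by norm_num) (by norm_num) h191 (fun _ _ _ _ _ h192 H121 => ?_) H120
  have h193 := In_cast h192 (div_c (c := (8:ℝ)) (by norm_num))
  refine mulK_s he hx2 h181 (fun _ _ _ _ _ h194 H122 => ?_) H121
  refine smulK_s he (w := (3/25:ℝ)) (by norm_num) (by norm_num) (by norm_num) (by norm_num) h194 (fun _ _ _ _ _ h195 H123 => ?_) H122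
  refine subK_s he h193 h195 (fun _ _ _ _ _ h196 H124 => ?_) H123
  have h197 := In_cast (w := (gg u om z)) h196 rfl
  refine mulK_s he h187 h197 (fun _ _ _ _ _ h198 H125 => ?_) H124
  refine smulK_s he (w := (3/500:ℝ)) (by norm_num) (by norm_num) (by norm_num) (by norm_num) h148 (fun _ _ _ _ _ h199 H126 => ?_) H125
  refine negK_s he h199 (fun _ _ _ _ _ h200 H127 => ?_) H126
  refine addcK_s he h200 (v' := (499/500:ℝ)) (by norm_num [SS, BB, abs_le]) (fun _ _ _ _ _ h201 H128 => ?_) H127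
  have h202 := In_cast h201 (neg_add_eq_sub _ _)
  refine mulK_s he h40 h141 (fun _ _ _ _ _ h203 H129 => ?_) H128
  refine mulK_s he h202 h203 (fun _ _ _ _ _ h204 H130 => ?_) H129
  refine smulK_s he (w := (3/10:ℝ)) (by norm_num) (by norm_num) (by norm_num) (by norm_num) h168 (fun _ _ _ _ _ h205 H131 => ?_) H130
  refine addK_s he h204 h205 (fun _ _ _ _ _ h206 H132 => ?_) H131
  refine smulK_s he (w := (7/25:ℝ)) (by norm_num) (by norm_num) (by norm_num) (by norm_num) h179 (fun _ _ _ _ _ h207 H133 => ?_) H132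
  refine subK_s he h206 h207 (fun _ _ _ _ _ h208 H134 => ?_) H133
  have h209 := In_cast (w := (X u om z)) h208 rfl
  refine sqK_s he h209 (fun _ _ _ _ _ h210 H135 => ?_) H134
  have h211 := In_cast h210 (sq _)
  refine subK_s he h198 h211 (fun _ _ _ _ _ h212 H136 => ?_) H135
  exact ⟨p0, pos_s he h212 H136⟩

noncomputable def alt1 (z1 w1 z2 w2 z3 w3 : ℕ) : Bool :=
  sqK z3 1152921504606846976 1152921504606846976 (Nat.add w3 1152921504606846976) 0 fun c1 a1_1 a1_2 a1_3 q1 =>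
  addcK c1 a1_1 a1_2 a1_3 q1 1152922604118474752 0 fun c3 a3_1 a3_2 a3_3 q3 =>
  invK c3 a3_1 a3_2 a3_3 q3 fun c5 a5_1 a5_2 a5_3 q5 =>
  smulK 2 1 1152921504606846977 2305843009213693952 c5 a5_1 a5_2 a5_3 q5 fun c8 a8_1 a8_2 a8_3 q8 =>
  negK c8 a8_1 a8_2 a8_3 q8 fun c9 a9_1 a9_2 a9_3 q9 =>
  addcK c9 a9_1 a9_2 a9_3 q9 1152923703630102528 0 fun c10 a10_1 a10_2 a10_3 q10 =>
  addcK c8 a8_1 a8_2 a8_3 q8 1152920405095219200 0 fun c12 a12_1 a12_2 a12_3 q12 =>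
  mulK z2 1152921504606846976 (Nat.add w2 1152921504606846976) 1152921504606846976 0 c12 a12_1 a12_2 a12_3 q12 fun c15 a15_1 a15_2 a15_3 q15 =>
  sqK c15 a15_1 a15_2 a15_3 q15 fun c17 a17_1 a17_2 a17_3 q17 =>
  addcK c17 a17_1 a17_2 a17_3 q17 1152922604118474752 0 fun c19 a19_1 a19_2 a19_3 q19 =>
  smulK 2 1 1152921504606846977 2305843009213693952 z2 1152921504606846976 (Nat.add w2 1152921504606846976) 1152921504606846976 0 fun c22 a22_1 a22_2 a22_3 q22 =>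
  addK c19 a19_1 a19_2 a19_3 q19 c22 a22_1 a22_2 a22_3 q22 fun c23 a23_1 a23_2 a23_3 q23 =>
  sqrtK c23 a23_1 a23_2 a23_3 q23 fun c24 a24_1 a24_2 a24_3 q24 =>
  addcK c24 a24_1 a24_2 a24_3 q24 1152922604118474752 0 fun c26 a26_1 a26_2 a26_3 q26 =>
  addK c26 a26_1 a26_2 a26_3 q26 c15 a15_1 a15_2 a15_3 q15 fun c27 a27_1 a27_2 a27_3 q27 =>
  invK c27 a27_1 a27_2 a27_3 q27 fun c29 a29_1 a29_2 a29_3 q29 =>
  sqK z1 (Nat.add w1 1152921504606846976) 1152921504606846976 1152921504606846976 0 fun c30 a30_1 a30_2 a30_3 q30 =>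
  addcK c30 a30_1 a30_2 a30_3 q30 1152922604118474752 0 fun c32 a32_1 a32_2 a32_3 q32 =>
  invK c32 a32_1 a32_2 a32_3 q32 fun c34 a34_1 a34_2 a34_3 q34 =>
  smulK 2 1 1152921504606846977 2305843009213693952 c34 a34_1 a34_2 a34_3 q34 fun c37 a37_1 a37_2 a37_3 q37 =>
  addcK c37 a37_1 a37_2 a37_3 q37 1152920405095219200 0 fun c38 a38_1 a38_2 a38_3 q38 =>
  sqK c38 a38_1 a38_2 a38_3 q38 fun c41 a41_1 a41_2 a41_3 q41 =>
  subK c19 a19_1 a19_2 a19_3 q19 c15 a15_1 a15_2 a15_3 q15 fun c44 a44_1 a44_2 a44_3 q44 =>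
  smulK 2 1 1152921504606846977 2305843009213693952 c44 a44_1 a44_2 a44_3 q44 fun c45 a45_1 a45_2 a45_3 q45 =>
  mulK c24 a24_1 a24_2 a24_3 q24 c27 a27_1 a27_2 a27_3 q27 fun c46 a46_1 a46_2 a46_3 q46 =>
  subK c45 a45_1 a45_2 a45_3 q45 c46 a46_1 a46_2 a46_3 q46 fun c47 a47_1 a47_2 a47_3 q47 =>
  mulK c41 a41_1 a41_2 a41_3 q41 c47 a47_1 a47_2 a47_3 q47 fun c48 a48_1 a48_2 a48_3 q48 =>
  smulK 2479 5000 5764607523034234885000 2858092409920373653504 c48 a48_1 a48_2 a48_3 q48 fun c49 a49_1 a49_2 a49_3 q49 =>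
  negK c49 a49_1 a49_2 a49_3 q49 fun c50 a50_1 a50_2 a50_3 q50 =>
  addcK c50 a50_1 a50_2 a50_3 q50 1152925902653358080 0 fun c52 a52_1 a52_2 a52_3 q52 =>
  mulK c52 a52_1 a52_2 a52_3 q52 c29 a29_1 a29_2 a29_3 q29 fun c54 a54_1 a54_2 a54_3 q54 =>
  mulK c41 a41_1 a41_2 a41_3 q41 c38 a38_1 a38_2 a38_3 q38 fun c56 a56_1 a56_2 a56_3 q56 =>
  addK z2 1152921504606846976 (Nat.add w2 1152921504606846976) 1152921504606846976 0 c15 a15_1 a15_2 a15_3 q15 fun c57 a57_1 a57_2 a57_3 q57 =>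
  mulK c56 a56_1 a56_2 a56_3 q56 c57 a57_1 a57_2 a57_3 q57 fun c58 a58_1 a58_2 a58_3 q58 =>
  mulK c41 a41_1 a41_2 a41_3 q41 c19 a19_1 a19_2 a19_3 q19 fun c59 a59_1 a59_2 a59_3 q59 =>
  smulK 1971 10000 11529215046068469770000 2272408285580095389696 c59 a59_1 a59_2 a59_3 q59 fun c61 a61_1 a61_2 a61_3 q61 =>
  negK c61 a61_1 a61_2 a61_3 q61 fun c62 a62_1 a62_2 a62_3 q62 =>
  negK c62 a62_1 a62_2 a62_3 q62 fun c64 a64_1 a64_2 a64_3 q64 =>
  addcK c64 a64_1 a64_2 a64_3 q64 1152920892838577281 1 fun c65 a65_1 a65_2 a65_3 q65 =>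
  sqK c41 a41_1 a41_2 a41_3 q41 fun c67 a67_1 a67_2 a67_3 q67 =>
  sqK z2 1152921504606846976 (Nat.add w2 1152921504606846976) 1152921504606846976 0 fun c70 a70_1 a70_2 a70_3 q70 =>
  addK c70 a70_1 a70_2 a70_3 q70 c17 a17_1 a17_2 a17_3 q17 fun c72 a72_1 a72_2 a72_3 q72 =>
  smulK 2 1 1152921504606846977 2305843009213693952 c72 a72_1 a72_2 a72_3 q72 fun c73 a73_1 a73_2 a73_3 q73 =>
  mulK c67 a67_1 a67_2 a67_3 q67 c73 a73_1 a73_2 a73_3 q73 fun c74 a74_1 a74_2 a74_3 q74 =>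
  sqK c59 a59_1 a59_2 a59_3 q59 fun c75 a75_1 a75_2 a75_3 q75 =>
  smulK 4 1 1152921504606846977 4611686018427387904 c75 a75_1 a75_2 a75_3 q75 fun c77 a77_1 a77_2 a77_3 q77 =>
  subK c74 a74_1 a74_2 a74_3 q74 c77 a77_1 a77_2 a77_3 q77 fun c78 a78_1 a78_2 a78_3 q78 =>
  smulK 24 625 720575940379279360625 27670116110564327424 c78 a78_1 a78_2 a78_3 q78 fun c79 a79_1 a79_2 a79_3 q79 =>
  addK c65 a65_1 a65_2 a65_3 q65 c79 a79_1 a79_2 a79_3 q79 fun c80 a80_1 a80_2 a80_3 q80 =>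
  negK c59 a59_1 a59_2 a59_3 q59 fun c82 a82_1 a82_2 a82_3 q82 =>
  addcK c82 a82_1 a82_2 a82_3 q82 1152923703630102528 0 fun c83 a83_1 a83_2 a83_3 q83 =>
  smulK 2 1 1152921504606846977 2305843009213693952 z1 (Nat.add w1 1152921504606846976) 1152921504606846976 1152921504606846976 0 fun c86 a86_1 a86_2 a86_3 q86 =>
  mulK c86 a86_1 a86_2 a86_3 q86 c34 a34_1 a34_2 a34_3 q34 fun c87 a87_1 a87_2 a87_3 q87 =>
  mulK c38 a38_1 a38_2 a38_3 q38 c15 a15_1 a15_2 a15_3 q15 fun c89 a89_1 a89_2 a89_3 q89 =>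
  sqK c89 a89_1 a89_2 a89_3 q89 fun c91 a91_1 a91_2 a91_3 q91 =>
  negK c91 a91_1 a91_2 a91_3 q91 fun c93 a93_1 a93_2 a93_3 q93 =>
  addcK c93 a93_1 a93_2 a93_3 q93 1152922604118474752 0 fun c94 a94_1 a94_2 a94_3 q94 =>
  sqrtK c94 a94_1 a94_2 a94_3 q94 fun c96 a96_1 a96_2 a96_3 q96 =>
  mulK c87 a87_1 a87_2 a87_3 q87 c96 a96_1 a96_2 a96_3 q96 fun c98 a98_1 a98_2 a98_3 q98 =>
  sqK c98 a98_1 a98_2 a98_3 q98 fun c100 a100_1 a100_2 a100_3 q100 =>
  smulK 2 1 1152921504606846977 2305843009213693952 z3 1152921504606846976 1152921504606846976 (Nat.add w3 1152921504606846976) 0 fun c102 a102_1 a102_2 a102_3 q102 =>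
  mulK c102 a102_1 a102_2 a102_3 q102 c5 a5_1 a5_2 a5_3 q5 fun c103 a103_1 a103_2 a103_3 q103 =>
  mulK z2 1152921504606846976 (Nat.add w2 1152921504606846976) 1152921504606846976 0 c103 a103_1 a103_2 a103_3 q103 fun c105 a105_1 a105_2 a105_3 q105 =>
  sqK c105 a105_1 a105_2 a105_3 q105 fun c107 a107_1 a107_2 a107_3 q107 =>
  mulK c67 a67_1 a67_2 a67_3 q67 c107 a107_1 a107_2 a107_3 q107 fun c110 a110_1 a110_2 a110_3 q110 =>
  addK c100 a100_1 a100_2 a100_3 q100 c110 a110_1 a110_2 a110_3 q110 fun c111 a111_1 a111_2 a111_3 q111 =>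
  sqrtK c111 a111_1 a111_2 a111_3 q111 fun c112 a112_1 a112_2 a112_3 q112 =>
  smulK 2 1 1152921504606846977 2305843009213693952 c112 a112_1 a112_2 a112_3 q112 fun c114 a114_1 a114_2 a114_3 q114 =>
  addK c83 a83_1 a83_2 a83_3 q83 c114 a114_1 a114_2 a114_3 q114 fun c115 a115_1 a115_2 a115_3 q115 =>
  sqrtK c115 a115_1 a115_2 a115_3 q115 fun c116 a116_1 a116_2 a116_3 q116 =>
  addK c87 a87_1 a87_2 a87_3 q87 c96 a96_1 a96_2 a96_3 q96 fun c118 a118_1 a118_2 a118_3 q118 =>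
  addK c116 a116_1 a116_2 a116_3 q116 c118 a118_1 a118_2 a118_3 q118 fun c120 a120_1 a120_2 a120_3 q120 =>
  invK c120 a120_1 a120_2 a120_3 q120 fun c121 a121_1 a121_2 a121_3 q121 =>
  mulK c116 a116_1 a116_2 a116_3 q116 c118 a118_1 a118_2 a118_3 q118 fun c122 a122_1 a122_2 a122_3 q122 =>
  addK c122 a122_1 a122_2 a122_3 q122 c83 a83_1 a83_2 a83_3 q83 fun c123 a123_1 a123_2 a123_3 q123 =>
  invK c123 a123_1 a123_2 a123_3 q123 fun c124 a124_1 a124_2 a124_3 q124 =>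
  addK c83 a83_1 a83_2 a83_3 q83 c98 a98_1 a98_2 a98_3 q98 fun c125 a125_1 a125_2 a125_3 q125 =>
  mulK c125 a125_1 a125_2 a125_3 q125 c124 a124_1 a124_2 a124_3 q124 fun c126 a126_1 a126_2 a126_3 q126 =>
  addcK c126 a126_1 a126_2 a126_3 q126 1152922604118474752 0 fun c128 a128_1 a128_2 a128_3 q128 =>
  mulK c128 a128_1 a128_2 a128_3 q128 c121 a121_1 a121_2 a121_3 q121 fun c130 a130_1 a130_2 a130_3 q130 =>
  addK c80 a80_1 a80_2 a80_3 q80 c130 a130_1 a130_2 a130_3 q130 fun c133 a133_1 a133_2 a133_3 q133 =>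
  mulK c58 a58_1 a58_2 a58_3 q58 c133 a133_1 a133_2 a133_3 q133 fun c134 a134_1 a134_2 a134_3 q134 =>
  addK c54 a54_1 a54_2 a54_3 q54 c134 a134_1 a134_2 a134_3 q134 fun c135 a135_1 a135_2 a135_3 q135 =>
  mulK c10 a10_1 a10_2 a10_3 q10 c135 a135_1 a135_2 a135_3 q135 fun c137 a137_1 a137_2 a137_3 q137 =>
  negK c17 a17_1 a17_2 a17_3 q17 fun c138 a138_1 a138_2 a138_3 q138 =>
  addcK c138 a138_1 a138_2 a138_3 q138 1152922604118474752 0 fun c139 a139_1 a139_2 a139_3 q139 =>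
  invK c139 a139_1 a139_2 a139_3 q139 fun c142 a142_1 a142_2 a142_3 q142 =>
  smulK 2 1 1152921504606846977 2305843009213693952 c103 a103_1 a103_2 a103_3 q103 fun c143 a143_1 a143_2 a143_3 q143 =>
  mulK c143 a143_1 a143_2 a143_3 q143 c142 a142_1 a142_2 a142_3 q142 fun c144 a144_1 a144_2 a144_3 q144 =>
  mulK z2 1152921504606846976 (Nat.add w2 1152921504606846976) 1152921504606846976 0 c144 a144_1 a144_2 a144_3 q144 fun c147 a147_1 a147_2 a147_3 q147 =>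
  smulK 3 25 28823037615171174425 3458764513820540928 c147 a147_1 a147_2 a147_3 q147 fun c149 a149_1 a149_2 a149_3 q149 =>
  negK c149 a149_1 a149_2 a149_3 q149 fun c150 a150_1 a150_2 a150_3 q150 =>
  addcK c150 a150_1 a150_2 a150_3 q150 1152922054362660864 0 fun c151 a151_1 a151_2 a151_3 q151 =>
  mulK c144 a144_1 a144_2 a144_3 q144 c151 a151_1 a151_2 a151_3 q151 fun c153 a153_1 a153_2 a153_3 q153 =>
  addcK c87 a87_1 a87_2 a87_3 q87 1152920405095219200 0 fun c154 a154_1 a154_2 a154_3 q154 =>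
  negK c38 a38_1 a38_2 a38_3 q38 fun c156 a156_1 a156_2 a156_3 q156 =>
  addcK c156 a156_1 a156_2 a156_3 q156 1152922604118474752 0 fun c157 a157_1 a157_2 a157_3 q157 =>
  smulK 2 1 1152921504606846977 2305843009213693952 c157 a157_1 a157_2 a157_3 q157 fun c159 a159_1 a159_2 a159_3 q159 =>
  addK c154 a154_1 a154_2 a154_3 q154 c159 a159_1 a159_2 a159_3 q159 fun c161 a161_1 a161_2 a161_3 q161 =>
  addcK c87 a87_1 a87_2 a87_3 q87 1152922604118474752 0 fun c162 a162_1 a162_2 a162_3 q162 =>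
  invK c162 a162_1 a162_2 a162_3 q162 fun c164 a164_1 a164_2 a164_3 q164 =>
  mulK c38 a38_1 a38_2 a38_3 q38 c164 a164_1 a164_2 a164_3 q164 fun c165 a165_1 a165_2 a165_3 q165 =>
  addK c161 a161_1 a161_2 a161_3 q161 c165 a165_1 a165_2 a165_3 q165 fun c167 a167_1 a167_2 a167_3 q167 =>
  addcK c96 a96_1 a96_2 a96_3 q96 1152922604118474752 0 fun c169 a169_1 a169_2 a169_3 q169 =>
  smulK 2 1 1152921504606846977 2305843009213693952 c89 a89_1 a89_2 a89_3 q89 fun c171 a171_1 a171_2 a171_3 q171 =>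
  subK c169 a169_1 a169_2 a169_3 q169 c171 a171_1 a171_2 a171_3 q171 fun c172 a172_1 a172_2 a172_3 q172 =>
  invK c169 a169_1 a169_2 a169_3 q169 fun c173 a173_1 a173_2 a173_3 q173 =>
  mulK c89 a89_1 a89_2 a89_3 q89 c173 a173_1 a173_2 a173_3 q173 fun c174 a174_1 a174_2 a174_3 q174 =>
  addK c172 a172_1 a172_2 a172_3 q172 c174 a174_1 a174_2 a174_3 q174 fun c176 a176_1 a176_2 a176_3 q176 =>
  mulK c15 a15_1 a15_2 a15_3 q15 c176 a176_1 a176_2 a176_3 q176 fun c178 a178_1 a178_2 a178_3 q178 =>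
  subK c167 a167_1 a167_2 a167_3 q167 c178 a178_1 a178_2 a178_3 q178 fun c180 a180_1 a180_2 a180_3 q180 =>
  mulK c153 a153_1 a153_2 a153_3 q153 c180 a180_1 a180_2 a180_3 q180 fun c182 a182_1 a182_2 a182_3 q182 =>
  addK c137 a137_1 a137_2 a137_3 q137 c182 a182_1 a182_2 a182_3 q182 fun c183 a183_1 a183_2 a183_3 q183 =>
  smulK 2 1 1152921504606846977 2305843009213693952 c12 a12_1 a12_2 a12_3 q12 fun c184 a184_1 a184_2 a184_3 q184 =>
  mulK c184 a184_1 a184_2 a184_3 q184 c176 a176_1 a176_2 a176_3 q176 fun c185 a185_1 a185_2 a185_3 q185 =>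
  addK c183 a183_1 a183_2 a183_3 q183 c185 a185_1 a185_2 a185_3 q185 fun c186 a186_1 a186_2 a186_3 q186 =>
  posK c186 a186_1 a186_2 a186_3 q186 <|
  mulK z2 1152921504606846976 (Nat.add w2 1152921504606846976) 1152921504606846976 0 c186 a186_1 a186_2 a186_3 q186 fun c188 a188_1 a188_2 a188_3 q188 =>
  smulK 3 5 5764607523034234885 3458764513820540928 c188 a188_1 a188_2 a188_3 q188 fun c189 a189_1 a189_2 a189_3 q189 =>
  smulK 3 500 576460752303423488500 3458764513820540928 c147 a147_1 a147_2 a147_3 q147 fun c190 a190_1 a190_2 a190_3 q190 =>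
  negK c190 a190_1 a190_2 a190_3 q190 fun c191 a191_1 a191_2 a191_3 q191 =>
  addcK c191 a191_1 a191_2 a191_3 q191 1152922601919451496 1 fun c192 a192_1 a192_2 a192_3 q192 =>
  mulK c38 a38_1 a38_2 a38_3 q38 c139 a139_1 a139_2 a139_3 q139 fun c194 a194_1 a194_2 a194_3 q194 =>
  mulK c192 a192_1 a192_2 a192_3 q192 c194 a194_1 a194_2 a194_3 q194 fun c195 a195_1 a195_2 a195_3 q195 =>
  smulK 3 10 11529215046068469770 3458764513820540928 c167 a167_1 a167_2 a167_3 q167 fun c196 a196_1 a196_2 a196_3 q196 =>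
  addK c195 a195_1 a195_2 a195_3 q195 c196 a196_1 a196_2 a196_3 q196 fun c197 a197_1 a197_2 a197_3 q197 =>
  smulK 7 25 28823037615171174425 8070450532247928832 c178 a178_1 a178_2 a178_3 q178 fun c198 a198_1 a198_2 a198_3 q198 =>
  subK c197 a197_1 a197_2 a197_3 q197 c198 a198_1 a198_2 a198_3 q198 fun c199 a199_1 a199_2 a199_3 q199 =>
  smulK 2 1 1152921504606846977 2305843009213693952 c199 a199_1 a199_2 a199_3 q199 fun c201 a201_1 a201_2 a201_3 q201 =>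
  subK c189 a189_1 a189_2 a189_3 q189 c201 a201_1 a201_2 a201_3 q201 fun c202 a202_1 a202_2 a202_3 q202 =>
  posK c202 a202_1 a202_2 a202_3 q202 <|
  sqK c139 a139_1 a139_2 a139_3 q139 fun c203 a203_1 a203_2 a203_3 q203 =>
  mulK c203 a203_1 a203_2 a203_3 q203 c135 a135_1 a135_2 a135_3 q135 fun c205 a205_1 a205_2 a205_3 q205 =>
  mulK c205 a205_1 a205_2 a205_3 q205 c3 a3_1 a3_2 a3_3 q3 fun c206 a206_1 a206_2 a206_3 q206 =>
  smulK 1 8 9223372036854775816 1152921504606846976 c206 a206_1 a206_2 a206_3 q206 fun c207 a207_1 a207_2 a207_3 q207 =>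
  mulK z2 1152921504606846976 (Nat.add w2 1152921504606846976) 1152921504606846976 0 c180 a180_1 a180_2 a180_3 q180 fun c209 a209_1 a209_2 a209_3 q209 =>
  smulK 3 25 28823037615171174425 3458764513820540928 c209 a209_1 a209_2 a209_3 q209 fun c210 a210_1 a210_2 a210_3 q210 =>
  subK c207 a207_1 a207_2 a207_3 q207 c210 a210_1 a210_2 a210_3 q210 fun c211 a211_1 a211_2 a211_3 q211 =>
  smulK 4 1 1152921504606846977 4611686018427387904 c211 a211_1 a211_2 a211_3 q211 fun c213 a213_1 a213_2 a213_3 q213 =>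
  smulK 9 25 28823037615171174425 10376293541461622784 c188 a188_1 a188_2 a188_3 q188 fun c214 a214_1 a214_2 a214_3 q214 =>
  smulK 12 5 5764607523034234885 13835058055282163712 c199 a199_1 a199_2 a199_3 q199 fun c215 a215_1 a215_2 a215_3 q215 =>
  subK c214 a214_1 a214_2 a214_3 q214 c215 a215_1 a215_2 a215_3 q215 fun c216 a216_1 a216_2 a216_3 q216 =>
  mulK z2 1152921504606846976 (Nat.add w2 1152921504606846976) 1152921504606846976 0 c216 a216_1 a216_2 a216_3 q216 fun c217 a217_1 a217_2 a217_3 q217 =>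
  addK c213 a213_1 a213_2 a213_3 q213 c217 a217_1 a217_2 a217_3 q217 fun c218 a218_1 a218_2 a218_3 q218 =>
  pos c218 a218_1 a218_2 a218_3 q218

theorem alt1_s {z1 w1 z2 w2 z3 w3 : ℕ} {e1 e2 e3 u om z : ℝ} (he : Ev e1 e2 e3)
    (hx1 : In e1 e2 e3 z1 (Nat.add w1 1152921504606846976) 1152921504606846976 1152921504606846976 0 u)
    (hx2 : In e1 e2 e3 z2 1152921504606846976 (Nat.add w2 1152921504606846976) 1152921504606846976 0 om)
    (hx3 : In e1 e2 e3 z3 1152921504606846976 1152921504606846976 (Nat.add w3 1152921504606846976) 0 z)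
    (H0 : alt1 z1 w1 z2 w2 z3 w3 = true) : 0 < (a u om z) ∧ 0 < (((3/5:ℝ) * (om * (a u om z))) - ((2:ℝ) * (X u om z))) ∧ 0 < (((4:ℝ) * (gg u om z)) + (om * (((9/25:ℝ) * (om * (a u om z))) - ((12/5:ℝ) * (X u om z))))) := by
  unfold alt1 at H0
  refine sqK_s he hx3 (fun _ _ _ _ _ h1 H1 => ?_) H0
  have h2 := In_cast h1 (sq _)
  refine addcK_s he h2 (v' := (1:ℝ)) (by norm_num [SS, BB, abs_le]) (fun _ _ _ _ _ h3 H2 => ?_) H1
  have h4 := In_cast h3 (add_comm _ _)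
  refine invK_s he h4 (fun _ _ _ _ _ h5 H3 => ?_) H2
  have h6 := In_cast h5 (inv_eq_one_div _)
  have h7 := In_cast (w := (iz u om z)) h6 rfl
  refine smulK_s he (w := (2:ℝ)) (by norm_num) (by norm_num) (by norm_num) (by norm_num) h7 (fun _ _ _ _ _ h8 H4 => ?_) H3
  refine negK_s he h8 (fun _ _ _ _ _ h9 H5 => ?_) H4
  refine addcK_s he h9 (v' := (2:ℝ)) (by norm_num [SS, BB, abs_le]) (fun _ _ _ _ _ h10 H6 => ?_) H5
  have h11 := In_cast h10 (neg_add_eq_sub _ _)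
  refine addcK_s he h8 (v' := (-1:ℝ)) (by norm_num [SS, BB, abs_le]) (fun _ _ _ _ _ h12 H7 => ?_) H6
  have h13 := In_cast h12 (sub_c (c := (1:ℝ)) (by norm_num))
  have h14 := In_cast (w := (cv u om z)) h13 rfl
  refine mulK_s he hx2 h14 (fun _ _ _ _ _ h15 H8 => ?_) H7
  have h16 := In_cast (w := (ta u om z)) h15 rfl
  refine sqK_s he h16 (fun _ _ _ _ _ h17 H9 => ?_) H8
  have h18 := In_cast h17 (sq _)
  refine addcK_s he h18 (v' := (1:ℝ)) (by norm_num [SS, BB, abs_le]) (fun _ _ _ _ _ h19 H10 => ?_) H9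
  have h20 := In_cast h19 (add_comm _ _)
  have h21 := In_cast (w := (Ph u om z)) h20 rfl
  refine smulK_s he (w := (2:ℝ)) (by norm_num) (by norm_num) (by norm_num) (by norm_num) hx2 (fun _ _ _ _ _ h22 H11 => ?_) H10
  refine addK_s he h21 h22 (fun _ _ _ _ _ h23 H12 => ?_) H11
  refine sqrtK_s he h23 (fun _ _ _ _ _ h24 H13 => ?_) H12
  have h25 := In_cast (w := (sg u om z)) h24 rfl
  refine addcK_s he h25 (v' := (1:ℝ)) (by norm_num [SS, BB, abs_le]) (fun _ _ _ _ _ h26 H14 => ?_) H13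
  refine addK_s he h26 h16 (fun _ _ _ _ _ h27 H15 => ?_) H14
  have h28 := In_cast (w := (ss u om z)) h27 rfl
  refine invK_s he h28 (fun _ _ _ _ _ h29 H16 => ?_) H15
  refine sqK_s he hx1 (fun _ _ _ _ _ h30 H17 => ?_) H16
  have h31 := In_cast h30 (sq _)
  refine addcK_s he h31 (v' := (1:ℝ)) (by norm_num [SS, BB, abs_le]) (fun _ _ _ _ _ h32 H18 => ?_) H17
  have h33 := In_cast h32 (add_comm _ _)
  refine invK_s he h33 (fun _ _ _ _ _ h34 H19 => ?_) H18
  have h35 := In_cast h34 (inv_eq_one_div _)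
  have h36 := In_cast (w := (iu u om z)) h35 rfl
  refine smulK_s he (w := (2:ℝ)) (by norm_num) (by norm_num) (by norm_num) (by norm_num) h36 (fun _ _ _ _ _ h37 H20 => ?_) H19
  refine addcK_s he h37 (v' := (-1:ℝ)) (by norm_num [SS, BB, abs_le]) (fun _ _ _ _ _ h38 H21 => ?_) H20
  have h39 := In_cast h38 (sub_c (c := (1:ℝ)) (by norm_num))
  have h40 := In_cast (w := (R u om z)) h39 rfl
  refine sqK_s he h40 (fun _ _ _ _ _ h41 H22 => ?_) H21
  have h42 := In_cast h41 (sq _)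
  have h43 := In_cast (w := (R2 u om z)) h42 rfl
  refine subK_s he h21 h16 (fun _ _ _ _ _ h44 H23 => ?_) H22
  refine smulK_s he (w := (2:ℝ)) (by norm_num) (by norm_num) (by norm_num) (by norm_num) h44 (fun _ _ _ _ _ h45 H24 => ?_) H23
  refine mulK_s he h25 h28 (fun _ _ _ _ _ h46 H25 => ?_) H24
  refine subK_s he h45 h46 (fun _ _ _ _ _ h47 H26 => ?_) H25
  refine mulK_s he h43 h47 (fun _ _ _ _ _ h48 H27 => ?_) H26
  refine smulK_s he (w := (2479/5000:ℝ)) (by norm_num) (by norm_num) (by norm_num) (by norm_num) h48 (fun _ _ _ _ _ h49 H28 => ?_) H27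
  refine negK_s he h49 (fun _ _ _ _ _ h50 H29 => ?_) H28
  have h51 := In_cast h50 (neg_mul_c (c := (-2479/5000:ℝ)) (by norm_num))
  refine addcK_s he h51 (v' := (4:ℝ)) (by norm_num [SS, BB, abs_le]) (fun _ _ _ _ _ h52 H30 => ?_) H29
  have h53 := In_cast h52 (add_comm _ _)
  refine mulK_s he h53 h29 (fun _ _ _ _ _ h54 H31 => ?_) H30
  have h55 := In_cast h54 ((div_eq_mul_inv _ _).symm)
  refine mulK_s he h43 h40 (fun _ _ _ _ _ h56 H32 => ?_) H31
  refine addK_s he hx2 h16 (fun _ _ _ _ _ h57 H33 => ?_) H32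
  refine mulK_s he h56 h57 (fun _ _ _ _ _ h58 H34 => ?_) H33
  refine mulK_s he h43 h21 (fun _ _ _ _ _ h59 H35 => ?_) H34
  have h60 := In_cast (w := (P u om z)) h59 rfl
  refine smulK_s he (w := (1971/10000:ℝ)) (by norm_num) (by norm_num) (by norm_num) (by norm_num) h60 (fun _ _ _ _ _ h61 H36 => ?_) H35
  refine negK_s he h61 (fun _ _ _ _ _ h62 H37 => ?_) H36
  have h63 := In_cast h62 (neg_mul_c (c := (-1971/10000:ℝ)) (by norm_num))
  refine negK_s he h63 (fun _ _ _ _ _ h64 H38 => ?_) H37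
  refine addcK_s he h64 (v' := (-1391/2500:ℝ)) (by norm_num [SS, BB, abs_le]) (fun _ _ _ _ _ h65 H39 => ?_) H38
  have h66 := In_cast h65 (neg_add_eq_sub _ _)
  refine sqK_s he h43 (fun _ _ _ _ _ h67 H40 => ?_) H39
  have h68 := In_cast h67 (sq _)
  have h69 := In_cast (w := (R4 u om z)) h68 rfl
  refine sqK_s he hx2 (fun _ _ _ _ _ h70 H41 => ?_) H40
  have h71 := In_cast h70 (sq _)
  refine addK_s he h71 h18 (fun _ _ _ _ _ h72 H42 => ?_) H41
  refine smulK_s he (w := (2:ℝ)) (by norm_num) (by norm_num) (by norm_num) (by norm_num) h72 (fun _ _ _ _ _ h73 H43 => ?_) H42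
  refine mulK_s he h69 h73 (fun _ _ _ _ _ h74 H44 => ?_) H43
  refine sqK_s he h60 (fun _ _ _ _ _ h75 H45 => ?_) H44
  have h76 := In_cast h75 (sq _)
  refine smulK_s he (w := (4:ℝ)) (by norm_num) (by norm_num) (by norm_num) (by norm_num) h76 (fun _ _ _ _ _ h77 H46 => ?_) H45
  refine subK_s he h74 h77 (fun _ _ _ _ _ h78 H47 => ?_) H46
  refine smulK_s he (w := (24/625:ℝ)) (by norm_num) (by norm_num) (by norm_num) (by norm_num) h78 (fun _ _ _ _ _ h79 H48 => ?_) H47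
  refine addK_s he h66 h79 (fun _ _ _ _ _ h80 H49 => ?_) H48
  have h81 := In_cast (w := (Gp u om z)) h80 rfl
  refine negK_s he h60 (fun _ _ _ _ _ h82 H50 => ?_) H49
  refine addcK_s he h82 (v' := (2:ℝ)) (by norm_num [SS, BB, abs_le]) (fun _ _ _ _ _ h83 H51 => ?_) H50
  have h84 := In_cast h83 (neg_add_eq_sub _ _)
  have h85 := In_cast (w := (Pp u om z)) h84 rfl
  refine smulK_s he (w := (2:ℝ)) (by norm_num) (by norm_num) (by norm_num) (by norm_num) hx1 (fun _ _ _ _ _ h86 H52 => ?_) H51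
  refine mulK_s he h86 h36 (fun _ _ _ _ _ h87 H53 => ?_) H52
  have h88 := In_cast (w := (t0 u om z)) h87 rfl
  refine mulK_s he h40 h16 (fun _ _ _ _ _ h89 H54 => ?_) H53
  have h90 := In_cast (w := (r1 u om z)) h89 rfl
  refine sqK_s he h90 (fun _ _ _ _ _ h91 H55 => ?_) H54
  have h92 := In_cast h91 (sq _)
  refine negK_s he h92 (fun _ _ _ _ _ h93 H56 => ?_) H55
  refine addcK_s he h93 (v' := (1:ℝ)) (by norm_num [SS, BB, abs_le]) (fun _ _ _ _ _ h94 H57 => ?_) H56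
  have h95 := In_cast h94 (neg_add_eq_sub _ _)
  refine sqrtK_s he h95 (fun _ _ _ _ _ h96 H58 => ?_) H57
  have h97 := In_cast (w := (t1 u om z)) h96 rfl
  refine mulK_s he h88 h97 (fun _ _ _ _ _ h98 H59 => ?_) H58
  have h99 := In_cast (w := (b0 u om z)) h98 rfl
  refine sqK_s he h99 (fun _ _ _ _ _ h100 H60 => ?_) H59
  have h101 := In_cast h100 (sq _)
  refine smulK_s he (w := (2:ℝ)) (by norm_num) (by norm_num) (by norm_num) (by norm_num) hx3 (fun _ _ _ _ _ h102 H61 => ?_) H60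
  refine mulK_s he h102 h7 (fun _ _ _ _ _ h103 H62 => ?_) H61
  have h104 := In_cast (w := (sz u om z)) h103 rfl
  refine mulK_s he hx2 h104 (fun _ _ _ _ _ h105 H63 => ?_) H62
  have h106 := In_cast (w := (hh u om z)) h105 rfl
  refine sqK_s he h106 (fun _ _ _ _ _ h107 H64 => ?_) H63
  have h108 := In_cast h107 (sq _)
  have h109 := In_cast (w := (hq u om z)) h108 rfl
  refine mulK_s he h69 h109 (fun _ _ _ _ _ h110 H65 => ?_) H64
  refine addK_s he h101 h110 (fun _ _ _ _ _ h111 H66 => ?_) H65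
  refine sqrtK_s he h111 (fun _ _ _ _ _ h112 H67 => ?_) H66
  have h113 := In_cast (w := (b u om z)) h112 rfl
  refine smulK_s he (w := (2:ℝ)) (by norm_num) (by norm_num) (by norm_num) (by norm_num) h113 (fun _ _ _ _ _ h114 H68 => ?_) H67
  refine addK_s he h85 h114 (fun _ _ _ _ _ h115 H69 => ?_) H68
  refine sqrtK_s he h115 (fun _ _ _ _ _ h116 H70 => ?_) H69
  have h117 := In_cast (w := (v u om z)) h116 rfl
  refine addK_s he h88 h97 (fun _ _ _ _ _ h118 H71 => ?_) H70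
  have h119 := In_cast (w := (v0 u om z)) h118 rfl
  refine addK_s he h117 h119 (fun _ _ _ _ _ h120 H72 => ?_) H71
  refine invK_s he h120 (fun _ _ _ _ _ h121 H73 => ?_) H72
  refine mulK_s he h117 h119 (fun _ _ _ _ _ h122 H74 => ?_) H73
  refine addK_s he h122 h85 (fun _ _ _ _ _ h123 H75 => ?_) H74
  refine invK_s he h123 (fun _ _ _ _ _ h124 H76 => ?_) H75
  refine addK_s he h85 h99 (fun _ _ _ _ _ h125 H77 => ?_) H76
  refine mulK_s he h125 h124 (fun _ _ _ _ _ h126 H78 => ?_) H77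
  have h127 := In_cast h126 ((div_eq_mul_inv _ _).symm)
  refine addcK_s he h127 (v' := (1:ℝ)) (by norm_num [SS, BB, abs_le]) (fun _ _ _ _ _ h128 H79 => ?_) H78
  have h129 := In_cast h128 (add_comm _ _)
  refine mulK_s he h129 h121 (fun _ _ _ _ _ h130 H80 => ?_) H79
  have h131 := In_cast h130 ((div_eq_mul_inv _ _).symm)
  have h132 := In_cast (w := (GW u om z)) h131 rfl
  refine addK_s he h81 h132 (fun _ _ _ _ _ h133 H81 => ?_) H80
  refine mulK_s he h58 h133 (fun _ _ _ _ _ h134 H82 => ?_) H81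
  refine addK_s he h55 h134 (fun _ _ _ _ _ h135 H83 => ?_) H82
  have h136 := In_cast (w := (Ga u om z)) h135 rfl
  refine mulK_s he h11 h136 (fun _ _ _ _ _ h137 H84 => ?_) H83
  refine negK_s he h18 (fun _ _ _ _ _ h138 H85 => ?_) H84
  refine addcK_s he h138 (v' := (1:ℝ)) (by norm_num [SS, BB, abs_le]) (fun _ _ _ _ _ h139 H86 => ?_) H85
  have h140 := In_cast h139 (neg_add_eq_sub _ _)
  have h141 := In_cast (w := (d u om z)) h140 rfl
  refine invK_s he h141 (fun _ _ _ _ _ h142 H87 => ?_) H86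
  refine smulK_s he (w := (2:ℝ)) (by norm_num) (by norm_num) (by norm_num) (by norm_num) h104 (fun _ _ _ _ _ h143 H88 => ?_) H87
  refine mulK_s he h143 h142 (fun _ _ _ _ _ h144 H89 => ?_) H88
  have h145 := In_cast h144 ((div_eq_mul_inv _ _).symm)
  have h146 := In_cast (w := (sh u om z)) h145 rfl
  refine mulK_s he hx2 h146 (fun _ _ _ _ _ h147 H90 => ?_) H89
  have h148 := In_cast (w := (s u om z)) h147 rfl
  refine smulK_s he (w := (3/25:ℝ)) (by norm_num) (by norm_num) (by norm_num) (by norm_num) h148 (fun _ _ _ _ _ h149 H91 => ?_) H90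
  refine negK_s he h149 (fun _ _ _ _ _ h150 H92 => ?_) H91
  refine addcK_s he h150 (v' := (1/2:ℝ)) (by norm_num [SS, BB, abs_le]) (fun _ _ _ _ _ h151 H93 => ?_) H92
  have h152 := In_cast h151 (neg_add_eq_sub _ _)
  refine mulK_s he h146 h152 (fun _ _ _ _ _ h153 H94 => ?_) H93
  refine addcK_s he h88 (v' := (-1:ℝ)) (by norm_num [SS, BB, abs_le]) (fun _ _ _ _ _ h154 H95 => ?_) H94
  have h155 := In_cast h154 (sub_c (c := (1:ℝ)) (by norm_num))
  refine negK_s he h40 (fun _ _ _ _ _ h156 H96 => ?_) H95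
  refine addcK_s he h156 (v' := (1:ℝ)) (by norm_num [SS, BB, abs_le]) (fun _ _ _ _ _ h157 H97 => ?_) H96
  have h158 := In_cast h157 (neg_add_eq_sub _ _)
  refine smulK_s he (w := (2:ℝ)) (by norm_num) (by norm_num) (by norm_num) (by norm_num) h158 (fun _ _ _ _ _ h159 H98 => ?_) H97
  have h160 := In_cast h159 (mul_comm _ _)
  refine addK_s he h155 h160 (fun _ _ _ _ _ h161 H99 => ?_) H98
  refine addcK_s he h88 (v' := (1:ℝ)) (by norm_num [SS, BB, abs_le]) (fun _ _ _ _ _ h162 H100 => ?_) H99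
  have h163 := In_cast h162 (add_comm _ _)
  refine invK_s he h163 (fun _ _ _ _ _ h164 H101 => ?_) H100
  refine mulK_s he h40 h164 (fun _ _ _ _ _ h165 H102 => ?_) H101
  have h166 := In_cast h165 ((div_eq_mul_inv _ _).symm)
  refine addK_s he h161 h166 (fun _ _ _ _ _ h167 H103 => ?_) H102
  have h168 := In_cast (w := (U0 u om z)) h167 rfl
  refine addcK_s he h97 (v' := (1:ℝ)) (by norm_num [SS, BB, abs_le]) (fun _ _ _ _ _ h169 H104 => ?_) H103
  have h170 := In_cast h169 (add_comm _ _)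
  refine smulK_s he (w := (2:ℝ)) (by norm_num) (by norm_num) (by norm_num) (by norm_num) h90 (fun _ _ _ _ _ h171 H105 => ?_) H104
  refine subK_s he h170 h171 (fun _ _ _ _ _ h172 H106 => ?_) H105
  refine invK_s he h170 (fun _ _ _ _ _ h173 H107 => ?_) H106
  refine mulK_s he h90 h173 (fun _ _ _ _ _ h174 H108 => ?_) H107
  have h175 := In_cast h174 ((div_eq_mul_inv _ _).symm)
  refine addK_s he h172 h175 (fun _ _ _ _ _ h176 H109 => ?_) H108
  have h177 := In_cast (w := (U1 u om z)) h176 rfl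
  refine mulK_s he h16 h177 (fun _ _ _ _ _ h178 H110 => ?_) H109
  have h179 := In_cast (w := (V1 u om z)) h178 rfl
  refine subK_s he h168 h179 (fun _ _ _ _ _ h180 H111 => ?_) H110
  have h181 := In_cast (w := (D u om z)) h180 rfl
  refine mulK_s he h153 h181 (fun _ _ _ _ _ h182 H112 => ?_) H111
  refine addK_s he h137 h182 (fun _ _ _ _ _ h183 H113 => ?_) H112
  refine smulK_s he (w := (2:ℝ)) (by norm_num) (by norm_num) (by norm_num) (by norm_num) h14 (fun _ _ _ _ _ h184 H114 => ?_) H113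
  refine mulK_s he h184 h177 (fun _ _ _ _ _ h185 H115 => ?_) H114
  refine addK_s he h183 h185 (fun _ _ _ _ _ h186 H116 => ?_) H115
  have h187 := In_cast (w := (a u om z)) h186 rfl
  refine posK_s he h187 (fun p0 H117 => ?_) H116
  refine mulK_s he hx2 h187 (fun _ _ _ _ _ h188 H118 => ?_) H117
  refine smulK_s he (w := (3/5:ℝ)) (by norm_num) (by norm_num) (by norm_num) (by norm_num) h188 (fun _ _ _ _ _ h189 H119 => ?_) H118
  refine smulK_s he (w := (3/500:ℝ)) (by norm_num) (by norm_num) (by norm_num) (by norm_num) h148 (fun _ _ _ _ _ h190 H120 => ?_) H119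
  refine negK_s he h190 (fun _ _ _ _ _ h191 H121 => ?_) H120
  refine addcK_s he h191 (v' := (499/500:ℝ)) (by norm_num [SS, BB, abs_le]) (fun _ _ _ _ _ h192 H122 => ?_) H121
  have h193 := In_cast h192 (neg_add_eq_sub _ _)
  refine mulK_s he h40 h141 (fun _ _ _ _ _ h194 H123 => ?_) H122
  refine mulK_s he h193 h194 (fun _ _ _ _ _ h195 H124 => ?_) H123
  refine smulK_s he (w := (3/10:ℝ)) (by norm_num) (by norm_num) (by norm_num) (by norm_num) h168 (fun _ _ _ _ _ h196 H125 => ?_) H124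
  refine addK_s he h195 h196 (fun _ _ _ _ _ h197 H126 => ?_) H125
  refine smulK_s he (w := (7/25:ℝ)) (by norm_num) (by norm_num) (by norm_num) (by norm_num) h179 (fun _ _ _ _ _ h198 H127 => ?_) H126
  refine subK_s he h197 h198 (fun _ _ _ _ _ h199 H128 => ?_) H127
  have h200 := In_cast (w := (X u om z)) h199 rfl
  refine smulK_s he (w := (2:ℝ)) (by norm_num) (by norm_num) (by norm_num) (by norm_num) h200 (fun _ _ _ _ _ h201 H129 => ?_) H128
  refine subK_s he h189 h201 (fun _ _ _ _ _ h202 H130 => ?_) H129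
  refine posK_s he h202 (fun p1 H131 => ?_) H130
  refine sqK_s he h141 (fun _ _ _ _ _ h203 H132 => ?_) H131
  have h204 := In_cast h203 (sq _)
  refine mulK_s he h204 h136 (fun _ _ _ _ _ h205 H133 => ?_) H132
  refine mulK_s he h205 h4 (fun _ _ _ _ _ h206 H134 => ?_) H133
  refine smulK_s he (w := (1/8:ℝ)) (by norm_num) (by norm_num) (by norm_num) (by norm_num) h206 (fun _ _ _ _ _ h207 H135 => ?_) H134
  have h208 := In_cast h207 (div_c (c := (8:ℝ)) (by norm_num))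
  refine mulK_s he hx2 h181 (fun _ _ _ _ _ h209 H136 => ?_) H135
  refine smulK_s he (w := (3/25:ℝ)) (by norm_num) (by norm_num) (by norm_num) (by norm_num) h209 (fun _ _ _ _ _ h210 H137 => ?_) H136
  refine subK_s he h208 h210 (fun _ _ _ _ _ h211 H138 => ?_) H137
  have h212 := In_cast (w := (gg u om z)) h211 rfl
  refine smulK_s he (w := (4:ℝ)) (by norm_num) (by norm_num) (by norm_num) (by norm_num) h212 (fun _ _ _ _ _ h213 H139 => ?_) H138
  refine smulK_s he (w := (9/25:ℝ)) (by norm_num) (by norm_num) (by norm_num) (by norm_num) h188 (fun _ _ _ _ _ h214 H140 => ?_) H139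
  refine smulK_s he (w := (12/5:ℝ)) (by norm_num) (by norm_num) (by norm_num) (by norm_num) h200 (fun _ _ _ _ _ h215 H141 => ?_) H140
  refine subK_s he h214 h215 (fun _ _ _ _ _ h216 H142 => ?_) H141
  refine mulK_s he hx2 h216 (fun _ _ _ _ _ h217 H143 => ?_) H142
  refine addK_s he h213 h217 (fun _ _ _ _ _ h218 H144 => ?_) H143
  exact ⟨p0, p1, pos_s he h218 H144⟩

noncomputable def alt2 (z1 w1 z2 w2 z3 w3 : ℕ) : Bool :=
  sqK z3 1152921504606846976 1152921504606846976 (Nat.add w3 1152921504606846976) 0 fun c1 a1_1 a1_2 a1_3 q1 =>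
  addcK c1 a1_1 a1_2 a1_3 q1 1152922604118474752 0 fun c3 a3_1 a3_2 a3_3 q3 =>
  invK c3 a3_1 a3_2 a3_3 q3 fun c5 a5_1 a5_2 a5_3 q5 =>
  smulK 2 1 1152921504606846977 2305843009213693952 c5 a5_1 a5_2 a5_3 q5 fun c8 a8_1 a8_2 a8_3 q8 =>
  addcK c8 a8_1 a8_2 a8_3 q8 1152920405095219200 0 fun c9 a9_1 a9_2 a9_3 q9 =>
  mulK z2 1152921504606846976 (Nat.add w2 1152921504606846976) 1152921504606846976 0 c9 a9_1 a9_2 a9_3 q9 fun c12 a12_1 a12_2 a12_3 q12 =>
  sqK c12 a12_1 a12_2 a12_3 q12 fun c14 a14_1 a14_2 a14_3 q14 =>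
  negK c14 a14_1 a14_2 a14_3 q14 fun c16 a16_1 a16_2 a16_3 q16 =>
  addcK c16 a16_1 a16_2 a16_3 q16 1152922604118474752 0 fun c17 a17_1 a17_2 a17_3 q17 =>
  invK c17 a17_1 a17_2 a17_3 q17 fun c20 a20_1 a20_2 a20_3 q20 =>
  smulK 2 1 1152921504606846977 2305843009213693952 z3 1152921504606846976 1152921504606846976 (Nat.add w3 1152921504606846976) 0 fun c21 a21_1 a21_2 a21_3 q21 =>
  mulK c21 a21_1 a21_2 a21_3 q21 c5 a5_1 a5_2 a5_3 q5 fun c22 a22_1 a22_2 a22_3 q22 =>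
  smulK 2 1 1152921504606846977 2305843009213693952 c22 a22_1 a22_2 a22_3 q22 fun c24 a24_1 a24_2 a24_3 q24 =>
  mulK c24 a24_1 a24_2 a24_3 q24 c20 a20_1 a20_2 a20_3 q20 fun c25 a25_1 a25_2 a25_3 q25 =>
  mulK z2 1152921504606846976 (Nat.add w2 1152921504606846976) 1152921504606846976 0 c25 a25_1 a25_2 a25_3 q25 fun c28 a28_1 a28_2 a28_3 q28 =>
  smulK 100 1 1152921504606846977 115292150460684697600 c28 a28_1 a28_2 a28_3 q28 fun c30 a30_1 a30_2 a30_3 q30 =>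
  addcK c30 a30_1 a30_2 a30_3 q30 1152850036351041536 0 fun c31 a31_1 a31_2 a31_3 q31 =>
  pos c31 a31_1 a31_2 a31_3 q31

theorem alt2_s {z1 w1 z2 w2 z3 w3 : ℕ} {e1 e2 e3 u om z : ℝ} (he : Ev e1 e2 e3)
    (hx1 : In e1 e2 e3 z1 (Nat.add w1 1152921504606846976) 1152921504606846976 1152921504606846976 0 u)
    (hx2 : In e1 e2 e3 z2 1152921504606846976 (Nat.add w2 1152921504606846976) 1152921504606846976 0 om)
    (hx3 : In e1 e2 e3 z3 1152921504606846976 1152921504606846976 (Nat.add w3 1152921504606846976) 0 z)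
    (H0 : alt2 z1 w1 z2 w2 z3 w3 = true) : 0 < (((100:ℝ) * (s u om z)) - (65:ℝ)) := by
  unfold alt2 at H0
  refine sqK_s he hx3 (fun _ _ _ _ _ h1 H1 => ?_) H0
  have h2 := In_cast h1 (sq _)
  refine addcK_s he h2 (v' := (1:ℝ)) (by norm_num [SS, BB, abs_le]) (fun _ _ _ _ _ h3 H2 => ?_) H1
  have h4 := In_cast h3 (add_comm _ _)
  refine invK_s he h4 (fun _ _ _ _ _ h5 H3 => ?_) H2
  have h6 := In_cast h5 (inv_eq_one_div _)
  have h7 := In_cast (w := (iz u om z)) h6 rfl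
  refine smulK_s he (w := (2:ℝ)) (by norm_num) (by norm_num) (by norm_num) (by norm_num) h7 (fun _ _ _ _ _ h8 H4 => ?_) H3
  refine addcK_s he h8 (v' := (-1:ℝ)) (by norm_num [SS, BB, abs_le]) (fun _ _ _ _ _ h9 H5 => ?_) H4
  have h10 := In_cast h9 (sub_c (c := (1:ℝ)) (by norm_num))
  have h11 := In_cast (w := (cv u om z)) h10 rfl
  refine mulK_s he hx2 h11 (fun _ _ _ _ _ h12 H6 => ?_) H5
  have h13 := In_cast (w := (ta u om z)) h12 rfl
  refine sqK_s he h13 (fun _ _ _ _ _ h14 H7 => ?_) H6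
  have h15 := In_cast h14 (sq _)
  refine negK_s he h15 (fun _ _ _ _ _ h16 H8 => ?_) H7
  refine addcK_s he h16 (v' := (1:ℝ)) (by norm_num [SS, BB, abs_le]) (fun _ _ _ _ _ h17 H9 => ?_) H8
  have h18 := In_cast h17 (neg_add_eq_sub _ _)
  have h19 := In_cast (w := (d u om z)) h18 rfl
  refine invK_s he h19 (fun _ _ _ _ _ h20 H10 => ?_) H9
  refine smulK_s he (w := (2:ℝ)) (by norm_num) (by norm_num) (by norm_num) (by norm_num) hx3 (fun _ _ _ _ _ h21 H11 => ?_) H10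
  refine mulK_s he h21 h7 (fun _ _ _ _ _ h22 H12 => ?_) H11
  have h23 := In_cast (w := (sz u om z)) h22 rfl
  refine smulK_s he (w := (2:ℝ)) (by norm_num) (by norm_num) (by norm_num) (by norm_num) h23 (fun _ _ _ _ _ h24 H13 => ?_) H12
  refine mulK_s he h24 h20 (fun _ _ _ _ _ h25 H14 => ?_) H13
  have h26 := In_cast h25 ((div_eq_mul_inv _ _).symm)
  have h27 := In_cast (w := (sh u om z)) h26 rfl
  refine mulK_s he hx2 h27 (fun _ _ _ _ _ h28 H15 => ?_) H14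
  have h29 := In_cast (w := (s u om z)) h28 rfl
  refine smulK_s he (w := (100:ℝ)) (by norm_num) (by norm_num) (by norm_num) (by norm_num) h29 (fun _ _ _ _ _ h30 H16 => ?_) H15
  refine addcK_s he h30 (v' := (-65:ℝ)) (by norm_num [SS, BB, abs_le]) (fun _ _ _ _ _ h31 H17 => ?_) H16
  have h32 := In_cast h31 (sub_c (c := (65:ℝ)) (by norm_num))
  exact pos_s he h32 H17

noncomputable def alt3 (z1 w1 z2 w2 z3 w3 : ℕ) : Bool :=
  sqK z3 1152921504606846976 1152921504606846976 (Nat.add w3 1152921504606846976) 0 fun c1 a1_1 a1_2 a1_3 q1 =>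
  addcK c1 a1_1 a1_2 a1_3 q1 1152922604118474752 0 fun c3 a3_1 a3_2 a3_3 q3 =>
  invK c3 a3_1 a3_2 a3_3 q3 fun c5 a5_1 a5_2 a5_3 q5 =>
  smulK 2 1 1152921504606846977 2305843009213693952 c5 a5_1 a5_2 a5_3 q5 fun c8 a8_1 a8_2 a8_3 q8 =>
  addcK c8 a8_1 a8_2 a8_3 q8 1152920405095219200 0 fun c9 a9_1 a9_2 a9_3 q9 =>
  mulK z2 1152921504606846976 (Nat.add w2 1152921504606846976) 1152921504606846976 0 c9 a9_1 a9_2 a9_3 q9 fun c12 a12_1 a12_2 a12_3 q12 =>
  smulK 100 1 1152921504606846977 115292150460684697600 c12 a12_1 a12_2 a12_3 q12 fun c14 a14_1 a14_2 a14_3 q14 =>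
  addcK c14 a14_1 a14_2 a14_3 q14 1152894016816152576 0 fun c15 a15_1 a15_2 a15_3 q15 =>
  pos c15 a15_1 a15_2 a15_3 q15

theorem alt3_s {z1 w1 z2 w2 z3 w3 : ℕ} {e1 e2 e3 u om z : ℝ} (he : Ev e1 e2 e3)
    (hx1 : In e1 e2 e3 z1 (Nat.add w1 1152921504606846976) 1152921504606846976 1152921504606846976 0 u)
    (hx2 : In e1 e2 e3 z2 1152921504606846976 (Nat.add w2 1152921504606846976) 1152921504606846976 0 om)
    (hx3 : In e1 e2 e3 z3 1152921504606846976 1152921504606846976 (Nat.add w3 1152921504606846976) 0 z)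
    (H0 : alt3 z1 w1 z2 w2 z3 w3 = true) : 0 < (((100:ℝ) * (ta u om z)) - (25:ℝ)) := by
  unfold alt3 at H0
  refine sqK_s he hx3 (fun _ _ _ _ _ h1 H1 => ?_) H0
  have h2 := In_cast h1 (sq _)
  refine addcK_s he h2 (v' := (1:ℝ)) (by norm_num [SS, BB, abs_le]) (fun _ _ _ _ _ h3 H2 => ?_) H1
  have h4 := In_cast h3 (add_comm _ _)
  refine invK_s he h4 (fun _ _ _ _ _ h5 H3 => ?_) H2
  have h6 := In_cast h5 (inv_eq_one_div _)
  have h7 := In_cast (w := (iz u om z)) h6 rfl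
  refine smulK_s he (w := (2:ℝ)) (by norm_num) (by norm_num) (by norm_num) (by norm_num) h7 (fun _ _ _ _ _ h8 H4 => ?_) H3
  refine addcK_s he h8 (v' := (-1:ℝ)) (by norm_num [SS, BB, abs_le]) (fun _ _ _ _ _ h9 H5 => ?_) H4
  have h10 := In_cast h9 (sub_c (c := (1:ℝ)) (by norm_num))
  have h11 := In_cast (w := (cv u om z)) h10 rfl
  refine mulK_s he hx2 h11 (fun _ _ _ _ _ h12 H6 => ?_) H5
  have h13 := In_cast (w := (ta u om z)) h12 rfl
  refine smulK_s he (w := (100:ℝ)) (by norm_num) (by norm_num) (by norm_num) (by norm_num) h13 (fun _ _ _ _ _ h14 H7 => ?_) H6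
  refine addcK_s he h14 (v' := (-25:ℝ)) (by norm_num [SS, BB, abs_le]) (fun _ _ _ _ _ h15 H8 => ?_) H7
  have h16 := In_cast h15 (sub_c (c := (25:ℝ)) (by norm_num))
  exact pos_s he h16 H8

attribute [irreducible] alt0 alt1 alt2 alt3

noncomputable def leaf (j u z1 w1 z2 w2 z3 w3 : ℕ) : Bool :=
  sB j (alt0 z1 w1 z2 w2 z3 w3) fun j => sB j (alt1 z1 w1 z2 w2 z3 w3) fun j => sB j (alt2 z1 w1 z2 w2 z3 w3) fun j => alt3 z1 w1 z2 w2 z3 w3

theorem snd : Snd Q leaf := by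
  intro j u z1 w1 z2 w2 z3 w3 e1 e2 e3 he H
  unfold leaf at H
  unfold Q
  replace H := sel H
  rcases H with H | ⟨j, H⟩
  · exact Or.inl (alt0_s he (var1 z1 w1) (var2 z2 w2) (var3 z3 w3) H)
  replace H := sel H
  rcases H with H | ⟨j, H⟩
  · exact Or.inr (Or.inl (alt1_s he (var1 z1 w1) (var2 z2 w2) (var3 z3 w3) H))
  replace H := sel H
  rcases H with H | ⟨j, H⟩
  · exact Or.inr (Or.inr (Or.inl (alt2_s he (var1 z1 w1) (var2 z2 w2) (var3 z3 w3) H)))
  exact Or.inr (Or.inr (Or.inr (alt3_s he (var1 z1 w1) (var2 z2 w2) (var3 z3 w3) H)))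

end Crest.Agent.R307.UBO
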