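import Crest.Agent.R307.UBO
set_option autoImplicit false
set_option maxRecDepth 100000
namespace Crest.Agent.R307.UBO
open Crest.Agent.R307.IA Crest.Agent.R307.IA3

theorem k0 : Cov Q 1152921504606846976 1152921779484754113 1152921504606846976 1152921966401730642 1152921504606846976 1152921779484754113 :=
  cov_of snd 0 0 12 _ _ _ _ _ _ 0x66330321330330216330321330330033021063303233032012330303302330330033021330323303302106330323300120133033023303213303302330330210330330133233210233233013303302330330210330330133233033021021330330033023303301330213303033023303301330210330323303213313303210233033103330123303301330330120330331033033102330330033233033020133033233033020120133033023303302033033103303310233033023313303302033033032021012101 (by decide +kernel)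

theorem k1 : Cov Q 1152921504606846976 1152921779484754113 1152921504606846976 1152921735504291539 1152921779484754113 1152922054362661017 :=
  cov_of snd 0 0 11 _ _ _ _ _ _ 0x3303133031233310333001330331033300120330330233033021330331033033002333003330021023313133033023303302103323301330330233033021021331332033133033020133133103313303302012330330233033022330330033133101330330033033001210331330330203313303302023303303301033033033010213313312332332103313321331332102332332133033023303302103323321330330233033021021013303302330330123313310331331021331331033133002333013310331331021033133103303310233033103303310213303311330331103303303300123323321330323303302103313320332330330201210120 (by decide +kernel)

theorem k2 : Cov Q 1152921504606846976 1152921779484754113 1152921735504291539 1152921966401730642 1152921779484754113 1152922054362661017 :=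
  cov_of snd 0 0 9 _ _ _ _ _ _ 0x33302333001330330233033021033062330331013306233033021023303301333003301233033023303310133033023303310120133302330330213303321033062330330213313321023303302330330213303302330330212330330233033021330330233033021201066330163301016233033103330013303310333001233133103313310133133103303310120166330133101623303302330330213313310331331012330323303302133133032120102 (by decide +kernel)

theorem k3 : Cov Q 1152921779484754113 1152922054362661017 1152921504606846976 1152921966401730642 1152921504606846976 1152922054362661017 :=
  cov_of snd 0 0 11 _ _ _ _ _ _ 0x3323303302033310163306310133033302012331330312330330136233012033033023313303120163306330106213323301330330233302101203303330023321331330310331332330102333003331021016331330310633012332330163321330330210633033001201333003330023303302133133233010331330310233310330331021012 (by decide +kernel)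

end Crest.Agent.R307.UBO
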