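import Crest.Agent.R307.UBP
set_option autoImplicit false
set_option maxRecDepth 100000
namespace Crest.Agent.R307.UBP
open Crest.Agent.R307.IA Crest.Agent.R307.IA3

theorem k0 : Cov Q 1152921504606846976 1152922296255218975 1152921504606846976 1152922604118474752 1152921504606846976 1152922219289405031 :=
  cov_of snd 0 0 9 _ _ _ _ _ _ 0x4430143030333013014300133130303303233001331033233013303103310114414330110 (by decide +kernel)

end Crest.Agent.R307.UBP
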