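import Crest.Agent.R307.UBQ
set_option autoImplicit false
set_option maxRecDepth 100000
namespace Crest.Agent.R307.UBQ
open Crest.Agent.R307.IA Crest.Agent.R307.IA3

theorem k0 : Cov Q 1152921504606846976 1152921779484754113 1152921779484753920 1152921985643184357 1152921504606846976 1152922219289405031 :=
  cov_of snd 0 0 10 _ _ _ _ _ _ 0x331331033133102330330133033012133133003303300233133103313310210330330033023303301330213303033023313300330210233033023313300331330021332330330210330323320330303302330320120330333001330333001233033033001330330330012033300330330213303302330330210330330033033021330330233033021021330330133203313303301233033020133033013330103303033033021330332101203303301333012330330133033012033300330330213303233033021033033013303301021330330133023313203303233033021330330203303301331021021 (by decide +kernel)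

theorem k1 : Cov Q 1152921504606846976 1152921779484754113 1152921985643184357 1152922191801614507 1152921504606846976 1152922219289405031 :=
  cov_of snd 0 0 9 _ _ _ _ _ _ 0x330330033023313310330330021330330033023303300330210333013330103313300233033013303302033233202133233103303302332013303033033021201330303302330303302133032330321033033003303302133033210330330301333010210 (by decide +kernel)

theorem k2 : Cov Q 1152921779484754113 1152922054362661017 1152921779484753920 1152922191801614507 1152921504606846976 1152922219289405031 :=
  cov_of snd 0 0 10 _ _ _ _ _ _ 0x4404402440332103313303123313312014303321330330103313302330330201033033013303301233031330330121331331033033002330331033033002101330330233033020330330233033020133032330320330331033033002103313310330330023313330103303310213313310330331023303301330330103313310210103303303301033033033020133133033010331330330201233300330330213313303121330331033033002331331033033012103303301333003303210330330233033013302012033133033020331333020133133123303301330330120331330330103313303301021033133033020332330330201331330233033013312033133123303301333012010211 (by decide +kernel)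

theorem k3 : Cov Q 1152921504606846976 1152922054362661017 1152922191801614507 1152922604118474752 1152921504606846976 1152922219289405031 :=
  cov_of snd 0 0 10 _ _ _ _ _ _ 0x44401444004404404400144044044001011440444001433013303301044033301332013303300332332010110533300330330015331331010331331033233032013323320330330033021015331505013303302330330213303233032101010 (by decide +kernel)

end Crest.Agent.R307.UBQ
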