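import Crest.Agent.R307.UCbC0
set_option autoImplicit false
set_option maxRecDepth 100000
namespace Crest.Agent.R307.UCb
open Crest.Agent.R307.IA Crest.Agent.R307.IA2

theorem cov : Cov Q 1152921504606846976 1152921823465219032 1152921504606846976 1152922571133125919 :=
  k0

theorem main (b r : ℝ) (l0 : (0:ℝ) ≤ b) (u0 : b ≤ (29/100:ℝ)) (l1 : (0:ℝ) ≤ r) (u1 : r ≤ (97/100:ℝ)) : Q b r :=
  cov b r (le_trans (by norm_num [val, SS, BB]) l0) (le_trans u0 (by norm_num [val, SS, BB])) (le_trans (by norm_num [val, SS, BB]) l1) (le_trans u1 (by norm_num [val, SS, BB]))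

end Crest.Agent.R307.UCb
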