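import Crest.Agent.R307.HP
import Crest.Agent.R307.UCaM
import Crest.Agent.R307.UCbM

/-!
# R307/UC: the corner family of pointwise steps for `Uex`
-/

set_option autoImplicit false

namespace Crest.Agent.R307

open Set

theorem uc_sqrt {x y : ℝ} (hx : 0 ≤ x) (e : x ^ 2 = y) : √y = x := by rw [← e, Real.sqrt_sq hx]

set_option maxHeartbeats 1000000 in
theorem uc_alg {a b r t x y : ℝ} (ha : 0 ≤ a) (hb : 0 ≤ b) (hr : 0 ≤ r) (ht : 0 ≤ t) (hx : 0 ≤ x) (hy : 0 ≤ y)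
    (eab : a ^ 2 = 1 - b ^ 2) (ert : t ^ 2 = 1 - r ^ 2) (ex : x ^ 2 = 1 - b ^ 2 * r ^ 2)
    (ey : y ^ 2 = 1 - a ^ 2 * r ^ 2) (hb1 : b ≤ 29 / 100) :
    (1 + 12 / 100 * (a * b)) * (t * r + r - t + 2 * t ^ 2 - 1) + 2 * a * b * r ^ 2 ≤
      (x * (b * r) + b * r - x + 2 * x ^ 2 - 1) + (y * (a * r) + a * r - y + 2 * y ^ 2 - 1) := by
  have a1 : a ≤ 1 := by nlinarith
  have r1 : r ≤ 1 := by nlinarith
  have a0 : 0 < a := by nlinarith
  have h1 : 1 - a = b * (b / (1 + a)) := by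
    field_simp
    linear_combination (-1 : ℝ) * eab
  rcases le_total t (1 / 4) with c | c
  · have k := UCa.main b t hb hb1 ht c
    have qa : UCa.a b t = a := uc_sqrt ha eab
    have qr : UCa.r b t = r := uc_sqrt hr (by linarith)
    have qx : UCa.tx b t = x := by
      unfold UCa.tx
      rw [qr]
      exact uc_sqrt hx ex
    unfold UCa.Q at k
    rw [qa, qr, qx] at k
    have h2 : x - a = b ^ 2 * t ^ 2 / (x + a) := by
      field_simp
      linear_combination ex - eab - b ^ 2 * ert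
    have h3 : 1 - r = t ^ 2 / (1 + r) := by
      field_simp
      linear_combination (-1 : ℝ) * ert
    have h4 : 1 - a * r = y ^ 2 / (1 + a * r) := by
      field_simp
      linear_combination (-1 : ℝ) * ey
    have yb : y ^ 2 = b ^ 2 + a ^ 2 * t ^ 2 := by linear_combination ey - eab - a ^ 2 * ert
    have by' : b ≤ y := by
      refine abs_le_of_sq_le_sq' ?_ hy |>.2
      rw [yb]
      nlinarith [sq_nonneg (a * t)]
    have yt : y ≤ t + b * r ^ 2 := by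
      refine abs_le_of_sq_le_sq' ?_ (by positivity) |>.2
      have e1 : y ^ 2 = t ^ 2 + b ^ 2 * r ^ 2 := by linear_combination ey - ert - r ^ 2 * eab
      have e2 : (t + b * r ^ 2) ^ 2 - y ^ 2 = b * r ^ 2 * t * (2 - b * t) := by
        linear_combination (-1 : ℝ) * e1 + b ^ 2 * r ^ 2 * ert
      have : 0 ≤ b * r ^ 2 * t * (2 - b * t) := mul_nonneg (by positivity) (by nlinarith)
      linarith
    have s1 : (y - b) * y ^ 2 ≤ a ^ 2 * t ^ 2 * (t + b * (r ^ 2 - 1 / 2)) := by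
      have u1 : (y - b) * y ^ 2 ≤ (y - b) * ((y + b) * (y - b / 2)) :=
        mul_le_mul_of_nonneg_left (by nlinarith [mul_nonneg hb (sub_nonneg.2 by')]) (sub_nonneg.2 by')
      have u2 : (y - b) * ((y + b) * (y - b / 2)) = a ^ 2 * t ^ 2 * (y - b / 2) := by
        linear_combination (y - b / 2) * yb
      have u3 : a ^ 2 * t ^ 2 * (y - b / 2) ≤ a ^ 2 * t ^ 2 * (t + b * (r ^ 2 - 1 / 2)) :=
        mul_le_mul_of_nonneg_left (by linarith) (by positivity)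
      linarith
    have s2 : a ^ 2 / (1 + a * r) ≤ 1 / (1 + r) := by
      rw [div_le_div_iff₀ (by positivity) (by positivity)]
      nlinarith [mul_nonneg (mul_nonneg ha hr) (sub_nonneg.2 a1)]
    have s3 : (y - b) * (1 - a * r) ≤ t ^ 3 * (1 / (1 + r)) + b * t ^ 2 * (a ^ 2 * (r ^ 2 - 1 / 2) / (1 + a * r)) := by
      have v1 : (y - b) * (1 - a * r) = (y - b) * y ^ 2 / (1 + a * r) := by rw [h4]; ring
      have v2 : (y - b) * y ^ 2 / (1 + a * r) ≤ a ^ 2 * t ^ 2 * (t + b * (r ^ 2 - 1 / 2)) / (1 + a * r) :=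
        div_le_div_of_nonneg_right s1 (by positivity)
      have v3 : a ^ 2 * t ^ 2 * (t + b * (r ^ 2 - 1 / 2)) / (1 + a * r) =
          t ^ 3 * (a ^ 2 / (1 + a * r)) + b * t ^ 2 * (a ^ 2 * (r ^ 2 - 1 / 2) / (1 + a * r)) := by ring
      have v4 := mul_le_mul_of_nonneg_left s2 (show 0 ≤ t ^ 3 by positivity)
      linarith
    have k2 := mul_nonneg (show 0 ≤ b * t ^ 2 by positivity) k.le
    have hF : (x * (b * r) + b * r - x + 2 * x ^ 2 - 1) + (y * (a * r) + a * r - y + 2 * y ^ 2 - 1)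
        - ((1 + 12 / 100 * (a * b)) * (t * r + r - t + 2 * t ^ 2 - 1) + 2 * a * b * r ^ 2) =
        2 * a * b * t ^ 2 - (x - a) * (1 - b * r) - (y - b) * (1 - a * r) + (1 + t - a - b - 2 * a * b) * (1 - r)
          - 12 / 100 * (a * b) * (2 * t ^ 2 - (1 + t) * (1 - r)) := by
      linear_combination 2 * ex + 2 * ey - (2 + 2 * a * b) * ert - 2 * r ^ 2 * eab
    have hG : 2 * a * b * t ^ 2 - (x - a) * (1 - b * r)
        - (t ^ 3 * (1 / (1 + r)) + b * t ^ 2 * (a ^ 2 * (r ^ 2 - 1 / 2) / (1 + a * r)))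
        + (1 + t - a - b - 2 * a * b) * (1 - r) - 12 / 100 * (a * b) * (2 * t ^ 2 - (1 + t) * (1 - r)) =
        b * t ^ 2 * (2 * a - b * (1 - b * r) / (x + a) - a ^ 2 * (r ^ 2 - 1 / 2) / (1 + a * r)
          + (b / (1 + a) - 1 - 2 * a) / (1 + r) - 3 / 25 * a * (2 - (1 + t) / (1 + r))) := by
      linear_combination (-(1 - b * r)) * h2 + (1 + t - a - b - 2 * a * b + 12 / 100 * (a * b) * (1 + t)) * h3
        + t ^ 2 / (1 + r) * h1
    linarith
  · have r97 : r ≤ 97 / 100 := by nlinarith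
    have t0 : 0 < t := by linarith
    have k := UCb.main b r hb hb1 hr r97
    have qa : UCb.a b r = a := uc_sqrt ha eab
    have qt : UCb.t b r = t := uc_sqrt ht ert
    have qx : UCb.tx b r = x := uc_sqrt hx ex
    have qy : UCb.ty b r = y := by
      unfold UCb.ty
      rw [qa]
      exact uc_sqrt hy ey
    unfold UCb.Q at k
    rw [qa, qt, qx, qy] at k
    have h2 : 1 - x = b ^ 2 * r ^ 2 / (1 + x) := by
      field_simp
      linear_combination (-1 : ℝ) * ex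
    have h3 : 1 - y = a ^ 2 * r ^ 2 / (1 + y) := by
      field_simp
      linear_combination (-1 : ℝ) * ey
    have h4 : y - t = b ^ 2 * r ^ 2 / (t + y) := by
      field_simp
      linear_combination ey - ert - r ^ 2 * eab
    have h5 : 1 - t = r ^ 2 / (1 + t) := by
      field_simp
      linear_combination (-1 : ℝ) * ert
    have k2 := mul_nonneg (show 0 ≤ r * b by positivity) k.le
    have hF : (x * (b * r) + b * r - x + 2 * x ^ 2 - 1) + (y * (a * r) + a * r - y + 2 * y ^ 2 - 1)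
        - ((1 + 12 / 100 * (a * b)) * (t * r + r - t + 2 * t ^ 2 - 1) + 2 * a * b * r ^ 2) =
        2 * r * (a + b - 1) + (1 - b * r) * (1 - x) - (1 - r) * (y - t) + (1 - a) * r * (1 - y)
          - 12 / 100 * (a * b) * (2 * r - 2 * r ^ 2 + (1 - r) * (1 - t)) - 2 * a * b * r ^ 2 := by
      linear_combination 2 * ex + 2 * ey - (2 + 24 / 100 * (a * b)) * ert - 2 * r ^ 2 * eab
    have h6 : b * a ^ 2 * r ^ 2 / ((1 + a) * (1 + y)) = b / (1 + a) * (a ^ 2 * r ^ 2 / (1 + y)) := by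
      field_simp
    have hG : 2 * r * (a + b - 1) + (1 - b * r) * (1 - x) - (1 - r) * (y - t) + (1 - a) * r * (1 - y)
          - 12 / 100 * (a * b) * (2 * r - 2 * r ^ 2 + (1 - r) * (1 - t)) - 2 * a * b * r ^ 2 =
        r * b * (2 - 2 * b / (1 + a) + b * r * (1 - b * r) / (1 + x) - (1 - r) * b * r / (t + y)
          + b * a ^ 2 * r ^ 2 / ((1 + a) * (1 + y)) - 3 / 25 * a * (2 - 2 * r + (1 - r) * r / (1 + t)) - 2 * a * r) := by
      rw [h6]
      linear_combination (-2 * r + r * (1 - y)) * h1 + (1 - b * r) * h2 - (1 - r) * h4 + r * (b * (b / (1 + a))) * h3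
        - 12 / 100 * (a * b) * (1 - r) * h5
    linarith

/-- The step at `p1 = 1`. -/
theorem uc_end {ρ s p : ℝ} (hρ0 : 0 ≤ ρ) (hρ1 : ρ ≤ 1) (hs : s ^ 2 = 1 - ρ ^ 2) (hs0 : 0 ≤ s) (hs1 : s ≤ 55 / 100)
    (h0 : 0 ≤ p) (h1 : p ≤ 1) :
    (1 + 6 / 100 * s) * Uex p + s * (1 - p) ≤
      Uex ((1 + ρ) / 2 + (1 - ρ) / 2 * p) + Uex ((1 + ρ) / 2 * p + (1 - ρ) / 2) := by
  set a := √((1 + ρ) / 2) with ha
  set b := √((1 - ρ) / 2) with hb
  have a2 : a ^ 2 = (1 + ρ) / 2 := Real.sq_sqrt (by linarith)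
  have b2 : b ^ 2 = (1 - ρ) / 2 := Real.sq_sqrt (by linarith)
  have a0 : 0 ≤ a := Real.sqrt_nonneg _
  have b0 : 0 ≤ b := Real.sqrt_nonneg _
  have es : s = 2 * a * b := by
    refine (pow_left_inj₀ hs0 (by positivity) two_ne_zero).1 ?_
    rw [hs, mul_pow, mul_pow, a2, b2]
    ring
  have b1 : b ≤ 29 / 100 := by
    refine (abs_le_of_sq_le_sq' ?_ (by norm_num)).2
    have : 834 / 1000 ≤ ρ := by
      refine (abs_le_of_sq_le_sq' ?_ hρ0).2
      nlinarith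
    rw [b2]
    linarith
  have r2 := Real.sq_sqrt (sub_nonneg.2 h1)
  have t2 := Real.sq_sqrt h0
  have r0 := Real.sqrt_nonneg (1 - p)
  have px : 0 ≤ (1 + ρ) / 2 + (1 - ρ) / 2 * p := by nlinarith
  have py : 0 ≤ (1 + ρ) / 2 * p + (1 - ρ) / 2 := by nlinarith
  have x2 := Real.sq_sqrt px
  have y2 := Real.sq_sqrt py
  have rx : √(1 - ((1 + ρ) / 2 + (1 - ρ) / 2 * p)) = b * √(1 - p) :=
    uc_sqrt (by positivity) (by rw [mul_pow, b2, r2]; ring)
  have ry : √(1 - ((1 + ρ) / 2 * p + (1 - ρ) / 2)) = a * √(1 - p) :=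
    uc_sqrt (by positivity) (by rw [mul_pow, a2, r2]; ring)
  have k := uc_alg a0 b0 r0 (Real.sqrt_nonneg p) (Real.sqrt_nonneg ((1 + ρ) / 2 + (1 - ρ) / 2 * p))
    (Real.sqrt_nonneg ((1 + ρ) / 2 * p + (1 - ρ) / 2)) (by rw [a2, b2]; ring) (by rw [t2, r2]; ring)
    (by rw [x2, b2, r2]; ring) (by rw [y2, a2, r2]; ring) b1
  unfold Uex
  rw [rx, ry]
  rw [x2, y2, t2, r2] at k
  rw [es]
  linarith

theorem ustepC {ρ s : ℝ} (hρ0 : 0 ≤ ρ) (hρ1 : ρ ≤ 1) (hs : s ^ 2 = 1 - ρ ^ 2) (hs0 : 0 ≤ s) (hs1 : s ≤ 55 / 100) :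
    UStep ρ Uex (1 + 6 / 100 * s) 0 s := by
  refine ⟨by linarith, le_rfl, fun p0 p1 h0 h01 h1 => ?_⟩
  have h1' : p0 ≤ 1 := h01.trans h1
  obtain ⟨θ, θ0, θ1, e⟩ : ∃ θ : ℝ, 0 ≤ θ ∧ θ ≤ 1 ∧ p1 - p0 = θ * (1 - p0) := by
    rcases h1'.eq_or_lt with c | c
    · exact ⟨0, le_rfl, zero_le_one, by linarith⟩
    · refine ⟨(p1 - p0) / (1 - p0), div_nonneg (by linarith) (by linarith), ?_, ?_⟩
      · rw [div_le_one (by linarith)]; linarith
      · rw [div_mul_cancel₀ _ (by linarith)]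
  have k := uc_end hρ0 hρ1 hs hs0 hs1 h0 h1'
  have c1 := Uex_conc.2 (x := (1 + ρ) / 2 + (1 - ρ) / 2 * p0) (y := p0) ⟨by nlinarith, by nlinarith⟩ ⟨h0, h1'⟩
    θ0 (sub_nonneg.2 θ1) (by ring)
  have c2 := Uex_conc.2 (x := (1 + ρ) / 2 * p0 + (1 - ρ) / 2) (y := p0) ⟨by nlinarith, by nlinarith⟩ ⟨h0, h1'⟩
    θ0 (sub_nonneg.2 θ1) (by ring)
  simp only [smul_eq_mul] at c1 c2
  have e1 : θ * ((1 + ρ) / 2 + (1 - ρ) / 2 * p0) + (1 - θ) * p0 = (1 + ρ) / 2 * p1 + (1 - ρ) / 2 * p0 := by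
    linear_combination (-(1 + ρ) / 2) * e
  have e2 : θ * ((1 + ρ) / 2 * p0 + (1 - ρ) / 2) + (1 - θ) * p0 = (1 + ρ) / 2 * p0 + (1 - ρ) / 2 * p1 := by
    linear_combination (-(1 - ρ) / 2) * e
  rw [e1] at c1
  rw [e2] at c2
  have u0 := Uex_nonneg h0 h1'
  have k2 := mul_le_mul_of_nonneg_left k θ0
  have k3 : 0 ≤ (1 - θ) * ((1 - 6 / 100 * s) * Uex p0) :=
    mul_nonneg (sub_nonneg.2 θ1) (mul_nonneg (by linarith) u0)
  rw [e]
  nlinarith

end Crest.Agent.R307
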