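import Crest.Agent.R307.IA2
import Crest.Agent.R307.IAx
set_option autoImplicit false
set_option linter.unusedVariables false
set_option maxRecDepth 20000
namespace Crest.Agent.R307.UCa
open Crest.Agent.R307.IA Crest.Agent.R307.IA2

theorem In_cast {e1 e2 : ℝ} {x y1 y2 r : ℕ} {v w : ℝ}
    (h : In e1 e2 x y1 y2 r v) (e : v = w) : In e1 e2 x y1 y2 r w := e ▸ h

noncomputable def a (b t : ℝ) : ℝ := (√((1:ℝ) - (b ^ 2)))
noncomputable def r (b t : ℝ) : ℝ := (√((1:ℝ) - (t ^ 2)))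
noncomputable def tx (b t : ℝ) : ℝ := (√((1:ℝ) - ((b ^ 2) * ((r b t) ^ 2))))

def Q (b t : ℝ) : Prop :=
  (
  (0 < ((((((2:ℝ) * (a b t)) - ((b * ((1:ℝ) - (b * (r b t)))) / ((tx b t) + (a b t)))) - ((((a b t) ^ 2) * (((r b t) ^ 2) - (1/2:ℝ))) / ((1:ℝ) + ((a b t) * (r b t))))) + ((((b / ((1:ℝ) + (a b t))) - (1:ℝ)) - ((2:ℝ) * (a b t))) / ((1:ℝ) + (r b t)))) - (((3/25:ℝ) * (a b t)) * ((2:ℝ) - (((1:ℝ) + t) / ((1:ℝ) + (r b t))))))))

noncomputable def alt0 (z1 w1 z2 w2 : ℕ) : Bool :=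
  sqK z1 (Nat.add w1 1152921504606846976) 1152921504606846976 0 fun c1 a1_1 a1_2 q1 =>
  negK c1 a1_1 a1_2 q1 fun c2 a2_1 a2_2 q2 =>
  addcK c2 a2_1 a2_2 q2 1152922604118474752 0 fun c3 a3_1 a3_2 q3 =>
  sqrtK c3 a3_1 a3_2 q3 fun c5 a5_1 a5_2 q5 =>
  smulK 2 1 1152921504606846977 2305843009213693952 c5 a5_1 a5_2 q5 fun c7 a7_1 a7_2 q7 =>
  sqK z2 1152921504606846976 (Nat.add w2 1152921504606846976) 0 fun c8 a8_1 a8_2 q8 =>
  negK c8 a8_1 a8_2 q8 fun c9 a9_1 a9_2 q9 =>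
  addcK c9 a9_1 a9_2 q9 1152922604118474752 0 fun c10 a10_1 a10_2 q10 =>
  sqrtK c10 a10_1 a10_2 q10 fun c12 a12_1 a12_2 q12 =>
  sqK c12 a12_1 a12_2 q12 fun c14 a14_1 a14_2 q14 =>
  mulK c1 a1_1 a1_2 q1 c14 a14_1 a14_2 q14 fun c15 a15_1 a15_2 q15 =>
  negK c15 a15_1 a15_2 q15 fun c16 a16_1 a16_2 q16 =>
  addcK c16 a16_1 a16_2 q16 1152922604118474752 0 fun c17 a17_1 a17_2 q17 =>
  sqrtK c17 a17_1 a17_2 q17 fun c19 a19_1 a19_2 q19 =>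
  addK c19 a19_1 a19_2 q19 c5 a5_1 a5_2 q5 fun c21 a21_1 a21_2 q21 =>
  invK c21 a21_1 a21_2 q21 fun c22 a22_1 a22_2 q22 =>
  mulK z1 (Nat.add w1 1152921504606846976) 1152921504606846976 0 c12 a12_1 a12_2 q12 fun c23 a23_1 a23_2 q23 =>
  negK c23 a23_1 a23_2 q23 fun c24 a24_1 a24_2 q24 =>
  addcK c24 a24_1 a24_2 q24 1152922604118474752 0 fun c25 a25_1 a25_2 q25 =>
  mulK z1 (Nat.add w1 1152921504606846976) 1152921504606846976 0 c25 a25_1 a25_2 q25 fun c27 a27_1 a27_2 q27 =>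
  mulK c27 a27_1 a27_2 q27 c22 a22_1 a22_2 q22 fun c28 a28_1 a28_2 q28 =>
  subK c7 a7_1 a7_2 q7 c28 a28_1 a28_2 q28 fun c30 a30_1 a30_2 q30 =>
  mulK c5 a5_1 a5_2 q5 c12 a12_1 a12_2 q12 fun c31 a31_1 a31_2 q31 =>
  addcK c31 a31_1 a31_2 q31 1152922604118474752 0 fun c32 a32_1 a32_2 q32 =>
  invK c32 a32_1 a32_2 q32 fun c34 a34_1 a34_2 q34 =>
  sqK c5 a5_1 a5_2 q5 fun c35 a35_1 a35_2 q35 =>
  addcK c14 a14_1 a14_2 q14 1152920954851033088 0 fun c36 a36_1 a36_2 q36 =>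
  mulK c35 a35_1 a35_2 q35 c36 a36_1 a36_2 q36 fun c38 a38_1 a38_2 q38 =>
  mulK c38 a38_1 a38_2 q38 c34 a34_1 a34_2 q34 fun c39 a39_1 a39_2 q39 =>
  subK c30 a30_1 a30_2 q30 c39 a39_1 a39_2 q39 fun c41 a41_1 a41_2 q41 =>
  addcK c12 a12_1 a12_2 q12 1152922604118474752 0 fun c42 a42_1 a42_2 q42 =>
  invK c42 a42_1 a42_2 q42 fun c44 a44_1 a44_2 q44 =>
  addcK c5 a5_1 a5_2 q5 1152922604118474752 0 fun c45 a45_1 a45_2 q45 =>
  invK c45 a45_1 a45_2 q45 fun c47 a47_1 a47_2 q47 =>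
  mulK z1 (Nat.add w1 1152921504606846976) 1152921504606846976 0 c47 a47_1 a47_2 q47 fun c48 a48_1 a48_2 q48 =>
  addcK c48 a48_1 a48_2 q48 1152920405095219200 0 fun c50 a50_1 a50_2 q50 =>
  subK c50 a50_1 a50_2 q50 c7 a7_1 a7_2 q7 fun c52 a52_1 a52_2 q52 =>
  mulK c52 a52_1 a52_2 q52 c44 a44_1 a44_2 q44 fun c53 a53_1 a53_2 q53 =>
  addK c41 a41_1 a41_2 q41 c53 a53_1 a53_2 q53 fun c55 a55_1 a55_2 q55 =>
  smulK 3 25 28823037615171174425 3458764513820540928 c5 a5_1 a5_2 q5 fun c56 a56_1 a56_2 q56 =>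
  addcK z2 1152921504606846976 (Nat.add w2 1152921504606846976) 0 1152922604118474752 0 fun c57 a57_1 a57_2 q57 =>
  mulK c57 a57_1 a57_2 q57 c44 a44_1 a44_2 q44 fun c59 a59_1 a59_2 q59 =>
  negK c59 a59_1 a59_2 q59 fun c61 a61_1 a61_2 q61 =>
  addcK c61 a61_1 a61_2 q61 1152923703630102528 0 fun c62 a62_1 a62_2 q62 =>
  mulK c56 a56_1 a56_2 q56 c62 a62_1 a62_2 q62 fun c64 a64_1 a64_2 q64 =>
  subK c55 a55_1 a55_2 q55 c64 a64_1 a64_2 q64 fun c65 a65_1 a65_2 q65 =>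
  pos c65 a65_1 a65_2 q65

theorem alt0_s {z1 w1 z2 w2 : ℕ} {e1 e2 b t : ℝ} (he : Ev e1 e2)
    (hx1 : In e1 e2 z1 (Nat.add w1 1152921504606846976) 1152921504606846976 0 b)
    (hx2 : In e1 e2 z2 1152921504606846976 (Nat.add w2 1152921504606846976) 0 t)
    (H0 : alt0 z1 w1 z2 w2 = true) : 0 < ((((((2:ℝ) * (a b t)) - ((b * ((1:ℝ) - (b * (r b t)))) / ((tx b t) + (a b t)))) - ((((a b t) ^ 2) * (((r b t) ^ 2) - (1/2:ℝ))) / ((1:ℝ) + ((a b t) * (r b t))))) + ((((b / ((1:ℝ) + (a b t))) - (1:ℝ)) - ((2:ℝ) * (a b t))) / ((1:ℝ) + (r b t)))) - (((3/25:ℝ) * (a b t)) * ((2:ℝ) - (((1:ℝ) + t) / ((1:ℝ) + (r b t)))))) := by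
  unfold alt0 at H0
  refine sqK_s he hx1 (fun _ _ _ _ h1 H1 => ?_) H0
  refine negK_s he h1 (fun _ _ _ _ h2 H2 => ?_) H1
  refine addcK_s he h2 (v' := (1:ℝ)) (by norm_num [SS, BB, abs_le]) (fun _ _ _ _ h3 H3 => ?_) H2
  have h4 := In_cast h3 (neg_add_eq_sub _ _)
  refine sqrtK_s he h4 (fun _ _ _ _ h5 H4 => ?_) H3
  have h6 := In_cast (w := (a b t)) h5 rfl
  refine smulK_s he (w := (2:ℝ)) (by norm_num) (by norm_num) (by norm_num) (by norm_num) h6 (fun _ _ _ _ h7 H5 => ?_) H4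
  refine sqK_s he hx2 (fun _ _ _ _ h8 H6 => ?_) H5
  refine negK_s he h8 (fun _ _ _ _ h9 H7 => ?_) H6
  refine addcK_s he h9 (v' := (1:ℝ)) (by norm_num [SS, BB, abs_le]) (fun _ _ _ _ h10 H8 => ?_) H7
  have h11 := In_cast h10 (neg_add_eq_sub _ _)
  refine sqrtK_s he h11 (fun _ _ _ _ h12 H9 => ?_) H8
  have h13 := In_cast (w := (r b t)) h12 rfl
  refine sqK_s he h13 (fun _ _ _ _ h14 H10 => ?_) H9
  refine mulK_s he h1 h14 (fun _ _ _ _ h15 H11 => ?_) H10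
  refine negK_s he h15 (fun _ _ _ _ h16 H12 => ?_) H11
  refine addcK_s he h16 (v' := (1:ℝ)) (by norm_num [SS, BB, abs_le]) (fun _ _ _ _ h17 H13 => ?_) H12
  have h18 := In_cast h17 (neg_add_eq_sub _ _)
  refine sqrtK_s he h18 (fun _ _ _ _ h19 H14 => ?_) H13
  have h20 := In_cast (w := (tx b t)) h19 rfl
  refine addK_s he h20 h6 (fun _ _ _ _ h21 H15 => ?_) H14
  refine invK_s he h21 (fun _ _ _ _ h22 H16 => ?_) H15
  refine mulK_s he hx1 h13 (fun _ _ _ _ h23 H17 => ?_) H16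
  refine negK_s he h23 (fun _ _ _ _ h24 H18 => ?_) H17
  refine addcK_s he h24 (v' := (1:ℝ)) (by norm_num [SS, BB, abs_le]) (fun _ _ _ _ h25 H19 => ?_) H18
  have h26 := In_cast h25 (neg_add_eq_sub _ _)
  refine mulK_s he hx1 h26 (fun _ _ _ _ h27 H20 => ?_) H19
  refine mulK_s he h27 h22 (fun _ _ _ _ h28 H21 => ?_) H20
  have h29 := In_cast h28 ((div_eq_mul_inv _ _).symm)
  refine subK_s he h7 h29 (fun _ _ _ _ h30 H22 => ?_) H21
  refine mulK_s he h6 h13 (fun _ _ _ _ h31 H23 => ?_) H22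
  refine addcK_s he h31 (v' := (1:ℝ)) (by norm_num [SS, BB, abs_le]) (fun _ _ _ _ h32 H24 => ?_) H23
  have h33 := In_cast h32 (add_comm _ _)
  refine invK_s he h33 (fun _ _ _ _ h34 H25 => ?_) H24
  refine sqK_s he h6 (fun _ _ _ _ h35 H26 => ?_) H25
  refine addcK_s he h14 (v' := (-1/2:ℝ)) (by norm_num [SS, BB, abs_le]) (fun _ _ _ _ h36 H27 => ?_) H26
  have h37 := In_cast h36 (sub_c (c := (1/2:ℝ)) (by norm_num))
  refine mulK_s he h35 h37 (fun _ _ _ _ h38 H28 => ?_) H27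
  refine mulK_s he h38 h34 (fun _ _ _ _ h39 H29 => ?_) H28
  have h40 := In_cast h39 ((div_eq_mul_inv _ _).symm)
  refine subK_s he h30 h40 (fun _ _ _ _ h41 H30 => ?_) H29
  refine addcK_s he h13 (v' := (1:ℝ)) (by norm_num [SS, BB, abs_le]) (fun _ _ _ _ h42 H31 => ?_) H30
  have h43 := In_cast h42 (add_comm _ _)
  refine invK_s he h43 (fun _ _ _ _ h44 H32 => ?_) H31
  refine addcK_s he h6 (v' := (1:ℝ)) (by norm_num [SS, BB, abs_le]) (fun _ _ _ _ h45 H33 => ?_) H32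
  have h46 := In_cast h45 (add_comm _ _)
  refine invK_s he h46 (fun _ _ _ _ h47 H34 => ?_) H33
  refine mulK_s he hx1 h47 (fun _ _ _ _ h48 H35 => ?_) H34
  have h49 := In_cast h48 ((div_eq_mul_inv _ _).symm)
  refine addcK_s he h49 (v' := (-1:ℝ)) (by norm_num [SS, BB, abs_le]) (fun _ _ _ _ h50 H36 => ?_) H35
  have h51 := In_cast h50 (sub_c (c := (1:ℝ)) (by norm_num))
  refine subK_s he h51 h7 (fun _ _ _ _ h52 H37 => ?_) H36
  refine mulK_s he h52 h44 (fun _ _ _ _ h53 H38 => ?_) H37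
  have h54 := In_cast h53 ((div_eq_mul_inv _ _).symm)
  refine addK_s he h41 h54 (fun _ _ _ _ h55 H39 => ?_) H38
  refine smulK_s he (w := (3/25:ℝ)) (by norm_num) (by norm_num) (by norm_num) (by norm_num) h6 (fun _ _ _ _ h56 H40 => ?_) H39
  refine addcK_s he hx2 (v' := (1:ℝ)) (by norm_num [SS, BB, abs_le]) (fun _ _ _ _ h57 H41 => ?_) H40
  have h58 := In_cast h57 (add_comm _ _)
  refine mulK_s he h58 h44 (fun _ _ _ _ h59 H42 => ?_) H41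
  have h60 := In_cast h59 ((div_eq_mul_inv _ _).symm)
  refine negK_s he h60 (fun _ _ _ _ h61 H43 => ?_) H42
  refine addcK_s he h61 (v' := (2:ℝ)) (by norm_num [SS, BB, abs_le]) (fun _ _ _ _ h62 H44 => ?_) H43
  have h63 := In_cast h62 (neg_add_eq_sub _ _)
  refine mulK_s he h56 h63 (fun _ _ _ _ h64 H45 => ?_) H44
  refine subK_s he h55 h64 (fun _ _ _ _ h65 H46 => ?_) H45
  exact pos_s he h65 H46

attribute [irreducible] alt0

noncomputable def leaf (j u z1 w1 z2 w2 : ℕ) : Bool :=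
  alt0 z1 w1 z2 w2

theorem snd : Snd Q leaf := by
  intro j u z1 w1 z2 w2 e1 e2 he H
  unfold leaf at H
  unfold Q
  exact alt0_s he (var1 z1 w1) (var2 z2 w2) H

end Crest.Agent.R307.UCa
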