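import Crest.Agent.R307.IA2
import Crest.Agent.R307.IAx
set_option autoImplicit false
set_option linter.unusedVariables false
set_option maxRecDepth 20000
namespace Crest.Agent.R307.UCb
open Crest.Agent.R307.IA Crest.Agent.R307.IA2

theorem In_cast {e1 e2 : ℝ} {x y1 y2 r : ℕ} {v w : ℝ}
    (h : In e1 e2 x y1 y2 r v) (e : v = w) : In e1 e2 x y1 y2 r w := e ▸ h

noncomputable def a (b r : ℝ) : ℝ := (√((1:ℝ) - (b ^ 2)))
noncomputable def tx (b r : ℝ) : ℝ := (√((1:ℝ) - ((b ^ 2) * (r ^ 2))))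
noncomputable def t (b r : ℝ) : ℝ := (√((1:ℝ) - (r ^ 2)))
noncomputable def ty (b r : ℝ) : ℝ := (√((1:ℝ) - (((a b r) ^ 2) * (r ^ 2))))

def Q (b r : ℝ) : Prop :=
  (
  (0 < (((((((2:ℝ) - (((2:ℝ) * b) / ((1:ℝ) + (a b r)))) + (((b * r) * ((1:ℝ) - (b * r))) / ((1:ℝ) + (tx b r)))) - (((((1:ℝ) - r) * b) * r) / ((t b r) + (ty b r)))) + (((b * ((a b r) ^ 2)) * (r ^ 2)) / (((1:ℝ) + (a b r)) * ((1:ℝ) + (ty b r))))) - (((3/25:ℝ) * (a b r)) * (((2:ℝ) - ((2:ℝ) * r)) + ((((1:ℝ) - r) * r) / ((1:ℝ) + (t b r)))))) - (((2:ℝ) * (a b r)) * r))))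

noncomputable def alt0 (z1 w1 z2 w2 : ℕ) : Bool :=
  sqK z1 (Nat.add w1 1152921504606846976) 1152921504606846976 0 fun c1 a1_1 a1_2 q1 =>
  negK c1 a1_1 a1_2 q1 fun c2 a2_1 a2_2 q2 =>
  addcK c2 a2_1 a2_2 q2 1152922604118474752 0 fun c3 a3_1 a3_2 q3 =>
  sqrtK c3 a3_1 a3_2 q3 fun c5 a5_1 a5_2 q5 =>
  addcK c5 a5_1 a5_2 q5 1152922604118474752 0 fun c7 a7_1 a7_2 q7 =>
  invK c7 a7_1 a7_2 q7 fun c9 a9_1 a9_2 q9 =>
  smulK 2 1 1152921504606846977 2305843009213693952 z1 (Nat.add w1 1152921504606846976) 1152921504606846976 0 fun c10 a10_1 a10_2 q10 =>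
  mulK c10 a10_1 a10_2 q10 c9 a9_1 a9_2 q9 fun c11 a11_1 a11_2 q11 =>
  negK c11 a11_1 a11_2 q11 fun c13 a13_1 a13_2 q13 =>
  addcK c13 a13_1 a13_2 q13 1152923703630102528 0 fun c14 a14_1 a14_2 q14 =>
  sqK z2 1152921504606846976 (Nat.add w2 1152921504606846976) 0 fun c16 a16_1 a16_2 q16 =>
  mulK c1 a1_1 a1_2 q1 c16 a16_1 a16_2 q16 fun c17 a17_1 a17_2 q17 =>
  negK c17 a17_1 a17_2 q17 fun c18 a18_1 a18_2 q18 =>
  addcK c18 a18_1 a18_2 q18 1152922604118474752 0 fun c19 a19_1 a19_2 q19 =>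
  sqrtK c19 a19_1 a19_2 q19 fun c21 a21_1 a21_2 q21 =>
  addcK c21 a21_1 a21_2 q21 1152922604118474752 0 fun c23 a23_1 a23_2 q23 =>
  invK c23 a23_1 a23_2 q23 fun c25 a25_1 a25_2 q25 =>
  mulK z1 (Nat.add w1 1152921504606846976) 1152921504606846976 0 z2 1152921504606846976 (Nat.add w2 1152921504606846976) 0 fun c26 a26_1 a26_2 q26 =>
  negK c26 a26_1 a26_2 q26 fun c27 a27_1 a27_2 q27 =>
  addcK c27 a27_1 a27_2 q27 1152922604118474752 0 fun c28 a28_1 a28_2 q28 =>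
  mulK c26 a26_1 a26_2 q26 c28 a28_1 a28_2 q28 fun c30 a30_1 a30_2 q30 =>
  mulK c30 a30_1 a30_2 q30 c25 a25_1 a25_2 q25 fun c31 a31_1 a31_2 q31 =>
  addK c14 a14_1 a14_2 q14 c31 a31_1 a31_2 q31 fun c33 a33_1 a33_2 q33 =>
  negK c16 a16_1 a16_2 q16 fun c34 a34_1 a34_2 q34 =>
  addcK c34 a34_1 a34_2 q34 1152922604118474752 0 fun c35 a35_1 a35_2 q35 =>
  sqrtK c35 a35_1 a35_2 q35 fun c37 a37_1 a37_2 q37 =>
  sqK c5 a5_1 a5_2 q5 fun c39 a39_1 a39_2 q39 =>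
  mulK c39 a39_1 a39_2 q39 c16 a16_1 a16_2 q16 fun c40 a40_1 a40_2 q40 =>
  negK c40 a40_1 a40_2 q40 fun c41 a41_1 a41_2 q41 =>
  addcK c41 a41_1 a41_2 q41 1152922604118474752 0 fun c42 a42_1 a42_2 q42 =>
  sqrtK c42 a42_1 a42_2 q42 fun c44 a44_1 a44_2 q44 =>
  addK c37 a37_1 a37_2 q37 c44 a44_1 a44_2 q44 fun c46 a46_1 a46_2 q46 =>
  invK c46 a46_1 a46_2 q46 fun c47 a47_1 a47_2 q47 =>
  negK z2 1152921504606846976 (Nat.add w2 1152921504606846976) 0 fun c48 a48_1 a48_2 q48 =>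
  addcK c48 a48_1 a48_2 q48 1152922604118474752 0 fun c49 a49_1 a49_2 q49 =>
  mulK c49 a49_1 a49_2 q49 z1 (Nat.add w1 1152921504606846976) 1152921504606846976 0 fun c51 a51_1 a51_2 q51 =>
  mulK c51 a51_1 a51_2 q51 z2 1152921504606846976 (Nat.add w2 1152921504606846976) 0 fun c52 a52_1 a52_2 q52 =>
  mulK c52 a52_1 a52_2 q52 c47 a47_1 a47_2 q47 fun c53 a53_1 a53_2 q53 =>
  subK c33 a33_1 a33_2 q33 c53 a53_1 a53_2 q53 fun c55 a55_1 a55_2 q55 =>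
  addcK c44 a44_1 a44_2 q44 1152922604118474752 0 fun c56 a56_1 a56_2 q56 =>
  mulK c7 a7_1 a7_2 q7 c56 a56_1 a56_2 q56 fun c58 a58_1 a58_2 q58 =>
  invK c58 a58_1 a58_2 q58 fun c59 a59_1 a59_2 q59 =>
  mulK z1 (Nat.add w1 1152921504606846976) 1152921504606846976 0 c39 a39_1 a39_2 q39 fun c60 a60_1 a60_2 q60 =>
  mulK c60 a60_1 a60_2 q60 c16 a16_1 a16_2 q16 fun c61 a61_1 a61_2 q61 =>
  mulK c61 a61_1 a61_2 q61 c59 a59_1 a59_2 q59 fun c62 a62_1 a62_2 q62 =>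
  addK c55 a55_1 a55_2 q55 c62 a62_1 a62_2 q62 fun c64 a64_1 a64_2 q64 =>
  smulK 3 25 28823037615171174425 3458764513820540928 c5 a5_1 a5_2 q5 fun c65 a65_1 a65_2 q65 =>
  smulK 2 1 1152921504606846977 2305843009213693952 z2 1152921504606846976 (Nat.add w2 1152921504606846976) 0 fun c66 a66_1 a66_2 q66 =>
  negK c66 a66_1 a66_2 q66 fun c67 a67_1 a67_2 q67 =>
  addcK c67 a67_1 a67_2 q67 1152923703630102528 0 fun c68 a68_1 a68_2 q68 =>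
  addcK c37 a37_1 a37_2 q37 1152922604118474752 0 fun c70 a70_1 a70_2 q70 =>
  invK c70 a70_1 a70_2 q70 fun c72 a72_1 a72_2 q72 =>
  mulK c49 a49_1 a49_2 q49 z2 1152921504606846976 (Nat.add w2 1152921504606846976) 0 fun c73 a73_1 a73_2 q73 =>
  mulK c73 a73_1 a73_2 q73 c72 a72_1 a72_2 q72 fun c74 a74_1 a74_2 q74 =>
  addK c68 a68_1 a68_2 q68 c74 a74_1 a74_2 q74 fun c76 a76_1 a76_2 q76 =>
  mulK c65 a65_1 a65_2 q65 c76 a76_1 a76_2 q76 fun c77 a77_1 a77_2 q77 =>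
  subK c64 a64_1 a64_2 q64 c77 a77_1 a77_2 q77 fun c78 a78_1 a78_2 q78 =>
  smulK 2 1 1152921504606846977 2305843009213693952 c5 a5_1 a5_2 q5 fun c79 a79_1 a79_2 q79 =>
  mulK c79 a79_1 a79_2 q79 z2 1152921504606846976 (Nat.add w2 1152921504606846976) 0 fun c80 a80_1 a80_2 q80 =>
  subK c78 a78_1 a78_2 q78 c80 a80_1 a80_2 q80 fun c81 a81_1 a81_2 q81 =>
  pos c81 a81_1 a81_2 q81

theorem alt0_s {z1 w1 z2 w2 : ℕ} {e1 e2 b r : ℝ} (he : Ev e1 e2)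
    (hx1 : In e1 e2 z1 (Nat.add w1 1152921504606846976) 1152921504606846976 0 b)
    (hx2 : In e1 e2 z2 1152921504606846976 (Nat.add w2 1152921504606846976) 0 r)
    (H0 : alt0 z1 w1 z2 w2 = true) : 0 < (((((((2:ℝ) - (((2:ℝ) * b) / ((1:ℝ) + (a b r)))) + (((b * r) * ((1:ℝ) - (b * r))) / ((1:ℝ) + (tx b r)))) - (((((1:ℝ) - r) * b) * r) / ((t b r) + (ty b r)))) + (((b * ((a b r) ^ 2)) * (r ^ 2)) / (((1:ℝ) + (a b r)) * ((1:ℝ) + (ty b r))))) - (((3/25:ℝ) * (a b r)) * (((2:ℝ) - ((2:ℝ) * r)) + ((((1:ℝ) - r) * r) / ((1:ℝ) + (t b r)))))) - (((2:ℝ) * (a b r)) * r)) := by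
  unfold alt0 at H0
  refine sqK_s he hx1 (fun _ _ _ _ h1 H1 => ?_) H0
  refine negK_s he h1 (fun _ _ _ _ h2 H2 => ?_) H1
  refine addcK_s he h2 (v' := (1:ℝ)) (by norm_num [SS, BB, abs_le]) (fun _ _ _ _ h3 H3 => ?_) H2
  have h4 := In_cast h3 (neg_add_eq_sub _ _)
  refine sqrtK_s he h4 (fun _ _ _ _ h5 H4 => ?_) H3
  have h6 := In_cast (w := (a b r)) h5 rfl
  refine addcK_s he h6 (v' := (1:ℝ)) (by norm_num [SS, BB, abs_le]) (fun _ _ _ _ h7 H5 => ?_) H4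
  have h8 := In_cast h7 (add_comm _ _)
  refine invK_s he h8 (fun _ _ _ _ h9 H6 => ?_) H5
  refine smulK_s he (w := (2:ℝ)) (by norm_num) (by norm_num) (by norm_num) (by norm_num) hx1 (fun _ _ _ _ h10 H7 => ?_) H6
  refine mulK_s he h10 h9 (fun _ _ _ _ h11 H8 => ?_) H7
  have h12 := In_cast h11 ((div_eq_mul_inv _ _).symm)
  refine negK_s he h12 (fun _ _ _ _ h13 H9 => ?_) H8
  refine addcK_s he h13 (v' := (2:ℝ)) (by norm_num [SS, BB, abs_le]) (fun _ _ _ _ h14 H10 => ?_) H9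
  have h15 := In_cast h14 (neg_add_eq_sub _ _)
  refine sqK_s he hx2 (fun _ _ _ _ h16 H11 => ?_) H10
  refine mulK_s he h1 h16 (fun _ _ _ _ h17 H12 => ?_) H11
  refine negK_s he h17 (fun _ _ _ _ h18 H13 => ?_) H12
  refine addcK_s he h18 (v' := (1:ℝ)) (by norm_num [SS, BB, abs_le]) (fun _ _ _ _ h19 H14 => ?_) H13
  have h20 := In_cast h19 (neg_add_eq_sub _ _)
  refine sqrtK_s he h20 (fun _ _ _ _ h21 H15 => ?_) H14
  have h22 := In_cast (w := (tx b r)) h21 rfl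
  refine addcK_s he h22 (v' := (1:ℝ)) (by norm_num [SS, BB, abs_le]) (fun _ _ _ _ h23 H16 => ?_) H15
  have h24 := In_cast h23 (add_comm _ _)
  refine invK_s he h24 (fun _ _ _ _ h25 H17 => ?_) H16
  refine mulK_s he hx1 hx2 (fun _ _ _ _ h26 H18 => ?_) H17
  refine negK_s he h26 (fun _ _ _ _ h27 H19 => ?_) H18
  refine addcK_s he h27 (v' := (1:ℝ)) (by norm_num [SS, BB, abs_le]) (fun _ _ _ _ h28 H20 => ?_) H19
  have h29 := In_cast h28 (neg_add_eq_sub _ _)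
  refine mulK_s he h26 h29 (fun _ _ _ _ h30 H21 => ?_) H20
  refine mulK_s he h30 h25 (fun _ _ _ _ h31 H22 => ?_) H21
  have h32 := In_cast h31 ((div_eq_mul_inv _ _).symm)
  refine addK_s he h15 h32 (fun _ _ _ _ h33 H23 => ?_) H22
  refine negK_s he h16 (fun _ _ _ _ h34 H24 => ?_) H23
  refine addcK_s he h34 (v' := (1:ℝ)) (by norm_num [SS, BB, abs_le]) (fun _ _ _ _ h35 H25 => ?_) H24
  have h36 := In_cast h35 (neg_add_eq_sub _ _)
  refine sqrtK_s he h36 (fun _ _ _ _ h37 H26 => ?_) H25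
  have h38 := In_cast (w := (t b r)) h37 rfl
  refine sqK_s he h6 (fun _ _ _ _ h39 H27 => ?_) H26
  refine mulK_s he h39 h16 (fun _ _ _ _ h40 H28 => ?_) H27
  refine negK_s he h40 (fun _ _ _ _ h41 H29 => ?_) H28
  refine addcK_s he h41 (v' := (1:ℝ)) (by norm_num [SS, BB, abs_le]) (fun _ _ _ _ h42 H30 => ?_) H29
  have h43 := In_cast h42 (neg_add_eq_sub _ _)
  refine sqrtK_s he h43 (fun _ _ _ _ h44 H31 => ?_) H30
  have h45 := In_cast (w := (ty b r)) h44 rfl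
  refine addK_s he h38 h45 (fun _ _ _ _ h46 H32 => ?_) H31
  refine invK_s he h46 (fun _ _ _ _ h47 H33 => ?_) H32
  refine negK_s he hx2 (fun _ _ _ _ h48 H34 => ?_) H33
  refine addcK_s he h48 (v' := (1:ℝ)) (by norm_num [SS, BB, abs_le]) (fun _ _ _ _ h49 H35 => ?_) H34
  have h50 := In_cast h49 (neg_add_eq_sub _ _)
  refine mulK_s he h50 hx1 (fun _ _ _ _ h51 H36 => ?_) H35
  refine mulK_s he h51 hx2 (fun _ _ _ _ h52 H37 => ?_) H36
  refine mulK_s he h52 h47 (fun _ _ _ _ h53 H38 => ?_) H37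
  have h54 := In_cast h53 ((div_eq_mul_inv _ _).symm)
  refine subK_s he h33 h54 (fun _ _ _ _ h55 H39 => ?_) H38
  refine addcK_s he h45 (v' := (1:ℝ)) (by norm_num [SS, BB, abs_le]) (fun _ _ _ _ h56 H40 => ?_) H39
  have h57 := In_cast h56 (add_comm _ _)
  refine mulK_s he h8 h57 (fun _ _ _ _ h58 H41 => ?_) H40
  refine invK_s he h58 (fun _ _ _ _ h59 H42 => ?_) H41
  refine mulK_s he hx1 h39 (fun _ _ _ _ h60 H43 => ?_) H42
  refine mulK_s he h60 h16 (fun _ _ _ _ h61 H44 => ?_) H43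
  refine mulK_s he h61 h59 (fun _ _ _ _ h62 H45 => ?_) H44
  have h63 := In_cast h62 ((div_eq_mul_inv _ _).symm)
  refine addK_s he h55 h63 (fun _ _ _ _ h64 H46 => ?_) H45
  refine smulK_s he (w := (3/25:ℝ)) (by norm_num) (by norm_num) (by norm_num) (by norm_num) h6 (fun _ _ _ _ h65 H47 => ?_) H46
  refine smulK_s he (w := (2:ℝ)) (by norm_num) (by norm_num) (by norm_num) (by norm_num) hx2 (fun _ _ _ _ h66 H48 => ?_) H47
  refine negK_s he h66 (fun _ _ _ _ h67 H49 => ?_) H48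
  refine addcK_s he h67 (v' := (2:ℝ)) (by norm_num [SS, BB, abs_le]) (fun _ _ _ _ h68 H50 => ?_) H49
  have h69 := In_cast h68 (neg_add_eq_sub _ _)
  refine addcK_s he h38 (v' := (1:ℝ)) (by norm_num [SS, BB, abs_le]) (fun _ _ _ _ h70 H51 => ?_) H50
  have h71 := In_cast h70 (add_comm _ _)
  refine invK_s he h71 (fun _ _ _ _ h72 H52 => ?_) H51
  refine mulK_s he h50 hx2 (fun _ _ _ _ h73 H53 => ?_) H52
  refine mulK_s he h73 h72 (fun _ _ _ _ h74 H54 => ?_) H53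
  have h75 := In_cast h74 ((div_eq_mul_inv _ _).symm)
  refine addK_s he h69 h75 (fun _ _ _ _ h76 H55 => ?_) H54
  refine mulK_s he h65 h76 (fun _ _ _ _ h77 H56 => ?_) H55
  refine subK_s he h64 h77 (fun _ _ _ _ h78 H57 => ?_) H56
  refine smulK_s he (w := (2:ℝ)) (by norm_num) (by norm_num) (by norm_num) (by norm_num) h6 (fun _ _ _ _ h79 H58 => ?_) H57
  refine mulK_s he h79 hx2 (fun _ _ _ _ h80 H59 => ?_) H58
  refine subK_s he h78 h80 (fun _ _ _ _ h81 H60 => ?_) H59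
  exact pos_s he h81 H60

attribute [irreducible] alt0

noncomputable def leaf (j u z1 w1 z2 w2 : ℕ) : Bool :=
  alt0 z1 w1 z2 w2

theorem snd : Snd Q leaf := by
  intro j u z1 w1 z2 w2 e1 e2 he H
  unfold leaf at H
  unfold Q
  exact alt0_s he (var1 z1 w1) (var2 z2 w2) H

end Crest.Agent.R307.UCb
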