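import Crest.Agent.R307.UCb
set_option autoImplicit false
set_option maxRecDepth 100000
namespace Crest.Agent.R307.UCb
open Crest.Agent.R307.IA Crest.Agent.R307.IA2

theorem k0 : Cov Q 1152921504606846976 1152921823465219032 1152921504606846976 1152922571133125919 :=
  cov_of snd 0 0 7 _ _ _ _ 0x2202021212121 (by decide +kernel)

end Crest.Agent.R307.UCb
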