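import Crest.Agent.R307.UA
import Crest.Agent.R307.UEPM
import Crest.Agent.R307.UEQM

/-!
# R307/UE: the step family (D2) for the exact split potential, `s ∈ [0.45, 0.62]`
-/

set_option autoImplicit false
set_option maxHeartbeats 1000000
set_option linter.unusedVariables false

namespace Crest.Agent.R307

open Set

/-- The inequality of family (D2), multiplied by `1 + t²`. -/
def FD2 (ρ s t p0 p1 : ℝ) : Prop :=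
  (1 + t ^ 2) * ((1 + s / 5) * Uex p0) +
    (1 - t) * (1 + t - s * (-17 / 100 + 93 / 100 * t + s * (1 / 10 + 3 / 25 * t))) * Uex p1 +
    s * (2 * t + 1 / 1250 - 73 / 5000 * (s - 1 / 2) - 43 / 10000 * t) * (p1 - p0) ≤ (1 + t ^ 2) * Tx ρ p0 p1

theorem quadD2 {A B C t : ℝ} (t0 : 17 / 25 ≤ t) (t1 : t ≤ 1)
    (h : (0 < C ∧ 0 < 4 * (A * C) - B * B) ∨ (0 < C ∧ 0 < 34 / 25 * C - B ∧ 0 < A - 17 / 25 * B + 289 / 625 * C) ∨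
      (0 < C ∧ 0 < B - 2 * C ∧ 0 < A - B + C)) : 0 ≤ A - B * t + C * t ^ 2 := by
  rcases h with ⟨c, b⟩ | ⟨c, b, a⟩ | ⟨c, b, a⟩
  · have : 0 ≤ C * (A - B * t + C * t ^ 2) := by nlinarith [sq_nonneg (2 * C * t - B)]
    exact nonneg_of_mul_nonneg_right this c |> fun h => h
  · have e : 0 ≤ t - 17 / 25 := by linarith
    nlinarith [mul_nonneg e b.le, mul_nonneg (sq_nonneg (t - 17 / 25)) c.le]
  · have e : 0 ≤ 1 - t := by linarith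
    nlinarith [mul_nonneg e b.le, mul_nonneg (sq_nonneg (1 - t)) c.le]

theorem ud2_rho {ρ s : ℝ} (hρ0 : 0 ≤ ρ) (hs : s ^ 2 = 1 - ρ ^ 2) : √(1 - s * s) = ρ := by
  rw [show 1 - s * s = ρ ^ 2 by linarith, Real.sqrt_sq hρ0]

theorem ud2_P {ρ s t T c : ℝ} (hρ0 : 0 ≤ ρ) (hρ1 : ρ ≤ 1) (hs : s ^ 2 = 1 - ρ ^ 2) (s0 : 9 / 20 ≤ s)
    (s1 : s ≤ 31 / 50) (ht0 : 17 / 25 ≤ t) (ht1 : t ≤ 1) (T0 : 0 < T) (T1 : T ≤ 18 / 25) (c0 : 0 ≤ c) (c1 : c ≤ 1) :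
    FD2 ρ s t ((c * T) ^ 2) (T ^ 2) := by
  have Q := UEP.main T c s T0.le T1 c0 c1 s0 s1
  have hr : UEP.rh T c s = ρ := ud2_rho hρ0 hs
  have cT : c * T ≤ T := mul_le_of_le_one_left T0.le c1
  have cT0 : 0 ≤ c * T := mul_nonneg c0 T0.le
  have cc : c * c ≤ 1 := by nlinarith
  have cc0 : 0 ≤ c * c := mul_self_nonneg c
  have TT : T * T ≤ 1 := by nlinarith
  have TT0 : 0 ≤ T * T := mul_self_nonneg T
  have eX : UEP.X2 T c s = (1 + ρ) / 2 + (1 - ρ) / 2 * (c * c) := by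
    simp only [UEP.X2, UEP.al, UEP.ep, UEP.c2, hr]
  have eY : UEP.Y2 T c s = (1 - ρ) / 2 + (1 + ρ) / 2 * (c * c) := by
    simp only [UEP.Y2, UEP.al, UEP.ep, UEP.c2, hr]
  have X0 : 0 ≤ UEP.X2 T c s := by rw [eX]; nlinarith
  have X1 : UEP.X2 T c s ≤ 1 := by rw [eX]; nlinarith
  have Y0 : 0 ≤ UEP.Y2 T c s := by rw [eY]; nlinarith
  have Y1 : UEP.Y2 T c s ≤ 1 := by rw [eY]; nlinarith
  have gx2 : UEP.gx T c s ^ 2 = UEP.X2 T c s := Real.sq_sqrt X0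
  have gy2 : UEP.gy T c s ^ 2 = UEP.Y2 T c s := Real.sq_sqrt Y0
  have gx0 : 0 ≤ UEP.gx T c s := Real.sqrt_nonneg _
  have gy0 : 0 ≤ UEP.gy T c s := Real.sqrt_nonneg _
  have ex : UEP.rx T c s ^ 2 + (T * UEP.gx T c s) ^ 2 = 1 := by
    rw [UEP.rx, Real.sq_sqrt (by simp only [UEP.T2]; nlinarith), mul_pow, gx2]; simp only [UEP.T2]; ring
  have ey : UEP.ry T c s ^ 2 + (T * UEP.gy T c s) ^ 2 = 1 := by
    rw [UEP.ry, Real.sq_sqrt (by simp only [UEP.T2]; nlinarith), mul_pow, gy2]; simp only [UEP.T2]; ring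
  have e0 : UEP.r0 T c s ^ 2 + (c * T) ^ 2 = 1 := by
    rw [UEP.r0, Real.sq_sqrt (by simp only [UEP.c2, UEP.T2]; nlinarith)]; simp only [UEP.c2, UEP.T2]; ring
  have e1 : UEP.r1 T c s ^ 2 + T ^ 2 = 1 := by
    rw [UEP.r1, Real.sq_sqrt (by simp only [UEP.T2]; nlinarith)]; simp only [UEP.T2]; ring
  have ux : Uex ((1 + ρ) / 2 * T ^ 2 + (1 - ρ) / 2 * (c * T) ^ 2) = T ^ 2 * (UEP.X2 T c s * UEP.Wx T c s) := by
    rw [show (1 + ρ) / 2 * T ^ 2 + (1 - ρ) / 2 * (c * T) ^ 2 = (T * UEP.gx T c s) ^ 2 by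
      rw [mul_pow T, gx2, eX]; ring, uex_t (Real.sqrt_nonneg _) (mul_nonneg T0.le gx0) ex, mul_pow, gx2]
    simp only [UEP.Wx, UEP.rx]; ring
  have uy : Uex ((1 + ρ) / 2 * (c * T) ^ 2 + (1 - ρ) / 2 * T ^ 2) = T ^ 2 * (UEP.Y2 T c s * UEP.Wy T c s) := by
    rw [show (1 + ρ) / 2 * (c * T) ^ 2 + (1 - ρ) / 2 * T ^ 2 = (T * UEP.gy T c s) ^ 2 by
      rw [mul_pow T, gy2, eY]; ring, uex_t (Real.sqrt_nonneg _) (mul_nonneg T0.le gy0) ey, mul_pow, gy2]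
    simp only [UEP.Wy, UEP.ry]; ring
  have u0 : Uex ((c * T) ^ 2) = T ^ 2 * (UEP.c2 T c s * UEP.W0 T c s) := by
    rw [uex_t (Real.sqrt_nonneg _) cT0 e0]; simp only [UEP.W0, UEP.c2, UEP.r0]; ring
  have u1 : Uex (T ^ 2) = T ^ 2 * UEP.W1 T c s := by
    rw [uex_t (Real.sqrt_nonneg _) T0.le e1]; simp only [UEP.W1, UEP.r1]
  have k := quadD2 ht0 ht1 Q
  simp only [UEP.A, UEP.B, UEP.C, UEP.G, UEP.pp, UEP.qq, UEP.sd] at k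
  unfold FD2 Tx
  rw [ux, uy, u0, u1]
  have := mul_nonneg (sq_nonneg T) k
  simp only [UEP.c2] at this ⊢
  linear_combination this

theorem ud2_Q {ρ s t u R t0 ta t1 : ℝ} (hρ0 : 0 ≤ ρ) (hρ1 : ρ ≤ 1) (hs : s ^ 2 = 1 - ρ ^ 2) (s0 : 9 / 20 ≤ s)
    (s1 : s ≤ 31 / 50) (ht0 : 17 / 25 ≤ t) (ht1 : t ≤ 1) (u0 : 0 ≤ u) (u1 : u ≤ 1)
    (eR : 2 * (1 / (1 + u * u)) - 1 = R)
    (et : 2 * u * (1 / (1 + u * u)) = t0) (R0 : 0 < R) (t00 : 0 ≤ t0) (e0 : R ^ 2 + t0 ^ 2 = 1) (ta0 : 0 ≤ ta)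
    (ta1 : ta ≤ 1) (r7 : R * ta ≤ 7 / 10) (t10 : 0 < t1) (e1 : (R * ta) ^ 2 + t1 ^ 2 = 1) :
    FD2 ρ s t (t0 ^ 2) (t1 ^ 2) := by
  have Q := UEQ.main u ta s u0 u1 ta0 ta1 s0 s1
  have hr : UEQ.rh u ta s = ρ := ud2_rho hρ0 hs
  have hR : UEQ.R u ta s = R := eR
  have h0 : UEQ.t0 u ta s = t0 := et
  have h1 : UEQ.t1 u ta s = t1 := by
    rw [UEQ.t1, UEQ.r1, hR, show 1 - R * ta * (R * ta) = t1 ^ 2 by linarith, Real.sqrt_sq t10.le]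
  have aa : ta * ta ≤ 1 := by nlinarith
  have aa0 : 0 ≤ ta * ta := mul_self_nonneg ta
  have RR : R * R ≤ 1 := by nlinarith [sq_nonneg t0]
  have RR0 : 0 ≤ R * R := mul_self_nonneg R
  have eX : UEQ.X2 u ta s = (1 - ρ) / 2 + (1 + ρ) / 2 * (ta * ta) := by
    simp only [UEQ.X2, UEQ.al, UEQ.ep, UEQ.a2, hr]
  have eY : UEQ.Y2 u ta s = (1 + ρ) / 2 + (1 - ρ) / 2 * (ta * ta) := by
    simp only [UEQ.Y2, UEQ.al, UEQ.ep, UEQ.a2, hr]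
  have X0 : 0 ≤ UEQ.X2 u ta s := by rw [eX]; nlinarith
  have X1 : UEQ.X2 u ta s ≤ 1 := by rw [eX]; nlinarith
  have Y0 : 0 ≤ UEQ.Y2 u ta s := by rw [eY]; nlinarith
  have gx2 : UEQ.gx u ta s ^ 2 = UEQ.X2 u ta s := Real.sq_sqrt X0
  have gy2 : UEQ.gy u ta s ^ 2 = UEQ.Y2 u ta s := Real.sq_sqrt Y0
  have gx0 : 0 ≤ UEQ.gx u ta s := Real.sqrt_nonneg _
  have gy0 : 0 ≤ UEQ.gy u ta s := Real.sqrt_nonneg _
  have tx2 : UEQ.tx u ta s ^ 2 = (1 + ρ) / 2 * t1 ^ 2 + (1 - ρ) / 2 * t0 ^ 2 := by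
    rw [UEQ.tx, Real.sq_sqrt (by simp only [UEQ.R2, hR]; nlinarith), eX]
    simp only [UEQ.R2, hR]
    linear_combination (-(1 + ρ) / 2) * e1 - (1 - ρ) / 2 * e0
  have ty2 : UEQ.ty u ta s ^ 2 = (1 + ρ) / 2 * t0 ^ 2 + (1 - ρ) / 2 * t1 ^ 2 := by
    have : 0 ≤ (1 - ρ) / 2 * (R * R * (1 - ta * ta)) :=
      mul_nonneg (by linarith) (mul_nonneg RR0 (by linarith))
    rw [UEQ.ty]
    simp only [UEQ.R2, UEQ.ep, UEQ.d, UEQ.a2, hR, h0, hr]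
    rw [Real.sq_sqrt (add_nonneg (mul_self_nonneg t0) this)]
    linear_combination (1 - ρ) / 2 * e0 - (1 - ρ) / 2 * e1
  have ex : UEQ.rx u ta s ^ 2 + UEQ.tx u ta s ^ 2 = 1 := by
    rw [tx2, UEQ.rx, hR, mul_pow, gx2, eX]
    linear_combination (1 + ρ) / 2 * e1 + (1 - ρ) / 2 * e0
  have ey : UEQ.ry u ta s ^ 2 + UEQ.ty u ta s ^ 2 = 1 := by
    rw [ty2, UEQ.ry, hR, mul_pow, gy2, eY]
    linear_combination (1 - ρ) / 2 * e1 + (1 + ρ) / 2 * e0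
  have rx0 : 0 ≤ UEQ.rx u ta s := by rw [UEQ.rx, hR]; exact mul_nonneg R0.le gx0
  have ry0 : 0 ≤ UEQ.ry u ta s := by rw [UEQ.ry, hR]; exact mul_nonneg R0.le gy0
  have ux : Uex ((1 + ρ) / 2 * t1 ^ 2 + (1 - ρ) / 2 * t0 ^ 2) = R * (UEQ.gx u ta s * UEQ.Vx u ta s) := by
    rw [← tx2, uex_r (t := UEQ.tx u ta s) rx0 (Real.sqrt_nonneg _) ex, UEQ.Vx, ← mul_assoc, ← hR]; rfl
  have uy : Uex ((1 + ρ) / 2 * t0 ^ 2 + (1 - ρ) / 2 * t1 ^ 2) = R * (UEQ.gy u ta s * UEQ.Vy u ta s) := by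
    rw [← ty2, uex_r (t := UEQ.ty u ta s) ry0 (Real.sqrt_nonneg _) ey, UEQ.Vy, ← mul_assoc, ← hR]; rfl
  have r10 : 0 ≤ R * ta := mul_nonneg R0.le ta0
  have w0 : Uex (t0 ^ 2) = R * UEQ.V0 u ta s := by
    rw [uex_r R0.le t00 e0]; simp only [UEQ.V0, hR, h0]
  have w1 : Uex (t1 ^ 2) = R * UEQ.V1 u ta s := by
    rw [uex_r r10 t10.le e1]; simp only [UEQ.V1, UEQ.U1, UEQ.r1, hR, h1]; ring
  have k := quadD2 (A := UEQ.A u ta s) (B := UEQ.B u ta s) (C := UEQ.C u ta s) ht0 ht1 (by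
    rcases Q with h | h | h | h
    · exact Or.inl h
    · exact Or.inr (Or.inl h)
    · exact Or.inr (Or.inr h)
    · rw [UEQ.r1, hR] at h; linarith)
  simp only [UEQ.A, UEQ.B, UEQ.C, UEQ.G, UEQ.pp, UEQ.qq, UEQ.sd, UEQ.d, UEQ.a2, hR] at k
  unfold FD2 Tx
  rw [ux, uy, w0, w1, show t1 ^ 2 - t0 ^ 2 = R ^ 2 * (1 - ta ^ 2) by linarith]
  have := mul_nonneg R0.le k
  linear_combination this

theorem ud2_all {ρ s t : ℝ} (hρ0 : 0 ≤ ρ) (hρ1 : ρ ≤ 1) (hs : s ^ 2 = 1 - ρ ^ 2) (s0 : 9 / 20 ≤ s)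
    (s1 : s ≤ 31 / 50) (ht0 : 17 / 25 ≤ t) (ht1 : t ≤ 1) (p0 p1 : ℝ) (h0 : 0 ≤ p0) (h01 : p0 ≤ p1) (h1 : p1 ≤ 1) :
    FD2 ρ s t p0 p1 := by
  refine step_charts (F := FD2 ρ s t) ?_ ?_ (fun T c a b c' d => ud2_P hρ0 hρ1 hs s0 s1 ht0 ht1 a b c' d)
    (fun u R t0 ta t1 a b c d e' f g h i j k l => ud2_Q hρ0 hρ1 hs s0 s1 ht0 ht1 a b c d e' f g h i j k l)
    p0 p1 h0 h01 h1
  · simp [FD2, Tx, Uex_zero]
  · simp [FD2, Tx, Uex_one, show (1 + ρ) / 2 + (1 - ρ) / 2 = 1 by ring]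

/-- Family (D2). -/
theorem ustepD2 {ρ s t : ℝ} (hρ0 : 0 ≤ ρ) (hρ1 : ρ ≤ 1) (hs : s ^ 2 = 1 - ρ ^ 2) (s0 : 9 / 20 ≤ s)
    (s1 : s ≤ 31 / 50) (ht0 : 17 / 25 ≤ t) (ht1 : t ≤ 1) :
    UStep ρ Uex (1 + s / 5)
      ((1 - t) * (1 + t - s * (-17 / 100 + 93 / 100 * t + s * (1 / 10 + 3 / 25 * t))) / (1 + t ^ 2))
      (s * (2 * t + 1 / 1250 - 73 / 5000 * (s - 1 / 2) - 43 / 10000 * t) / (1 + t ^ 2)) := by
  have d : 0 < 1 + t ^ 2 := by positivity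
  refine ⟨by linarith, div_nonneg (mul_nonneg (by linarith) ?_) d.le, fun p0 p1 h0 h01 h1 => ?_⟩
  · have a : s * (1 / 10 + 3 / 25 * t) ≤ 1 / 5 := by nlinarith
    have b : s * (-17 / 100 + 93 / 100 * t + s * (1 / 10 + 3 / 25 * t)) ≤ s * 1 :=
      mul_le_mul_of_nonneg_left (by linarith) (by linarith)
    linarith
  · have k := ud2_all hρ0 hρ1 hs s0 s1 ht0 ht1 p0 p1 h0 h01 h1
    unfold FD2 Tx at k
    refine le_of_mul_le_mul_left ?_ d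
    refine le_trans (le_of_eq ?_) k
    field_simp

end Crest.Agent.R307
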