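import Crest.Agent.R307.HP

/-!
# R307/UDa: algebra for the pointwise family (D) of the exact split potential
-/

set_option autoImplicit false

namespace Crest.Agent.R307

theorem ud_diff {x y N : ℝ} (h : 0 < x + y) (e : x ^ 2 - y ^ 2 = N) : x - y = N / (x + y) := by
  rw [eq_div_iff h.ne', ← e]; ring

theorem ud_quad {A B C c0 c1 u : ℝ} (e1 : c1 = C + 9 / 40 * B) (e0 : c0 = C + 9 / 20 * B + 81 / 400 * A)
    (h : (0 < c0 ∧ 0 < c0 * C - c1 ^ 2) ∨ (0 ≤ C ∧ 0 < c0 ∧ 0 < c1)) (u0 : 0 ≤ u) (u1 : u ≤ 9 / 20) :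
    0 ≤ C + B * u + A * u ^ 2 := by
  obtain ⟨τ, hτ⟩ : ∃ τ : ℝ, u = 9 / 20 * τ := ⟨20 / 9 * u, by ring⟩
  have t0 : 0 ≤ τ := by linarith
  have t1 : 0 ≤ 1 - τ := by linarith
  have e : C + B * u + A * u ^ 2 = C * (1 - τ) ^ 2 + 2 * c1 * (τ * (1 - τ)) + c0 * τ ^ 2 := by
    rw [e1, e0, hτ]; ring
  rw [e]
  rcases h with ⟨a, b⟩ | ⟨a, b, c⟩
  · have : 0 ≤ c0 * (C * (1 - τ) ^ 2 + 2 * c1 * (τ * (1 - τ)) + c0 * τ ^ 2) := by
      have k : c0 * (C * (1 - τ) ^ 2 + 2 * c1 * (τ * (1 - τ)) + c0 * τ ^ 2) =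
        (c0 * τ + c1 * (1 - τ)) ^ 2 + (c0 * C - c1 ^ 2) * (1 - τ) ^ 2 := by ring
      rw [k]; positivity
    exact le_of_mul_le_mul_left (by simpa using this) a
  · have := mul_nonneg t0 t1
    positivity

/-- `U = r (1 - r) (2 + r / (1 + v))` with `r = √(1-p)`, `v = √p`. -/
theorem ud_U {r v : ℝ} (hv : 0 ≤ v) (h : r ^ 2 + v ^ 2 = 1) :
    v * r + r - v + 2 * v ^ 2 - 1 = r * (1 - r) * (2 + r / (1 + v)) := by
  have : 1 + v ≠ 0 := by positivity
  field_simp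
  linear_combination (2 * v + 1 + r) * h

theorem ud_Uex {p r v : ℝ} (hr : 0 ≤ r) (hv : 0 ≤ v) (h1 : p = v ^ 2) (h2 : 1 - p = r ^ 2) :
    Uex p = v * r + r - v + 2 * v ^ 2 - 1 := by
  unfold Uex
  rw [h2, Real.sqrt_sq hr]
  nth_rewrite 1 [h1]
  nth_rewrite 2 [h1]
  rw [Real.sqrt_sq hv, h1, Real.sqrt_sq hv]

theorem ud_triv {s R r v U0 U1 : ℝ} (s0 : 0 ≤ s) (s1 : s ≤ 14 / 25) (R1 : R ≤ 1) (r0 : 0 ≤ r) (rR : r ≤ R)
    (v0 : 0 ≤ v) (hv : r ^ 2 + v ^ 2 = 1) (h0 : U0 ≤ 3 * (R * (1 - R))) (h1 : U1 = r * (1 - r) * (2 + r / (1 + v)))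
    (h : 13 / 10 * (s * R) ≤ r) : s * (2 * (R ^ 2 - r ^ 2) + 7 / 25 * U0) ≤ 11 / 10 * U1 := by
  have R0 : 0 ≤ R := r0.trans rR
  have r1 : 0 ≤ 1 - r := by linarith
  have k1 : 2 * (R ^ 2 - r ^ 2) + 7 / 25 * U0 ≤ 2 * (R * ((1 - r) * (1 + r))) := by
    have a := mul_nonneg R0 (sub_nonneg.2 R1)
    have b := mul_nonneg (sq_nonneg r) (sub_nonneg.2 R1)
    nlinarith
  refine (mul_le_mul_of_nonneg_left k1 s0).trans ?_
  have k2 : ∀ c : ℝ, 0 < c → v ≤ c → r / (1 + c) ≤ r / (1 + v) := fun c c0 hc =>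
    div_le_div_of_nonneg_left r0 (by positivity) (by linarith)
  have k3 : 2 * (s * R) * (1 + r) ≤ 11 / 10 * (r * (2 + r / (1 + v))) := by
    rcases le_total r (29 / 40) with a | a
    · have : 20 / 13 * (1 + r) ≤ 11 / 10 * (2 + r / (1 + v)) := by
        rcases le_total r (33 / 50) with b | b
        · have := k2 1 one_pos (by nlinarith)
          linarith
        · have := k2 (7513 / 10000) (by norm_num) (by nlinarith)
          have e : r / (1 + 7513 / 10000) = 10000 / 17513 * r := by ring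
          linarith
      have := mul_le_mul_of_nonneg_left this r0
      have := mul_le_mul_of_nonneg_right h (show 0 ≤ 1 + r by linarith)
      nlinarith
    · have := k2 (6888 / 10000) (by norm_num) (by nlinarith)
      have e : r / (1 + 6888 / 10000) = 10000 / 16888 * r := by ring
      have sR : s * R ≤ 14 / 25 := by nlinarith
      have := mul_le_mul_of_nonneg_right sR (show 0 ≤ 1 + r by linarith)
      have := mul_le_mul_of_nonneg_left (e ▸ k2 (6888 / 10000) (by norm_num) (by nlinarith)) r0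
      nlinarith
  have := mul_le_mul_of_nonneg_left k3 r1
  rw [h1]
  linarith

theorem ud_G1 {e o be d sd z vb ka : ℝ} (e0 : 0 < e) (d0 : 0 < d) (hd : d = 1 - e ^ 2 * o ^ 2)
    (be0 : 0 < be) (hbe : be ^ 2 = 1 - e ^ 2) (sd0 : 0 < sd) (hsd : sd ^ 2 = d) (z0 : 0 < z) (hz : z ^ 2 = o ^ 2 + d)
    (vb0 : 0 < vb) (hvb : vb ^ 2 = 1 - e ^ 2 * (o ^ 2 + d)) (ka0 : 0 < ka) (hka : ka ^ 2 = 1 - e ^ 2 * d) :
    z * (1 + vb) + e * (o ^ 2 + d) / (1 + vb) - 2 * e * o ^ 2 - e * d * (1 + e * sd) / (1 + ka) - 2 * be * d =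
      o ^ 2 * ((1 - e ^ 2) * d / (z * vb + be * d) + e ^ 2 * sd / (ka + be * sd) - 2 * e + e / (ka + vb) + 1 / (z + sd)) := by
  have a1 : 1 - vb = e ^ 2 * (o ^ 2 + d) / (1 + vb) := ud_diff (by positivity) (by linarith)
  have a2 : 1 - ka = e ^ 2 * d / (1 + ka) := ud_diff (by positivity) (by linarith)
  have a3 : z - sd = o ^ 2 / (z + sd) := ud_diff (by positivity) (by linarith)
  have a4 : ka - vb = e ^ 2 * o ^ 2 / (ka + vb) := ud_diff (by positivity) (by linarith)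
  have a5 : z * vb - be * d = o ^ 2 * ((1 - e ^ 2) * d) / (z * vb + be * d) := ud_diff (by positivity) (by
    rw [mul_pow, mul_pow, hz, hvb, hbe, hd]; ring)
  have a6 : ka - be * sd = e ^ 2 * o ^ 2 / (ka + be * sd) := ud_diff (by positivity) (by
    rw [mul_pow, hka, hbe, hsd, hd]; ring)
  apply mul_left_cancel₀ e0.ne'
  have b1 : e * (e * (o ^ 2 + d) / (1 + vb)) = 1 - vb := by rw [a1]; ring
  have b2 : e * (e * d * (1 + e * sd) / (1 + ka)) = (1 - ka) * (1 + e * sd) := by rw [a2]; ring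
  have b3 : o ^ 2 * (1 / (z + sd)) = z - sd := by rw [a3]; ring
  have b4 : e * (o ^ 2 * (e / (ka + vb))) = ka - vb := by rw [a4]; ring
  have b5 : o ^ 2 * ((1 - e ^ 2) * d / (z * vb + be * d)) = z * vb - be * d := by rw [a5]; ring
  have b6 : o ^ 2 * (e ^ 2 * sd / (ka + be * sd)) = sd * (ka - be * sd) := by rw [a6]; ring
  linear_combination b1 - b2 - e * b3 - b4 - e * b5 - e * b6 + e * be * hsd

theorem ud_G2 {e o be d sd z zz vb ka vx R a g E : ℝ} (vb0 : 0 < vb) (vx0 : 0 < vx)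
    (hv : vx = vb + a ^ 2 * E) (hR : R = 1 - a ^ 2 * g) :
    z * (1 + vx) + e * R * (zz / (1 + vx) - 2 * o ^ 2) - e * d * (1 + e * R * sd) / (1 + ka) - 2 * be * R * d =
      (z * (1 + vb) + e * zz / (1 + vb) - 2 * e * o ^ 2 - e * d * (1 + e * sd) / (1 + ka) - 2 * be * d) +
      a ^ 2 * (E * z - e * zz * (E / (1 + vb) + g) / (1 + vx) +
        g * (2 * (e * o ^ 2) + e ^ 2 * d * sd / (1 + ka) + 2 * (be * d))) := by
  have k : R / (1 + vx) = 1 / (1 + vb) - a ^ 2 * ((E / (1 + vb) + g) / (1 + vx)) := by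
    have : 1 + vx ≠ 0 := by positivity
    have : 1 + vb ≠ 0 := by positivity
    field_simp
    linear_combination (1 + vb) * hR - hv
  have k2 : e * R * (zz / (1 + vx)) = e * zz * (R / (1 + vx)) := by ring
  rw [mul_sub, k2, k]
  linear_combination z * hv + (-2 * e * o ^ 2 - e ^ 2 * d * sd / (1 + ka) - 2 * be * d) * hR

end Crest.Agent.R307
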