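import Crest.Agent.R307.UDa

/-!
# R307/UDb: the lower bound for `U x + U y - U p0 - s δ` in the chart of family (D)
-/

set_option autoImplicit false

namespace Crest.Agent.R307

theorem ud_M {a R m hh Yt Y : ℝ} (a0 : 0 ≤ a) (R0 : 0 < R) (m0 : 0 < m) (hm : m ≤ hh) (Yt0 : 0 ≤ Yt)
    (hYt : Yt ^ 2 = a ^ 2 + (R * m) ^ 2) (Y0 : 0 ≤ Y) (hY : Y ^ 2 = (R * hh) ^ 2 + a ^ 2) :
    m / (Yt + R * m) ≤ hh / (R * hh + Y) ∧ R * m / (Yt + a) ≤ R * hh / (Y + a) := by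
  have h0 : 0 < hh := m0.trans_le hm
  have Yt1 : 0 < Yt := by
    rcases Yt0.eq_or_lt with e | e
    · rw [← e] at hYt
      have := mul_pos R0 m0
      nlinarith
    · exact e
  have Y1 : 0 < Y := by
    rcases Y0.eq_or_lt with e | e
    · rw [← e] at hY
      have := mul_pos R0 h0
      nlinarith
    · exact e
  have k : m * Y ≤ hh * Yt := by
    refine abs_le_of_sq_le_sq' ?_ (by positivity) |>.2
    rw [mul_pow, mul_pow, hY, hYt]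
    have : m ^ 2 ≤ hh ^ 2 := pow_le_pow_left₀ m0.le hm 2
    nlinarith [mul_le_mul_of_nonneg_right this (sq_nonneg a)]
  constructor
  · rw [div_le_div_iff₀ (by positivity) (by positivity)]
    nlinarith
  · rw [div_le_div_iff₀ (by positivity) (by positivity)]
    have := mul_le_mul_of_nonneg_right hm a0
    nlinarith [mul_le_mul_of_nonneg_left k R0.le, mul_le_mul_of_nonneg_left this R0.le]

set_option maxHeartbeats 1000000 in
theorem ud_W {e o be d sd z vb ka vx R a g Yt M1 M2 G1 G2 : ℝ} (e0 : 0 < e) (d0 : 0 < d) (hd : d = 1 - e ^ 2 * o ^ 2)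
    (be0 : 0 < be) (hbe : be ^ 2 = 1 - e ^ 2) (sd0 : 0 < sd) (hsd : sd ^ 2 = d) (z0 : 0 < z) (hz : z ^ 2 = o ^ 2 + d)
    (vb0 : 0 < vb) (hvb : vb ^ 2 = 1 - e ^ 2 * (o ^ 2 + d)) (ka0 : 0 < ka) (hka : ka ^ 2 = 1 - e ^ 2 * d)
    (vx0 : 0 < vx) (hvx : vx ^ 2 = 1 - R ^ 2 * (e ^ 2 * (o ^ 2 + d))) (a0 : 0 ≤ a) (R0 : 0 < R) (haR : R ^ 2 + a ^ 2 = 1)
    (hg : g = 1 / (1 + R)) (Yt0 : 0 < Yt) (hYt : Yt ^ 2 = a ^ 2 + (R * (e * sd)) ^ 2)
    (h1 : e * sd / (Yt + R * (e * sd)) ≤ M1) (h2 : R * (e * sd) / (Yt + a) ≤ M2)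
    (hG1 : G1 = (1 - e ^ 2) * d / (z * vb + be * d) + e ^ 2 * sd / (ka + be * sd) - 2 * e + e / (ka + vb) + 1 / (z + sd))
    (hG2 : G2 = e ^ 2 * (o ^ 2 + d) * z / (vx + vb) -
      e * (o ^ 2 + d) * (e ^ 2 * (o ^ 2 + d) / ((vx + vb) * (1 + vb)) + g) / (1 + vx) +
      g * (2 * (e * o ^ 2) + e ^ 2 * d * sd / (1 + ka) + 2 * (be * d)) - sd * (M1 / (1 + ka) + M2 * g)) :
    e * R * (o ^ 2 * G1 + a ^ 2 * G2 + 2 * (be * (R * d))) ≤
      (vx * (e * R * z) + e * R * z - vx + 2 * vx ^ 2 - 1) + (Yt * (R * ka) + R * ka - Yt + 2 * Yt ^ 2 - 1) -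
        (a * R + R - a + 2 * a ^ 2 - 1) := by
  have g0 : 0 < g := by rw [hg]; positivity
  have hR : R = 1 - a ^ 2 * g := by
    have : 1 - R = a ^ 2 / (1 + R) := ud_diff (by positivity) (by linarith)
    rw [hg]; linear_combination -this
  have hv : vx = vb + a ^ 2 * (e ^ 2 * (o ^ 2 + d) / (vx + vb)) := by
    have : vx - vb = a ^ 2 * (e ^ 2 * (o ^ 2 + d)) / (vx + vb) := ud_diff (by positivity) (by
      rw [hvx, hvb]; linear_combination (-(e ^ 2 * (o ^ 2 + d))) * haR)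
    linear_combination this
  have k1 := ud_G1 e0 d0 hd be0 hbe sd0 hsd z0 hz vb0 hvb ka0 hka
  have k2 := ud_G2 (e := e) (o := o) (be := be) (d := d) (sd := sd) (z := z) (zz := o ^ 2 + d) (ka := ka) vb0 vx0 hv hR
  rw [k1, ← hG1, div_div] at k2
  have a1 : 1 - vx = R ^ 2 * (e ^ 2 * (o ^ 2 + d)) / (1 + vx) := ud_diff (by positivity) (by linarith)
  have a2 : 1 - ka = e ^ 2 * d / (1 + ka) := ud_diff (by positivity) (by linarith)
  have a3 : Yt - a = (R * (e * sd)) ^ 2 / (Yt + a) := ud_diff (by positivity) (by linarith)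
  have a4 : Yt - R * (e * sd) = a ^ 2 / (Yt + R * (e * sd)) := ud_diff (by positivity) (by linarith)
  obtain ⟨m1, hm1⟩ : ∃ m1, m1 = e * sd / (Yt + R * (e * sd)) := ⟨_, rfl⟩
  obtain ⟨m2, hm2⟩ : ∃ m2, m2 = R * (e * sd) / (Yt + a) := ⟨_, rfl⟩
  obtain ⟨i1, hi1⟩ : ∃ i1, i1 = 1 / (1 + vx) := ⟨_, rfl⟩
  obtain ⟨i3, hi3⟩ : ∃ i3, i3 = 1 / (1 + ka) := ⟨_, rfl⟩
  have i30 : 0 < i3 := by rw [hi3]; positivity
  have b1 : 1 - vx = R ^ 2 * (e ^ 2 * (o ^ 2 + d)) * i1 := by rw [a1, hi1]; ring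
  have b2 : 1 - ka = e ^ 2 * d * i3 := by rw [a2, hi3]; ring
  have b3 : Yt - a = R * (e * sd) * m2 := by rw [a3, hm2]; ring
  have b4 : e * sd * (Yt - R * (e * sd)) = a ^ 2 * m1 := by rw [a4, hm1]; ring
  rw [← hm1] at h1
  rw [← hm2] at h2
  have c1 := mul_le_mul_of_nonneg_left h1 (show 0 ≤ e * R * a ^ 2 * sd * i3 by positivity)
  have c2 := mul_le_mul_of_nonneg_left h2 (show 0 ≤ e * R * a ^ 2 * sd * g by positivity)
  have k3 : o ^ 2 * G1 + a ^ 2 * G2 + 2 * (be * (R * d)) =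
      z * (1 + vx) + e * R * ((o ^ 2 + d) * i1 - 2 * o ^ 2) - e * d * (1 + e * R * sd) * i3 -
        a ^ 2 * (sd * (M1 * i3 + M2 * g)) := by
    rw [hG2, hi1, hi3]
    linear_combination -k2
  rw [k3]
  have k4 : (vx * (e * R * z) + e * R * z - vx + 2 * vx ^ 2 - 1) + (Yt * (R * ka) + R * ka - Yt + 2 * Yt ^ 2 - 1) -
        (a * R + R - a + 2 * a ^ 2 - 1) =
      e * R * (z * (1 + vx) + e * R * ((o ^ 2 + d) * i1 - 2 * o ^ 2) - e * d * (1 + e * R * sd) * i3 -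
        a ^ 2 * (sd * (m1 * i3 + m2 * g))) := by
    linear_combination b1 + 2 * hvx + 2 * hYt - R * (1 + Yt) * b2 - (1 - R) * b3 + R * (e * sd) * m2 * hR -
      e * R * sd * i3 * b4 + (2 * R ^ 2 * e ^ 2 + R * e ^ 2 * i3 * (Yt - R * (e * sd))) * hsd
  rw [k4]
  linear_combination c1 + c2

end Crest.Agent.R307
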