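import Crest.Agent.R307.IA3
import Crest.Agent.R307.IAx
set_option autoImplicit false
set_option linter.unusedVariables false
set_option maxRecDepth 20000
namespace Crest.Agent.R307.UDc
open Crest.Agent.R307.IA Crest.Agent.R307.IA3

theorem In_cast {e1 e2 e3 : ℝ} {x y1 y2 y3 r : ℕ} {v w : ℝ}
    (h : In e1 e2 e3 x y1 y2 y3 r v) (e : v = w) : In e1 e2 e3 x y1 y2 y3 r w := e ▸ h

noncomputable def oo (w e o : ℝ) : ℝ := (o ^ 2)
noncomputable def ee (w e o : ℝ) : ℝ := (e ^ 2)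
noncomputable def d (w e o : ℝ) : ℝ := ((1:ℝ) - ((ee w e o) * (oo w e o)))
noncomputable def zz (w e o : ℝ) : ℝ := ((oo w e o) + (d w e o))
noncomputable def z (w e o : ℝ) : ℝ := (√(zz w e o))
noncomputable def vb (w e o : ℝ) : ℝ := (√((1:ℝ) - ((ee w e o) * (zz w e o))))
noncomputable def be (w e o : ℝ) : ℝ := (√((1:ℝ) - (ee w e o)))
noncomputable def sd (w e o : ℝ) : ℝ := (√(d w e o))
noncomputable def ka (w e o : ℝ) : ℝ := (√((1:ℝ) - ((ee w e o) * (d w e o))))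
noncomputable def G1 (w e o : ℝ) : ℝ := ((((((((1:ℝ) - (ee w e o)) * (d w e o)) / (((z w e o) * (vb w e o)) + ((be w e o) * (d w e o)))) + (((ee w e o) * (sd w e o)) / ((ka w e o) + ((be w e o) * (sd w e o))))) - ((2:ℝ) * e)) + (e / ((ka w e o) + (vb w e o)))) + ((1:ℝ) / ((z w e o) + (sd w e o))))
noncomputable def a (w e o : ℝ) : ℝ := (((2:ℝ) * w) / ((1:ℝ) + (w ^ 2)))
noncomputable def R (w e o : ℝ) : ℝ := (((1:ℝ) - (w ^ 2)) / ((1:ℝ) + (w ^ 2)))
noncomputable def vx (w e o : ℝ) : ℝ := (√((1:ℝ) - (((R w e o) ^ 2) * ((ee w e o) * (zz w e o)))))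
noncomputable def g (w e o : ℝ) : ℝ := ((1:ℝ) / ((1:ℝ) + (R w e o)))
noncomputable def hh (w e o : ℝ) : ℝ := ((1/10:ℝ) + ((33/50:ℝ) * (e * (sd w e o))))
noncomputable def Y (w e o : ℝ) : ℝ := (√((((R w e o) * (hh w e o)) ^ 2) + ((a w e o) ^ 2)))
noncomputable def M1 (w e o : ℝ) : ℝ := ((hh w e o) / (((R w e o) * (hh w e o)) + (Y w e o)))
noncomputable def M2 (w e o : ℝ) : ℝ := (((R w e o) * (hh w e o)) / ((Y w e o) + (a w e o)))
noncomputable def G2 (w e o : ℝ) : ℝ := (((((((ee w e o) * (zz w e o)) * (z w e o)) / ((vx w e o) + (vb w e o))) - (((e * (zz w e o)) * ((((ee w e o) * (zz w e o)) / (((vx w e o) + (vb w e o)) * ((1:ℝ) + (vb w e o)))) + (g w e o))) / ((1:ℝ) + (vx w e o)))) + ((g w e o) * ((((2:ℝ) * (e * (oo w e o))) + ((((ee w e o) * (d w e o)) * (sd w e o)) / ((1:ℝ) + (ka w e o)))) + ((2:ℝ) * ((be w e o) * (d w e o)))))) - ((sd w e o) * (((M1 w e o) / ((1:ℝ) + (ka w e o))) + ((M2 w e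 o) * (g w e o)))))
noncomputable def N0 (w e o : ℝ) : ℝ := ((be w e o) * (((2:ℝ) + ((R w e o) / ((1:ℝ) + (a w e o)))) * (g w e o)))
noncomputable def G3 (w e o : ℝ) : ℝ := (((2:ℝ) * (G2 w e o)) - ((13/50:ℝ) * (N0 w e o)))
noncomputable def C (w e o : ℝ) : ℝ := (((2:ℝ) * ((oo w e o) * (G1 w e o))) + (((a w e o) ^ 2) * (G3 w e o)))
noncomputable def Ga (w e o : ℝ) : ℝ := (((oo w e o) * (G1 w e o)) + (((a w e o) ^ 2) * (G2 w e o)))
noncomputable def v1 (w e o : ℝ) : ℝ := (√((1:ℝ) - (((R w e o) ^ 2) * ((ee w e o) * (oo w e o)))))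
noncomputable def U1 (w e o : ℝ) : ℝ := ((o * ((1:ℝ) + (v1 w e o))) - (((e * (R w e o)) * (oo w e o)) * ((2:ℝ) - ((1:ℝ) / ((1:ℝ) + (v1 w e o))))))
noncomputable def s (w e o : ℝ) : ℝ := ((2:ℝ) * (e * (be w e o)))
noncomputable def B (w e o : ℝ) : ℝ := (((((1/125:ℝ) * ((be w e o) * ((R w e o) * (d w e o)))) - ((2:ℝ) * (Ga w e o))) - ((U1 w e o) * ((2:ℝ) - ((s w e o) * ((19/25:ℝ) + ((11/50:ℝ) * (s w e o))))))) - ((12/25:ℝ) * (((a w e o) ^ 2) * (N0 w e o))))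
noncomputable def A (w e o : ℝ) : ℝ := ((((Ga w e o) + ((2:ℝ) * ((be w e o) * ((R w e o) * (d w e o))))) + ((U1 w e o) * ((1:ℝ) - ((s w e o) * ((93/100:ℝ) + ((3/25:ℝ) * (s w e o))))))) + ((21/25:ℝ) * (((a w e o) ^ 2) * (N0 w e o))))
noncomputable def c0 (w e o : ℝ) : ℝ := (((C w e o) + ((9/20:ℝ) * (B w e o))) + ((81/400:ℝ) * (A w e o)))
noncomputable def c1 (w e o : ℝ) : ℝ := ((C w e o) + ((9/40:ℝ) * (B w e o)))

def Q (w e o : ℝ) : Prop :=
  (
  (0 < (c0 w e o) ∧ 0 < (((c0 w e o) * (C w e o)) - ((c1 w e o) ^ 2))) ∨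
  (0 < (G1 w e o) ∧ 0 < (G3 w e o) ∧ 0 < (c0 w e o) ∧ 0 < (c1 w e o)))

noncomputable def alt0 (z1 w1 z2 w2 z3 w3 : ℕ) : Bool :=
  sqK z3 1152921504606846976 1152921504606846976 (Nat.add w3 1152921504606846976) 0 fun c1 a1_1 a1_2 a1_3 q1 =>
  sqK z2 1152921504606846976 (Nat.add w2 1152921504606846976) 1152921504606846976 0 fun c3 a3_1 a3_2 a3_3 q3 =>
  mulK c3 a3_1 a3_2 a3_3 q3 c1 a1_1 a1_2 a1_3 q1 fun c5 a5_1 a5_2 a5_3 q5 =>
  negK c5 a5_1 a5_2 a5_3 q5 fun c6 a6_1 a6_2 a6_3 q6 =>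
  addcK c6 a6_1 a6_2 a6_3 q6 1152922604118474752 0 fun c7 a7_1 a7_2 a7_3 q7 =>
  addK c1 a1_1 a1_2 a1_3 q1 c7 a7_1 a7_2 a7_3 q7 fun c10 a10_1 a10_2 a10_3 q10 =>
  sqrtK c10 a10_1 a10_2 a10_3 q10 fun c12 a12_1 a12_2 a12_3 q12 =>
  mulK c3 a3_1 a3_2 a3_3 q3 c10 a10_1 a10_2 a10_3 q10 fun c14 a14_1 a14_2 a14_3 q14 =>
  negK c14 a14_1 a14_2 a14_3 q14 fun c15 a15_1 a15_2 a15_3 q15 =>
  addcK c15 a15_1 a15_2 a15_3 q15 1152922604118474752 0 fun c16 a16_1 a16_2 a16_3 q16 =>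
  sqrtK c16 a16_1 a16_2 a16_3 q16 fun c18 a18_1 a18_2 a18_3 q18 =>
  mulK c12 a12_1 a12_2 a12_3 q12 c18 a18_1 a18_2 a18_3 q18 fun c20 a20_1 a20_2 a20_3 q20 =>
  negK c3 a3_1 a3_2 a3_3 q3 fun c21 a21_1 a21_2 a21_3 q21 =>
  addcK c21 a21_1 a21_2 a21_3 q21 1152922604118474752 0 fun c22 a22_1 a22_2 a22_3 q22 =>
  sqrtK c22 a22_1 a22_2 a22_3 q22 fun c24 a24_1 a24_2 a24_3 q24 =>
  mulK c24 a24_1 a24_2 a24_3 q24 c7 a7_1 a7_2 a7_3 q7 fun c26 a26_1 a26_2 a26_3 q26 =>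
  addK c20 a20_1 a20_2 a20_3 q20 c26 a26_1 a26_2 a26_3 q26 fun c27 a27_1 a27_2 a27_3 q27 =>
  invK c27 a27_1 a27_2 a27_3 q27 fun c28 a28_1 a28_2 a28_3 q28 =>
  mulK c22 a22_1 a22_2 a22_3 q22 c7 a7_1 a7_2 a7_3 q7 fun c29 a29_1 a29_2 a29_3 q29 =>
  mulK c29 a29_1 a29_2 a29_3 q29 c28 a28_1 a28_2 a28_3 q28 fun c30 a30_1 a30_2 a30_3 q30 =>
  mulK c3 a3_1 a3_2 a3_3 q3 c7 a7_1 a7_2 a7_3 q7 fun c32 a32_1 a32_2 a32_3 q32 =>
  negK c32 a32_1 a32_2 a32_3 q32 fun c33 a33_1 a33_2 a33_3 q33 =>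
  addcK c33 a33_1 a33_2 a33_3 q33 1152922604118474752 0 fun c34 a34_1 a34_2 a34_3 q34 =>
  sqrtK c34 a34_1 a34_2 a34_3 q34 fun c36 a36_1 a36_2 a36_3 q36 =>
  sqrtK c7 a7_1 a7_2 a7_3 q7 fun c38 a38_1 a38_2 a38_3 q38 =>
  mulK c24 a24_1 a24_2 a24_3 q24 c38 a38_1 a38_2 a38_3 q38 fun c40 a40_1 a40_2 a40_3 q40 =>
  addK c36 a36_1 a36_2 a36_3 q36 c40 a40_1 a40_2 a40_3 q40 fun c41 a41_1 a41_2 a41_3 q41 =>
  invK c41 a41_1 a41_2 a41_3 q41 fun c42 a42_1 a42_2 a42_3 q42 =>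
  mulK c3 a3_1 a3_2 a3_3 q3 c38 a38_1 a38_2 a38_3 q38 fun c43 a43_1 a43_2 a43_3 q43 =>
  mulK c43 a43_1 a43_2 a43_3 q43 c42 a42_1 a42_2 a42_3 q42 fun c44 a44_1 a44_2 a44_3 q44 =>
  addK c30 a30_1 a30_2 a30_3 q30 c44 a44_1 a44_2 a44_3 q44 fun c46 a46_1 a46_2 a46_3 q46 =>
  smulK 2 1 1152921504606846977 2305843009213693952 z2 1152921504606846976 (Nat.add w2 1152921504606846976) 1152921504606846976 0 fun c47 a47_1 a47_2 a47_3 q47 =>
  subK c46 a46_1 a46_2 a46_3 q46 c47 a47_1 a47_2 a47_3 q47 fun c48 a48_1 a48_2 a48_3 q48 =>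
  addK c36 a36_1 a36_2 a36_3 q36 c18 a18_1 a18_2 a18_3 q18 fun c49 a49_1 a49_2 a49_3 q49 =>
  invK c49 a49_1 a49_2 a49_3 q49 fun c50 a50_1 a50_2 a50_3 q50 =>
  mulK z2 1152921504606846976 (Nat.add w2 1152921504606846976) 1152921504606846976 0 c50 a50_1 a50_2 a50_3 q50 fun c51 a51_1 a51_2 a51_3 q51 =>
  addK c48 a48_1 a48_2 a48_3 q48 c51 a51_1 a51_2 a51_3 q51 fun c53 a53_1 a53_2 a53_3 q53 =>
  addK c12 a12_1 a12_2 a12_3 q12 c38 a38_1 a38_2 a38_3 q38 fun c54 a54_1 a54_2 a54_3 q54 =>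
  invK c54 a54_1 a54_2 a54_3 q54 fun c55 a55_1 a55_2 a55_3 q55 =>
  addK c53 a53_1 a53_2 a53_3 q53 c55 a55_1 a55_2 a55_3 q55 fun c57 a57_1 a57_2 a57_3 q57 =>
  mulK c1 a1_1 a1_2 a1_3 q1 c57 a57_1 a57_2 a57_3 q57 fun c59 a59_1 a59_2 a59_3 q59 =>
  smulK 2 1 1152921504606846977 2305843009213693952 c59 a59_1 a59_2 a59_3 q59 fun c60 a60_1 a60_2 a60_3 q60 =>
  sqK z1 (Nat.add w1 1152921504606846976) 1152921504606846976 1152921504606846976 0 fun c61 a61_1 a61_2 a61_3 q61 =>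
  addcK c61 a61_1 a61_2 a61_3 q61 1152922604118474752 0 fun c62 a62_1 a62_2 a62_3 q62 =>
  invK c62 a62_1 a62_2 a62_3 q62 fun c64 a64_1 a64_2 a64_3 q64 =>
  smulK 2 1 1152921504606846977 2305843009213693952 z1 (Nat.add w1 1152921504606846976) 1152921504606846976 1152921504606846976 0 fun c65 a65_1 a65_2 a65_3 q65 =>
  mulK c65 a65_1 a65_2 a65_3 q65 c64 a64_1 a64_2 a64_3 q64 fun c66 a66_1 a66_2 a66_3 q66 =>
  sqK c66 a66_1 a66_2 a66_3 q66 fun c69 a69_1 a69_2 a69_3 q69 =>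
  negK c61 a61_1 a61_2 a61_3 q61 fun c70 a70_1 a70_2 a70_3 q70 =>
  addcK c70 a70_1 a70_2 a70_3 q70 1152922604118474752 0 fun c71 a71_1 a71_2 a71_3 q71 =>
  mulK c71 a71_1 a71_2 a71_3 q71 c64 a64_1 a64_2 a64_3 q64 fun c73 a73_1 a73_2 a73_3 q73 =>
  sqK c73 a73_1 a73_2 a73_3 q73 fun c76 a76_1 a76_2 a76_3 q76 =>
  mulK c76 a76_1 a76_2 a76_3 q76 c14 a14_1 a14_2 a14_3 q14 fun c77 a77_1 a77_2 a77_3 q77 =>
  negK c77 a77_1 a77_2 a77_3 q77 fun c78 a78_1 a78_2 a78_3 q78 =>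
  addcK c78 a78_1 a78_2 a78_3 q78 1152922604118474752 0 fun c79 a79_1 a79_2 a79_3 q79 =>
  sqrtK c79 a79_1 a79_2 a79_3 q79 fun c81 a81_1 a81_2 a81_3 q81 =>
  addK c81 a81_1 a81_2 a81_3 q81 c18 a18_1 a18_2 a18_3 q18 fun c83 a83_1 a83_2 a83_3 q83 =>
  invK c83 a83_1 a83_2 a83_3 q83 fun c84 a84_1 a84_2 a84_3 q84 =>
  mulK c14 a14_1 a14_2 a14_3 q14 c12 a12_1 a12_2 a12_3 q12 fun c85 a85_1 a85_2 a85_3 q85 =>
  mulK c85 a85_1 a85_2 a85_3 q85 c84 a84_1 a84_2 a84_3 q84 fun c86 a86_1 a86_2 a86_3 q86 =>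
  addcK c81 a81_1 a81_2 a81_3 q81 1152922604118474752 0 fun c88 a88_1 a88_2 a88_3 q88 =>
  invK c88 a88_1 a88_2 a88_3 q88 fun c90 a90_1 a90_2 a90_3 q90 =>
  mulK z2 1152921504606846976 (Nat.add w2 1152921504606846976) 1152921504606846976 0 c10 a10_1 a10_2 a10_3 q10 fun c91 a91_1 a91_2 a91_3 q91 =>
  addcK c18 a18_1 a18_2 a18_3 q18 1152922604118474752 0 fun c92 a92_1 a92_2 a92_3 q92 =>
  mulK c83 a83_1 a83_2 a83_3 q83 c92 a92_1 a92_2 a92_3 q92 fun c94 a94_1 a94_2 a94_3 q94 =>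
  invK c94 a94_1 a94_2 a94_3 q94 fun c95 a95_1 a95_2 a95_3 q95 =>
  mulK c14 a14_1 a14_2 a14_3 q14 c95 a95_1 a95_2 a95_3 q95 fun c96 a96_1 a96_2 a96_3 q96 =>
  addcK c73 a73_1 a73_2 a73_3 q73 1152922604118474752 0 fun c98 a98_1 a98_2 a98_3 q98 =>
  invK c98 a98_1 a98_2 a98_3 q98 fun c100 a100_1 a100_2 a100_3 q100 =>
  addK c96 a96_1 a96_2 a96_3 q96 c100 a100_1 a100_2 a100_3 q100 fun c103 a103_1 a103_2 a103_3 q103 =>
  mulK c91 a91_1 a91_2 a91_3 q91 c103 a103_1 a103_2 a103_3 q103 fun c104 a104_1 a104_2 a104_3 q104 =>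
  mulK c104 a104_1 a104_2 a104_3 q104 c90 a90_1 a90_2 a90_3 q90 fun c105 a105_1 a105_2 a105_3 q105 =>
  subK c86 a86_1 a86_2 a86_3 q86 c105 a105_1 a105_2 a105_3 q105 fun c107 a107_1 a107_2 a107_3 q107 =>
  mulK z2 1152921504606846976 (Nat.add w2 1152921504606846976) 1152921504606846976 0 c1 a1_1 a1_2 a1_3 q1 fun c108 a108_1 a108_2 a108_3 q108 =>
  smulK 2 1 1152921504606846977 2305843009213693952 c108 a108_1 a108_2 a108_3 q108 fun c109 a109_1 a109_2 a109_3 q109 =>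
  addcK c36 a36_1 a36_2 a36_3 q36 1152922604118474752 0 fun c110 a110_1 a110_2 a110_3 q110 =>
  invK c110 a110_1 a110_2 a110_3 q110 fun c112 a112_1 a112_2 a112_3 q112 =>
  mulK c32 a32_1 a32_2 a32_3 q32 c38 a38_1 a38_2 a38_3 q38 fun c113 a113_1 a113_2 a113_3 q113 =>
  mulK c113 a113_1 a113_2 a113_3 q113 c112 a112_1 a112_2 a112_3 q112 fun c114 a114_1 a114_2 a114_3 q114 =>
  addK c109 a109_1 a109_2 a109_3 q109 c114 a114_1 a114_2 a114_3 q114 fun c116 a116_1 a116_2 a116_3 q116 =>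
  smulK 2 1 1152921504606846977 2305843009213693952 c26 a26_1 a26_2 a26_3 q26 fun c117 a117_1 a117_2 a117_3 q117 =>
  addK c116 a116_1 a116_2 a116_3 q116 c117 a117_1 a117_2 a117_3 q117 fun c118 a118_1 a118_2 a118_3 q118 =>
  mulK c100 a100_1 a100_2 a100_3 q100 c118 a118_1 a118_2 a118_3 q118 fun c119 a119_1 a119_2 a119_3 q119 =>
  addK c107 a107_1 a107_2 a107_3 q107 c119 a119_1 a119_2 a119_3 q119 fun c120 a120_1 a120_2 a120_3 q120 =>
  mulK z2 1152921504606846976 (Nat.add w2 1152921504606846976) 1152921504606846976 0 c38 a38_1 a38_2 a38_3 q38 fun c121 a121_1 a121_2 a121_3 q121 =>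
  smulK 33 50 57646075230342348850 38046409652025950208 c121 a121_1 a121_2 a121_3 q121 fun c122 a122_1 a122_2 a122_3 q122 =>
  addcK c122 a122_1 a122_2 a122_3 q122 1152921614558009754 1 fun c123 a123_1 a123_2 a123_3 q123 =>
  mulK c73 a73_1 a73_2 a73_3 q73 c123 a123_1 a123_2 a123_3 q123 fun c126 a126_1 a126_2 a126_3 q126 =>
  sqK c126 a126_1 a126_2 a126_3 q126 fun c127 a127_1 a127_2 a127_3 q127 =>
  addK c127 a127_1 a127_2 a127_3 q127 c69 a69_1 a69_2 a69_3 q69 fun c128 a128_1 a128_2 a128_3 q128 =>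
  sqrtK c128 a128_1 a128_2 a128_3 q128 fun c129 a129_1 a129_2 a129_3 q129 =>
  addK c126 a126_1 a126_2 a126_3 q126 c129 a129_1 a129_2 a129_3 q129 fun c131 a131_1 a131_2 a131_3 q131 =>
  invK c131 a131_1 a131_2 a131_3 q131 fun c132 a132_1 a132_2 a132_3 q132 =>
  mulK c123 a123_1 a123_2 a123_3 q123 c132 a132_1 a132_2 a132_3 q132 fun c133 a133_1 a133_2 a133_3 q133 =>
  mulK c133 a133_1 a133_2 a133_3 q133 c112 a112_1 a112_2 a112_3 q112 fun c136 a136_1 a136_2 a136_3 q136 =>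
  addK c129 a129_1 a129_2 a129_3 q129 c66 a66_1 a66_2 a66_3 q66 fun c138 a138_1 a138_2 a138_3 q138 =>
  invK c138 a138_1 a138_2 a138_3 q138 fun c139 a139_1 a139_2 a139_3 q139 =>
  mulK c126 a126_1 a126_2 a126_3 q126 c139 a139_1 a139_2 a139_3 q139 fun c140 a140_1 a140_2 a140_3 q140 =>
  mulK c140 a140_1 a140_2 a140_3 q140 c100 a100_1 a100_2 a100_3 q100 fun c143 a143_1 a143_2 a143_3 q143 =>
  addK c136 a136_1 a136_2 a136_3 q136 c143 a143_1 a143_2 a143_3 q143 fun c144 a144_1 a144_2 a144_3 q144 =>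
  mulK c38 a38_1 a38_2 a38_3 q38 c144 a144_1 a144_2 a144_3 q144 fun c145 a145_1 a145_2 a145_3 q145 =>
  subK c120 a120_1 a120_2 a120_3 q120 c145 a145_1 a145_2 a145_3 q145 fun c146 a146_1 a146_2 a146_3 q146 =>
  smulK 2 1 1152921504606846977 2305843009213693952 c146 a146_1 a146_2 a146_3 q146 fun c148 a148_1 a148_2 a148_3 q148 =>
  addcK c66 a66_1 a66_2 a66_3 q66 1152922604118474752 0 fun c149 a149_1 a149_2 a149_3 q149 =>
  invK c149 a149_1 a149_2 a149_3 q149 fun c151 a151_1 a151_2 a151_3 q151 =>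
  mulK c73 a73_1 a73_2 a73_3 q73 c151 a151_1 a151_2 a151_3 q151 fun c152 a152_1 a152_2 a152_3 q152 =>
  addcK c152 a152_1 a152_2 a152_3 q152 1152923703630102528 0 fun c154 a154_1 a154_2 a154_3 q154 =>
  mulK c154 a154_1 a154_2 a154_3 q154 c100 a100_1 a100_2 a100_3 q100 fun c156 a156_1 a156_2 a156_3 q156 =>
  mulK c24 a24_1 a24_2 a24_3 q24 c156 a156_1 a156_2 a156_3 q156 fun c157 a157_1 a157_2 a157_3 q157 =>
  smulK 13 50 57646075230342348850 14987979559889010688 c157 a157_1 a157_2 a157_3 q157 fun c159 a159_1 a159_2 a159_3 q159 =>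
  subK c148 a148_1 a148_2 a148_3 q148 c159 a159_1 a159_2 a159_3 q159 fun c160 a160_1 a160_2 a160_3 q160 =>
  mulK c69 a69_1 a69_2 a69_3 q69 c160 a160_1 a160_2 a160_3 q160 fun c162 a162_1 a162_2 a162_3 q162 =>
  addK c60 a60_1 a60_2 a60_3 q60 c162 a162_1 a162_2 a162_3 q162 fun c163 a163_1 a163_2 a163_3 q163 =>
  mulK c73 a73_1 a73_2 a73_3 q73 c7 a7_1 a7_2 a7_3 q7 fun c165 a165_1 a165_2 a165_3 q165 =>
  mulK c24 a24_1 a24_2 a24_3 q24 c165 a165_1 a165_2 a165_3 q165 fun c166 a166_1 a166_2 a166_3 q166 =>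
  smulK 1 125 144115188075855872125 1152921504606846976 c166 a166_1 a166_2 a166_3 q166 fun c167 a167_1 a167_2 a167_3 q167 =>
  mulK c69 a69_1 a69_2 a69_3 q69 c146 a146_1 a146_2 a146_3 q146 fun c168 a168_1 a168_2 a168_3 q168 =>
  addK c59 a59_1 a59_2 a59_3 q59 c168 a168_1 a168_2 a168_3 q168 fun c169 a169_1 a169_2 a169_3 q169 =>
  smulK 2 1 1152921504606846977 2305843009213693952 c169 a169_1 a169_2 a169_3 q169 fun c171 a171_1 a171_2 a171_3 q171 =>
  subK c167 a167_1 a167_2 a167_3 q167 c171 a171_1 a171_2 a171_3 q171 fun c172 a172_1 a172_2 a172_3 q172 =>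
  mulK c76 a76_1 a76_2 a76_3 q76 c5 a5_1 a5_2 a5_3 q5 fun c173 a173_1 a173_2 a173_3 q173 =>
  negK c173 a173_1 a173_2 a173_3 q173 fun c174 a174_1 a174_2 a174_3 q174 =>
  addcK c174 a174_1 a174_2 a174_3 q174 1152922604118474752 0 fun c175 a175_1 a175_2 a175_3 q175 =>
  sqrtK c175 a175_1 a175_2 a175_3 q175 fun c177 a177_1 a177_2 a177_3 q177 =>
  addcK c177 a177_1 a177_2 a177_3 q177 1152922604118474752 0 fun c179 a179_1 a179_2 a179_3 q179 =>
  mulK z3 1152921504606846976 1152921504606846976 (Nat.add w3 1152921504606846976) 0 c179 a179_1 a179_2 a179_3 q179 fun c181 a181_1 a181_2 a181_3 q181 =>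
  mulK z2 1152921504606846976 (Nat.add w2 1152921504606846976) 1152921504606846976 0 c73 a73_1 a73_2 a73_3 q73 fun c182 a182_1 a182_2 a182_3 q182 =>
  mulK c182 a182_1 a182_2 a182_3 q182 c1 a1_1 a1_2 a1_3 q1 fun c183 a183_1 a183_2 a183_3 q183 =>
  invK c179 a179_1 a179_2 a179_3 q179 fun c184 a184_1 a184_2 a184_3 q184 =>
  negK c184 a184_1 a184_2 a184_3 q184 fun c186 a186_1 a186_2 a186_3 q186 =>
  addcK c186 a186_1 a186_2 a186_3 q186 1152923703630102528 0 fun c187 a187_1 a187_2 a187_3 q187 =>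
  mulK c183 a183_1 a183_2 a183_3 q183 c187 a187_1 a187_2 a187_3 q187 fun c189 a189_1 a189_2 a189_3 q189 =>
  subK c181 a181_1 a181_2 a181_3 q181 c189 a189_1 a189_2 a189_3 q189 fun c190 a190_1 a190_2 a190_3 q190 =>
  mulK z2 1152921504606846976 (Nat.add w2 1152921504606846976) 1152921504606846976 0 c24 a24_1 a24_2 a24_3 q24 fun c192 a192_1 a192_2 a192_3 q192 =>
  smulK 2 1 1152921504606846977 2305843009213693952 c192 a192_1 a192_2 a192_3 q192 fun c193 a193_1 a193_2 a193_3 q193 =>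
  smulK 11 50 57646075230342348850 12682136550675316736 c193 a193_1 a193_2 a193_3 q193 fun c195 a195_1 a195_2 a195_3 q195 =>
  addcK c195 a195_1 a195_2 a195_3 q195 1152922340235684086 1 fun c196 a196_1 a196_2 a196_3 q196 =>
  mulK c193 a193_1 a193_2 a193_3 q193 c196 a196_1 a196_2 a196_3 q196 fun c198 a198_1 a198_2 a198_3 q198 =>
  negK c198 a198_1 a198_2 a198_3 q198 fun c199 a199_1 a199_2 a199_3 q199 =>
  addcK c199 a199_1 a199_2 a199_3 q199 1152923703630102528 0 fun c200 a200_1 a200_2 a200_3 q200 =>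
  mulK c190 a190_1 a190_2 a190_3 q190 c200 a200_1 a200_2 a200_3 q200 fun c202 a202_1 a202_2 a202_3 q202 =>
  subK c172 a172_1 a172_2 a172_3 q172 c202 a202_1 a202_2 a202_3 q202 fun c203 a203_1 a203_2 a203_3 q203 =>
  mulK c69 a69_1 a69_2 a69_3 q69 c157 a157_1 a157_2 a157_3 q157 fun c204 a204_1 a204_2 a204_3 q204 =>
  smulK 12 25 28823037615171174425 13835058055282163712 c204 a204_1 a204_2 a204_3 q204 fun c205 a205_1 a205_2 a205_3 q205 =>
  subK c203 a203_1 a203_2 a203_3 q203 c205 a205_1 a205_2 a205_3 q205 fun c206 a206_1 a206_2 a206_3 q206 =>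
  smulK 9 20 23058430092136939540 10376293541461622784 c206 a206_1 a206_2 a206_3 q206 fun c208 a208_1 a208_2 a208_3 q208 =>
  addK c163 a163_1 a163_2 a163_3 q163 c208 a208_1 a208_2 a208_3 q208 fun c209 a209_1 a209_2 a209_3 q209 =>
  smulK 2 1 1152921504606846977 2305843009213693952 c166 a166_1 a166_2 a166_3 q166 fun c210 a210_1 a210_2 a210_3 q210 =>
  addK c169 a169_1 a169_2 a169_3 q169 c210 a210_1 a210_2 a210_3 q210 fun c211 a211_1 a211_2 a211_3 q211 =>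
  smulK 3 25 28823037615171174425 3458764513820540928 c193 a193_1 a193_2 a193_3 q193 fun c212 a212_1 a212_2 a212_3 q212 =>
  addcK c212 a212_1 a212_2 a212_3 q212 1152922527152660808 1 fun c213 a213_1 a213_2 a213_3 q213 =>
  mulK c193 a193_1 a193_2 a193_3 q193 c213 a213_1 a213_2 a213_3 q213 fun c215 a215_1 a215_2 a215_3 q215 =>
  negK c215 a215_1 a215_2 a215_3 q215 fun c216 a216_1 a216_2 a216_3 q216 =>
  addcK c216 a216_1 a216_2 a216_3 q216 1152922604118474752 0 fun c217 a217_1 a217_2 a217_3 q217 =>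
  mulK c190 a190_1 a190_2 a190_3 q190 c217 a217_1 a217_2 a217_3 q217 fun c219 a219_1 a219_2 a219_3 q219 =>
  addK c211 a211_1 a211_2 a211_3 q211 c219 a219_1 a219_2 a219_3 q219 fun c220 a220_1 a220_2 a220_3 q220 =>
  smulK 21 25 28823037615171174425 24211351596743786496 c204 a204_1 a204_2 a204_3 q204 fun c221 a221_1 a221_2 a221_3 q221 =>
  addK c220 a220_1 a220_2 a220_3 q220 c221 a221_1 a221_2 a221_3 q221 fun c222 a222_1 a222_2 a222_3 q222 =>
  smulK 81 400 461168601842738790800 93386641873154605056 c222 a222_1 a222_2 a222_3 q222 fun c224 a224_1 a224_2 a224_3 q224 =>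
  addK c209 a209_1 a209_2 a209_3 q209 c224 a224_1 a224_2 a224_3 q224 fun c225 a225_1 a225_2 a225_3 q225 =>
  posK c225 a225_1 a225_2 a225_3 q225 <|
  mulK c225 a225_1 a225_2 a225_3 q225 c163 a163_1 a163_2 a163_3 q163 fun c227 a227_1 a227_2 a227_3 q227 =>
  smulK 9 40 46116860184273879080 10376293541461622784 c206 a206_1 a206_2 a206_3 q206 fun c228 a228_1 a228_2 a228_3 q228 =>
  addK c163 a163_1 a163_2 a163_3 q163 c228 a228_1 a228_2 a228_3 q228 fun c229 a229_1 a229_2 a229_3 q229 =>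
  sqK c229 a229_1 a229_2 a229_3 q229 fun c231 a231_1 a231_2 a231_3 q231 =>
  subK c227 a227_1 a227_2 a227_3 q227 c231 a231_1 a231_2 a231_3 q231 fun c232 a232_1 a232_2 a232_3 q232 =>
  pos c232 a232_1 a232_2 a232_3 q232

theorem alt0_s {z1 w1 z2 w2 z3 w3 : ℕ} {e1 e2 e3 w e o : ℝ} (he : Ev e1 e2 e3)
    (hx1 : In e1 e2 e3 z1 (Nat.add w1 1152921504606846976) 1152921504606846976 1152921504606846976 0 w)
    (hx2 : In e1 e2 e3 z2 1152921504606846976 (Nat.add w2 1152921504606846976) 1152921504606846976 0 e)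
    (hx3 : In e1 e2 e3 z3 1152921504606846976 1152921504606846976 (Nat.add w3 1152921504606846976) 0 o)
    (H0 : alt0 z1 w1 z2 w2 z3 w3 = true) : 0 < (c0 w e o) ∧ 0 < (((c0 w e o) * (C w e o)) - ((c1 w e o) ^ 2)) := by
  unfold alt0 at H0
  refine sqK_s he hx3 (fun _ _ _ _ _ h1 H1 => ?_) H0
  have h2 := In_cast (w := (oo w e o)) h1 rfl
  refine sqK_s he hx2 (fun _ _ _ _ _ h3 H2 => ?_) H1
  have h4 := In_cast (w := (ee w e o)) h3 rfl
  refine mulK_s he h4 h2 (fun _ _ _ _ _ h5 H3 => ?_) H2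
  refine negK_s he h5 (fun _ _ _ _ _ h6 H4 => ?_) H3
  refine addcK_s he h6 (v' := (1:ℝ)) (by norm_num [SS, BB, abs_le]) (fun _ _ _ _ _ h7 H5 => ?_) H4
  have h8 := In_cast h7 (neg_add_eq_sub _ _)
  have h9 := In_cast (w := (d w e o)) h8 rfl
  refine addK_s he h2 h9 (fun _ _ _ _ _ h10 H6 => ?_) H5
  have h11 := In_cast (w := (zz w e o)) h10 rfl
  refine sqrtK_s he h11 (fun _ _ _ _ _ h12 H7 => ?_) H6
  have h13 := In_cast (w := (z w e o)) h12 rfl
  refine mulK_s he h4 h11 (fun _ _ _ _ _ h14 H8 => ?_) H7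
  refine negK_s he h14 (fun _ _ _ _ _ h15 H9 => ?_) H8
  refine addcK_s he h15 (v' := (1:ℝ)) (by norm_num [SS, BB, abs_le]) (fun _ _ _ _ _ h16 H10 => ?_) H9
  have h17 := In_cast h16 (neg_add_eq_sub _ _)
  refine sqrtK_s he h17 (fun _ _ _ _ _ h18 H11 => ?_) H10
  have h19 := In_cast (w := (vb w e o)) h18 rfl
  refine mulK_s he h13 h19 (fun _ _ _ _ _ h20 H12 => ?_) H11
  refine negK_s he h4 (fun _ _ _ _ _ h21 H13 => ?_) H12
  refine addcK_s he h21 (v' := (1:ℝ)) (by norm_num [SS, BB, abs_le]) (fun _ _ _ _ _ h22 H14 => ?_) H13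
  have h23 := In_cast h22 (neg_add_eq_sub _ _)
  refine sqrtK_s he h23 (fun _ _ _ _ _ h24 H15 => ?_) H14
  have h25 := In_cast (w := (be w e o)) h24 rfl
  refine mulK_s he h25 h9 (fun _ _ _ _ _ h26 H16 => ?_) H15
  refine addK_s he h20 h26 (fun _ _ _ _ _ h27 H17 => ?_) H16
  refine invK_s he h27 (fun _ _ _ _ _ h28 H18 => ?_) H17
  refine mulK_s he h23 h9 (fun _ _ _ _ _ h29 H19 => ?_) H18
  refine mulK_s he h29 h28 (fun _ _ _ _ _ h30 H20 => ?_) H19
  have h31 := In_cast h30 ((div_eq_mul_inv _ _).symm)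
  refine mulK_s he h4 h9 (fun _ _ _ _ _ h32 H21 => ?_) H20
  refine negK_s he h32 (fun _ _ _ _ _ h33 H22 => ?_) H21
  refine addcK_s he h33 (v' := (1:ℝ)) (by norm_num [SS, BB, abs_le]) (fun _ _ _ _ _ h34 H23 => ?_) H22
  have h35 := In_cast h34 (neg_add_eq_sub _ _)
  refine sqrtK_s he h35 (fun _ _ _ _ _ h36 H24 => ?_) H23
  have h37 := In_cast (w := (ka w e o)) h36 rfl
  refine sqrtK_s he h9 (fun _ _ _ _ _ h38 H25 => ?_) H24
  have h39 := In_cast (w := (sd w e o)) h38 rfl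
  refine mulK_s he h25 h39 (fun _ _ _ _ _ h40 H26 => ?_) H25
  refine addK_s he h37 h40 (fun _ _ _ _ _ h41 H27 => ?_) H26
  refine invK_s he h41 (fun _ _ _ _ _ h42 H28 => ?_) H27
  refine mulK_s he h4 h39 (fun _ _ _ _ _ h43 H29 => ?_) H28
  refine mulK_s he h43 h42 (fun _ _ _ _ _ h44 H30 => ?_) H29
  have h45 := In_cast h44 ((div_eq_mul_inv _ _).symm)
  refine addK_s he h31 h45 (fun _ _ _ _ _ h46 H31 => ?_) H30
  refine smulK_s he (w := (2:ℝ)) (by norm_num) (by norm_num) (by norm_num) (by norm_num) hx2 (fun _ _ _ _ _ h47 H32 => ?_) H31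
  refine subK_s he h46 h47 (fun _ _ _ _ _ h48 H33 => ?_) H32
  refine addK_s he h37 h19 (fun _ _ _ _ _ h49 H34 => ?_) H33
  refine invK_s he h49 (fun _ _ _ _ _ h50 H35 => ?_) H34
  refine mulK_s he hx2 h50 (fun _ _ _ _ _ h51 H36 => ?_) H35
  have h52 := In_cast h51 ((div_eq_mul_inv _ _).symm)
  refine addK_s he h48 h52 (fun _ _ _ _ _ h53 H37 => ?_) H36
  refine addK_s he h13 h39 (fun _ _ _ _ _ h54 H38 => ?_) H37
  refine invK_s he h54 (fun _ _ _ _ _ h55 H39 => ?_) H38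
  have h56 := In_cast h55 (inv_eq_one_div _)
  refine addK_s he h53 h56 (fun _ _ _ _ _ h57 H40 => ?_) H39
  have h58 := In_cast (w := (G1 w e o)) h57 rfl
  refine mulK_s he h2 h58 (fun _ _ _ _ _ h59 H41 => ?_) H40
  refine smulK_s he (w := (2:ℝ)) (by norm_num) (by norm_num) (by norm_num) (by norm_num) h59 (fun _ _ _ _ _ h60 H42 => ?_) H41
  refine sqK_s he hx1 (fun _ _ _ _ _ h61 H43 => ?_) H42
  refine addcK_s he h61 (v' := (1:ℝ)) (by norm_num [SS, BB, abs_le]) (fun _ _ _ _ _ h62 H44 => ?_) H43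
  have h63 := In_cast h62 (add_comm _ _)
  refine invK_s he h63 (fun _ _ _ _ _ h64 H45 => ?_) H44
  refine smulK_s he (w := (2:ℝ)) (by norm_num) (by norm_num) (by norm_num) (by norm_num) hx1 (fun _ _ _ _ _ h65 H46 => ?_) H45
  refine mulK_s he h65 h64 (fun _ _ _ _ _ h66 H47 => ?_) H46
  have h67 := In_cast h66 ((div_eq_mul_inv _ _).symm)
  have h68 := In_cast (w := (a w e o)) h67 rfl
  refine sqK_s he h68 (fun _ _ _ _ _ h69 H48 => ?_) H47
  refine negK_s he h61 (fun _ _ _ _ _ h70 H49 => ?_) H48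
  refine addcK_s he h70 (v' := (1:ℝ)) (by norm_num [SS, BB, abs_le]) (fun _ _ _ _ _ h71 H50 => ?_) H49
  have h72 := In_cast h71 (neg_add_eq_sub _ _)
  refine mulK_s he h72 h64 (fun _ _ _ _ _ h73 H51 => ?_) H50
  have h74 := In_cast h73 ((div_eq_mul_inv _ _).symm)
  have h75 := In_cast (w := (R w e o)) h74 rfl
  refine sqK_s he h75 (fun _ _ _ _ _ h76 H52 => ?_) H51
  refine mulK_s he h76 h14 (fun _ _ _ _ _ h77 H53 => ?_) H52
  refine negK_s he h77 (fun _ _ _ _ _ h78 H54 => ?_) H53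
  refine addcK_s he h78 (v' := (1:ℝ)) (by norm_num [SS, BB, abs_le]) (fun _ _ _ _ _ h79 H55 => ?_) H54
  have h80 := In_cast h79 (neg_add_eq_sub _ _)
  refine sqrtK_s he h80 (fun _ _ _ _ _ h81 H56 => ?_) H55
  have h82 := In_cast (w := (vx w e o)) h81 rfl
  refine addK_s he h82 h19 (fun _ _ _ _ _ h83 H57 => ?_) H56
  refine invK_s he h83 (fun _ _ _ _ _ h84 H58 => ?_) H57
  refine mulK_s he h14 h13 (fun _ _ _ _ _ h85 H59 => ?_) H58
  refine mulK_s he h85 h84 (fun _ _ _ _ _ h86 H60 => ?_) H59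
  have h87 := In_cast h86 ((div_eq_mul_inv _ _).symm)
  refine addcK_s he h82 (v' := (1:ℝ)) (by norm_num [SS, BB, abs_le]) (fun _ _ _ _ _ h88 H61 => ?_) H60
  have h89 := In_cast h88 (add_comm _ _)
  refine invK_s he h89 (fun _ _ _ _ _ h90 H62 => ?_) H61
  refine mulK_s he hx2 h11 (fun _ _ _ _ _ h91 H63 => ?_) H62
  refine addcK_s he h19 (v' := (1:ℝ)) (by norm_num [SS, BB, abs_le]) (fun _ _ _ _ _ h92 H64 => ?_) H63
  have h93 := In_cast h92 (add_comm _ _)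
  refine mulK_s he h83 h93 (fun _ _ _ _ _ h94 H65 => ?_) H64
  refine invK_s he h94 (fun _ _ _ _ _ h95 H66 => ?_) H65
  refine mulK_s he h14 h95 (fun _ _ _ _ _ h96 H67 => ?_) H66
  have h97 := In_cast h96 ((div_eq_mul_inv _ _).symm)
  refine addcK_s he h75 (v' := (1:ℝ)) (by norm_num [SS, BB, abs_le]) (fun _ _ _ _ _ h98 H68 => ?_) H67
  have h99 := In_cast h98 (add_comm _ _)
  refine invK_s he h99 (fun _ _ _ _ _ h100 H69 => ?_) H68
  have h101 := In_cast h100 (inv_eq_one_div _)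
  have h102 := In_cast (w := (g w e o)) h101 rfl
  refine addK_s he h97 h102 (fun _ _ _ _ _ h103 H70 => ?_) H69
  refine mulK_s he h91 h103 (fun _ _ _ _ _ h104 H71 => ?_) H70
  refine mulK_s he h104 h90 (fun _ _ _ _ _ h105 H72 => ?_) H71
  have h106 := In_cast h105 ((div_eq_mul_inv _ _).symm)
  refine subK_s he h87 h106 (fun _ _ _ _ _ h107 H73 => ?_) H72
  refine mulK_s he hx2 h2 (fun _ _ _ _ _ h108 H74 => ?_) H73
  refine smulK_s he (w := (2:ℝ)) (by norm_num) (by norm_num) (by norm_num) (by norm_num) h108 (fun _ _ _ _ _ h109 H75 => ?_) H74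
  refine addcK_s he h37 (v' := (1:ℝ)) (by norm_num [SS, BB, abs_le]) (fun _ _ _ _ _ h110 H76 => ?_) H75
  have h111 := In_cast h110 (add_comm _ _)
  refine invK_s he h111 (fun _ _ _ _ _ h112 H77 => ?_) H76
  refine mulK_s he h32 h39 (fun _ _ _ _ _ h113 H78 => ?_) H77
  refine mulK_s he h113 h112 (fun _ _ _ _ _ h114 H79 => ?_) H78
  have h115 := In_cast h114 ((div_eq_mul_inv _ _).symm)
  refine addK_s he h109 h115 (fun _ _ _ _ _ h116 H80 => ?_) H79
  refine smulK_s he (w := (2:ℝ)) (by norm_num) (by norm_num) (by norm_num) (by norm_num) h26 (fun _ _ _ _ _ h117 H81 => ?_) H80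
  refine addK_s he h116 h117 (fun _ _ _ _ _ h118 H82 => ?_) H81
  refine mulK_s he h102 h118 (fun _ _ _ _ _ h119 H83 => ?_) H82
  refine addK_s he h107 h119 (fun _ _ _ _ _ h120 H84 => ?_) H83
  refine mulK_s he hx2 h39 (fun _ _ _ _ _ h121 H85 => ?_) H84
  refine smulK_s he (w := (33/50:ℝ)) (by norm_num) (by norm_num) (by norm_num) (by norm_num) h121 (fun _ _ _ _ _ h122 H86 => ?_) H85
  refine addcK_s he h122 (v' := (1/10:ℝ)) (by norm_num [SS, BB, abs_le]) (fun _ _ _ _ _ h123 H87 => ?_) H86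
  have h124 := In_cast h123 (add_comm _ _)
  have h125 := In_cast (w := (hh w e o)) h124 rfl
  refine mulK_s he h75 h125 (fun _ _ _ _ _ h126 H88 => ?_) H87
  refine sqK_s he h126 (fun _ _ _ _ _ h127 H89 => ?_) H88
  refine addK_s he h127 h69 (fun _ _ _ _ _ h128 H90 => ?_) H89
  refine sqrtK_s he h128 (fun _ _ _ _ _ h129 H91 => ?_) H90
  have h130 := In_cast (w := (Y w e o)) h129 rfl
  refine addK_s he h126 h130 (fun _ _ _ _ _ h131 H92 => ?_) H91
  refine invK_s he h131 (fun _ _ _ _ _ h132 H93 => ?_) H92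
  refine mulK_s he h125 h132 (fun _ _ _ _ _ h133 H94 => ?_) H93
  have h134 := In_cast h133 ((div_eq_mul_inv _ _).symm)
  have h135 := In_cast (w := (M1 w e o)) h134 rfl
  refine mulK_s he h135 h112 (fun _ _ _ _ _ h136 H95 => ?_) H94
  have h137 := In_cast h136 ((div_eq_mul_inv _ _).symm)
  refine addK_s he h130 h68 (fun _ _ _ _ _ h138 H96 => ?_) H95
  refine invK_s he h138 (fun _ _ _ _ _ h139 H97 => ?_) H96
  refine mulK_s he h126 h139 (fun _ _ _ _ _ h140 H98 => ?_) H97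
  have h141 := In_cast h140 ((div_eq_mul_inv _ _).symm)
  have h142 := In_cast (w := (M2 w e o)) h141 rfl
  refine mulK_s he h142 h102 (fun _ _ _ _ _ h143 H99 => ?_) H98
  refine addK_s he h137 h143 (fun _ _ _ _ _ h144 H100 => ?_) H99
  refine mulK_s he h39 h144 (fun _ _ _ _ _ h145 H101 => ?_) H100
  refine subK_s he h120 h145 (fun _ _ _ _ _ h146 H102 => ?_) H101
  have h147 := In_cast (w := (G2 w e o)) h146 rfl
  refine smulK_s he (w := (2:ℝ)) (by norm_num) (by norm_num) (by norm_num) (by norm_num) h147 (fun _ _ _ _ _ h148 H103 => ?_) H102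
  refine addcK_s he h68 (v' := (1:ℝ)) (by norm_num [SS, BB, abs_le]) (fun _ _ _ _ _ h149 H104 => ?_) H103
  have h150 := In_cast h149 (add_comm _ _)
  refine invK_s he h150 (fun _ _ _ _ _ h151 H105 => ?_) H104
  refine mulK_s he h75 h151 (fun _ _ _ _ _ h152 H106 => ?_) H105
  have h153 := In_cast h152 ((div_eq_mul_inv _ _).symm)
  refine addcK_s he h153 (v' := (2:ℝ)) (by norm_num [SS, BB, abs_le]) (fun _ _ _ _ _ h154 H107 => ?_) H106
  have h155 := In_cast h154 (add_comm _ _)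
  refine mulK_s he h155 h102 (fun _ _ _ _ _ h156 H108 => ?_) H107
  refine mulK_s he h25 h156 (fun _ _ _ _ _ h157 H109 => ?_) H108
  have h158 := In_cast (w := (N0 w e o)) h157 rfl
  refine smulK_s he (w := (13/50:ℝ)) (by norm_num) (by norm_num) (by norm_num) (by norm_num) h158 (fun _ _ _ _ _ h159 H110 => ?_) H109
  refine subK_s he h148 h159 (fun _ _ _ _ _ h160 H111 => ?_) H110
  have h161 := In_cast (w := (G3 w e o)) h160 rfl
  refine mulK_s he h69 h161 (fun _ _ _ _ _ h162 H112 => ?_) H111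
  refine addK_s he h60 h162 (fun _ _ _ _ _ h163 H113 => ?_) H112
  have h164 := In_cast (w := (C w e o)) h163 rfl
  refine mulK_s he h75 h9 (fun _ _ _ _ _ h165 H114 => ?_) H113
  refine mulK_s he h25 h165 (fun _ _ _ _ _ h166 H115 => ?_) H114
  refine smulK_s he (w := (1/125:ℝ)) (by norm_num) (by norm_num) (by norm_num) (by norm_num) h166 (fun _ _ _ _ _ h167 H116 => ?_) H115
  refine mulK_s he h69 h147 (fun _ _ _ _ _ h168 H117 => ?_) H116
  refine addK_s he h59 h168 (fun _ _ _ _ _ h169 H118 => ?_) H117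
  have h170 := In_cast (w := (Ga w e o)) h169 rfl
  refine smulK_s he (w := (2:ℝ)) (by norm_num) (by norm_num) (by norm_num) (by norm_num) h170 (fun _ _ _ _ _ h171 H119 => ?_) H118
  refine subK_s he h167 h171 (fun _ _ _ _ _ h172 H120 => ?_) H119
  refine mulK_s he h76 h5 (fun _ _ _ _ _ h173 H121 => ?_) H120
  refine negK_s he h173 (fun _ _ _ _ _ h174 H122 => ?_) H121
  refine addcK_s he h174 (v' := (1:ℝ)) (by norm_num [SS, BB, abs_le]) (fun _ _ _ _ _ h175 H123 => ?_) H122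
  have h176 := In_cast h175 (neg_add_eq_sub _ _)
  refine sqrtK_s he h176 (fun _ _ _ _ _ h177 H124 => ?_) H123
  have h178 := In_cast (w := (v1 w e o)) h177 rfl
  refine addcK_s he h178 (v' := (1:ℝ)) (by norm_num [SS, BB, abs_le]) (fun _ _ _ _ _ h179 H125 => ?_) H124
  have h180 := In_cast h179 (add_comm _ _)
  refine mulK_s he hx3 h180 (fun _ _ _ _ _ h181 H126 => ?_) H125
  refine mulK_s he hx2 h75 (fun _ _ _ _ _ h182 H127 => ?_) H126
  refine mulK_s he h182 h2 (fun _ _ _ _ _ h183 H128 => ?_) H127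
  refine invK_s he h180 (fun _ _ _ _ _ h184 H129 => ?_) H128
  have h185 := In_cast h184 (inv_eq_one_div _)
  refine negK_s he h185 (fun _ _ _ _ _ h186 H130 => ?_) H129
  refine addcK_s he h186 (v' := (2:ℝ)) (by norm_num [SS, BB, abs_le]) (fun _ _ _ _ _ h187 H131 => ?_) H130
  have h188 := In_cast h187 (neg_add_eq_sub _ _)
  refine mulK_s he h183 h188 (fun _ _ _ _ _ h189 H132 => ?_) H131
  refine subK_s he h181 h189 (fun _ _ _ _ _ h190 H133 => ?_) H132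
  have h191 := In_cast (w := (U1 w e o)) h190 rfl
  refine mulK_s he hx2 h25 (fun _ _ _ _ _ h192 H134 => ?_) H133
  refine smulK_s he (w := (2:ℝ)) (by norm_num) (by norm_num) (by norm_num) (by norm_num) h192 (fun _ _ _ _ _ h193 H135 => ?_) H134
  have h194 := In_cast (w := (s w e o)) h193 rfl
  refine smulK_s he (w := (11/50:ℝ)) (by norm_num) (by norm_num) (by norm_num) (by norm_num) h194 (fun _ _ _ _ _ h195 H136 => ?_) H135
  refine addcK_s he h195 (v' := (19/25:ℝ)) (by norm_num [SS, BB, abs_le]) (fun _ _ _ _ _ h196 H137 => ?_) H136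
  have h197 := In_cast h196 (add_comm _ _)
  refine mulK_s he h194 h197 (fun _ _ _ _ _ h198 H138 => ?_) H137
  refine negK_s he h198 (fun _ _ _ _ _ h199 H139 => ?_) H138
  refine addcK_s he h199 (v' := (2:ℝ)) (by norm_num [SS, BB, abs_le]) (fun _ _ _ _ _ h200 H140 => ?_) H139
  have h201 := In_cast h200 (neg_add_eq_sub _ _)
  refine mulK_s he h191 h201 (fun _ _ _ _ _ h202 H141 => ?_) H140
  refine subK_s he h172 h202 (fun _ _ _ _ _ h203 H142 => ?_) H141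
  refine mulK_s he h69 h158 (fun _ _ _ _ _ h204 H143 => ?_) H142
  refine smulK_s he (w := (12/25:ℝ)) (by norm_num) (by norm_num) (by norm_num) (by norm_num) h204 (fun _ _ _ _ _ h205 H144 => ?_) H143
  refine subK_s he h203 h205 (fun _ _ _ _ _ h206 H145 => ?_) H144
  have h207 := In_cast (w := (B w e o)) h206 rfl
  refine smulK_s he (w := (9/20:ℝ)) (by norm_num) (by norm_num) (by norm_num) (by norm_num) h207 (fun _ _ _ _ _ h208 H146 => ?_) H145
  refine addK_s he h164 h208 (fun _ _ _ _ _ h209 H147 => ?_) H146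
  refine smulK_s he (w := (2:ℝ)) (by norm_num) (by norm_num) (by norm_num) (by norm_num) h166 (fun _ _ _ _ _ h210 H148 => ?_) H147
  refine addK_s he h170 h210 (fun _ _ _ _ _ h211 H149 => ?_) H148
  refine smulK_s he (w := (3/25:ℝ)) (by norm_num) (by norm_num) (by norm_num) (by norm_num) h194 (fun _ _ _ _ _ h212 H150 => ?_) H149
  refine addcK_s he h212 (v' := (93/100:ℝ)) (by norm_num [SS, BB, abs_le]) (fun _ _ _ _ _ h213 H151 => ?_) H150
  have h214 := In_cast h213 (add_comm _ _)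
  refine mulK_s he h194 h214 (fun _ _ _ _ _ h215 H152 => ?_) H151
  refine negK_s he h215 (fun _ _ _ _ _ h216 H153 => ?_) H152
  refine addcK_s he h216 (v' := (1:ℝ)) (by norm_num [SS, BB, abs_le]) (fun _ _ _ _ _ h217 H154 => ?_) H153
  have h218 := In_cast h217 (neg_add_eq_sub _ _)
  refine mulK_s he h191 h218 (fun _ _ _ _ _ h219 H155 => ?_) H154
  refine addK_s he h211 h219 (fun _ _ _ _ _ h220 H156 => ?_) H155
  refine smulK_s he (w := (21/25:ℝ)) (by norm_num) (by norm_num) (by norm_num) (by norm_num) h204 (fun _ _ _ _ _ h221 H157 => ?_) H156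
  refine addK_s he h220 h221 (fun _ _ _ _ _ h222 H158 => ?_) H157
  have h223 := In_cast (w := (A w e o)) h222 rfl
  refine smulK_s he (w := (81/400:ℝ)) (by norm_num) (by norm_num) (by norm_num) (by norm_num) h223 (fun _ _ _ _ _ h224 H159 => ?_) H158
  refine addK_s he h209 h224 (fun _ _ _ _ _ h225 H160 => ?_) H159
  have h226 := In_cast (w := (c0 w e o)) h225 rfl
  refine posK_s he h226 (fun p0 H161 => ?_) H160
  refine mulK_s he h226 h164 (fun _ _ _ _ _ h227 H162 => ?_) H161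
  refine smulK_s he (w := (9/40:ℝ)) (by norm_num) (by norm_num) (by norm_num) (by norm_num) h207 (fun _ _ _ _ _ h228 H163 => ?_) H162
  refine addK_s he h164 h228 (fun _ _ _ _ _ h229 H164 => ?_) H163
  have h230 := In_cast (w := (c1 w e o)) h229 rfl
  refine sqK_s he h230 (fun _ _ _ _ _ h231 H165 => ?_) H164
  refine subK_s he h227 h231 (fun _ _ _ _ _ h232 H166 => ?_) H165
  exact ⟨p0, pos_s he h232 H166⟩

noncomputable def alt1 (z1 w1 z2 w2 z3 w3 : ℕ) : Bool :=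
  sqK z3 1152921504606846976 1152921504606846976 (Nat.add w3 1152921504606846976) 0 fun c1 a1_1 a1_2 a1_3 q1 =>
  sqK z2 1152921504606846976 (Nat.add w2 1152921504606846976) 1152921504606846976 0 fun c3 a3_1 a3_2 a3_3 q3 =>
  mulK c3 a3_1 a3_2 a3_3 q3 c1 a1_1 a1_2 a1_3 q1 fun c5 a5_1 a5_2 a5_3 q5 =>
  negK c5 a5_1 a5_2 a5_3 q5 fun c6 a6_1 a6_2 a6_3 q6 =>
  addcK c6 a6_1 a6_2 a6_3 q6 1152922604118474752 0 fun c7 a7_1 a7_2 a7_3 q7 =>
  addK c1 a1_1 a1_2 a1_3 q1 c7 a7_1 a7_2 a7_3 q7 fun c10 a10_1 a10_2 a10_3 q10 =>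
  sqrtK c10 a10_1 a10_2 a10_3 q10 fun c12 a12_1 a12_2 a12_3 q12 =>
  mulK c3 a3_1 a3_2 a3_3 q3 c10 a10_1 a10_2 a10_3 q10 fun c14 a14_1 a14_2 a14_3 q14 =>
  negK c14 a14_1 a14_2 a14_3 q14 fun c15 a15_1 a15_2 a15_3 q15 =>
  addcK c15 a15_1 a15_2 a15_3 q15 1152922604118474752 0 fun c16 a16_1 a16_2 a16_3 q16 =>
  sqrtK c16 a16_1 a16_2 a16_3 q16 fun c18 a18_1 a18_2 a18_3 q18 =>
  mulK c12 a12_1 a12_2 a12_3 q12 c18 a18_1 a18_2 a18_3 q18 fun c20 a20_1 a20_2 a20_3 q20 =>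
  negK c3 a3_1 a3_2 a3_3 q3 fun c21 a21_1 a21_2 a21_3 q21 =>
  addcK c21 a21_1 a21_2 a21_3 q21 1152922604118474752 0 fun c22 a22_1 a22_2 a22_3 q22 =>
  sqrtK c22 a22_1 a22_2 a22_3 q22 fun c24 a24_1 a24_2 a24_3 q24 =>
  mulK c24 a24_1 a24_2 a24_3 q24 c7 a7_1 a7_2 a7_3 q7 fun c26 a26_1 a26_2 a26_3 q26 =>
  addK c20 a20_1 a20_2 a20_3 q20 c26 a26_1 a26_2 a26_3 q26 fun c27 a27_1 a27_2 a27_3 q27 =>
  invK c27 a27_1 a27_2 a27_3 q27 fun c28 a28_1 a28_2 a28_3 q28 =>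
  mulK c22 a22_1 a22_2 a22_3 q22 c7 a7_1 a7_2 a7_3 q7 fun c29 a29_1 a29_2 a29_3 q29 =>
  mulK c29 a29_1 a29_2 a29_3 q29 c28 a28_1 a28_2 a28_3 q28 fun c30 a30_1 a30_2 a30_3 q30 =>
  mulK c3 a3_1 a3_2 a3_3 q3 c7 a7_1 a7_2 a7_3 q7 fun c32 a32_1 a32_2 a32_3 q32 =>
  negK c32 a32_1 a32_2 a32_3 q32 fun c33 a33_1 a33_2 a33_3 q33 =>
  addcK c33 a33_1 a33_2 a33_3 q33 1152922604118474752 0 fun c34 a34_1 a34_2 a34_3 q34 =>
  sqrtK c34 a34_1 a34_2 a34_3 q34 fun c36 a36_1 a36_2 a36_3 q36 =>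
  sqrtK c7 a7_1 a7_2 a7_3 q7 fun c38 a38_1 a38_2 a38_3 q38 =>
  mulK c24 a24_1 a24_2 a24_3 q24 c38 a38_1 a38_2 a38_3 q38 fun c40 a40_1 a40_2 a40_3 q40 =>
  addK c36 a36_1 a36_2 a36_3 q36 c40 a40_1 a40_2 a40_3 q40 fun c41 a41_1 a41_2 a41_3 q41 =>
  invK c41 a41_1 a41_2 a41_3 q41 fun c42 a42_1 a42_2 a42_3 q42 =>
  mulK c3 a3_1 a3_2 a3_3 q3 c38 a38_1 a38_2 a38_3 q38 fun c43 a43_1 a43_2 a43_3 q43 =>
  mulK c43 a43_1 a43_2 a43_3 q43 c42 a42_1 a42_2 a42_3 q42 fun c44 a44_1 a44_2 a44_3 q44 =>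
  addK c30 a30_1 a30_2 a30_3 q30 c44 a44_1 a44_2 a44_3 q44 fun c46 a46_1 a46_2 a46_3 q46 =>
  smulK 2 1 1152921504606846977 2305843009213693952 z2 1152921504606846976 (Nat.add w2 1152921504606846976) 1152921504606846976 0 fun c47 a47_1 a47_2 a47_3 q47 =>
  subK c46 a46_1 a46_2 a46_3 q46 c47 a47_1 a47_2 a47_3 q47 fun c48 a48_1 a48_2 a48_3 q48 =>
  addK c36 a36_1 a36_2 a36_3 q36 c18 a18_1 a18_2 a18_3 q18 fun c49 a49_1 a49_2 a49_3 q49 =>
  invK c49 a49_1 a49_2 a49_3 q49 fun c50 a50_1 a50_2 a50_3 q50 =>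
  mulK z2 1152921504606846976 (Nat.add w2 1152921504606846976) 1152921504606846976 0 c50 a50_1 a50_2 a50_3 q50 fun c51 a51_1 a51_2 a51_3 q51 =>
  addK c48 a48_1 a48_2 a48_3 q48 c51 a51_1 a51_2 a51_3 q51 fun c53 a53_1 a53_2 a53_3 q53 =>
  addK c12 a12_1 a12_2 a12_3 q12 c38 a38_1 a38_2 a38_3 q38 fun c54 a54_1 a54_2 a54_3 q54 =>
  invK c54 a54_1 a54_2 a54_3 q54 fun c55 a55_1 a55_2 a55_3 q55 =>
  addK c53 a53_1 a53_2 a53_3 q53 c55 a55_1 a55_2 a55_3 q55 fun c57 a57_1 a57_2 a57_3 q57 =>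
  posK c57 a57_1 a57_2 a57_3 q57 <|
  sqK z1 (Nat.add w1 1152921504606846976) 1152921504606846976 1152921504606846976 0 fun c59 a59_1 a59_2 a59_3 q59 =>
  addcK c59 a59_1 a59_2 a59_3 q59 1152922604118474752 0 fun c60 a60_1 a60_2 a60_3 q60 =>
  invK c60 a60_1 a60_2 a60_3 q60 fun c62 a62_1 a62_2 a62_3 q62 =>
  negK c59 a59_1 a59_2 a59_3 q59 fun c63 a63_1 a63_2 a63_3 q63 =>
  addcK c63 a63_1 a63_2 a63_3 q63 1152922604118474752 0 fun c64 a64_1 a64_2 a64_3 q64 =>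
  mulK c64 a64_1 a64_2 a64_3 q64 c62 a62_1 a62_2 a62_3 q62 fun c66 a66_1 a66_2 a66_3 q66 =>
  sqK c66 a66_1 a66_2 a66_3 q66 fun c69 a69_1 a69_2 a69_3 q69 =>
  mulK c69 a69_1 a69_2 a69_3 q69 c14 a14_1 a14_2 a14_3 q14 fun c70 a70_1 a70_2 a70_3 q70 =>
  negK c70 a70_1 a70_2 a70_3 q70 fun c71 a71_1 a71_2 a71_3 q71 =>
  addcK c71 a71_1 a71_2 a71_3 q71 1152922604118474752 0 fun c72 a72_1 a72_2 a72_3 q72 =>
  sqrtK c72 a72_1 a72_2 a72_3 q72 fun c74 a74_1 a74_2 a74_3 q74 =>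
  addK c74 a74_1 a74_2 a74_3 q74 c18 a18_1 a18_2 a18_3 q18 fun c76 a76_1 a76_2 a76_3 q76 =>
  invK c76 a76_1 a76_2 a76_3 q76 fun c77 a77_1 a77_2 a77_3 q77 =>
  mulK c14 a14_1 a14_2 a14_3 q14 c12 a12_1 a12_2 a12_3 q12 fun c78 a78_1 a78_2 a78_3 q78 =>
  mulK c78 a78_1 a78_2 a78_3 q78 c77 a77_1 a77_2 a77_3 q77 fun c79 a79_1 a79_2 a79_3 q79 =>
  addcK c74 a74_1 a74_2 a74_3 q74 1152922604118474752 0 fun c81 a81_1 a81_2 a81_3 q81 =>
  invK c81 a81_1 a81_2 a81_3 q81 fun c83 a83_1 a83_2 a83_3 q83 =>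
  mulK z2 1152921504606846976 (Nat.add w2 1152921504606846976) 1152921504606846976 0 c10 a10_1 a10_2 a10_3 q10 fun c84 a84_1 a84_2 a84_3 q84 =>
  addcK c18 a18_1 a18_2 a18_3 q18 1152922604118474752 0 fun c85 a85_1 a85_2 a85_3 q85 =>
  mulK c76 a76_1 a76_2 a76_3 q76 c85 a85_1 a85_2 a85_3 q85 fun c87 a87_1 a87_2 a87_3 q87 =>
  invK c87 a87_1 a87_2 a87_3 q87 fun c88 a88_1 a88_2 a88_3 q88 =>
  mulK c14 a14_1 a14_2 a14_3 q14 c88 a88_1 a88_2 a88_3 q88 fun c89 a89_1 a89_2 a89_3 q89 =>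
  addcK c66 a66_1 a66_2 a66_3 q66 1152922604118474752 0 fun c91 a91_1 a91_2 a91_3 q91 =>
  invK c91 a91_1 a91_2 a91_3 q91 fun c93 a93_1 a93_2 a93_3 q93 =>
  addK c89 a89_1 a89_2 a89_3 q89 c93 a93_1 a93_2 a93_3 q93 fun c96 a96_1 a96_2 a96_3 q96 =>
  mulK c84 a84_1 a84_2 a84_3 q84 c96 a96_1 a96_2 a96_3 q96 fun c97 a97_1 a97_2 a97_3 q97 =>
  mulK c97 a97_1 a97_2 a97_3 q97 c83 a83_1 a83_2 a83_3 q83 fun c98 a98_1 a98_2 a98_3 q98 =>
  subK c79 a79_1 a79_2 a79_3 q79 c98 a98_1 a98_2 a98_3 q98 fun c100 a100_1 a100_2 a100_3 q100 =>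
  mulK z2 1152921504606846976 (Nat.add w2 1152921504606846976) 1152921504606846976 0 c1 a1_1 a1_2 a1_3 q1 fun c101 a101_1 a101_2 a101_3 q101 =>
  smulK 2 1 1152921504606846977 2305843009213693952 c101 a101_1 a101_2 a101_3 q101 fun c102 a102_1 a102_2 a102_3 q102 =>
  addcK c36 a36_1 a36_2 a36_3 q36 1152922604118474752 0 fun c103 a103_1 a103_2 a103_3 q103 =>
  invK c103 a103_1 a103_2 a103_3 q103 fun c105 a105_1 a105_2 a105_3 q105 =>
  mulK c32 a32_1 a32_2 a32_3 q32 c38 a38_1 a38_2 a38_3 q38 fun c106 a106_1 a106_2 a106_3 q106 =>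
  mulK c106 a106_1 a106_2 a106_3 q106 c105 a105_1 a105_2 a105_3 q105 fun c107 a107_1 a107_2 a107_3 q107 =>
  addK c102 a102_1 a102_2 a102_3 q102 c107 a107_1 a107_2 a107_3 q107 fun c109 a109_1 a109_2 a109_3 q109 =>
  smulK 2 1 1152921504606846977 2305843009213693952 c26 a26_1 a26_2 a26_3 q26 fun c110 a110_1 a110_2 a110_3 q110 =>
  addK c109 a109_1 a109_2 a109_3 q109 c110 a110_1 a110_2 a110_3 q110 fun c111 a111_1 a111_2 a111_3 q111 =>
  mulK c93 a93_1 a93_2 a93_3 q93 c111 a111_1 a111_2 a111_3 q111 fun c112 a112_1 a112_2 a112_3 q112 =>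
  addK c100 a100_1 a100_2 a100_3 q100 c112 a112_1 a112_2 a112_3 q112 fun c113 a113_1 a113_2 a113_3 q113 =>
  mulK z2 1152921504606846976 (Nat.add w2 1152921504606846976) 1152921504606846976 0 c38 a38_1 a38_2 a38_3 q38 fun c114 a114_1 a114_2 a114_3 q114 =>
  smulK 33 50 57646075230342348850 38046409652025950208 c114 a114_1 a114_2 a114_3 q114 fun c115 a115_1 a115_2 a115_3 q115 =>
  addcK c115 a115_1 a115_2 a115_3 q115 1152921614558009754 1 fun c116 a116_1 a116_2 a116_3 q116 =>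
  mulK c66 a66_1 a66_2 a66_3 q66 c116 a116_1 a116_2 a116_3 q116 fun c119 a119_1 a119_2 a119_3 q119 =>
  sqK c119 a119_1 a119_2 a119_3 q119 fun c120 a120_1 a120_2 a120_3 q120 =>
  smulK 2 1 1152921504606846977 2305843009213693952 z1 (Nat.add w1 1152921504606846976) 1152921504606846976 1152921504606846976 0 fun c121 a121_1 a121_2 a121_3 q121 =>
  mulK c121 a121_1 a121_2 a121_3 q121 c62 a62_1 a62_2 a62_3 q62 fun c122 a122_1 a122_2 a122_3 q122 =>
  sqK c122 a122_1 a122_2 a122_3 q122 fun c125 a125_1 a125_2 a125_3 q125 =>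
  addK c120 a120_1 a120_2 a120_3 q120 c125 a125_1 a125_2 a125_3 q125 fun c126 a126_1 a126_2 a126_3 q126 =>
  sqrtK c126 a126_1 a126_2 a126_3 q126 fun c127 a127_1 a127_2 a127_3 q127 =>
  addK c119 a119_1 a119_2 a119_3 q119 c127 a127_1 a127_2 a127_3 q127 fun c129 a129_1 a129_2 a129_3 q129 =>
  invK c129 a129_1 a129_2 a129_3 q129 fun c130 a130_1 a130_2 a130_3 q130 =>
  mulK c116 a116_1 a116_2 a116_3 q116 c130 a130_1 a130_2 a130_3 q130 fun c131 a131_1 a131_2 a131_3 q131 =>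
  mulK c131 a131_1 a131_2 a131_3 q131 c105 a105_1 a105_2 a105_3 q105 fun c134 a134_1 a134_2 a134_3 q134 =>
  addK c127 a127_1 a127_2 a127_3 q127 c122 a122_1 a122_2 a122_3 q122 fun c136 a136_1 a136_2 a136_3 q136 =>
  invK c136 a136_1 a136_2 a136_3 q136 fun c137 a137_1 a137_2 a137_3 q137 =>
  mulK c119 a119_1 a119_2 a119_3 q119 c137 a137_1 a137_2 a137_3 q137 fun c138 a138_1 a138_2 a138_3 q138 =>
  mulK c138 a138_1 a138_2 a138_3 q138 c93 a93_1 a93_2 a93_3 q93 fun c141 a141_1 a141_2 a141_3 q141 =>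
  addK c134 a134_1 a134_2 a134_3 q134 c141 a141_1 a141_2 a141_3 q141 fun c142 a142_1 a142_2 a142_3 q142 =>
  mulK c38 a38_1 a38_2 a38_3 q38 c142 a142_1 a142_2 a142_3 q142 fun c143 a143_1 a143_2 a143_3 q143 =>
  subK c113 a113_1 a113_2 a113_3 q113 c143 a143_1 a143_2 a143_3 q143 fun c144 a144_1 a144_2 a144_3 q144 =>
  smulK 2 1 1152921504606846977 2305843009213693952 c144 a144_1 a144_2 a144_3 q144 fun c146 a146_1 a146_2 a146_3 q146 =>
  addcK c122 a122_1 a122_2 a122_3 q122 1152922604118474752 0 fun c147 a147_1 a147_2 a147_3 q147 =>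
  invK c147 a147_1 a147_2 a147_3 q147 fun c149 a149_1 a149_2 a149_3 q149 =>
  mulK c66 a66_1 a66_2 a66_3 q66 c149 a149_1 a149_2 a149_3 q149 fun c150 a150_1 a150_2 a150_3 q150 =>
  addcK c150 a150_1 a150_2 a150_3 q150 1152923703630102528 0 fun c152 a152_1 a152_2 a152_3 q152 =>
  mulK c152 a152_1 a152_2 a152_3 q152 c93 a93_1 a93_2 a93_3 q93 fun c154 a154_1 a154_2 a154_3 q154 =>
  mulK c24 a24_1 a24_2 a24_3 q24 c154 a154_1 a154_2 a154_3 q154 fun c155 a155_1 a155_2 a155_3 q155 =>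
  smulK 13 50 57646075230342348850 14987979559889010688 c155 a155_1 a155_2 a155_3 q155 fun c157 a157_1 a157_2 a157_3 q157 =>
  subK c146 a146_1 a146_2 a146_3 q146 c157 a157_1 a157_2 a157_3 q157 fun c158 a158_1 a158_2 a158_3 q158 =>
  posK c158 a158_1 a158_2 a158_3 q158 <|
  mulK c1 a1_1 a1_2 a1_3 q1 c57 a57_1 a57_2 a57_3 q57 fun c160 a160_1 a160_2 a160_3 q160 =>
  smulK 2 1 1152921504606846977 2305843009213693952 c160 a160_1 a160_2 a160_3 q160 fun c161 a161_1 a161_2 a161_3 q161 =>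
  mulK c125 a125_1 a125_2 a125_3 q125 c158 a158_1 a158_2 a158_3 q158 fun c162 a162_1 a162_2 a162_3 q162 =>
  addK c161 a161_1 a161_2 a161_3 q161 c162 a162_1 a162_2 a162_3 q162 fun c163 a163_1 a163_2 a163_3 q163 =>
  mulK c66 a66_1 a66_2 a66_3 q66 c7 a7_1 a7_2 a7_3 q7 fun c165 a165_1 a165_2 a165_3 q165 =>
  mulK c24 a24_1 a24_2 a24_3 q24 c165 a165_1 a165_2 a165_3 q165 fun c166 a166_1 a166_2 a166_3 q166 =>
  smulK 1 125 144115188075855872125 1152921504606846976 c166 a166_1 a166_2 a166_3 q166 fun c167 a167_1 a167_2 a167_3 q167 =>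
  mulK c125 a125_1 a125_2 a125_3 q125 c144 a144_1 a144_2 a144_3 q144 fun c168 a168_1 a168_2 a168_3 q168 =>
  addK c160 a160_1 a160_2 a160_3 q160 c168 a168_1 a168_2 a168_3 q168 fun c169 a169_1 a169_2 a169_3 q169 =>
  smulK 2 1 1152921504606846977 2305843009213693952 c169 a169_1 a169_2 a169_3 q169 fun c171 a171_1 a171_2 a171_3 q171 =>
  subK c167 a167_1 a167_2 a167_3 q167 c171 a171_1 a171_2 a171_3 q171 fun c172 a172_1 a172_2 a172_3 q172 =>
  mulK c69 a69_1 a69_2 a69_3 q69 c5 a5_1 a5_2 a5_3 q5 fun c173 a173_1 a173_2 a173_3 q173 =>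
  negK c173 a173_1 a173_2 a173_3 q173 fun c174 a174_1 a174_2 a174_3 q174 =>
  addcK c174 a174_1 a174_2 a174_3 q174 1152922604118474752 0 fun c175 a175_1 a175_2 a175_3 q175 =>
  sqrtK c175 a175_1 a175_2 a175_3 q175 fun c177 a177_1 a177_2 a177_3 q177 =>
  addcK c177 a177_1 a177_2 a177_3 q177 1152922604118474752 0 fun c179 a179_1 a179_2 a179_3 q179 =>
  mulK z3 1152921504606846976 1152921504606846976 (Nat.add w3 1152921504606846976) 0 c179 a179_1 a179_2 a179_3 q179 fun c181 a181_1 a181_2 a181_3 q181 =>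
  mulK z2 1152921504606846976 (Nat.add w2 1152921504606846976) 1152921504606846976 0 c66 a66_1 a66_2 a66_3 q66 fun c182 a182_1 a182_2 a182_3 q182 =>
  mulK c182 a182_1 a182_2 a182_3 q182 c1 a1_1 a1_2 a1_3 q1 fun c183 a183_1 a183_2 a183_3 q183 =>
  invK c179 a179_1 a179_2 a179_3 q179 fun c184 a184_1 a184_2 a184_3 q184 =>
  negK c184 a184_1 a184_2 a184_3 q184 fun c186 a186_1 a186_2 a186_3 q186 =>
  addcK c186 a186_1 a186_2 a186_3 q186 1152923703630102528 0 fun c187 a187_1 a187_2 a187_3 q187 =>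
  mulK c183 a183_1 a183_2 a183_3 q183 c187 a187_1 a187_2 a187_3 q187 fun c189 a189_1 a189_2 a189_3 q189 =>
  subK c181 a181_1 a181_2 a181_3 q181 c189 a189_1 a189_2 a189_3 q189 fun c190 a190_1 a190_2 a190_3 q190 =>
  mulK z2 1152921504606846976 (Nat.add w2 1152921504606846976) 1152921504606846976 0 c24 a24_1 a24_2 a24_3 q24 fun c192 a192_1 a192_2 a192_3 q192 =>
  smulK 2 1 1152921504606846977 2305843009213693952 c192 a192_1 a192_2 a192_3 q192 fun c193 a193_1 a193_2 a193_3 q193 =>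
  smulK 11 50 57646075230342348850 12682136550675316736 c193 a193_1 a193_2 a193_3 q193 fun c195 a195_1 a195_2 a195_3 q195 =>
  addcK c195 a195_1 a195_2 a195_3 q195 1152922340235684086 1 fun c196 a196_1 a196_2 a196_3 q196 =>
  mulK c193 a193_1 a193_2 a193_3 q193 c196 a196_1 a196_2 a196_3 q196 fun c198 a198_1 a198_2 a198_3 q198 =>
  negK c198 a198_1 a198_2 a198_3 q198 fun c199 a199_1 a199_2 a199_3 q199 =>
  addcK c199 a199_1 a199_2 a199_3 q199 1152923703630102528 0 fun c200 a200_1 a200_2 a200_3 q200 =>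
  mulK c190 a190_1 a190_2 a190_3 q190 c200 a200_1 a200_2 a200_3 q200 fun c202 a202_1 a202_2 a202_3 q202 =>
  subK c172 a172_1 a172_2 a172_3 q172 c202 a202_1 a202_2 a202_3 q202 fun c203 a203_1 a203_2 a203_3 q203 =>
  mulK c125 a125_1 a125_2 a125_3 q125 c155 a155_1 a155_2 a155_3 q155 fun c204 a204_1 a204_2 a204_3 q204 =>
  smulK 12 25 28823037615171174425 13835058055282163712 c204 a204_1 a204_2 a204_3 q204 fun c205 a205_1 a205_2 a205_3 q205 =>
  subK c203 a203_1 a203_2 a203_3 q203 c205 a205_1 a205_2 a205_3 q205 fun c206 a206_1 a206_2 a206_3 q206 =>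
  smulK 9 20 23058430092136939540 10376293541461622784 c206 a206_1 a206_2 a206_3 q206 fun c208 a208_1 a208_2 a208_3 q208 =>
  addK c163 a163_1 a163_2 a163_3 q163 c208 a208_1 a208_2 a208_3 q208 fun c209 a209_1 a209_2 a209_3 q209 =>
  smulK 2 1 1152921504606846977 2305843009213693952 c166 a166_1 a166_2 a166_3 q166 fun c210 a210_1 a210_2 a210_3 q210 =>
  addK c169 a169_1 a169_2 a169_3 q169 c210 a210_1 a210_2 a210_3 q210 fun c211 a211_1 a211_2 a211_3 q211 =>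
  smulK 3 25 28823037615171174425 3458764513820540928 c193 a193_1 a193_2 a193_3 q193 fun c212 a212_1 a212_2 a212_3 q212 =>
  addcK c212 a212_1 a212_2 a212_3 q212 1152922527152660808 1 fun c213 a213_1 a213_2 a213_3 q213 =>
  mulK c193 a193_1 a193_2 a193_3 q193 c213 a213_1 a213_2 a213_3 q213 fun c215 a215_1 a215_2 a215_3 q215 =>
  negK c215 a215_1 a215_2 a215_3 q215 fun c216 a216_1 a216_2 a216_3 q216 =>
  addcK c216 a216_1 a216_2 a216_3 q216 1152922604118474752 0 fun c217 a217_1 a217_2 a217_3 q217 =>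
  mulK c190 a190_1 a190_2 a190_3 q190 c217 a217_1 a217_2 a217_3 q217 fun c219 a219_1 a219_2 a219_3 q219 =>
  addK c211 a211_1 a211_2 a211_3 q211 c219 a219_1 a219_2 a219_3 q219 fun c220 a220_1 a220_2 a220_3 q220 =>
  smulK 21 25 28823037615171174425 24211351596743786496 c204 a204_1 a204_2 a204_3 q204 fun c221 a221_1 a221_2 a221_3 q221 =>
  addK c220 a220_1 a220_2 a220_3 q220 c221 a221_1 a221_2 a221_3 q221 fun c222 a222_1 a222_2 a222_3 q222 =>
  smulK 81 400 461168601842738790800 93386641873154605056 c222 a222_1 a222_2 a222_3 q222 fun c224 a224_1 a224_2 a224_3 q224 =>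
  addK c209 a209_1 a209_2 a209_3 q209 c224 a224_1 a224_2 a224_3 q224 fun c225 a225_1 a225_2 a225_3 q225 =>
  posK c225 a225_1 a225_2 a225_3 q225 <|
  smulK 9 40 46116860184273879080 10376293541461622784 c206 a206_1 a206_2 a206_3 q206 fun c227 a227_1 a227_2 a227_3 q227 =>
  addK c163 a163_1 a163_2 a163_3 q163 c227 a227_1 a227_2 a227_3 q227 fun c228 a228_1 a228_2 a228_3 q228 =>
  pos c228 a228_1 a228_2 a228_3 q228

theorem alt1_s {z1 w1 z2 w2 z3 w3 : ℕ} {e1 e2 e3 w e o : ℝ} (he : Ev e1 e2 e3)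
    (hx1 : In e1 e2 e3 z1 (Nat.add w1 1152921504606846976) 1152921504606846976 1152921504606846976 0 w)
    (hx2 : In e1 e2 e3 z2 1152921504606846976 (Nat.add w2 1152921504606846976) 1152921504606846976 0 e)
    (hx3 : In e1 e2 e3 z3 1152921504606846976 1152921504606846976 (Nat.add w3 1152921504606846976) 0 o)
    (H0 : alt1 z1 w1 z2 w2 z3 w3 = true) : 0 < (G1 w e o) ∧ 0 < (G3 w e o) ∧ 0 < (c0 w e o) ∧ 0 < (c1 w e o) := by
  unfold alt1 at H0
  refine sqK_s he hx3 (fun _ _ _ _ _ h1 H1 => ?_) H0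
  have h2 := In_cast (w := (oo w e o)) h1 rfl
  refine sqK_s he hx2 (fun _ _ _ _ _ h3 H2 => ?_) H1
  have h4 := In_cast (w := (ee w e o)) h3 rfl
  refine mulK_s he h4 h2 (fun _ _ _ _ _ h5 H3 => ?_) H2
  refine negK_s he h5 (fun _ _ _ _ _ h6 H4 => ?_) H3
  refine addcK_s he h6 (v' := (1:ℝ)) (by norm_num [SS, BB, abs_le]) (fun _ _ _ _ _ h7 H5 => ?_) H4
  have h8 := In_cast h7 (neg_add_eq_sub _ _)
  have h9 := In_cast (w := (d w e o)) h8 rfl
  refine addK_s he h2 h9 (fun _ _ _ _ _ h10 H6 => ?_) H5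
  have h11 := In_cast (w := (zz w e o)) h10 rfl
  refine sqrtK_s he h11 (fun _ _ _ _ _ h12 H7 => ?_) H6
  have h13 := In_cast (w := (z w e o)) h12 rfl
  refine mulK_s he h4 h11 (fun _ _ _ _ _ h14 H8 => ?_) H7
  refine negK_s he h14 (fun _ _ _ _ _ h15 H9 => ?_) H8
  refine addcK_s he h15 (v' := (1:ℝ)) (by norm_num [SS, BB, abs_le]) (fun _ _ _ _ _ h16 H10 => ?_) H9
  have h17 := In_cast h16 (neg_add_eq_sub _ _)
  refine sqrtK_s he h17 (fun _ _ _ _ _ h18 H11 => ?_) H10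
  have h19 := In_cast (w := (vb w e o)) h18 rfl
  refine mulK_s he h13 h19 (fun _ _ _ _ _ h20 H12 => ?_) H11
  refine negK_s he h4 (fun _ _ _ _ _ h21 H13 => ?_) H12
  refine addcK_s he h21 (v' := (1:ℝ)) (by norm_num [SS, BB, abs_le]) (fun _ _ _ _ _ h22 H14 => ?_) H13
  have h23 := In_cast h22 (neg_add_eq_sub _ _)
  refine sqrtK_s he h23 (fun _ _ _ _ _ h24 H15 => ?_) H14
  have h25 := In_cast (w := (be w e o)) h24 rfl
  refine mulK_s he h25 h9 (fun _ _ _ _ _ h26 H16 => ?_) H15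
  refine addK_s he h20 h26 (fun _ _ _ _ _ h27 H17 => ?_) H16
  refine invK_s he h27 (fun _ _ _ _ _ h28 H18 => ?_) H17
  refine mulK_s he h23 h9 (fun _ _ _ _ _ h29 H19 => ?_) H18
  refine mulK_s he h29 h28 (fun _ _ _ _ _ h30 H20 => ?_) H19
  have h31 := In_cast h30 ((div_eq_mul_inv _ _).symm)
  refine mulK_s he h4 h9 (fun _ _ _ _ _ h32 H21 => ?_) H20
  refine negK_s he h32 (fun _ _ _ _ _ h33 H22 => ?_) H21
  refine addcK_s he h33 (v' := (1:ℝ)) (by norm_num [SS, BB, abs_le]) (fun _ _ _ _ _ h34 H23 => ?_) H22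
  have h35 := In_cast h34 (neg_add_eq_sub _ _)
  refine sqrtK_s he h35 (fun _ _ _ _ _ h36 H24 => ?_) H23
  have h37 := In_cast (w := (ka w e o)) h36 rfl
  refine sqrtK_s he h9 (fun _ _ _ _ _ h38 H25 => ?_) H24
  have h39 := In_cast (w := (sd w e o)) h38 rfl
  refine mulK_s he h25 h39 (fun _ _ _ _ _ h40 H26 => ?_) H25
  refine addK_s he h37 h40 (fun _ _ _ _ _ h41 H27 => ?_) H26
  refine invK_s he h41 (fun _ _ _ _ _ h42 H28 => ?_) H27
  refine mulK_s he h4 h39 (fun _ _ _ _ _ h43 H29 => ?_) H28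
  refine mulK_s he h43 h42 (fun _ _ _ _ _ h44 H30 => ?_) H29
  have h45 := In_cast h44 ((div_eq_mul_inv _ _).symm)
  refine addK_s he h31 h45 (fun _ _ _ _ _ h46 H31 => ?_) H30
  refine smulK_s he (w := (2:ℝ)) (by norm_num) (by norm_num) (by norm_num) (by norm_num) hx2 (fun _ _ _ _ _ h47 H32 => ?_) H31
  refine subK_s he h46 h47 (fun _ _ _ _ _ h48 H33 => ?_) H32
  refine addK_s he h37 h19 (fun _ _ _ _ _ h49 H34 => ?_) H33
  refine invK_s he h49 (fun _ _ _ _ _ h50 H35 => ?_) H34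
  refine mulK_s he hx2 h50 (fun _ _ _ _ _ h51 H36 => ?_) H35
  have h52 := In_cast h51 ((div_eq_mul_inv _ _).symm)
  refine addK_s he h48 h52 (fun _ _ _ _ _ h53 H37 => ?_) H36
  refine addK_s he h13 h39 (fun _ _ _ _ _ h54 H38 => ?_) H37
  refine invK_s he h54 (fun _ _ _ _ _ h55 H39 => ?_) H38
  have h56 := In_cast h55 (inv_eq_one_div _)
  refine addK_s he h53 h56 (fun _ _ _ _ _ h57 H40 => ?_) H39
  have h58 := In_cast (w := (G1 w e o)) h57 rfl
  refine posK_s he h58 (fun p0 H41 => ?_) H40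
  refine sqK_s he hx1 (fun _ _ _ _ _ h59 H42 => ?_) H41
  refine addcK_s he h59 (v' := (1:ℝ)) (by norm_num [SS, BB, abs_le]) (fun _ _ _ _ _ h60 H43 => ?_) H42
  have h61 := In_cast h60 (add_comm _ _)
  refine invK_s he h61 (fun _ _ _ _ _ h62 H44 => ?_) H43
  refine negK_s he h59 (fun _ _ _ _ _ h63 H45 => ?_) H44
  refine addcK_s he h63 (v' := (1:ℝ)) (by norm_num [SS, BB, abs_le]) (fun _ _ _ _ _ h64 H46 => ?_) H45
  have h65 := In_cast h64 (neg_add_eq_sub _ _)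
  refine mulK_s he h65 h62 (fun _ _ _ _ _ h66 H47 => ?_) H46
  have h67 := In_cast h66 ((div_eq_mul_inv _ _).symm)
  have h68 := In_cast (w := (R w e o)) h67 rfl
  refine sqK_s he h68 (fun _ _ _ _ _ h69 H48 => ?_) H47
  refine mulK_s he h69 h14 (fun _ _ _ _ _ h70 H49 => ?_) H48
  refine negK_s he h70 (fun _ _ _ _ _ h71 H50 => ?_) H49
  refine addcK_s he h71 (v' := (1:ℝ)) (by norm_num [SS, BB, abs_le]) (fun _ _ _ _ _ h72 H51 => ?_) H50
  have h73 := In_cast h72 (neg_add_eq_sub _ _)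
  refine sqrtK_s he h73 (fun _ _ _ _ _ h74 H52 => ?_) H51
  have h75 := In_cast (w := (vx w e o)) h74 rfl
  refine addK_s he h75 h19 (fun _ _ _ _ _ h76 H53 => ?_) H52
  refine invK_s he h76 (fun _ _ _ _ _ h77 H54 => ?_) H53
  refine mulK_s he h14 h13 (fun _ _ _ _ _ h78 H55 => ?_) H54
  refine mulK_s he h78 h77 (fun _ _ _ _ _ h79 H56 => ?_) H55
  have h80 := In_cast h79 ((div_eq_mul_inv _ _).symm)
  refine addcK_s he h75 (v' := (1:ℝ)) (by norm_num [SS, BB, abs_le]) (fun _ _ _ _ _ h81 H57 => ?_) H56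
  have h82 := In_cast h81 (add_comm _ _)
  refine invK_s he h82 (fun _ _ _ _ _ h83 H58 => ?_) H57
  refine mulK_s he hx2 h11 (fun _ _ _ _ _ h84 H59 => ?_) H58
  refine addcK_s he h19 (v' := (1:ℝ)) (by norm_num [SS, BB, abs_le]) (fun _ _ _ _ _ h85 H60 => ?_) H59
  have h86 := In_cast h85 (add_comm _ _)
  refine mulK_s he h76 h86 (fun _ _ _ _ _ h87 H61 => ?_) H60
  refine invK_s he h87 (fun _ _ _ _ _ h88 H62 => ?_) H61
  refine mulK_s he h14 h88 (fun _ _ _ _ _ h89 H63 => ?_) H62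
  have h90 := In_cast h89 ((div_eq_mul_inv _ _).symm)
  refine addcK_s he h68 (v' := (1:ℝ)) (by norm_num [SS, BB, abs_le]) (fun _ _ _ _ _ h91 H64 => ?_) H63
  have h92 := In_cast h91 (add_comm _ _)
  refine invK_s he h92 (fun _ _ _ _ _ h93 H65 => ?_) H64
  have h94 := In_cast h93 (inv_eq_one_div _)
  have h95 := In_cast (w := (g w e o)) h94 rfl
  refine addK_s he h90 h95 (fun _ _ _ _ _ h96 H66 => ?_) H65
  refine mulK_s he h84 h96 (fun _ _ _ _ _ h97 H67 => ?_) H66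
  refine mulK_s he h97 h83 (fun _ _ _ _ _ h98 H68 => ?_) H67
  have h99 := In_cast h98 ((div_eq_mul_inv _ _).symm)
  refine subK_s he h80 h99 (fun _ _ _ _ _ h100 H69 => ?_) H68
  refine mulK_s he hx2 h2 (fun _ _ _ _ _ h101 H70 => ?_) H69
  refine smulK_s he (w := (2:ℝ)) (by norm_num) (by norm_num) (by norm_num) (by norm_num) h101 (fun _ _ _ _ _ h102 H71 => ?_) H70
  refine addcK_s he h37 (v' := (1:ℝ)) (by norm_num [SS, BB, abs_le]) (fun _ _ _ _ _ h103 H72 => ?_) H71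
  have h104 := In_cast h103 (add_comm _ _)
  refine invK_s he h104 (fun _ _ _ _ _ h105 H73 => ?_) H72
  refine mulK_s he h32 h39 (fun _ _ _ _ _ h106 H74 => ?_) H73
  refine mulK_s he h106 h105 (fun _ _ _ _ _ h107 H75 => ?_) H74
  have h108 := In_cast h107 ((div_eq_mul_inv _ _).symm)
  refine addK_s he h102 h108 (fun _ _ _ _ _ h109 H76 => ?_) H75
  refine smulK_s he (w := (2:ℝ)) (by norm_num) (by norm_num) (by norm_num) (by norm_num) h26 (fun _ _ _ _ _ h110 H77 => ?_) H76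
  refine addK_s he h109 h110 (fun _ _ _ _ _ h111 H78 => ?_) H77
  refine mulK_s he h95 h111 (fun _ _ _ _ _ h112 H79 => ?_) H78
  refine addK_s he h100 h112 (fun _ _ _ _ _ h113 H80 => ?_) H79
  refine mulK_s he hx2 h39 (fun _ _ _ _ _ h114 H81 => ?_) H80
  refine smulK_s he (w := (33/50:ℝ)) (by norm_num) (by norm_num) (by norm_num) (by norm_num) h114 (fun _ _ _ _ _ h115 H82 => ?_) H81
  refine addcK_s he h115 (v' := (1/10:ℝ)) (by norm_num [SS, BB, abs_le]) (fun _ _ _ _ _ h116 H83 => ?_) H82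
  have h117 := In_cast h116 (add_comm _ _)
  have h118 := In_cast (w := (hh w e o)) h117 rfl
  refine mulK_s he h68 h118 (fun _ _ _ _ _ h119 H84 => ?_) H83
  refine sqK_s he h119 (fun _ _ _ _ _ h120 H85 => ?_) H84
  refine smulK_s he (w := (2:ℝ)) (by norm_num) (by norm_num) (by norm_num) (by norm_num) hx1 (fun _ _ _ _ _ h121 H86 => ?_) H85
  refine mulK_s he h121 h62 (fun _ _ _ _ _ h122 H87 => ?_) H86
  have h123 := In_cast h122 ((div_eq_mul_inv _ _).symm)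
  have h124 := In_cast (w := (a w e o)) h123 rfl
  refine sqK_s he h124 (fun _ _ _ _ _ h125 H88 => ?_) H87
  refine addK_s he h120 h125 (fun _ _ _ _ _ h126 H89 => ?_) H88
  refine sqrtK_s he h126 (fun _ _ _ _ _ h127 H90 => ?_) H89
  have h128 := In_cast (w := (Y w e o)) h127 rfl
  refine addK_s he h119 h128 (fun _ _ _ _ _ h129 H91 => ?_) H90
  refine invK_s he h129 (fun _ _ _ _ _ h130 H92 => ?_) H91
  refine mulK_s he h118 h130 (fun _ _ _ _ _ h131 H93 => ?_) H92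
  have h132 := In_cast h131 ((div_eq_mul_inv _ _).symm)
  have h133 := In_cast (w := (M1 w e o)) h132 rfl
  refine mulK_s he h133 h105 (fun _ _ _ _ _ h134 H94 => ?_) H93
  have h135 := In_cast h134 ((div_eq_mul_inv _ _).symm)
  refine addK_s he h128 h124 (fun _ _ _ _ _ h136 H95 => ?_) H94
  refine invK_s he h136 (fun _ _ _ _ _ h137 H96 => ?_) H95
  refine mulK_s he h119 h137 (fun _ _ _ _ _ h138 H97 => ?_) H96
  have h139 := In_cast h138 ((div_eq_mul_inv _ _).symm)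
  have h140 := In_cast (w := (M2 w e o)) h139 rfl
  refine mulK_s he h140 h95 (fun _ _ _ _ _ h141 H98 => ?_) H97
  refine addK_s he h135 h141 (fun _ _ _ _ _ h142 H99 => ?_) H98
  refine mulK_s he h39 h142 (fun _ _ _ _ _ h143 H100 => ?_) H99
  refine subK_s he h113 h143 (fun _ _ _ _ _ h144 H101 => ?_) H100
  have h145 := In_cast (w := (G2 w e o)) h144 rfl
  refine smulK_s he (w := (2:ℝ)) (by norm_num) (by norm_num) (by norm_num) (by norm_num) h145 (fun _ _ _ _ _ h146 H102 => ?_) H101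
  refine addcK_s he h124 (v' := (1:ℝ)) (by norm_num [SS, BB, abs_le]) (fun _ _ _ _ _ h147 H103 => ?_) H102
  have h148 := In_cast h147 (add_comm _ _)
  refine invK_s he h148 (fun _ _ _ _ _ h149 H104 => ?_) H103
  refine mulK_s he h68 h149 (fun _ _ _ _ _ h150 H105 => ?_) H104
  have h151 := In_cast h150 ((div_eq_mul_inv _ _).symm)
  refine addcK_s he h151 (v' := (2:ℝ)) (by norm_num [SS, BB, abs_le]) (fun _ _ _ _ _ h152 H106 => ?_) H105
  have h153 := In_cast h152 (add_comm _ _)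
  refine mulK_s he h153 h95 (fun _ _ _ _ _ h154 H107 => ?_) H106
  refine mulK_s he h25 h154 (fun _ _ _ _ _ h155 H108 => ?_) H107
  have h156 := In_cast (w := (N0 w e o)) h155 rfl
  refine smulK_s he (w := (13/50:ℝ)) (by norm_num) (by norm_num) (by norm_num) (by norm_num) h156 (fun _ _ _ _ _ h157 H109 => ?_) H108
  refine subK_s he h146 h157 (fun _ _ _ _ _ h158 H110 => ?_) H109
  have h159 := In_cast (w := (G3 w e o)) h158 rfl
  refine posK_s he h159 (fun p1 H111 => ?_) H110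
  refine mulK_s he h2 h58 (fun _ _ _ _ _ h160 H112 => ?_) H111
  refine smulK_s he (w := (2:ℝ)) (by norm_num) (by norm_num) (by norm_num) (by norm_num) h160 (fun _ _ _ _ _ h161 H113 => ?_) H112
  refine mulK_s he h125 h159 (fun _ _ _ _ _ h162 H114 => ?_) H113
  refine addK_s he h161 h162 (fun _ _ _ _ _ h163 H115 => ?_) H114
  have h164 := In_cast (w := (C w e o)) h163 rfl
  refine mulK_s he h68 h9 (fun _ _ _ _ _ h165 H116 => ?_) H115
  refine mulK_s he h25 h165 (fun _ _ _ _ _ h166 H117 => ?_) H116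
  refine smulK_s he (w := (1/125:ℝ)) (by norm_num) (by norm_num) (by norm_num) (by norm_num) h166 (fun _ _ _ _ _ h167 H118 => ?_) H117
  refine mulK_s he h125 h145 (fun _ _ _ _ _ h168 H119 => ?_) H118
  refine addK_s he h160 h168 (fun _ _ _ _ _ h169 H120 => ?_) H119
  have h170 := In_cast (w := (Ga w e o)) h169 rfl
  refine smulK_s he (w := (2:ℝ)) (by norm_num) (by norm_num) (by norm_num) (by norm_num) h170 (fun _ _ _ _ _ h171 H121 => ?_) H120
  refine subK_s he h167 h171 (fun _ _ _ _ _ h172 H122 => ?_) H121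
  refine mulK_s he h69 h5 (fun _ _ _ _ _ h173 H123 => ?_) H122
  refine negK_s he h173 (fun _ _ _ _ _ h174 H124 => ?_) H123
  refine addcK_s he h174 (v' := (1:ℝ)) (by norm_num [SS, BB, abs_le]) (fun _ _ _ _ _ h175 H125 => ?_) H124
  have h176 := In_cast h175 (neg_add_eq_sub _ _)
  refine sqrtK_s he h176 (fun _ _ _ _ _ h177 H126 => ?_) H125
  have h178 := In_cast (w := (v1 w e o)) h177 rfl
  refine addcK_s he h178 (v' := (1:ℝ)) (by norm_num [SS, BB, abs_le]) (fun _ _ _ _ _ h179 H127 => ?_) H126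
  have h180 := In_cast h179 (add_comm _ _)
  refine mulK_s he hx3 h180 (fun _ _ _ _ _ h181 H128 => ?_) H127
  refine mulK_s he hx2 h68 (fun _ _ _ _ _ h182 H129 => ?_) H128
  refine mulK_s he h182 h2 (fun _ _ _ _ _ h183 H130 => ?_) H129
  refine invK_s he h180 (fun _ _ _ _ _ h184 H131 => ?_) H130
  have h185 := In_cast h184 (inv_eq_one_div _)
  refine negK_s he h185 (fun _ _ _ _ _ h186 H132 => ?_) H131
  refine addcK_s he h186 (v' := (2:ℝ)) (by norm_num [SS, BB, abs_le]) (fun _ _ _ _ _ h187 H133 => ?_) H132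
  have h188 := In_cast h187 (neg_add_eq_sub _ _)
  refine mulK_s he h183 h188 (fun _ _ _ _ _ h189 H134 => ?_) H133
  refine subK_s he h181 h189 (fun _ _ _ _ _ h190 H135 => ?_) H134
  have h191 := In_cast (w := (U1 w e o)) h190 rfl
  refine mulK_s he hx2 h25 (fun _ _ _ _ _ h192 H136 => ?_) H135
  refine smulK_s he (w := (2:ℝ)) (by norm_num) (by norm_num) (by norm_num) (by norm_num) h192 (fun _ _ _ _ _ h193 H137 => ?_) H136
  have h194 := In_cast (w := (s w e o)) h193 rfl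
  refine smulK_s he (w := (11/50:ℝ)) (by norm_num) (by norm_num) (by norm_num) (by norm_num) h194 (fun _ _ _ _ _ h195 H138 => ?_) H137
  refine addcK_s he h195 (v' := (19/25:ℝ)) (by norm_num [SS, BB, abs_le]) (fun _ _ _ _ _ h196 H139 => ?_) H138
  have h197 := In_cast h196 (add_comm _ _)
  refine mulK_s he h194 h197 (fun _ _ _ _ _ h198 H140 => ?_) H139
  refine negK_s he h198 (fun _ _ _ _ _ h199 H141 => ?_) H140
  refine addcK_s he h199 (v' := (2:ℝ)) (by norm_num [SS, BB, abs_le]) (fun _ _ _ _ _ h200 H142 => ?_) H141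
  have h201 := In_cast h200 (neg_add_eq_sub _ _)
  refine mulK_s he h191 h201 (fun _ _ _ _ _ h202 H143 => ?_) H142
  refine subK_s he h172 h202 (fun _ _ _ _ _ h203 H144 => ?_) H143
  refine mulK_s he h125 h156 (fun _ _ _ _ _ h204 H145 => ?_) H144
  refine smulK_s he (w := (12/25:ℝ)) (by norm_num) (by norm_num) (by norm_num) (by norm_num) h204 (fun _ _ _ _ _ h205 H146 => ?_) H145
  refine subK_s he h203 h205 (fun _ _ _ _ _ h206 H147 => ?_) H146
  have h207 := In_cast (w := (B w e o)) h206 rfl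
  refine smulK_s he (w := (9/20:ℝ)) (by norm_num) (by norm_num) (by norm_num) (by norm_num) h207 (fun _ _ _ _ _ h208 H148 => ?_) H147
  refine addK_s he h164 h208 (fun _ _ _ _ _ h209 H149 => ?_) H148
  refine smulK_s he (w := (2:ℝ)) (by norm_num) (by norm_num) (by norm_num) (by norm_num) h166 (fun _ _ _ _ _ h210 H150 => ?_) H149
  refine addK_s he h170 h210 (fun _ _ _ _ _ h211 H151 => ?_) H150
  refine smulK_s he (w := (3/25:ℝ)) (by norm_num) (by norm_num) (by norm_num) (by norm_num) h194 (fun _ _ _ _ _ h212 H152 => ?_) H151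
  refine addcK_s he h212 (v' := (93/100:ℝ)) (by norm_num [SS, BB, abs_le]) (fun _ _ _ _ _ h213 H153 => ?_) H152
  have h214 := In_cast h213 (add_comm _ _)
  refine mulK_s he h194 h214 (fun _ _ _ _ _ h215 H154 => ?_) H153
  refine negK_s he h215 (fun _ _ _ _ _ h216 H155 => ?_) H154
  refine addcK_s he h216 (v' := (1:ℝ)) (by norm_num [SS, BB, abs_le]) (fun _ _ _ _ _ h217 H156 => ?_) H155
  have h218 := In_cast h217 (neg_add_eq_sub _ _)
  refine mulK_s he h191 h218 (fun _ _ _ _ _ h219 H157 => ?_) H156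
  refine addK_s he h211 h219 (fun _ _ _ _ _ h220 H158 => ?_) H157
  refine smulK_s he (w := (21/25:ℝ)) (by norm_num) (by norm_num) (by norm_num) (by norm_num) h204 (fun _ _ _ _ _ h221 H159 => ?_) H158
  refine addK_s he h220 h221 (fun _ _ _ _ _ h222 H160 => ?_) H159
  have h223 := In_cast (w := (A w e o)) h222 rfl
  refine smulK_s he (w := (81/400:ℝ)) (by norm_num) (by norm_num) (by norm_num) (by norm_num) h223 (fun _ _ _ _ _ h224 H161 => ?_) H160
  refine addK_s he h209 h224 (fun _ _ _ _ _ h225 H162 => ?_) H161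
  have h226 := In_cast (w := (c0 w e o)) h225 rfl
  refine posK_s he h226 (fun p2 H163 => ?_) H162
  refine smulK_s he (w := (9/40:ℝ)) (by norm_num) (by norm_num) (by norm_num) (by norm_num) h207 (fun _ _ _ _ _ h227 H164 => ?_) H163
  refine addK_s he h164 h227 (fun _ _ _ _ _ h228 H165 => ?_) H164
  have h229 := In_cast (w := (c1 w e o)) h228 rfl
  exact ⟨p0, p1, p2, pos_s he h229 H165⟩

attribute [irreducible] alt0 alt1

noncomputable def leaf (j u z1 w1 z2 w2 z3 w3 : ℕ) : Bool :=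
  sB j (alt0 z1 w1 z2 w2 z3 w3) fun j => alt1 z1 w1 z2 w2 z3 w3

theorem snd : Snd Q leaf := by
  intro j u z1 w1 z2 w2 z3 w3 e1 e2 e3 he H
  unfold leaf at H
  unfold Q
  replace H := sel H
  rcases H with H | ⟨j, H⟩
  · exact Or.inl (alt0_s he (var1 z1 w1) (var2 z2 w2) (var3 z3 w3) H)
  exact Or.inr (alt1_s he (var1 z1 w1) (var2 z2 w2) (var3 z3 w3) H)

end Crest.Agent.R307.UDc
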