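import Crest.Agent.R307.UDc
set_option autoImplicit false
set_option maxRecDepth 100000
namespace Crest.Agent.R307.UDc
open Crest.Agent.R307.IA Crest.Agent.R307.IA3

theorem k0 : Cov Q 1152921504606846976 1152921573326323899 1152921504606846976 1152921585118589241 1152921504606846976 1152921861948130991 :=
  cov_of snd 0 0 16 _ _ _ _ _ _ 0x3303301331332103313313321023313313321033133233210223303302330330233201330330233033023320123303302330330233201333023320330330233201220330330233233213303301203303233033103331020233033013303301233133301203303301330330123330133033012023313310331330330102331331233301330302203303302330330133233302120331330033033013310233033300133330203333020123303312333013310330330422330330422133301342423304242120220202202 (by decide +kernel)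

theorem k1 : Cov Q 1152921504606846976 1152921573326323899 1152921504606846976 1152921585118589241 1152921861948130991 1152922219289408203 :=
  cov_of snd 0 0 9 _ _ _ _ _ _ 0x33300330330013313330102330330133133110330330133033110213303321330332123303302331331013303302331331012103313303203313320233301330331103313303302021330330133033023313310113303302330330233133101120233133103313303302013313310331330330201233033023303302331331011330330233030330302120330331033033032013303310330332012330330233030330302133033023303033030212022 (by decide +kernel)

theorem k2 : Cov Q 1152921504606846976 1152921573326323899 1152921504606846976 1152921585118589241 1152922219289408203 1152922933971964171 :=
  cov_of snd 0 0 10 _ _ _ _ _ _ 0x442442044402440440204441244244210440440133033003303310124404401332433021202224424420442442044244044400224424404404022022442440440204424424421044244044044002244144044044002202211 (by decide +kernel)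

end Crest.Agent.R307.UDc
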