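import Crest.Agent.R307.IA3
import Crest.Agent.R307.IAx
set_option autoImplicit false
set_option linter.unusedVariables false
set_option maxRecDepth 20000
namespace Crest.Agent.R307.UEP
open Crest.Agent.R307.IA Crest.Agent.R307.IA3

theorem In_cast {e1 e2 e3 : ℝ} {x y1 y2 y3 r : ℕ} {v w : ℝ}
    (h : In e1 e2 e3 x y1 y2 y3 r v) (e : v = w) : In e1 e2 e3 x y1 y2 y3 r w := e ▸ h

noncomputable def rh (T c s : ℝ) : ℝ := (√((1:ℝ) - (s * s)))
noncomputable def al (T c s : ℝ) : ℝ := (((1:ℝ) + (rh T c s)) / (2:ℝ))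
noncomputable def ep (T c s : ℝ) : ℝ := (((1:ℝ) - (rh T c s)) / (2:ℝ))
noncomputable def c2 (T c s : ℝ) : ℝ := (c * c)
noncomputable def X2 (T c s : ℝ) : ℝ := ((al T c s) + ((ep T c s) * (c2 T c s)))
noncomputable def gx (T c s : ℝ) : ℝ := (√(X2 T c s))
noncomputable def T2 (T c s : ℝ) : ℝ := (T * T)
noncomputable def rx (T c s : ℝ) : ℝ := (√((1:ℝ) - ((T2 T c s) * (X2 T c s))))
noncomputable def Wx (T c s : ℝ) : ℝ := ((2:ℝ) - (((1:ℝ) + (T * (gx T c s))) * ((1:ℝ) / ((1:ℝ) + (rx T c s)))))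
noncomputable def Y2 (T c s : ℝ) : ℝ := ((ep T c s) + ((al T c s) * (c2 T c s)))
noncomputable def gy (T c s : ℝ) : ℝ := (√(Y2 T c s))
noncomputable def ry (T c s : ℝ) : ℝ := (√((1:ℝ) - ((T2 T c s) * (Y2 T c s))))
noncomputable def Wy (T c s : ℝ) : ℝ := ((2:ℝ) - (((1:ℝ) + (T * (gy T c s))) * ((1:ℝ) / ((1:ℝ) + (ry T c s)))))
noncomputable def r0 (T c s : ℝ) : ℝ := (√((1:ℝ) - ((c2 T c s) * (T2 T c s))))
noncomputable def W0 (T c s : ℝ) : ℝ := ((2:ℝ) - (((1:ℝ) + (c * T)) * ((1:ℝ) / ((1:ℝ) + (r0 T c s)))))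
noncomputable def G (T c s : ℝ) : ℝ := ((((X2 T c s) * (Wx T c s)) + ((Y2 T c s) * (Wy T c s))) - (((1:ℝ) + ((1/5:ℝ) * s)) * ((c2 T c s) * (W0 T c s))))
noncomputable def qq (T c s : ℝ) : ℝ := ((1:ℝ) - (s * ((93/100:ℝ) + ((3/25:ℝ) * s))))
noncomputable def r1 (T c s : ℝ) : ℝ := (√((1:ℝ) - (T2 T c s)))
noncomputable def W1 (T c s : ℝ) : ℝ := ((2:ℝ) - (((1:ℝ) + T) * ((1:ℝ) / ((1:ℝ) + (r1 T c s)))))
noncomputable def C (T c s : ℝ) : ℝ := ((G T c s) + ((qq T c s) * (W1 T c s)))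
noncomputable def pp (T c s : ℝ) : ℝ := ((1:ℝ) - (s * ((-17/100:ℝ) + ((1/10:ℝ) * s))))
noncomputable def sd (T c s : ℝ) : ℝ := (s * ((1:ℝ) - (c2 T c s)))
noncomputable def A (T c s : ℝ) : ℝ := (((G T c s) - ((pp T c s) * (W1 T c s))) - (((81/10000:ℝ) - ((73/5000:ℝ) * s)) * (sd T c s)))
noncomputable def B (T c s : ℝ) : ℝ := ((((qq T c s) - (pp T c s)) * (W1 T c s)) + ((19957/10000:ℝ) * (sd T c s)))

def Q (T c s : ℝ) : Prop :=
  (
  (0 < (C T c s) ∧ 0 < (((4:ℝ) * ((A T c s) * (C T c s))) - ((B T c s) * (B T c s)))) ∨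
  (0 < (C T c s) ∧ 0 < (((34/25:ℝ) * (C T c s)) - (B T c s)) ∧ 0 < (((A T c s) - ((17/25:ℝ) * (B T c s))) + ((289/625:ℝ) * (C T c s)))) ∨
  (0 < (C T c s) ∧ 0 < ((B T c s) - ((2:ℝ) * (C T c s))) ∧ 0 < (((A T c s) - (B T c s)) + (C T c s))))

noncomputable def alt0 (z1 w1 z2 w2 z3 w3 : ℕ) : Bool :=
  sqK z3 1152921504606846976 1152921504606846976 (Nat.add w3 1152921504606846976) 0 fun c1 a1_1 a1_2 a1_3 q1 =>
  negK c1 a1_1 a1_2 a1_3 q1 fun c3 a3_1 a3_2 a3_3 q3 =>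
  addcK c3 a3_1 a3_2 a3_3 q3 1152922604118474752 0 fun c4 a4_1 a4_2 a4_3 q4 =>
  sqrtK c4 a4_1 a4_2 a4_3 q4 fun c6 a6_1 a6_2 a6_3 q6 =>
  addcK c6 a6_1 a6_2 a6_3 q6 1152922604118474752 0 fun c8 a8_1 a8_2 a8_3 q8 =>
  smulK 1 2 2305843009213693954 1152921504606846976 c8 a8_1 a8_2 a8_3 q8 fun c10 a10_1 a10_2 a10_3 q10 =>
  negK c6 a6_1 a6_2 a6_3 q6 fun c13 a13_1 a13_2 a13_3 q13 =>
  addcK c13 a13_1 a13_2 a13_3 q13 1152922604118474752 0 fun c14 a14_1 a14_2 a14_3 q14 =>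
  smulK 1 2 2305843009213693954 1152921504606846976 c14 a14_1 a14_2 a14_3 q14 fun c16 a16_1 a16_2 a16_3 q16 =>
  sqK z2 1152921504606846976 (Nat.add w2 1152921504606846976) 1152921504606846976 0 fun c19 a19_1 a19_2 a19_3 q19 =>
  mulK c16 a16_1 a16_2 a16_3 q16 c19 a19_1 a19_2 a19_3 q19 fun c22 a22_1 a22_2 a22_3 q22 =>
  addK c10 a10_1 a10_2 a10_3 q10 c22 a22_1 a22_2 a22_3 q22 fun c23 a23_1 a23_2 a23_3 q23 =>
  sqrtK c23 a23_1 a23_2 a23_3 q23 fun c25 a25_1 a25_2 a25_3 q25 =>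
  mulK z1 (Nat.add w1 1152921504606846976) 1152921504606846976 1152921504606846976 0 c25 a25_1 a25_2 a25_3 q25 fun c27 a27_1 a27_2 a27_3 q27 =>
  addcK c27 a27_1 a27_2 a27_3 q27 1152922604118474752 0 fun c28 a28_1 a28_2 a28_3 q28 =>
  sqK z1 (Nat.add w1 1152921504606846976) 1152921504606846976 1152921504606846976 0 fun c30 a30_1 a30_2 a30_3 q30 =>
  mulK c30 a30_1 a30_2 a30_3 q30 c23 a23_1 a23_2 a23_3 q23 fun c33 a33_1 a33_2 a33_3 q33 =>
  negK c33 a33_1 a33_2 a33_3 q33 fun c34 a34_1 a34_2 a34_3 q34 =>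
  addcK c34 a34_1 a34_2 a34_3 q34 1152922604118474752 0 fun c35 a35_1 a35_2 a35_3 q35 =>
  sqrtK c35 a35_1 a35_2 a35_3 q35 fun c37 a37_1 a37_2 a37_3 q37 =>
  addcK c37 a37_1 a37_2 a37_3 q37 1152922604118474752 0 fun c39 a39_1 a39_2 a39_3 q39 =>
  invK c39 a39_1 a39_2 a39_3 q39 fun c41 a41_1 a41_2 a41_3 q41 =>
  mulK c28 a28_1 a28_2 a28_3 q28 c41 a41_1 a41_2 a41_3 q41 fun c43 a43_1 a43_2 a43_3 q43 =>
  negK c43 a43_1 a43_2 a43_3 q43 fun c44 a44_1 a44_2 a44_3 q44 =>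
  addcK c44 a44_1 a44_2 a44_3 q44 1152923703630102528 0 fun c45 a45_1 a45_2 a45_3 q45 =>
  mulK c23 a23_1 a23_2 a23_3 q23 c45 a45_1 a45_2 a45_3 q45 fun c48 a48_1 a48_2 a48_3 q48 =>
  mulK c10 a10_1 a10_2 a10_3 q10 c19 a19_1 a19_2 a19_3 q19 fun c49 a49_1 a49_2 a49_3 q49 =>
  addK c16 a16_1 a16_2 a16_3 q16 c49 a49_1 a49_2 a49_3 q49 fun c50 a50_1 a50_2 a50_3 q50 =>
  sqrtK c50 a50_1 a50_2 a50_3 q50 fun c52 a52_1 a52_2 a52_3 q52 =>
  mulK z1 (Nat.add w1 1152921504606846976) 1152921504606846976 1152921504606846976 0 c52 a52_1 a52_2 a52_3 q52 fun c54 a54_1 a54_2 a54_3 q54 =>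
  addcK c54 a54_1 a54_2 a54_3 q54 1152922604118474752 0 fun c55 a55_1 a55_2 a55_3 q55 =>
  mulK c30 a30_1 a30_2 a30_3 q30 c50 a50_1 a50_2 a50_3 q50 fun c57 a57_1 a57_2 a57_3 q57 =>
  negK c57 a57_1 a57_2 a57_3 q57 fun c58 a58_1 a58_2 a58_3 q58 =>
  addcK c58 a58_1 a58_2 a58_3 q58 1152922604118474752 0 fun c59 a59_1 a59_2 a59_3 q59 =>
  sqrtK c59 a59_1 a59_2 a59_3 q59 fun c61 a61_1 a61_2 a61_3 q61 =>
  addcK c61 a61_1 a61_2 a61_3 q61 1152922604118474752 0 fun c63 a63_1 a63_2 a63_3 q63 =>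
  invK c63 a63_1 a63_2 a63_3 q63 fun c65 a65_1 a65_2 a65_3 q65 =>
  mulK c55 a55_1 a55_2 a55_3 q55 c65 a65_1 a65_2 a65_3 q65 fun c67 a67_1 a67_2 a67_3 q67 =>
  negK c67 a67_1 a67_2 a67_3 q67 fun c68 a68_1 a68_2 a68_3 q68 =>
  addcK c68 a68_1 a68_2 a68_3 q68 1152923703630102528 0 fun c69 a69_1 a69_2 a69_3 q69 =>
  mulK c50 a50_1 a50_2 a50_3 q50 c69 a69_1 a69_2 a69_3 q69 fun c72 a72_1 a72_2 a72_3 q72 =>
  addK c48 a48_1 a48_2 a48_3 q48 c72 a72_1 a72_2 a72_3 q72 fun c73 a73_1 a73_2 a73_3 q73 =>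
  smulK 1 5 5764607523034234885 1152921504606846976 z3 1152921504606846976 1152921504606846976 (Nat.add w3 1152921504606846976) 0 fun c74 a74_1 a74_2 a74_3 q74 =>
  addcK c74 a74_1 a74_2 a74_3 q74 1152922604118474752 0 fun c75 a75_1 a75_2 a75_3 q75 =>
  mulK z2 1152921504606846976 (Nat.add w2 1152921504606846976) 1152921504606846976 0 z1 (Nat.add w1 1152921504606846976) 1152921504606846976 1152921504606846976 0 fun c77 a77_1 a77_2 a77_3 q77 =>
  addcK c77 a77_1 a77_2 a77_3 q77 1152922604118474752 0 fun c78 a78_1 a78_2 a78_3 q78 =>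
  mulK c19 a19_1 a19_2 a19_3 q19 c30 a30_1 a30_2 a30_3 q30 fun c80 a80_1 a80_2 a80_3 q80 =>
  negK c80 a80_1 a80_2 a80_3 q80 fun c81 a81_1 a81_2 a81_3 q81 =>
  addcK c81 a81_1 a81_2 a81_3 q81 1152922604118474752 0 fun c82 a82_1 a82_2 a82_3 q82 =>
  sqrtK c82 a82_1 a82_2 a82_3 q82 fun c84 a84_1 a84_2 a84_3 q84 =>
  addcK c84 a84_1 a84_2 a84_3 q84 1152922604118474752 0 fun c86 a86_1 a86_2 a86_3 q86 =>
  invK c86 a86_1 a86_2 a86_3 q86 fun c88 a88_1 a88_2 a88_3 q88 =>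
  mulK c78 a78_1 a78_2 a78_3 q78 c88 a88_1 a88_2 a88_3 q88 fun c90 a90_1 a90_2 a90_3 q90 =>
  negK c90 a90_1 a90_2 a90_3 q90 fun c91 a91_1 a91_2 a91_3 q91 =>
  addcK c91 a91_1 a91_2 a91_3 q91 1152923703630102528 0 fun c92 a92_1 a92_2 a92_3 q92 =>
  mulK c19 a19_1 a19_2 a19_3 q19 c92 a92_1 a92_2 a92_3 q92 fun c95 a95_1 a95_2 a95_3 q95 =>
  mulK c75 a75_1 a75_2 a75_3 q75 c95 a95_1 a95_2 a95_3 q95 fun c96 a96_1 a96_2 a96_3 q96 =>
  subK c73 a73_1 a73_2 a73_3 q73 c96 a96_1 a96_2 a96_3 q96 fun c97 a97_1 a97_2 a97_3 q97 =>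
  smulK 3 25 28823037615171174425 3458764513820540928 z3 1152921504606846976 1152921504606846976 (Nat.add w3 1152921504606846976) 0 fun c99 a99_1 a99_2 a99_3 q99 =>
  addcK c99 a99_1 a99_2 a99_3 q99 1152922527152660808 1 fun c100 a100_1 a100_2 a100_3 q100 =>
  mulK z3 1152921504606846976 1152921504606846976 (Nat.add w3 1152921504606846976) 0 c100 a100_1 a100_2 a100_3 q100 fun c102 a102_1 a102_2 a102_3 q102 =>
  negK c102 a102_1 a102_2 a102_3 q102 fun c103 a103_1 a103_2 a103_3 q103 =>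
  addcK c103 a103_1 a103_2 a103_3 q103 1152922604118474752 0 fun c104 a104_1 a104_2 a104_3 q104 =>
  addcK z1 (Nat.add w1 1152921504606846976) 1152921504606846976 1152921504606846976 0 1152922604118474752 0 fun c107 a107_1 a107_2 a107_3 q107 =>
  negK c30 a30_1 a30_2 a30_3 q30 fun c109 a109_1 a109_2 a109_3 q109 =>
  addcK c109 a109_1 a109_2 a109_3 q109 1152922604118474752 0 fun c110 a110_1 a110_2 a110_3 q110 =>
  sqrtK c110 a110_1 a110_2 a110_3 q110 fun c112 a112_1 a112_2 a112_3 q112 =>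
  addcK c112 a112_1 a112_2 a112_3 q112 1152922604118474752 0 fun c114 a114_1 a114_2 a114_3 q114 =>
  invK c114 a114_1 a114_2 a114_3 q114 fun c116 a116_1 a116_2 a116_3 q116 =>
  mulK c107 a107_1 a107_2 a107_3 q107 c116 a116_1 a116_2 a116_3 q116 fun c118 a118_1 a118_2 a118_3 q118 =>
  negK c118 a118_1 a118_2 a118_3 q118 fun c119 a119_1 a119_2 a119_3 q119 =>
  addcK c119 a119_1 a119_2 a119_3 q119 1152923703630102528 0 fun c120 a120_1 a120_2 a120_3 q120 =>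
  mulK c104 a104_1 a104_2 a104_3 q104 c120 a120_1 a120_2 a120_3 q120 fun c123 a123_1 a123_2 a123_3 q123 =>
  addK c97 a97_1 a97_2 a97_3 q97 c123 a123_1 a123_2 a123_3 q123 fun c124 a124_1 a124_2 a124_3 q124 =>
  posK c124 a124_1 a124_2 a124_3 q124 <|
  smulK 1 10 11529215046068469770 1152921504606846976 z3 1152921504606846976 1152921504606846976 (Nat.add w3 1152921504606846976) 0 fun c126 a126_1 a126_2 a126_3 q126 =>
  addcK c126 a126_1 a126_2 a126_3 q126 1152921317689870254 1 fun c127 a127_1 a127_2 a127_3 q127 =>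
  mulK z3 1152921504606846976 1152921504606846976 (Nat.add w3 1152921504606846976) 0 c127 a127_1 a127_2 a127_3 q127 fun c129 a129_1 a129_2 a129_3 q129 =>
  negK c129 a129_1 a129_2 a129_3 q129 fun c130 a130_1 a130_2 a130_3 q130 =>
  addcK c130 a130_1 a130_2 a130_3 q130 1152922604118474752 0 fun c131 a131_1 a131_2 a131_3 q131 =>
  mulK c131 a131_1 a131_2 a131_3 q131 c120 a120_1 a120_2 a120_3 q120 fun c134 a134_1 a134_2 a134_3 q134 =>
  subK c97 a97_1 a97_2 a97_3 q97 c134 a134_1 a134_2 a134_3 q134 fun c135 a135_1 a135_2 a135_3 q135 =>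
  smulK 73 5000 5764607523034234885000 84163269836299829248 z3 1152921504606846976 1152921504606846976 (Nat.add w3 1152921504606846976) 0 fun c136 a136_1 a136_2 a136_3 q136 =>
  negK c136 a136_1 a136_2 a136_3 q136 fun c137 a137_1 a137_2 a137_3 q137 =>
  addcK c137 a137_1 a137_2 a137_3 q137 1152921513512891161 1 fun c138 a138_1 a138_2 a138_3 q138 =>
  negK c19 a19_1 a19_2 a19_3 q19 fun c140 a140_1 a140_2 a140_3 q140 =>
  addcK c140 a140_1 a140_2 a140_3 q140 1152922604118474752 0 fun c141 a141_1 a141_2 a141_3 q141 =>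
  mulK z3 1152921504606846976 1152921504606846976 (Nat.add w3 1152921504606846976) 0 c141 a141_1 a141_2 a141_3 q141 fun c143 a143_1 a143_2 a143_3 q143 =>
  mulK c138 a138_1 a138_2 a138_3 q138 c143 a143_1 a143_2 a143_3 q143 fun c145 a145_1 a145_2 a145_3 q145 =>
  subK c135 a135_1 a135_2 a135_3 q135 c145 a145_1 a145_2 a145_3 q145 fun c146 a146_1 a146_2 a146_3 q146 =>
  mulK c146 a146_1 a146_2 a146_3 q146 c124 a124_1 a124_2 a124_3 q124 fun c148 a148_1 a148_2 a148_3 q148 =>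
  smulK 4 1 1152921504606846977 4611686018427387904 c148 a148_1 a148_2 a148_3 q148 fun c149 a149_1 a149_2 a149_3 q149 =>
  subK c104 a104_1 a104_2 a104_3 q104 c131 a131_1 a131_2 a131_3 q131 fun c150 a150_1 a150_2 a150_3 q150 =>
  mulK c150 a150_1 a150_2 a150_3 q150 c120 a120_1 a120_2 a120_3 q120 fun c151 a151_1 a151_2 a151_3 q151 =>
  smulK 19957 10000 11529215046068469770000 23008854467438845100032 c143 a143_1 a143_2 a143_3 q143 fun c152 a152_1 a152_2 a152_3 q152 =>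
  addK c151 a151_1 a151_2 a151_3 q151 c152 a152_1 a152_2 a152_3 q152 fun c153 a153_1 a153_2 a153_3 q153 =>
  sqK c153 a153_1 a153_2 a153_3 q153 fun c155 a155_1 a155_2 a155_3 q155 =>
  subK c149 a149_1 a149_2 a149_3 q149 c155 a155_1 a155_2 a155_3 q155 fun c157 a157_1 a157_2 a157_3 q157 =>
  pos c157 a157_1 a157_2 a157_3 q157

theorem alt0_s {z1 w1 z2 w2 z3 w3 : ℕ} {e1 e2 e3 T c s : ℝ} (he : Ev e1 e2 e3)
    (hx1 : In e1 e2 e3 z1 (Nat.add w1 1152921504606846976) 1152921504606846976 1152921504606846976 0 T)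
    (hx2 : In e1 e2 e3 z2 1152921504606846976 (Nat.add w2 1152921504606846976) 1152921504606846976 0 c)
    (hx3 : In e1 e2 e3 z3 1152921504606846976 1152921504606846976 (Nat.add w3 1152921504606846976) 0 s)
    (H0 : alt0 z1 w1 z2 w2 z3 w3 = true) : 0 < (C T c s) ∧ 0 < (((4:ℝ) * ((A T c s) * (C T c s))) - ((B T c s) * (B T c s))) := by
  unfold alt0 at H0
  refine sqK_s he hx3 (fun _ _ _ _ _ h1 H1 => ?_) H0
  have h2 := In_cast h1 (sq _)
  refine negK_s he h2 (fun _ _ _ _ _ h3 H2 => ?_) H1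
  refine addcK_s he h3 (v' := (1:ℝ)) (by norm_num [SS, BB, abs_le]) (fun _ _ _ _ _ h4 H3 => ?_) H2
  have h5 := In_cast h4 (neg_add_eq_sub _ _)
  refine sqrtK_s he h5 (fun _ _ _ _ _ h6 H4 => ?_) H3
  have h7 := In_cast (w := (rh T c s)) h6 rfl
  refine addcK_s he h7 (v' := (1:ℝ)) (by norm_num [SS, BB, abs_le]) (fun _ _ _ _ _ h8 H5 => ?_) H4
  have h9 := In_cast h8 (add_comm _ _)
  refine smulK_s he (w := (1/2:ℝ)) (by norm_num) (by norm_num) (by norm_num) (by norm_num) h9 (fun _ _ _ _ _ h10 H6 => ?_) H5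
  have h11 := In_cast h10 (div_c (c := (2:ℝ)) (by norm_num))
  have h12 := In_cast (w := (al T c s)) h11 rfl
  refine negK_s he h7 (fun _ _ _ _ _ h13 H7 => ?_) H6
  refine addcK_s he h13 (v' := (1:ℝ)) (by norm_num [SS, BB, abs_le]) (fun _ _ _ _ _ h14 H8 => ?_) H7
  have h15 := In_cast h14 (neg_add_eq_sub _ _)
  refine smulK_s he (w := (1/2:ℝ)) (by norm_num) (by norm_num) (by norm_num) (by norm_num) h15 (fun _ _ _ _ _ h16 H9 => ?_) H8
  have h17 := In_cast h16 (div_c (c := (2:ℝ)) (by norm_num))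
  have h18 := In_cast (w := (ep T c s)) h17 rfl
  refine sqK_s he hx2 (fun _ _ _ _ _ h19 H10 => ?_) H9
  have h20 := In_cast h19 (sq _)
  have h21 := In_cast (w := (c2 T c s)) h20 rfl
  refine mulK_s he h18 h21 (fun _ _ _ _ _ h22 H11 => ?_) H10
  refine addK_s he h12 h22 (fun _ _ _ _ _ h23 H12 => ?_) H11
  have h24 := In_cast (w := (X2 T c s)) h23 rfl
  refine sqrtK_s he h24 (fun _ _ _ _ _ h25 H13 => ?_) H12
  have h26 := In_cast (w := (gx T c s)) h25 rfl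
  refine mulK_s he hx1 h26 (fun _ _ _ _ _ h27 H14 => ?_) H13
  refine addcK_s he h27 (v' := (1:ℝ)) (by norm_num [SS, BB, abs_le]) (fun _ _ _ _ _ h28 H15 => ?_) H14
  have h29 := In_cast h28 (add_comm _ _)
  refine sqK_s he hx1 (fun _ _ _ _ _ h30 H16 => ?_) H15
  have h31 := In_cast h30 (sq _)
  have h32 := In_cast (w := (T2 T c s)) h31 rfl
  refine mulK_s he h32 h24 (fun _ _ _ _ _ h33 H17 => ?_) H16
  refine negK_s he h33 (fun _ _ _ _ _ h34 H18 => ?_) H17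
  refine addcK_s he h34 (v' := (1:ℝ)) (by norm_num [SS, BB, abs_le]) (fun _ _ _ _ _ h35 H19 => ?_) H18
  have h36 := In_cast h35 (neg_add_eq_sub _ _)
  refine sqrtK_s he h36 (fun _ _ _ _ _ h37 H20 => ?_) H19
  have h38 := In_cast (w := (rx T c s)) h37 rfl
  refine addcK_s he h38 (v' := (1:ℝ)) (by norm_num [SS, BB, abs_le]) (fun _ _ _ _ _ h39 H21 => ?_) H20
  have h40 := In_cast h39 (add_comm _ _)
  refine invK_s he h40 (fun _ _ _ _ _ h41 H22 => ?_) H21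
  have h42 := In_cast h41 (inv_eq_one_div _)
  refine mulK_s he h29 h42 (fun _ _ _ _ _ h43 H23 => ?_) H22
  refine negK_s he h43 (fun _ _ _ _ _ h44 H24 => ?_) H23
  refine addcK_s he h44 (v' := (2:ℝ)) (by norm_num [SS, BB, abs_le]) (fun _ _ _ _ _ h45 H25 => ?_) H24
  have h46 := In_cast h45 (neg_add_eq_sub _ _)
  have h47 := In_cast (w := (Wx T c s)) h46 rfl
  refine mulK_s he h24 h47 (fun _ _ _ _ _ h48 H26 => ?_) H25
  refine mulK_s he h12 h21 (fun _ _ _ _ _ h49 H27 => ?_) H26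
  refine addK_s he h18 h49 (fun _ _ _ _ _ h50 H28 => ?_) H27
  have h51 := In_cast (w := (Y2 T c s)) h50 rfl
  refine sqrtK_s he h51 (fun _ _ _ _ _ h52 H29 => ?_) H28
  have h53 := In_cast (w := (gy T c s)) h52 rfl
  refine mulK_s he hx1 h53 (fun _ _ _ _ _ h54 H30 => ?_) H29
  refine addcK_s he h54 (v' := (1:ℝ)) (by norm_num [SS, BB, abs_le]) (fun _ _ _ _ _ h55 H31 => ?_) H30
  have h56 := In_cast h55 (add_comm _ _)
  refine mulK_s he h32 h51 (fun _ _ _ _ _ h57 H32 => ?_) H31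
  refine negK_s he h57 (fun _ _ _ _ _ h58 H33 => ?_) H32
  refine addcK_s he h58 (v' := (1:ℝ)) (by norm_num [SS, BB, abs_le]) (fun _ _ _ _ _ h59 H34 => ?_) H33
  have h60 := In_cast h59 (neg_add_eq_sub _ _)
  refine sqrtK_s he h60 (fun _ _ _ _ _ h61 H35 => ?_) H34
  have h62 := In_cast (w := (ry T c s)) h61 rfl
  refine addcK_s he h62 (v' := (1:ℝ)) (by norm_num [SS, BB, abs_le]) (fun _ _ _ _ _ h63 H36 => ?_) H35
  have h64 := In_cast h63 (add_comm _ _)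
  refine invK_s he h64 (fun _ _ _ _ _ h65 H37 => ?_) H36
  have h66 := In_cast h65 (inv_eq_one_div _)
  refine mulK_s he h56 h66 (fun _ _ _ _ _ h67 H38 => ?_) H37
  refine negK_s he h67 (fun _ _ _ _ _ h68 H39 => ?_) H38
  refine addcK_s he h68 (v' := (2:ℝ)) (by norm_num [SS, BB, abs_le]) (fun _ _ _ _ _ h69 H40 => ?_) H39
  have h70 := In_cast h69 (neg_add_eq_sub _ _)
  have h71 := In_cast (w := (Wy T c s)) h70 rfl
  refine mulK_s he h51 h71 (fun _ _ _ _ _ h72 H41 => ?_) H40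
  refine addK_s he h48 h72 (fun _ _ _ _ _ h73 H42 => ?_) H41
  refine smulK_s he (w := (1/5:ℝ)) (by norm_num) (by norm_num) (by norm_num) (by norm_num) hx3 (fun _ _ _ _ _ h74 H43 => ?_) H42
  refine addcK_s he h74 (v' := (1:ℝ)) (by norm_num [SS, BB, abs_le]) (fun _ _ _ _ _ h75 H44 => ?_) H43
  have h76 := In_cast h75 (add_comm _ _)
  refine mulK_s he hx2 hx1 (fun _ _ _ _ _ h77 H45 => ?_) H44
  refine addcK_s he h77 (v' := (1:ℝ)) (by norm_num [SS, BB, abs_le]) (fun _ _ _ _ _ h78 H46 => ?_) H45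
  have h79 := In_cast h78 (add_comm _ _)
  refine mulK_s he h21 h32 (fun _ _ _ _ _ h80 H47 => ?_) H46
  refine negK_s he h80 (fun _ _ _ _ _ h81 H48 => ?_) H47
  refine addcK_s he h81 (v' := (1:ℝ)) (by norm_num [SS, BB, abs_le]) (fun _ _ _ _ _ h82 H49 => ?_) H48
  have h83 := In_cast h82 (neg_add_eq_sub _ _)
  refine sqrtK_s he h83 (fun _ _ _ _ _ h84 H50 => ?_) H49
  have h85 := In_cast (w := (r0 T c s)) h84 rfl
  refine addcK_s he h85 (v' := (1:ℝ)) (by norm_num [SS, BB, abs_le]) (fun _ _ _ _ _ h86 H51 => ?_) H50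
  have h87 := In_cast h86 (add_comm _ _)
  refine invK_s he h87 (fun _ _ _ _ _ h88 H52 => ?_) H51
  have h89 := In_cast h88 (inv_eq_one_div _)
  refine mulK_s he h79 h89 (fun _ _ _ _ _ h90 H53 => ?_) H52
  refine negK_s he h90 (fun _ _ _ _ _ h91 H54 => ?_) H53
  refine addcK_s he h91 (v' := (2:ℝ)) (by norm_num [SS, BB, abs_le]) (fun _ _ _ _ _ h92 H55 => ?_) H54
  have h93 := In_cast h92 (neg_add_eq_sub _ _)
  have h94 := In_cast (w := (W0 T c s)) h93 rfl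
  refine mulK_s he h21 h94 (fun _ _ _ _ _ h95 H56 => ?_) H55
  refine mulK_s he h76 h95 (fun _ _ _ _ _ h96 H57 => ?_) H56
  refine subK_s he h73 h96 (fun _ _ _ _ _ h97 H58 => ?_) H57
  have h98 := In_cast (w := (G T c s)) h97 rfl
  refine smulK_s he (w := (3/25:ℝ)) (by norm_num) (by norm_num) (by norm_num) (by norm_num) hx3 (fun _ _ _ _ _ h99 H59 => ?_) H58
  refine addcK_s he h99 (v' := (93/100:ℝ)) (by norm_num [SS, BB, abs_le]) (fun _ _ _ _ _ h100 H60 => ?_) H59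
  have h101 := In_cast h100 (add_comm _ _)
  refine mulK_s he hx3 h101 (fun _ _ _ _ _ h102 H61 => ?_) H60
  refine negK_s he h102 (fun _ _ _ _ _ h103 H62 => ?_) H61
  refine addcK_s he h103 (v' := (1:ℝ)) (by norm_num [SS, BB, abs_le]) (fun _ _ _ _ _ h104 H63 => ?_) H62
  have h105 := In_cast h104 (neg_add_eq_sub _ _)
  have h106 := In_cast (w := (qq T c s)) h105 rfl
  refine addcK_s he hx1 (v' := (1:ℝ)) (by norm_num [SS, BB, abs_le]) (fun _ _ _ _ _ h107 H64 => ?_) H63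
  have h108 := In_cast h107 (add_comm _ _)
  refine negK_s he h32 (fun _ _ _ _ _ h109 H65 => ?_) H64
  refine addcK_s he h109 (v' := (1:ℝ)) (by norm_num [SS, BB, abs_le]) (fun _ _ _ _ _ h110 H66 => ?_) H65
  have h111 := In_cast h110 (neg_add_eq_sub _ _)
  refine sqrtK_s he h111 (fun _ _ _ _ _ h112 H67 => ?_) H66
  have h113 := In_cast (w := (r1 T c s)) h112 rfl
  refine addcK_s he h113 (v' := (1:ℝ)) (by norm_num [SS, BB, abs_le]) (fun _ _ _ _ _ h114 H68 => ?_) H67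
  have h115 := In_cast h114 (add_comm _ _)
  refine invK_s he h115 (fun _ _ _ _ _ h116 H69 => ?_) H68
  have h117 := In_cast h116 (inv_eq_one_div _)
  refine mulK_s he h108 h117 (fun _ _ _ _ _ h118 H70 => ?_) H69
  refine negK_s he h118 (fun _ _ _ _ _ h119 H71 => ?_) H70
  refine addcK_s he h119 (v' := (2:ℝ)) (by norm_num [SS, BB, abs_le]) (fun _ _ _ _ _ h120 H72 => ?_) H71
  have h121 := In_cast h120 (neg_add_eq_sub _ _)
  have h122 := In_cast (w := (W1 T c s)) h121 rfl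
  refine mulK_s he h106 h122 (fun _ _ _ _ _ h123 H73 => ?_) H72
  refine addK_s he h98 h123 (fun _ _ _ _ _ h124 H74 => ?_) H73
  have h125 := In_cast (w := (C T c s)) h124 rfl
  refine posK_s he h125 (fun p0 H75 => ?_) H74
  refine smulK_s he (w := (1/10:ℝ)) (by norm_num) (by norm_num) (by norm_num) (by norm_num) hx3 (fun _ _ _ _ _ h126 H76 => ?_) H75
  refine addcK_s he h126 (v' := (-17/100:ℝ)) (by norm_num [SS, BB, abs_le]) (fun _ _ _ _ _ h127 H77 => ?_) H76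
  have h128 := In_cast h127 (add_comm _ _)
  refine mulK_s he hx3 h128 (fun _ _ _ _ _ h129 H78 => ?_) H77
  refine negK_s he h129 (fun _ _ _ _ _ h130 H79 => ?_) H78
  refine addcK_s he h130 (v' := (1:ℝ)) (by norm_num [SS, BB, abs_le]) (fun _ _ _ _ _ h131 H80 => ?_) H79
  have h132 := In_cast h131 (neg_add_eq_sub _ _)
  have h133 := In_cast (w := (pp T c s)) h132 rfl
  refine mulK_s he h133 h122 (fun _ _ _ _ _ h134 H81 => ?_) H80
  refine subK_s he h98 h134 (fun _ _ _ _ _ h135 H82 => ?_) H81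
  refine smulK_s he (w := (73/5000:ℝ)) (by norm_num) (by norm_num) (by norm_num) (by norm_num) hx3 (fun _ _ _ _ _ h136 H83 => ?_) H82
  refine negK_s he h136 (fun _ _ _ _ _ h137 H84 => ?_) H83
  refine addcK_s he h137 (v' := (81/10000:ℝ)) (by norm_num [SS, BB, abs_le]) (fun _ _ _ _ _ h138 H85 => ?_) H84
  have h139 := In_cast h138 (neg_add_eq_sub _ _)
  refine negK_s he h21 (fun _ _ _ _ _ h140 H86 => ?_) H85
  refine addcK_s he h140 (v' := (1:ℝ)) (by norm_num [SS, BB, abs_le]) (fun _ _ _ _ _ h141 H87 => ?_) H86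
  have h142 := In_cast h141 (neg_add_eq_sub _ _)
  refine mulK_s he hx3 h142 (fun _ _ _ _ _ h143 H88 => ?_) H87
  have h144 := In_cast (w := (sd T c s)) h143 rfl
  refine mulK_s he h139 h144 (fun _ _ _ _ _ h145 H89 => ?_) H88
  refine subK_s he h135 h145 (fun _ _ _ _ _ h146 H90 => ?_) H89
  have h147 := In_cast (w := (A T c s)) h146 rfl
  refine mulK_s he h147 h125 (fun _ _ _ _ _ h148 H91 => ?_) H90
  refine smulK_s he (w := (4:ℝ)) (by norm_num) (by norm_num) (by norm_num) (by norm_num) h148 (fun _ _ _ _ _ h149 H92 => ?_) H91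
  refine subK_s he h106 h133 (fun _ _ _ _ _ h150 H93 => ?_) H92
  refine mulK_s he h150 h122 (fun _ _ _ _ _ h151 H94 => ?_) H93
  refine smulK_s he (w := (19957/10000:ℝ)) (by norm_num) (by norm_num) (by norm_num) (by norm_num) h144 (fun _ _ _ _ _ h152 H95 => ?_) H94
  refine addK_s he h151 h152 (fun _ _ _ _ _ h153 H96 => ?_) H95
  have h154 := In_cast (w := (B T c s)) h153 rfl
  refine sqK_s he h154 (fun _ _ _ _ _ h155 H97 => ?_) H96
  have h156 := In_cast h155 (sq _)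
  refine subK_s he h149 h156 (fun _ _ _ _ _ h157 H98 => ?_) H97
  exact ⟨p0, pos_s he h157 H98⟩

noncomputable def alt1 (z1 w1 z2 w2 z3 w3 : ℕ) : Bool :=
  sqK z3 1152921504606846976 1152921504606846976 (Nat.add w3 1152921504606846976) 0 fun c1 a1_1 a1_2 a1_3 q1 =>
  negK c1 a1_1 a1_2 a1_3 q1 fun c3 a3_1 a3_2 a3_3 q3 =>
  addcK c3 a3_1 a3_2 a3_3 q3 1152922604118474752 0 fun c4 a4_1 a4_2 a4_3 q4 =>
  sqrtK c4 a4_1 a4_2 a4_3 q4 fun c6 a6_1 a6_2 a6_3 q6 =>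
  addcK c6 a6_1 a6_2 a6_3 q6 1152922604118474752 0 fun c8 a8_1 a8_2 a8_3 q8 =>
  smulK 1 2 2305843009213693954 1152921504606846976 c8 a8_1 a8_2 a8_3 q8 fun c10 a10_1 a10_2 a10_3 q10 =>
  negK c6 a6_1 a6_2 a6_3 q6 fun c13 a13_1 a13_2 a13_3 q13 =>
  addcK c13 a13_1 a13_2 a13_3 q13 1152922604118474752 0 fun c14 a14_1 a14_2 a14_3 q14 =>
  smulK 1 2 2305843009213693954 1152921504606846976 c14 a14_1 a14_2 a14_3 q14 fun c16 a16_1 a16_2 a16_3 q16 =>
  sqK z2 1152921504606846976 (Nat.add w2 1152921504606846976) 1152921504606846976 0 fun c19 a19_1 a19_2 a19_3 q19 =>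
  mulK c16 a16_1 a16_2 a16_3 q16 c19 a19_1 a19_2 a19_3 q19 fun c22 a22_1 a22_2 a22_3 q22 =>
  addK c10 a10_1 a10_2 a10_3 q10 c22 a22_1 a22_2 a22_3 q22 fun c23 a23_1 a23_2 a23_3 q23 =>
  sqrtK c23 a23_1 a23_2 a23_3 q23 fun c25 a25_1 a25_2 a25_3 q25 =>
  mulK z1 (Nat.add w1 1152921504606846976) 1152921504606846976 1152921504606846976 0 c25 a25_1 a25_2 a25_3 q25 fun c27 a27_1 a27_2 a27_3 q27 =>
  addcK c27 a27_1 a27_2 a27_3 q27 1152922604118474752 0 fun c28 a28_1 a28_2 a28_3 q28 =>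
  sqK z1 (Nat.add w1 1152921504606846976) 1152921504606846976 1152921504606846976 0 fun c30 a30_1 a30_2 a30_3 q30 =>
  mulK c30 a30_1 a30_2 a30_3 q30 c23 a23_1 a23_2 a23_3 q23 fun c33 a33_1 a33_2 a33_3 q33 =>
  negK c33 a33_1 a33_2 a33_3 q33 fun c34 a34_1 a34_2 a34_3 q34 =>
  addcK c34 a34_1 a34_2 a34_3 q34 1152922604118474752 0 fun c35 a35_1 a35_2 a35_3 q35 =>
  sqrtK c35 a35_1 a35_2 a35_3 q35 fun c37 a37_1 a37_2 a37_3 q37 =>
  addcK c37 a37_1 a37_2 a37_3 q37 1152922604118474752 0 fun c39 a39_1 a39_2 a39_3 q39 =>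
  invK c39 a39_1 a39_2 a39_3 q39 fun c41 a41_1 a41_2 a41_3 q41 =>
  mulK c28 a28_1 a28_2 a28_3 q28 c41 a41_1 a41_2 a41_3 q41 fun c43 a43_1 a43_2 a43_3 q43 =>
  negK c43 a43_1 a43_2 a43_3 q43 fun c44 a44_1 a44_2 a44_3 q44 =>
  addcK c44 a44_1 a44_2 a44_3 q44 1152923703630102528 0 fun c45 a45_1 a45_2 a45_3 q45 =>
  mulK c23 a23_1 a23_2 a23_3 q23 c45 a45_1 a45_2 a45_3 q45 fun c48 a48_1 a48_2 a48_3 q48 =>
  mulK c10 a10_1 a10_2 a10_3 q10 c19 a19_1 a19_2 a19_3 q19 fun c49 a49_1 a49_2 a49_3 q49 =>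
  addK c16 a16_1 a16_2 a16_3 q16 c49 a49_1 a49_2 a49_3 q49 fun c50 a50_1 a50_2 a50_3 q50 =>
  sqrtK c50 a50_1 a50_2 a50_3 q50 fun c52 a52_1 a52_2 a52_3 q52 =>
  mulK z1 (Nat.add w1 1152921504606846976) 1152921504606846976 1152921504606846976 0 c52 a52_1 a52_2 a52_3 q52 fun c54 a54_1 a54_2 a54_3 q54 =>
  addcK c54 a54_1 a54_2 a54_3 q54 1152922604118474752 0 fun c55 a55_1 a55_2 a55_3 q55 =>
  mulK c30 a30_1 a30_2 a30_3 q30 c50 a50_1 a50_2 a50_3 q50 fun c57 a57_1 a57_2 a57_3 q57 =>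
  negK c57 a57_1 a57_2 a57_3 q57 fun c58 a58_1 a58_2 a58_3 q58 =>
  addcK c58 a58_1 a58_2 a58_3 q58 1152922604118474752 0 fun c59 a59_1 a59_2 a59_3 q59 =>
  sqrtK c59 a59_1 a59_2 a59_3 q59 fun c61 a61_1 a61_2 a61_3 q61 =>
  addcK c61 a61_1 a61_2 a61_3 q61 1152922604118474752 0 fun c63 a63_1 a63_2 a63_3 q63 =>
  invK c63 a63_1 a63_2 a63_3 q63 fun c65 a65_1 a65_2 a65_3 q65 =>
  mulK c55 a55_1 a55_2 a55_3 q55 c65 a65_1 a65_2 a65_3 q65 fun c67 a67_1 a67_2 a67_3 q67 =>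
  negK c67 a67_1 a67_2 a67_3 q67 fun c68 a68_1 a68_2 a68_3 q68 =>
  addcK c68 a68_1 a68_2 a68_3 q68 1152923703630102528 0 fun c69 a69_1 a69_2 a69_3 q69 =>
  mulK c50 a50_1 a50_2 a50_3 q50 c69 a69_1 a69_2 a69_3 q69 fun c72 a72_1 a72_2 a72_3 q72 =>
  addK c48 a48_1 a48_2 a48_3 q48 c72 a72_1 a72_2 a72_3 q72 fun c73 a73_1 a73_2 a73_3 q73 =>
  smulK 1 5 5764607523034234885 1152921504606846976 z3 1152921504606846976 1152921504606846976 (Nat.add w3 1152921504606846976) 0 fun c74 a74_1 a74_2 a74_3 q74 =>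
  addcK c74 a74_1 a74_2 a74_3 q74 1152922604118474752 0 fun c75 a75_1 a75_2 a75_3 q75 =>
  mulK z2 1152921504606846976 (Nat.add w2 1152921504606846976) 1152921504606846976 0 z1 (Nat.add w1 1152921504606846976) 1152921504606846976 1152921504606846976 0 fun c77 a77_1 a77_2 a77_3 q77 =>
  addcK c77 a77_1 a77_2 a77_3 q77 1152922604118474752 0 fun c78 a78_1 a78_2 a78_3 q78 =>
  mulK c19 a19_1 a19_2 a19_3 q19 c30 a30_1 a30_2 a30_3 q30 fun c80 a80_1 a80_2 a80_3 q80 =>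
  negK c80 a80_1 a80_2 a80_3 q80 fun c81 a81_1 a81_2 a81_3 q81 =>
  addcK c81 a81_1 a81_2 a81_3 q81 1152922604118474752 0 fun c82 a82_1 a82_2 a82_3 q82 =>
  sqrtK c82 a82_1 a82_2 a82_3 q82 fun c84 a84_1 a84_2 a84_3 q84 =>
  addcK c84 a84_1 a84_2 a84_3 q84 1152922604118474752 0 fun c86 a86_1 a86_2 a86_3 q86 =>
  invK c86 a86_1 a86_2 a86_3 q86 fun c88 a88_1 a88_2 a88_3 q88 =>
  mulK c78 a78_1 a78_2 a78_3 q78 c88 a88_1 a88_2 a88_3 q88 fun c90 a90_1 a90_2 a90_3 q90 =>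
  negK c90 a90_1 a90_2 a90_3 q90 fun c91 a91_1 a91_2 a91_3 q91 =>
  addcK c91 a91_1 a91_2 a91_3 q91 1152923703630102528 0 fun c92 a92_1 a92_2 a92_3 q92 =>
  mulK c19 a19_1 a19_2 a19_3 q19 c92 a92_1 a92_2 a92_3 q92 fun c95 a95_1 a95_2 a95_3 q95 =>
  mulK c75 a75_1 a75_2 a75_3 q75 c95 a95_1 a95_2 a95_3 q95 fun c96 a96_1 a96_2 a96_3 q96 =>
  subK c73 a73_1 a73_2 a73_3 q73 c96 a96_1 a96_2 a96_3 q96 fun c97 a97_1 a97_2 a97_3 q97 =>
  smulK 3 25 28823037615171174425 3458764513820540928 z3 1152921504606846976 1152921504606846976 (Nat.add w3 1152921504606846976) 0 fun c99 a99_1 a99_2 a99_3 q99 =>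
  addcK c99 a99_1 a99_2 a99_3 q99 1152922527152660808 1 fun c100 a100_1 a100_2 a100_3 q100 =>
  mulK z3 1152921504606846976 1152921504606846976 (Nat.add w3 1152921504606846976) 0 c100 a100_1 a100_2 a100_3 q100 fun c102 a102_1 a102_2 a102_3 q102 =>
  negK c102 a102_1 a102_2 a102_3 q102 fun c103 a103_1 a103_2 a103_3 q103 =>
  addcK c103 a103_1 a103_2 a103_3 q103 1152922604118474752 0 fun c104 a104_1 a104_2 a104_3 q104 =>
  addcK z1 (Nat.add w1 1152921504606846976) 1152921504606846976 1152921504606846976 0 1152922604118474752 0 fun c107 a107_1 a107_2 a107_3 q107 =>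
  negK c30 a30_1 a30_2 a30_3 q30 fun c109 a109_1 a109_2 a109_3 q109 =>
  addcK c109 a109_1 a109_2 a109_3 q109 1152922604118474752 0 fun c110 a110_1 a110_2 a110_3 q110 =>
  sqrtK c110 a110_1 a110_2 a110_3 q110 fun c112 a112_1 a112_2 a112_3 q112 =>
  addcK c112 a112_1 a112_2 a112_3 q112 1152922604118474752 0 fun c114 a114_1 a114_2 a114_3 q114 =>
  invK c114 a114_1 a114_2 a114_3 q114 fun c116 a116_1 a116_2 a116_3 q116 =>
  mulK c107 a107_1 a107_2 a107_3 q107 c116 a116_1 a116_2 a116_3 q116 fun c118 a118_1 a118_2 a118_3 q118 =>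
  negK c118 a118_1 a118_2 a118_3 q118 fun c119 a119_1 a119_2 a119_3 q119 =>
  addcK c119 a119_1 a119_2 a119_3 q119 1152923703630102528 0 fun c120 a120_1 a120_2 a120_3 q120 =>
  mulK c104 a104_1 a104_2 a104_3 q104 c120 a120_1 a120_2 a120_3 q120 fun c123 a123_1 a123_2 a123_3 q123 =>
  addK c97 a97_1 a97_2 a97_3 q97 c123 a123_1 a123_2 a123_3 q123 fun c124 a124_1 a124_2 a124_3 q124 =>
  posK c124 a124_1 a124_2 a124_3 q124 <|
  smulK 34 25 28823037615171174425 39199331156632797184 c124 a124_1 a124_2 a124_3 q124 fun c126 a126_1 a126_2 a126_3 q126 =>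
  smulK 1 10 11529215046068469770 1152921504606846976 z3 1152921504606846976 1152921504606846976 (Nat.add w3 1152921504606846976) 0 fun c127 a127_1 a127_2 a127_3 q127 =>
  addcK c127 a127_1 a127_2 a127_3 q127 1152921317689870254 1 fun c128 a128_1 a128_2 a128_3 q128 =>
  mulK z3 1152921504606846976 1152921504606846976 (Nat.add w3 1152921504606846976) 0 c128 a128_1 a128_2 a128_3 q128 fun c130 a130_1 a130_2 a130_3 q130 =>
  negK c130 a130_1 a130_2 a130_3 q130 fun c131 a131_1 a131_2 a131_3 q131 =>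
  addcK c131 a131_1 a131_2 a131_3 q131 1152922604118474752 0 fun c132 a132_1 a132_2 a132_3 q132 =>
  subK c104 a104_1 a104_2 a104_3 q104 c132 a132_1 a132_2 a132_3 q132 fun c135 a135_1 a135_2 a135_3 q135 =>
  mulK c135 a135_1 a135_2 a135_3 q135 c120 a120_1 a120_2 a120_3 q120 fun c136 a136_1 a136_2 a136_3 q136 =>
  negK c19 a19_1 a19_2 a19_3 q19 fun c137 a137_1 a137_2 a137_3 q137 =>
  addcK c137 a137_1 a137_2 a137_3 q137 1152922604118474752 0 fun c138 a138_1 a138_2 a138_3 q138 =>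
  mulK z3 1152921504606846976 1152921504606846976 (Nat.add w3 1152921504606846976) 0 c138 a138_1 a138_2 a138_3 q138 fun c140 a140_1 a140_2 a140_3 q140 =>
  smulK 19957 10000 11529215046068469770000 23008854467438845100032 c140 a140_1 a140_2 a140_3 q140 fun c142 a142_1 a142_2 a142_3 q142 =>
  addK c136 a136_1 a136_2 a136_3 q136 c142 a142_1 a142_2 a142_3 q142 fun c143 a143_1 a143_2 a143_3 q143 =>
  subK c126 a126_1 a126_2 a126_3 q126 c143 a143_1 a143_2 a143_3 q143 fun c145 a145_1 a145_2 a145_3 q145 =>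
  posK c145 a145_1 a145_2 a145_3 q145 <|
  mulK c132 a132_1 a132_2 a132_3 q132 c120 a120_1 a120_2 a120_3 q120 fun c146 a146_1 a146_2 a146_3 q146 =>
  subK c97 a97_1 a97_2 a97_3 q97 c146 a146_1 a146_2 a146_3 q146 fun c147 a147_1 a147_2 a147_3 q147 =>
  smulK 73 5000 5764607523034234885000 84163269836299829248 z3 1152921504606846976 1152921504606846976 (Nat.add w3 1152921504606846976) 0 fun c148 a148_1 a148_2 a148_3 q148 =>
  negK c148 a148_1 a148_2 a148_3 q148 fun c149 a149_1 a149_2 a149_3 q149 =>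
  addcK c149 a149_1 a149_2 a149_3 q149 1152921513512891161 1 fun c150 a150_1 a150_2 a150_3 q150 =>
  mulK c150 a150_1 a150_2 a150_3 q150 c140 a140_1 a140_2 a140_3 q140 fun c152 a152_1 a152_2 a152_3 q152 =>
  subK c147 a147_1 a147_2 a147_3 q147 c152 a152_1 a152_2 a152_3 q152 fun c153 a153_1 a153_2 a153_3 q153 =>
  smulK 17 25 28823037615171174425 19599665578316398592 c143 a143_1 a143_2 a143_3 q143 fun c155 a155_1 a155_2 a155_3 q155 =>
  subK c153 a153_1 a153_2 a153_3 q153 c155 a155_1 a155_2 a155_3 q155 fun c156 a156_1 a156_2 a156_3 q156 =>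
  smulK 289 625 720575940379279360625 333194314831378776064 c124 a124_1 a124_2 a124_3 q124 fun c157 a157_1 a157_2 a157_3 q157 =>
  addK c156 a156_1 a156_2 a156_3 q156 c157 a157_1 a157_2 a157_3 q157 fun c158 a158_1 a158_2 a158_3 q158 =>
  pos c158 a158_1 a158_2 a158_3 q158

theorem alt1_s {z1 w1 z2 w2 z3 w3 : ℕ} {e1 e2 e3 T c s : ℝ} (he : Ev e1 e2 e3)
    (hx1 : In e1 e2 e3 z1 (Nat.add w1 1152921504606846976) 1152921504606846976 1152921504606846976 0 T)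
    (hx2 : In e1 e2 e3 z2 1152921504606846976 (Nat.add w2 1152921504606846976) 1152921504606846976 0 c)
    (hx3 : In e1 e2 e3 z3 1152921504606846976 1152921504606846976 (Nat.add w3 1152921504606846976) 0 s)
    (H0 : alt1 z1 w1 z2 w2 z3 w3 = true) : 0 < (C T c s) ∧ 0 < (((34/25:ℝ) * (C T c s)) - (B T c s)) ∧ 0 < (((A T c s) - ((17/25:ℝ) * (B T c s))) + ((289/625:ℝ) * (C T c s))) := by
  unfold alt1 at H0
  refine sqK_s he hx3 (fun _ _ _ _ _ h1 H1 => ?_) H0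
  have h2 := In_cast h1 (sq _)
  refine negK_s he h2 (fun _ _ _ _ _ h3 H2 => ?_) H1
  refine addcK_s he h3 (v' := (1:ℝ)) (by norm_num [SS, BB, abs_le]) (fun _ _ _ _ _ h4 H3 => ?_) H2
  have h5 := In_cast h4 (neg_add_eq_sub _ _)
  refine sqrtK_s he h5 (fun _ _ _ _ _ h6 H4 => ?_) H3
  have h7 := In_cast (w := (rh T c s)) h6 rfl
  refine addcK_s he h7 (v' := (1:ℝ)) (by norm_num [SS, BB, abs_le]) (fun _ _ _ _ _ h8 H5 => ?_) H4
  have h9 := In_cast h8 (add_comm _ _)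
  refine smulK_s he (w := (1/2:ℝ)) (by norm_num) (by norm_num) (by norm_num) (by norm_num) h9 (fun _ _ _ _ _ h10 H6 => ?_) H5
  have h11 := In_cast h10 (div_c (c := (2:ℝ)) (by norm_num))
  have h12 := In_cast (w := (al T c s)) h11 rfl
  refine negK_s he h7 (fun _ _ _ _ _ h13 H7 => ?_) H6
  refine addcK_s he h13 (v' := (1:ℝ)) (by norm_num [SS, BB, abs_le]) (fun _ _ _ _ _ h14 H8 => ?_) H7
  have h15 := In_cast h14 (neg_add_eq_sub _ _)
  refine smulK_s he (w := (1/2:ℝ)) (by norm_num) (by norm_num) (by norm_num) (by norm_num) h15 (fun _ _ _ _ _ h16 H9 => ?_) H8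
  have h17 := In_cast h16 (div_c (c := (2:ℝ)) (by norm_num))
  have h18 := In_cast (w := (ep T c s)) h17 rfl
  refine sqK_s he hx2 (fun _ _ _ _ _ h19 H10 => ?_) H9
  have h20 := In_cast h19 (sq _)
  have h21 := In_cast (w := (c2 T c s)) h20 rfl
  refine mulK_s he h18 h21 (fun _ _ _ _ _ h22 H11 => ?_) H10
  refine addK_s he h12 h22 (fun _ _ _ _ _ h23 H12 => ?_) H11
  have h24 := In_cast (w := (X2 T c s)) h23 rfl
  refine sqrtK_s he h24 (fun _ _ _ _ _ h25 H13 => ?_) H12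
  have h26 := In_cast (w := (gx T c s)) h25 rfl
  refine mulK_s he hx1 h26 (fun _ _ _ _ _ h27 H14 => ?_) H13
  refine addcK_s he h27 (v' := (1:ℝ)) (by norm_num [SS, BB, abs_le]) (fun _ _ _ _ _ h28 H15 => ?_) H14
  have h29 := In_cast h28 (add_comm _ _)
  refine sqK_s he hx1 (fun _ _ _ _ _ h30 H16 => ?_) H15
  have h31 := In_cast h30 (sq _)
  have h32 := In_cast (w := (T2 T c s)) h31 rfl
  refine mulK_s he h32 h24 (fun _ _ _ _ _ h33 H17 => ?_) H16
  refine negK_s he h33 (fun _ _ _ _ _ h34 H18 => ?_) H17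
  refine addcK_s he h34 (v' := (1:ℝ)) (by norm_num [SS, BB, abs_le]) (fun _ _ _ _ _ h35 H19 => ?_) H18
  have h36 := In_cast h35 (neg_add_eq_sub _ _)
  refine sqrtK_s he h36 (fun _ _ _ _ _ h37 H20 => ?_) H19
  have h38 := In_cast (w := (rx T c s)) h37 rfl
  refine addcK_s he h38 (v' := (1:ℝ)) (by norm_num [SS, BB, abs_le]) (fun _ _ _ _ _ h39 H21 => ?_) H20
  have h40 := In_cast h39 (add_comm _ _)
  refine invK_s he h40 (fun _ _ _ _ _ h41 H22 => ?_) H21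
  have h42 := In_cast h41 (inv_eq_one_div _)
  refine mulK_s he h29 h42 (fun _ _ _ _ _ h43 H23 => ?_) H22
  refine negK_s he h43 (fun _ _ _ _ _ h44 H24 => ?_) H23
  refine addcK_s he h44 (v' := (2:ℝ)) (by norm_num [SS, BB, abs_le]) (fun _ _ _ _ _ h45 H25 => ?_) H24
  have h46 := In_cast h45 (neg_add_eq_sub _ _)
  have h47 := In_cast (w := (Wx T c s)) h46 rfl
  refine mulK_s he h24 h47 (fun _ _ _ _ _ h48 H26 => ?_) H25
  refine mulK_s he h12 h21 (fun _ _ _ _ _ h49 H27 => ?_) H26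
  refine addK_s he h18 h49 (fun _ _ _ _ _ h50 H28 => ?_) H27
  have h51 := In_cast (w := (Y2 T c s)) h50 rfl
  refine sqrtK_s he h51 (fun _ _ _ _ _ h52 H29 => ?_) H28
  have h53 := In_cast (w := (gy T c s)) h52 rfl
  refine mulK_s he hx1 h53 (fun _ _ _ _ _ h54 H30 => ?_) H29
  refine addcK_s he h54 (v' := (1:ℝ)) (by norm_num [SS, BB, abs_le]) (fun _ _ _ _ _ h55 H31 => ?_) H30
  have h56 := In_cast h55 (add_comm _ _)
  refine mulK_s he h32 h51 (fun _ _ _ _ _ h57 H32 => ?_) H31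
  refine negK_s he h57 (fun _ _ _ _ _ h58 H33 => ?_) H32
  refine addcK_s he h58 (v' := (1:ℝ)) (by norm_num [SS, BB, abs_le]) (fun _ _ _ _ _ h59 H34 => ?_) H33
  have h60 := In_cast h59 (neg_add_eq_sub _ _)
  refine sqrtK_s he h60 (fun _ _ _ _ _ h61 H35 => ?_) H34
  have h62 := In_cast (w := (ry T c s)) h61 rfl
  refine addcK_s he h62 (v' := (1:ℝ)) (by norm_num [SS, BB, abs_le]) (fun _ _ _ _ _ h63 H36 => ?_) H35
  have h64 := In_cast h63 (add_comm _ _)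
  refine invK_s he h64 (fun _ _ _ _ _ h65 H37 => ?_) H36
  have h66 := In_cast h65 (inv_eq_one_div _)
  refine mulK_s he h56 h66 (fun _ _ _ _ _ h67 H38 => ?_) H37
  refine negK_s he h67 (fun _ _ _ _ _ h68 H39 => ?_) H38
  refine addcK_s he h68 (v' := (2:ℝ)) (by norm_num [SS, BB, abs_le]) (fun _ _ _ _ _ h69 H40 => ?_) H39
  have h70 := In_cast h69 (neg_add_eq_sub _ _)
  have h71 := In_cast (w := (Wy T c s)) h70 rfl
  refine mulK_s he h51 h71 (fun _ _ _ _ _ h72 H41 => ?_) H40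
  refine addK_s he h48 h72 (fun _ _ _ _ _ h73 H42 => ?_) H41
  refine smulK_s he (w := (1/5:ℝ)) (by norm_num) (by norm_num) (by norm_num) (by norm_num) hx3 (fun _ _ _ _ _ h74 H43 => ?_) H42
  refine addcK_s he h74 (v' := (1:ℝ)) (by norm_num [SS, BB, abs_le]) (fun _ _ _ _ _ h75 H44 => ?_) H43
  have h76 := In_cast h75 (add_comm _ _)
  refine mulK_s he hx2 hx1 (fun _ _ _ _ _ h77 H45 => ?_) H44
  refine addcK_s he h77 (v' := (1:ℝ)) (by norm_num [SS, BB, abs_le]) (fun _ _ _ _ _ h78 H46 => ?_) H45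
  have h79 := In_cast h78 (add_comm _ _)
  refine mulK_s he h21 h32 (fun _ _ _ _ _ h80 H47 => ?_) H46
  refine negK_s he h80 (fun _ _ _ _ _ h81 H48 => ?_) H47
  refine addcK_s he h81 (v' := (1:ℝ)) (by norm_num [SS, BB, abs_le]) (fun _ _ _ _ _ h82 H49 => ?_) H48
  have h83 := In_cast h82 (neg_add_eq_sub _ _)
  refine sqrtK_s he h83 (fun _ _ _ _ _ h84 H50 => ?_) H49
  have h85 := In_cast (w := (r0 T c s)) h84 rfl
  refine addcK_s he h85 (v' := (1:ℝ)) (by norm_num [SS, BB, abs_le]) (fun _ _ _ _ _ h86 H51 => ?_) H50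
  have h87 := In_cast h86 (add_comm _ _)
  refine invK_s he h87 (fun _ _ _ _ _ h88 H52 => ?_) H51
  have h89 := In_cast h88 (inv_eq_one_div _)
  refine mulK_s he h79 h89 (fun _ _ _ _ _ h90 H53 => ?_) H52
  refine negK_s he h90 (fun _ _ _ _ _ h91 H54 => ?_) H53
  refine addcK_s he h91 (v' := (2:ℝ)) (by norm_num [SS, BB, abs_le]) (fun _ _ _ _ _ h92 H55 => ?_) H54
  have h93 := In_cast h92 (neg_add_eq_sub _ _)
  have h94 := In_cast (w := (W0 T c s)) h93 rfl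
  refine mulK_s he h21 h94 (fun _ _ _ _ _ h95 H56 => ?_) H55
  refine mulK_s he h76 h95 (fun _ _ _ _ _ h96 H57 => ?_) H56
  refine subK_s he h73 h96 (fun _ _ _ _ _ h97 H58 => ?_) H57
  have h98 := In_cast (w := (G T c s)) h97 rfl
  refine smulK_s he (w := (3/25:ℝ)) (by norm_num) (by norm_num) (by norm_num) (by norm_num) hx3 (fun _ _ _ _ _ h99 H59 => ?_) H58
  refine addcK_s he h99 (v' := (93/100:ℝ)) (by norm_num [SS, BB, abs_le]) (fun _ _ _ _ _ h100 H60 => ?_) H59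
  have h101 := In_cast h100 (add_comm _ _)
  refine mulK_s he hx3 h101 (fun _ _ _ _ _ h102 H61 => ?_) H60
  refine negK_s he h102 (fun _ _ _ _ _ h103 H62 => ?_) H61
  refine addcK_s he h103 (v' := (1:ℝ)) (by norm_num [SS, BB, abs_le]) (fun _ _ _ _ _ h104 H63 => ?_) H62
  have h105 := In_cast h104 (neg_add_eq_sub _ _)
  have h106 := In_cast (w := (qq T c s)) h105 rfl
  refine addcK_s he hx1 (v' := (1:ℝ)) (by norm_num [SS, BB, abs_le]) (fun _ _ _ _ _ h107 H64 => ?_) H63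
  have h108 := In_cast h107 (add_comm _ _)
  refine negK_s he h32 (fun _ _ _ _ _ h109 H65 => ?_) H64
  refine addcK_s he h109 (v' := (1:ℝ)) (by norm_num [SS, BB, abs_le]) (fun _ _ _ _ _ h110 H66 => ?_) H65
  have h111 := In_cast h110 (neg_add_eq_sub _ _)
  refine sqrtK_s he h111 (fun _ _ _ _ _ h112 H67 => ?_) H66
  have h113 := In_cast (w := (r1 T c s)) h112 rfl
  refine addcK_s he h113 (v' := (1:ℝ)) (by norm_num [SS, BB, abs_le]) (fun _ _ _ _ _ h114 H68 => ?_) H67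
  have h115 := In_cast h114 (add_comm _ _)
  refine invK_s he h115 (fun _ _ _ _ _ h116 H69 => ?_) H68
  have h117 := In_cast h116 (inv_eq_one_div _)
  refine mulK_s he h108 h117 (fun _ _ _ _ _ h118 H70 => ?_) H69
  refine negK_s he h118 (fun _ _ _ _ _ h119 H71 => ?_) H70
  refine addcK_s he h119 (v' := (2:ℝ)) (by norm_num [SS, BB, abs_le]) (fun _ _ _ _ _ h120 H72 => ?_) H71
  have h121 := In_cast h120 (neg_add_eq_sub _ _)
  have h122 := In_cast (w := (W1 T c s)) h121 rfl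
  refine mulK_s he h106 h122 (fun _ _ _ _ _ h123 H73 => ?_) H72
  refine addK_s he h98 h123 (fun _ _ _ _ _ h124 H74 => ?_) H73
  have h125 := In_cast (w := (C T c s)) h124 rfl
  refine posK_s he h125 (fun p0 H75 => ?_) H74
  refine smulK_s he (w := (34/25:ℝ)) (by norm_num) (by norm_num) (by norm_num) (by norm_num) h125 (fun _ _ _ _ _ h126 H76 => ?_) H75
  refine smulK_s he (w := (1/10:ℝ)) (by norm_num) (by norm_num) (by norm_num) (by norm_num) hx3 (fun _ _ _ _ _ h127 H77 => ?_) H76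
  refine addcK_s he h127 (v' := (-17/100:ℝ)) (by norm_num [SS, BB, abs_le]) (fun _ _ _ _ _ h128 H78 => ?_) H77
  have h129 := In_cast h128 (add_comm _ _)
  refine mulK_s he hx3 h129 (fun _ _ _ _ _ h130 H79 => ?_) H78
  refine negK_s he h130 (fun _ _ _ _ _ h131 H80 => ?_) H79
  refine addcK_s he h131 (v' := (1:ℝ)) (by norm_num [SS, BB, abs_le]) (fun _ _ _ _ _ h132 H81 => ?_) H80
  have h133 := In_cast h132 (neg_add_eq_sub _ _)
  have h134 := In_cast (w := (pp T c s)) h133 rfl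
  refine subK_s he h106 h134 (fun _ _ _ _ _ h135 H82 => ?_) H81
  refine mulK_s he h135 h122 (fun _ _ _ _ _ h136 H83 => ?_) H82
  refine negK_s he h21 (fun _ _ _ _ _ h137 H84 => ?_) H83
  refine addcK_s he h137 (v' := (1:ℝ)) (by norm_num [SS, BB, abs_le]) (fun _ _ _ _ _ h138 H85 => ?_) H84
  have h139 := In_cast h138 (neg_add_eq_sub _ _)
  refine mulK_s he hx3 h139 (fun _ _ _ _ _ h140 H86 => ?_) H85
  have h141 := In_cast (w := (sd T c s)) h140 rfl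
  refine smulK_s he (w := (19957/10000:ℝ)) (by norm_num) (by norm_num) (by norm_num) (by norm_num) h141 (fun _ _ _ _ _ h142 H87 => ?_) H86
  refine addK_s he h136 h142 (fun _ _ _ _ _ h143 H88 => ?_) H87
  have h144 := In_cast (w := (B T c s)) h143 rfl
  refine subK_s he h126 h144 (fun _ _ _ _ _ h145 H89 => ?_) H88
  refine posK_s he h145 (fun p1 H90 => ?_) H89
  refine mulK_s he h134 h122 (fun _ _ _ _ _ h146 H91 => ?_) H90
  refine subK_s he h98 h146 (fun _ _ _ _ _ h147 H92 => ?_) H91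
  refine smulK_s he (w := (73/5000:ℝ)) (by norm_num) (by norm_num) (by norm_num) (by norm_num) hx3 (fun _ _ _ _ _ h148 H93 => ?_) H92
  refine negK_s he h148 (fun _ _ _ _ _ h149 H94 => ?_) H93
  refine addcK_s he h149 (v' := (81/10000:ℝ)) (by norm_num [SS, BB, abs_le]) (fun _ _ _ _ _ h150 H95 => ?_) H94
  have h151 := In_cast h150 (neg_add_eq_sub _ _)
  refine mulK_s he h151 h141 (fun _ _ _ _ _ h152 H96 => ?_) H95
  refine subK_s he h147 h152 (fun _ _ _ _ _ h153 H97 => ?_) H96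
  have h154 := In_cast (w := (A T c s)) h153 rfl
  refine smulK_s he (w := (17/25:ℝ)) (by norm_num) (by norm_num) (by norm_num) (by norm_num) h144 (fun _ _ _ _ _ h155 H98 => ?_) H97
  refine subK_s he h154 h155 (fun _ _ _ _ _ h156 H99 => ?_) H98
  refine smulK_s he (w := (289/625:ℝ)) (by norm_num) (by norm_num) (by norm_num) (by norm_num) h125 (fun _ _ _ _ _ h157 H100 => ?_) H99
  refine addK_s he h156 h157 (fun _ _ _ _ _ h158 H101 => ?_) H100
  exact ⟨p0, p1, pos_s he h158 H101⟩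

noncomputable def alt2 (z1 w1 z2 w2 z3 w3 : ℕ) : Bool :=
  sqK z3 1152921504606846976 1152921504606846976 (Nat.add w3 1152921504606846976) 0 fun c1 a1_1 a1_2 a1_3 q1 =>
  negK c1 a1_1 a1_2 a1_3 q1 fun c3 a3_1 a3_2 a3_3 q3 =>
  addcK c3 a3_1 a3_2 a3_3 q3 1152922604118474752 0 fun c4 a4_1 a4_2 a4_3 q4 =>
  sqrtK c4 a4_1 a4_2 a4_3 q4 fun c6 a6_1 a6_2 a6_3 q6 =>
  addcK c6 a6_1 a6_2 a6_3 q6 1152922604118474752 0 fun c8 a8_1 a8_2 a8_3 q8 =>
  smulK 1 2 2305843009213693954 1152921504606846976 c8 a8_1 a8_2 a8_3 q8 fun c10 a10_1 a10_2 a10_3 q10 =>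
  negK c6 a6_1 a6_2 a6_3 q6 fun c13 a13_1 a13_2 a13_3 q13 =>
  addcK c13 a13_1 a13_2 a13_3 q13 1152922604118474752 0 fun c14 a14_1 a14_2 a14_3 q14 =>
  smulK 1 2 2305843009213693954 1152921504606846976 c14 a14_1 a14_2 a14_3 q14 fun c16 a16_1 a16_2 a16_3 q16 =>
  sqK z2 1152921504606846976 (Nat.add w2 1152921504606846976) 1152921504606846976 0 fun c19 a19_1 a19_2 a19_3 q19 =>
  mulK c16 a16_1 a16_2 a16_3 q16 c19 a19_1 a19_2 a19_3 q19 fun c22 a22_1 a22_2 a22_3 q22 =>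
  addK c10 a10_1 a10_2 a10_3 q10 c22 a22_1 a22_2 a22_3 q22 fun c23 a23_1 a23_2 a23_3 q23 =>
  sqrtK c23 a23_1 a23_2 a23_3 q23 fun c25 a25_1 a25_2 a25_3 q25 =>
  mulK z1 (Nat.add w1 1152921504606846976) 1152921504606846976 1152921504606846976 0 c25 a25_1 a25_2 a25_3 q25 fun c27 a27_1 a27_2 a27_3 q27 =>
  addcK c27 a27_1 a27_2 a27_3 q27 1152922604118474752 0 fun c28 a28_1 a28_2 a28_3 q28 =>
  sqK z1 (Nat.add w1 1152921504606846976) 1152921504606846976 1152921504606846976 0 fun c30 a30_1 a30_2 a30_3 q30 =>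
  mulK c30 a30_1 a30_2 a30_3 q30 c23 a23_1 a23_2 a23_3 q23 fun c33 a33_1 a33_2 a33_3 q33 =>
  negK c33 a33_1 a33_2 a33_3 q33 fun c34 a34_1 a34_2 a34_3 q34 =>
  addcK c34 a34_1 a34_2 a34_3 q34 1152922604118474752 0 fun c35 a35_1 a35_2 a35_3 q35 =>
  sqrtK c35 a35_1 a35_2 a35_3 q35 fun c37 a37_1 a37_2 a37_3 q37 =>
  addcK c37 a37_1 a37_2 a37_3 q37 1152922604118474752 0 fun c39 a39_1 a39_2 a39_3 q39 =>
  invK c39 a39_1 a39_2 a39_3 q39 fun c41 a41_1 a41_2 a41_3 q41 =>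
  mulK c28 a28_1 a28_2 a28_3 q28 c41 a41_1 a41_2 a41_3 q41 fun c43 a43_1 a43_2 a43_3 q43 =>
  negK c43 a43_1 a43_2 a43_3 q43 fun c44 a44_1 a44_2 a44_3 q44 =>
  addcK c44 a44_1 a44_2 a44_3 q44 1152923703630102528 0 fun c45 a45_1 a45_2 a45_3 q45 =>
  mulK c23 a23_1 a23_2 a23_3 q23 c45 a45_1 a45_2 a45_3 q45 fun c48 a48_1 a48_2 a48_3 q48 =>
  mulK c10 a10_1 a10_2 a10_3 q10 c19 a19_1 a19_2 a19_3 q19 fun c49 a49_1 a49_2 a49_3 q49 =>
  addK c16 a16_1 a16_2 a16_3 q16 c49 a49_1 a49_2 a49_3 q49 fun c50 a50_1 a50_2 a50_3 q50 =>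
  sqrtK c50 a50_1 a50_2 a50_3 q50 fun c52 a52_1 a52_2 a52_3 q52 =>
  mulK z1 (Nat.add w1 1152921504606846976) 1152921504606846976 1152921504606846976 0 c52 a52_1 a52_2 a52_3 q52 fun c54 a54_1 a54_2 a54_3 q54 =>
  addcK c54 a54_1 a54_2 a54_3 q54 1152922604118474752 0 fun c55 a55_1 a55_2 a55_3 q55 =>
  mulK c30 a30_1 a30_2 a30_3 q30 c50 a50_1 a50_2 a50_3 q50 fun c57 a57_1 a57_2 a57_3 q57 =>
  negK c57 a57_1 a57_2 a57_3 q57 fun c58 a58_1 a58_2 a58_3 q58 =>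
  addcK c58 a58_1 a58_2 a58_3 q58 1152922604118474752 0 fun c59 a59_1 a59_2 a59_3 q59 =>
  sqrtK c59 a59_1 a59_2 a59_3 q59 fun c61 a61_1 a61_2 a61_3 q61 =>
  addcK c61 a61_1 a61_2 a61_3 q61 1152922604118474752 0 fun c63 a63_1 a63_2 a63_3 q63 =>
  invK c63 a63_1 a63_2 a63_3 q63 fun c65 a65_1 a65_2 a65_3 q65 =>
  mulK c55 a55_1 a55_2 a55_3 q55 c65 a65_1 a65_2 a65_3 q65 fun c67 a67_1 a67_2 a67_3 q67 =>
  negK c67 a67_1 a67_2 a67_3 q67 fun c68 a68_1 a68_2 a68_3 q68 =>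
  addcK c68 a68_1 a68_2 a68_3 q68 1152923703630102528 0 fun c69 a69_1 a69_2 a69_3 q69 =>
  mulK c50 a50_1 a50_2 a50_3 q50 c69 a69_1 a69_2 a69_3 q69 fun c72 a72_1 a72_2 a72_3 q72 =>
  addK c48 a48_1 a48_2 a48_3 q48 c72 a72_1 a72_2 a72_3 q72 fun c73 a73_1 a73_2 a73_3 q73 =>
  smulK 1 5 5764607523034234885 1152921504606846976 z3 1152921504606846976 1152921504606846976 (Nat.add w3 1152921504606846976) 0 fun c74 a74_1 a74_2 a74_3 q74 =>
  addcK c74 a74_1 a74_2 a74_3 q74 1152922604118474752 0 fun c75 a75_1 a75_2 a75_3 q75 =>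
  mulK z2 1152921504606846976 (Nat.add w2 1152921504606846976) 1152921504606846976 0 z1 (Nat.add w1 1152921504606846976) 1152921504606846976 1152921504606846976 0 fun c77 a77_1 a77_2 a77_3 q77 =>
  addcK c77 a77_1 a77_2 a77_3 q77 1152922604118474752 0 fun c78 a78_1 a78_2 a78_3 q78 =>
  mulK c19 a19_1 a19_2 a19_3 q19 c30 a30_1 a30_2 a30_3 q30 fun c80 a80_1 a80_2 a80_3 q80 =>
  negK c80 a80_1 a80_2 a80_3 q80 fun c81 a81_1 a81_2 a81_3 q81 =>
  addcK c81 a81_1 a81_2 a81_3 q81 1152922604118474752 0 fun c82 a82_1 a82_2 a82_3 q82 =>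
  sqrtK c82 a82_1 a82_2 a82_3 q82 fun c84 a84_1 a84_2 a84_3 q84 =>
  addcK c84 a84_1 a84_2 a84_3 q84 1152922604118474752 0 fun c86 a86_1 a86_2 a86_3 q86 =>
  invK c86 a86_1 a86_2 a86_3 q86 fun c88 a88_1 a88_2 a88_3 q88 =>
  mulK c78 a78_1 a78_2 a78_3 q78 c88 a88_1 a88_2 a88_3 q88 fun c90 a90_1 a90_2 a90_3 q90 =>
  negK c90 a90_1 a90_2 a90_3 q90 fun c91 a91_1 a91_2 a91_3 q91 =>
  addcK c91 a91_1 a91_2 a91_3 q91 1152923703630102528 0 fun c92 a92_1 a92_2 a92_3 q92 =>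
  mulK c19 a19_1 a19_2 a19_3 q19 c92 a92_1 a92_2 a92_3 q92 fun c95 a95_1 a95_2 a95_3 q95 =>
  mulK c75 a75_1 a75_2 a75_3 q75 c95 a95_1 a95_2 a95_3 q95 fun c96 a96_1 a96_2 a96_3 q96 =>
  subK c73 a73_1 a73_2 a73_3 q73 c96 a96_1 a96_2 a96_3 q96 fun c97 a97_1 a97_2 a97_3 q97 =>
  smulK 3 25 28823037615171174425 3458764513820540928 z3 1152921504606846976 1152921504606846976 (Nat.add w3 1152921504606846976) 0 fun c99 a99_1 a99_2 a99_3 q99 =>
  addcK c99 a99_1 a99_2 a99_3 q99 1152922527152660808 1 fun c100 a100_1 a100_2 a100_3 q100 =>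
  mulK z3 1152921504606846976 1152921504606846976 (Nat.add w3 1152921504606846976) 0 c100 a100_1 a100_2 a100_3 q100 fun c102 a102_1 a102_2 a102_3 q102 =>
  negK c102 a102_1 a102_2 a102_3 q102 fun c103 a103_1 a103_2 a103_3 q103 =>
  addcK c103 a103_1 a103_2 a103_3 q103 1152922604118474752 0 fun c104 a104_1 a104_2 a104_3 q104 =>
  addcK z1 (Nat.add w1 1152921504606846976) 1152921504606846976 1152921504606846976 0 1152922604118474752 0 fun c107 a107_1 a107_2 a107_3 q107 =>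
  negK c30 a30_1 a30_2 a30_3 q30 fun c109 a109_1 a109_2 a109_3 q109 =>
  addcK c109 a109_1 a109_2 a109_3 q109 1152922604118474752 0 fun c110 a110_1 a110_2 a110_3 q110 =>
  sqrtK c110 a110_1 a110_2 a110_3 q110 fun c112 a112_1 a112_2 a112_3 q112 =>
  addcK c112 a112_1 a112_2 a112_3 q112 1152922604118474752 0 fun c114 a114_1 a114_2 a114_3 q114 =>
  invK c114 a114_1 a114_2 a114_3 q114 fun c116 a116_1 a116_2 a116_3 q116 =>
  mulK c107 a107_1 a107_2 a107_3 q107 c116 a116_1 a116_2 a116_3 q116 fun c118 a118_1 a118_2 a118_3 q118 =>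
  negK c118 a118_1 a118_2 a118_3 q118 fun c119 a119_1 a119_2 a119_3 q119 =>
  addcK c119 a119_1 a119_2 a119_3 q119 1152923703630102528 0 fun c120 a120_1 a120_2 a120_3 q120 =>
  mulK c104 a104_1 a104_2 a104_3 q104 c120 a120_1 a120_2 a120_3 q120 fun c123 a123_1 a123_2 a123_3 q123 =>
  addK c97 a97_1 a97_2 a97_3 q97 c123 a123_1 a123_2 a123_3 q123 fun c124 a124_1 a124_2 a124_3 q124 =>
  posK c124 a124_1 a124_2 a124_3 q124 <|
  smulK 1 10 11529215046068469770 1152921504606846976 z3 1152921504606846976 1152921504606846976 (Nat.add w3 1152921504606846976) 0 fun c126 a126_1 a126_2 a126_3 q126 =>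
  addcK c126 a126_1 a126_2 a126_3 q126 1152921317689870254 1 fun c127 a127_1 a127_2 a127_3 q127 =>
  mulK z3 1152921504606846976 1152921504606846976 (Nat.add w3 1152921504606846976) 0 c127 a127_1 a127_2 a127_3 q127 fun c129 a129_1 a129_2 a129_3 q129 =>
  negK c129 a129_1 a129_2 a129_3 q129 fun c130 a130_1 a130_2 a130_3 q130 =>
  addcK c130 a130_1 a130_2 a130_3 q130 1152922604118474752 0 fun c131 a131_1 a131_2 a131_3 q131 =>
  subK c104 a104_1 a104_2 a104_3 q104 c131 a131_1 a131_2 a131_3 q131 fun c134 a134_1 a134_2 a134_3 q134 =>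
  mulK c134 a134_1 a134_2 a134_3 q134 c120 a120_1 a120_2 a120_3 q120 fun c135 a135_1 a135_2 a135_3 q135 =>
  negK c19 a19_1 a19_2 a19_3 q19 fun c136 a136_1 a136_2 a136_3 q136 =>
  addcK c136 a136_1 a136_2 a136_3 q136 1152922604118474752 0 fun c137 a137_1 a137_2 a137_3 q137 =>
  mulK z3 1152921504606846976 1152921504606846976 (Nat.add w3 1152921504606846976) 0 c137 a137_1 a137_2 a137_3 q137 fun c139 a139_1 a139_2 a139_3 q139 =>
  smulK 19957 10000 11529215046068469770000 23008854467438845100032 c139 a139_1 a139_2 a139_3 q139 fun c141 a141_1 a141_2 a141_3 q141 =>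
  addK c135 a135_1 a135_2 a135_3 q135 c141 a141_1 a141_2 a141_3 q141 fun c142 a142_1 a142_2 a142_3 q142 =>
  smulK 2 1 1152921504606846977 2305843009213693952 c124 a124_1 a124_2 a124_3 q124 fun c144 a144_1 a144_2 a144_3 q144 =>
  subK c142 a142_1 a142_2 a142_3 q142 c144 a144_1 a144_2 a144_3 q144 fun c145 a145_1 a145_2 a145_3 q145 =>
  posK c145 a145_1 a145_2 a145_3 q145 <|
  mulK c131 a131_1 a131_2 a131_3 q131 c120 a120_1 a120_2 a120_3 q120 fun c146 a146_1 a146_2 a146_3 q146 =>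
  subK c97 a97_1 a97_2 a97_3 q97 c146 a146_1 a146_2 a146_3 q146 fun c147 a147_1 a147_2 a147_3 q147 =>
  smulK 73 5000 5764607523034234885000 84163269836299829248 z3 1152921504606846976 1152921504606846976 (Nat.add w3 1152921504606846976) 0 fun c148 a148_1 a148_2 a148_3 q148 =>
  negK c148 a148_1 a148_2 a148_3 q148 fun c149 a149_1 a149_2 a149_3 q149 =>
  addcK c149 a149_1 a149_2 a149_3 q149 1152921513512891161 1 fun c150 a150_1 a150_2 a150_3 q150 =>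
  mulK c150 a150_1 a150_2 a150_3 q150 c139 a139_1 a139_2 a139_3 q139 fun c152 a152_1 a152_2 a152_3 q152 =>
  subK c147 a147_1 a147_2 a147_3 q147 c152 a152_1 a152_2 a152_3 q152 fun c153 a153_1 a153_2 a153_3 q153 =>
  subK c153 a153_1 a153_2 a153_3 q153 c142 a142_1 a142_2 a142_3 q142 fun c155 a155_1 a155_2 a155_3 q155 =>
  addK c155 a155_1 a155_2 a155_3 q155 c124 a124_1 a124_2 a124_3 q124 fun c156 a156_1 a156_2 a156_3 q156 =>
  pos c156 a156_1 a156_2 a156_3 q156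

theorem alt2_s {z1 w1 z2 w2 z3 w3 : ℕ} {e1 e2 e3 T c s : ℝ} (he : Ev e1 e2 e3)
    (hx1 : In e1 e2 e3 z1 (Nat.add w1 1152921504606846976) 1152921504606846976 1152921504606846976 0 T)
    (hx2 : In e1 e2 e3 z2 1152921504606846976 (Nat.add w2 1152921504606846976) 1152921504606846976 0 c)
    (hx3 : In e1 e2 e3 z3 1152921504606846976 1152921504606846976 (Nat.add w3 1152921504606846976) 0 s)
    (H0 : alt2 z1 w1 z2 w2 z3 w3 = true) : 0 < (C T c s) ∧ 0 < ((B T c s) - ((2:ℝ) * (C T c s))) ∧ 0 < (((A T c s) - (B T c s)) + (C T c s)) := by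
  unfold alt2 at H0
  refine sqK_s he hx3 (fun _ _ _ _ _ h1 H1 => ?_) H0
  have h2 := In_cast h1 (sq _)
  refine negK_s he h2 (fun _ _ _ _ _ h3 H2 => ?_) H1
  refine addcK_s he h3 (v' := (1:ℝ)) (by norm_num [SS, BB, abs_le]) (fun _ _ _ _ _ h4 H3 => ?_) H2
  have h5 := In_cast h4 (neg_add_eq_sub _ _)
  refine sqrtK_s he h5 (fun _ _ _ _ _ h6 H4 => ?_) H3
  have h7 := In_cast (w := (rh T c s)) h6 rfl
  refine addcK_s he h7 (v' := (1:ℝ)) (by norm_num [SS, BB, abs_le]) (fun _ _ _ _ _ h8 H5 => ?_) H4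
  have h9 := In_cast h8 (add_comm _ _)
  refine smulK_s he (w := (1/2:ℝ)) (by norm_num) (by norm_num) (by norm_num) (by norm_num) h9 (fun _ _ _ _ _ h10 H6 => ?_) H5
  have h11 := In_cast h10 (div_c (c := (2:ℝ)) (by norm_num))
  have h12 := In_cast (w := (al T c s)) h11 rfl
  refine negK_s he h7 (fun _ _ _ _ _ h13 H7 => ?_) H6
  refine addcK_s he h13 (v' := (1:ℝ)) (by norm_num [SS, BB, abs_le]) (fun _ _ _ _ _ h14 H8 => ?_) H7
  have h15 := In_cast h14 (neg_add_eq_sub _ _)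
  refine smulK_s he (w := (1/2:ℝ)) (by norm_num) (by norm_num) (by norm_num) (by norm_num) h15 (fun _ _ _ _ _ h16 H9 => ?_) H8
  have h17 := In_cast h16 (div_c (c := (2:ℝ)) (by norm_num))
  have h18 := In_cast (w := (ep T c s)) h17 rfl
  refine sqK_s he hx2 (fun _ _ _ _ _ h19 H10 => ?_) H9
  have h20 := In_cast h19 (sq _)
  have h21 := In_cast (w := (c2 T c s)) h20 rfl
  refine mulK_s he h18 h21 (fun _ _ _ _ _ h22 H11 => ?_) H10
  refine addK_s he h12 h22 (fun _ _ _ _ _ h23 H12 => ?_) H11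
  have h24 := In_cast (w := (X2 T c s)) h23 rfl
  refine sqrtK_s he h24 (fun _ _ _ _ _ h25 H13 => ?_) H12
  have h26 := In_cast (w := (gx T c s)) h25 rfl
  refine mulK_s he hx1 h26 (fun _ _ _ _ _ h27 H14 => ?_) H13
  refine addcK_s he h27 (v' := (1:ℝ)) (by norm_num [SS, BB, abs_le]) (fun _ _ _ _ _ h28 H15 => ?_) H14
  have h29 := In_cast h28 (add_comm _ _)
  refine sqK_s he hx1 (fun _ _ _ _ _ h30 H16 => ?_) H15
  have h31 := In_cast h30 (sq _)
  have h32 := In_cast (w := (T2 T c s)) h31 rfl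
  refine mulK_s he h32 h24 (fun _ _ _ _ _ h33 H17 => ?_) H16
  refine negK_s he h33 (fun _ _ _ _ _ h34 H18 => ?_) H17
  refine addcK_s he h34 (v' := (1:ℝ)) (by norm_num [SS, BB, abs_le]) (fun _ _ _ _ _ h35 H19 => ?_) H18
  have h36 := In_cast h35 (neg_add_eq_sub _ _)
  refine sqrtK_s he h36 (fun _ _ _ _ _ h37 H20 => ?_) H19
  have h38 := In_cast (w := (rx T c s)) h37 rfl
  refine addcK_s he h38 (v' := (1:ℝ)) (by norm_num [SS, BB, abs_le]) (fun _ _ _ _ _ h39 H21 => ?_) H20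
  have h40 := In_cast h39 (add_comm _ _)
  refine invK_s he h40 (fun _ _ _ _ _ h41 H22 => ?_) H21
  have h42 := In_cast h41 (inv_eq_one_div _)
  refine mulK_s he h29 h42 (fun _ _ _ _ _ h43 H23 => ?_) H22
  refine negK_s he h43 (fun _ _ _ _ _ h44 H24 => ?_) H23
  refine addcK_s he h44 (v' := (2:ℝ)) (by norm_num [SS, BB, abs_le]) (fun _ _ _ _ _ h45 H25 => ?_) H24
  have h46 := In_cast h45 (neg_add_eq_sub _ _)
  have h47 := In_cast (w := (Wx T c s)) h46 rfl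
  refine mulK_s he h24 h47 (fun _ _ _ _ _ h48 H26 => ?_) H25
  refine mulK_s he h12 h21 (fun _ _ _ _ _ h49 H27 => ?_) H26
  refine addK_s he h18 h49 (fun _ _ _ _ _ h50 H28 => ?_) H27
  have h51 := In_cast (w := (Y2 T c s)) h50 rfl
  refine sqrtK_s he h51 (fun _ _ _ _ _ h52 H29 => ?_) H28
  have h53 := In_cast (w := (gy T c s)) h52 rfl
  refine mulK_s he hx1 h53 (fun _ _ _ _ _ h54 H30 => ?_) H29
  refine addcK_s he h54 (v' := (1:ℝ)) (by norm_num [SS, BB, abs_le]) (fun _ _ _ _ _ h55 H31 => ?_) H30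
  have h56 := In_cast h55 (add_comm _ _)
  refine mulK_s he h32 h51 (fun _ _ _ _ _ h57 H32 => ?_) H31
  refine negK_s he h57 (fun _ _ _ _ _ h58 H33 => ?_) H32
  refine addcK_s he h58 (v' := (1:ℝ)) (by norm_num [SS, BB, abs_le]) (fun _ _ _ _ _ h59 H34 => ?_) H33
  have h60 := In_cast h59 (neg_add_eq_sub _ _)
  refine sqrtK_s he h60 (fun _ _ _ _ _ h61 H35 => ?_) H34
  have h62 := In_cast (w := (ry T c s)) h61 rfl
  refine addcK_s he h62 (v' := (1:ℝ)) (by norm_num [SS, BB, abs_le]) (fun _ _ _ _ _ h63 H36 => ?_) H35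
  have h64 := In_cast h63 (add_comm _ _)
  refine invK_s he h64 (fun _ _ _ _ _ h65 H37 => ?_) H36
  have h66 := In_cast h65 (inv_eq_one_div _)
  refine mulK_s he h56 h66 (fun _ _ _ _ _ h67 H38 => ?_) H37
  refine negK_s he h67 (fun _ _ _ _ _ h68 H39 => ?_) H38
  refine addcK_s he h68 (v' := (2:ℝ)) (by norm_num [SS, BB, abs_le]) (fun _ _ _ _ _ h69 H40 => ?_) H39
  have h70 := In_cast h69 (neg_add_eq_sub _ _)
  have h71 := In_cast (w := (Wy T c s)) h70 rfl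
  refine mulK_s he h51 h71 (fun _ _ _ _ _ h72 H41 => ?_) H40
  refine addK_s he h48 h72 (fun _ _ _ _ _ h73 H42 => ?_) H41
  refine smulK_s he (w := (1/5:ℝ)) (by norm_num) (by norm_num) (by norm_num) (by norm_num) hx3 (fun _ _ _ _ _ h74 H43 => ?_) H42
  refine addcK_s he h74 (v' := (1:ℝ)) (by norm_num [SS, BB, abs_le]) (fun _ _ _ _ _ h75 H44 => ?_) H43
  have h76 := In_cast h75 (add_comm _ _)
  refine mulK_s he hx2 hx1 (fun _ _ _ _ _ h77 H45 => ?_) H44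
  refine addcK_s he h77 (v' := (1:ℝ)) (by norm_num [SS, BB, abs_le]) (fun _ _ _ _ _ h78 H46 => ?_) H45
  have h79 := In_cast h78 (add_comm _ _)
  refine mulK_s he h21 h32 (fun _ _ _ _ _ h80 H47 => ?_) H46
  refine negK_s he h80 (fun _ _ _ _ _ h81 H48 => ?_) H47
  refine addcK_s he h81 (v' := (1:ℝ)) (by norm_num [SS, BB, abs_le]) (fun _ _ _ _ _ h82 H49 => ?_) H48
  have h83 := In_cast h82 (neg_add_eq_sub _ _)
  refine sqrtK_s he h83 (fun _ _ _ _ _ h84 H50 => ?_) H49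
  have h85 := In_cast (w := (r0 T c s)) h84 rfl
  refine addcK_s he h85 (v' := (1:ℝ)) (by norm_num [SS, BB, abs_le]) (fun _ _ _ _ _ h86 H51 => ?_) H50
  have h87 := In_cast h86 (add_comm _ _)
  refine invK_s he h87 (fun _ _ _ _ _ h88 H52 => ?_) H51
  have h89 := In_cast h88 (inv_eq_one_div _)
  refine mulK_s he h79 h89 (fun _ _ _ _ _ h90 H53 => ?_) H52
  refine negK_s he h90 (fun _ _ _ _ _ h91 H54 => ?_) H53
  refine addcK_s he h91 (v' := (2:ℝ)) (by norm_num [SS, BB, abs_le]) (fun _ _ _ _ _ h92 H55 => ?_) H54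
  have h93 := In_cast h92 (neg_add_eq_sub _ _)
  have h94 := In_cast (w := (W0 T c s)) h93 rfl
  refine mulK_s he h21 h94 (fun _ _ _ _ _ h95 H56 => ?_) H55
  refine mulK_s he h76 h95 (fun _ _ _ _ _ h96 H57 => ?_) H56
  refine subK_s he h73 h96 (fun _ _ _ _ _ h97 H58 => ?_) H57
  have h98 := In_cast (w := (G T c s)) h97 rfl
  refine smulK_s he (w := (3/25:ℝ)) (by norm_num) (by norm_num) (by norm_num) (by norm_num) hx3 (fun _ _ _ _ _ h99 H59 => ?_) H58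
  refine addcK_s he h99 (v' := (93/100:ℝ)) (by norm_num [SS, BB, abs_le]) (fun _ _ _ _ _ h100 H60 => ?_) H59
  have h101 := In_cast h100 (add_comm _ _)
  refine mulK_s he hx3 h101 (fun _ _ _ _ _ h102 H61 => ?_) H60
  refine negK_s he h102 (fun _ _ _ _ _ h103 H62 => ?_) H61
  refine addcK_s he h103 (v' := (1:ℝ)) (by norm_num [SS, BB, abs_le]) (fun _ _ _ _ _ h104 H63 => ?_) H62
  have h105 := In_cast h104 (neg_add_eq_sub _ _)
  have h106 := In_cast (w := (qq T c s)) h105 rfl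
  refine addcK_s he hx1 (v' := (1:ℝ)) (by norm_num [SS, BB, abs_le]) (fun _ _ _ _ _ h107 H64 => ?_) H63
  have h108 := In_cast h107 (add_comm _ _)
  refine negK_s he h32 (fun _ _ _ _ _ h109 H65 => ?_) H64
  refine addcK_s he h109 (v' := (1:ℝ)) (by norm_num [SS, BB, abs_le]) (fun _ _ _ _ _ h110 H66 => ?_) H65
  have h111 := In_cast h110 (neg_add_eq_sub _ _)
  refine sqrtK_s he h111 (fun _ _ _ _ _ h112 H67 => ?_) H66
  have h113 := In_cast (w := (r1 T c s)) h112 rfl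
  refine addcK_s he h113 (v' := (1:ℝ)) (by norm_num [SS, BB, abs_le]) (fun _ _ _ _ _ h114 H68 => ?_) H67
  have h115 := In_cast h114 (add_comm _ _)
  refine invK_s he h115 (fun _ _ _ _ _ h116 H69 => ?_) H68
  have h117 := In_cast h116 (inv_eq_one_div _)
  refine mulK_s he h108 h117 (fun _ _ _ _ _ h118 H70 => ?_) H69
  refine negK_s he h118 (fun _ _ _ _ _ h119 H71 => ?_) H70
  refine addcK_s he h119 (v' := (2:ℝ)) (by norm_num [SS, BB, abs_le]) (fun _ _ _ _ _ h120 H72 => ?_) H71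
  have h121 := In_cast h120 (neg_add_eq_sub _ _)
  have h122 := In_cast (w := (W1 T c s)) h121 rfl
  refine mulK_s he h106 h122 (fun _ _ _ _ _ h123 H73 => ?_) H72
  refine addK_s he h98 h123 (fun _ _ _ _ _ h124 H74 => ?_) H73
  have h125 := In_cast (w := (C T c s)) h124 rfl
  refine posK_s he h125 (fun p0 H75 => ?_) H74
  refine smulK_s he (w := (1/10:ℝ)) (by norm_num) (by norm_num) (by norm_num) (by norm_num) hx3 (fun _ _ _ _ _ h126 H76 => ?_) H75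
  refine addcK_s he h126 (v' := (-17/100:ℝ)) (by norm_num [SS, BB, abs_le]) (fun _ _ _ _ _ h127 H77 => ?_) H76
  have h128 := In_cast h127 (add_comm _ _)
  refine mulK_s he hx3 h128 (fun _ _ _ _ _ h129 H78 => ?_) H77
  refine negK_s he h129 (fun _ _ _ _ _ h130 H79 => ?_) H78
  refine addcK_s he h130 (v' := (1:ℝ)) (by norm_num [SS, BB, abs_le]) (fun _ _ _ _ _ h131 H80 => ?_) H79
  have h132 := In_cast h131 (neg_add_eq_sub _ _)
  have h133 := In_cast (w := (pp T c s)) h132 rfl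
  refine subK_s he h106 h133 (fun _ _ _ _ _ h134 H81 => ?_) H80
  refine mulK_s he h134 h122 (fun _ _ _ _ _ h135 H82 => ?_) H81
  refine negK_s he h21 (fun _ _ _ _ _ h136 H83 => ?_) H82
  refine addcK_s he h136 (v' := (1:ℝ)) (by norm_num [SS, BB, abs_le]) (fun _ _ _ _ _ h137 H84 => ?_) H83
  have h138 := In_cast h137 (neg_add_eq_sub _ _)
  refine mulK_s he hx3 h138 (fun _ _ _ _ _ h139 H85 => ?_) H84
  have h140 := In_cast (w := (sd T c s)) h139 rfl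
  refine smulK_s he (w := (19957/10000:ℝ)) (by norm_num) (by norm_num) (by norm_num) (by norm_num) h140 (fun _ _ _ _ _ h141 H86 => ?_) H85
  refine addK_s he h135 h141 (fun _ _ _ _ _ h142 H87 => ?_) H86
  have h143 := In_cast (w := (B T c s)) h142 rfl
  refine smulK_s he (w := (2:ℝ)) (by norm_num) (by norm_num) (by norm_num) (by norm_num) h125 (fun _ _ _ _ _ h144 H88 => ?_) H87
  refine subK_s he h143 h144 (fun _ _ _ _ _ h145 H89 => ?_) H88
  refine posK_s he h145 (fun p1 H90 => ?_) H89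
  refine mulK_s he h133 h122 (fun _ _ _ _ _ h146 H91 => ?_) H90
  refine subK_s he h98 h146 (fun _ _ _ _ _ h147 H92 => ?_) H91
  refine smulK_s he (w := (73/5000:ℝ)) (by norm_num) (by norm_num) (by norm_num) (by norm_num) hx3 (fun _ _ _ _ _ h148 H93 => ?_) H92
  refine negK_s he h148 (fun _ _ _ _ _ h149 H94 => ?_) H93
  refine addcK_s he h149 (v' := (81/10000:ℝ)) (by norm_num [SS, BB, abs_le]) (fun _ _ _ _ _ h150 H95 => ?_) H94
  have h151 := In_cast h150 (neg_add_eq_sub _ _)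
  refine mulK_s he h151 h140 (fun _ _ _ _ _ h152 H96 => ?_) H95
  refine subK_s he h147 h152 (fun _ _ _ _ _ h153 H97 => ?_) H96
  have h154 := In_cast (w := (A T c s)) h153 rfl
  refine subK_s he h154 h143 (fun _ _ _ _ _ h155 H98 => ?_) H97
  refine addK_s he h155 h125 (fun _ _ _ _ _ h156 H99 => ?_) H98
  exact ⟨p0, p1, pos_s he h156 H99⟩

attribute [irreducible] alt0 alt1 alt2

noncomputable def leaf (j u z1 w1 z2 w2 z3 w3 : ℕ) : Bool :=
  sB j (alt0 z1 w1 z2 w2 z3 w3) fun j => sB j (alt1 z1 w1 z2 w2 z3 w3) fun j => alt2 z1 w1 z2 w2 z3 w3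

theorem snd : Snd Q leaf := by
  intro j u z1 w1 z2 w2 z3 w3 e1 e2 e3 he H
  unfold leaf at H
  unfold Q
  replace H := sel H
  rcases H with H | ⟨j, H⟩
  · exact Or.inl (alt0_s he (var1 z1 w1) (var2 z2 w2) (var3 z3 w3) H)
  replace H := sel H
  rcases H with H | ⟨j, H⟩
  · exact Or.inr (Or.inl (alt1_s he (var1 z1 w1) (var2 z2 w2) (var3 z3 w3) H))
  exact Or.inr (Or.inr (alt2_s he (var1 z1 w1) (var2 z2 w2) (var3 z3 w3) H))

end Crest.Agent.R307.UEP
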