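import Crest.Agent.R307.IA3
import Crest.Agent.R307.IAx
set_option autoImplicit false
set_option linter.unusedVariables false
set_option maxRecDepth 20000
namespace Crest.Agent.R307.UEQ
open Crest.Agent.R307.IA Crest.Agent.R307.IA3

theorem In_cast {e1 e2 e3 : ℝ} {x y1 y2 y3 r : ℕ} {v w : ℝ}
    (h : In e1 e2 e3 x y1 y2 y3 r v) (e : v = w) : In e1 e2 e3 x y1 y2 y3 r w := e ▸ h

noncomputable def rh (u ta s : ℝ) : ℝ := (√((1:ℝ) - (s * s)))
noncomputable def ep (u ta s : ℝ) : ℝ := (((1:ℝ) - (rh u ta s)) / (2:ℝ))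
noncomputable def al (u ta s : ℝ) : ℝ := (((1:ℝ) + (rh u ta s)) / (2:ℝ))
noncomputable def a2 (u ta s : ℝ) : ℝ := (ta * ta)
noncomputable def X2 (u ta s : ℝ) : ℝ := ((ep u ta s) + ((al u ta s) * (a2 u ta s)))
noncomputable def gx (u ta s : ℝ) : ℝ := (√(X2 u ta s))
noncomputable def iu (u ta s : ℝ) : ℝ := ((1:ℝ) / ((1:ℝ) + (u * u)))
noncomputable def R (u ta s : ℝ) : ℝ := (((2:ℝ) * (iu u ta s)) - (1:ℝ))
noncomputable def R2 (u ta s : ℝ) : ℝ := ((R u ta s) * (R u ta s))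
noncomputable def tx (u ta s : ℝ) : ℝ := (√((1:ℝ) - ((R2 u ta s) * (X2 u ta s))))
noncomputable def rx (u ta s : ℝ) : ℝ := ((R u ta s) * (gx u ta s))
noncomputable def Vx (u ta s : ℝ) : ℝ := ((((1:ℝ) + (tx u ta s)) - ((2:ℝ) * (rx u ta s))) + ((rx u ta s) / ((1:ℝ) + (tx u ta s))))
noncomputable def Y2 (u ta s : ℝ) : ℝ := ((al u ta s) + ((ep u ta s) * (a2 u ta s)))
noncomputable def gy (u ta s : ℝ) : ℝ := (√(Y2 u ta s))
noncomputable def t0 (u ta s : ℝ) : ℝ := (((2:ℝ) * u) * (iu u ta s))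
noncomputable def d (u ta s : ℝ) : ℝ := ((1:ℝ) - (a2 u ta s))
noncomputable def ty (u ta s : ℝ) : ℝ := (√(((t0 u ta s) * (t0 u ta s)) + ((ep u ta s) * ((R2 u ta s) * (d u ta s)))))
noncomputable def ry (u ta s : ℝ) : ℝ := ((R u ta s) * (gy u ta s))
noncomputable def Vy (u ta s : ℝ) : ℝ := ((((1:ℝ) + (ty u ta s)) - ((2:ℝ) * (ry u ta s))) + ((ry u ta s) / ((1:ℝ) + (ty u ta s))))
noncomputable def V0 (u ta s : ℝ) : ℝ := ((((1:ℝ) + (t0 u ta s)) - ((2:ℝ) * (R u ta s))) + ((R u ta s) / ((1:ℝ) + (t0 u ta s))))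
noncomputable def G (u ta s : ℝ) : ℝ := ((((gx u ta s) * (Vx u ta s)) + ((gy u ta s) * (Vy u ta s))) - (((1:ℝ) + ((1/5:ℝ) * s)) * (V0 u ta s)))
noncomputable def qq (u ta s : ℝ) : ℝ := ((1:ℝ) - (s * ((93/100:ℝ) + ((3/25:ℝ) * s))))
noncomputable def r1 (u ta s : ℝ) : ℝ := ((R u ta s) * ta)
noncomputable def t1 (u ta s : ℝ) : ℝ := (√((1:ℝ) - ((r1 u ta s) * (r1 u ta s))))
noncomputable def U1 (u ta s : ℝ) : ℝ := ((((1:ℝ) + (t1 u ta s)) - ((2:ℝ) * (r1 u ta s))) + ((r1 u ta s) / ((1:ℝ) + (t1 u ta s))))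
noncomputable def V1 (u ta s : ℝ) : ℝ := (ta * (U1 u ta s))
noncomputable def C (u ta s : ℝ) : ℝ := ((G u ta s) + ((qq u ta s) * (V1 u ta s)))
noncomputable def pp (u ta s : ℝ) : ℝ := ((1:ℝ) - (s * ((-17/100:ℝ) + ((1/10:ℝ) * s))))
noncomputable def sd (u ta s : ℝ) : ℝ := (s * ((R u ta s) * (d u ta s)))
noncomputable def A (u ta s : ℝ) : ℝ := (((G u ta s) - ((pp u ta s) * (V1 u ta s))) - (((81/10000:ℝ) - ((73/5000:ℝ) * s)) * (sd u ta s)))
noncomputable def B (u ta s : ℝ) : ℝ := ((((qq u ta s) - (pp u ta s)) * (V1 u ta s)) + ((19957/10000:ℝ) * (sd u ta s)))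

def Q (u ta s : ℝ) : Prop :=
  (
  (0 < (C u ta s) ∧ 0 < (((4:ℝ) * ((A u ta s) * (C u ta s))) - ((B u ta s) * (B u ta s)))) ∨
  (0 < (C u ta s) ∧ 0 < (((34/25:ℝ) * (C u ta s)) - (B u ta s)) ∧ 0 < (((A u ta s) - ((17/25:ℝ) * (B u ta s))) + ((289/625:ℝ) * (C u ta s)))) ∨
  (0 < (C u ta s) ∧ 0 < ((B u ta s) - ((2:ℝ) * (C u ta s))) ∧ 0 < (((A u ta s) - (B u ta s)) + (C u ta s))) ∨
  (0 < (((100:ℝ) * (r1 u ta s)) - (70:ℝ))))

noncomputable def alt0 (z1 w1 z2 w2 z3 w3 : ℕ) : Bool :=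
  sqK z3 1152921504606846976 1152921504606846976 (Nat.add w3 1152921504606846976) 0 fun c1 a1_1 a1_2 a1_3 q1 =>
  negK c1 a1_1 a1_2 a1_3 q1 fun c3 a3_1 a3_2 a3_3 q3 =>
  addcK c3 a3_1 a3_2 a3_3 q3 1152922604118474752 0 fun c4 a4_1 a4_2 a4_3 q4 =>
  sqrtK c4 a4_1 a4_2 a4_3 q4 fun c6 a6_1 a6_2 a6_3 q6 =>
  negK c6 a6_1 a6_2 a6_3 q6 fun c8 a8_1 a8_2 a8_3 q8 =>
  addcK c8 a8_1 a8_2 a8_3 q8 1152922604118474752 0 fun c9 a9_1 a9_2 a9_3 q9 =>
  smulK 1 2 2305843009213693954 1152921504606846976 c9 a9_1 a9_2 a9_3 q9 fun c11 a11_1 a11_2 a11_3 q11 =>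
  addcK c6 a6_1 a6_2 a6_3 q6 1152922604118474752 0 fun c14 a14_1 a14_2 a14_3 q14 =>
  smulK 1 2 2305843009213693954 1152921504606846976 c14 a14_1 a14_2 a14_3 q14 fun c16 a16_1 a16_2 a16_3 q16 =>
  sqK z2 1152921504606846976 (Nat.add w2 1152921504606846976) 1152921504606846976 0 fun c19 a19_1 a19_2 a19_3 q19 =>
  mulK c16 a16_1 a16_2 a16_3 q16 c19 a19_1 a19_2 a19_3 q19 fun c22 a22_1 a22_2 a22_3 q22 =>
  addK c11 a11_1 a11_2 a11_3 q11 c22 a22_1 a22_2 a22_3 q22 fun c23 a23_1 a23_2 a23_3 q23 =>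
  sqrtK c23 a23_1 a23_2 a23_3 q23 fun c25 a25_1 a25_2 a25_3 q25 =>
  sqK z1 (Nat.add w1 1152921504606846976) 1152921504606846976 1152921504606846976 0 fun c27 a27_1 a27_2 a27_3 q27 =>
  addcK c27 a27_1 a27_2 a27_3 q27 1152922604118474752 0 fun c29 a29_1 a29_2 a29_3 q29 =>
  invK c29 a29_1 a29_2 a29_3 q29 fun c31 a31_1 a31_2 a31_3 q31 =>
  smulK 2 1 1152921504606846977 2305843009213693952 c31 a31_1 a31_2 a31_3 q31 fun c34 a34_1 a34_2 a34_3 q34 =>
  addcK c34 a34_1 a34_2 a34_3 q34 1152920405095219200 0 fun c35 a35_1 a35_2 a35_3 q35 =>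
  sqK c35 a35_1 a35_2 a35_3 q35 fun c38 a38_1 a38_2 a38_3 q38 =>
  mulK c38 a38_1 a38_2 a38_3 q38 c23 a23_1 a23_2 a23_3 q23 fun c41 a41_1 a41_2 a41_3 q41 =>
  negK c41 a41_1 a41_2 a41_3 q41 fun c42 a42_1 a42_2 a42_3 q42 =>
  addcK c42 a42_1 a42_2 a42_3 q42 1152922604118474752 0 fun c43 a43_1 a43_2 a43_3 q43 =>
  sqrtK c43 a43_1 a43_2 a43_3 q43 fun c45 a45_1 a45_2 a45_3 q45 =>
  addcK c45 a45_1 a45_2 a45_3 q45 1152922604118474752 0 fun c47 a47_1 a47_2 a47_3 q47 =>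
  mulK c35 a35_1 a35_2 a35_3 q35 c25 a25_1 a25_2 a25_3 q25 fun c49 a49_1 a49_2 a49_3 q49 =>
  smulK 2 1 1152921504606846977 2305843009213693952 c49 a49_1 a49_2 a49_3 q49 fun c51 a51_1 a51_2 a51_3 q51 =>
  subK c47 a47_1 a47_2 a47_3 q47 c51 a51_1 a51_2 a51_3 q51 fun c52 a52_1 a52_2 a52_3 q52 =>
  invK c47 a47_1 a47_2 a47_3 q47 fun c53 a53_1 a53_2 a53_3 q53 =>
  mulK c49 a49_1 a49_2 a49_3 q49 c53 a53_1 a53_2 a53_3 q53 fun c54 a54_1 a54_2 a54_3 q54 =>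
  addK c52 a52_1 a52_2 a52_3 q52 c54 a54_1 a54_2 a54_3 q54 fun c56 a56_1 a56_2 a56_3 q56 =>
  mulK c25 a25_1 a25_2 a25_3 q25 c56 a56_1 a56_2 a56_3 q56 fun c58 a58_1 a58_2 a58_3 q58 =>
  mulK c11 a11_1 a11_2 a11_3 q11 c19 a19_1 a19_2 a19_3 q19 fun c59 a59_1 a59_2 a59_3 q59 =>
  addK c16 a16_1 a16_2 a16_3 q16 c59 a59_1 a59_2 a59_3 q59 fun c60 a60_1 a60_2 a60_3 q60 =>
  sqrtK c60 a60_1 a60_2 a60_3 q60 fun c62 a62_1 a62_2 a62_3 q62 =>
  smulK 2 1 1152921504606846977 2305843009213693952 z1 (Nat.add w1 1152921504606846976) 1152921504606846976 1152921504606846976 0 fun c64 a64_1 a64_2 a64_3 q64 =>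
  mulK c64 a64_1 a64_2 a64_3 q64 c31 a31_1 a31_2 a31_3 q31 fun c65 a65_1 a65_2 a65_3 q65 =>
  sqK c65 a65_1 a65_2 a65_3 q65 fun c67 a67_1 a67_2 a67_3 q67 =>
  negK c19 a19_1 a19_2 a19_3 q19 fun c69 a69_1 a69_2 a69_3 q69 =>
  addcK c69 a69_1 a69_2 a69_3 q69 1152922604118474752 0 fun c70 a70_1 a70_2 a70_3 q70 =>
  mulK c38 a38_1 a38_2 a38_3 q38 c70 a70_1 a70_2 a70_3 q70 fun c73 a73_1 a73_2 a73_3 q73 =>
  mulK c11 a11_1 a11_2 a11_3 q11 c73 a73_1 a73_2 a73_3 q73 fun c74 a74_1 a74_2 a74_3 q74 =>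
  addK c67 a67_1 a67_2 a67_3 q67 c74 a74_1 a74_2 a74_3 q74 fun c75 a75_1 a75_2 a75_3 q75 =>
  sqrtK c75 a75_1 a75_2 a75_3 q75 fun c76 a76_1 a76_2 a76_3 q76 =>
  addcK c76 a76_1 a76_2 a76_3 q76 1152922604118474752 0 fun c78 a78_1 a78_2 a78_3 q78 =>
  mulK c35 a35_1 a35_2 a35_3 q35 c62 a62_1 a62_2 a62_3 q62 fun c80 a80_1 a80_2 a80_3 q80 =>
  smulK 2 1 1152921504606846977 2305843009213693952 c80 a80_1 a80_2 a80_3 q80 fun c82 a82_1 a82_2 a82_3 q82 =>
  subK c78 a78_1 a78_2 a78_3 q78 c82 a82_1 a82_2 a82_3 q82 fun c83 a83_1 a83_2 a83_3 q83 =>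
  invK c78 a78_1 a78_2 a78_3 q78 fun c84 a84_1 a84_2 a84_3 q84 =>
  mulK c80 a80_1 a80_2 a80_3 q80 c84 a84_1 a84_2 a84_3 q84 fun c85 a85_1 a85_2 a85_3 q85 =>
  addK c83 a83_1 a83_2 a83_3 q83 c85 a85_1 a85_2 a85_3 q85 fun c87 a87_1 a87_2 a87_3 q87 =>
  mulK c62 a62_1 a62_2 a62_3 q62 c87 a87_1 a87_2 a87_3 q87 fun c89 a89_1 a89_2 a89_3 q89 =>
  addK c58 a58_1 a58_2 a58_3 q58 c89 a89_1 a89_2 a89_3 q89 fun c90 a90_1 a90_2 a90_3 q90 =>
  smulK 1 5 5764607523034234885 1152921504606846976 z3 1152921504606846976 1152921504606846976 (Nat.add w3 1152921504606846976) 0 fun c91 a91_1 a91_2 a91_3 q91 =>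
  addcK c91 a91_1 a91_2 a91_3 q91 1152922604118474752 0 fun c92 a92_1 a92_2 a92_3 q92 =>
  addcK c65 a65_1 a65_2 a65_3 q65 1152922604118474752 0 fun c94 a94_1 a94_2 a94_3 q94 =>
  smulK 2 1 1152921504606846977 2305843009213693952 c35 a35_1 a35_2 a35_3 q35 fun c96 a96_1 a96_2 a96_3 q96 =>
  subK c94 a94_1 a94_2 a94_3 q94 c96 a96_1 a96_2 a96_3 q96 fun c97 a97_1 a97_2 a97_3 q97 =>
  invK c94 a94_1 a94_2 a94_3 q94 fun c98 a98_1 a98_2 a98_3 q98 =>
  mulK c35 a35_1 a35_2 a35_3 q35 c98 a98_1 a98_2 a98_3 q98 fun c99 a99_1 a99_2 a99_3 q99 =>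
  addK c97 a97_1 a97_2 a97_3 q97 c99 a99_1 a99_2 a99_3 q99 fun c101 a101_1 a101_2 a101_3 q101 =>
  mulK c92 a92_1 a92_2 a92_3 q92 c101 a101_1 a101_2 a101_3 q101 fun c103 a103_1 a103_2 a103_3 q103 =>
  subK c90 a90_1 a90_2 a90_3 q90 c103 a103_1 a103_2 a103_3 q103 fun c104 a104_1 a104_2 a104_3 q104 =>
  smulK 3 25 28823037615171174425 3458764513820540928 z3 1152921504606846976 1152921504606846976 (Nat.add w3 1152921504606846976) 0 fun c106 a106_1 a106_2 a106_3 q106 =>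
  addcK c106 a106_1 a106_2 a106_3 q106 1152922527152660808 1 fun c107 a107_1 a107_2 a107_3 q107 =>
  mulK z3 1152921504606846976 1152921504606846976 (Nat.add w3 1152921504606846976) 0 c107 a107_1 a107_2 a107_3 q107 fun c109 a109_1 a109_2 a109_3 q109 =>
  negK c109 a109_1 a109_2 a109_3 q109 fun c110 a110_1 a110_2 a110_3 q110 =>
  addcK c110 a110_1 a110_2 a110_3 q110 1152922604118474752 0 fun c111 a111_1 a111_2 a111_3 q111 =>
  mulK c35 a35_1 a35_2 a35_3 q35 z2 1152921504606846976 (Nat.add w2 1152921504606846976) 1152921504606846976 0 fun c114 a114_1 a114_2 a114_3 q114 =>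
  sqK c114 a114_1 a114_2 a114_3 q114 fun c116 a116_1 a116_2 a116_3 q116 =>
  negK c116 a116_1 a116_2 a116_3 q116 fun c118 a118_1 a118_2 a118_3 q118 =>
  addcK c118 a118_1 a118_2 a118_3 q118 1152922604118474752 0 fun c119 a119_1 a119_2 a119_3 q119 =>
  sqrtK c119 a119_1 a119_2 a119_3 q119 fun c121 a121_1 a121_2 a121_3 q121 =>
  addcK c121 a121_1 a121_2 a121_3 q121 1152922604118474752 0 fun c123 a123_1 a123_2 a123_3 q123 =>
  smulK 2 1 1152921504606846977 2305843009213693952 c114 a114_1 a114_2 a114_3 q114 fun c125 a125_1 a125_2 a125_3 q125 =>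
  subK c123 a123_1 a123_2 a123_3 q123 c125 a125_1 a125_2 a125_3 q125 fun c126 a126_1 a126_2 a126_3 q126 =>
  invK c123 a123_1 a123_2 a123_3 q123 fun c127 a127_1 a127_2 a127_3 q127 =>
  mulK c114 a114_1 a114_2 a114_3 q114 c127 a127_1 a127_2 a127_3 q127 fun c128 a128_1 a128_2 a128_3 q128 =>
  addK c126 a126_1 a126_2 a126_3 q126 c128 a128_1 a128_2 a128_3 q128 fun c130 a130_1 a130_2 a130_3 q130 =>
  mulK z2 1152921504606846976 (Nat.add w2 1152921504606846976) 1152921504606846976 0 c130 a130_1 a130_2 a130_3 q130 fun c132 a132_1 a132_2 a132_3 q132 =>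
  mulK c111 a111_1 a111_2 a111_3 q111 c132 a132_1 a132_2 a132_3 q132 fun c134 a134_1 a134_2 a134_3 q134 =>
  addK c104 a104_1 a104_2 a104_3 q104 c134 a134_1 a134_2 a134_3 q134 fun c135 a135_1 a135_2 a135_3 q135 =>
  posK c135 a135_1 a135_2 a135_3 q135 <|
  smulK 1 10 11529215046068469770 1152921504606846976 z3 1152921504606846976 1152921504606846976 (Nat.add w3 1152921504606846976) 0 fun c137 a137_1 a137_2 a137_3 q137 =>
  addcK c137 a137_1 a137_2 a137_3 q137 1152921317689870254 1 fun c138 a138_1 a138_2 a138_3 q138 =>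
  mulK z3 1152921504606846976 1152921504606846976 (Nat.add w3 1152921504606846976) 0 c138 a138_1 a138_2 a138_3 q138 fun c140 a140_1 a140_2 a140_3 q140 =>
  negK c140 a140_1 a140_2 a140_3 q140 fun c141 a141_1 a141_2 a141_3 q141 =>
  addcK c141 a141_1 a141_2 a141_3 q141 1152922604118474752 0 fun c142 a142_1 a142_2 a142_3 q142 =>
  mulK c142 a142_1 a142_2 a142_3 q142 c132 a132_1 a132_2 a132_3 q132 fun c145 a145_1 a145_2 a145_3 q145 =>
  subK c104 a104_1 a104_2 a104_3 q104 c145 a145_1 a145_2 a145_3 q145 fun c146 a146_1 a146_2 a146_3 q146 =>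
  smulK 73 5000 5764607523034234885000 84163269836299829248 z3 1152921504606846976 1152921504606846976 (Nat.add w3 1152921504606846976) 0 fun c147 a147_1 a147_2 a147_3 q147 =>
  negK c147 a147_1 a147_2 a147_3 q147 fun c148 a148_1 a148_2 a148_3 q148 =>
  addcK c148 a148_1 a148_2 a148_3 q148 1152921513512891161 1 fun c149 a149_1 a149_2 a149_3 q149 =>
  mulK c35 a35_1 a35_2 a35_3 q35 c70 a70_1 a70_2 a70_3 q70 fun c151 a151_1 a151_2 a151_3 q151 =>
  mulK z3 1152921504606846976 1152921504606846976 (Nat.add w3 1152921504606846976) 0 c151 a151_1 a151_2 a151_3 q151 fun c152 a152_1 a152_2 a152_3 q152 =>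
  mulK c149 a149_1 a149_2 a149_3 q149 c152 a152_1 a152_2 a152_3 q152 fun c154 a154_1 a154_2 a154_3 q154 =>
  subK c146 a146_1 a146_2 a146_3 q146 c154 a154_1 a154_2 a154_3 q154 fun c155 a155_1 a155_2 a155_3 q155 =>
  mulK c155 a155_1 a155_2 a155_3 q155 c135 a135_1 a135_2 a135_3 q135 fun c157 a157_1 a157_2 a157_3 q157 =>
  smulK 4 1 1152921504606846977 4611686018427387904 c157 a157_1 a157_2 a157_3 q157 fun c158 a158_1 a158_2 a158_3 q158 =>
  subK c111 a111_1 a111_2 a111_3 q111 c142 a142_1 a142_2 a142_3 q142 fun c159 a159_1 a159_2 a159_3 q159 =>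
  mulK c159 a159_1 a159_2 a159_3 q159 c132 a132_1 a132_2 a132_3 q132 fun c160 a160_1 a160_2 a160_3 q160 =>
  smulK 19957 10000 11529215046068469770000 23008854467438845100032 c152 a152_1 a152_2 a152_3 q152 fun c161 a161_1 a161_2 a161_3 q161 =>
  addK c160 a160_1 a160_2 a160_3 q160 c161 a161_1 a161_2 a161_3 q161 fun c162 a162_1 a162_2 a162_3 q162 =>
  sqK c162 a162_1 a162_2 a162_3 q162 fun c164 a164_1 a164_2 a164_3 q164 =>
  subK c158 a158_1 a158_2 a158_3 q158 c164 a164_1 a164_2 a164_3 q164 fun c166 a166_1 a166_2 a166_3 q166 =>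
  pos c166 a166_1 a166_2 a166_3 q166

theorem alt0_s {z1 w1 z2 w2 z3 w3 : ℕ} {e1 e2 e3 u ta s : ℝ} (he : Ev e1 e2 e3)
    (hx1 : In e1 e2 e3 z1 (Nat.add w1 1152921504606846976) 1152921504606846976 1152921504606846976 0 u)
    (hx2 : In e1 e2 e3 z2 1152921504606846976 (Nat.add w2 1152921504606846976) 1152921504606846976 0 ta)
    (hx3 : In e1 e2 e3 z3 1152921504606846976 1152921504606846976 (Nat.add w3 1152921504606846976) 0 s)
    (H0 : alt0 z1 w1 z2 w2 z3 w3 = true) : 0 < (C u ta s) ∧ 0 < (((4:ℝ) * ((A u ta s) * (C u ta s))) - ((B u ta s) * (B u ta s))) := by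
  unfold alt0 at H0
  refine sqK_s he hx3 (fun _ _ _ _ _ h1 H1 => ?_) H0
  have h2 := In_cast h1 (sq _)
  refine negK_s he h2 (fun _ _ _ _ _ h3 H2 => ?_) H1
  refine addcK_s he h3 (v' := (1:ℝ)) (by norm_num [SS, BB, abs_le]) (fun _ _ _ _ _ h4 H3 => ?_) H2
  have h5 := In_cast h4 (neg_add_eq_sub _ _)
  refine sqrtK_s he h5 (fun _ _ _ _ _ h6 H4 => ?_) H3
  have h7 := In_cast (w := (rh u ta s)) h6 rfl
  refine negK_s he h7 (fun _ _ _ _ _ h8 H5 => ?_) H4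
  refine addcK_s he h8 (v' := (1:ℝ)) (by norm_num [SS, BB, abs_le]) (fun _ _ _ _ _ h9 H6 => ?_) H5
  have h10 := In_cast h9 (neg_add_eq_sub _ _)
  refine smulK_s he (w := (1/2:ℝ)) (by norm_num) (by norm_num) (by norm_num) (by norm_num) h10 (fun _ _ _ _ _ h11 H7 => ?_) H6
  have h12 := In_cast h11 (div_c (c := (2:ℝ)) (by norm_num))
  have h13 := In_cast (w := (ep u ta s)) h12 rfl
  refine addcK_s he h7 (v' := (1:ℝ)) (by norm_num [SS, BB, abs_le]) (fun _ _ _ _ _ h14 H8 => ?_) H7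
  have h15 := In_cast h14 (add_comm _ _)
  refine smulK_s he (w := (1/2:ℝ)) (by norm_num) (by norm_num) (by norm_num) (by norm_num) h15 (fun _ _ _ _ _ h16 H9 => ?_) H8
  have h17 := In_cast h16 (div_c (c := (2:ℝ)) (by norm_num))
  have h18 := In_cast (w := (al u ta s)) h17 rfl
  refine sqK_s he hx2 (fun _ _ _ _ _ h19 H10 => ?_) H9
  have h20 := In_cast h19 (sq _)
  have h21 := In_cast (w := (a2 u ta s)) h20 rfl
  refine mulK_s he h18 h21 (fun _ _ _ _ _ h22 H11 => ?_) H10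
  refine addK_s he h13 h22 (fun _ _ _ _ _ h23 H12 => ?_) H11
  have h24 := In_cast (w := (X2 u ta s)) h23 rfl
  refine sqrtK_s he h24 (fun _ _ _ _ _ h25 H13 => ?_) H12
  have h26 := In_cast (w := (gx u ta s)) h25 rfl
  refine sqK_s he hx1 (fun _ _ _ _ _ h27 H14 => ?_) H13
  have h28 := In_cast h27 (sq _)
  refine addcK_s he h28 (v' := (1:ℝ)) (by norm_num [SS, BB, abs_le]) (fun _ _ _ _ _ h29 H15 => ?_) H14
  have h30 := In_cast h29 (add_comm _ _)
  refine invK_s he h30 (fun _ _ _ _ _ h31 H16 => ?_) H15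
  have h32 := In_cast h31 (inv_eq_one_div _)
  have h33 := In_cast (w := (iu u ta s)) h32 rfl
  refine smulK_s he (w := (2:ℝ)) (by norm_num) (by norm_num) (by norm_num) (by norm_num) h33 (fun _ _ _ _ _ h34 H17 => ?_) H16
  refine addcK_s he h34 (v' := (-1:ℝ)) (by norm_num [SS, BB, abs_le]) (fun _ _ _ _ _ h35 H18 => ?_) H17
  have h36 := In_cast h35 (sub_c (c := (1:ℝ)) (by norm_num))
  have h37 := In_cast (w := (R u ta s)) h36 rfl
  refine sqK_s he h37 (fun _ _ _ _ _ h38 H19 => ?_) H18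
  have h39 := In_cast h38 (sq _)
  have h40 := In_cast (w := (R2 u ta s)) h39 rfl
  refine mulK_s he h40 h24 (fun _ _ _ _ _ h41 H20 => ?_) H19
  refine negK_s he h41 (fun _ _ _ _ _ h42 H21 => ?_) H20
  refine addcK_s he h42 (v' := (1:ℝ)) (by norm_num [SS, BB, abs_le]) (fun _ _ _ _ _ h43 H22 => ?_) H21
  have h44 := In_cast h43 (neg_add_eq_sub _ _)
  refine sqrtK_s he h44 (fun _ _ _ _ _ h45 H23 => ?_) H22
  have h46 := In_cast (w := (tx u ta s)) h45 rfl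
  refine addcK_s he h46 (v' := (1:ℝ)) (by norm_num [SS, BB, abs_le]) (fun _ _ _ _ _ h47 H24 => ?_) H23
  have h48 := In_cast h47 (add_comm _ _)
  refine mulK_s he h37 h26 (fun _ _ _ _ _ h49 H25 => ?_) H24
  have h50 := In_cast (w := (rx u ta s)) h49 rfl
  refine smulK_s he (w := (2:ℝ)) (by norm_num) (by norm_num) (by norm_num) (by norm_num) h50 (fun _ _ _ _ _ h51 H26 => ?_) H25
  refine subK_s he h48 h51 (fun _ _ _ _ _ h52 H27 => ?_) H26
  refine invK_s he h48 (fun _ _ _ _ _ h53 H28 => ?_) H27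
  refine mulK_s he h50 h53 (fun _ _ _ _ _ h54 H29 => ?_) H28
  have h55 := In_cast h54 ((div_eq_mul_inv _ _).symm)
  refine addK_s he h52 h55 (fun _ _ _ _ _ h56 H30 => ?_) H29
  have h57 := In_cast (w := (Vx u ta s)) h56 rfl
  refine mulK_s he h26 h57 (fun _ _ _ _ _ h58 H31 => ?_) H30
  refine mulK_s he h13 h21 (fun _ _ _ _ _ h59 H32 => ?_) H31
  refine addK_s he h18 h59 (fun _ _ _ _ _ h60 H33 => ?_) H32
  have h61 := In_cast (w := (Y2 u ta s)) h60 rfl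
  refine sqrtK_s he h61 (fun _ _ _ _ _ h62 H34 => ?_) H33
  have h63 := In_cast (w := (gy u ta s)) h62 rfl
  refine smulK_s he (w := (2:ℝ)) (by norm_num) (by norm_num) (by norm_num) (by norm_num) hx1 (fun _ _ _ _ _ h64 H35 => ?_) H34
  refine mulK_s he h64 h33 (fun _ _ _ _ _ h65 H36 => ?_) H35
  have h66 := In_cast (w := (t0 u ta s)) h65 rfl
  refine sqK_s he h66 (fun _ _ _ _ _ h67 H37 => ?_) H36
  have h68 := In_cast h67 (sq _)
  refine negK_s he h21 (fun _ _ _ _ _ h69 H38 => ?_) H37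
  refine addcK_s he h69 (v' := (1:ℝ)) (by norm_num [SS, BB, abs_le]) (fun _ _ _ _ _ h70 H39 => ?_) H38
  have h71 := In_cast h70 (neg_add_eq_sub _ _)
  have h72 := In_cast (w := (d u ta s)) h71 rfl
  refine mulK_s he h40 h72 (fun _ _ _ _ _ h73 H40 => ?_) H39
  refine mulK_s he h13 h73 (fun _ _ _ _ _ h74 H41 => ?_) H40
  refine addK_s he h68 h74 (fun _ _ _ _ _ h75 H42 => ?_) H41
  refine sqrtK_s he h75 (fun _ _ _ _ _ h76 H43 => ?_) H42
  have h77 := In_cast (w := (ty u ta s)) h76 rfl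
  refine addcK_s he h77 (v' := (1:ℝ)) (by norm_num [SS, BB, abs_le]) (fun _ _ _ _ _ h78 H44 => ?_) H43
  have h79 := In_cast h78 (add_comm _ _)
  refine mulK_s he h37 h63 (fun _ _ _ _ _ h80 H45 => ?_) H44
  have h81 := In_cast (w := (ry u ta s)) h80 rfl
  refine smulK_s he (w := (2:ℝ)) (by norm_num) (by norm_num) (by norm_num) (by norm_num) h81 (fun _ _ _ _ _ h82 H46 => ?_) H45
  refine subK_s he h79 h82 (fun _ _ _ _ _ h83 H47 => ?_) H46
  refine invK_s he h79 (fun _ _ _ _ _ h84 H48 => ?_) H47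
  refine mulK_s he h81 h84 (fun _ _ _ _ _ h85 H49 => ?_) H48
  have h86 := In_cast h85 ((div_eq_mul_inv _ _).symm)
  refine addK_s he h83 h86 (fun _ _ _ _ _ h87 H50 => ?_) H49
  have h88 := In_cast (w := (Vy u ta s)) h87 rfl
  refine mulK_s he h63 h88 (fun _ _ _ _ _ h89 H51 => ?_) H50
  refine addK_s he h58 h89 (fun _ _ _ _ _ h90 H52 => ?_) H51
  refine smulK_s he (w := (1/5:ℝ)) (by norm_num) (by norm_num) (by norm_num) (by norm_num) hx3 (fun _ _ _ _ _ h91 H53 => ?_) H52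
  refine addcK_s he h91 (v' := (1:ℝ)) (by norm_num [SS, BB, abs_le]) (fun _ _ _ _ _ h92 H54 => ?_) H53
  have h93 := In_cast h92 (add_comm _ _)
  refine addcK_s he h66 (v' := (1:ℝ)) (by norm_num [SS, BB, abs_le]) (fun _ _ _ _ _ h94 H55 => ?_) H54
  have h95 := In_cast h94 (add_comm _ _)
  refine smulK_s he (w := (2:ℝ)) (by norm_num) (by norm_num) (by norm_num) (by norm_num) h37 (fun _ _ _ _ _ h96 H56 => ?_) H55
  refine subK_s he h95 h96 (fun _ _ _ _ _ h97 H57 => ?_) H56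
  refine invK_s he h95 (fun _ _ _ _ _ h98 H58 => ?_) H57
  refine mulK_s he h37 h98 (fun _ _ _ _ _ h99 H59 => ?_) H58
  have h100 := In_cast h99 ((div_eq_mul_inv _ _).symm)
  refine addK_s he h97 h100 (fun _ _ _ _ _ h101 H60 => ?_) H59
  have h102 := In_cast (w := (V0 u ta s)) h101 rfl
  refine mulK_s he h93 h102 (fun _ _ _ _ _ h103 H61 => ?_) H60
  refine subK_s he h90 h103 (fun _ _ _ _ _ h104 H62 => ?_) H61
  have h105 := In_cast (w := (G u ta s)) h104 rfl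
  refine smulK_s he (w := (3/25:ℝ)) (by norm_num) (by norm_num) (by norm_num) (by norm_num) hx3 (fun _ _ _ _ _ h106 H63 => ?_) H62
  refine addcK_s he h106 (v' := (93/100:ℝ)) (by norm_num [SS, BB, abs_le]) (fun _ _ _ _ _ h107 H64 => ?_) H63
  have h108 := In_cast h107 (add_comm _ _)
  refine mulK_s he hx3 h108 (fun _ _ _ _ _ h109 H65 => ?_) H64
  refine negK_s he h109 (fun _ _ _ _ _ h110 H66 => ?_) H65
  refine addcK_s he h110 (v' := (1:ℝ)) (by norm_num [SS, BB, abs_le]) (fun _ _ _ _ _ h111 H67 => ?_) H66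
  have h112 := In_cast h111 (neg_add_eq_sub _ _)
  have h113 := In_cast (w := (qq u ta s)) h112 rfl
  refine mulK_s he h37 hx2 (fun _ _ _ _ _ h114 H68 => ?_) H67
  have h115 := In_cast (w := (r1 u ta s)) h114 rfl
  refine sqK_s he h115 (fun _ _ _ _ _ h116 H69 => ?_) H68
  have h117 := In_cast h116 (sq _)
  refine negK_s he h117 (fun _ _ _ _ _ h118 H70 => ?_) H69
  refine addcK_s he h118 (v' := (1:ℝ)) (by norm_num [SS, BB, abs_le]) (fun _ _ _ _ _ h119 H71 => ?_) H70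
  have h120 := In_cast h119 (neg_add_eq_sub _ _)
  refine sqrtK_s he h120 (fun _ _ _ _ _ h121 H72 => ?_) H71
  have h122 := In_cast (w := (t1 u ta s)) h121 rfl
  refine addcK_s he h122 (v' := (1:ℝ)) (by norm_num [SS, BB, abs_le]) (fun _ _ _ _ _ h123 H73 => ?_) H72
  have h124 := In_cast h123 (add_comm _ _)
  refine smulK_s he (w := (2:ℝ)) (by norm_num) (by norm_num) (by norm_num) (by norm_num) h115 (fun _ _ _ _ _ h125 H74 => ?_) H73
  refine subK_s he h124 h125 (fun _ _ _ _ _ h126 H75 => ?_) H74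
  refine invK_s he h124 (fun _ _ _ _ _ h127 H76 => ?_) H75
  refine mulK_s he h115 h127 (fun _ _ _ _ _ h128 H77 => ?_) H76
  have h129 := In_cast h128 ((div_eq_mul_inv _ _).symm)
  refine addK_s he h126 h129 (fun _ _ _ _ _ h130 H78 => ?_) H77
  have h131 := In_cast (w := (U1 u ta s)) h130 rfl
  refine mulK_s he hx2 h131 (fun _ _ _ _ _ h132 H79 => ?_) H78
  have h133 := In_cast (w := (V1 u ta s)) h132 rfl
  refine mulK_s he h113 h133 (fun _ _ _ _ _ h134 H80 => ?_) H79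
  refine addK_s he h105 h134 (fun _ _ _ _ _ h135 H81 => ?_) H80
  have h136 := In_cast (w := (C u ta s)) h135 rfl
  refine posK_s he h136 (fun p0 H82 => ?_) H81
  refine smulK_s he (w := (1/10:ℝ)) (by norm_num) (by norm_num) (by norm_num) (by norm_num) hx3 (fun _ _ _ _ _ h137 H83 => ?_) H82
  refine addcK_s he h137 (v' := (-17/100:ℝ)) (by norm_num [SS, BB, abs_le]) (fun _ _ _ _ _ h138 H84 => ?_) H83
  have h139 := In_cast h138 (add_comm _ _)
  refine mulK_s he hx3 h139 (fun _ _ _ _ _ h140 H85 => ?_) H84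
  refine negK_s he h140 (fun _ _ _ _ _ h141 H86 => ?_) H85
  refine addcK_s he h141 (v' := (1:ℝ)) (by norm_num [SS, BB, abs_le]) (fun _ _ _ _ _ h142 H87 => ?_) H86
  have h143 := In_cast h142 (neg_add_eq_sub _ _)
  have h144 := In_cast (w := (pp u ta s)) h143 rfl
  refine mulK_s he h144 h133 (fun _ _ _ _ _ h145 H88 => ?_) H87
  refine subK_s he h105 h145 (fun _ _ _ _ _ h146 H89 => ?_) H88
  refine smulK_s he (w := (73/5000:ℝ)) (by norm_num) (by norm_num) (by norm_num) (by norm_num) hx3 (fun _ _ _ _ _ h147 H90 => ?_) H89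
  refine negK_s he h147 (fun _ _ _ _ _ h148 H91 => ?_) H90
  refine addcK_s he h148 (v' := (81/10000:ℝ)) (by norm_num [SS, BB, abs_le]) (fun _ _ _ _ _ h149 H92 => ?_) H91
  have h150 := In_cast h149 (neg_add_eq_sub _ _)
  refine mulK_s he h37 h72 (fun _ _ _ _ _ h151 H93 => ?_) H92
  refine mulK_s he hx3 h151 (fun _ _ _ _ _ h152 H94 => ?_) H93
  have h153 := In_cast (w := (sd u ta s)) h152 rfl
  refine mulK_s he h150 h153 (fun _ _ _ _ _ h154 H95 => ?_) H94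
  refine subK_s he h146 h154 (fun _ _ _ _ _ h155 H96 => ?_) H95
  have h156 := In_cast (w := (A u ta s)) h155 rfl
  refine mulK_s he h156 h136 (fun _ _ _ _ _ h157 H97 => ?_) H96
  refine smulK_s he (w := (4:ℝ)) (by norm_num) (by norm_num) (by norm_num) (by norm_num) h157 (fun _ _ _ _ _ h158 H98 => ?_) H97
  refine subK_s he h113 h144 (fun _ _ _ _ _ h159 H99 => ?_) H98
  refine mulK_s he h159 h133 (fun _ _ _ _ _ h160 H100 => ?_) H99
  refine smulK_s he (w := (19957/10000:ℝ)) (by norm_num) (by norm_num) (by norm_num) (by norm_num) h153 (fun _ _ _ _ _ h161 H101 => ?_) H100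
  refine addK_s he h160 h161 (fun _ _ _ _ _ h162 H102 => ?_) H101
  have h163 := In_cast (w := (B u ta s)) h162 rfl
  refine sqK_s he h163 (fun _ _ _ _ _ h164 H103 => ?_) H102
  have h165 := In_cast h164 (sq _)
  refine subK_s he h158 h165 (fun _ _ _ _ _ h166 H104 => ?_) H103
  exact ⟨p0, pos_s he h166 H104⟩

noncomputable def alt1 (z1 w1 z2 w2 z3 w3 : ℕ) : Bool :=
  sqK z3 1152921504606846976 1152921504606846976 (Nat.add w3 1152921504606846976) 0 fun c1 a1_1 a1_2 a1_3 q1 =>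
  negK c1 a1_1 a1_2 a1_3 q1 fun c3 a3_1 a3_2 a3_3 q3 =>
  addcK c3 a3_1 a3_2 a3_3 q3 1152922604118474752 0 fun c4 a4_1 a4_2 a4_3 q4 =>
  sqrtK c4 a4_1 a4_2 a4_3 q4 fun c6 a6_1 a6_2 a6_3 q6 =>
  negK c6 a6_1 a6_2 a6_3 q6 fun c8 a8_1 a8_2 a8_3 q8 =>
  addcK c8 a8_1 a8_2 a8_3 q8 1152922604118474752 0 fun c9 a9_1 a9_2 a9_3 q9 =>
  smulK 1 2 2305843009213693954 1152921504606846976 c9 a9_1 a9_2 a9_3 q9 fun c11 a11_1 a11_2 a11_3 q11 =>
  addcK c6 a6_1 a6_2 a6_3 q6 1152922604118474752 0 fun c14 a14_1 a14_2 a14_3 q14 =>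
  smulK 1 2 2305843009213693954 1152921504606846976 c14 a14_1 a14_2 a14_3 q14 fun c16 a16_1 a16_2 a16_3 q16 =>
  sqK z2 1152921504606846976 (Nat.add w2 1152921504606846976) 1152921504606846976 0 fun c19 a19_1 a19_2 a19_3 q19 =>
  mulK c16 a16_1 a16_2 a16_3 q16 c19 a19_1 a19_2 a19_3 q19 fun c22 a22_1 a22_2 a22_3 q22 =>
  addK c11 a11_1 a11_2 a11_3 q11 c22 a22_1 a22_2 a22_3 q22 fun c23 a23_1 a23_2 a23_3 q23 =>
  sqrtK c23 a23_1 a23_2 a23_3 q23 fun c25 a25_1 a25_2 a25_3 q25 =>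
  sqK z1 (Nat.add w1 1152921504606846976) 1152921504606846976 1152921504606846976 0 fun c27 a27_1 a27_2 a27_3 q27 =>
  addcK c27 a27_1 a27_2 a27_3 q27 1152922604118474752 0 fun c29 a29_1 a29_2 a29_3 q29 =>
  invK c29 a29_1 a29_2 a29_3 q29 fun c31 a31_1 a31_2 a31_3 q31 =>
  smulK 2 1 1152921504606846977 2305843009213693952 c31 a31_1 a31_2 a31_3 q31 fun c34 a34_1 a34_2 a34_3 q34 =>
  addcK c34 a34_1 a34_2 a34_3 q34 1152920405095219200 0 fun c35 a35_1 a35_2 a35_3 q35 =>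
  sqK c35 a35_1 a35_2 a35_3 q35 fun c38 a38_1 a38_2 a38_3 q38 =>
  mulK c38 a38_1 a38_2 a38_3 q38 c23 a23_1 a23_2 a23_3 q23 fun c41 a41_1 a41_2 a41_3 q41 =>
  negK c41 a41_1 a41_2 a41_3 q41 fun c42 a42_1 a42_2 a42_3 q42 =>
  addcK c42 a42_1 a42_2 a42_3 q42 1152922604118474752 0 fun c43 a43_1 a43_2 a43_3 q43 =>
  sqrtK c43 a43_1 a43_2 a43_3 q43 fun c45 a45_1 a45_2 a45_3 q45 =>
  addcK c45 a45_1 a45_2 a45_3 q45 1152922604118474752 0 fun c47 a47_1 a47_2 a47_3 q47 =>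
  mulK c35 a35_1 a35_2 a35_3 q35 c25 a25_1 a25_2 a25_3 q25 fun c49 a49_1 a49_2 a49_3 q49 =>
  smulK 2 1 1152921504606846977 2305843009213693952 c49 a49_1 a49_2 a49_3 q49 fun c51 a51_1 a51_2 a51_3 q51 =>
  subK c47 a47_1 a47_2 a47_3 q47 c51 a51_1 a51_2 a51_3 q51 fun c52 a52_1 a52_2 a52_3 q52 =>
  invK c47 a47_1 a47_2 a47_3 q47 fun c53 a53_1 a53_2 a53_3 q53 =>
  mulK c49 a49_1 a49_2 a49_3 q49 c53 a53_1 a53_2 a53_3 q53 fun c54 a54_1 a54_2 a54_3 q54 =>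
  addK c52 a52_1 a52_2 a52_3 q52 c54 a54_1 a54_2 a54_3 q54 fun c56 a56_1 a56_2 a56_3 q56 =>
  mulK c25 a25_1 a25_2 a25_3 q25 c56 a56_1 a56_2 a56_3 q56 fun c58 a58_1 a58_2 a58_3 q58 =>
  mulK c11 a11_1 a11_2 a11_3 q11 c19 a19_1 a19_2 a19_3 q19 fun c59 a59_1 a59_2 a59_3 q59 =>
  addK c16 a16_1 a16_2 a16_3 q16 c59 a59_1 a59_2 a59_3 q59 fun c60 a60_1 a60_2 a60_3 q60 =>
  sqrtK c60 a60_1 a60_2 a60_3 q60 fun c62 a62_1 a62_2 a62_3 q62 =>
  smulK 2 1 1152921504606846977 2305843009213693952 z1 (Nat.add w1 1152921504606846976) 1152921504606846976 1152921504606846976 0 fun c64 a64_1 a64_2 a64_3 q64 =>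
  mulK c64 a64_1 a64_2 a64_3 q64 c31 a31_1 a31_2 a31_3 q31 fun c65 a65_1 a65_2 a65_3 q65 =>
  sqK c65 a65_1 a65_2 a65_3 q65 fun c67 a67_1 a67_2 a67_3 q67 =>
  negK c19 a19_1 a19_2 a19_3 q19 fun c69 a69_1 a69_2 a69_3 q69 =>
  addcK c69 a69_1 a69_2 a69_3 q69 1152922604118474752 0 fun c70 a70_1 a70_2 a70_3 q70 =>
  mulK c38 a38_1 a38_2 a38_3 q38 c70 a70_1 a70_2 a70_3 q70 fun c73 a73_1 a73_2 a73_3 q73 =>
  mulK c11 a11_1 a11_2 a11_3 q11 c73 a73_1 a73_2 a73_3 q73 fun c74 a74_1 a74_2 a74_3 q74 =>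
  addK c67 a67_1 a67_2 a67_3 q67 c74 a74_1 a74_2 a74_3 q74 fun c75 a75_1 a75_2 a75_3 q75 =>
  sqrtK c75 a75_1 a75_2 a75_3 q75 fun c76 a76_1 a76_2 a76_3 q76 =>
  addcK c76 a76_1 a76_2 a76_3 q76 1152922604118474752 0 fun c78 a78_1 a78_2 a78_3 q78 =>
  mulK c35 a35_1 a35_2 a35_3 q35 c62 a62_1 a62_2 a62_3 q62 fun c80 a80_1 a80_2 a80_3 q80 =>
  smulK 2 1 1152921504606846977 2305843009213693952 c80 a80_1 a80_2 a80_3 q80 fun c82 a82_1 a82_2 a82_3 q82 =>
  subK c78 a78_1 a78_2 a78_3 q78 c82 a82_1 a82_2 a82_3 q82 fun c83 a83_1 a83_2 a83_3 q83 =>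
  invK c78 a78_1 a78_2 a78_3 q78 fun c84 a84_1 a84_2 a84_3 q84 =>
  mulK c80 a80_1 a80_2 a80_3 q80 c84 a84_1 a84_2 a84_3 q84 fun c85 a85_1 a85_2 a85_3 q85 =>
  addK c83 a83_1 a83_2 a83_3 q83 c85 a85_1 a85_2 a85_3 q85 fun c87 a87_1 a87_2 a87_3 q87 =>
  mulK c62 a62_1 a62_2 a62_3 q62 c87 a87_1 a87_2 a87_3 q87 fun c89 a89_1 a89_2 a89_3 q89 =>
  addK c58 a58_1 a58_2 a58_3 q58 c89 a89_1 a89_2 a89_3 q89 fun c90 a90_1 a90_2 a90_3 q90 =>
  smulK 1 5 5764607523034234885 1152921504606846976 z3 1152921504606846976 1152921504606846976 (Nat.add w3 1152921504606846976) 0 fun c91 a91_1 a91_2 a91_3 q91 =>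
  addcK c91 a91_1 a91_2 a91_3 q91 1152922604118474752 0 fun c92 a92_1 a92_2 a92_3 q92 =>
  addcK c65 a65_1 a65_2 a65_3 q65 1152922604118474752 0 fun c94 a94_1 a94_2 a94_3 q94 =>
  smulK 2 1 1152921504606846977 2305843009213693952 c35 a35_1 a35_2 a35_3 q35 fun c96 a96_1 a96_2 a96_3 q96 =>
  subK c94 a94_1 a94_2 a94_3 q94 c96 a96_1 a96_2 a96_3 q96 fun c97 a97_1 a97_2 a97_3 q97 =>
  invK c94 a94_1 a94_2 a94_3 q94 fun c98 a98_1 a98_2 a98_3 q98 =>
  mulK c35 a35_1 a35_2 a35_3 q35 c98 a98_1 a98_2 a98_3 q98 fun c99 a99_1 a99_2 a99_3 q99 =>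
  addK c97 a97_1 a97_2 a97_3 q97 c99 a99_1 a99_2 a99_3 q99 fun c101 a101_1 a101_2 a101_3 q101 =>
  mulK c92 a92_1 a92_2 a92_3 q92 c101 a101_1 a101_2 a101_3 q101 fun c103 a103_1 a103_2 a103_3 q103 =>
  subK c90 a90_1 a90_2 a90_3 q90 c103 a103_1 a103_2 a103_3 q103 fun c104 a104_1 a104_2 a104_3 q104 =>
  smulK 3 25 28823037615171174425 3458764513820540928 z3 1152921504606846976 1152921504606846976 (Nat.add w3 1152921504606846976) 0 fun c106 a106_1 a106_2 a106_3 q106 =>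
  addcK c106 a106_1 a106_2 a106_3 q106 1152922527152660808 1 fun c107 a107_1 a107_2 a107_3 q107 =>
  mulK z3 1152921504606846976 1152921504606846976 (Nat.add w3 1152921504606846976) 0 c107 a107_1 a107_2 a107_3 q107 fun c109 a109_1 a109_2 a109_3 q109 =>
  negK c109 a109_1 a109_2 a109_3 q109 fun c110 a110_1 a110_2 a110_3 q110 =>
  addcK c110 a110_1 a110_2 a110_3 q110 1152922604118474752 0 fun c111 a111_1 a111_2 a111_3 q111 =>
  mulK c35 a35_1 a35_2 a35_3 q35 z2 1152921504606846976 (Nat.add w2 1152921504606846976) 1152921504606846976 0 fun c114 a114_1 a114_2 a114_3 q114 =>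
  sqK c114 a114_1 a114_2 a114_3 q114 fun c116 a116_1 a116_2 a116_3 q116 =>
  negK c116 a116_1 a116_2 a116_3 q116 fun c118 a118_1 a118_2 a118_3 q118 =>
  addcK c118 a118_1 a118_2 a118_3 q118 1152922604118474752 0 fun c119 a119_1 a119_2 a119_3 q119 =>
  sqrtK c119 a119_1 a119_2 a119_3 q119 fun c121 a121_1 a121_2 a121_3 q121 =>
  addcK c121 a121_1 a121_2 a121_3 q121 1152922604118474752 0 fun c123 a123_1 a123_2 a123_3 q123 =>
  smulK 2 1 1152921504606846977 2305843009213693952 c114 a114_1 a114_2 a114_3 q114 fun c125 a125_1 a125_2 a125_3 q125 =>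
  subK c123 a123_1 a123_2 a123_3 q123 c125 a125_1 a125_2 a125_3 q125 fun c126 a126_1 a126_2 a126_3 q126 =>
  invK c123 a123_1 a123_2 a123_3 q123 fun c127 a127_1 a127_2 a127_3 q127 =>
  mulK c114 a114_1 a114_2 a114_3 q114 c127 a127_1 a127_2 a127_3 q127 fun c128 a128_1 a128_2 a128_3 q128 =>
  addK c126 a126_1 a126_2 a126_3 q126 c128 a128_1 a128_2 a128_3 q128 fun c130 a130_1 a130_2 a130_3 q130 =>
  mulK z2 1152921504606846976 (Nat.add w2 1152921504606846976) 1152921504606846976 0 c130 a130_1 a130_2 a130_3 q130 fun c132 a132_1 a132_2 a132_3 q132 =>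
  mulK c111 a111_1 a111_2 a111_3 q111 c132 a132_1 a132_2 a132_3 q132 fun c134 a134_1 a134_2 a134_3 q134 =>
  addK c104 a104_1 a104_2 a104_3 q104 c134 a134_1 a134_2 a134_3 q134 fun c135 a135_1 a135_2 a135_3 q135 =>
  posK c135 a135_1 a135_2 a135_3 q135 <|
  smulK 34 25 28823037615171174425 39199331156632797184 c135 a135_1 a135_2 a135_3 q135 fun c137 a137_1 a137_2 a137_3 q137 =>
  smulK 1 10 11529215046068469770 1152921504606846976 z3 1152921504606846976 1152921504606846976 (Nat.add w3 1152921504606846976) 0 fun c138 a138_1 a138_2 a138_3 q138 =>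
  addcK c138 a138_1 a138_2 a138_3 q138 1152921317689870254 1 fun c139 a139_1 a139_2 a139_3 q139 =>
  mulK z3 1152921504606846976 1152921504606846976 (Nat.add w3 1152921504606846976) 0 c139 a139_1 a139_2 a139_3 q139 fun c141 a141_1 a141_2 a141_3 q141 =>
  negK c141 a141_1 a141_2 a141_3 q141 fun c142 a142_1 a142_2 a142_3 q142 =>
  addcK c142 a142_1 a142_2 a142_3 q142 1152922604118474752 0 fun c143 a143_1 a143_2 a143_3 q143 =>
  subK c111 a111_1 a111_2 a111_3 q111 c143 a143_1 a143_2 a143_3 q143 fun c146 a146_1 a146_2 a146_3 q146 =>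
  mulK c146 a146_1 a146_2 a146_3 q146 c132 a132_1 a132_2 a132_3 q132 fun c147 a147_1 a147_2 a147_3 q147 =>
  mulK c35 a35_1 a35_2 a35_3 q35 c70 a70_1 a70_2 a70_3 q70 fun c148 a148_1 a148_2 a148_3 q148 =>
  mulK z3 1152921504606846976 1152921504606846976 (Nat.add w3 1152921504606846976) 0 c148 a148_1 a148_2 a148_3 q148 fun c149 a149_1 a149_2 a149_3 q149 =>
  smulK 19957 10000 11529215046068469770000 23008854467438845100032 c149 a149_1 a149_2 a149_3 q149 fun c151 a151_1 a151_2 a151_3 q151 =>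
  addK c147 a147_1 a147_2 a147_3 q147 c151 a151_1 a151_2 a151_3 q151 fun c152 a152_1 a152_2 a152_3 q152 =>
  subK c137 a137_1 a137_2 a137_3 q137 c152 a152_1 a152_2 a152_3 q152 fun c154 a154_1 a154_2 a154_3 q154 =>
  posK c154 a154_1 a154_2 a154_3 q154 <|
  mulK c143 a143_1 a143_2 a143_3 q143 c132 a132_1 a132_2 a132_3 q132 fun c155 a155_1 a155_2 a155_3 q155 =>
  subK c104 a104_1 a104_2 a104_3 q104 c155 a155_1 a155_2 a155_3 q155 fun c156 a156_1 a156_2 a156_3 q156 =>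
  smulK 73 5000 5764607523034234885000 84163269836299829248 z3 1152921504606846976 1152921504606846976 (Nat.add w3 1152921504606846976) 0 fun c157 a157_1 a157_2 a157_3 q157 =>
  negK c157 a157_1 a157_2 a157_3 q157 fun c158 a158_1 a158_2 a158_3 q158 =>
  addcK c158 a158_1 a158_2 a158_3 q158 1152921513512891161 1 fun c159 a159_1 a159_2 a159_3 q159 =>
  mulK c159 a159_1 a159_2 a159_3 q159 c149 a149_1 a149_2 a149_3 q149 fun c161 a161_1 a161_2 a161_3 q161 =>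
  subK c156 a156_1 a156_2 a156_3 q156 c161 a161_1 a161_2 a161_3 q161 fun c162 a162_1 a162_2 a162_3 q162 =>
  smulK 17 25 28823037615171174425 19599665578316398592 c152 a152_1 a152_2 a152_3 q152 fun c164 a164_1 a164_2 a164_3 q164 =>
  subK c162 a162_1 a162_2 a162_3 q162 c164 a164_1 a164_2 a164_3 q164 fun c165 a165_1 a165_2 a165_3 q165 =>
  smulK 289 625 720575940379279360625 333194314831378776064 c135 a135_1 a135_2 a135_3 q135 fun c166 a166_1 a166_2 a166_3 q166 =>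
  addK c165 a165_1 a165_2 a165_3 q165 c166 a166_1 a166_2 a166_3 q166 fun c167 a167_1 a167_2 a167_3 q167 =>
  pos c167 a167_1 a167_2 a167_3 q167

theorem alt1_s {z1 w1 z2 w2 z3 w3 : ℕ} {e1 e2 e3 u ta s : ℝ} (he : Ev e1 e2 e3)
    (hx1 : In e1 e2 e3 z1 (Nat.add w1 1152921504606846976) 1152921504606846976 1152921504606846976 0 u)
    (hx2 : In e1 e2 e3 z2 1152921504606846976 (Nat.add w2 1152921504606846976) 1152921504606846976 0 ta)
    (hx3 : In e1 e2 e3 z3 1152921504606846976 1152921504606846976 (Nat.add w3 1152921504606846976) 0 s)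
    (H0 : alt1 z1 w1 z2 w2 z3 w3 = true) : 0 < (C u ta s) ∧ 0 < (((34/25:ℝ) * (C u ta s)) - (B u ta s)) ∧ 0 < (((A u ta s) - ((17/25:ℝ) * (B u ta s))) + ((289/625:ℝ) * (C u ta s))) := by
  unfold alt1 at H0
  refine sqK_s he hx3 (fun _ _ _ _ _ h1 H1 => ?_) H0
  have h2 := In_cast h1 (sq _)
  refine negK_s he h2 (fun _ _ _ _ _ h3 H2 => ?_) H1
  refine addcK_s he h3 (v' := (1:ℝ)) (by norm_num [SS, BB, abs_le]) (fun _ _ _ _ _ h4 H3 => ?_) H2
  have h5 := In_cast h4 (neg_add_eq_sub _ _)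
  refine sqrtK_s he h5 (fun _ _ _ _ _ h6 H4 => ?_) H3
  have h7 := In_cast (w := (rh u ta s)) h6 rfl
  refine negK_s he h7 (fun _ _ _ _ _ h8 H5 => ?_) H4
  refine addcK_s he h8 (v' := (1:ℝ)) (by norm_num [SS, BB, abs_le]) (fun _ _ _ _ _ h9 H6 => ?_) H5
  have h10 := In_cast h9 (neg_add_eq_sub _ _)
  refine smulK_s he (w := (1/2:ℝ)) (by norm_num) (by norm_num) (by norm_num) (by norm_num) h10 (fun _ _ _ _ _ h11 H7 => ?_) H6
  have h12 := In_cast h11 (div_c (c := (2:ℝ)) (by norm_num))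
  have h13 := In_cast (w := (ep u ta s)) h12 rfl
  refine addcK_s he h7 (v' := (1:ℝ)) (by norm_num [SS, BB, abs_le]) (fun _ _ _ _ _ h14 H8 => ?_) H7
  have h15 := In_cast h14 (add_comm _ _)
  refine smulK_s he (w := (1/2:ℝ)) (by norm_num) (by norm_num) (by norm_num) (by norm_num) h15 (fun _ _ _ _ _ h16 H9 => ?_) H8
  have h17 := In_cast h16 (div_c (c := (2:ℝ)) (by norm_num))
  have h18 := In_cast (w := (al u ta s)) h17 rfl
  refine sqK_s he hx2 (fun _ _ _ _ _ h19 H10 => ?_) H9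
  have h20 := In_cast h19 (sq _)
  have h21 := In_cast (w := (a2 u ta s)) h20 rfl
  refine mulK_s he h18 h21 (fun _ _ _ _ _ h22 H11 => ?_) H10
  refine addK_s he h13 h22 (fun _ _ _ _ _ h23 H12 => ?_) H11
  have h24 := In_cast (w := (X2 u ta s)) h23 rfl
  refine sqrtK_s he h24 (fun _ _ _ _ _ h25 H13 => ?_) H12
  have h26 := In_cast (w := (gx u ta s)) h25 rfl
  refine sqK_s he hx1 (fun _ _ _ _ _ h27 H14 => ?_) H13
  have h28 := In_cast h27 (sq _)
  refine addcK_s he h28 (v' := (1:ℝ)) (by norm_num [SS, BB, abs_le]) (fun _ _ _ _ _ h29 H15 => ?_) H14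
  have h30 := In_cast h29 (add_comm _ _)
  refine invK_s he h30 (fun _ _ _ _ _ h31 H16 => ?_) H15
  have h32 := In_cast h31 (inv_eq_one_div _)
  have h33 := In_cast (w := (iu u ta s)) h32 rfl
  refine smulK_s he (w := (2:ℝ)) (by norm_num) (by norm_num) (by norm_num) (by norm_num) h33 (fun _ _ _ _ _ h34 H17 => ?_) H16
  refine addcK_s he h34 (v' := (-1:ℝ)) (by norm_num [SS, BB, abs_le]) (fun _ _ _ _ _ h35 H18 => ?_) H17
  have h36 := In_cast h35 (sub_c (c := (1:ℝ)) (by norm_num))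
  have h37 := In_cast (w := (R u ta s)) h36 rfl
  refine sqK_s he h37 (fun _ _ _ _ _ h38 H19 => ?_) H18
  have h39 := In_cast h38 (sq _)
  have h40 := In_cast (w := (R2 u ta s)) h39 rfl
  refine mulK_s he h40 h24 (fun _ _ _ _ _ h41 H20 => ?_) H19
  refine negK_s he h41 (fun _ _ _ _ _ h42 H21 => ?_) H20
  refine addcK_s he h42 (v' := (1:ℝ)) (by norm_num [SS, BB, abs_le]) (fun _ _ _ _ _ h43 H22 => ?_) H21
  have h44 := In_cast h43 (neg_add_eq_sub _ _)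
  refine sqrtK_s he h44 (fun _ _ _ _ _ h45 H23 => ?_) H22
  have h46 := In_cast (w := (tx u ta s)) h45 rfl
  refine addcK_s he h46 (v' := (1:ℝ)) (by norm_num [SS, BB, abs_le]) (fun _ _ _ _ _ h47 H24 => ?_) H23
  have h48 := In_cast h47 (add_comm _ _)
  refine mulK_s he h37 h26 (fun _ _ _ _ _ h49 H25 => ?_) H24
  have h50 := In_cast (w := (rx u ta s)) h49 rfl
  refine smulK_s he (w := (2:ℝ)) (by norm_num) (by norm_num) (by norm_num) (by norm_num) h50 (fun _ _ _ _ _ h51 H26 => ?_) H25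
  refine subK_s he h48 h51 (fun _ _ _ _ _ h52 H27 => ?_) H26
  refine invK_s he h48 (fun _ _ _ _ _ h53 H28 => ?_) H27
  refine mulK_s he h50 h53 (fun _ _ _ _ _ h54 H29 => ?_) H28
  have h55 := In_cast h54 ((div_eq_mul_inv _ _).symm)
  refine addK_s he h52 h55 (fun _ _ _ _ _ h56 H30 => ?_) H29
  have h57 := In_cast (w := (Vx u ta s)) h56 rfl
  refine mulK_s he h26 h57 (fun _ _ _ _ _ h58 H31 => ?_) H30
  refine mulK_s he h13 h21 (fun _ _ _ _ _ h59 H32 => ?_) H31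
  refine addK_s he h18 h59 (fun _ _ _ _ _ h60 H33 => ?_) H32
  have h61 := In_cast (w := (Y2 u ta s)) h60 rfl
  refine sqrtK_s he h61 (fun _ _ _ _ _ h62 H34 => ?_) H33
  have h63 := In_cast (w := (gy u ta s)) h62 rfl
  refine smulK_s he (w := (2:ℝ)) (by norm_num) (by norm_num) (by norm_num) (by norm_num) hx1 (fun _ _ _ _ _ h64 H35 => ?_) H34
  refine mulK_s he h64 h33 (fun _ _ _ _ _ h65 H36 => ?_) H35
  have h66 := In_cast (w := (t0 u ta s)) h65 rfl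
  refine sqK_s he h66 (fun _ _ _ _ _ h67 H37 => ?_) H36
  have h68 := In_cast h67 (sq _)
  refine negK_s he h21 (fun _ _ _ _ _ h69 H38 => ?_) H37
  refine addcK_s he h69 (v' := (1:ℝ)) (by norm_num [SS, BB, abs_le]) (fun _ _ _ _ _ h70 H39 => ?_) H38
  have h71 := In_cast h70 (neg_add_eq_sub _ _)
  have h72 := In_cast (w := (d u ta s)) h71 rfl
  refine mulK_s he h40 h72 (fun _ _ _ _ _ h73 H40 => ?_) H39
  refine mulK_s he h13 h73 (fun _ _ _ _ _ h74 H41 => ?_) H40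
  refine addK_s he h68 h74 (fun _ _ _ _ _ h75 H42 => ?_) H41
  refine sqrtK_s he h75 (fun _ _ _ _ _ h76 H43 => ?_) H42
  have h77 := In_cast (w := (ty u ta s)) h76 rfl
  refine addcK_s he h77 (v' := (1:ℝ)) (by norm_num [SS, BB, abs_le]) (fun _ _ _ _ _ h78 H44 => ?_) H43
  have h79 := In_cast h78 (add_comm _ _)
  refine mulK_s he h37 h63 (fun _ _ _ _ _ h80 H45 => ?_) H44
  have h81 := In_cast (w := (ry u ta s)) h80 rfl
  refine smulK_s he (w := (2:ℝ)) (by norm_num) (by norm_num) (by norm_num) (by norm_num) h81 (fun _ _ _ _ _ h82 H46 => ?_) H45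
  refine subK_s he h79 h82 (fun _ _ _ _ _ h83 H47 => ?_) H46
  refine invK_s he h79 (fun _ _ _ _ _ h84 H48 => ?_) H47
  refine mulK_s he h81 h84 (fun _ _ _ _ _ h85 H49 => ?_) H48
  have h86 := In_cast h85 ((div_eq_mul_inv _ _).symm)
  refine addK_s he h83 h86 (fun _ _ _ _ _ h87 H50 => ?_) H49
  have h88 := In_cast (w := (Vy u ta s)) h87 rfl
  refine mulK_s he h63 h88 (fun _ _ _ _ _ h89 H51 => ?_) H50
  refine addK_s he h58 h89 (fun _ _ _ _ _ h90 H52 => ?_) H51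
  refine smulK_s he (w := (1/5:ℝ)) (by norm_num) (by norm_num) (by norm_num) (by norm_num) hx3 (fun _ _ _ _ _ h91 H53 => ?_) H52
  refine addcK_s he h91 (v' := (1:ℝ)) (by norm_num [SS, BB, abs_le]) (fun _ _ _ _ _ h92 H54 => ?_) H53
  have h93 := In_cast h92 (add_comm _ _)
  refine addcK_s he h66 (v' := (1:ℝ)) (by norm_num [SS, BB, abs_le]) (fun _ _ _ _ _ h94 H55 => ?_) H54
  have h95 := In_cast h94 (add_comm _ _)
  refine smulK_s he (w := (2:ℝ)) (by norm_num) (by norm_num) (by norm_num) (by norm_num) h37 (fun _ _ _ _ _ h96 H56 => ?_) H55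
  refine subK_s he h95 h96 (fun _ _ _ _ _ h97 H57 => ?_) H56
  refine invK_s he h95 (fun _ _ _ _ _ h98 H58 => ?_) H57
  refine mulK_s he h37 h98 (fun _ _ _ _ _ h99 H59 => ?_) H58
  have h100 := In_cast h99 ((div_eq_mul_inv _ _).symm)
  refine addK_s he h97 h100 (fun _ _ _ _ _ h101 H60 => ?_) H59
  have h102 := In_cast (w := (V0 u ta s)) h101 rfl
  refine mulK_s he h93 h102 (fun _ _ _ _ _ h103 H61 => ?_) H60
  refine subK_s he h90 h103 (fun _ _ _ _ _ h104 H62 => ?_) H61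
  have h105 := In_cast (w := (G u ta s)) h104 rfl
  refine smulK_s he (w := (3/25:ℝ)) (by norm_num) (by norm_num) (by norm_num) (by norm_num) hx3 (fun _ _ _ _ _ h106 H63 => ?_) H62
  refine addcK_s he h106 (v' := (93/100:ℝ)) (by norm_num [SS, BB, abs_le]) (fun _ _ _ _ _ h107 H64 => ?_) H63
  have h108 := In_cast h107 (add_comm _ _)
  refine mulK_s he hx3 h108 (fun _ _ _ _ _ h109 H65 => ?_) H64
  refine negK_s he h109 (fun _ _ _ _ _ h110 H66 => ?_) H65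
  refine addcK_s he h110 (v' := (1:ℝ)) (by norm_num [SS, BB, abs_le]) (fun _ _ _ _ _ h111 H67 => ?_) H66
  have h112 := In_cast h111 (neg_add_eq_sub _ _)
  have h113 := In_cast (w := (qq u ta s)) h112 rfl
  refine mulK_s he h37 hx2 (fun _ _ _ _ _ h114 H68 => ?_) H67
  have h115 := In_cast (w := (r1 u ta s)) h114 rfl
  refine sqK_s he h115 (fun _ _ _ _ _ h116 H69 => ?_) H68
  have h117 := In_cast h116 (sq _)
  refine negK_s he h117 (fun _ _ _ _ _ h118 H70 => ?_) H69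
  refine addcK_s he h118 (v' := (1:ℝ)) (by norm_num [SS, BB, abs_le]) (fun _ _ _ _ _ h119 H71 => ?_) H70
  have h120 := In_cast h119 (neg_add_eq_sub _ _)
  refine sqrtK_s he h120 (fun _ _ _ _ _ h121 H72 => ?_) H71
  have h122 := In_cast (w := (t1 u ta s)) h121 rfl
  refine addcK_s he h122 (v' := (1:ℝ)) (by norm_num [SS, BB, abs_le]) (fun _ _ _ _ _ h123 H73 => ?_) H72
  have h124 := In_cast h123 (add_comm _ _)
  refine smulK_s he (w := (2:ℝ)) (by norm_num) (by norm_num) (by norm_num) (by norm_num) h115 (fun _ _ _ _ _ h125 H74 => ?_) H73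
  refine subK_s he h124 h125 (fun _ _ _ _ _ h126 H75 => ?_) H74
  refine invK_s he h124 (fun _ _ _ _ _ h127 H76 => ?_) H75
  refine mulK_s he h115 h127 (fun _ _ _ _ _ h128 H77 => ?_) H76
  have h129 := In_cast h128 ((div_eq_mul_inv _ _).symm)
  refine addK_s he h126 h129 (fun _ _ _ _ _ h130 H78 => ?_) H77
  have h131 := In_cast (w := (U1 u ta s)) h130 rfl
  refine mulK_s he hx2 h131 (fun _ _ _ _ _ h132 H79 => ?_) H78
  have h133 := In_cast (w := (V1 u ta s)) h132 rfl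
  refine mulK_s he h113 h133 (fun _ _ _ _ _ h134 H80 => ?_) H79
  refine addK_s he h105 h134 (fun _ _ _ _ _ h135 H81 => ?_) H80
  have h136 := In_cast (w := (C u ta s)) h135 rfl
  refine posK_s he h136 (fun p0 H82 => ?_) H81
  refine smulK_s he (w := (34/25:ℝ)) (by norm_num) (by norm_num) (by norm_num) (by norm_num) h136 (fun _ _ _ _ _ h137 H83 => ?_) H82
  refine smulK_s he (w := (1/10:ℝ)) (by norm_num) (by norm_num) (by norm_num) (by norm_num) hx3 (fun _ _ _ _ _ h138 H84 => ?_) H83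
  refine addcK_s he h138 (v' := (-17/100:ℝ)) (by norm_num [SS, BB, abs_le]) (fun _ _ _ _ _ h139 H85 => ?_) H84
  have h140 := In_cast h139 (add_comm _ _)
  refine mulK_s he hx3 h140 (fun _ _ _ _ _ h141 H86 => ?_) H85
  refine negK_s he h141 (fun _ _ _ _ _ h142 H87 => ?_) H86
  refine addcK_s he h142 (v' := (1:ℝ)) (by norm_num [SS, BB, abs_le]) (fun _ _ _ _ _ h143 H88 => ?_) H87
  have h144 := In_cast h143 (neg_add_eq_sub _ _)
  have h145 := In_cast (w := (pp u ta s)) h144 rfl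
  refine subK_s he h113 h145 (fun _ _ _ _ _ h146 H89 => ?_) H88
  refine mulK_s he h146 h133 (fun _ _ _ _ _ h147 H90 => ?_) H89
  refine mulK_s he h37 h72 (fun _ _ _ _ _ h148 H91 => ?_) H90
  refine mulK_s he hx3 h148 (fun _ _ _ _ _ h149 H92 => ?_) H91
  have h150 := In_cast (w := (sd u ta s)) h149 rfl
  refine smulK_s he (w := (19957/10000:ℝ)) (by norm_num) (by norm_num) (by norm_num) (by norm_num) h150 (fun _ _ _ _ _ h151 H93 => ?_) H92
  refine addK_s he h147 h151 (fun _ _ _ _ _ h152 H94 => ?_) H93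
  have h153 := In_cast (w := (B u ta s)) h152 rfl
  refine subK_s he h137 h153 (fun _ _ _ _ _ h154 H95 => ?_) H94
  refine posK_s he h154 (fun p1 H96 => ?_) H95
  refine mulK_s he h145 h133 (fun _ _ _ _ _ h155 H97 => ?_) H96
  refine subK_s he h105 h155 (fun _ _ _ _ _ h156 H98 => ?_) H97
  refine smulK_s he (w := (73/5000:ℝ)) (by norm_num) (by norm_num) (by norm_num) (by norm_num) hx3 (fun _ _ _ _ _ h157 H99 => ?_) H98
  refine negK_s he h157 (fun _ _ _ _ _ h158 H100 => ?_) H99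
  refine addcK_s he h158 (v' := (81/10000:ℝ)) (by norm_num [SS, BB, abs_le]) (fun _ _ _ _ _ h159 H101 => ?_) H100
  have h160 := In_cast h159 (neg_add_eq_sub _ _)
  refine mulK_s he h160 h150 (fun _ _ _ _ _ h161 H102 => ?_) H101
  refine subK_s he h156 h161 (fun _ _ _ _ _ h162 H103 => ?_) H102
  have h163 := In_cast (w := (A u ta s)) h162 rfl
  refine smulK_s he (w := (17/25:ℝ)) (by norm_num) (by norm_num) (by norm_num) (by norm_num) h153 (fun _ _ _ _ _ h164 H104 => ?_) H103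
  refine subK_s he h163 h164 (fun _ _ _ _ _ h165 H105 => ?_) H104
  refine smulK_s he (w := (289/625:ℝ)) (by norm_num) (by norm_num) (by norm_num) (by norm_num) h136 (fun _ _ _ _ _ h166 H106 => ?_) H105
  refine addK_s he h165 h166 (fun _ _ _ _ _ h167 H107 => ?_) H106
  exact ⟨p0, p1, pos_s he h167 H107⟩

noncomputable def alt2 (z1 w1 z2 w2 z3 w3 : ℕ) : Bool :=
  sqK z3 1152921504606846976 1152921504606846976 (Nat.add w3 1152921504606846976) 0 fun c1 a1_1 a1_2 a1_3 q1 =>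
  negK c1 a1_1 a1_2 a1_3 q1 fun c3 a3_1 a3_2 a3_3 q3 =>
  addcK c3 a3_1 a3_2 a3_3 q3 1152922604118474752 0 fun c4 a4_1 a4_2 a4_3 q4 =>
  sqrtK c4 a4_1 a4_2 a4_3 q4 fun c6 a6_1 a6_2 a6_3 q6 =>
  negK c6 a6_1 a6_2 a6_3 q6 fun c8 a8_1 a8_2 a8_3 q8 =>
  addcK c8 a8_1 a8_2 a8_3 q8 1152922604118474752 0 fun c9 a9_1 a9_2 a9_3 q9 =>
  smulK 1 2 2305843009213693954 1152921504606846976 c9 a9_1 a9_2 a9_3 q9 fun c11 a11_1 a11_2 a11_3 q11 =>
  addcK c6 a6_1 a6_2 a6_3 q6 1152922604118474752 0 fun c14 a14_1 a14_2 a14_3 q14 =>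
  smulK 1 2 2305843009213693954 1152921504606846976 c14 a14_1 a14_2 a14_3 q14 fun c16 a16_1 a16_2 a16_3 q16 =>
  sqK z2 1152921504606846976 (Nat.add w2 1152921504606846976) 1152921504606846976 0 fun c19 a19_1 a19_2 a19_3 q19 =>
  mulK c16 a16_1 a16_2 a16_3 q16 c19 a19_1 a19_2 a19_3 q19 fun c22 a22_1 a22_2 a22_3 q22 =>
  addK c11 a11_1 a11_2 a11_3 q11 c22 a22_1 a22_2 a22_3 q22 fun c23 a23_1 a23_2 a23_3 q23 =>
  sqrtK c23 a23_1 a23_2 a23_3 q23 fun c25 a25_1 a25_2 a25_3 q25 =>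
  sqK z1 (Nat.add w1 1152921504606846976) 1152921504606846976 1152921504606846976 0 fun c27 a27_1 a27_2 a27_3 q27 =>
  addcK c27 a27_1 a27_2 a27_3 q27 1152922604118474752 0 fun c29 a29_1 a29_2 a29_3 q29 =>
  invK c29 a29_1 a29_2 a29_3 q29 fun c31 a31_1 a31_2 a31_3 q31 =>
  smulK 2 1 1152921504606846977 2305843009213693952 c31 a31_1 a31_2 a31_3 q31 fun c34 a34_1 a34_2 a34_3 q34 =>
  addcK c34 a34_1 a34_2 a34_3 q34 1152920405095219200 0 fun c35 a35_1 a35_2 a35_3 q35 =>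
  sqK c35 a35_1 a35_2 a35_3 q35 fun c38 a38_1 a38_2 a38_3 q38 =>
  mulK c38 a38_1 a38_2 a38_3 q38 c23 a23_1 a23_2 a23_3 q23 fun c41 a41_1 a41_2 a41_3 q41 =>
  negK c41 a41_1 a41_2 a41_3 q41 fun c42 a42_1 a42_2 a42_3 q42 =>
  addcK c42 a42_1 a42_2 a42_3 q42 1152922604118474752 0 fun c43 a43_1 a43_2 a43_3 q43 =>
  sqrtK c43 a43_1 a43_2 a43_3 q43 fun c45 a45_1 a45_2 a45_3 q45 =>
  addcK c45 a45_1 a45_2 a45_3 q45 1152922604118474752 0 fun c47 a47_1 a47_2 a47_3 q47 =>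
  mulK c35 a35_1 a35_2 a35_3 q35 c25 a25_1 a25_2 a25_3 q25 fun c49 a49_1 a49_2 a49_3 q49 =>
  smulK 2 1 1152921504606846977 2305843009213693952 c49 a49_1 a49_2 a49_3 q49 fun c51 a51_1 a51_2 a51_3 q51 =>
  subK c47 a47_1 a47_2 a47_3 q47 c51 a51_1 a51_2 a51_3 q51 fun c52 a52_1 a52_2 a52_3 q52 =>
  invK c47 a47_1 a47_2 a47_3 q47 fun c53 a53_1 a53_2 a53_3 q53 =>
  mulK c49 a49_1 a49_2 a49_3 q49 c53 a53_1 a53_2 a53_3 q53 fun c54 a54_1 a54_2 a54_3 q54 =>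
  addK c52 a52_1 a52_2 a52_3 q52 c54 a54_1 a54_2 a54_3 q54 fun c56 a56_1 a56_2 a56_3 q56 =>
  mulK c25 a25_1 a25_2 a25_3 q25 c56 a56_1 a56_2 a56_3 q56 fun c58 a58_1 a58_2 a58_3 q58 =>
  mulK c11 a11_1 a11_2 a11_3 q11 c19 a19_1 a19_2 a19_3 q19 fun c59 a59_1 a59_2 a59_3 q59 =>
  addK c16 a16_1 a16_2 a16_3 q16 c59 a59_1 a59_2 a59_3 q59 fun c60 a60_1 a60_2 a60_3 q60 =>
  sqrtK c60 a60_1 a60_2 a60_3 q60 fun c62 a62_1 a62_2 a62_3 q62 =>
  smulK 2 1 1152921504606846977 2305843009213693952 z1 (Nat.add w1 1152921504606846976) 1152921504606846976 1152921504606846976 0 fun c64 a64_1 a64_2 a64_3 q64 =>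
  mulK c64 a64_1 a64_2 a64_3 q64 c31 a31_1 a31_2 a31_3 q31 fun c65 a65_1 a65_2 a65_3 q65 =>
  sqK c65 a65_1 a65_2 a65_3 q65 fun c67 a67_1 a67_2 a67_3 q67 =>
  negK c19 a19_1 a19_2 a19_3 q19 fun c69 a69_1 a69_2 a69_3 q69 =>
  addcK c69 a69_1 a69_2 a69_3 q69 1152922604118474752 0 fun c70 a70_1 a70_2 a70_3 q70 =>
  mulK c38 a38_1 a38_2 a38_3 q38 c70 a70_1 a70_2 a70_3 q70 fun c73 a73_1 a73_2 a73_3 q73 =>
  mulK c11 a11_1 a11_2 a11_3 q11 c73 a73_1 a73_2 a73_3 q73 fun c74 a74_1 a74_2 a74_3 q74 =>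
  addK c67 a67_1 a67_2 a67_3 q67 c74 a74_1 a74_2 a74_3 q74 fun c75 a75_1 a75_2 a75_3 q75 =>
  sqrtK c75 a75_1 a75_2 a75_3 q75 fun c76 a76_1 a76_2 a76_3 q76 =>
  addcK c76 a76_1 a76_2 a76_3 q76 1152922604118474752 0 fun c78 a78_1 a78_2 a78_3 q78 =>
  mulK c35 a35_1 a35_2 a35_3 q35 c62 a62_1 a62_2 a62_3 q62 fun c80 a80_1 a80_2 a80_3 q80 =>
  smulK 2 1 1152921504606846977 2305843009213693952 c80 a80_1 a80_2 a80_3 q80 fun c82 a82_1 a82_2 a82_3 q82 =>
  subK c78 a78_1 a78_2 a78_3 q78 c82 a82_1 a82_2 a82_3 q82 fun c83 a83_1 a83_2 a83_3 q83 =>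
  invK c78 a78_1 a78_2 a78_3 q78 fun c84 a84_1 a84_2 a84_3 q84 =>
  mulK c80 a80_1 a80_2 a80_3 q80 c84 a84_1 a84_2 a84_3 q84 fun c85 a85_1 a85_2 a85_3 q85 =>
  addK c83 a83_1 a83_2 a83_3 q83 c85 a85_1 a85_2 a85_3 q85 fun c87 a87_1 a87_2 a87_3 q87 =>
  mulK c62 a62_1 a62_2 a62_3 q62 c87 a87_1 a87_2 a87_3 q87 fun c89 a89_1 a89_2 a89_3 q89 =>
  addK c58 a58_1 a58_2 a58_3 q58 c89 a89_1 a89_2 a89_3 q89 fun c90 a90_1 a90_2 a90_3 q90 =>
  smulK 1 5 5764607523034234885 1152921504606846976 z3 1152921504606846976 1152921504606846976 (Nat.add w3 1152921504606846976) 0 fun c91 a91_1 a91_2 a91_3 q91 =>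
  addcK c91 a91_1 a91_2 a91_3 q91 1152922604118474752 0 fun c92 a92_1 a92_2 a92_3 q92 =>
  addcK c65 a65_1 a65_2 a65_3 q65 1152922604118474752 0 fun c94 a94_1 a94_2 a94_3 q94 =>
  smulK 2 1 1152921504606846977 2305843009213693952 c35 a35_1 a35_2 a35_3 q35 fun c96 a96_1 a96_2 a96_3 q96 =>
  subK c94 a94_1 a94_2 a94_3 q94 c96 a96_1 a96_2 a96_3 q96 fun c97 a97_1 a97_2 a97_3 q97 =>
  invK c94 a94_1 a94_2 a94_3 q94 fun c98 a98_1 a98_2 a98_3 q98 =>
  mulK c35 a35_1 a35_2 a35_3 q35 c98 a98_1 a98_2 a98_3 q98 fun c99 a99_1 a99_2 a99_3 q99 =>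
  addK c97 a97_1 a97_2 a97_3 q97 c99 a99_1 a99_2 a99_3 q99 fun c101 a101_1 a101_2 a101_3 q101 =>
  mulK c92 a92_1 a92_2 a92_3 q92 c101 a101_1 a101_2 a101_3 q101 fun c103 a103_1 a103_2 a103_3 q103 =>
  subK c90 a90_1 a90_2 a90_3 q90 c103 a103_1 a103_2 a103_3 q103 fun c104 a104_1 a104_2 a104_3 q104 =>
  smulK 3 25 28823037615171174425 3458764513820540928 z3 1152921504606846976 1152921504606846976 (Nat.add w3 1152921504606846976) 0 fun c106 a106_1 a106_2 a106_3 q106 =>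
  addcK c106 a106_1 a106_2 a106_3 q106 1152922527152660808 1 fun c107 a107_1 a107_2 a107_3 q107 =>
  mulK z3 1152921504606846976 1152921504606846976 (Nat.add w3 1152921504606846976) 0 c107 a107_1 a107_2 a107_3 q107 fun c109 a109_1 a109_2 a109_3 q109 =>
  negK c109 a109_1 a109_2 a109_3 q109 fun c110 a110_1 a110_2 a110_3 q110 =>
  addcK c110 a110_1 a110_2 a110_3 q110 1152922604118474752 0 fun c111 a111_1 a111_2 a111_3 q111 =>
  mulK c35 a35_1 a35_2 a35_3 q35 z2 1152921504606846976 (Nat.add w2 1152921504606846976) 1152921504606846976 0 fun c114 a114_1 a114_2 a114_3 q114 =>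
  sqK c114 a114_1 a114_2 a114_3 q114 fun c116 a116_1 a116_2 a116_3 q116 =>
  negK c116 a116_1 a116_2 a116_3 q116 fun c118 a118_1 a118_2 a118_3 q118 =>
  addcK c118 a118_1 a118_2 a118_3 q118 1152922604118474752 0 fun c119 a119_1 a119_2 a119_3 q119 =>
  sqrtK c119 a119_1 a119_2 a119_3 q119 fun c121 a121_1 a121_2 a121_3 q121 =>
  addcK c121 a121_1 a121_2 a121_3 q121 1152922604118474752 0 fun c123 a123_1 a123_2 a123_3 q123 =>
  smulK 2 1 1152921504606846977 2305843009213693952 c114 a114_1 a114_2 a114_3 q114 fun c125 a125_1 a125_2 a125_3 q125 =>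
  subK c123 a123_1 a123_2 a123_3 q123 c125 a125_1 a125_2 a125_3 q125 fun c126 a126_1 a126_2 a126_3 q126 =>
  invK c123 a123_1 a123_2 a123_3 q123 fun c127 a127_1 a127_2 a127_3 q127 =>
  mulK c114 a114_1 a114_2 a114_3 q114 c127 a127_1 a127_2 a127_3 q127 fun c128 a128_1 a128_2 a128_3 q128 =>
  addK c126 a126_1 a126_2 a126_3 q126 c128 a128_1 a128_2 a128_3 q128 fun c130 a130_1 a130_2 a130_3 q130 =>
  mulK z2 1152921504606846976 (Nat.add w2 1152921504606846976) 1152921504606846976 0 c130 a130_1 a130_2 a130_3 q130 fun c132 a132_1 a132_2 a132_3 q132 =>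
  mulK c111 a111_1 a111_2 a111_3 q111 c132 a132_1 a132_2 a132_3 q132 fun c134 a134_1 a134_2 a134_3 q134 =>
  addK c104 a104_1 a104_2 a104_3 q104 c134 a134_1 a134_2 a134_3 q134 fun c135 a135_1 a135_2 a135_3 q135 =>
  posK c135 a135_1 a135_2 a135_3 q135 <|
  smulK 1 10 11529215046068469770 1152921504606846976 z3 1152921504606846976 1152921504606846976 (Nat.add w3 1152921504606846976) 0 fun c137 a137_1 a137_2 a137_3 q137 =>
  addcK c137 a137_1 a137_2 a137_3 q137 1152921317689870254 1 fun c138 a138_1 a138_2 a138_3 q138 =>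
  mulK z3 1152921504606846976 1152921504606846976 (Nat.add w3 1152921504606846976) 0 c138 a138_1 a138_2 a138_3 q138 fun c140 a140_1 a140_2 a140_3 q140 =>
  negK c140 a140_1 a140_2 a140_3 q140 fun c141 a141_1 a141_2 a141_3 q141 =>
  addcK c141 a141_1 a141_2 a141_3 q141 1152922604118474752 0 fun c142 a142_1 a142_2 a142_3 q142 =>
  subK c111 a111_1 a111_2 a111_3 q111 c142 a142_1 a142_2 a142_3 q142 fun c145 a145_1 a145_2 a145_3 q145 =>
  mulK c145 a145_1 a145_2 a145_3 q145 c132 a132_1 a132_2 a132_3 q132 fun c146 a146_1 a146_2 a146_3 q146 =>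
  mulK c35 a35_1 a35_2 a35_3 q35 c70 a70_1 a70_2 a70_3 q70 fun c147 a147_1 a147_2 a147_3 q147 =>
  mulK z3 1152921504606846976 1152921504606846976 (Nat.add w3 1152921504606846976) 0 c147 a147_1 a147_2 a147_3 q147 fun c148 a148_1 a148_2 a148_3 q148 =>
  smulK 19957 10000 11529215046068469770000 23008854467438845100032 c148 a148_1 a148_2 a148_3 q148 fun c150 a150_1 a150_2 a150_3 q150 =>
  addK c146 a146_1 a146_2 a146_3 q146 c150 a150_1 a150_2 a150_3 q150 fun c151 a151_1 a151_2 a151_3 q151 =>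
  smulK 2 1 1152921504606846977 2305843009213693952 c135 a135_1 a135_2 a135_3 q135 fun c153 a153_1 a153_2 a153_3 q153 =>
  subK c151 a151_1 a151_2 a151_3 q151 c153 a153_1 a153_2 a153_3 q153 fun c154 a154_1 a154_2 a154_3 q154 =>
  posK c154 a154_1 a154_2 a154_3 q154 <|
  mulK c142 a142_1 a142_2 a142_3 q142 c132 a132_1 a132_2 a132_3 q132 fun c155 a155_1 a155_2 a155_3 q155 =>
  subK c104 a104_1 a104_2 a104_3 q104 c155 a155_1 a155_2 a155_3 q155 fun c156 a156_1 a156_2 a156_3 q156 =>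
  smulK 73 5000 5764607523034234885000 84163269836299829248 z3 1152921504606846976 1152921504606846976 (Nat.add w3 1152921504606846976) 0 fun c157 a157_1 a157_2 a157_3 q157 =>
  negK c157 a157_1 a157_2 a157_3 q157 fun c158 a158_1 a158_2 a158_3 q158 =>
  addcK c158 a158_1 a158_2 a158_3 q158 1152921513512891161 1 fun c159 a159_1 a159_2 a159_3 q159 =>
  mulK c159 a159_1 a159_2 a159_3 q159 c148 a148_1 a148_2 a148_3 q148 fun c161 a161_1 a161_2 a161_3 q161 =>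
  subK c156 a156_1 a156_2 a156_3 q156 c161 a161_1 a161_2 a161_3 q161 fun c162 a162_1 a162_2 a162_3 q162 =>
  subK c162 a162_1 a162_2 a162_3 q162 c151 a151_1 a151_2 a151_3 q151 fun c164 a164_1 a164_2 a164_3 q164 =>
  addK c164 a164_1 a164_2 a164_3 q164 c135 a135_1 a135_2 a135_3 q135 fun c165 a165_1 a165_2 a165_3 q165 =>
  pos c165 a165_1 a165_2 a165_3 q165

theorem alt2_s {z1 w1 z2 w2 z3 w3 : ℕ} {e1 e2 e3 u ta s : ℝ} (he : Ev e1 e2 e3)
    (hx1 : In e1 e2 e3 z1 (Nat.add w1 1152921504606846976) 1152921504606846976 1152921504606846976 0 u)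
    (hx2 : In e1 e2 e3 z2 1152921504606846976 (Nat.add w2 1152921504606846976) 1152921504606846976 0 ta)
    (hx3 : In e1 e2 e3 z3 1152921504606846976 1152921504606846976 (Nat.add w3 1152921504606846976) 0 s)
    (H0 : alt2 z1 w1 z2 w2 z3 w3 = true) : 0 < (C u ta s) ∧ 0 < ((B u ta s) - ((2:ℝ) * (C u ta s))) ∧ 0 < (((A u ta s) - (B u ta s)) + (C u ta s)) := by
  unfold alt2 at H0
  refine sqK_s he hx3 (fun _ _ _ _ _ h1 H1 => ?_) H0
  have h2 := In_cast h1 (sq _)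
  refine negK_s he h2 (fun _ _ _ _ _ h3 H2 => ?_) H1
  refine addcK_s he h3 (v' := (1:ℝ)) (by norm_num [SS, BB, abs_le]) (fun _ _ _ _ _ h4 H3 => ?_) H2
  have h5 := In_cast h4 (neg_add_eq_sub _ _)
  refine sqrtK_s he h5 (fun _ _ _ _ _ h6 H4 => ?_) H3
  have h7 := In_cast (w := (rh u ta s)) h6 rfl
  refine negK_s he h7 (fun _ _ _ _ _ h8 H5 => ?_) H4
  refine addcK_s he h8 (v' := (1:ℝ)) (by norm_num [SS, BB, abs_le]) (fun _ _ _ _ _ h9 H6 => ?_) H5
  have h10 := In_cast h9 (neg_add_eq_sub _ _)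
  refine smulK_s he (w := (1/2:ℝ)) (by norm_num) (by norm_num) (by norm_num) (by norm_num) h10 (fun _ _ _ _ _ h11 H7 => ?_) H6
  have h12 := In_cast h11 (div_c (c := (2:ℝ)) (by norm_num))
  have h13 := In_cast (w := (ep u ta s)) h12 rfl
  refine addcK_s he h7 (v' := (1:ℝ)) (by norm_num [SS, BB, abs_le]) (fun _ _ _ _ _ h14 H8 => ?_) H7
  have h15 := In_cast h14 (add_comm _ _)
  refine smulK_s he (w := (1/2:ℝ)) (by norm_num) (by norm_num) (by norm_num) (by norm_num) h15 (fun _ _ _ _ _ h16 H9 => ?_) H8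
  have h17 := In_cast h16 (div_c (c := (2:ℝ)) (by norm_num))
  have h18 := In_cast (w := (al u ta s)) h17 rfl
  refine sqK_s he hx2 (fun _ _ _ _ _ h19 H10 => ?_) H9
  have h20 := In_cast h19 (sq _)
  have h21 := In_cast (w := (a2 u ta s)) h20 rfl
  refine mulK_s he h18 h21 (fun _ _ _ _ _ h22 H11 => ?_) H10
  refine addK_s he h13 h22 (fun _ _ _ _ _ h23 H12 => ?_) H11
  have h24 := In_cast (w := (X2 u ta s)) h23 rfl
  refine sqrtK_s he h24 (fun _ _ _ _ _ h25 H13 => ?_) H12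
  have h26 := In_cast (w := (gx u ta s)) h25 rfl
  refine sqK_s he hx1 (fun _ _ _ _ _ h27 H14 => ?_) H13
  have h28 := In_cast h27 (sq _)
  refine addcK_s he h28 (v' := (1:ℝ)) (by norm_num [SS, BB, abs_le]) (fun _ _ _ _ _ h29 H15 => ?_) H14
  have h30 := In_cast h29 (add_comm _ _)
  refine invK_s he h30 (fun _ _ _ _ _ h31 H16 => ?_) H15
  have h32 := In_cast h31 (inv_eq_one_div _)
  have h33 := In_cast (w := (iu u ta s)) h32 rfl
  refine smulK_s he (w := (2:ℝ)) (by norm_num) (by norm_num) (by norm_num) (by norm_num) h33 (fun _ _ _ _ _ h34 H17 => ?_) H16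
  refine addcK_s he h34 (v' := (-1:ℝ)) (by norm_num [SS, BB, abs_le]) (fun _ _ _ _ _ h35 H18 => ?_) H17
  have h36 := In_cast h35 (sub_c (c := (1:ℝ)) (by norm_num))
  have h37 := In_cast (w := (R u ta s)) h36 rfl
  refine sqK_s he h37 (fun _ _ _ _ _ h38 H19 => ?_) H18
  have h39 := In_cast h38 (sq _)
  have h40 := In_cast (w := (R2 u ta s)) h39 rfl
  refine mulK_s he h40 h24 (fun _ _ _ _ _ h41 H20 => ?_) H19
  refine negK_s he h41 (fun _ _ _ _ _ h42 H21 => ?_) H20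
  refine addcK_s he h42 (v' := (1:ℝ)) (by norm_num [SS, BB, abs_le]) (fun _ _ _ _ _ h43 H22 => ?_) H21
  have h44 := In_cast h43 (neg_add_eq_sub _ _)
  refine sqrtK_s he h44 (fun _ _ _ _ _ h45 H23 => ?_) H22
  have h46 := In_cast (w := (tx u ta s)) h45 rfl
  refine addcK_s he h46 (v' := (1:ℝ)) (by norm_num [SS, BB, abs_le]) (fun _ _ _ _ _ h47 H24 => ?_) H23
  have h48 := In_cast h47 (add_comm _ _)
  refine mulK_s he h37 h26 (fun _ _ _ _ _ h49 H25 => ?_) H24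
  have h50 := In_cast (w := (rx u ta s)) h49 rfl
  refine smulK_s he (w := (2:ℝ)) (by norm_num) (by norm_num) (by norm_num) (by norm_num) h50 (fun _ _ _ _ _ h51 H26 => ?_) H25
  refine subK_s he h48 h51 (fun _ _ _ _ _ h52 H27 => ?_) H26
  refine invK_s he h48 (fun _ _ _ _ _ h53 H28 => ?_) H27
  refine mulK_s he h50 h53 (fun _ _ _ _ _ h54 H29 => ?_) H28
  have h55 := In_cast h54 ((div_eq_mul_inv _ _).symm)
  refine addK_s he h52 h55 (fun _ _ _ _ _ h56 H30 => ?_) H29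
  have h57 := In_cast (w := (Vx u ta s)) h56 rfl
  refine mulK_s he h26 h57 (fun _ _ _ _ _ h58 H31 => ?_) H30
  refine mulK_s he h13 h21 (fun _ _ _ _ _ h59 H32 => ?_) H31
  refine addK_s he h18 h59 (fun _ _ _ _ _ h60 H33 => ?_) H32
  have h61 := In_cast (w := (Y2 u ta s)) h60 rfl
  refine sqrtK_s he h61 (fun _ _ _ _ _ h62 H34 => ?_) H33
  have h63 := In_cast (w := (gy u ta s)) h62 rfl
  refine smulK_s he (w := (2:ℝ)) (by norm_num) (by norm_num) (by norm_num) (by norm_num) hx1 (fun _ _ _ _ _ h64 H35 => ?_) H34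
  refine mulK_s he h64 h33 (fun _ _ _ _ _ h65 H36 => ?_) H35
  have h66 := In_cast (w := (t0 u ta s)) h65 rfl
  refine sqK_s he h66 (fun _ _ _ _ _ h67 H37 => ?_) H36
  have h68 := In_cast h67 (sq _)
  refine negK_s he h21 (fun _ _ _ _ _ h69 H38 => ?_) H37
  refine addcK_s he h69 (v' := (1:ℝ)) (by norm_num [SS, BB, abs_le]) (fun _ _ _ _ _ h70 H39 => ?_) H38
  have h71 := In_cast h70 (neg_add_eq_sub _ _)
  have h72 := In_cast (w := (d u ta s)) h71 rfl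
  refine mulK_s he h40 h72 (fun _ _ _ _ _ h73 H40 => ?_) H39
  refine mulK_s he h13 h73 (fun _ _ _ _ _ h74 H41 => ?_) H40
  refine addK_s he h68 h74 (fun _ _ _ _ _ h75 H42 => ?_) H41
  refine sqrtK_s he h75 (fun _ _ _ _ _ h76 H43 => ?_) H42
  have h77 := In_cast (w := (ty u ta s)) h76 rfl
  refine addcK_s he h77 (v' := (1:ℝ)) (by norm_num [SS, BB, abs_le]) (fun _ _ _ _ _ h78 H44 => ?_) H43
  have h79 := In_cast h78 (add_comm _ _)
  refine mulK_s he h37 h63 (fun _ _ _ _ _ h80 H45 => ?_) H44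
  have h81 := In_cast (w := (ry u ta s)) h80 rfl
  refine smulK_s he (w := (2:ℝ)) (by norm_num) (by norm_num) (by norm_num) (by norm_num) h81 (fun _ _ _ _ _ h82 H46 => ?_) H45
  refine subK_s he h79 h82 (fun _ _ _ _ _ h83 H47 => ?_) H46
  refine invK_s he h79 (fun _ _ _ _ _ h84 H48 => ?_) H47
  refine mulK_s he h81 h84 (fun _ _ _ _ _ h85 H49 => ?_) H48
  have h86 := In_cast h85 ((div_eq_mul_inv _ _).symm)
  refine addK_s he h83 h86 (fun _ _ _ _ _ h87 H50 => ?_) H49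
  have h88 := In_cast (w := (Vy u ta s)) h87 rfl
  refine mulK_s he h63 h88 (fun _ _ _ _ _ h89 H51 => ?_) H50
  refine addK_s he h58 h89 (fun _ _ _ _ _ h90 H52 => ?_) H51
  refine smulK_s he (w := (1/5:ℝ)) (by norm_num) (by norm_num) (by norm_num) (by norm_num) hx3 (fun _ _ _ _ _ h91 H53 => ?_) H52
  refine addcK_s he h91 (v' := (1:ℝ)) (by norm_num [SS, BB, abs_le]) (fun _ _ _ _ _ h92 H54 => ?_) H53
  have h93 := In_cast h92 (add_comm _ _)
  refine addcK_s he h66 (v' := (1:ℝ)) (by norm_num [SS, BB, abs_le]) (fun _ _ _ _ _ h94 H55 => ?_) H54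
  have h95 := In_cast h94 (add_comm _ _)
  refine smulK_s he (w := (2:ℝ)) (by norm_num) (by norm_num) (by norm_num) (by norm_num) h37 (fun _ _ _ _ _ h96 H56 => ?_) H55
  refine subK_s he h95 h96 (fun _ _ _ _ _ h97 H57 => ?_) H56
  refine invK_s he h95 (fun _ _ _ _ _ h98 H58 => ?_) H57
  refine mulK_s he h37 h98 (fun _ _ _ _ _ h99 H59 => ?_) H58
  have h100 := In_cast h99 ((div_eq_mul_inv _ _).symm)
  refine addK_s he h97 h100 (fun _ _ _ _ _ h101 H60 => ?_) H59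
  have h102 := In_cast (w := (V0 u ta s)) h101 rfl
  refine mulK_s he h93 h102 (fun _ _ _ _ _ h103 H61 => ?_) H60
  refine subK_s he h90 h103 (fun _ _ _ _ _ h104 H62 => ?_) H61
  have h105 := In_cast (w := (G u ta s)) h104 rfl
  refine smulK_s he (w := (3/25:ℝ)) (by norm_num) (by norm_num) (by norm_num) (by norm_num) hx3 (fun _ _ _ _ _ h106 H63 => ?_) H62
  refine addcK_s he h106 (v' := (93/100:ℝ)) (by norm_num [SS, BB, abs_le]) (fun _ _ _ _ _ h107 H64 => ?_) H63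
  have h108 := In_cast h107 (add_comm _ _)
  refine mulK_s he hx3 h108 (fun _ _ _ _ _ h109 H65 => ?_) H64
  refine negK_s he h109 (fun _ _ _ _ _ h110 H66 => ?_) H65
  refine addcK_s he h110 (v' := (1:ℝ)) (by norm_num [SS, BB, abs_le]) (fun _ _ _ _ _ h111 H67 => ?_) H66
  have h112 := In_cast h111 (neg_add_eq_sub _ _)
  have h113 := In_cast (w := (qq u ta s)) h112 rfl
  refine mulK_s he h37 hx2 (fun _ _ _ _ _ h114 H68 => ?_) H67
  have h115 := In_cast (w := (r1 u ta s)) h114 rfl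
  refine sqK_s he h115 (fun _ _ _ _ _ h116 H69 => ?_) H68
  have h117 := In_cast h116 (sq _)
  refine negK_s he h117 (fun _ _ _ _ _ h118 H70 => ?_) H69
  refine addcK_s he h118 (v' := (1:ℝ)) (by norm_num [SS, BB, abs_le]) (fun _ _ _ _ _ h119 H71 => ?_) H70
  have h120 := In_cast h119 (neg_add_eq_sub _ _)
  refine sqrtK_s he h120 (fun _ _ _ _ _ h121 H72 => ?_) H71
  have h122 := In_cast (w := (t1 u ta s)) h121 rfl
  refine addcK_s he h122 (v' := (1:ℝ)) (by norm_num [SS, BB, abs_le]) (fun _ _ _ _ _ h123 H73 => ?_) H72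
  have h124 := In_cast h123 (add_comm _ _)
  refine smulK_s he (w := (2:ℝ)) (by norm_num) (by norm_num) (by norm_num) (by norm_num) h115 (fun _ _ _ _ _ h125 H74 => ?_) H73
  refine subK_s he h124 h125 (fun _ _ _ _ _ h126 H75 => ?_) H74
  refine invK_s he h124 (fun _ _ _ _ _ h127 H76 => ?_) H75
  refine mulK_s he h115 h127 (fun _ _ _ _ _ h128 H77 => ?_) H76
  have h129 := In_cast h128 ((div_eq_mul_inv _ _).symm)
  refine addK_s he h126 h129 (fun _ _ _ _ _ h130 H78 => ?_) H77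
  have h131 := In_cast (w := (U1 u ta s)) h130 rfl
  refine mulK_s he hx2 h131 (fun _ _ _ _ _ h132 H79 => ?_) H78
  have h133 := In_cast (w := (V1 u ta s)) h132 rfl
  refine mulK_s he h113 h133 (fun _ _ _ _ _ h134 H80 => ?_) H79
  refine addK_s he h105 h134 (fun _ _ _ _ _ h135 H81 => ?_) H80
  have h136 := In_cast (w := (C u ta s)) h135 rfl
  refine posK_s he h136 (fun p0 H82 => ?_) H81
  refine smulK_s he (w := (1/10:ℝ)) (by norm_num) (by norm_num) (by norm_num) (by norm_num) hx3 (fun _ _ _ _ _ h137 H83 => ?_) H82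
  refine addcK_s he h137 (v' := (-17/100:ℝ)) (by norm_num [SS, BB, abs_le]) (fun _ _ _ _ _ h138 H84 => ?_) H83
  have h139 := In_cast h138 (add_comm _ _)
  refine mulK_s he hx3 h139 (fun _ _ _ _ _ h140 H85 => ?_) H84
  refine negK_s he h140 (fun _ _ _ _ _ h141 H86 => ?_) H85
  refine addcK_s he h141 (v' := (1:ℝ)) (by norm_num [SS, BB, abs_le]) (fun _ _ _ _ _ h142 H87 => ?_) H86
  have h143 := In_cast h142 (neg_add_eq_sub _ _)
  have h144 := In_cast (w := (pp u ta s)) h143 rfl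
  refine subK_s he h113 h144 (fun _ _ _ _ _ h145 H88 => ?_) H87
  refine mulK_s he h145 h133 (fun _ _ _ _ _ h146 H89 => ?_) H88
  refine mulK_s he h37 h72 (fun _ _ _ _ _ h147 H90 => ?_) H89
  refine mulK_s he hx3 h147 (fun _ _ _ _ _ h148 H91 => ?_) H90
  have h149 := In_cast (w := (sd u ta s)) h148 rfl
  refine smulK_s he (w := (19957/10000:ℝ)) (by norm_num) (by norm_num) (by norm_num) (by norm_num) h149 (fun _ _ _ _ _ h150 H92 => ?_) H91
  refine addK_s he h146 h150 (fun _ _ _ _ _ h151 H93 => ?_) H92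
  have h152 := In_cast (w := (B u ta s)) h151 rfl
  refine smulK_s he (w := (2:ℝ)) (by norm_num) (by norm_num) (by norm_num) (by norm_num) h136 (fun _ _ _ _ _ h153 H94 => ?_) H93
  refine subK_s he h152 h153 (fun _ _ _ _ _ h154 H95 => ?_) H94
  refine posK_s he h154 (fun p1 H96 => ?_) H95
  refine mulK_s he h144 h133 (fun _ _ _ _ _ h155 H97 => ?_) H96
  refine subK_s he h105 h155 (fun _ _ _ _ _ h156 H98 => ?_) H97
  refine smulK_s he (w := (73/5000:ℝ)) (by norm_num) (by norm_num) (by norm_num) (by norm_num) hx3 (fun _ _ _ _ _ h157 H99 => ?_) H98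
  refine negK_s he h157 (fun _ _ _ _ _ h158 H100 => ?_) H99
  refine addcK_s he h158 (v' := (81/10000:ℝ)) (by norm_num [SS, BB, abs_le]) (fun _ _ _ _ _ h159 H101 => ?_) H100
  have h160 := In_cast h159 (neg_add_eq_sub _ _)
  refine mulK_s he h160 h149 (fun _ _ _ _ _ h161 H102 => ?_) H101
  refine subK_s he h156 h161 (fun _ _ _ _ _ h162 H103 => ?_) H102
  have h163 := In_cast (w := (A u ta s)) h162 rfl
  refine subK_s he h163 h152 (fun _ _ _ _ _ h164 H104 => ?_) H103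
  refine addK_s he h164 h136 (fun _ _ _ _ _ h165 H105 => ?_) H104
  exact ⟨p0, p1, pos_s he h165 H105⟩

noncomputable def alt3 (z1 w1 z2 w2 z3 w3 : ℕ) : Bool :=
  sqK z1 (Nat.add w1 1152921504606846976) 1152921504606846976 1152921504606846976 0 fun c1 a1_1 a1_2 a1_3 q1 =>
  addcK c1 a1_1 a1_2 a1_3 q1 1152922604118474752 0 fun c3 a3_1 a3_2 a3_3 q3 =>
  invK c3 a3_1 a3_2 a3_3 q3 fun c5 a5_1 a5_2 a5_3 q5 =>
  smulK 2 1 1152921504606846977 2305843009213693952 c5 a5_1 a5_2 a5_3 q5 fun c8 a8_1 a8_2 a8_3 q8 =>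
  addcK c8 a8_1 a8_2 a8_3 q8 1152920405095219200 0 fun c9 a9_1 a9_2 a9_3 q9 =>
  mulK c9 a9_1 a9_2 a9_3 q9 z2 1152921504606846976 (Nat.add w2 1152921504606846976) 1152921504606846976 0 fun c12 a12_1 a12_2 a12_3 q12 =>
  smulK 100 1 1152921504606846977 115292150460684697600 c12 a12_1 a12_2 a12_3 q12 fun c14 a14_1 a14_2 a14_3 q14 =>
  addcK c14 a14_1 a14_2 a14_3 q14 1152844538792902656 0 fun c15 a15_1 a15_2 a15_3 q15 =>
  pos c15 a15_1 a15_2 a15_3 q15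

theorem alt3_s {z1 w1 z2 w2 z3 w3 : ℕ} {e1 e2 e3 u ta s : ℝ} (he : Ev e1 e2 e3)
    (hx1 : In e1 e2 e3 z1 (Nat.add w1 1152921504606846976) 1152921504606846976 1152921504606846976 0 u)
    (hx2 : In e1 e2 e3 z2 1152921504606846976 (Nat.add w2 1152921504606846976) 1152921504606846976 0 ta)
    (hx3 : In e1 e2 e3 z3 1152921504606846976 1152921504606846976 (Nat.add w3 1152921504606846976) 0 s)
    (H0 : alt3 z1 w1 z2 w2 z3 w3 = true) : 0 < (((100:ℝ) * (r1 u ta s)) - (70:ℝ)) := by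
  unfold alt3 at H0
  refine sqK_s he hx1 (fun _ _ _ _ _ h1 H1 => ?_) H0
  have h2 := In_cast h1 (sq _)
  refine addcK_s he h2 (v' := (1:ℝ)) (by norm_num [SS, BB, abs_le]) (fun _ _ _ _ _ h3 H2 => ?_) H1
  have h4 := In_cast h3 (add_comm _ _)
  refine invK_s he h4 (fun _ _ _ _ _ h5 H3 => ?_) H2
  have h6 := In_cast h5 (inv_eq_one_div _)
  have h7 := In_cast (w := (iu u ta s)) h6 rfl
  refine smulK_s he (w := (2:ℝ)) (by norm_num) (by norm_num) (by norm_num) (by norm_num) h7 (fun _ _ _ _ _ h8 H4 => ?_) H3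
  refine addcK_s he h8 (v' := (-1:ℝ)) (by norm_num [SS, BB, abs_le]) (fun _ _ _ _ _ h9 H5 => ?_) H4
  have h10 := In_cast h9 (sub_c (c := (1:ℝ)) (by norm_num))
  have h11 := In_cast (w := (R u ta s)) h10 rfl
  refine mulK_s he h11 hx2 (fun _ _ _ _ _ h12 H6 => ?_) H5
  have h13 := In_cast (w := (r1 u ta s)) h12 rfl
  refine smulK_s he (w := (100:ℝ)) (by norm_num) (by norm_num) (by norm_num) (by norm_num) h13 (fun _ _ _ _ _ h14 H7 => ?_) H6
  refine addcK_s he h14 (v' := (-70:ℝ)) (by norm_num [SS, BB, abs_le]) (fun _ _ _ _ _ h15 H8 => ?_) H7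
  have h16 := In_cast h15 (sub_c (c := (70:ℝ)) (by norm_num))
  exact pos_s he h16 H8

attribute [irreducible] alt0 alt1 alt2 alt3

noncomputable def leaf (j u z1 w1 z2 w2 z3 w3 : ℕ) : Bool :=
  sB j (alt0 z1 w1 z2 w2 z3 w3) fun j => sB j (alt1 z1 w1 z2 w2 z3 w3) fun j => sB j (alt2 z1 w1 z2 w2 z3 w3) fun j => alt3 z1 w1 z2 w2 z3 w3

theorem snd : Snd Q leaf := by
  intro j u z1 w1 z2 w2 z3 w3 e1 e2 e3 he H
  unfold leaf at H
  unfold Q
  replace H := sel H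
  rcases H with H | ⟨j, H⟩
  · exact Or.inl (alt0_s he (var1 z1 w1) (var2 z2 w2) (var3 z3 w3) H)
  replace H := sel H
  rcases H with H | ⟨j, H⟩
  · exact Or.inr (Or.inl (alt1_s he (var1 z1 w1) (var2 z2 w2) (var3 z3 w3) H))
  replace H := sel H
  rcases H with H | ⟨j, H⟩
  · exact Or.inr (Or.inr (Or.inl (alt2_s he (var1 z1 w1) (var2 z2 w2) (var3 z3 w3) H)))
  exact Or.inr (Or.inr (Or.inr (alt3_s he (var1 z1 w1) (var2 z2 w2) (var3 z3 w3) H)))

end Crest.Agent.R307.UEQ
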