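import Crest.Agent.R307.UEQ
set_option autoImplicit false
set_option maxRecDepth 100000
namespace Crest.Agent.R307.UEQ
open Crest.Agent.R307.IA Crest.Agent.R307.IA3

theorem k152 : Cov Q 1152921642045800643 1152921710765277486 1152921642045800643 1152921676405541214 1152922092845569794 1152922139574816271 :=
  cov_of snd 0 0 11 _ _ _ _ _ _ 0x4404402440442044410203330033310233233033020440333001201440440243401434012044042440442102440444001440440124440044144201440440441012044044044021442444004402102033133031233033013303301204403304203323303302012330331033300133033103330012332330330203313320144033300133133201204404402440441044044102033300333002331333020331330330202012010 (by decide +kernel)

theorem k153 : Cov Q 1152921642045800643 1152921710765277486 1152921642045800643 1152921676405541214 1152922139574816271 1152922186304056198 :=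
  cov_of snd 0 0 12 _ _ _ _ _ _ 0x3303310333001433103330012330330233133120332330330201330331044023323303302012033033014330123331033300144033300120331331233033013303301201442440440203304233300333002013313312330330133033012012440333001331332014403304203313320123323321330314312033033023313312013314310444002330330233133120120330331033300133033103330012332330330203313320133233033020331332012014440044400244144044020440441020331332033033022330330233133120444003303320120133033103330013303310333001233233033020331332013323303302033133201201200 (by decide +kernel)

theorem k154 : Cov Q 1152921642045800643 1152921710765277486 1152921676405541214 1152921710765277486 1152922092845569794 1152922186304056198 :=
  cov_of snd 0 0 12 _ _ _ _ _ _ 0x44044014440124440044144044020144044044101204404404214424440044021024414404204414412440440144401201444004404402440440421012444214404404210440440441014404440012440441044044024414402014404414404201201441441044244044021440424404400440210120440424414404204440021440424414402444210441441021020 (by decide +kernel)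

theorem k155 : Cov Q 1152921642045800643 1152921710765277486 1152921710765277486 1152921779484754113 1152922092845569794 1152922186304056198 :=
  cov_of snd 0 0 8 _ _ _ _ _ _ 0x44044024404244044042104404410214404400440244044042144044044021044042440420210 (by decide +kernel)

theorem k156 : Cov Q 1152921710765277486 1152921779484754113 1152921642045800643 1152921779484754113 1152921999387079475 1152922186304056198 :=
  cov_of snd 0 0 10 _ _ _ _ _ _ 0x4424404402144042440441044021044400444002440440243401441204414440102033133033010331331233033014330120043133042044044203323303302010211444014404404210440440244400444002144044104402440424404421044144401021012 (by decide +kernel)

theorem k157 : Cov Q 1152921504606846976 1152921779484754113 1152921779484754113 1152922054362661017 1152921999387079475 1152922186304056198 :=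
  cov_of snd 0 0 9 _ _ _ _ _ _ 0x4440144044042104404244144401044021444004402444214442104404400210144401440244144020440440044024404421440442104414410214404044421441440201440441441012010 (by decide +kernel)

theorem k158 : Cov Q 1152921779484754113 1152922054362661017 1152921504606846976 1152922054362661017 1152921999387079475 1152922186304056198 :=
  cov_of snd 0 0 12 _ _ _ _ _ _ 0x44044144401014404440104404404214404244400440210104404401440424404402103303303300233033103403301203303302333003303310201144400440244410440441021444014404421043301440244033300144034012014404440104404401442440440210120332330330203403301331331202331330312330330133033012033031330330123330033013330033300120203313330203323303302023303312330330133033012033133123303301330330120201101 (by decide +kernel)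

theorem k159 : Cov Q 1152921504606846976 1152922054362661017 1152922054362661017 1152922604118474752 1152921999387079475 1152922186304056198 :=
  cov_of snd 0 0 7 _ _ _ _ _ _ 0x4404604401044401440440101644046001604440044044101441441044144101010 (by decide +kernel)

end Crest.Agent.R307.UEQ
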