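import Crest.Agent.R307.HP

/-!
# R307/UG: closed-form lower bound for the gain `U x + U y - U p0 - U p1` of the exact split potential
-/

set_option autoImplicit false

namespace Crest.Agent.R307

open Set

/-- The comparison function: `Uex - Mg` is concave. -/
noncomputable def Mg (p : ℝ) : ℝ :=
  2 * √(1 - p) - 4958 / 10000 * √(1 - p) ^ 3 + 2782 / 10000 * (1 - p) ^ 2 - 657 / 10000 * (1 - p) ^ 3 +
    384 / 10000 * (1 - p) ^ 4 - √p ^ 3 / 2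

def MConc : Prop := ConcaveOn ℝ (Icc 0 1) fun p => Uex p - Mg p

theorem ug_sym {X Y P π σ : ℝ} (hX : 0 ≤ X) (hY : 0 ≤ Y) (hπ : 0 ≤ π) (hσ : 0 ≤ σ) (e1 : X ^ 2 + Y ^ 2 = P)
    (e2 : X ^ 2 * Y ^ 2 = π ^ 2) (e3 : σ ^ 2 = P + 2 * π) : X * Y = π ∧ X + Y = σ := by
  have a : X * Y = π := (pow_left_inj₀ (mul_nonneg hX hY) hπ two_ne_zero).1 (by rw [mul_pow, e2])
  exact ⟨a, (pow_left_inj₀ (add_nonneg hX hY) hσ two_ne_zero).1 (by nlinarith)⟩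

theorem ug_w {t0 t1 a v w : ℝ} (h0 : 0 ≤ t0) (h1 : 0 < t1) (ha : 0 ≤ a) (hv : 0 ≤ v) (hw : 0 ≤ w)
    (ea : a ^ 2 = (t0 * t1) ^ 2 + w) (ev : v ^ 2 = t0 ^ 2 + t1 ^ 2 + 2 * a) :
    w * ((1 + (t0 ^ 2 + t1 ^ 2 + t0 * t1) / (v * (t0 + t1) + (t0 ^ 2 + t1 ^ 2))) / (v + (t0 + t1))) ≤
      (t0 ^ 3 + t1 ^ 3 - v * (t0 ^ 2 + t1 ^ 2 - a)) / 2 := by
  set P := t0 ^ 2 + t1 ^ 2 with hP
  set b := t0 * t1 with hb
  set u := t0 + t1 with hu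
  have b0 : 0 ≤ b := mul_nonneg h0 h1.le
  have u0 : 0 < u := by positivity
  have P0 : 0 < P := by positivity
  have eu : u ^ 2 = P + 2 * b := by rw [hu, hP, hb]; ring
  have ab : b ≤ a := by
    refine (pow_le_pow_iff_left₀ b0 ha two_ne_zero).1 (by linarith)
  have e3 : t0 ^ 3 + t1 ^ 3 = u * (P - b) := by rw [hu, hP, hb]; ring
  have d1 : 0 < v + u := by positivity
  have d2 : 0 < v * u + P := by positivity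
  have k : 2 * (a + b) * ((P + b) / (v * u + P)) ≤ v * u - P := by
    rw [← mul_div_assoc, div_le_iff₀ d2]
    have : (v * u - P) * (v * u + P) = v ^ 2 * u ^ 2 - P ^ 2 := by ring
    rw [this, ev, eu]
    nlinarith [mul_nonneg b0 (sub_nonneg.2 ab)]
  have ew : w = (a - b) * (a + b) := by linarith
  rw [e3, ← mul_div_assoc, div_le_div_iff₀ d1 two_pos, ew]
  have e4 : (u * (P - b) - v * (P - a)) * (v + u) = (a - b) * (2 * (a + b) + (v * u - P)) := by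
    linear_combination (-(P - a)) * ev + (P - b) * eu
  rw [e4]
  nlinarith [mul_le_mul_of_nonneg_left k (sub_nonneg.2 ab)]

theorem ug_gain (hM : MConc) {ρ s r0 r1 t0 t1 w π σ a v : ℝ} (hρ0 : 0 ≤ ρ) (hρ1 : ρ ≤ 1) (hs : s ^ 2 = 1 - ρ ^ 2)
    (r00 : 0 < r0) (r10 : 0 ≤ r1) (t00 : 0 ≤ t0) (t10 : 0 < t1) (e0 : r0 ^ 2 + t0 ^ 2 = 1) (e1 : r1 ^ 2 + t1 ^ 2 = 1)
    (h01 : t0 ^ 2 ≤ t1 ^ 2) (ew : w = s ^ 2 * (t1 ^ 2 - t0 ^ 2) ^ 2 / 4)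
    (hπ : 0 ≤ π) (eπ : π ^ 2 = (r0 * r1) ^ 2 + w) (hσ : 0 ≤ σ) (eσ : σ ^ 2 = r0 ^ 2 + r1 ^ 2 + 2 * π)
    (ha : 0 ≤ a) (ea : a ^ 2 = (t0 * t1) ^ 2 + w) (hv : 0 ≤ v) (ev : v ^ 2 = t0 ^ 2 + t1 ^ 2 + 2 * a) :
    Uex (t0 ^ 2) + Uex (t1 ^ 2) +
      ((π - r0 * r1) * ((4 + -2479 / 5000 * (2 * (r0 ^ 2 + r1 ^ 2 - r0 * r1) - σ * (σ + r0 + r1))) / (σ + r0 + r1)) +
        w * ((-1391 / 2500 + 1971 / 10000 * (r0 ^ 2 + r1 ^ 2) +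
          24 / 625 * (2 * (2 * (r0 * r1) ^ 2 + w) - 4 * (r0 ^ 2 + r1 ^ 2) ^ 2)) +
          (1 + (t0 ^ 2 + t1 ^ 2 + t0 * t1) / (v * (t0 + t1) + (t0 ^ 2 + t1 ^ 2))) / (v + (t0 + t1)))) ≤
      Uex ((1 + ρ) / 2 * t1 ^ 2 + (1 - ρ) / 2 * t0 ^ 2) + Uex ((1 + ρ) / 2 * t0 ^ 2 + (1 - ρ) / 2 * t1 ^ 2) := by
  set x := (1 + ρ) / 2 * t1 ^ 2 + (1 - ρ) / 2 * t0 ^ 2 with hx
  set y := (1 + ρ) / 2 * t0 ^ 2 + (1 - ρ) / 2 * t1 ^ 2 with hy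
  have p0 : 0 ≤ t0 ^ 2 := sq_nonneg _
  have p1 : t1 ^ 2 ≤ 1 := by nlinarith [sq_nonneg r1]
  have c1 : t0 ^ 2 ≤ x := by rw [hx]; nlinarith
  have c2 : t0 ^ 2 ≤ y := by rw [hy]; nlinarith
  have c3 : x + y = t1 ^ 2 + t0 ^ 2 := by rw [hx, hy]; ring
  have key := xind_spread hM p0 p1 c2 c1 c3
  have w0 : 0 ≤ w := by rw [ew]; positivity
  have xy : x * y = (t0 * t1) ^ 2 + w := by rw [hx, hy, ew, hs]; ring
  have x0 : 0 ≤ x := p0.trans c1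
  have y0 : 0 ≤ y := p0.trans c2
  have x1 : 0 ≤ 1 - x := by linarith
  have y1 : 0 ≤ 1 - y := by linarith
  have sX := Real.sq_sqrt x1
  have sY := Real.sq_sqrt y1
  have sA := Real.sq_sqrt x0
  have sB := Real.sq_sqrt y0
  have q0 : 1 - t0 ^ 2 = r0 ^ 2 := by linarith
  have q1 : 1 - t1 ^ 2 = r1 ^ 2 := by linarith
  have exy : (1 - x) * (1 - y) = π ^ 2 := by
    rw [eπ, mul_pow, ← q0, ← q1]
    linear_combination xy - c3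
  obtain ⟨f1, f2⟩ := ug_sym (Real.sqrt_nonneg (1 - x)) (Real.sqrt_nonneg (1 - y)) hπ hσ
    (P := r0 ^ 2 + r1 ^ 2) (by linarith) (by rw [sX, sY, exy]) eσ
  obtain ⟨g1, g2⟩ := ug_sym (Real.sqrt_nonneg x) (Real.sqrt_nonneg y) ha hv
    (P := t0 ^ 2 + t1 ^ 2) (by linarith) (by rw [sA, sB, xy, ea]) ev
  have kw := ug_w t00 t10 ha hv w0 ea ev
  simp only [Mg, q0, q1, Real.sqrt_sq r00.le, Real.sqrt_sq r10, Real.sqrt_sq t00, Real.sqrt_sq t10.le] at key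
  have sP : (1 - x) + (1 - y) = r0 ^ 2 + r1 ^ 2 := by linarith
  generalize √(1 - x) = X at *
  generalize √(1 - y) = Y at *
  generalize √x = A at *
  generalize √y = B at *
  have d1 : 0 < σ + r0 + r1 := by positivity
  have h3 : X ^ 3 + Y ^ 3 = σ * (r0 ^ 2 + r1 ^ 2 - π) := by
    rw [← f1, ← f2, ← sP, ← sX, ← sY]; ring
  have g3 : A ^ 3 + B ^ 3 = v * (t0 ^ 2 + t1 ^ 2 - a) := by
    rw [← g1, ← g2, add_comm (t0 ^ 2), ← c3, ← sA, ← sB]; ring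
  have hF : (π - r0 * r1) * ((4 + -2479 / 5000 * (2 * (r0 ^ 2 + r1 ^ 2 - r0 * r1) - σ * (σ + r0 + r1))) /
      (σ + r0 + r1)) = 2 * (σ - r0 - r1) - 4958 / 10000 * (σ * (r0 ^ 2 + r1 ^ 2 - π) - r0 ^ 3 - r1 ^ 3) := by
    rw [← mul_div_assoc, div_eq_iff d1.ne']
    linear_combination (-2 + 4958 / 10000 * (r0 ^ 2 + r1 ^ 2 - r0 * r1)) * eσ
  have exy' : (1 - x) * (1 - y) = (r0 * r1) ^ 2 + w := by rw [exy, eπ]
  generalize 1 - x = qx at *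
  generalize 1 - y = qy at *
  have h2 : qx ^ 2 + qy ^ 2 = (r0 ^ 2) ^ 2 + (r1 ^ 2) ^ 2 - 2 * w := by
    linear_combination (qx + qy + (r0 ^ 2 + r1 ^ 2)) * sP - 2 * exy'
  have h6 : qx ^ 3 + qy ^ 3 = (r0 ^ 2) ^ 3 + (r1 ^ 2) ^ 3 - 3 * (r0 ^ 2 + r1 ^ 2) * w := by
    have : qx ^ 3 + qy ^ 3 = (qx + qy) ^ 3 - 3 * (qx + qy) * (qx * qy) := by ring
    rw [this, sP, exy']; ring
  have h8 : qx ^ 4 + qy ^ 4 = (r0 ^ 2) ^ 4 + (r1 ^ 2) ^ 4 +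
      w * (2 * (2 * (r0 * r1) ^ 2 + w) - 4 * (r0 ^ 2 + r1 ^ 2) ^ 2) := by
    have : qx ^ 4 + qy ^ 4 = ((qx + qy) ^ 2 - 2 * (qx * qy)) ^ 2 - 2 * (qx * qy) ^ 2 := by ring
    rw [this, sP, exy']; ring
  rw [hF, mul_add]
  linarith

end Crest.Agent.R307
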