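import Crest.Agent.R307.UG

/-!
# R307/UH: the gain bound in the scaled charts
-/

set_option autoImplicit false

namespace Crest.Agent.R307

open Set

/-- The left side of a step. -/
noncomputable def Tx (ρ p0 p1 : ℝ) : ℝ :=
  Uex ((1 + ρ) / 2 * p1 + (1 - ρ) / 2 * p0) + Uex ((1 + ρ) / 2 * p0 + (1 - ρ) / 2 * p1)

theorem uex_r {r t : ℝ} (r0 : 0 ≤ r) (t0 : 0 ≤ t) (e : r ^ 2 + t ^ 2 = 1) :
    Uex (t ^ 2) = r * (1 + t - 2 * r + r / (1 + t)) := by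
  unfold Uex
  rw [show 1 - t ^ 2 = r ^ 2 by linarith, Real.sqrt_sq r0, Real.sqrt_sq t0]
  have : 0 < 1 + t := by positivity
  field_simp
  linear_combination (1 + 2 * t) * e

theorem uex_t {r t : ℝ} (r0 : 0 ≤ r) (t0 : 0 ≤ t) (e : r ^ 2 + t ^ 2 = 1) :
    Uex (t ^ 2) = t ^ 2 * (2 - (1 + t) * (1 / (1 + r))) := by
  unfold Uex
  rw [show 1 - t ^ 2 = r ^ 2 by linarith, Real.sqrt_sq r0, Real.sqrt_sq t0]
  have : 0 < 1 + r := by positivity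
  field_simp
  linear_combination (1 + t) * e

/-- Chart near `q = 0`: `r0 = R`, `r1 = R τ`. -/
theorem ug_Q (hM : MConc) {ρ s R ta t0 t1 om sg b v Ga : ℝ} (hρ0 : 0 ≤ ρ) (hρ1 : ρ ≤ 1) (hs : s ^ 2 = 1 - ρ ^ 2)
    (R0 : 0 < R) (ta0 : 0 ≤ ta) (ta1 : ta ≤ 1) (t00 : 0 ≤ t0) (t10 : 0 < t1) (e0 : R ^ 2 + t0 ^ 2 = 1)
    (e1 : (R * ta) ^ 2 + t1 ^ 2 = 1) (om0 : 0 ≤ om) (eom : om ^ 2 = ta ^ 2 + s ^ 2 * (1 - ta ^ 2) ^ 2 / 4)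
    (sg0 : 0 ≤ sg) (esg : sg ^ 2 = 1 + ta ^ 2 + 2 * om)
    (b0 : 0 ≤ b) (eb : b ^ 2 = (t0 * t1) ^ 2 + R ^ 4 * (om ^ 2 - ta ^ 2)) (v0 : 0 ≤ v)
    (ev : v ^ 2 = 2 - R ^ 2 * (1 + ta ^ 2) + 2 * b)
    (eG : Ga = (4 + -2479 / 5000 * (R ^ 2 * (2 * (1 + ta ^ 2 - ta) - sg * (sg + 1 + ta)))) / (sg + 1 + ta) +
      R ^ 3 * (om + ta) * ((-1391 / 2500 + 1971 / 10000 * (R ^ 2 * (1 + ta ^ 2)) +
        24 / 625 * (R ^ 4 * (2 * (om ^ 2 + ta ^ 2)) - 4 * (R ^ 2 * (1 + ta ^ 2)) ^ 2)) +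
        (1 + (2 - R ^ 2 * (1 + ta ^ 2) + t0 * t1) / (v * (t0 + t1) + (2 - R ^ 2 * (1 + ta ^ 2)))) / (v + (t0 + t1)))) :
    Uex (t0 ^ 2) + Uex (t1 ^ 2) + R * (om - ta) * Ga ≤ Tx ρ (t0 ^ 2) (t1 ^ 2) := by
  have eP : 2 - R ^ 2 * (1 + ta ^ 2) = t0 ^ 2 + t1 ^ 2 := by linarith
  have ed : t1 ^ 2 - t0 ^ 2 = R ^ 2 * (1 - ta ^ 2) := by linarith
  have h01 : t0 ^ 2 ≤ t1 ^ 2 := by
    have : 0 ≤ R ^ 2 * (1 - ta ^ 2) := mul_nonneg (sq_nonneg _) (by nlinarith)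
    linarith
  have key := ug_gain hM (w := R ^ 4 * (om ^ 2 - ta ^ 2)) (π := R ^ 2 * om) (σ := R * sg) hρ0 hρ1 hs R0
    (mul_nonneg R0.le ta0) t00 t10 e0 e1 h01 (by rw [ed, eom]; ring) (by positivity) (by ring) (by positivity)
    (by linear_combination R ^ 2 * esg) b0 eb v0 (by rw [ev, eP])
  refine le_trans (le_of_eq ?_) key
  rw [eG, eP]
  have d1 : 0 < sg + 1 + ta := by positivity
  have d2 : R * sg + R + R * ta = R * (sg + 1 + ta) := by ring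
  rw [d2]
  generalize (1 + (t0 ^ 2 + t1 ^ 2 + t0 * t1) / (v * (t0 + t1) + (t0 ^ 2 + t1 ^ 2))) / (v + (t0 + t1)) = GW
  field_simp
  ring

/-- Chart near `p = 0`: `t1 = T`, `t0 = c T`. -/
theorem ug_P (hM : MConc) {ρ s T c r0 r1 w pi sg b v G : ℝ} (hρ0 : 0 ≤ ρ) (hρ1 : ρ ≤ 1) (hs : s ^ 2 = 1 - ρ ^ 2)
    (T0 : 0 < T) (c0 : 0 ≤ c) (c1 : c ≤ 1) (r00 : 0 < r0) (r10 : 0 < r1) (e0 : r0 ^ 2 + (c * T) ^ 2 = 1)
    (e1 : r1 ^ 2 + T ^ 2 = 1) (ew : w = s ^ 2 * (1 - c ^ 2) ^ 2 / 4 * T ^ 4)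
    (pi0 : 0 ≤ pi) (epi : pi ^ 2 = (r0 * r1) ^ 2 + w) (sg0 : 0 ≤ sg) (esg : sg ^ 2 = 2 - T ^ 2 * (1 + c ^ 2) + 2 * pi)
    (b0 : 0 ≤ b) (eb : b ^ 2 = c ^ 2 + s ^ 2 * (1 - c ^ 2) ^ 2 / 4) (v0 : 0 ≤ v) (ev : v ^ 2 = 1 + c ^ 2 + 2 * b)
    (eG : G = T * ((4 + -2479 / 5000 * (2 * (2 - T ^ 2 * (1 + c ^ 2) - r0 * r1) - sg * (sg + r0 + r1))) /
        ((sg + r0 + r1) * (pi + r0 * r1)) + (-1391 / 2500 + 1971 / 10000 * (2 - T ^ 2 * (1 + c ^ 2)) +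
        24 / 625 * (2 * (2 * (r0 * r1) ^ 2 + w) - 4 * (2 - T ^ 2 * (1 + c ^ 2)) ^ 2))) +
        (1 + (1 + c ^ 2 + c) / (v * (1 + c) + (1 + c ^ 2))) / (v + (1 + c))) :
    Uex ((c * T) ^ 2) + Uex (T ^ 2) + s ^ 2 * (1 - c ^ 2) ^ 2 / 4 * T ^ 3 * G ≤ Tx ρ ((c * T) ^ 2) (T ^ 2) := by
  have eP : 2 - T ^ 2 * (1 + c ^ 2) = r0 ^ 2 + r1 ^ 2 := by linarith
  have h01 : (c * T) ^ 2 ≤ T ^ 2 := by
    have : 0 ≤ T ^ 2 * (1 - c ^ 2) := mul_nonneg (sq_nonneg _) (by nlinarith)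
    linarith
  have key := ug_gain hM (w := w) (π := pi) (σ := sg) (a := T ^ 2 * b) (v := T * v) hρ0 hρ1 hs r00 r10.le
    (mul_nonneg c0 T0.le) T0 e0 e1 h01 (by rw [ew]; ring) pi0 epi sg0 (by rw [esg, eP]) (by positivity)
    (by rw [ew]; linear_combination T ^ 4 * eb) (by positivity) (by linear_combination T ^ 2 * ev)
  refine le_trans (le_of_eq ?_) key
  rw [eG, eP]
  have d1 : 0 < sg + r0 + r1 := by positivity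
  have d3 : 0 < pi + r0 * r1 := by positivity
  have d4 : 0 < v * (1 + c) + (1 + c ^ 2) := by positivity
  have d5 : 0 < v + (1 + c) := by positivity
  have e4 : T * v * (c * T + T) + ((c * T) ^ 2 + T ^ 2) = T ^ 2 * (v * (1 + c) + (1 + c ^ 2)) := by ring
  have e5 : T * v + (c * T + T) = T * (v + (1 + c)) := by ring
  have e6 : pi - r0 * r1 = w / (pi + r0 * r1) := by
    rw [eq_div_iff d3.ne']; linarith
  have e7 : s ^ 2 * (1 - c ^ 2) ^ 2 / 4 * T ^ 3 = w / T := by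
    rw [eq_div_iff T0.ne', ew]; ring
  rw [e4, e5, e6, e7]
  generalize 4 + -2479 / 5000 * (2 * (r0 ^ 2 + r1 ^ 2 - r0 * r1) - sg * (sg + r0 + r1)) = F
  generalize -1391 / 2500 + 1971 / 10000 * (r0 ^ 2 + r1 ^ 2) +
        24 / 625 * (2 * (2 * (r0 * r1) ^ 2 + w) - 4 * (r0 ^ 2 + r1 ^ 2) ^ 2) = Gp
  generalize sg + r0 + r1 = A at *
  generalize pi + r0 * r1 = B at *
  generalize v * (1 + c) + (1 + c ^ 2) = C at *
  generalize v + (1 + c) = D at *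
  field_simp
  ring

/-- A quadratic with positive leading coefficient and negative discriminant. -/
theorem quad_all {a g X x : ℝ} (ha : 0 < a) (h : 0 < a * g - X * X) : 0 ≤ g - 2 * X * x + a * x ^ 2 := by
  have : 0 ≤ a * (g - 2 * X * x + a * x ^ 2) := by nlinarith [sq_nonneg (a * x - X)]
  exact nonneg_of_mul_nonneg_right this ha |> fun h => h

/-- The rational parameter of a point of the quarter circle. -/
theorem circ_par {r t : ℝ} (r0 : 0 ≤ r) (t0 : 0 ≤ t) (e : r ^ 2 + t ^ 2 = 1) :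
    ∃ u : ℝ, 0 ≤ u ∧ u ≤ 1 ∧ 2 * (1 / (1 + u * u)) - 1 = r ∧ 2 * u * (1 / (1 + u * u)) = t := by
  have h : 0 < 1 + r := by positivity
  have k : 1 / (1 + t / (1 + r) * (t / (1 + r))) = (1 + r) / 2 := by
    rw [div_eq_iff (by positivity)]
    field_simp
    linear_combination -e
  refine ⟨t / (1 + r), by positivity, (div_le_one h).2 (by nlinarith), ?_, ?_⟩
  · rw [k]; ring
  · rw [k]; field_simp

end Crest.Agent.R307
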