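import Crest.Agent.R307.IA3
import Crest.Agent.R307.IAx
set_option autoImplicit false
set_option linter.unusedVariables false
set_option maxRecDepth 20000
namespace Crest.Agent.R307.UKP
open Crest.Agent.R307.IA Crest.Agent.R307.IA3

theorem In_cast {e1 e2 e3 : ℝ} {x y1 y2 y3 r : ℕ} {v w : ℝ}
    (h : In e1 e2 e3 x y1 y2 y3 r v) (e : v = w) : In e1 e2 e3 x y1 y2 y3 r w := e ▸ h

noncomputable def c2 (T c s : ℝ) : ℝ := (c * c)
noncomputable def d (T c s : ℝ) : ℝ := ((1:ℝ) - (c2 T c s))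
noncomputable def T2 (T c s : ℝ) : ℝ := (T * T)
noncomputable def P (T c s : ℝ) : ℝ := ((2:ℝ) - ((T2 T c s) * ((1:ℝ) + (c2 T c s))))
noncomputable def r0 (T c s : ℝ) : ℝ := (√((1:ℝ) - ((c2 T c s) * (T2 T c s))))
noncomputable def r1 (T c s : ℝ) : ℝ := (√((1:ℝ) - (T2 T c s)))
noncomputable def pi0 (T c s : ℝ) : ℝ := ((r0 T c s) * (r1 T c s))
noncomputable def hh (T c s : ℝ) : ℝ := ((s * (d T c s)) / (2:ℝ))
noncomputable def hq (T c s : ℝ) : ℝ := ((hh T c s) * (hh T c s))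
noncomputable def w (T c s : ℝ) : ℝ := ((hq T c s) * ((T2 T c s) * (T2 T c s)))
noncomputable def pi (T c s : ℝ) : ℝ := (√(((pi0 T c s) * (pi0 T c s)) + (w T c s)))
noncomputable def sg (T c s : ℝ) : ℝ := (√((P T c s) + ((2:ℝ) * (pi T c s))))
noncomputable def ss (T c s : ℝ) : ℝ := (((sg T c s) + (r0 T c s)) + (r1 T c s))
noncomputable def Gp (T c s : ℝ) : ℝ := (((-1391/2500:ℝ) - ((-1971/10000:ℝ) * (P T c s))) + ((24/625:ℝ) * (((2:ℝ) * (((2:ℝ) * ((pi0 T c s) * (pi0 T c s))) + (w T c s))) - ((4:ℝ) * ((P T c s) * (P T c s))))))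
noncomputable def b (T c s : ℝ) : ℝ := (√((c2 T c s) + (hq T c s)))
noncomputable def v (T c s : ℝ) : ℝ := (√(((1:ℝ) + (c2 T c s)) + ((2:ℝ) * (b T c s))))
noncomputable def GW (T c s : ℝ) : ℝ := (((1:ℝ) + ((((1:ℝ) + (c2 T c s)) + c) / (((v T c s) * ((1:ℝ) + c)) + ((1:ℝ) + (c2 T c s))))) / ((v T c s) + ((1:ℝ) + c)))
noncomputable def G (T c s : ℝ) : ℝ := ((T * ((((4:ℝ) + ((-2479/5000:ℝ) * (((2:ℝ) * ((P T c s) - (pi0 T c s))) - ((sg T c s) * (ss T c s))))) / ((ss T c s) * ((pi T c s) + (pi0 T c s)))) + (Gp T c s))) + (GW T c s))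
noncomputable def g (T c s : ℝ) : ℝ := (((((s * s) * ((d T c s) * (d T c s))) * ((T * T) * T)) * (G T c s)) / (4:ℝ))
noncomputable def i0 (T c s : ℝ) : ℝ := ((1:ℝ) / ((1:ℝ) + (r0 T c s)))
noncomputable def U0 (T c s : ℝ) : ℝ := ((2:ℝ) - (((1:ℝ) + (c * T)) * (i0 T c s)))
noncomputable def V0 (T c s : ℝ) : ℝ := ((c2 T c s) * (U0 T c s))
noncomputable def i1 (T c s : ℝ) : ℝ := ((1:ℝ) / ((1:ℝ) + (r1 T c s)))
noncomputable def U1 (T c s : ℝ) : ℝ := ((2:ℝ) - (((1:ℝ) + T) * (i1 T c s)))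
noncomputable def L (T c s : ℝ) : ℝ := (((T * T) * (((((3/5:ℝ) * s) - (1/10:ℝ)) * (V0 T c s)) + (((101/100:ℝ) - ((3/5:ℝ) * s)) * (U1 T c s)))) + ((9/1000:ℝ) * ((1:ℝ) - (T * T))))
noncomputable def a (T c s : ℝ) : ℝ := ((g T c s) + ((2:ℝ) * (L T c s)))
noncomputable def Z (T c s : ℝ) : ℝ := ((1:ℝ) + ((14/25:ℝ) * ((((1:ℝ) / ((r0 T c s) + (r1 T c s))) - (2:ℝ)) + (T * ((((c * ((1:ℝ) + ((c2 T c s) * ((1:ℝ) - (i0 T c s))))) + (c2 T c s)) + ((1:ℝ) - (i1 T c s))) / ((((r0 T c s) * c) + (r1 T c s)) * ((1:ℝ) + c)))))))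
noncomputable def X (T c s : ℝ) : ℝ := (((T * T) * (d T c s)) * (Z T c s))

def Q (T c s : ℝ) : Prop :=
  (
  (0 < (a T c s) ∧ 0 < (((G T c s) * (a T c s)) - (((4:ℝ) * T) * ((Z T c s) * (Z T c s))))) ∨
  (0 < (a T c s) ∧ 0 < (((2:ℝ) * (s * (X T c s))) - (a T c s)) ∧ 0 < (((g T c s) + ((a T c s) / (4:ℝ))) - (s * (X T c s)))))

noncomputable def alt0 (z1 w1 z2 w2 z3 w3 : ℕ) : Bool :=
  sqK z3 1152921504606846976 1152921504606846976 (Nat.add w3 1152921504606846976) 0 fun c1 a1_1 a1_2 a1_3 q1 =>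
  sqK z2 1152921504606846976 (Nat.add w2 1152921504606846976) 1152921504606846976 0 fun c3 a3_1 a3_2 a3_3 q3 =>
  negK c3 a3_1 a3_2 a3_3 q3 fun c6 a6_1 a6_2 a6_3 q6 =>
  addcK c6 a6_1 a6_2 a6_3 q6 1152922604118474752 0 fun c7 a7_1 a7_2 a7_3 q7 =>
  sqK c7 a7_1 a7_2 a7_3 q7 fun c10 a10_1 a10_2 a10_3 q10 =>
  mulK c1 a1_1 a1_2 a1_3 q1 c10 a10_1 a10_2 a10_3 q10 fun c12 a12_1 a12_2 a12_3 q12 =>
  sqK z1 (Nat.add w1 1152921504606846976) 1152921504606846976 1152921504606846976 0 fun c13 a13_1 a13_2 a13_3 q13 =>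
  mulK c13 a13_1 a13_2 a13_3 q13 z1 (Nat.add w1 1152921504606846976) 1152921504606846976 1152921504606846976 0 fun c15 a15_1 a15_2 a15_3 q15 =>
  mulK c12 a12_1 a12_2 a12_3 q12 c15 a15_1 a15_2 a15_3 q15 fun c16 a16_1 a16_2 a16_3 q16 =>
  addcK c3 a3_1 a3_2 a3_3 q3 1152922604118474752 0 fun c18 a18_1 a18_2 a18_3 q18 =>
  mulK c13 a13_1 a13_2 a13_3 q13 c18 a18_1 a18_2 a18_3 q18 fun c20 a20_1 a20_2 a20_3 q20 =>
  negK c20 a20_1 a20_2 a20_3 q20 fun c21 a21_1 a21_2 a21_3 q21 =>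
  addcK c21 a21_1 a21_2 a21_3 q21 1152923703630102528 0 fun c22 a22_1 a22_2 a22_3 q22 =>
  mulK c3 a3_1 a3_2 a3_3 q3 c13 a13_1 a13_2 a13_3 q13 fun c25 a25_1 a25_2 a25_3 q25 =>
  negK c25 a25_1 a25_2 a25_3 q25 fun c26 a26_1 a26_2 a26_3 q26 =>
  addcK c26 a26_1 a26_2 a26_3 q26 1152922604118474752 0 fun c27 a27_1 a27_2 a27_3 q27 =>
  sqrtK c27 a27_1 a27_2 a27_3 q27 fun c29 a29_1 a29_2 a29_3 q29 =>
  negK c13 a13_1 a13_2 a13_3 q13 fun c31 a31_1 a31_2 a31_3 q31 =>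
  addcK c31 a31_1 a31_2 a31_3 q31 1152922604118474752 0 fun c32 a32_1 a32_2 a32_3 q32 =>
  sqrtK c32 a32_1 a32_2 a32_3 q32 fun c34 a34_1 a34_2 a34_3 q34 =>
  mulK c29 a29_1 a29_2 a29_3 q29 c34 a34_1 a34_2 a34_3 q34 fun c36 a36_1 a36_2 a36_3 q36 =>
  sqK c36 a36_1 a36_2 a36_3 q36 fun c38 a38_1 a38_2 a38_3 q38 =>
  mulK z3 1152921504606846976 1152921504606846976 (Nat.add w3 1152921504606846976) 0 c7 a7_1 a7_2 a7_3 q7 fun c40 a40_1 a40_2 a40_3 q40 =>
  smulK 1 2 2305843009213693954 1152921504606846976 c40 a40_1 a40_2 a40_3 q40 fun c41 a41_1 a41_2 a41_3 q41 =>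
  sqK c41 a41_1 a41_2 a41_3 q41 fun c44 a44_1 a44_2 a44_3 q44 =>
  sqK c13 a13_1 a13_2 a13_3 q13 fun c47 a47_1 a47_2 a47_3 q47 =>
  mulK c44 a44_1 a44_2 a44_3 q44 c47 a47_1 a47_2 a47_3 q47 fun c49 a49_1 a49_2 a49_3 q49 =>
  addK c38 a38_1 a38_2 a38_3 q38 c49 a49_1 a49_2 a49_3 q49 fun c51 a51_1 a51_2 a51_3 q51 =>
  sqrtK c51 a51_1 a51_2 a51_3 q51 fun c52 a52_1 a52_2 a52_3 q52 =>
  smulK 2 1 1152921504606846977 2305843009213693952 c52 a52_1 a52_2 a52_3 q52 fun c54 a54_1 a54_2 a54_3 q54 =>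
  addK c22 a22_1 a22_2 a22_3 q22 c54 a54_1 a54_2 a54_3 q54 fun c55 a55_1 a55_2 a55_3 q55 =>
  sqrtK c55 a55_1 a55_2 a55_3 q55 fun c56 a56_1 a56_2 a56_3 q56 =>
  addK c56 a56_1 a56_2 a56_3 q56 c29 a29_1 a29_2 a29_3 q29 fun c58 a58_1 a58_2 a58_3 q58 =>
  addK c58 a58_1 a58_2 a58_3 q58 c34 a34_1 a34_2 a34_3 q34 fun c59 a59_1 a59_2 a59_3 q59 =>
  addK c52 a52_1 a52_2 a52_3 q52 c36 a36_1 a36_2 a36_3 q36 fun c61 a61_1 a61_2 a61_3 q61 =>
  mulK c59 a59_1 a59_2 a59_3 q59 c61 a61_1 a61_2 a61_3 q61 fun c62 a62_1 a62_2 a62_3 q62 =>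
  invK c62 a62_1 a62_2 a62_3 q62 fun c63 a63_1 a63_2 a63_3 q63 =>
  subK c22 a22_1 a22_2 a22_3 q22 c36 a36_1 a36_2 a36_3 q36 fun c64 a64_1 a64_2 a64_3 q64 =>
  smulK 2 1 1152921504606846977 2305843009213693952 c64 a64_1 a64_2 a64_3 q64 fun c65 a65_1 a65_2 a65_3 q65 =>
  mulK c56 a56_1 a56_2 a56_3 q56 c59 a59_1 a59_2 a59_3 q59 fun c66 a66_1 a66_2 a66_3 q66 =>
  subK c65 a65_1 a65_2 a65_3 q65 c66 a66_1 a66_2 a66_3 q66 fun c67 a67_1 a67_2 a67_3 q67 =>
  smulK 2479 5000 5764607523034234885000 2858092409920373653504 c67 a67_1 a67_2 a67_3 q67 fun c68 a68_1 a68_2 a68_3 q68 =>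
  negK c68 a68_1 a68_2 a68_3 q68 fun c69 a69_1 a69_2 a69_3 q69 =>
  addcK c69 a69_1 a69_2 a69_3 q69 1152925902653358080 0 fun c71 a71_1 a71_2 a71_3 q71 =>
  mulK c71 a71_1 a71_2 a71_3 q71 c63 a63_1 a63_2 a63_3 q63 fun c73 a73_1 a73_2 a73_3 q73 =>
  smulK 1971 10000 11529215046068469770000 2272408285580095389696 c22 a22_1 a22_2 a22_3 q22 fun c75 a75_1 a75_2 a75_3 q75 =>
  negK c75 a75_1 a75_2 a75_3 q75 fun c76 a76_1 a76_2 a76_3 q76 =>
  negK c76 a76_1 a76_2 a76_3 q76 fun c78 a78_1 a78_2 a78_3 q78 =>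
  addcK c78 a78_1 a78_2 a78_3 q78 1152920892838577281 1 fun c79 a79_1 a79_2 a79_3 q79 =>
  smulK 2 1 1152921504606846977 2305843009213693952 c38 a38_1 a38_2 a38_3 q38 fun c81 a81_1 a81_2 a81_3 q81 =>
  addK c81 a81_1 a81_2 a81_3 q81 c49 a49_1 a49_2 a49_3 q49 fun c82 a82_1 a82_2 a82_3 q82 =>
  smulK 2 1 1152921504606846977 2305843009213693952 c82 a82_1 a82_2 a82_3 q82 fun c83 a83_1 a83_2 a83_3 q83 =>
  sqK c22 a22_1 a22_2 a22_3 q22 fun c84 a84_1 a84_2 a84_3 q84 =>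
  smulK 4 1 1152921504606846977 4611686018427387904 c84 a84_1 a84_2 a84_3 q84 fun c86 a86_1 a86_2 a86_3 q86 =>
  subK c83 a83_1 a83_2 a83_3 q83 c86 a86_1 a86_2 a86_3 q86 fun c87 a87_1 a87_2 a87_3 q87 =>
  smulK 24 625 720575940379279360625 27670116110564327424 c87 a87_1 a87_2 a87_3 q87 fun c88 a88_1 a88_2 a88_3 q88 =>
  addK c79 a79_1 a79_2 a79_3 q79 c88 a88_1 a88_2 a88_3 q88 fun c89 a89_1 a89_2 a89_3 q89 =>
  addK c73 a73_1 a73_2 a73_3 q73 c89 a89_1 a89_2 a89_3 q89 fun c91 a91_1 a91_2 a91_3 q91 =>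
  mulK z1 (Nat.add w1 1152921504606846976) 1152921504606846976 1152921504606846976 0 c91 a91_1 a91_2 a91_3 q91 fun c92 a92_1 a92_2 a92_3 q92 =>
  addK c3 a3_1 a3_2 a3_3 q3 c44 a44_1 a44_2 a44_3 q44 fun c93 a93_1 a93_2 a93_3 q93 =>
  sqrtK c93 a93_1 a93_2 a93_3 q93 fun c94 a94_1 a94_2 a94_3 q94 =>
  smulK 2 1 1152921504606846977 2305843009213693952 c94 a94_1 a94_2 a94_3 q94 fun c96 a96_1 a96_2 a96_3 q96 =>
  addK c18 a18_1 a18_2 a18_3 q18 c96 a96_1 a96_2 a96_3 q96 fun c97 a97_1 a97_2 a97_3 q97 =>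
  sqrtK c97 a97_1 a97_2 a97_3 q97 fun c98 a98_1 a98_2 a98_3 q98 =>
  addcK z2 1152921504606846976 (Nat.add w2 1152921504606846976) 1152921504606846976 0 1152922604118474752 0 fun c100 a100_1 a100_2 a100_3 q100 =>
  addK c98 a98_1 a98_2 a98_3 q98 c100 a100_1 a100_2 a100_3 q100 fun c102 a102_1 a102_2 a102_3 q102 =>
  invK c102 a102_1 a102_2 a102_3 q102 fun c103 a103_1 a103_2 a103_3 q103 =>
  mulK c98 a98_1 a98_2 a98_3 q98 c100 a100_1 a100_2 a100_3 q100 fun c104 a104_1 a104_2 a104_3 q104 =>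
  addK c104 a104_1 a104_2 a104_3 q104 c18 a18_1 a18_2 a18_3 q18 fun c105 a105_1 a105_2 a105_3 q105 =>
  invK c105 a105_1 a105_2 a105_3 q105 fun c106 a106_1 a106_2 a106_3 q106 =>
  addK c18 a18_1 a18_2 a18_3 q18 z2 1152921504606846976 (Nat.add w2 1152921504606846976) 1152921504606846976 0 fun c107 a107_1 a107_2 a107_3 q107 =>
  mulK c107 a107_1 a107_2 a107_3 q107 c106 a106_1 a106_2 a106_3 q106 fun c108 a108_1 a108_2 a108_3 q108 =>
  addcK c108 a108_1 a108_2 a108_3 q108 1152922604118474752 0 fun c110 a110_1 a110_2 a110_3 q110 =>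
  mulK c110 a110_1 a110_2 a110_3 q110 c103 a103_1 a103_2 a103_3 q103 fun c112 a112_1 a112_2 a112_3 q112 =>
  addK c92 a92_1 a92_2 a92_3 q92 c112 a112_1 a112_2 a112_3 q112 fun c115 a115_1 a115_2 a115_3 q115 =>
  mulK c16 a16_1 a16_2 a16_3 q16 c115 a115_1 a115_2 a115_3 q115 fun c117 a117_1 a117_2 a117_3 q117 =>
  smulK 1 4 4611686018427387908 1152921504606846976 c117 a117_1 a117_2 a117_3 q117 fun c118 a118_1 a118_2 a118_3 q118 =>
  smulK 3 5 5764607523034234885 3458764513820540928 z3 1152921504606846976 1152921504606846976 (Nat.add w3 1152921504606846976) 0 fun c121 a121_1 a121_2 a121_3 q121 =>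
  addcK c121 a121_1 a121_2 a121_3 q121 1152921394655684198 1 fun c122 a122_1 a122_2 a122_3 q122 =>
  mulK z2 1152921504606846976 (Nat.add w2 1152921504606846976) 1152921504606846976 0 z1 (Nat.add w1 1152921504606846976) 1152921504606846976 1152921504606846976 0 fun c124 a124_1 a124_2 a124_3 q124 =>
  addcK c124 a124_1 a124_2 a124_3 q124 1152922604118474752 0 fun c125 a125_1 a125_2 a125_3 q125 =>
  addcK c29 a29_1 a29_2 a29_3 q29 1152922604118474752 0 fun c127 a127_1 a127_2 a127_3 q127 =>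
  invK c127 a127_1 a127_2 a127_3 q127 fun c129 a129_1 a129_2 a129_3 q129 =>
  mulK c125 a125_1 a125_2 a125_3 q125 c129 a129_1 a129_2 a129_3 q129 fun c132 a132_1 a132_2 a132_3 q132 =>
  negK c132 a132_1 a132_2 a132_3 q132 fun c133 a133_1 a133_2 a133_3 q133 =>
  addcK c133 a133_1 a133_2 a133_3 q133 1152923703630102528 0 fun c134 a134_1 a134_2 a134_3 q134 =>
  mulK c3 a3_1 a3_2 a3_3 q3 c134 a134_1 a134_2 a134_3 q134 fun c137 a137_1 a137_2 a137_3 q137 =>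
  mulK c122 a122_1 a122_2 a122_3 q122 c137 a137_1 a137_2 a137_3 q137 fun c139 a139_1 a139_2 a139_3 q139 =>
  negK c121 a121_1 a121_2 a121_3 q121 fun c140 a140_1 a140_2 a140_3 q140 =>
  addcK c140 a140_1 a140_2 a140_3 q140 1152922615113591030 1 fun c141 a141_1 a141_2 a141_3 q141 =>
  addcK z1 (Nat.add w1 1152921504606846976) 1152921504606846976 1152921504606846976 0 1152922604118474752 0 fun c143 a143_1 a143_2 a143_3 q143 =>
  addcK c34 a34_1 a34_2 a34_3 q34 1152922604118474752 0 fun c145 a145_1 a145_2 a145_3 q145 =>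
  invK c145 a145_1 a145_2 a145_3 q145 fun c147 a147_1 a147_2 a147_3 q147 =>
  mulK c143 a143_1 a143_2 a143_3 q143 c147 a147_1 a147_2 a147_3 q147 fun c150 a150_1 a150_2 a150_3 q150 =>
  negK c150 a150_1 a150_2 a150_3 q150 fun c151 a151_1 a151_2 a151_3 q151 =>
  addcK c151 a151_1 a151_2 a151_3 q151 1152923703630102528 0 fun c152 a152_1 a152_2 a152_3 q152 =>
  mulK c141 a141_1 a141_2 a141_3 q141 c152 a152_1 a152_2 a152_3 q152 fun c155 a155_1 a155_2 a155_3 q155 =>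
  addK c139 a139_1 a139_2 a139_3 q139 c155 a155_1 a155_2 a155_3 q155 fun c156 a156_1 a156_2 a156_3 q156 =>
  mulK c13 a13_1 a13_2 a13_3 q13 c156 a156_1 a156_2 a156_3 q156 fun c157 a157_1 a157_2 a157_3 q157 =>
  negK c13 a13_1 a13_2 a13_3 q13 fun c158 a158_1 a158_2 a158_3 q158 =>
  addcK c158 a158_1 a158_2 a158_3 q158 1152922604118474752 0 fun c159 a159_1 a159_2 a159_3 q159 =>
  smulK 9 1000 1152921504606846977000 10376293541461622784 c159 a159_1 a159_2 a159_3 q159 fun c161 a161_1 a161_2 a161_3 q161 =>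
  addK c157 a157_1 a157_2 a157_3 q157 c161 a161_1 a161_2 a161_3 q161 fun c162 a162_1 a162_2 a162_3 q162 =>
  smulK 2 1 1152921504606846977 2305843009213693952 c162 a162_1 a162_2 a162_3 q162 fun c164 a164_1 a164_2 a164_3 q164 =>
  addK c118 a118_1 a118_2 a118_3 q118 c164 a164_1 a164_2 a164_3 q164 fun c165 a165_1 a165_2 a165_3 q165 =>
  posK c165 a165_1 a165_2 a165_3 q165 <|
  mulK c115 a115_1 a115_2 a115_3 q115 c165 a165_1 a165_2 a165_3 q165 fun c167 a167_1 a167_2 a167_3 q167 =>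
  smulK 4 1 1152921504606846977 4611686018427387904 z1 (Nat.add w1 1152921504606846976) 1152921504606846976 1152921504606846976 0 fun c168 a168_1 a168_2 a168_3 q168 =>
  addK c29 a29_1 a29_2 a29_3 q29 c34 a34_1 a34_2 a34_3 q34 fun c169 a169_1 a169_2 a169_3 q169 =>
  invK c169 a169_1 a169_2 a169_3 q169 fun c170 a170_1 a170_2 a170_3 q170 =>
  addcK c170 a170_1 a170_2 a170_3 q170 1152919305583591424 0 fun c172 a172_1 a172_2 a172_3 q172 =>
  mulK c29 a29_1 a29_2 a29_3 q29 z2 1152921504606846976 (Nat.add w2 1152921504606846976) 1152921504606846976 0 fun c174 a174_1 a174_2 a174_3 q174 =>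
  addK c174 a174_1 a174_2 a174_3 q174 c34 a34_1 a34_2 a34_3 q34 fun c175 a175_1 a175_2 a175_3 q175 =>
  mulK c175 a175_1 a175_2 a175_3 q175 c100 a100_1 a100_2 a100_3 q100 fun c176 a176_1 a176_2 a176_3 q176 =>
  invK c176 a176_1 a176_2 a176_3 q176 fun c177 a177_1 a177_2 a177_3 q177 =>
  negK c129 a129_1 a129_2 a129_3 q129 fun c178 a178_1 a178_2 a178_3 q178 =>
  addcK c178 a178_1 a178_2 a178_3 q178 1152922604118474752 0 fun c179 a179_1 a179_2 a179_3 q179 =>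
  mulK c3 a3_1 a3_2 a3_3 q3 c179 a179_1 a179_2 a179_3 q179 fun c181 a181_1 a181_2 a181_3 q181 =>
  addcK c181 a181_1 a181_2 a181_3 q181 1152922604118474752 0 fun c182 a182_1 a182_2 a182_3 q182 =>
  mulK z2 1152921504606846976 (Nat.add w2 1152921504606846976) 1152921504606846976 0 c182 a182_1 a182_2 a182_3 q182 fun c184 a184_1 a184_2 a184_3 q184 =>
  addK c184 a184_1 a184_2 a184_3 q184 c3 a3_1 a3_2 a3_3 q3 fun c185 a185_1 a185_2 a185_3 q185 =>
  negK c147 a147_1 a147_2 a147_3 q147 fun c186 a186_1 a186_2 a186_3 q186 =>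
  addcK c186 a186_1 a186_2 a186_3 q186 1152922604118474752 0 fun c187 a187_1 a187_2 a187_3 q187 =>
  addK c185 a185_1 a185_2 a185_3 q185 c187 a187_1 a187_2 a187_3 q187 fun c189 a189_1 a189_2 a189_3 q189 =>
  mulK c189 a189_1 a189_2 a189_3 q189 c177 a177_1 a177_2 a177_3 q177 fun c190 a190_1 a190_2 a190_3 q190 =>
  mulK z1 (Nat.add w1 1152921504606846976) 1152921504606846976 1152921504606846976 0 c190 a190_1 a190_2 a190_3 q190 fun c192 a192_1 a192_2 a192_3 q192 =>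
  addK c172 a172_1 a172_2 a172_3 q172 c192 a192_1 a192_2 a192_3 q192 fun c193 a193_1 a193_2 a193_3 q193 =>
  smulK 14 25 28823037615171174425 16140901064495857664 c193 a193_1 a193_2 a193_3 q193 fun c194 a194_1 a194_2 a194_3 q194 =>
  addcK c194 a194_1 a194_2 a194_3 q194 1152922604118474752 0 fun c195 a195_1 a195_2 a195_3 q195 =>
  sqK c195 a195_1 a195_2 a195_3 q195 fun c198 a198_1 a198_2 a198_3 q198 =>
  mulK c168 a168_1 a168_2 a168_3 q168 c198 a198_1 a198_2 a198_3 q198 fun c200 a200_1 a200_2 a200_3 q200 =>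
  subK c167 a167_1 a167_2 a167_3 q167 c200 a200_1 a200_2 a200_3 q200 fun c201 a201_1 a201_2 a201_3 q201 =>
  pos c201 a201_1 a201_2 a201_3 q201

theorem alt0_s {z1 w1 z2 w2 z3 w3 : ℕ} {e1 e2 e3 T c s : ℝ} (he : Ev e1 e2 e3)
    (hx1 : In e1 e2 e3 z1 (Nat.add w1 1152921504606846976) 1152921504606846976 1152921504606846976 0 T)
    (hx2 : In e1 e2 e3 z2 1152921504606846976 (Nat.add w2 1152921504606846976) 1152921504606846976 0 c)
    (hx3 : In e1 e2 e3 z3 1152921504606846976 1152921504606846976 (Nat.add w3 1152921504606846976) 0 s)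
    (H0 : alt0 z1 w1 z2 w2 z3 w3 = true) : 0 < (a T c s) ∧ 0 < (((G T c s) * (a T c s)) - (((4:ℝ) * T) * ((Z T c s) * (Z T c s)))) := by
  unfold alt0 at H0
  refine sqK_s he hx3 (fun _ _ _ _ _ h1 H1 => ?_) H0
  have h2 := In_cast h1 (sq _)
  refine sqK_s he hx2 (fun _ _ _ _ _ h3 H2 => ?_) H1
  have h4 := In_cast h3 (sq _)
  have h5 := In_cast (w := (c2 T c s)) h4 rfl
  refine negK_s he h5 (fun _ _ _ _ _ h6 H3 => ?_) H2
  refine addcK_s he h6 (v' := (1:ℝ)) (by norm_num [SS, BB, abs_le]) (fun _ _ _ _ _ h7 H4 => ?_) H3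
  have h8 := In_cast h7 (neg_add_eq_sub _ _)
  have h9 := In_cast (w := (d T c s)) h8 rfl
  refine sqK_s he h9 (fun _ _ _ _ _ h10 H5 => ?_) H4
  have h11 := In_cast h10 (sq _)
  refine mulK_s he h2 h11 (fun _ _ _ _ _ h12 H6 => ?_) H5
  refine sqK_s he hx1 (fun _ _ _ _ _ h13 H7 => ?_) H6
  have h14 := In_cast h13 (sq _)
  refine mulK_s he h14 hx1 (fun _ _ _ _ _ h15 H8 => ?_) H7
  refine mulK_s he h12 h15 (fun _ _ _ _ _ h16 H9 => ?_) H8
  have h17 := In_cast (w := (T2 T c s)) h14 rfl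
  refine addcK_s he h5 (v' := (1:ℝ)) (by norm_num [SS, BB, abs_le]) (fun _ _ _ _ _ h18 H10 => ?_) H9
  have h19 := In_cast h18 (add_comm _ _)
  refine mulK_s he h17 h19 (fun _ _ _ _ _ h20 H11 => ?_) H10
  refine negK_s he h20 (fun _ _ _ _ _ h21 H12 => ?_) H11
  refine addcK_s he h21 (v' := (2:ℝ)) (by norm_num [SS, BB, abs_le]) (fun _ _ _ _ _ h22 H13 => ?_) H12
  have h23 := In_cast h22 (neg_add_eq_sub _ _)
  have h24 := In_cast (w := (P T c s)) h23 rfl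
  refine mulK_s he h5 h17 (fun _ _ _ _ _ h25 H14 => ?_) H13
  refine negK_s he h25 (fun _ _ _ _ _ h26 H15 => ?_) H14
  refine addcK_s he h26 (v' := (1:ℝ)) (by norm_num [SS, BB, abs_le]) (fun _ _ _ _ _ h27 H16 => ?_) H15
  have h28 := In_cast h27 (neg_add_eq_sub _ _)
  refine sqrtK_s he h28 (fun _ _ _ _ _ h29 H17 => ?_) H16
  have h30 := In_cast (w := (r0 T c s)) h29 rfl
  refine negK_s he h17 (fun _ _ _ _ _ h31 H18 => ?_) H17
  refine addcK_s he h31 (v' := (1:ℝ)) (by norm_num [SS, BB, abs_le]) (fun _ _ _ _ _ h32 H19 => ?_) H18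
  have h33 := In_cast h32 (neg_add_eq_sub _ _)
  refine sqrtK_s he h33 (fun _ _ _ _ _ h34 H20 => ?_) H19
  have h35 := In_cast (w := (r1 T c s)) h34 rfl
  refine mulK_s he h30 h35 (fun _ _ _ _ _ h36 H21 => ?_) H20
  have h37 := In_cast (w := (pi0 T c s)) h36 rfl
  refine sqK_s he h37 (fun _ _ _ _ _ h38 H22 => ?_) H21
  have h39 := In_cast h38 (sq _)
  refine mulK_s he hx3 h9 (fun _ _ _ _ _ h40 H23 => ?_) H22
  refine smulK_s he (w := (1/2:ℝ)) (by norm_num) (by norm_num) (by norm_num) (by norm_num) h40 (fun _ _ _ _ _ h41 H24 => ?_) H23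
  have h42 := In_cast h41 (div_c (c := (2:ℝ)) (by norm_num))
  have h43 := In_cast (w := (hh T c s)) h42 rfl
  refine sqK_s he h43 (fun _ _ _ _ _ h44 H25 => ?_) H24
  have h45 := In_cast h44 (sq _)
  have h46 := In_cast (w := (hq T c s)) h45 rfl
  refine sqK_s he h17 (fun _ _ _ _ _ h47 H26 => ?_) H25
  have h48 := In_cast h47 (sq _)
  refine mulK_s he h46 h48 (fun _ _ _ _ _ h49 H27 => ?_) H26
  have h50 := In_cast (w := (w T c s)) h49 rfl
  refine addK_s he h39 h50 (fun _ _ _ _ _ h51 H28 => ?_) H27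
  refine sqrtK_s he h51 (fun _ _ _ _ _ h52 H29 => ?_) H28
  have h53 := In_cast (w := (pi T c s)) h52 rfl
  refine smulK_s he (w := (2:ℝ)) (by norm_num) (by norm_num) (by norm_num) (by norm_num) h53 (fun _ _ _ _ _ h54 H30 => ?_) H29
  refine addK_s he h24 h54 (fun _ _ _ _ _ h55 H31 => ?_) H30
  refine sqrtK_s he h55 (fun _ _ _ _ _ h56 H32 => ?_) H31
  have h57 := In_cast (w := (sg T c s)) h56 rfl
  refine addK_s he h57 h30 (fun _ _ _ _ _ h58 H33 => ?_) H32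
  refine addK_s he h58 h35 (fun _ _ _ _ _ h59 H34 => ?_) H33
  have h60 := In_cast (w := (ss T c s)) h59 rfl
  refine addK_s he h53 h37 (fun _ _ _ _ _ h61 H35 => ?_) H34
  refine mulK_s he h60 h61 (fun _ _ _ _ _ h62 H36 => ?_) H35
  refine invK_s he h62 (fun _ _ _ _ _ h63 H37 => ?_) H36
  refine subK_s he h24 h37 (fun _ _ _ _ _ h64 H38 => ?_) H37
  refine smulK_s he (w := (2:ℝ)) (by norm_num) (by norm_num) (by norm_num) (by norm_num) h64 (fun _ _ _ _ _ h65 H39 => ?_) H38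
  refine mulK_s he h57 h60 (fun _ _ _ _ _ h66 H40 => ?_) H39
  refine subK_s he h65 h66 (fun _ _ _ _ _ h67 H41 => ?_) H40
  refine smulK_s he (w := (2479/5000:ℝ)) (by norm_num) (by norm_num) (by norm_num) (by norm_num) h67 (fun _ _ _ _ _ h68 H42 => ?_) H41
  refine negK_s he h68 (fun _ _ _ _ _ h69 H43 => ?_) H42
  have h70 := In_cast h69 (neg_mul_c (c := (-2479/5000:ℝ)) (by norm_num))
  refine addcK_s he h70 (v' := (4:ℝ)) (by norm_num [SS, BB, abs_le]) (fun _ _ _ _ _ h71 H44 => ?_) H43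
  have h72 := In_cast h71 (add_comm _ _)
  refine mulK_s he h72 h63 (fun _ _ _ _ _ h73 H45 => ?_) H44
  have h74 := In_cast h73 ((div_eq_mul_inv _ _).symm)
  refine smulK_s he (w := (1971/10000:ℝ)) (by norm_num) (by norm_num) (by norm_num) (by norm_num) h24 (fun _ _ _ _ _ h75 H46 => ?_) H45
  refine negK_s he h75 (fun _ _ _ _ _ h76 H47 => ?_) H46
  have h77 := In_cast h76 (neg_mul_c (c := (-1971/10000:ℝ)) (by norm_num))
  refine negK_s he h77 (fun _ _ _ _ _ h78 H48 => ?_) H47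
  refine addcK_s he h78 (v' := (-1391/2500:ℝ)) (by norm_num [SS, BB, abs_le]) (fun _ _ _ _ _ h79 H49 => ?_) H48
  have h80 := In_cast h79 (neg_add_eq_sub _ _)
  refine smulK_s he (w := (2:ℝ)) (by norm_num) (by norm_num) (by norm_num) (by norm_num) h39 (fun _ _ _ _ _ h81 H50 => ?_) H49
  refine addK_s he h81 h50 (fun _ _ _ _ _ h82 H51 => ?_) H50
  refine smulK_s he (w := (2:ℝ)) (by norm_num) (by norm_num) (by norm_num) (by norm_num) h82 (fun _ _ _ _ _ h83 H52 => ?_) H51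
  refine sqK_s he h24 (fun _ _ _ _ _ h84 H53 => ?_) H52
  have h85 := In_cast h84 (sq _)
  refine smulK_s he (w := (4:ℝ)) (by norm_num) (by norm_num) (by norm_num) (by norm_num) h85 (fun _ _ _ _ _ h86 H54 => ?_) H53
  refine subK_s he h83 h86 (fun _ _ _ _ _ h87 H55 => ?_) H54
  refine smulK_s he (w := (24/625:ℝ)) (by norm_num) (by norm_num) (by norm_num) (by norm_num) h87 (fun _ _ _ _ _ h88 H56 => ?_) H55
  refine addK_s he h80 h88 (fun _ _ _ _ _ h89 H57 => ?_) H56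
  have h90 := In_cast (w := (Gp T c s)) h89 rfl
  refine addK_s he h74 h90 (fun _ _ _ _ _ h91 H58 => ?_) H57
  refine mulK_s he hx1 h91 (fun _ _ _ _ _ h92 H59 => ?_) H58
  refine addK_s he h5 h46 (fun _ _ _ _ _ h93 H60 => ?_) H59
  refine sqrtK_s he h93 (fun _ _ _ _ _ h94 H61 => ?_) H60
  have h95 := In_cast (w := (b T c s)) h94 rfl
  refine smulK_s he (w := (2:ℝ)) (by norm_num) (by norm_num) (by norm_num) (by norm_num) h95 (fun _ _ _ _ _ h96 H62 => ?_) H61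
  refine addK_s he h19 h96 (fun _ _ _ _ _ h97 H63 => ?_) H62
  refine sqrtK_s he h97 (fun _ _ _ _ _ h98 H64 => ?_) H63
  have h99 := In_cast (w := (v T c s)) h98 rfl
  refine addcK_s he hx2 (v' := (1:ℝ)) (by norm_num [SS, BB, abs_le]) (fun _ _ _ _ _ h100 H65 => ?_) H64
  have h101 := In_cast h100 (add_comm _ _)
  refine addK_s he h99 h101 (fun _ _ _ _ _ h102 H66 => ?_) H65
  refine invK_s he h102 (fun _ _ _ _ _ h103 H67 => ?_) H66
  refine mulK_s he h99 h101 (fun _ _ _ _ _ h104 H68 => ?_) H67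
  refine addK_s he h104 h19 (fun _ _ _ _ _ h105 H69 => ?_) H68
  refine invK_s he h105 (fun _ _ _ _ _ h106 H70 => ?_) H69
  refine addK_s he h19 hx2 (fun _ _ _ _ _ h107 H71 => ?_) H70
  refine mulK_s he h107 h106 (fun _ _ _ _ _ h108 H72 => ?_) H71
  have h109 := In_cast h108 ((div_eq_mul_inv _ _).symm)
  refine addcK_s he h109 (v' := (1:ℝ)) (by norm_num [SS, BB, abs_le]) (fun _ _ _ _ _ h110 H73 => ?_) H72
  have h111 := In_cast h110 (add_comm _ _)
  refine mulK_s he h111 h103 (fun _ _ _ _ _ h112 H74 => ?_) H73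
  have h113 := In_cast h112 ((div_eq_mul_inv _ _).symm)
  have h114 := In_cast (w := (GW T c s)) h113 rfl
  refine addK_s he h92 h114 (fun _ _ _ _ _ h115 H75 => ?_) H74
  have h116 := In_cast (w := (G T c s)) h115 rfl
  refine mulK_s he h16 h116 (fun _ _ _ _ _ h117 H76 => ?_) H75
  refine smulK_s he (w := (1/4:ℝ)) (by norm_num) (by norm_num) (by norm_num) (by norm_num) h117 (fun _ _ _ _ _ h118 H77 => ?_) H76
  have h119 := In_cast h118 (div_c (c := (4:ℝ)) (by norm_num))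
  have h120 := In_cast (w := (g T c s)) h119 rfl
  refine smulK_s he (w := (3/5:ℝ)) (by norm_num) (by norm_num) (by norm_num) (by norm_num) hx3 (fun _ _ _ _ _ h121 H78 => ?_) H77
  refine addcK_s he h121 (v' := (-1/10:ℝ)) (by norm_num [SS, BB, abs_le]) (fun _ _ _ _ _ h122 H79 => ?_) H78
  have h123 := In_cast h122 (sub_c (c := (1/10:ℝ)) (by norm_num))
  refine mulK_s he hx2 hx1 (fun _ _ _ _ _ h124 H80 => ?_) H79
  refine addcK_s he h124 (v' := (1:ℝ)) (by norm_num [SS, BB, abs_le]) (fun _ _ _ _ _ h125 H81 => ?_) H80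
  have h126 := In_cast h125 (add_comm _ _)
  refine addcK_s he h30 (v' := (1:ℝ)) (by norm_num [SS, BB, abs_le]) (fun _ _ _ _ _ h127 H82 => ?_) H81
  have h128 := In_cast h127 (add_comm _ _)
  refine invK_s he h128 (fun _ _ _ _ _ h129 H83 => ?_) H82
  have h130 := In_cast h129 (inv_eq_one_div _)
  have h131 := In_cast (w := (i0 T c s)) h130 rfl
  refine mulK_s he h126 h131 (fun _ _ _ _ _ h132 H84 => ?_) H83
  refine negK_s he h132 (fun _ _ _ _ _ h133 H85 => ?_) H84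
  refine addcK_s he h133 (v' := (2:ℝ)) (by norm_num [SS, BB, abs_le]) (fun _ _ _ _ _ h134 H86 => ?_) H85
  have h135 := In_cast h134 (neg_add_eq_sub _ _)
  have h136 := In_cast (w := (U0 T c s)) h135 rfl
  refine mulK_s he h5 h136 (fun _ _ _ _ _ h137 H87 => ?_) H86
  have h138 := In_cast (w := (V0 T c s)) h137 rfl
  refine mulK_s he h123 h138 (fun _ _ _ _ _ h139 H88 => ?_) H87
  refine negK_s he h121 (fun _ _ _ _ _ h140 H89 => ?_) H88
  refine addcK_s he h140 (v' := (101/100:ℝ)) (by norm_num [SS, BB, abs_le]) (fun _ _ _ _ _ h141 H90 => ?_) H89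
  have h142 := In_cast h141 (neg_add_eq_sub _ _)
  refine addcK_s he hx1 (v' := (1:ℝ)) (by norm_num [SS, BB, abs_le]) (fun _ _ _ _ _ h143 H91 => ?_) H90
  have h144 := In_cast h143 (add_comm _ _)
  refine addcK_s he h35 (v' := (1:ℝ)) (by norm_num [SS, BB, abs_le]) (fun _ _ _ _ _ h145 H92 => ?_) H91
  have h146 := In_cast h145 (add_comm _ _)
  refine invK_s he h146 (fun _ _ _ _ _ h147 H93 => ?_) H92
  have h148 := In_cast h147 (inv_eq_one_div _)
  have h149 := In_cast (w := (i1 T c s)) h148 rfl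
  refine mulK_s he h144 h149 (fun _ _ _ _ _ h150 H94 => ?_) H93
  refine negK_s he h150 (fun _ _ _ _ _ h151 H95 => ?_) H94
  refine addcK_s he h151 (v' := (2:ℝ)) (by norm_num [SS, BB, abs_le]) (fun _ _ _ _ _ h152 H96 => ?_) H95
  have h153 := In_cast h152 (neg_add_eq_sub _ _)
  have h154 := In_cast (w := (U1 T c s)) h153 rfl
  refine mulK_s he h142 h154 (fun _ _ _ _ _ h155 H97 => ?_) H96
  refine addK_s he h139 h155 (fun _ _ _ _ _ h156 H98 => ?_) H97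
  refine mulK_s he h14 h156 (fun _ _ _ _ _ h157 H99 => ?_) H98
  refine negK_s he h14 (fun _ _ _ _ _ h158 H100 => ?_) H99
  refine addcK_s he h158 (v' := (1:ℝ)) (by norm_num [SS, BB, abs_le]) (fun _ _ _ _ _ h159 H101 => ?_) H100
  have h160 := In_cast h159 (neg_add_eq_sub _ _)
  refine smulK_s he (w := (9/1000:ℝ)) (by norm_num) (by norm_num) (by norm_num) (by norm_num) h160 (fun _ _ _ _ _ h161 H102 => ?_) H101
  refine addK_s he h157 h161 (fun _ _ _ _ _ h162 H103 => ?_) H102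
  have h163 := In_cast (w := (L T c s)) h162 rfl
  refine smulK_s he (w := (2:ℝ)) (by norm_num) (by norm_num) (by norm_num) (by norm_num) h163 (fun _ _ _ _ _ h164 H104 => ?_) H103
  refine addK_s he h120 h164 (fun _ _ _ _ _ h165 H105 => ?_) H104
  have h166 := In_cast (w := (a T c s)) h165 rfl
  refine posK_s he h166 (fun p0 H106 => ?_) H105
  refine mulK_s he h116 h166 (fun _ _ _ _ _ h167 H107 => ?_) H106
  refine smulK_s he (w := (4:ℝ)) (by norm_num) (by norm_num) (by norm_num) (by norm_num) hx1 (fun _ _ _ _ _ h168 H108 => ?_) H107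
  refine addK_s he h30 h35 (fun _ _ _ _ _ h169 H109 => ?_) H108
  refine invK_s he h169 (fun _ _ _ _ _ h170 H110 => ?_) H109
  have h171 := In_cast h170 (inv_eq_one_div _)
  refine addcK_s he h171 (v' := (-2:ℝ)) (by norm_num [SS, BB, abs_le]) (fun _ _ _ _ _ h172 H111 => ?_) H110
  have h173 := In_cast h172 (sub_c (c := (2:ℝ)) (by norm_num))
  refine mulK_s he h30 hx2 (fun _ _ _ _ _ h174 H112 => ?_) H111
  refine addK_s he h174 h35 (fun _ _ _ _ _ h175 H113 => ?_) H112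
  refine mulK_s he h175 h101 (fun _ _ _ _ _ h176 H114 => ?_) H113
  refine invK_s he h176 (fun _ _ _ _ _ h177 H115 => ?_) H114
  refine negK_s he h131 (fun _ _ _ _ _ h178 H116 => ?_) H115
  refine addcK_s he h178 (v' := (1:ℝ)) (by norm_num [SS, BB, abs_le]) (fun _ _ _ _ _ h179 H117 => ?_) H116
  have h180 := In_cast h179 (neg_add_eq_sub _ _)
  refine mulK_s he h5 h180 (fun _ _ _ _ _ h181 H118 => ?_) H117
  refine addcK_s he h181 (v' := (1:ℝ)) (by norm_num [SS, BB, abs_le]) (fun _ _ _ _ _ h182 H119 => ?_) H118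
  have h183 := In_cast h182 (add_comm _ _)
  refine mulK_s he hx2 h183 (fun _ _ _ _ _ h184 H120 => ?_) H119
  refine addK_s he h184 h5 (fun _ _ _ _ _ h185 H121 => ?_) H120
  refine negK_s he h149 (fun _ _ _ _ _ h186 H122 => ?_) H121
  refine addcK_s he h186 (v' := (1:ℝ)) (by norm_num [SS, BB, abs_le]) (fun _ _ _ _ _ h187 H123 => ?_) H122
  have h188 := In_cast h187 (neg_add_eq_sub _ _)
  refine addK_s he h185 h188 (fun _ _ _ _ _ h189 H124 => ?_) H123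
  refine mulK_s he h189 h177 (fun _ _ _ _ _ h190 H125 => ?_) H124
  have h191 := In_cast h190 ((div_eq_mul_inv _ _).symm)
  refine mulK_s he hx1 h191 (fun _ _ _ _ _ h192 H126 => ?_) H125
  refine addK_s he h173 h192 (fun _ _ _ _ _ h193 H127 => ?_) H126
  refine smulK_s he (w := (14/25:ℝ)) (by norm_num) (by norm_num) (by norm_num) (by norm_num) h193 (fun _ _ _ _ _ h194 H128 => ?_) H127
  refine addcK_s he h194 (v' := (1:ℝ)) (by norm_num [SS, BB, abs_le]) (fun _ _ _ _ _ h195 H129 => ?_) H128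
  have h196 := In_cast h195 (add_comm _ _)
  have h197 := In_cast (w := (Z T c s)) h196 rfl
  refine sqK_s he h197 (fun _ _ _ _ _ h198 H130 => ?_) H129
  have h199 := In_cast h198 (sq _)
  refine mulK_s he h168 h199 (fun _ _ _ _ _ h200 H131 => ?_) H130
  refine subK_s he h167 h200 (fun _ _ _ _ _ h201 H132 => ?_) H131
  exact ⟨p0, pos_s he h201 H132⟩

noncomputable def alt1 (z1 w1 z2 w2 z3 w3 : ℕ) : Bool :=
  sqK z3 1152921504606846976 1152921504606846976 (Nat.add w3 1152921504606846976) 0 fun c1 a1_1 a1_2 a1_3 q1 =>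
  sqK z2 1152921504606846976 (Nat.add w2 1152921504606846976) 1152921504606846976 0 fun c3 a3_1 a3_2 a3_3 q3 =>
  negK c3 a3_1 a3_2 a3_3 q3 fun c6 a6_1 a6_2 a6_3 q6 =>
  addcK c6 a6_1 a6_2 a6_3 q6 1152922604118474752 0 fun c7 a7_1 a7_2 a7_3 q7 =>
  sqK c7 a7_1 a7_2 a7_3 q7 fun c10 a10_1 a10_2 a10_3 q10 =>
  mulK c1 a1_1 a1_2 a1_3 q1 c10 a10_1 a10_2 a10_3 q10 fun c12 a12_1 a12_2 a12_3 q12 =>
  sqK z1 (Nat.add w1 1152921504606846976) 1152921504606846976 1152921504606846976 0 fun c13 a13_1 a13_2 a13_3 q13 =>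
  mulK c13 a13_1 a13_2 a13_3 q13 z1 (Nat.add w1 1152921504606846976) 1152921504606846976 1152921504606846976 0 fun c15 a15_1 a15_2 a15_3 q15 =>
  mulK c12 a12_1 a12_2 a12_3 q12 c15 a15_1 a15_2 a15_3 q15 fun c16 a16_1 a16_2 a16_3 q16 =>
  addcK c3 a3_1 a3_2 a3_3 q3 1152922604118474752 0 fun c18 a18_1 a18_2 a18_3 q18 =>
  mulK c13 a13_1 a13_2 a13_3 q13 c18 a18_1 a18_2 a18_3 q18 fun c20 a20_1 a20_2 a20_3 q20 =>
  negK c20 a20_1 a20_2 a20_3 q20 fun c21 a21_1 a21_2 a21_3 q21 =>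
  addcK c21 a21_1 a21_2 a21_3 q21 1152923703630102528 0 fun c22 a22_1 a22_2 a22_3 q22 =>
  mulK c3 a3_1 a3_2 a3_3 q3 c13 a13_1 a13_2 a13_3 q13 fun c25 a25_1 a25_2 a25_3 q25 =>
  negK c25 a25_1 a25_2 a25_3 q25 fun c26 a26_1 a26_2 a26_3 q26 =>
  addcK c26 a26_1 a26_2 a26_3 q26 1152922604118474752 0 fun c27 a27_1 a27_2 a27_3 q27 =>
  sqrtK c27 a27_1 a27_2 a27_3 q27 fun c29 a29_1 a29_2 a29_3 q29 =>
  negK c13 a13_1 a13_2 a13_3 q13 fun c31 a31_1 a31_2 a31_3 q31 =>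
  addcK c31 a31_1 a31_2 a31_3 q31 1152922604118474752 0 fun c32 a32_1 a32_2 a32_3 q32 =>
  sqrtK c32 a32_1 a32_2 a32_3 q32 fun c34 a34_1 a34_2 a34_3 q34 =>
  mulK c29 a29_1 a29_2 a29_3 q29 c34 a34_1 a34_2 a34_3 q34 fun c36 a36_1 a36_2 a36_3 q36 =>
  sqK c36 a36_1 a36_2 a36_3 q36 fun c38 a38_1 a38_2 a38_3 q38 =>
  mulK z3 1152921504606846976 1152921504606846976 (Nat.add w3 1152921504606846976) 0 c7 a7_1 a7_2 a7_3 q7 fun c40 a40_1 a40_2 a40_3 q40 =>
  smulK 1 2 2305843009213693954 1152921504606846976 c40 a40_1 a40_2 a40_3 q40 fun c41 a41_1 a41_2 a41_3 q41 =>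
  sqK c41 a41_1 a41_2 a41_3 q41 fun c44 a44_1 a44_2 a44_3 q44 =>
  sqK c13 a13_1 a13_2 a13_3 q13 fun c47 a47_1 a47_2 a47_3 q47 =>
  mulK c44 a44_1 a44_2 a44_3 q44 c47 a47_1 a47_2 a47_3 q47 fun c49 a49_1 a49_2 a49_3 q49 =>
  addK c38 a38_1 a38_2 a38_3 q38 c49 a49_1 a49_2 a49_3 q49 fun c51 a51_1 a51_2 a51_3 q51 =>
  sqrtK c51 a51_1 a51_2 a51_3 q51 fun c52 a52_1 a52_2 a52_3 q52 =>
  smulK 2 1 1152921504606846977 2305843009213693952 c52 a52_1 a52_2 a52_3 q52 fun c54 a54_1 a54_2 a54_3 q54 =>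
  addK c22 a22_1 a22_2 a22_3 q22 c54 a54_1 a54_2 a54_3 q54 fun c55 a55_1 a55_2 a55_3 q55 =>
  sqrtK c55 a55_1 a55_2 a55_3 q55 fun c56 a56_1 a56_2 a56_3 q56 =>
  addK c56 a56_1 a56_2 a56_3 q56 c29 a29_1 a29_2 a29_3 q29 fun c58 a58_1 a58_2 a58_3 q58 =>
  addK c58 a58_1 a58_2 a58_3 q58 c34 a34_1 a34_2 a34_3 q34 fun c59 a59_1 a59_2 a59_3 q59 =>
  addK c52 a52_1 a52_2 a52_3 q52 c36 a36_1 a36_2 a36_3 q36 fun c61 a61_1 a61_2 a61_3 q61 =>
  mulK c59 a59_1 a59_2 a59_3 q59 c61 a61_1 a61_2 a61_3 q61 fun c62 a62_1 a62_2 a62_3 q62 =>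
  invK c62 a62_1 a62_2 a62_3 q62 fun c63 a63_1 a63_2 a63_3 q63 =>
  subK c22 a22_1 a22_2 a22_3 q22 c36 a36_1 a36_2 a36_3 q36 fun c64 a64_1 a64_2 a64_3 q64 =>
  smulK 2 1 1152921504606846977 2305843009213693952 c64 a64_1 a64_2 a64_3 q64 fun c65 a65_1 a65_2 a65_3 q65 =>
  mulK c56 a56_1 a56_2 a56_3 q56 c59 a59_1 a59_2 a59_3 q59 fun c66 a66_1 a66_2 a66_3 q66 =>
  subK c65 a65_1 a65_2 a65_3 q65 c66 a66_1 a66_2 a66_3 q66 fun c67 a67_1 a67_2 a67_3 q67 =>
  smulK 2479 5000 5764607523034234885000 2858092409920373653504 c67 a67_1 a67_2 a67_3 q67 fun c68 a68_1 a68_2 a68_3 q68 =>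
  negK c68 a68_1 a68_2 a68_3 q68 fun c69 a69_1 a69_2 a69_3 q69 =>
  addcK c69 a69_1 a69_2 a69_3 q69 1152925902653358080 0 fun c71 a71_1 a71_2 a71_3 q71 =>
  mulK c71 a71_1 a71_2 a71_3 q71 c63 a63_1 a63_2 a63_3 q63 fun c73 a73_1 a73_2 a73_3 q73 =>
  smulK 1971 10000 11529215046068469770000 2272408285580095389696 c22 a22_1 a22_2 a22_3 q22 fun c75 a75_1 a75_2 a75_3 q75 =>
  negK c75 a75_1 a75_2 a75_3 q75 fun c76 a76_1 a76_2 a76_3 q76 =>
  negK c76 a76_1 a76_2 a76_3 q76 fun c78 a78_1 a78_2 a78_3 q78 =>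
  addcK c78 a78_1 a78_2 a78_3 q78 1152920892838577281 1 fun c79 a79_1 a79_2 a79_3 q79 =>
  smulK 2 1 1152921504606846977 2305843009213693952 c38 a38_1 a38_2 a38_3 q38 fun c81 a81_1 a81_2 a81_3 q81 =>
  addK c81 a81_1 a81_2 a81_3 q81 c49 a49_1 a49_2 a49_3 q49 fun c82 a82_1 a82_2 a82_3 q82 =>
  smulK 2 1 1152921504606846977 2305843009213693952 c82 a82_1 a82_2 a82_3 q82 fun c83 a83_1 a83_2 a83_3 q83 =>
  sqK c22 a22_1 a22_2 a22_3 q22 fun c84 a84_1 a84_2 a84_3 q84 =>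
  smulK 4 1 1152921504606846977 4611686018427387904 c84 a84_1 a84_2 a84_3 q84 fun c86 a86_1 a86_2 a86_3 q86 =>
  subK c83 a83_1 a83_2 a83_3 q83 c86 a86_1 a86_2 a86_3 q86 fun c87 a87_1 a87_2 a87_3 q87 =>
  smulK 24 625 720575940379279360625 27670116110564327424 c87 a87_1 a87_2 a87_3 q87 fun c88 a88_1 a88_2 a88_3 q88 =>
  addK c79 a79_1 a79_2 a79_3 q79 c88 a88_1 a88_2 a88_3 q88 fun c89 a89_1 a89_2 a89_3 q89 =>
  addK c73 a73_1 a73_2 a73_3 q73 c89 a89_1 a89_2 a89_3 q89 fun c91 a91_1 a91_2 a91_3 q91 =>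
  mulK z1 (Nat.add w1 1152921504606846976) 1152921504606846976 1152921504606846976 0 c91 a91_1 a91_2 a91_3 q91 fun c92 a92_1 a92_2 a92_3 q92 =>
  addK c3 a3_1 a3_2 a3_3 q3 c44 a44_1 a44_2 a44_3 q44 fun c93 a93_1 a93_2 a93_3 q93 =>
  sqrtK c93 a93_1 a93_2 a93_3 q93 fun c94 a94_1 a94_2 a94_3 q94 =>
  smulK 2 1 1152921504606846977 2305843009213693952 c94 a94_1 a94_2 a94_3 q94 fun c96 a96_1 a96_2 a96_3 q96 =>
  addK c18 a18_1 a18_2 a18_3 q18 c96 a96_1 a96_2 a96_3 q96 fun c97 a97_1 a97_2 a97_3 q97 =>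
  sqrtK c97 a97_1 a97_2 a97_3 q97 fun c98 a98_1 a98_2 a98_3 q98 =>
  addcK z2 1152921504606846976 (Nat.add w2 1152921504606846976) 1152921504606846976 0 1152922604118474752 0 fun c100 a100_1 a100_2 a100_3 q100 =>
  addK c98 a98_1 a98_2 a98_3 q98 c100 a100_1 a100_2 a100_3 q100 fun c102 a102_1 a102_2 a102_3 q102 =>
  invK c102 a102_1 a102_2 a102_3 q102 fun c103 a103_1 a103_2 a103_3 q103 =>
  mulK c98 a98_1 a98_2 a98_3 q98 c100 a100_1 a100_2 a100_3 q100 fun c104 a104_1 a104_2 a104_3 q104 =>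
  addK c104 a104_1 a104_2 a104_3 q104 c18 a18_1 a18_2 a18_3 q18 fun c105 a105_1 a105_2 a105_3 q105 =>
  invK c105 a105_1 a105_2 a105_3 q105 fun c106 a106_1 a106_2 a106_3 q106 =>
  addK c18 a18_1 a18_2 a18_3 q18 z2 1152921504606846976 (Nat.add w2 1152921504606846976) 1152921504606846976 0 fun c107 a107_1 a107_2 a107_3 q107 =>
  mulK c107 a107_1 a107_2 a107_3 q107 c106 a106_1 a106_2 a106_3 q106 fun c108 a108_1 a108_2 a108_3 q108 =>
  addcK c108 a108_1 a108_2 a108_3 q108 1152922604118474752 0 fun c110 a110_1 a110_2 a110_3 q110 =>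
  mulK c110 a110_1 a110_2 a110_3 q110 c103 a103_1 a103_2 a103_3 q103 fun c112 a112_1 a112_2 a112_3 q112 =>
  addK c92 a92_1 a92_2 a92_3 q92 c112 a112_1 a112_2 a112_3 q112 fun c115 a115_1 a115_2 a115_3 q115 =>
  mulK c16 a16_1 a16_2 a16_3 q16 c115 a115_1 a115_2 a115_3 q115 fun c117 a117_1 a117_2 a117_3 q117 =>
  smulK 1 4 4611686018427387908 1152921504606846976 c117 a117_1 a117_2 a117_3 q117 fun c118 a118_1 a118_2 a118_3 q118 =>
  smulK 3 5 5764607523034234885 3458764513820540928 z3 1152921504606846976 1152921504606846976 (Nat.add w3 1152921504606846976) 0 fun c121 a121_1 a121_2 a121_3 q121 =>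
  addcK c121 a121_1 a121_2 a121_3 q121 1152921394655684198 1 fun c122 a122_1 a122_2 a122_3 q122 =>
  mulK z2 1152921504606846976 (Nat.add w2 1152921504606846976) 1152921504606846976 0 z1 (Nat.add w1 1152921504606846976) 1152921504606846976 1152921504606846976 0 fun c124 a124_1 a124_2 a124_3 q124 =>
  addcK c124 a124_1 a124_2 a124_3 q124 1152922604118474752 0 fun c125 a125_1 a125_2 a125_3 q125 =>
  addcK c29 a29_1 a29_2 a29_3 q29 1152922604118474752 0 fun c127 a127_1 a127_2 a127_3 q127 =>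
  invK c127 a127_1 a127_2 a127_3 q127 fun c129 a129_1 a129_2 a129_3 q129 =>
  mulK c125 a125_1 a125_2 a125_3 q125 c129 a129_1 a129_2 a129_3 q129 fun c132 a132_1 a132_2 a132_3 q132 =>
  negK c132 a132_1 a132_2 a132_3 q132 fun c133 a133_1 a133_2 a133_3 q133 =>
  addcK c133 a133_1 a133_2 a133_3 q133 1152923703630102528 0 fun c134 a134_1 a134_2 a134_3 q134 =>
  mulK c3 a3_1 a3_2 a3_3 q3 c134 a134_1 a134_2 a134_3 q134 fun c137 a137_1 a137_2 a137_3 q137 =>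
  mulK c122 a122_1 a122_2 a122_3 q122 c137 a137_1 a137_2 a137_3 q137 fun c139 a139_1 a139_2 a139_3 q139 =>
  negK c121 a121_1 a121_2 a121_3 q121 fun c140 a140_1 a140_2 a140_3 q140 =>
  addcK c140 a140_1 a140_2 a140_3 q140 1152922615113591030 1 fun c141 a141_1 a141_2 a141_3 q141 =>
  addcK z1 (Nat.add w1 1152921504606846976) 1152921504606846976 1152921504606846976 0 1152922604118474752 0 fun c143 a143_1 a143_2 a143_3 q143 =>
  addcK c34 a34_1 a34_2 a34_3 q34 1152922604118474752 0 fun c145 a145_1 a145_2 a145_3 q145 =>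
  invK c145 a145_1 a145_2 a145_3 q145 fun c147 a147_1 a147_2 a147_3 q147 =>
  mulK c143 a143_1 a143_2 a143_3 q143 c147 a147_1 a147_2 a147_3 q147 fun c150 a150_1 a150_2 a150_3 q150 =>
  negK c150 a150_1 a150_2 a150_3 q150 fun c151 a151_1 a151_2 a151_3 q151 =>
  addcK c151 a151_1 a151_2 a151_3 q151 1152923703630102528 0 fun c152 a152_1 a152_2 a152_3 q152 =>
  mulK c141 a141_1 a141_2 a141_3 q141 c152 a152_1 a152_2 a152_3 q152 fun c155 a155_1 a155_2 a155_3 q155 =>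
  addK c139 a139_1 a139_2 a139_3 q139 c155 a155_1 a155_2 a155_3 q155 fun c156 a156_1 a156_2 a156_3 q156 =>
  mulK c13 a13_1 a13_2 a13_3 q13 c156 a156_1 a156_2 a156_3 q156 fun c157 a157_1 a157_2 a157_3 q157 =>
  negK c13 a13_1 a13_2 a13_3 q13 fun c158 a158_1 a158_2 a158_3 q158 =>
  addcK c158 a158_1 a158_2 a158_3 q158 1152922604118474752 0 fun c159 a159_1 a159_2 a159_3 q159 =>
  smulK 9 1000 1152921504606846977000 10376293541461622784 c159 a159_1 a159_2 a159_3 q159 fun c161 a161_1 a161_2 a161_3 q161 =>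
  addK c157 a157_1 a157_2 a157_3 q157 c161 a161_1 a161_2 a161_3 q161 fun c162 a162_1 a162_2 a162_3 q162 =>
  smulK 2 1 1152921504606846977 2305843009213693952 c162 a162_1 a162_2 a162_3 q162 fun c164 a164_1 a164_2 a164_3 q164 =>
  addK c118 a118_1 a118_2 a118_3 q118 c164 a164_1 a164_2 a164_3 q164 fun c165 a165_1 a165_2 a165_3 q165 =>
  posK c165 a165_1 a165_2 a165_3 q165 <|
  mulK c13 a13_1 a13_2 a13_3 q13 c7 a7_1 a7_2 a7_3 q7 fun c167 a167_1 a167_2 a167_3 q167 =>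
  addK c29 a29_1 a29_2 a29_3 q29 c34 a34_1 a34_2 a34_3 q34 fun c168 a168_1 a168_2 a168_3 q168 =>
  invK c168 a168_1 a168_2 a168_3 q168 fun c169 a169_1 a169_2 a169_3 q169 =>
  addcK c169 a169_1 a169_2 a169_3 q169 1152919305583591424 0 fun c171 a171_1 a171_2 a171_3 q171 =>
  mulK c29 a29_1 a29_2 a29_3 q29 z2 1152921504606846976 (Nat.add w2 1152921504606846976) 1152921504606846976 0 fun c173 a173_1 a173_2 a173_3 q173 =>
  addK c173 a173_1 a173_2 a173_3 q173 c34 a34_1 a34_2 a34_3 q34 fun c174 a174_1 a174_2 a174_3 q174 =>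
  mulK c174 a174_1 a174_2 a174_3 q174 c100 a100_1 a100_2 a100_3 q100 fun c175 a175_1 a175_2 a175_3 q175 =>
  invK c175 a175_1 a175_2 a175_3 q175 fun c176 a176_1 a176_2 a176_3 q176 =>
  negK c129 a129_1 a129_2 a129_3 q129 fun c177 a177_1 a177_2 a177_3 q177 =>
  addcK c177 a177_1 a177_2 a177_3 q177 1152922604118474752 0 fun c178 a178_1 a178_2 a178_3 q178 =>
  mulK c3 a3_1 a3_2 a3_3 q3 c178 a178_1 a178_2 a178_3 q178 fun c180 a180_1 a180_2 a180_3 q180 =>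
  addcK c180 a180_1 a180_2 a180_3 q180 1152922604118474752 0 fun c181 a181_1 a181_2 a181_3 q181 =>
  mulK z2 1152921504606846976 (Nat.add w2 1152921504606846976) 1152921504606846976 0 c181 a181_1 a181_2 a181_3 q181 fun c183 a183_1 a183_2 a183_3 q183 =>
  addK c183 a183_1 a183_2 a183_3 q183 c3 a3_1 a3_2 a3_3 q3 fun c184 a184_1 a184_2 a184_3 q184 =>
  negK c147 a147_1 a147_2 a147_3 q147 fun c185 a185_1 a185_2 a185_3 q185 =>
  addcK c185 a185_1 a185_2 a185_3 q185 1152922604118474752 0 fun c186 a186_1 a186_2 a186_3 q186 =>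
  addK c184 a184_1 a184_2 a184_3 q184 c186 a186_1 a186_2 a186_3 q186 fun c188 a188_1 a188_2 a188_3 q188 =>
  mulK c188 a188_1 a188_2 a188_3 q188 c176 a176_1 a176_2 a176_3 q176 fun c189 a189_1 a189_2 a189_3 q189 =>
  mulK z1 (Nat.add w1 1152921504606846976) 1152921504606846976 1152921504606846976 0 c189 a189_1 a189_2 a189_3 q189 fun c191 a191_1 a191_2 a191_3 q191 =>
  addK c171 a171_1 a171_2 a171_3 q171 c191 a191_1 a191_2 a191_3 q191 fun c192 a192_1 a192_2 a192_3 q192 =>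
  smulK 14 25 28823037615171174425 16140901064495857664 c192 a192_1 a192_2 a192_3 q192 fun c193 a193_1 a193_2 a193_3 q193 =>
  addcK c193 a193_1 a193_2 a193_3 q193 1152922604118474752 0 fun c194 a194_1 a194_2 a194_3 q194 =>
  mulK c167 a167_1 a167_2 a167_3 q167 c194 a194_1 a194_2 a194_3 q194 fun c197 a197_1 a197_2 a197_3 q197 =>
  mulK z3 1152921504606846976 1152921504606846976 (Nat.add w3 1152921504606846976) 0 c197 a197_1 a197_2 a197_3 q197 fun c199 a199_1 a199_2 a199_3 q199 =>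
  smulK 2 1 1152921504606846977 2305843009213693952 c199 a199_1 a199_2 a199_3 q199 fun c200 a200_1 a200_2 a200_3 q200 =>
  subK c200 a200_1 a200_2 a200_3 q200 c165 a165_1 a165_2 a165_3 q165 fun c201 a201_1 a201_2 a201_3 q201 =>
  posK c201 a201_1 a201_2 a201_3 q201 <|
  smulK 1 4 4611686018427387908 1152921504606846976 c165 a165_1 a165_2 a165_3 q165 fun c202 a202_1 a202_2 a202_3 q202 =>
  addK c118 a118_1 a118_2 a118_3 q118 c202 a202_1 a202_2 a202_3 q202 fun c204 a204_1 a204_2 a204_3 q204 =>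
  subK c204 a204_1 a204_2 a204_3 q204 c199 a199_1 a199_2 a199_3 q199 fun c205 a205_1 a205_2 a205_3 q205 =>
  pos c205 a205_1 a205_2 a205_3 q205

theorem alt1_s {z1 w1 z2 w2 z3 w3 : ℕ} {e1 e2 e3 T c s : ℝ} (he : Ev e1 e2 e3)
    (hx1 : In e1 e2 e3 z1 (Nat.add w1 1152921504606846976) 1152921504606846976 1152921504606846976 0 T)
    (hx2 : In e1 e2 e3 z2 1152921504606846976 (Nat.add w2 1152921504606846976) 1152921504606846976 0 c)
    (hx3 : In e1 e2 e3 z3 1152921504606846976 1152921504606846976 (Nat.add w3 1152921504606846976) 0 s)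
    (H0 : alt1 z1 w1 z2 w2 z3 w3 = true) : 0 < (a T c s) ∧ 0 < (((2:ℝ) * (s * (X T c s))) - (a T c s)) ∧ 0 < (((g T c s) + ((a T c s) / (4:ℝ))) - (s * (X T c s))) := by
  unfold alt1 at H0
  refine sqK_s he hx3 (fun _ _ _ _ _ h1 H1 => ?_) H0
  have h2 := In_cast h1 (sq _)
  refine sqK_s he hx2 (fun _ _ _ _ _ h3 H2 => ?_) H1
  have h4 := In_cast h3 (sq _)
  have h5 := In_cast (w := (c2 T c s)) h4 rfl
  refine negK_s he h5 (fun _ _ _ _ _ h6 H3 => ?_) H2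
  refine addcK_s he h6 (v' := (1:ℝ)) (by norm_num [SS, BB, abs_le]) (fun _ _ _ _ _ h7 H4 => ?_) H3
  have h8 := In_cast h7 (neg_add_eq_sub _ _)
  have h9 := In_cast (w := (d T c s)) h8 rfl
  refine sqK_s he h9 (fun _ _ _ _ _ h10 H5 => ?_) H4
  have h11 := In_cast h10 (sq _)
  refine mulK_s he h2 h11 (fun _ _ _ _ _ h12 H6 => ?_) H5
  refine sqK_s he hx1 (fun _ _ _ _ _ h13 H7 => ?_) H6
  have h14 := In_cast h13 (sq _)
  refine mulK_s he h14 hx1 (fun _ _ _ _ _ h15 H8 => ?_) H7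
  refine mulK_s he h12 h15 (fun _ _ _ _ _ h16 H9 => ?_) H8
  have h17 := In_cast (w := (T2 T c s)) h14 rfl
  refine addcK_s he h5 (v' := (1:ℝ)) (by norm_num [SS, BB, abs_le]) (fun _ _ _ _ _ h18 H10 => ?_) H9
  have h19 := In_cast h18 (add_comm _ _)
  refine mulK_s he h17 h19 (fun _ _ _ _ _ h20 H11 => ?_) H10
  refine negK_s he h20 (fun _ _ _ _ _ h21 H12 => ?_) H11
  refine addcK_s he h21 (v' := (2:ℝ)) (by norm_num [SS, BB, abs_le]) (fun _ _ _ _ _ h22 H13 => ?_) H12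
  have h23 := In_cast h22 (neg_add_eq_sub _ _)
  have h24 := In_cast (w := (P T c s)) h23 rfl
  refine mulK_s he h5 h17 (fun _ _ _ _ _ h25 H14 => ?_) H13
  refine negK_s he h25 (fun _ _ _ _ _ h26 H15 => ?_) H14
  refine addcK_s he h26 (v' := (1:ℝ)) (by norm_num [SS, BB, abs_le]) (fun _ _ _ _ _ h27 H16 => ?_) H15
  have h28 := In_cast h27 (neg_add_eq_sub _ _)
  refine sqrtK_s he h28 (fun _ _ _ _ _ h29 H17 => ?_) H16
  have h30 := In_cast (w := (r0 T c s)) h29 rfl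
  refine negK_s he h17 (fun _ _ _ _ _ h31 H18 => ?_) H17
  refine addcK_s he h31 (v' := (1:ℝ)) (by norm_num [SS, BB, abs_le]) (fun _ _ _ _ _ h32 H19 => ?_) H18
  have h33 := In_cast h32 (neg_add_eq_sub _ _)
  refine sqrtK_s he h33 (fun _ _ _ _ _ h34 H20 => ?_) H19
  have h35 := In_cast (w := (r1 T c s)) h34 rfl
  refine mulK_s he h30 h35 (fun _ _ _ _ _ h36 H21 => ?_) H20
  have h37 := In_cast (w := (pi0 T c s)) h36 rfl
  refine sqK_s he h37 (fun _ _ _ _ _ h38 H22 => ?_) H21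
  have h39 := In_cast h38 (sq _)
  refine mulK_s he hx3 h9 (fun _ _ _ _ _ h40 H23 => ?_) H22
  refine smulK_s he (w := (1/2:ℝ)) (by norm_num) (by norm_num) (by norm_num) (by norm_num) h40 (fun _ _ _ _ _ h41 H24 => ?_) H23
  have h42 := In_cast h41 (div_c (c := (2:ℝ)) (by norm_num))
  have h43 := In_cast (w := (hh T c s)) h42 rfl
  refine sqK_s he h43 (fun _ _ _ _ _ h44 H25 => ?_) H24
  have h45 := In_cast h44 (sq _)
  have h46 := In_cast (w := (hq T c s)) h45 rfl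
  refine sqK_s he h17 (fun _ _ _ _ _ h47 H26 => ?_) H25
  have h48 := In_cast h47 (sq _)
  refine mulK_s he h46 h48 (fun _ _ _ _ _ h49 H27 => ?_) H26
  have h50 := In_cast (w := (w T c s)) h49 rfl
  refine addK_s he h39 h50 (fun _ _ _ _ _ h51 H28 => ?_) H27
  refine sqrtK_s he h51 (fun _ _ _ _ _ h52 H29 => ?_) H28
  have h53 := In_cast (w := (pi T c s)) h52 rfl
  refine smulK_s he (w := (2:ℝ)) (by norm_num) (by norm_num) (by norm_num) (by norm_num) h53 (fun _ _ _ _ _ h54 H30 => ?_) H29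
  refine addK_s he h24 h54 (fun _ _ _ _ _ h55 H31 => ?_) H30
  refine sqrtK_s he h55 (fun _ _ _ _ _ h56 H32 => ?_) H31
  have h57 := In_cast (w := (sg T c s)) h56 rfl
  refine addK_s he h57 h30 (fun _ _ _ _ _ h58 H33 => ?_) H32
  refine addK_s he h58 h35 (fun _ _ _ _ _ h59 H34 => ?_) H33
  have h60 := In_cast (w := (ss T c s)) h59 rfl
  refine addK_s he h53 h37 (fun _ _ _ _ _ h61 H35 => ?_) H34
  refine mulK_s he h60 h61 (fun _ _ _ _ _ h62 H36 => ?_) H35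
  refine invK_s he h62 (fun _ _ _ _ _ h63 H37 => ?_) H36
  refine subK_s he h24 h37 (fun _ _ _ _ _ h64 H38 => ?_) H37
  refine smulK_s he (w := (2:ℝ)) (by norm_num) (by norm_num) (by norm_num) (by norm_num) h64 (fun _ _ _ _ _ h65 H39 => ?_) H38
  refine mulK_s he h57 h60 (fun _ _ _ _ _ h66 H40 => ?_) H39
  refine subK_s he h65 h66 (fun _ _ _ _ _ h67 H41 => ?_) H40
  refine smulK_s he (w := (2479/5000:ℝ)) (by norm_num) (by norm_num) (by norm_num) (by norm_num) h67 (fun _ _ _ _ _ h68 H42 => ?_) H41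
  refine negK_s he h68 (fun _ _ _ _ _ h69 H43 => ?_) H42
  have h70 := In_cast h69 (neg_mul_c (c := (-2479/5000:ℝ)) (by norm_num))
  refine addcK_s he h70 (v' := (4:ℝ)) (by norm_num [SS, BB, abs_le]) (fun _ _ _ _ _ h71 H44 => ?_) H43
  have h72 := In_cast h71 (add_comm _ _)
  refine mulK_s he h72 h63 (fun _ _ _ _ _ h73 H45 => ?_) H44
  have h74 := In_cast h73 ((div_eq_mul_inv _ _).symm)
  refine smulK_s he (w := (1971/10000:ℝ)) (by norm_num) (by norm_num) (by norm_num) (by norm_num) h24 (fun _ _ _ _ _ h75 H46 => ?_) H45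
  refine negK_s he h75 (fun _ _ _ _ _ h76 H47 => ?_) H46
  have h77 := In_cast h76 (neg_mul_c (c := (-1971/10000:ℝ)) (by norm_num))
  refine negK_s he h77 (fun _ _ _ _ _ h78 H48 => ?_) H47
  refine addcK_s he h78 (v' := (-1391/2500:ℝ)) (by norm_num [SS, BB, abs_le]) (fun _ _ _ _ _ h79 H49 => ?_) H48
  have h80 := In_cast h79 (neg_add_eq_sub _ _)
  refine smulK_s he (w := (2:ℝ)) (by norm_num) (by norm_num) (by norm_num) (by norm_num) h39 (fun _ _ _ _ _ h81 H50 => ?_) H49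
  refine addK_s he h81 h50 (fun _ _ _ _ _ h82 H51 => ?_) H50
  refine smulK_s he (w := (2:ℝ)) (by norm_num) (by norm_num) (by norm_num) (by norm_num) h82 (fun _ _ _ _ _ h83 H52 => ?_) H51
  refine sqK_s he h24 (fun _ _ _ _ _ h84 H53 => ?_) H52
  have h85 := In_cast h84 (sq _)
  refine smulK_s he (w := (4:ℝ)) (by norm_num) (by norm_num) (by norm_num) (by norm_num) h85 (fun _ _ _ _ _ h86 H54 => ?_) H53
  refine subK_s he h83 h86 (fun _ _ _ _ _ h87 H55 => ?_) H54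
  refine smulK_s he (w := (24/625:ℝ)) (by norm_num) (by norm_num) (by norm_num) (by norm_num) h87 (fun _ _ _ _ _ h88 H56 => ?_) H55
  refine addK_s he h80 h88 (fun _ _ _ _ _ h89 H57 => ?_) H56
  have h90 := In_cast (w := (Gp T c s)) h89 rfl
  refine addK_s he h74 h90 (fun _ _ _ _ _ h91 H58 => ?_) H57
  refine mulK_s he hx1 h91 (fun _ _ _ _ _ h92 H59 => ?_) H58
  refine addK_s he h5 h46 (fun _ _ _ _ _ h93 H60 => ?_) H59
  refine sqrtK_s he h93 (fun _ _ _ _ _ h94 H61 => ?_) H60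
  have h95 := In_cast (w := (b T c s)) h94 rfl
  refine smulK_s he (w := (2:ℝ)) (by norm_num) (by norm_num) (by norm_num) (by norm_num) h95 (fun _ _ _ _ _ h96 H62 => ?_) H61
  refine addK_s he h19 h96 (fun _ _ _ _ _ h97 H63 => ?_) H62
  refine sqrtK_s he h97 (fun _ _ _ _ _ h98 H64 => ?_) H63
  have h99 := In_cast (w := (v T c s)) h98 rfl
  refine addcK_s he hx2 (v' := (1:ℝ)) (by norm_num [SS, BB, abs_le]) (fun _ _ _ _ _ h100 H65 => ?_) H64
  have h101 := In_cast h100 (add_comm _ _)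
  refine addK_s he h99 h101 (fun _ _ _ _ _ h102 H66 => ?_) H65
  refine invK_s he h102 (fun _ _ _ _ _ h103 H67 => ?_) H66
  refine mulK_s he h99 h101 (fun _ _ _ _ _ h104 H68 => ?_) H67
  refine addK_s he h104 h19 (fun _ _ _ _ _ h105 H69 => ?_) H68
  refine invK_s he h105 (fun _ _ _ _ _ h106 H70 => ?_) H69
  refine addK_s he h19 hx2 (fun _ _ _ _ _ h107 H71 => ?_) H70
  refine mulK_s he h107 h106 (fun _ _ _ _ _ h108 H72 => ?_) H71
  have h109 := In_cast h108 ((div_eq_mul_inv _ _).symm)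
  refine addcK_s he h109 (v' := (1:ℝ)) (by norm_num [SS, BB, abs_le]) (fun _ _ _ _ _ h110 H73 => ?_) H72
  have h111 := In_cast h110 (add_comm _ _)
  refine mulK_s he h111 h103 (fun _ _ _ _ _ h112 H74 => ?_) H73
  have h113 := In_cast h112 ((div_eq_mul_inv _ _).symm)
  have h114 := In_cast (w := (GW T c s)) h113 rfl
  refine addK_s he h92 h114 (fun _ _ _ _ _ h115 H75 => ?_) H74
  have h116 := In_cast (w := (G T c s)) h115 rfl
  refine mulK_s he h16 h116 (fun _ _ _ _ _ h117 H76 => ?_) H75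
  refine smulK_s he (w := (1/4:ℝ)) (by norm_num) (by norm_num) (by norm_num) (by norm_num) h117 (fun _ _ _ _ _ h118 H77 => ?_) H76
  have h119 := In_cast h118 (div_c (c := (4:ℝ)) (by norm_num))
  have h120 := In_cast (w := (g T c s)) h119 rfl
  refine smulK_s he (w := (3/5:ℝ)) (by norm_num) (by norm_num) (by norm_num) (by norm_num) hx3 (fun _ _ _ _ _ h121 H78 => ?_) H77
  refine addcK_s he h121 (v' := (-1/10:ℝ)) (by norm_num [SS, BB, abs_le]) (fun _ _ _ _ _ h122 H79 => ?_) H78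
  have h123 := In_cast h122 (sub_c (c := (1/10:ℝ)) (by norm_num))
  refine mulK_s he hx2 hx1 (fun _ _ _ _ _ h124 H80 => ?_) H79
  refine addcK_s he h124 (v' := (1:ℝ)) (by norm_num [SS, BB, abs_le]) (fun _ _ _ _ _ h125 H81 => ?_) H80
  have h126 := In_cast h125 (add_comm _ _)
  refine addcK_s he h30 (v' := (1:ℝ)) (by norm_num [SS, BB, abs_le]) (fun _ _ _ _ _ h127 H82 => ?_) H81
  have h128 := In_cast h127 (add_comm _ _)
  refine invK_s he h128 (fun _ _ _ _ _ h129 H83 => ?_) H82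
  have h130 := In_cast h129 (inv_eq_one_div _)
  have h131 := In_cast (w := (i0 T c s)) h130 rfl
  refine mulK_s he h126 h131 (fun _ _ _ _ _ h132 H84 => ?_) H83
  refine negK_s he h132 (fun _ _ _ _ _ h133 H85 => ?_) H84
  refine addcK_s he h133 (v' := (2:ℝ)) (by norm_num [SS, BB, abs_le]) (fun _ _ _ _ _ h134 H86 => ?_) H85
  have h135 := In_cast h134 (neg_add_eq_sub _ _)
  have h136 := In_cast (w := (U0 T c s)) h135 rfl
  refine mulK_s he h5 h136 (fun _ _ _ _ _ h137 H87 => ?_) H86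
  have h138 := In_cast (w := (V0 T c s)) h137 rfl
  refine mulK_s he h123 h138 (fun _ _ _ _ _ h139 H88 => ?_) H87
  refine negK_s he h121 (fun _ _ _ _ _ h140 H89 => ?_) H88
  refine addcK_s he h140 (v' := (101/100:ℝ)) (by norm_num [SS, BB, abs_le]) (fun _ _ _ _ _ h141 H90 => ?_) H89
  have h142 := In_cast h141 (neg_add_eq_sub _ _)
  refine addcK_s he hx1 (v' := (1:ℝ)) (by norm_num [SS, BB, abs_le]) (fun _ _ _ _ _ h143 H91 => ?_) H90
  have h144 := In_cast h143 (add_comm _ _)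
  refine addcK_s he h35 (v' := (1:ℝ)) (by norm_num [SS, BB, abs_le]) (fun _ _ _ _ _ h145 H92 => ?_) H91
  have h146 := In_cast h145 (add_comm _ _)
  refine invK_s he h146 (fun _ _ _ _ _ h147 H93 => ?_) H92
  have h148 := In_cast h147 (inv_eq_one_div _)
  have h149 := In_cast (w := (i1 T c s)) h148 rfl
  refine mulK_s he h144 h149 (fun _ _ _ _ _ h150 H94 => ?_) H93
  refine negK_s he h150 (fun _ _ _ _ _ h151 H95 => ?_) H94
  refine addcK_s he h151 (v' := (2:ℝ)) (by norm_num [SS, BB, abs_le]) (fun _ _ _ _ _ h152 H96 => ?_) H95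
  have h153 := In_cast h152 (neg_add_eq_sub _ _)
  have h154 := In_cast (w := (U1 T c s)) h153 rfl
  refine mulK_s he h142 h154 (fun _ _ _ _ _ h155 H97 => ?_) H96
  refine addK_s he h139 h155 (fun _ _ _ _ _ h156 H98 => ?_) H97
  refine mulK_s he h14 h156 (fun _ _ _ _ _ h157 H99 => ?_) H98
  refine negK_s he h14 (fun _ _ _ _ _ h158 H100 => ?_) H99
  refine addcK_s he h158 (v' := (1:ℝ)) (by norm_num [SS, BB, abs_le]) (fun _ _ _ _ _ h159 H101 => ?_) H100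
  have h160 := In_cast h159 (neg_add_eq_sub _ _)
  refine smulK_s he (w := (9/1000:ℝ)) (by norm_num) (by norm_num) (by norm_num) (by norm_num) h160 (fun _ _ _ _ _ h161 H102 => ?_) H101
  refine addK_s he h157 h161 (fun _ _ _ _ _ h162 H103 => ?_) H102
  have h163 := In_cast (w := (L T c s)) h162 rfl
  refine smulK_s he (w := (2:ℝ)) (by norm_num) (by norm_num) (by norm_num) (by norm_num) h163 (fun _ _ _ _ _ h164 H104 => ?_) H103
  refine addK_s he h120 h164 (fun _ _ _ _ _ h165 H105 => ?_) H104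
  have h166 := In_cast (w := (a T c s)) h165 rfl
  refine posK_s he h166 (fun p0 H106 => ?_) H105
  refine mulK_s he h14 h9 (fun _ _ _ _ _ h167 H107 => ?_) H106
  refine addK_s he h30 h35 (fun _ _ _ _ _ h168 H108 => ?_) H107
  refine invK_s he h168 (fun _ _ _ _ _ h169 H109 => ?_) H108
  have h170 := In_cast h169 (inv_eq_one_div _)
  refine addcK_s he h170 (v' := (-2:ℝ)) (by norm_num [SS, BB, abs_le]) (fun _ _ _ _ _ h171 H110 => ?_) H109
  have h172 := In_cast h171 (sub_c (c := (2:ℝ)) (by norm_num))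
  refine mulK_s he h30 hx2 (fun _ _ _ _ _ h173 H111 => ?_) H110
  refine addK_s he h173 h35 (fun _ _ _ _ _ h174 H112 => ?_) H111
  refine mulK_s he h174 h101 (fun _ _ _ _ _ h175 H113 => ?_) H112
  refine invK_s he h175 (fun _ _ _ _ _ h176 H114 => ?_) H113
  refine negK_s he h131 (fun _ _ _ _ _ h177 H115 => ?_) H114
  refine addcK_s he h177 (v' := (1:ℝ)) (by norm_num [SS, BB, abs_le]) (fun _ _ _ _ _ h178 H116 => ?_) H115
  have h179 := In_cast h178 (neg_add_eq_sub _ _)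
  refine mulK_s he h5 h179 (fun _ _ _ _ _ h180 H117 => ?_) H116
  refine addcK_s he h180 (v' := (1:ℝ)) (by norm_num [SS, BB, abs_le]) (fun _ _ _ _ _ h181 H118 => ?_) H117
  have h182 := In_cast h181 (add_comm _ _)
  refine mulK_s he hx2 h182 (fun _ _ _ _ _ h183 H119 => ?_) H118
  refine addK_s he h183 h5 (fun _ _ _ _ _ h184 H120 => ?_) H119
  refine negK_s he h149 (fun _ _ _ _ _ h185 H121 => ?_) H120
  refine addcK_s he h185 (v' := (1:ℝ)) (by norm_num [SS, BB, abs_le]) (fun _ _ _ _ _ h186 H122 => ?_) H121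
  have h187 := In_cast h186 (neg_add_eq_sub _ _)
  refine addK_s he h184 h187 (fun _ _ _ _ _ h188 H123 => ?_) H122
  refine mulK_s he h188 h176 (fun _ _ _ _ _ h189 H124 => ?_) H123
  have h190 := In_cast h189 ((div_eq_mul_inv _ _).symm)
  refine mulK_s he hx1 h190 (fun _ _ _ _ _ h191 H125 => ?_) H124
  refine addK_s he h172 h191 (fun _ _ _ _ _ h192 H126 => ?_) H125
  refine smulK_s he (w := (14/25:ℝ)) (by norm_num) (by norm_num) (by norm_num) (by norm_num) h192 (fun _ _ _ _ _ h193 H127 => ?_) H126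
  refine addcK_s he h193 (v' := (1:ℝ)) (by norm_num [SS, BB, abs_le]) (fun _ _ _ _ _ h194 H128 => ?_) H127
  have h195 := In_cast h194 (add_comm _ _)
  have h196 := In_cast (w := (Z T c s)) h195 rfl
  refine mulK_s he h167 h196 (fun _ _ _ _ _ h197 H129 => ?_) H128
  have h198 := In_cast (w := (X T c s)) h197 rfl
  refine mulK_s he hx3 h198 (fun _ _ _ _ _ h199 H130 => ?_) H129
  refine smulK_s he (w := (2:ℝ)) (by norm_num) (by norm_num) (by norm_num) (by norm_num) h199 (fun _ _ _ _ _ h200 H131 => ?_) H130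
  refine subK_s he h200 h166 (fun _ _ _ _ _ h201 H132 => ?_) H131
  refine posK_s he h201 (fun p1 H133 => ?_) H132
  refine smulK_s he (w := (1/4:ℝ)) (by norm_num) (by norm_num) (by norm_num) (by norm_num) h166 (fun _ _ _ _ _ h202 H134 => ?_) H133
  have h203 := In_cast h202 (div_c (c := (4:ℝ)) (by norm_num))
  refine addK_s he h120 h203 (fun _ _ _ _ _ h204 H135 => ?_) H134
  refine subK_s he h204 h199 (fun _ _ _ _ _ h205 H136 => ?_) H135
  exact ⟨p0, p1, pos_s he h205 H136⟩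

attribute [irreducible] alt0 alt1

noncomputable def leaf (j u z1 w1 z2 w2 z3 w3 : ℕ) : Bool :=
  sB j (alt0 z1 w1 z2 w2 z3 w3) fun j => alt1 z1 w1 z2 w2 z3 w3

theorem snd : Snd Q leaf := by
  intro j u z1 w1 z2 w2 z3 w3 e1 e2 e3 he H
  unfold leaf at H
  unfold Q
  replace H := sel H
  rcases H with H | ⟨j, H⟩
  · exact Or.inl (alt0_s he (var1 z1 w1) (var2 z2 w2) (var3 z3 w3) H)
  exact Or.inr (alt1_s he (var1 z1 w1) (var2 z2 w2) (var3 z3 w3) H)

end Crest.Agent.R307.UKP
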