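import Crest.Agent.R307.UKP
set_option autoImplicit false
set_option maxRecDepth 100000
namespace Crest.Agent.R307.UKP
open Crest.Agent.R307.IA Crest.Agent.R307.IA3

theorem k0 : Cov Q 1152921504606846976 1152922296255218975 1152921504606846976 1152922604118474752 1152922109338242252 1152922340235684086 :=
  cov_of snd 0 0 12 _ _ _ _ _ _ 0x33033013303301033133001330313310330330010330330033013303301013313300330301330330033010330330133031010330330133031033133001331330033033001013303033013303301033031330310133033013303301033133101033033003303013303300330101033033003301330330103303301330330101330330133033010330313303101013303301330330103313303101330330133033003301033033013303300010330330033300133033003303300101330313303103303300133130330103303301331013313033010033033013330033010330313310330003303301330330103303300300110 (by decide +kernel)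

end Crest.Agent.R307.UKP
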