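import Crest.Agent.R307.IA3
import Crest.Agent.R307.IAx
set_option autoImplicit false
set_option linter.unusedVariables false
set_option maxRecDepth 20000
namespace Crest.Agent.R307.UKQ
open Crest.Agent.R307.IA Crest.Agent.R307.IA3

theorem In_cast {e1 e2 e3 : ℝ} {x y1 y2 y3 r : ℕ} {v w : ℝ}
    (h : In e1 e2 e3 x y1 y2 y3 r v) (e : v = w) : In e1 e2 e3 x y1 y2 y3 r w := e ▸ h

noncomputable def d (u ta s : ℝ) : ℝ := ((1:ℝ) - (ta * ta))
noncomputable def iu (u ta s : ℝ) : ℝ := ((1:ℝ) / ((1:ℝ) + (u * u)))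
noncomputable def R (u ta s : ℝ) : ℝ := (((2:ℝ) * (iu u ta s)) - (1:ℝ))
noncomputable def R2 (u ta s : ℝ) : ℝ := ((R u ta s) * (R u ta s))
noncomputable def Ph (u ta s : ℝ) : ℝ := ((1:ℝ) + (ta * ta))
noncomputable def hh (u ta s : ℝ) : ℝ := ((s * (d u ta s)) / (2:ℝ))
noncomputable def hq (u ta s : ℝ) : ℝ := ((hh u ta s) * (hh u ta s))
noncomputable def om (u ta s : ℝ) : ℝ := (√((ta * ta) + (hq u ta s)))
noncomputable def sg (u ta s : ℝ) : ℝ := (√((Ph u ta s) + ((2:ℝ) * (om u ta s))))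
noncomputable def ss (u ta s : ℝ) : ℝ := (((sg u ta s) + (1:ℝ)) + ta)
noncomputable def P (u ta s : ℝ) : ℝ := ((R2 u ta s) * (Ph u ta s))
noncomputable def R4 (u ta s : ℝ) : ℝ := ((R2 u ta s) * (R2 u ta s))
noncomputable def Gp (u ta s : ℝ) : ℝ := (((-1391/2500:ℝ) - ((-1971/10000:ℝ) * (P u ta s))) + ((24/625:ℝ) * (((R4 u ta s) * ((2:ℝ) * (((om u ta s) * (om u ta s)) + (ta * ta)))) - ((4:ℝ) * ((P u ta s) * (P u ta s))))))
noncomputable def Pp (u ta s : ℝ) : ℝ := ((2:ℝ) - (P u ta s))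
noncomputable def t0 (u ta s : ℝ) : ℝ := (((2:ℝ) * u) * (iu u ta s))
noncomputable def r1 (u ta s : ℝ) : ℝ := ((R u ta s) * ta)
noncomputable def t1 (u ta s : ℝ) : ℝ := (√((1:ℝ) - ((r1 u ta s) * (r1 u ta s))))
noncomputable def b0 (u ta s : ℝ) : ℝ := ((t0 u ta s) * (t1 u ta s))
noncomputable def b (u ta s : ℝ) : ℝ := (√(((b0 u ta s) * (b0 u ta s)) + ((R4 u ta s) * (hq u ta s))))
noncomputable def v (u ta s : ℝ) : ℝ := (√((Pp u ta s) + ((2:ℝ) * (b u ta s))))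
noncomputable def v0 (u ta s : ℝ) : ℝ := ((t0 u ta s) + (t1 u ta s))
noncomputable def GW (u ta s : ℝ) : ℝ := (((1:ℝ) + (((Pp u ta s) + (b0 u ta s)) / (((v u ta s) * (v0 u ta s)) + (Pp u ta s)))) / ((v u ta s) + (v0 u ta s)))
noncomputable def Ga (u ta s : ℝ) : ℝ := ((((4:ℝ) + ((-2479/5000:ℝ) * ((R2 u ta s) * (((2:ℝ) * ((Ph u ta s) - ta)) - ((sg u ta s) * (ss u ta s)))))) / (ss u ta s)) + ((((R2 u ta s) * (R u ta s)) * ((om u ta s) + ta)) * ((Gp u ta s) + (GW u ta s))))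
noncomputable def k (u ta s : ℝ) : ℝ := ((Ga u ta s) / ((4:ℝ) * ((om u ta s) + ta)))
noncomputable def g (u ta s : ℝ) : ℝ := (((s * s) * ((d u ta s) * (d u ta s))) * (k u ta s))
noncomputable def U0 (u ta s : ℝ) : ℝ := ((((t0 u ta s) - (1:ℝ)) + (((1:ℝ) - (R u ta s)) * (2:ℝ))) + ((R u ta s) / ((1:ℝ) + (t0 u ta s))))
noncomputable def U1 (u ta s : ℝ) : ℝ := ((((1:ℝ) + (t1 u ta s)) - ((2:ℝ) * (r1 u ta s))) + ((r1 u ta s) / ((1:ℝ) + (t1 u ta s))))
noncomputable def V1 (u ta s : ℝ) : ℝ := (ta * (U1 u ta s))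
noncomputable def L (u ta s : ℝ) : ℝ := ((((((3/5:ℝ) * s) - (1/10:ℝ)) * (U0 u ta s)) + (((101/100:ℝ) - ((3/5:ℝ) * s)) * (V1 u ta s))) + ((9/1000:ℝ) * ((r1 u ta s) * ta)))
noncomputable def a (u ta s : ℝ) : ℝ := ((g u ta s) + ((2:ℝ) * (L u ta s)))
noncomputable def Hd (u ta s : ℝ) : ℝ := (((((1:ℝ) - (((R u ta s) * (R u ta s)) * ((1:ℝ) + (ta * ta)))) / ((t0 u ta s) + (ta * (t1 u ta s)))) + ((1:ℝ) / ((1:ℝ) + ta))) + ((R u ta s) * (((1:ℝ) / ((t0 u ta s) + (t1 u ta s))) - (2:ℝ))))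
noncomputable def Z (u ta s : ℝ) : ℝ := ((R u ta s) + ((14/25:ℝ) * (Hd u ta s)))
noncomputable def X (u ta s : ℝ) : ℝ := (((d u ta s) * (R u ta s)) + ((14/25:ℝ) * ((U0 u ta s) - (V1 u ta s))))

def Q (u ta s : ℝ) : Prop :=
  (
  (0 < (a u ta s) ∧ 0 < (((k u ta s) * (a u ta s)) - ((Z u ta s) * (Z u ta s)))) ∨
  (0 < (a u ta s) ∧ 0 < (((((d u ta s) * (d u ta s)) * (k u ta s)) * (a u ta s)) - ((X u ta s) * (X u ta s)))) ∨
  (0 < (a u ta s) ∧ 0 < (((2:ℝ) * (s * (X u ta s))) - (a u ta s)) ∧ 0 < (((g u ta s) + ((a u ta s) / (4:ℝ))) - (s * (X u ta s)))) ∨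
  (0 < (((100:ℝ) * (r1 u ta s)) - (70:ℝ))))

noncomputable def alt0 (z1 w1 z2 w2 z3 w3 : ℕ) : Bool :=
  sqK z3 1152921504606846976 1152921504606846976 (Nat.add w3 1152921504606846976) 0 fun c1 a1_1 a1_2 a1_3 q1 =>
  sqK z2 1152921504606846976 (Nat.add w2 1152921504606846976) 1152921504606846976 0 fun c3 a3_1 a3_2 a3_3 q3 =>
  negK c3 a3_1 a3_2 a3_3 q3 fun c5 a5_1 a5_2 a5_3 q5 =>
  addcK c5 a5_1 a5_2 a5_3 q5 1152922604118474752 0 fun c6 a6_1 a6_2 a6_3 q6 =>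
  sqK c6 a6_1 a6_2 a6_3 q6 fun c9 a9_1 a9_2 a9_3 q9 =>
  mulK c1 a1_1 a1_2 a1_3 q1 c9 a9_1 a9_2 a9_3 q9 fun c11 a11_1 a11_2 a11_3 q11 =>
  mulK z3 1152921504606846976 1152921504606846976 (Nat.add w3 1152921504606846976) 0 c6 a6_1 a6_2 a6_3 q6 fun c12 a12_1 a12_2 a12_3 q12 =>
  smulK 1 2 2305843009213693954 1152921504606846976 c12 a12_1 a12_2 a12_3 q12 fun c13 a13_1 a13_2 a13_3 q13 =>
  sqK c13 a13_1 a13_2 a13_3 q13 fun c16 a16_1 a16_2 a16_3 q16 =>
  addK c3 a3_1 a3_2 a3_3 q3 c16 a16_1 a16_2 a16_3 q16 fun c19 a19_1 a19_2 a19_3 q19 =>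
  sqrtK c19 a19_1 a19_2 a19_3 q19 fun c20 a20_1 a20_2 a20_3 q20 =>
  addK c20 a20_1 a20_2 a20_3 q20 z2 1152921504606846976 (Nat.add w2 1152921504606846976) 1152921504606846976 0 fun c22 a22_1 a22_2 a22_3 q22 =>
  smulK 4 1 1152921504606846977 4611686018427387904 c22 a22_1 a22_2 a22_3 q22 fun c23 a23_1 a23_2 a23_3 q23 =>
  invK c23 a23_1 a23_2 a23_3 q23 fun c24 a24_1 a24_2 a24_3 q24 =>
  addcK c3 a3_1 a3_2 a3_3 q3 1152922604118474752 0 fun c25 a25_1 a25_2 a25_3 q25 =>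
  smulK 2 1 1152921504606846977 2305843009213693952 c20 a20_1 a20_2 a20_3 q20 fun c28 a28_1 a28_2 a28_3 q28 =>
  addK c25 a25_1 a25_2 a25_3 q25 c28 a28_1 a28_2 a28_3 q28 fun c29 a29_1 a29_2 a29_3 q29 =>
  sqrtK c29 a29_1 a29_2 a29_3 q29 fun c30 a30_1 a30_2 a30_3 q30 =>
  addcK c30 a30_1 a30_2 a30_3 q30 1152922604118474752 0 fun c32 a32_1 a32_2 a32_3 q32 =>
  addK c32 a32_1 a32_2 a32_3 q32 z2 1152921504606846976 (Nat.add w2 1152921504606846976) 1152921504606846976 0 fun c33 a33_1 a33_2 a33_3 q33 =>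
  invK c33 a33_1 a33_2 a33_3 q33 fun c35 a35_1 a35_2 a35_3 q35 =>
  sqK z1 (Nat.add w1 1152921504606846976) 1152921504606846976 1152921504606846976 0 fun c36 a36_1 a36_2 a36_3 q36 =>
  addcK c36 a36_1 a36_2 a36_3 q36 1152922604118474752 0 fun c38 a38_1 a38_2 a38_3 q38 =>
  invK c38 a38_1 a38_2 a38_3 q38 fun c40 a40_1 a40_2 a40_3 q40 =>
  smulK 2 1 1152921504606846977 2305843009213693952 c40 a40_1 a40_2 a40_3 q40 fun c43 a43_1 a43_2 a43_3 q43 =>
  addcK c43 a43_1 a43_2 a43_3 q43 1152920405095219200 0 fun c44 a44_1 a44_2 a44_3 q44 =>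
  sqK c44 a44_1 a44_2 a44_3 q44 fun c47 a47_1 a47_2 a47_3 q47 =>
  subK c25 a25_1 a25_2 a25_3 q25 z2 1152921504606846976 (Nat.add w2 1152921504606846976) 1152921504606846976 0 fun c50 a50_1 a50_2 a50_3 q50 =>
  smulK 2 1 1152921504606846977 2305843009213693952 c50 a50_1 a50_2 a50_3 q50 fun c51 a51_1 a51_2 a51_3 q51 =>
  mulK c30 a30_1 a30_2 a30_3 q30 c33 a33_1 a33_2 a33_3 q33 fun c52 a52_1 a52_2 a52_3 q52 =>
  subK c51 a51_1 a51_2 a51_3 q51 c52 a52_1 a52_2 a52_3 q52 fun c53 a53_1 a53_2 a53_3 q53 =>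
  mulK c47 a47_1 a47_2 a47_3 q47 c53 a53_1 a53_2 a53_3 q53 fun c54 a54_1 a54_2 a54_3 q54 =>
  smulK 2479 5000 5764607523034234885000 2858092409920373653504 c54 a54_1 a54_2 a54_3 q54 fun c55 a55_1 a55_2 a55_3 q55 =>
  negK c55 a55_1 a55_2 a55_3 q55 fun c56 a56_1 a56_2 a56_3 q56 =>
  addcK c56 a56_1 a56_2 a56_3 q56 1152925902653358080 0 fun c58 a58_1 a58_2 a58_3 q58 =>
  mulK c58 a58_1 a58_2 a58_3 q58 c35 a35_1 a35_2 a35_3 q35 fun c60 a60_1 a60_2 a60_3 q60 =>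
  mulK c47 a47_1 a47_2 a47_3 q47 c44 a44_1 a44_2 a44_3 q44 fun c62 a62_1 a62_2 a62_3 q62 =>
  mulK c62 a62_1 a62_2 a62_3 q62 c22 a22_1 a22_2 a22_3 q22 fun c63 a63_1 a63_2 a63_3 q63 =>
  mulK c47 a47_1 a47_2 a47_3 q47 c25 a25_1 a25_2 a25_3 q25 fun c64 a64_1 a64_2 a64_3 q64 =>
  smulK 1971 10000 11529215046068469770000 2272408285580095389696 c64 a64_1 a64_2 a64_3 q64 fun c66 a66_1 a66_2 a66_3 q66 =>
  negK c66 a66_1 a66_2 a66_3 q66 fun c67 a67_1 a67_2 a67_3 q67 =>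
  negK c67 a67_1 a67_2 a67_3 q67 fun c69 a69_1 a69_2 a69_3 q69 =>
  addcK c69 a69_1 a69_2 a69_3 q69 1152920892838577281 1 fun c70 a70_1 a70_2 a70_3 q70 =>
  sqK c47 a47_1 a47_2 a47_3 q47 fun c72 a72_1 a72_2 a72_3 q72 =>
  sqK c20 a20_1 a20_2 a20_3 q20 fun c75 a75_1 a75_2 a75_3 q75 =>
  addK c75 a75_1 a75_2 a75_3 q75 c3 a3_1 a3_2 a3_3 q3 fun c77 a77_1 a77_2 a77_3 q77 =>
  smulK 2 1 1152921504606846977 2305843009213693952 c77 a77_1 a77_2 a77_3 q77 fun c78 a78_1 a78_2 a78_3 q78 =>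
  mulK c72 a72_1 a72_2 a72_3 q72 c78 a78_1 a78_2 a78_3 q78 fun c79 a79_1 a79_2 a79_3 q79 =>
  sqK c64 a64_1 a64_2 a64_3 q64 fun c80 a80_1 a80_2 a80_3 q80 =>
  smulK 4 1 1152921504606846977 4611686018427387904 c80 a80_1 a80_2 a80_3 q80 fun c82 a82_1 a82_2 a82_3 q82 =>
  subK c79 a79_1 a79_2 a79_3 q79 c82 a82_1 a82_2 a82_3 q82 fun c83 a83_1 a83_2 a83_3 q83 =>
  smulK 24 625 720575940379279360625 27670116110564327424 c83 a83_1 a83_2 a83_3 q83 fun c84 a84_1 a84_2 a84_3 q84 =>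
  addK c70 a70_1 a70_2 a70_3 q70 c84 a84_1 a84_2 a84_3 q84 fun c85 a85_1 a85_2 a85_3 q85 =>
  negK c64 a64_1 a64_2 a64_3 q64 fun c87 a87_1 a87_2 a87_3 q87 =>
  addcK c87 a87_1 a87_2 a87_3 q87 1152923703630102528 0 fun c88 a88_1 a88_2 a88_3 q88 =>
  smulK 2 1 1152921504606846977 2305843009213693952 z1 (Nat.add w1 1152921504606846976) 1152921504606846976 1152921504606846976 0 fun c91 a91_1 a91_2 a91_3 q91 =>
  mulK c91 a91_1 a91_2 a91_3 q91 c40 a40_1 a40_2 a40_3 q40 fun c92 a92_1 a92_2 a92_3 q92 =>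
  mulK c44 a44_1 a44_2 a44_3 q44 z2 1152921504606846976 (Nat.add w2 1152921504606846976) 1152921504606846976 0 fun c94 a94_1 a94_2 a94_3 q94 =>
  sqK c94 a94_1 a94_2 a94_3 q94 fun c96 a96_1 a96_2 a96_3 q96 =>
  negK c96 a96_1 a96_2 a96_3 q96 fun c98 a98_1 a98_2 a98_3 q98 =>
  addcK c98 a98_1 a98_2 a98_3 q98 1152922604118474752 0 fun c99 a99_1 a99_2 a99_3 q99 =>
  sqrtK c99 a99_1 a99_2 a99_3 q99 fun c101 a101_1 a101_2 a101_3 q101 =>
  mulK c92 a92_1 a92_2 a92_3 q92 c101 a101_1 a101_2 a101_3 q101 fun c103 a103_1 a103_2 a103_3 q103 =>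
  sqK c103 a103_1 a103_2 a103_3 q103 fun c105 a105_1 a105_2 a105_3 q105 =>
  mulK c72 a72_1 a72_2 a72_3 q72 c16 a16_1 a16_2 a16_3 q16 fun c107 a107_1 a107_2 a107_3 q107 =>
  addK c105 a105_1 a105_2 a105_3 q105 c107 a107_1 a107_2 a107_3 q107 fun c108 a108_1 a108_2 a108_3 q108 =>
  sqrtK c108 a108_1 a108_2 a108_3 q108 fun c109 a109_1 a109_2 a109_3 q109 =>
  smulK 2 1 1152921504606846977 2305843009213693952 c109 a109_1 a109_2 a109_3 q109 fun c111 a111_1 a111_2 a111_3 q111 =>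
  addK c88 a88_1 a88_2 a88_3 q88 c111 a111_1 a111_2 a111_3 q111 fun c112 a112_1 a112_2 a112_3 q112 =>
  sqrtK c112 a112_1 a112_2 a112_3 q112 fun c113 a113_1 a113_2 a113_3 q113 =>
  addK c92 a92_1 a92_2 a92_3 q92 c101 a101_1 a101_2 a101_3 q101 fun c115 a115_1 a115_2 a115_3 q115 =>
  addK c113 a113_1 a113_2 a113_3 q113 c115 a115_1 a115_2 a115_3 q115 fun c117 a117_1 a117_2 a117_3 q117 =>
  invK c117 a117_1 a117_2 a117_3 q117 fun c118 a118_1 a118_2 a118_3 q118 =>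
  mulK c113 a113_1 a113_2 a113_3 q113 c115 a115_1 a115_2 a115_3 q115 fun c119 a119_1 a119_2 a119_3 q119 =>
  addK c119 a119_1 a119_2 a119_3 q119 c88 a88_1 a88_2 a88_3 q88 fun c120 a120_1 a120_2 a120_3 q120 =>
  invK c120 a120_1 a120_2 a120_3 q120 fun c121 a121_1 a121_2 a121_3 q121 =>
  addK c88 a88_1 a88_2 a88_3 q88 c103 a103_1 a103_2 a103_3 q103 fun c122 a122_1 a122_2 a122_3 q122 =>
  mulK c122 a122_1 a122_2 a122_3 q122 c121 a121_1 a121_2 a121_3 q121 fun c123 a123_1 a123_2 a123_3 q123 =>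
  addcK c123 a123_1 a123_2 a123_3 q123 1152922604118474752 0 fun c125 a125_1 a125_2 a125_3 q125 =>
  mulK c125 a125_1 a125_2 a125_3 q125 c118 a118_1 a118_2 a118_3 q118 fun c127 a127_1 a127_2 a127_3 q127 =>
  addK c85 a85_1 a85_2 a85_3 q85 c127 a127_1 a127_2 a127_3 q127 fun c130 a130_1 a130_2 a130_3 q130 =>
  mulK c63 a63_1 a63_2 a63_3 q63 c130 a130_1 a130_2 a130_3 q130 fun c131 a131_1 a131_2 a131_3 q131 =>
  addK c60 a60_1 a60_2 a60_3 q60 c131 a131_1 a131_2 a131_3 q131 fun c132 a132_1 a132_2 a132_3 q132 =>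
  mulK c132 a132_1 a132_2 a132_3 q132 c24 a24_1 a24_2 a24_3 q24 fun c134 a134_1 a134_2 a134_3 q134 =>
  mulK c11 a11_1 a11_2 a11_3 q11 c134 a134_1 a134_2 a134_3 q134 fun c137 a137_1 a137_2 a137_3 q137 =>
  smulK 3 5 5764607523034234885 3458764513820540928 z3 1152921504606846976 1152921504606846976 (Nat.add w3 1152921504606846976) 0 fun c139 a139_1 a139_2 a139_3 q139 =>
  addcK c139 a139_1 a139_2 a139_3 q139 1152921394655684198 1 fun c140 a140_1 a140_2 a140_3 q140 =>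
  addcK c92 a92_1 a92_2 a92_3 q92 1152920405095219200 0 fun c142 a142_1 a142_2 a142_3 q142 =>
  negK c44 a44_1 a44_2 a44_3 q44 fun c144 a144_1 a144_2 a144_3 q144 =>
  addcK c144 a144_1 a144_2 a144_3 q144 1152922604118474752 0 fun c145 a145_1 a145_2 a145_3 q145 =>
  smulK 2 1 1152921504606846977 2305843009213693952 c145 a145_1 a145_2 a145_3 q145 fun c147 a147_1 a147_2 a147_3 q147 =>
  addK c142 a142_1 a142_2 a142_3 q142 c147 a147_1 a147_2 a147_3 q147 fun c149 a149_1 a149_2 a149_3 q149 =>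
  addcK c92 a92_1 a92_2 a92_3 q92 1152922604118474752 0 fun c150 a150_1 a150_2 a150_3 q150 =>
  invK c150 a150_1 a150_2 a150_3 q150 fun c152 a152_1 a152_2 a152_3 q152 =>
  mulK c44 a44_1 a44_2 a44_3 q44 c152 a152_1 a152_2 a152_3 q152 fun c153 a153_1 a153_2 a153_3 q153 =>
  addK c149 a149_1 a149_2 a149_3 q149 c153 a153_1 a153_2 a153_3 q153 fun c155 a155_1 a155_2 a155_3 q155 =>
  mulK c140 a140_1 a140_2 a140_3 q140 c155 a155_1 a155_2 a155_3 q155 fun c157 a157_1 a157_2 a157_3 q157 =>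
  negK c139 a139_1 a139_2 a139_3 q139 fun c158 a158_1 a158_2 a158_3 q158 =>
  addcK c158 a158_1 a158_2 a158_3 q158 1152922615113591030 1 fun c159 a159_1 a159_2 a159_3 q159 =>
  addcK c101 a101_1 a101_2 a101_3 q101 1152922604118474752 0 fun c161 a161_1 a161_2 a161_3 q161 =>
  smulK 2 1 1152921504606846977 2305843009213693952 c94 a94_1 a94_2 a94_3 q94 fun c163 a163_1 a163_2 a163_3 q163 =>
  subK c161 a161_1 a161_2 a161_3 q161 c163 a163_1 a163_2 a163_3 q163 fun c164 a164_1 a164_2 a164_3 q164 =>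
  invK c161 a161_1 a161_2 a161_3 q161 fun c165 a165_1 a165_2 a165_3 q165 =>
  mulK c94 a94_1 a94_2 a94_3 q94 c165 a165_1 a165_2 a165_3 q165 fun c166 a166_1 a166_2 a166_3 q166 =>
  addK c164 a164_1 a164_2 a164_3 q164 c166 a166_1 a166_2 a166_3 q166 fun c168 a168_1 a168_2 a168_3 q168 =>
  mulK z2 1152921504606846976 (Nat.add w2 1152921504606846976) 1152921504606846976 0 c168 a168_1 a168_2 a168_3 q168 fun c170 a170_1 a170_2 a170_3 q170 =>
  mulK c159 a159_1 a159_2 a159_3 q159 c170 a170_1 a170_2 a170_3 q170 fun c172 a172_1 a172_2 a172_3 q172 =>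
  addK c157 a157_1 a157_2 a157_3 q157 c172 a172_1 a172_2 a172_3 q172 fun c173 a173_1 a173_2 a173_3 q173 =>
  mulK c94 a94_1 a94_2 a94_3 q94 z2 1152921504606846976 (Nat.add w2 1152921504606846976) 1152921504606846976 0 fun c174 a174_1 a174_2 a174_3 q174 =>
  smulK 9 1000 1152921504606846977000 10376293541461622784 c174 a174_1 a174_2 a174_3 q174 fun c175 a175_1 a175_2 a175_3 q175 =>
  addK c173 a173_1 a173_2 a173_3 q173 c175 a175_1 a175_2 a175_3 q175 fun c176 a176_1 a176_2 a176_3 q176 =>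
  smulK 2 1 1152921504606846977 2305843009213693952 c176 a176_1 a176_2 a176_3 q176 fun c178 a178_1 a178_2 a178_3 q178 =>
  addK c137 a137_1 a137_2 a137_3 q137 c178 a178_1 a178_2 a178_3 q178 fun c179 a179_1 a179_2 a179_3 q179 =>
  posK c179 a179_1 a179_2 a179_3 q179 <|
  mulK c134 a134_1 a134_2 a134_3 q134 c179 a179_1 a179_2 a179_3 q179 fun c181 a181_1 a181_2 a181_3 q181 =>
  mulK z2 1152921504606846976 (Nat.add w2 1152921504606846976) 1152921504606846976 0 c101 a101_1 a101_2 a101_3 q101 fun c182 a182_1 a182_2 a182_3 q182 =>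
  addK c92 a92_1 a92_2 a92_3 q92 c182 a182_1 a182_2 a182_3 q182 fun c183 a183_1 a183_2 a183_3 q183 =>
  invK c183 a183_1 a183_2 a183_3 q183 fun c184 a184_1 a184_2 a184_3 q184 =>
  mulK c47 a47_1 a47_2 a47_3 q47 c25 a25_1 a25_2 a25_3 q25 fun c185 a185_1 a185_2 a185_3 q185 =>
  negK c185 a185_1 a185_2 a185_3 q185 fun c186 a186_1 a186_2 a186_3 q186 =>
  addcK c186 a186_1 a186_2 a186_3 q186 1152922604118474752 0 fun c187 a187_1 a187_2 a187_3 q187 =>
  mulK c187 a187_1 a187_2 a187_3 q187 c184 a184_1 a184_2 a184_3 q184 fun c189 a189_1 a189_2 a189_3 q189 =>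
  addcK z2 1152921504606846976 (Nat.add w2 1152921504606846976) 1152921504606846976 0 1152922604118474752 0 fun c191 a191_1 a191_2 a191_3 q191 =>
  invK c191 a191_1 a191_2 a191_3 q191 fun c193 a193_1 a193_2 a193_3 q193 =>
  addK c189 a189_1 a189_2 a189_3 q189 c193 a193_1 a193_2 a193_3 q193 fun c195 a195_1 a195_2 a195_3 q195 =>
  invK c115 a115_1 a115_2 a115_3 q115 fun c196 a196_1 a196_2 a196_3 q196 =>
  addcK c196 a196_1 a196_2 a196_3 q196 1152919305583591424 0 fun c198 a198_1 a198_2 a198_3 q198 =>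
  mulK c44 a44_1 a44_2 a44_3 q44 c198 a198_1 a198_2 a198_3 q198 fun c200 a200_1 a200_2 a200_3 q200 =>
  addK c195 a195_1 a195_2 a195_3 q195 c200 a200_1 a200_2 a200_3 q200 fun c201 a201_1 a201_2 a201_3 q201 =>
  smulK 14 25 28823037615171174425 16140901064495857664 c201 a201_1 a201_2 a201_3 q201 fun c203 a203_1 a203_2 a203_3 q203 =>
  addK c44 a44_1 a44_2 a44_3 q44 c203 a203_1 a203_2 a203_3 q203 fun c204 a204_1 a204_2 a204_3 q204 =>
  sqK c204 a204_1 a204_2 a204_3 q204 fun c206 a206_1 a206_2 a206_3 q206 =>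
  subK c181 a181_1 a181_2 a181_3 q181 c206 a206_1 a206_2 a206_3 q206 fun c208 a208_1 a208_2 a208_3 q208 =>
  pos c208 a208_1 a208_2 a208_3 q208

theorem alt0_s {z1 w1 z2 w2 z3 w3 : ℕ} {e1 e2 e3 u ta s : ℝ} (he : Ev e1 e2 e3)
    (hx1 : In e1 e2 e3 z1 (Nat.add w1 1152921504606846976) 1152921504606846976 1152921504606846976 0 u)
    (hx2 : In e1 e2 e3 z2 1152921504606846976 (Nat.add w2 1152921504606846976) 1152921504606846976 0 ta)
    (hx3 : In e1 e2 e3 z3 1152921504606846976 1152921504606846976 (Nat.add w3 1152921504606846976) 0 s)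
    (H0 : alt0 z1 w1 z2 w2 z3 w3 = true) : 0 < (a u ta s) ∧ 0 < (((k u ta s) * (a u ta s)) - ((Z u ta s) * (Z u ta s))) := by
  unfold alt0 at H0
  refine sqK_s he hx3 (fun _ _ _ _ _ h1 H1 => ?_) H0
  have h2 := In_cast h1 (sq _)
  refine sqK_s he hx2 (fun _ _ _ _ _ h3 H2 => ?_) H1
  have h4 := In_cast h3 (sq _)
  refine negK_s he h4 (fun _ _ _ _ _ h5 H3 => ?_) H2
  refine addcK_s he h5 (v' := (1:ℝ)) (by norm_num [SS, BB, abs_le]) (fun _ _ _ _ _ h6 H4 => ?_) H3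
  have h7 := In_cast h6 (neg_add_eq_sub _ _)
  have h8 := In_cast (w := (d u ta s)) h7 rfl
  refine sqK_s he h8 (fun _ _ _ _ _ h9 H5 => ?_) H4
  have h10 := In_cast h9 (sq _)
  refine mulK_s he h2 h10 (fun _ _ _ _ _ h11 H6 => ?_) H5
  refine mulK_s he hx3 h8 (fun _ _ _ _ _ h12 H7 => ?_) H6
  refine smulK_s he (w := (1/2:ℝ)) (by norm_num) (by norm_num) (by norm_num) (by norm_num) h12 (fun _ _ _ _ _ h13 H8 => ?_) H7
  have h14 := In_cast h13 (div_c (c := (2:ℝ)) (by norm_num))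
  have h15 := In_cast (w := (hh u ta s)) h14 rfl
  refine sqK_s he h15 (fun _ _ _ _ _ h16 H9 => ?_) H8
  have h17 := In_cast h16 (sq _)
  have h18 := In_cast (w := (hq u ta s)) h17 rfl
  refine addK_s he h4 h18 (fun _ _ _ _ _ h19 H10 => ?_) H9
  refine sqrtK_s he h19 (fun _ _ _ _ _ h20 H11 => ?_) H10
  have h21 := In_cast (w := (om u ta s)) h20 rfl
  refine addK_s he h21 hx2 (fun _ _ _ _ _ h22 H12 => ?_) H11
  refine smulK_s he (w := (4:ℝ)) (by norm_num) (by norm_num) (by norm_num) (by norm_num) h22 (fun _ _ _ _ _ h23 H13 => ?_) H12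
  refine invK_s he h23 (fun _ _ _ _ _ h24 H14 => ?_) H13
  refine addcK_s he h4 (v' := (1:ℝ)) (by norm_num [SS, BB, abs_le]) (fun _ _ _ _ _ h25 H15 => ?_) H14
  have h26 := In_cast h25 (add_comm _ _)
  have h27 := In_cast (w := (Ph u ta s)) h26 rfl
  refine smulK_s he (w := (2:ℝ)) (by norm_num) (by norm_num) (by norm_num) (by norm_num) h21 (fun _ _ _ _ _ h28 H16 => ?_) H15
  refine addK_s he h27 h28 (fun _ _ _ _ _ h29 H17 => ?_) H16
  refine sqrtK_s he h29 (fun _ _ _ _ _ h30 H18 => ?_) H17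
  have h31 := In_cast (w := (sg u ta s)) h30 rfl
  refine addcK_s he h31 (v' := (1:ℝ)) (by norm_num [SS, BB, abs_le]) (fun _ _ _ _ _ h32 H19 => ?_) H18
  refine addK_s he h32 hx2 (fun _ _ _ _ _ h33 H20 => ?_) H19
  have h34 := In_cast (w := (ss u ta s)) h33 rfl
  refine invK_s he h34 (fun _ _ _ _ _ h35 H21 => ?_) H20
  refine sqK_s he hx1 (fun _ _ _ _ _ h36 H22 => ?_) H21
  have h37 := In_cast h36 (sq _)
  refine addcK_s he h37 (v' := (1:ℝ)) (by norm_num [SS, BB, abs_le]) (fun _ _ _ _ _ h38 H23 => ?_) H22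
  have h39 := In_cast h38 (add_comm _ _)
  refine invK_s he h39 (fun _ _ _ _ _ h40 H24 => ?_) H23
  have h41 := In_cast h40 (inv_eq_one_div _)
  have h42 := In_cast (w := (iu u ta s)) h41 rfl
  refine smulK_s he (w := (2:ℝ)) (by norm_num) (by norm_num) (by norm_num) (by norm_num) h42 (fun _ _ _ _ _ h43 H25 => ?_) H24
  refine addcK_s he h43 (v' := (-1:ℝ)) (by norm_num [SS, BB, abs_le]) (fun _ _ _ _ _ h44 H26 => ?_) H25
  have h45 := In_cast h44 (sub_c (c := (1:ℝ)) (by norm_num))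
  have h46 := In_cast (w := (R u ta s)) h45 rfl
  refine sqK_s he h46 (fun _ _ _ _ _ h47 H27 => ?_) H26
  have h48 := In_cast h47 (sq _)
  have h49 := In_cast (w := (R2 u ta s)) h48 rfl
  refine subK_s he h27 hx2 (fun _ _ _ _ _ h50 H28 => ?_) H27
  refine smulK_s he (w := (2:ℝ)) (by norm_num) (by norm_num) (by norm_num) (by norm_num) h50 (fun _ _ _ _ _ h51 H29 => ?_) H28
  refine mulK_s he h31 h34 (fun _ _ _ _ _ h52 H30 => ?_) H29
  refine subK_s he h51 h52 (fun _ _ _ _ _ h53 H31 => ?_) H30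
  refine mulK_s he h49 h53 (fun _ _ _ _ _ h54 H32 => ?_) H31
  refine smulK_s he (w := (2479/5000:ℝ)) (by norm_num) (by norm_num) (by norm_num) (by norm_num) h54 (fun _ _ _ _ _ h55 H33 => ?_) H32
  refine negK_s he h55 (fun _ _ _ _ _ h56 H34 => ?_) H33
  have h57 := In_cast h56 (neg_mul_c (c := (-2479/5000:ℝ)) (by norm_num))
  refine addcK_s he h57 (v' := (4:ℝ)) (by norm_num [SS, BB, abs_le]) (fun _ _ _ _ _ h58 H35 => ?_) H34
  have h59 := In_cast h58 (add_comm _ _)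
  refine mulK_s he h59 h35 (fun _ _ _ _ _ h60 H36 => ?_) H35
  have h61 := In_cast h60 ((div_eq_mul_inv _ _).symm)
  refine mulK_s he h49 h46 (fun _ _ _ _ _ h62 H37 => ?_) H36
  refine mulK_s he h62 h22 (fun _ _ _ _ _ h63 H38 => ?_) H37
  refine mulK_s he h49 h27 (fun _ _ _ _ _ h64 H39 => ?_) H38
  have h65 := In_cast (w := (P u ta s)) h64 rfl
  refine smulK_s he (w := (1971/10000:ℝ)) (by norm_num) (by norm_num) (by norm_num) (by norm_num) h65 (fun _ _ _ _ _ h66 H40 => ?_) H39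
  refine negK_s he h66 (fun _ _ _ _ _ h67 H41 => ?_) H40
  have h68 := In_cast h67 (neg_mul_c (c := (-1971/10000:ℝ)) (by norm_num))
  refine negK_s he h68 (fun _ _ _ _ _ h69 H42 => ?_) H41
  refine addcK_s he h69 (v' := (-1391/2500:ℝ)) (by norm_num [SS, BB, abs_le]) (fun _ _ _ _ _ h70 H43 => ?_) H42
  have h71 := In_cast h70 (neg_add_eq_sub _ _)
  refine sqK_s he h49 (fun _ _ _ _ _ h72 H44 => ?_) H43
  have h73 := In_cast h72 (sq _)
  have h74 := In_cast (w := (R4 u ta s)) h73 rfl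
  refine sqK_s he h21 (fun _ _ _ _ _ h75 H45 => ?_) H44
  have h76 := In_cast h75 (sq _)
  refine addK_s he h76 h4 (fun _ _ _ _ _ h77 H46 => ?_) H45
  refine smulK_s he (w := (2:ℝ)) (by norm_num) (by norm_num) (by norm_num) (by norm_num) h77 (fun _ _ _ _ _ h78 H47 => ?_) H46
  refine mulK_s he h74 h78 (fun _ _ _ _ _ h79 H48 => ?_) H47
  refine sqK_s he h65 (fun _ _ _ _ _ h80 H49 => ?_) H48
  have h81 := In_cast h80 (sq _)
  refine smulK_s he (w := (4:ℝ)) (by norm_num) (by norm_num) (by norm_num) (by norm_num) h81 (fun _ _ _ _ _ h82 H50 => ?_) H49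
  refine subK_s he h79 h82 (fun _ _ _ _ _ h83 H51 => ?_) H50
  refine smulK_s he (w := (24/625:ℝ)) (by norm_num) (by norm_num) (by norm_num) (by norm_num) h83 (fun _ _ _ _ _ h84 H52 => ?_) H51
  refine addK_s he h71 h84 (fun _ _ _ _ _ h85 H53 => ?_) H52
  have h86 := In_cast (w := (Gp u ta s)) h85 rfl
  refine negK_s he h65 (fun _ _ _ _ _ h87 H54 => ?_) H53
  refine addcK_s he h87 (v' := (2:ℝ)) (by norm_num [SS, BB, abs_le]) (fun _ _ _ _ _ h88 H55 => ?_) H54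
  have h89 := In_cast h88 (neg_add_eq_sub _ _)
  have h90 := In_cast (w := (Pp u ta s)) h89 rfl
  refine smulK_s he (w := (2:ℝ)) (by norm_num) (by norm_num) (by norm_num) (by norm_num) hx1 (fun _ _ _ _ _ h91 H56 => ?_) H55
  refine mulK_s he h91 h42 (fun _ _ _ _ _ h92 H57 => ?_) H56
  have h93 := In_cast (w := (t0 u ta s)) h92 rfl
  refine mulK_s he h46 hx2 (fun _ _ _ _ _ h94 H58 => ?_) H57
  have h95 := In_cast (w := (r1 u ta s)) h94 rfl
  refine sqK_s he h95 (fun _ _ _ _ _ h96 H59 => ?_) H58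
  have h97 := In_cast h96 (sq _)
  refine negK_s he h97 (fun _ _ _ _ _ h98 H60 => ?_) H59
  refine addcK_s he h98 (v' := (1:ℝ)) (by norm_num [SS, BB, abs_le]) (fun _ _ _ _ _ h99 H61 => ?_) H60
  have h100 := In_cast h99 (neg_add_eq_sub _ _)
  refine sqrtK_s he h100 (fun _ _ _ _ _ h101 H62 => ?_) H61
  have h102 := In_cast (w := (t1 u ta s)) h101 rfl
  refine mulK_s he h93 h102 (fun _ _ _ _ _ h103 H63 => ?_) H62
  have h104 := In_cast (w := (b0 u ta s)) h103 rfl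
  refine sqK_s he h104 (fun _ _ _ _ _ h105 H64 => ?_) H63
  have h106 := In_cast h105 (sq _)
  refine mulK_s he h74 h18 (fun _ _ _ _ _ h107 H65 => ?_) H64
  refine addK_s he h106 h107 (fun _ _ _ _ _ h108 H66 => ?_) H65
  refine sqrtK_s he h108 (fun _ _ _ _ _ h109 H67 => ?_) H66
  have h110 := In_cast (w := (b u ta s)) h109 rfl
  refine smulK_s he (w := (2:ℝ)) (by norm_num) (by norm_num) (by norm_num) (by norm_num) h110 (fun _ _ _ _ _ h111 H68 => ?_) H67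
  refine addK_s he h90 h111 (fun _ _ _ _ _ h112 H69 => ?_) H68
  refine sqrtK_s he h112 (fun _ _ _ _ _ h113 H70 => ?_) H69
  have h114 := In_cast (w := (v u ta s)) h113 rfl
  refine addK_s he h93 h102 (fun _ _ _ _ _ h115 H71 => ?_) H70
  have h116 := In_cast (w := (v0 u ta s)) h115 rfl
  refine addK_s he h114 h116 (fun _ _ _ _ _ h117 H72 => ?_) H71
  refine invK_s he h117 (fun _ _ _ _ _ h118 H73 => ?_) H72
  refine mulK_s he h114 h116 (fun _ _ _ _ _ h119 H74 => ?_) H73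
  refine addK_s he h119 h90 (fun _ _ _ _ _ h120 H75 => ?_) H74
  refine invK_s he h120 (fun _ _ _ _ _ h121 H76 => ?_) H75
  refine addK_s he h90 h104 (fun _ _ _ _ _ h122 H77 => ?_) H76
  refine mulK_s he h122 h121 (fun _ _ _ _ _ h123 H78 => ?_) H77
  have h124 := In_cast h123 ((div_eq_mul_inv _ _).symm)
  refine addcK_s he h124 (v' := (1:ℝ)) (by norm_num [SS, BB, abs_le]) (fun _ _ _ _ _ h125 H79 => ?_) H78
  have h126 := In_cast h125 (add_comm _ _)
  refine mulK_s he h126 h118 (fun _ _ _ _ _ h127 H80 => ?_) H79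
  have h128 := In_cast h127 ((div_eq_mul_inv _ _).symm)
  have h129 := In_cast (w := (GW u ta s)) h128 rfl
  refine addK_s he h86 h129 (fun _ _ _ _ _ h130 H81 => ?_) H80
  refine mulK_s he h63 h130 (fun _ _ _ _ _ h131 H82 => ?_) H81
  refine addK_s he h61 h131 (fun _ _ _ _ _ h132 H83 => ?_) H82
  have h133 := In_cast (w := (Ga u ta s)) h132 rfl
  refine mulK_s he h133 h24 (fun _ _ _ _ _ h134 H84 => ?_) H83
  have h135 := In_cast h134 ((div_eq_mul_inv _ _).symm)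
  have h136 := In_cast (w := (k u ta s)) h135 rfl
  refine mulK_s he h11 h136 (fun _ _ _ _ _ h137 H85 => ?_) H84
  have h138 := In_cast (w := (g u ta s)) h137 rfl
  refine smulK_s he (w := (3/5:ℝ)) (by norm_num) (by norm_num) (by norm_num) (by norm_num) hx3 (fun _ _ _ _ _ h139 H86 => ?_) H85
  refine addcK_s he h139 (v' := (-1/10:ℝ)) (by norm_num [SS, BB, abs_le]) (fun _ _ _ _ _ h140 H87 => ?_) H86
  have h141 := In_cast h140 (sub_c (c := (1/10:ℝ)) (by norm_num))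
  refine addcK_s he h93 (v' := (-1:ℝ)) (by norm_num [SS, BB, abs_le]) (fun _ _ _ _ _ h142 H88 => ?_) H87
  have h143 := In_cast h142 (sub_c (c := (1:ℝ)) (by norm_num))
  refine negK_s he h46 (fun _ _ _ _ _ h144 H89 => ?_) H88
  refine addcK_s he h144 (v' := (1:ℝ)) (by norm_num [SS, BB, abs_le]) (fun _ _ _ _ _ h145 H90 => ?_) H89
  have h146 := In_cast h145 (neg_add_eq_sub _ _)
  refine smulK_s he (w := (2:ℝ)) (by norm_num) (by norm_num) (by norm_num) (by norm_num) h146 (fun _ _ _ _ _ h147 H91 => ?_) H90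
  have h148 := In_cast h147 (mul_comm _ _)
  refine addK_s he h143 h148 (fun _ _ _ _ _ h149 H92 => ?_) H91
  refine addcK_s he h93 (v' := (1:ℝ)) (by norm_num [SS, BB, abs_le]) (fun _ _ _ _ _ h150 H93 => ?_) H92
  have h151 := In_cast h150 (add_comm _ _)
  refine invK_s he h151 (fun _ _ _ _ _ h152 H94 => ?_) H93
  refine mulK_s he h46 h152 (fun _ _ _ _ _ h153 H95 => ?_) H94
  have h154 := In_cast h153 ((div_eq_mul_inv _ _).symm)
  refine addK_s he h149 h154 (fun _ _ _ _ _ h155 H96 => ?_) H95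
  have h156 := In_cast (w := (U0 u ta s)) h155 rfl
  refine mulK_s he h141 h156 (fun _ _ _ _ _ h157 H97 => ?_) H96
  refine negK_s he h139 (fun _ _ _ _ _ h158 H98 => ?_) H97
  refine addcK_s he h158 (v' := (101/100:ℝ)) (by norm_num [SS, BB, abs_le]) (fun _ _ _ _ _ h159 H99 => ?_) H98
  have h160 := In_cast h159 (neg_add_eq_sub _ _)
  refine addcK_s he h102 (v' := (1:ℝ)) (by norm_num [SS, BB, abs_le]) (fun _ _ _ _ _ h161 H100 => ?_) H99
  have h162 := In_cast h161 (add_comm _ _)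
  refine smulK_s he (w := (2:ℝ)) (by norm_num) (by norm_num) (by norm_num) (by norm_num) h95 (fun _ _ _ _ _ h163 H101 => ?_) H100
  refine subK_s he h162 h163 (fun _ _ _ _ _ h164 H102 => ?_) H101
  refine invK_s he h162 (fun _ _ _ _ _ h165 H103 => ?_) H102
  refine mulK_s he h95 h165 (fun _ _ _ _ _ h166 H104 => ?_) H103
  have h167 := In_cast h166 ((div_eq_mul_inv _ _).symm)
  refine addK_s he h164 h167 (fun _ _ _ _ _ h168 H105 => ?_) H104
  have h169 := In_cast (w := (U1 u ta s)) h168 rfl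
  refine mulK_s he hx2 h169 (fun _ _ _ _ _ h170 H106 => ?_) H105
  have h171 := In_cast (w := (V1 u ta s)) h170 rfl
  refine mulK_s he h160 h171 (fun _ _ _ _ _ h172 H107 => ?_) H106
  refine addK_s he h157 h172 (fun _ _ _ _ _ h173 H108 => ?_) H107
  refine mulK_s he h95 hx2 (fun _ _ _ _ _ h174 H109 => ?_) H108
  refine smulK_s he (w := (9/1000:ℝ)) (by norm_num) (by norm_num) (by norm_num) (by norm_num) h174 (fun _ _ _ _ _ h175 H110 => ?_) H109
  refine addK_s he h173 h175 (fun _ _ _ _ _ h176 H111 => ?_) H110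
  have h177 := In_cast (w := (L u ta s)) h176 rfl
  refine smulK_s he (w := (2:ℝ)) (by norm_num) (by norm_num) (by norm_num) (by norm_num) h177 (fun _ _ _ _ _ h178 H112 => ?_) H111
  refine addK_s he h138 h178 (fun _ _ _ _ _ h179 H113 => ?_) H112
  have h180 := In_cast (w := (a u ta s)) h179 rfl
  refine posK_s he h180 (fun p0 H114 => ?_) H113
  refine mulK_s he h136 h180 (fun _ _ _ _ _ h181 H115 => ?_) H114
  refine mulK_s he hx2 h102 (fun _ _ _ _ _ h182 H116 => ?_) H115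
  refine addK_s he h93 h182 (fun _ _ _ _ _ h183 H117 => ?_) H116
  refine invK_s he h183 (fun _ _ _ _ _ h184 H118 => ?_) H117
  refine mulK_s he h48 h26 (fun _ _ _ _ _ h185 H119 => ?_) H118
  refine negK_s he h185 (fun _ _ _ _ _ h186 H120 => ?_) H119
  refine addcK_s he h186 (v' := (1:ℝ)) (by norm_num [SS, BB, abs_le]) (fun _ _ _ _ _ h187 H121 => ?_) H120
  have h188 := In_cast h187 (neg_add_eq_sub _ _)
  refine mulK_s he h188 h184 (fun _ _ _ _ _ h189 H122 => ?_) H121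
  have h190 := In_cast h189 ((div_eq_mul_inv _ _).symm)
  refine addcK_s he hx2 (v' := (1:ℝ)) (by norm_num [SS, BB, abs_le]) (fun _ _ _ _ _ h191 H123 => ?_) H122
  have h192 := In_cast h191 (add_comm _ _)
  refine invK_s he h192 (fun _ _ _ _ _ h193 H124 => ?_) H123
  have h194 := In_cast h193 (inv_eq_one_div _)
  refine addK_s he h190 h194 (fun _ _ _ _ _ h195 H125 => ?_) H124
  refine invK_s he h115 (fun _ _ _ _ _ h196 H126 => ?_) H125
  have h197 := In_cast h196 (inv_eq_one_div _)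
  refine addcK_s he h197 (v' := (-2:ℝ)) (by norm_num [SS, BB, abs_le]) (fun _ _ _ _ _ h198 H127 => ?_) H126
  have h199 := In_cast h198 (sub_c (c := (2:ℝ)) (by norm_num))
  refine mulK_s he h46 h199 (fun _ _ _ _ _ h200 H128 => ?_) H127
  refine addK_s he h195 h200 (fun _ _ _ _ _ h201 H129 => ?_) H128
  have h202 := In_cast (w := (Hd u ta s)) h201 rfl
  refine smulK_s he (w := (14/25:ℝ)) (by norm_num) (by norm_num) (by norm_num) (by norm_num) h202 (fun _ _ _ _ _ h203 H130 => ?_) H129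
  refine addK_s he h46 h203 (fun _ _ _ _ _ h204 H131 => ?_) H130
  have h205 := In_cast (w := (Z u ta s)) h204 rfl
  refine sqK_s he h205 (fun _ _ _ _ _ h206 H132 => ?_) H131
  have h207 := In_cast h206 (sq _)
  refine subK_s he h181 h207 (fun _ _ _ _ _ h208 H133 => ?_) H132
  exact ⟨p0, pos_s he h208 H133⟩

noncomputable def alt1 (z1 w1 z2 w2 z3 w3 : ℕ) : Bool :=
  sqK z3 1152921504606846976 1152921504606846976 (Nat.add w3 1152921504606846976) 0 fun c1 a1_1 a1_2 a1_3 q1 =>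
  sqK z2 1152921504606846976 (Nat.add w2 1152921504606846976) 1152921504606846976 0 fun c3 a3_1 a3_2 a3_3 q3 =>
  negK c3 a3_1 a3_2 a3_3 q3 fun c5 a5_1 a5_2 a5_3 q5 =>
  addcK c5 a5_1 a5_2 a5_3 q5 1152922604118474752 0 fun c6 a6_1 a6_2 a6_3 q6 =>
  sqK c6 a6_1 a6_2 a6_3 q6 fun c9 a9_1 a9_2 a9_3 q9 =>
  mulK c1 a1_1 a1_2 a1_3 q1 c9 a9_1 a9_2 a9_3 q9 fun c11 a11_1 a11_2 a11_3 q11 =>
  mulK z3 1152921504606846976 1152921504606846976 (Nat.add w3 1152921504606846976) 0 c6 a6_1 a6_2 a6_3 q6 fun c12 a12_1 a12_2 a12_3 q12 =>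
  smulK 1 2 2305843009213693954 1152921504606846976 c12 a12_1 a12_2 a12_3 q12 fun c13 a13_1 a13_2 a13_3 q13 =>
  sqK c13 a13_1 a13_2 a13_3 q13 fun c16 a16_1 a16_2 a16_3 q16 =>
  addK c3 a3_1 a3_2 a3_3 q3 c16 a16_1 a16_2 a16_3 q16 fun c19 a19_1 a19_2 a19_3 q19 =>
  sqrtK c19 a19_1 a19_2 a19_3 q19 fun c20 a20_1 a20_2 a20_3 q20 =>
  addK c20 a20_1 a20_2 a20_3 q20 z2 1152921504606846976 (Nat.add w2 1152921504606846976) 1152921504606846976 0 fun c22 a22_1 a22_2 a22_3 q22 =>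
  smulK 4 1 1152921504606846977 4611686018427387904 c22 a22_1 a22_2 a22_3 q22 fun c23 a23_1 a23_2 a23_3 q23 =>
  invK c23 a23_1 a23_2 a23_3 q23 fun c24 a24_1 a24_2 a24_3 q24 =>
  addcK c3 a3_1 a3_2 a3_3 q3 1152922604118474752 0 fun c25 a25_1 a25_2 a25_3 q25 =>
  smulK 2 1 1152921504606846977 2305843009213693952 c20 a20_1 a20_2 a20_3 q20 fun c28 a28_1 a28_2 a28_3 q28 =>
  addK c25 a25_1 a25_2 a25_3 q25 c28 a28_1 a28_2 a28_3 q28 fun c29 a29_1 a29_2 a29_3 q29 =>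
  sqrtK c29 a29_1 a29_2 a29_3 q29 fun c30 a30_1 a30_2 a30_3 q30 =>
  addcK c30 a30_1 a30_2 a30_3 q30 1152922604118474752 0 fun c32 a32_1 a32_2 a32_3 q32 =>
  addK c32 a32_1 a32_2 a32_3 q32 z2 1152921504606846976 (Nat.add w2 1152921504606846976) 1152921504606846976 0 fun c33 a33_1 a33_2 a33_3 q33 =>
  invK c33 a33_1 a33_2 a33_3 q33 fun c35 a35_1 a35_2 a35_3 q35 =>
  sqK z1 (Nat.add w1 1152921504606846976) 1152921504606846976 1152921504606846976 0 fun c36 a36_1 a36_2 a36_3 q36 =>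
  addcK c36 a36_1 a36_2 a36_3 q36 1152922604118474752 0 fun c38 a38_1 a38_2 a38_3 q38 =>
  invK c38 a38_1 a38_2 a38_3 q38 fun c40 a40_1 a40_2 a40_3 q40 =>
  smulK 2 1 1152921504606846977 2305843009213693952 c40 a40_1 a40_2 a40_3 q40 fun c43 a43_1 a43_2 a43_3 q43 =>
  addcK c43 a43_1 a43_2 a43_3 q43 1152920405095219200 0 fun c44 a44_1 a44_2 a44_3 q44 =>
  sqK c44 a44_1 a44_2 a44_3 q44 fun c47 a47_1 a47_2 a47_3 q47 =>
  subK c25 a25_1 a25_2 a25_3 q25 z2 1152921504606846976 (Nat.add w2 1152921504606846976) 1152921504606846976 0 fun c50 a50_1 a50_2 a50_3 q50 =>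
  smulK 2 1 1152921504606846977 2305843009213693952 c50 a50_1 a50_2 a50_3 q50 fun c51 a51_1 a51_2 a51_3 q51 =>
  mulK c30 a30_1 a30_2 a30_3 q30 c33 a33_1 a33_2 a33_3 q33 fun c52 a52_1 a52_2 a52_3 q52 =>
  subK c51 a51_1 a51_2 a51_3 q51 c52 a52_1 a52_2 a52_3 q52 fun c53 a53_1 a53_2 a53_3 q53 =>
  mulK c47 a47_1 a47_2 a47_3 q47 c53 a53_1 a53_2 a53_3 q53 fun c54 a54_1 a54_2 a54_3 q54 =>
  smulK 2479 5000 5764607523034234885000 2858092409920373653504 c54 a54_1 a54_2 a54_3 q54 fun c55 a55_1 a55_2 a55_3 q55 =>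
  negK c55 a55_1 a55_2 a55_3 q55 fun c56 a56_1 a56_2 a56_3 q56 =>
  addcK c56 a56_1 a56_2 a56_3 q56 1152925902653358080 0 fun c58 a58_1 a58_2 a58_3 q58 =>
  mulK c58 a58_1 a58_2 a58_3 q58 c35 a35_1 a35_2 a35_3 q35 fun c60 a60_1 a60_2 a60_3 q60 =>
  mulK c47 a47_1 a47_2 a47_3 q47 c44 a44_1 a44_2 a44_3 q44 fun c62 a62_1 a62_2 a62_3 q62 =>
  mulK c62 a62_1 a62_2 a62_3 q62 c22 a22_1 a22_2 a22_3 q22 fun c63 a63_1 a63_2 a63_3 q63 =>
  mulK c47 a47_1 a47_2 a47_3 q47 c25 a25_1 a25_2 a25_3 q25 fun c64 a64_1 a64_2 a64_3 q64 =>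
  smulK 1971 10000 11529215046068469770000 2272408285580095389696 c64 a64_1 a64_2 a64_3 q64 fun c66 a66_1 a66_2 a66_3 q66 =>
  negK c66 a66_1 a66_2 a66_3 q66 fun c67 a67_1 a67_2 a67_3 q67 =>
  negK c67 a67_1 a67_2 a67_3 q67 fun c69 a69_1 a69_2 a69_3 q69 =>
  addcK c69 a69_1 a69_2 a69_3 q69 1152920892838577281 1 fun c70 a70_1 a70_2 a70_3 q70 =>
  sqK c47 a47_1 a47_2 a47_3 q47 fun c72 a72_1 a72_2 a72_3 q72 =>
  sqK c20 a20_1 a20_2 a20_3 q20 fun c75 a75_1 a75_2 a75_3 q75 =>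
  addK c75 a75_1 a75_2 a75_3 q75 c3 a3_1 a3_2 a3_3 q3 fun c77 a77_1 a77_2 a77_3 q77 =>
  smulK 2 1 1152921504606846977 2305843009213693952 c77 a77_1 a77_2 a77_3 q77 fun c78 a78_1 a78_2 a78_3 q78 =>
  mulK c72 a72_1 a72_2 a72_3 q72 c78 a78_1 a78_2 a78_3 q78 fun c79 a79_1 a79_2 a79_3 q79 =>
  sqK c64 a64_1 a64_2 a64_3 q64 fun c80 a80_1 a80_2 a80_3 q80 =>
  smulK 4 1 1152921504606846977 4611686018427387904 c80 a80_1 a80_2 a80_3 q80 fun c82 a82_1 a82_2 a82_3 q82 =>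
  subK c79 a79_1 a79_2 a79_3 q79 c82 a82_1 a82_2 a82_3 q82 fun c83 a83_1 a83_2 a83_3 q83 =>
  smulK 24 625 720575940379279360625 27670116110564327424 c83 a83_1 a83_2 a83_3 q83 fun c84 a84_1 a84_2 a84_3 q84 =>
  addK c70 a70_1 a70_2 a70_3 q70 c84 a84_1 a84_2 a84_3 q84 fun c85 a85_1 a85_2 a85_3 q85 =>
  negK c64 a64_1 a64_2 a64_3 q64 fun c87 a87_1 a87_2 a87_3 q87 =>
  addcK c87 a87_1 a87_2 a87_3 q87 1152923703630102528 0 fun c88 a88_1 a88_2 a88_3 q88 =>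
  smulK 2 1 1152921504606846977 2305843009213693952 z1 (Nat.add w1 1152921504606846976) 1152921504606846976 1152921504606846976 0 fun c91 a91_1 a91_2 a91_3 q91 =>
  mulK c91 a91_1 a91_2 a91_3 q91 c40 a40_1 a40_2 a40_3 q40 fun c92 a92_1 a92_2 a92_3 q92 =>
  mulK c44 a44_1 a44_2 a44_3 q44 z2 1152921504606846976 (Nat.add w2 1152921504606846976) 1152921504606846976 0 fun c94 a94_1 a94_2 a94_3 q94 =>
  sqK c94 a94_1 a94_2 a94_3 q94 fun c96 a96_1 a96_2 a96_3 q96 =>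
  negK c96 a96_1 a96_2 a96_3 q96 fun c98 a98_1 a98_2 a98_3 q98 =>
  addcK c98 a98_1 a98_2 a98_3 q98 1152922604118474752 0 fun c99 a99_1 a99_2 a99_3 q99 =>
  sqrtK c99 a99_1 a99_2 a99_3 q99 fun c101 a101_1 a101_2 a101_3 q101 =>
  mulK c92 a92_1 a92_2 a92_3 q92 c101 a101_1 a101_2 a101_3 q101 fun c103 a103_1 a103_2 a103_3 q103 =>
  sqK c103 a103_1 a103_2 a103_3 q103 fun c105 a105_1 a105_2 a105_3 q105 =>
  mulK c72 a72_1 a72_2 a72_3 q72 c16 a16_1 a16_2 a16_3 q16 fun c107 a107_1 a107_2 a107_3 q107 =>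
  addK c105 a105_1 a105_2 a105_3 q105 c107 a107_1 a107_2 a107_3 q107 fun c108 a108_1 a108_2 a108_3 q108 =>
  sqrtK c108 a108_1 a108_2 a108_3 q108 fun c109 a109_1 a109_2 a109_3 q109 =>
  smulK 2 1 1152921504606846977 2305843009213693952 c109 a109_1 a109_2 a109_3 q109 fun c111 a111_1 a111_2 a111_3 q111 =>
  addK c88 a88_1 a88_2 a88_3 q88 c111 a111_1 a111_2 a111_3 q111 fun c112 a112_1 a112_2 a112_3 q112 =>
  sqrtK c112 a112_1 a112_2 a112_3 q112 fun c113 a113_1 a113_2 a113_3 q113 =>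
  addK c92 a92_1 a92_2 a92_3 q92 c101 a101_1 a101_2 a101_3 q101 fun c115 a115_1 a115_2 a115_3 q115 =>
  addK c113 a113_1 a113_2 a113_3 q113 c115 a115_1 a115_2 a115_3 q115 fun c117 a117_1 a117_2 a117_3 q117 =>
  invK c117 a117_1 a117_2 a117_3 q117 fun c118 a118_1 a118_2 a118_3 q118 =>
  mulK c113 a113_1 a113_2 a113_3 q113 c115 a115_1 a115_2 a115_3 q115 fun c119 a119_1 a119_2 a119_3 q119 =>
  addK c119 a119_1 a119_2 a119_3 q119 c88 a88_1 a88_2 a88_3 q88 fun c120 a120_1 a120_2 a120_3 q120 =>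
  invK c120 a120_1 a120_2 a120_3 q120 fun c121 a121_1 a121_2 a121_3 q121 =>
  addK c88 a88_1 a88_2 a88_3 q88 c103 a103_1 a103_2 a103_3 q103 fun c122 a122_1 a122_2 a122_3 q122 =>
  mulK c122 a122_1 a122_2 a122_3 q122 c121 a121_1 a121_2 a121_3 q121 fun c123 a123_1 a123_2 a123_3 q123 =>
  addcK c123 a123_1 a123_2 a123_3 q123 1152922604118474752 0 fun c125 a125_1 a125_2 a125_3 q125 =>
  mulK c125 a125_1 a125_2 a125_3 q125 c118 a118_1 a118_2 a118_3 q118 fun c127 a127_1 a127_2 a127_3 q127 =>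
  addK c85 a85_1 a85_2 a85_3 q85 c127 a127_1 a127_2 a127_3 q127 fun c130 a130_1 a130_2 a130_3 q130 =>
  mulK c63 a63_1 a63_2 a63_3 q63 c130 a130_1 a130_2 a130_3 q130 fun c131 a131_1 a131_2 a131_3 q131 =>
  addK c60 a60_1 a60_2 a60_3 q60 c131 a131_1 a131_2 a131_3 q131 fun c132 a132_1 a132_2 a132_3 q132 =>
  mulK c132 a132_1 a132_2 a132_3 q132 c24 a24_1 a24_2 a24_3 q24 fun c134 a134_1 a134_2 a134_3 q134 =>
  mulK c11 a11_1 a11_2 a11_3 q11 c134 a134_1 a134_2 a134_3 q134 fun c137 a137_1 a137_2 a137_3 q137 =>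
  smulK 3 5 5764607523034234885 3458764513820540928 z3 1152921504606846976 1152921504606846976 (Nat.add w3 1152921504606846976) 0 fun c139 a139_1 a139_2 a139_3 q139 =>
  addcK c139 a139_1 a139_2 a139_3 q139 1152921394655684198 1 fun c140 a140_1 a140_2 a140_3 q140 =>
  addcK c92 a92_1 a92_2 a92_3 q92 1152920405095219200 0 fun c142 a142_1 a142_2 a142_3 q142 =>
  negK c44 a44_1 a44_2 a44_3 q44 fun c144 a144_1 a144_2 a144_3 q144 =>
  addcK c144 a144_1 a144_2 a144_3 q144 1152922604118474752 0 fun c145 a145_1 a145_2 a145_3 q145 =>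
  smulK 2 1 1152921504606846977 2305843009213693952 c145 a145_1 a145_2 a145_3 q145 fun c147 a147_1 a147_2 a147_3 q147 =>
  addK c142 a142_1 a142_2 a142_3 q142 c147 a147_1 a147_2 a147_3 q147 fun c149 a149_1 a149_2 a149_3 q149 =>
  addcK c92 a92_1 a92_2 a92_3 q92 1152922604118474752 0 fun c150 a150_1 a150_2 a150_3 q150 =>
  invK c150 a150_1 a150_2 a150_3 q150 fun c152 a152_1 a152_2 a152_3 q152 =>
  mulK c44 a44_1 a44_2 a44_3 q44 c152 a152_1 a152_2 a152_3 q152 fun c153 a153_1 a153_2 a153_3 q153 =>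
  addK c149 a149_1 a149_2 a149_3 q149 c153 a153_1 a153_2 a153_3 q153 fun c155 a155_1 a155_2 a155_3 q155 =>
  mulK c140 a140_1 a140_2 a140_3 q140 c155 a155_1 a155_2 a155_3 q155 fun c157 a157_1 a157_2 a157_3 q157 =>
  negK c139 a139_1 a139_2 a139_3 q139 fun c158 a158_1 a158_2 a158_3 q158 =>
  addcK c158 a158_1 a158_2 a158_3 q158 1152922615113591030 1 fun c159 a159_1 a159_2 a159_3 q159 =>
  addcK c101 a101_1 a101_2 a101_3 q101 1152922604118474752 0 fun c161 a161_1 a161_2 a161_3 q161 =>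
  smulK 2 1 1152921504606846977 2305843009213693952 c94 a94_1 a94_2 a94_3 q94 fun c163 a163_1 a163_2 a163_3 q163 =>
  subK c161 a161_1 a161_2 a161_3 q161 c163 a163_1 a163_2 a163_3 q163 fun c164 a164_1 a164_2 a164_3 q164 =>
  invK c161 a161_1 a161_2 a161_3 q161 fun c165 a165_1 a165_2 a165_3 q165 =>
  mulK c94 a94_1 a94_2 a94_3 q94 c165 a165_1 a165_2 a165_3 q165 fun c166 a166_1 a166_2 a166_3 q166 =>
  addK c164 a164_1 a164_2 a164_3 q164 c166 a166_1 a166_2 a166_3 q166 fun c168 a168_1 a168_2 a168_3 q168 =>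
  mulK z2 1152921504606846976 (Nat.add w2 1152921504606846976) 1152921504606846976 0 c168 a168_1 a168_2 a168_3 q168 fun c170 a170_1 a170_2 a170_3 q170 =>
  mulK c159 a159_1 a159_2 a159_3 q159 c170 a170_1 a170_2 a170_3 q170 fun c172 a172_1 a172_2 a172_3 q172 =>
  addK c157 a157_1 a157_2 a157_3 q157 c172 a172_1 a172_2 a172_3 q172 fun c173 a173_1 a173_2 a173_3 q173 =>
  mulK c94 a94_1 a94_2 a94_3 q94 z2 1152921504606846976 (Nat.add w2 1152921504606846976) 1152921504606846976 0 fun c174 a174_1 a174_2 a174_3 q174 =>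
  smulK 9 1000 1152921504606846977000 10376293541461622784 c174 a174_1 a174_2 a174_3 q174 fun c175 a175_1 a175_2 a175_3 q175 =>
  addK c173 a173_1 a173_2 a173_3 q173 c175 a175_1 a175_2 a175_3 q175 fun c176 a176_1 a176_2 a176_3 q176 =>
  smulK 2 1 1152921504606846977 2305843009213693952 c176 a176_1 a176_2 a176_3 q176 fun c178 a178_1 a178_2 a178_3 q178 =>
  addK c137 a137_1 a137_2 a137_3 q137 c178 a178_1 a178_2 a178_3 q178 fun c179 a179_1 a179_2 a179_3 q179 =>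
  posK c179 a179_1 a179_2 a179_3 q179 <|
  mulK c9 a9_1 a9_2 a9_3 q9 c134 a134_1 a134_2 a134_3 q134 fun c181 a181_1 a181_2 a181_3 q181 =>
  mulK c181 a181_1 a181_2 a181_3 q181 c179 a179_1 a179_2 a179_3 q179 fun c182 a182_1 a182_2 a182_3 q182 =>
  mulK c6 a6_1 a6_2 a6_3 q6 c44 a44_1 a44_2 a44_3 q44 fun c183 a183_1 a183_2 a183_3 q183 =>
  subK c155 a155_1 a155_2 a155_3 q155 c170 a170_1 a170_2 a170_3 q170 fun c184 a184_1 a184_2 a184_3 q184 =>
  smulK 14 25 28823037615171174425 16140901064495857664 c184 a184_1 a184_2 a184_3 q184 fun c185 a185_1 a185_2 a185_3 q185 =>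
  addK c183 a183_1 a183_2 a183_3 q183 c185 a185_1 a185_2 a185_3 q185 fun c186 a186_1 a186_2 a186_3 q186 =>
  sqK c186 a186_1 a186_2 a186_3 q186 fun c188 a188_1 a188_2 a188_3 q188 =>
  subK c182 a182_1 a182_2 a182_3 q182 c188 a188_1 a188_2 a188_3 q188 fun c190 a190_1 a190_2 a190_3 q190 =>
  pos c190 a190_1 a190_2 a190_3 q190

theorem alt1_s {z1 w1 z2 w2 z3 w3 : ℕ} {e1 e2 e3 u ta s : ℝ} (he : Ev e1 e2 e3)
    (hx1 : In e1 e2 e3 z1 (Nat.add w1 1152921504606846976) 1152921504606846976 1152921504606846976 0 u)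
    (hx2 : In e1 e2 e3 z2 1152921504606846976 (Nat.add w2 1152921504606846976) 1152921504606846976 0 ta)
    (hx3 : In e1 e2 e3 z3 1152921504606846976 1152921504606846976 (Nat.add w3 1152921504606846976) 0 s)
    (H0 : alt1 z1 w1 z2 w2 z3 w3 = true) : 0 < (a u ta s) ∧ 0 < (((((d u ta s) * (d u ta s)) * (k u ta s)) * (a u ta s)) - ((X u ta s) * (X u ta s))) := by
  unfold alt1 at H0
  refine sqK_s he hx3 (fun _ _ _ _ _ h1 H1 => ?_) H0
  have h2 := In_cast h1 (sq _)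
  refine sqK_s he hx2 (fun _ _ _ _ _ h3 H2 => ?_) H1
  have h4 := In_cast h3 (sq _)
  refine negK_s he h4 (fun _ _ _ _ _ h5 H3 => ?_) H2
  refine addcK_s he h5 (v' := (1:ℝ)) (by norm_num [SS, BB, abs_le]) (fun _ _ _ _ _ h6 H4 => ?_) H3
  have h7 := In_cast h6 (neg_add_eq_sub _ _)
  have h8 := In_cast (w := (d u ta s)) h7 rfl
  refine sqK_s he h8 (fun _ _ _ _ _ h9 H5 => ?_) H4
  have h10 := In_cast h9 (sq _)
  refine mulK_s he h2 h10 (fun _ _ _ _ _ h11 H6 => ?_) H5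
  refine mulK_s he hx3 h8 (fun _ _ _ _ _ h12 H7 => ?_) H6
  refine smulK_s he (w := (1/2:ℝ)) (by norm_num) (by norm_num) (by norm_num) (by norm_num) h12 (fun _ _ _ _ _ h13 H8 => ?_) H7
  have h14 := In_cast h13 (div_c (c := (2:ℝ)) (by norm_num))
  have h15 := In_cast (w := (hh u ta s)) h14 rfl
  refine sqK_s he h15 (fun _ _ _ _ _ h16 H9 => ?_) H8
  have h17 := In_cast h16 (sq _)
  have h18 := In_cast (w := (hq u ta s)) h17 rfl
  refine addK_s he h4 h18 (fun _ _ _ _ _ h19 H10 => ?_) H9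
  refine sqrtK_s he h19 (fun _ _ _ _ _ h20 H11 => ?_) H10
  have h21 := In_cast (w := (om u ta s)) h20 rfl
  refine addK_s he h21 hx2 (fun _ _ _ _ _ h22 H12 => ?_) H11
  refine smulK_s he (w := (4:ℝ)) (by norm_num) (by norm_num) (by norm_num) (by norm_num) h22 (fun _ _ _ _ _ h23 H13 => ?_) H12
  refine invK_s he h23 (fun _ _ _ _ _ h24 H14 => ?_) H13
  refine addcK_s he h4 (v' := (1:ℝ)) (by norm_num [SS, BB, abs_le]) (fun _ _ _ _ _ h25 H15 => ?_) H14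
  have h26 := In_cast h25 (add_comm _ _)
  have h27 := In_cast (w := (Ph u ta s)) h26 rfl
  refine smulK_s he (w := (2:ℝ)) (by norm_num) (by norm_num) (by norm_num) (by norm_num) h21 (fun _ _ _ _ _ h28 H16 => ?_) H15
  refine addK_s he h27 h28 (fun _ _ _ _ _ h29 H17 => ?_) H16
  refine sqrtK_s he h29 (fun _ _ _ _ _ h30 H18 => ?_) H17
  have h31 := In_cast (w := (sg u ta s)) h30 rfl
  refine addcK_s he h31 (v' := (1:ℝ)) (by norm_num [SS, BB, abs_le]) (fun _ _ _ _ _ h32 H19 => ?_) H18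
  refine addK_s he h32 hx2 (fun _ _ _ _ _ h33 H20 => ?_) H19
  have h34 := In_cast (w := (ss u ta s)) h33 rfl
  refine invK_s he h34 (fun _ _ _ _ _ h35 H21 => ?_) H20
  refine sqK_s he hx1 (fun _ _ _ _ _ h36 H22 => ?_) H21
  have h37 := In_cast h36 (sq _)
  refine addcK_s he h37 (v' := (1:ℝ)) (by norm_num [SS, BB, abs_le]) (fun _ _ _ _ _ h38 H23 => ?_) H22
  have h39 := In_cast h38 (add_comm _ _)
  refine invK_s he h39 (fun _ _ _ _ _ h40 H24 => ?_) H23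
  have h41 := In_cast h40 (inv_eq_one_div _)
  have h42 := In_cast (w := (iu u ta s)) h41 rfl
  refine smulK_s he (w := (2:ℝ)) (by norm_num) (by norm_num) (by norm_num) (by norm_num) h42 (fun _ _ _ _ _ h43 H25 => ?_) H24
  refine addcK_s he h43 (v' := (-1:ℝ)) (by norm_num [SS, BB, abs_le]) (fun _ _ _ _ _ h44 H26 => ?_) H25
  have h45 := In_cast h44 (sub_c (c := (1:ℝ)) (by norm_num))
  have h46 := In_cast (w := (R u ta s)) h45 rfl
  refine sqK_s he h46 (fun _ _ _ _ _ h47 H27 => ?_) H26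
  have h48 := In_cast h47 (sq _)
  have h49 := In_cast (w := (R2 u ta s)) h48 rfl
  refine subK_s he h27 hx2 (fun _ _ _ _ _ h50 H28 => ?_) H27
  refine smulK_s he (w := (2:ℝ)) (by norm_num) (by norm_num) (by norm_num) (by norm_num) h50 (fun _ _ _ _ _ h51 H29 => ?_) H28
  refine mulK_s he h31 h34 (fun _ _ _ _ _ h52 H30 => ?_) H29
  refine subK_s he h51 h52 (fun _ _ _ _ _ h53 H31 => ?_) H30
  refine mulK_s he h49 h53 (fun _ _ _ _ _ h54 H32 => ?_) H31
  refine smulK_s he (w := (2479/5000:ℝ)) (by norm_num) (by norm_num) (by norm_num) (by norm_num) h54 (fun _ _ _ _ _ h55 H33 => ?_) H32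
  refine negK_s he h55 (fun _ _ _ _ _ h56 H34 => ?_) H33
  have h57 := In_cast h56 (neg_mul_c (c := (-2479/5000:ℝ)) (by norm_num))
  refine addcK_s he h57 (v' := (4:ℝ)) (by norm_num [SS, BB, abs_le]) (fun _ _ _ _ _ h58 H35 => ?_) H34
  have h59 := In_cast h58 (add_comm _ _)
  refine mulK_s he h59 h35 (fun _ _ _ _ _ h60 H36 => ?_) H35
  have h61 := In_cast h60 ((div_eq_mul_inv _ _).symm)
  refine mulK_s he h49 h46 (fun _ _ _ _ _ h62 H37 => ?_) H36
  refine mulK_s he h62 h22 (fun _ _ _ _ _ h63 H38 => ?_) H37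
  refine mulK_s he h49 h27 (fun _ _ _ _ _ h64 H39 => ?_) H38
  have h65 := In_cast (w := (P u ta s)) h64 rfl
  refine smulK_s he (w := (1971/10000:ℝ)) (by norm_num) (by norm_num) (by norm_num) (by norm_num) h65 (fun _ _ _ _ _ h66 H40 => ?_) H39
  refine negK_s he h66 (fun _ _ _ _ _ h67 H41 => ?_) H40
  have h68 := In_cast h67 (neg_mul_c (c := (-1971/10000:ℝ)) (by norm_num))
  refine negK_s he h68 (fun _ _ _ _ _ h69 H42 => ?_) H41
  refine addcK_s he h69 (v' := (-1391/2500:ℝ)) (by norm_num [SS, BB, abs_le]) (fun _ _ _ _ _ h70 H43 => ?_) H42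
  have h71 := In_cast h70 (neg_add_eq_sub _ _)
  refine sqK_s he h49 (fun _ _ _ _ _ h72 H44 => ?_) H43
  have h73 := In_cast h72 (sq _)
  have h74 := In_cast (w := (R4 u ta s)) h73 rfl
  refine sqK_s he h21 (fun _ _ _ _ _ h75 H45 => ?_) H44
  have h76 := In_cast h75 (sq _)
  refine addK_s he h76 h4 (fun _ _ _ _ _ h77 H46 => ?_) H45
  refine smulK_s he (w := (2:ℝ)) (by norm_num) (by norm_num) (by norm_num) (by norm_num) h77 (fun _ _ _ _ _ h78 H47 => ?_) H46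
  refine mulK_s he h74 h78 (fun _ _ _ _ _ h79 H48 => ?_) H47
  refine sqK_s he h65 (fun _ _ _ _ _ h80 H49 => ?_) H48
  have h81 := In_cast h80 (sq _)
  refine smulK_s he (w := (4:ℝ)) (by norm_num) (by norm_num) (by norm_num) (by norm_num) h81 (fun _ _ _ _ _ h82 H50 => ?_) H49
  refine subK_s he h79 h82 (fun _ _ _ _ _ h83 H51 => ?_) H50
  refine smulK_s he (w := (24/625:ℝ)) (by norm_num) (by norm_num) (by norm_num) (by norm_num) h83 (fun _ _ _ _ _ h84 H52 => ?_) H51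
  refine addK_s he h71 h84 (fun _ _ _ _ _ h85 H53 => ?_) H52
  have h86 := In_cast (w := (Gp u ta s)) h85 rfl
  refine negK_s he h65 (fun _ _ _ _ _ h87 H54 => ?_) H53
  refine addcK_s he h87 (v' := (2:ℝ)) (by norm_num [SS, BB, abs_le]) (fun _ _ _ _ _ h88 H55 => ?_) H54
  have h89 := In_cast h88 (neg_add_eq_sub _ _)
  have h90 := In_cast (w := (Pp u ta s)) h89 rfl
  refine smulK_s he (w := (2:ℝ)) (by norm_num) (by norm_num) (by norm_num) (by norm_num) hx1 (fun _ _ _ _ _ h91 H56 => ?_) H55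
  refine mulK_s he h91 h42 (fun _ _ _ _ _ h92 H57 => ?_) H56
  have h93 := In_cast (w := (t0 u ta s)) h92 rfl
  refine mulK_s he h46 hx2 (fun _ _ _ _ _ h94 H58 => ?_) H57
  have h95 := In_cast (w := (r1 u ta s)) h94 rfl
  refine sqK_s he h95 (fun _ _ _ _ _ h96 H59 => ?_) H58
  have h97 := In_cast h96 (sq _)
  refine negK_s he h97 (fun _ _ _ _ _ h98 H60 => ?_) H59
  refine addcK_s he h98 (v' := (1:ℝ)) (by norm_num [SS, BB, abs_le]) (fun _ _ _ _ _ h99 H61 => ?_) H60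
  have h100 := In_cast h99 (neg_add_eq_sub _ _)
  refine sqrtK_s he h100 (fun _ _ _ _ _ h101 H62 => ?_) H61
  have h102 := In_cast (w := (t1 u ta s)) h101 rfl
  refine mulK_s he h93 h102 (fun _ _ _ _ _ h103 H63 => ?_) H62
  have h104 := In_cast (w := (b0 u ta s)) h103 rfl
  refine sqK_s he h104 (fun _ _ _ _ _ h105 H64 => ?_) H63
  have h106 := In_cast h105 (sq _)
  refine mulK_s he h74 h18 (fun _ _ _ _ _ h107 H65 => ?_) H64
  refine addK_s he h106 h107 (fun _ _ _ _ _ h108 H66 => ?_) H65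
  refine sqrtK_s he h108 (fun _ _ _ _ _ h109 H67 => ?_) H66
  have h110 := In_cast (w := (b u ta s)) h109 rfl
  refine smulK_s he (w := (2:ℝ)) (by norm_num) (by norm_num) (by norm_num) (by norm_num) h110 (fun _ _ _ _ _ h111 H68 => ?_) H67
  refine addK_s he h90 h111 (fun _ _ _ _ _ h112 H69 => ?_) H68
  refine sqrtK_s he h112 (fun _ _ _ _ _ h113 H70 => ?_) H69
  have h114 := In_cast (w := (v u ta s)) h113 rfl
  refine addK_s he h93 h102 (fun _ _ _ _ _ h115 H71 => ?_) H70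
  have h116 := In_cast (w := (v0 u ta s)) h115 rfl
  refine addK_s he h114 h116 (fun _ _ _ _ _ h117 H72 => ?_) H71
  refine invK_s he h117 (fun _ _ _ _ _ h118 H73 => ?_) H72
  refine mulK_s he h114 h116 (fun _ _ _ _ _ h119 H74 => ?_) H73
  refine addK_s he h119 h90 (fun _ _ _ _ _ h120 H75 => ?_) H74
  refine invK_s he h120 (fun _ _ _ _ _ h121 H76 => ?_) H75
  refine addK_s he h90 h104 (fun _ _ _ _ _ h122 H77 => ?_) H76
  refine mulK_s he h122 h121 (fun _ _ _ _ _ h123 H78 => ?_) H77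
  have h124 := In_cast h123 ((div_eq_mul_inv _ _).symm)
  refine addcK_s he h124 (v' := (1:ℝ)) (by norm_num [SS, BB, abs_le]) (fun _ _ _ _ _ h125 H79 => ?_) H78
  have h126 := In_cast h125 (add_comm _ _)
  refine mulK_s he h126 h118 (fun _ _ _ _ _ h127 H80 => ?_) H79
  have h128 := In_cast h127 ((div_eq_mul_inv _ _).symm)
  have h129 := In_cast (w := (GW u ta s)) h128 rfl
  refine addK_s he h86 h129 (fun _ _ _ _ _ h130 H81 => ?_) H80
  refine mulK_s he h63 h130 (fun _ _ _ _ _ h131 H82 => ?_) H81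
  refine addK_s he h61 h131 (fun _ _ _ _ _ h132 H83 => ?_) H82
  have h133 := In_cast (w := (Ga u ta s)) h132 rfl
  refine mulK_s he h133 h24 (fun _ _ _ _ _ h134 H84 => ?_) H83
  have h135 := In_cast h134 ((div_eq_mul_inv _ _).symm)
  have h136 := In_cast (w := (k u ta s)) h135 rfl
  refine mulK_s he h11 h136 (fun _ _ _ _ _ h137 H85 => ?_) H84
  have h138 := In_cast (w := (g u ta s)) h137 rfl
  refine smulK_s he (w := (3/5:ℝ)) (by norm_num) (by norm_num) (by norm_num) (by norm_num) hx3 (fun _ _ _ _ _ h139 H86 => ?_) H85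
  refine addcK_s he h139 (v' := (-1/10:ℝ)) (by norm_num [SS, BB, abs_le]) (fun _ _ _ _ _ h140 H87 => ?_) H86
  have h141 := In_cast h140 (sub_c (c := (1/10:ℝ)) (by norm_num))
  refine addcK_s he h93 (v' := (-1:ℝ)) (by norm_num [SS, BB, abs_le]) (fun _ _ _ _ _ h142 H88 => ?_) H87
  have h143 := In_cast h142 (sub_c (c := (1:ℝ)) (by norm_num))
  refine negK_s he h46 (fun _ _ _ _ _ h144 H89 => ?_) H88
  refine addcK_s he h144 (v' := (1:ℝ)) (by norm_num [SS, BB, abs_le]) (fun _ _ _ _ _ h145 H90 => ?_) H89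
  have h146 := In_cast h145 (neg_add_eq_sub _ _)
  refine smulK_s he (w := (2:ℝ)) (by norm_num) (by norm_num) (by norm_num) (by norm_num) h146 (fun _ _ _ _ _ h147 H91 => ?_) H90
  have h148 := In_cast h147 (mul_comm _ _)
  refine addK_s he h143 h148 (fun _ _ _ _ _ h149 H92 => ?_) H91
  refine addcK_s he h93 (v' := (1:ℝ)) (by norm_num [SS, BB, abs_le]) (fun _ _ _ _ _ h150 H93 => ?_) H92
  have h151 := In_cast h150 (add_comm _ _)
  refine invK_s he h151 (fun _ _ _ _ _ h152 H94 => ?_) H93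
  refine mulK_s he h46 h152 (fun _ _ _ _ _ h153 H95 => ?_) H94
  have h154 := In_cast h153 ((div_eq_mul_inv _ _).symm)
  refine addK_s he h149 h154 (fun _ _ _ _ _ h155 H96 => ?_) H95
  have h156 := In_cast (w := (U0 u ta s)) h155 rfl
  refine mulK_s he h141 h156 (fun _ _ _ _ _ h157 H97 => ?_) H96
  refine negK_s he h139 (fun _ _ _ _ _ h158 H98 => ?_) H97
  refine addcK_s he h158 (v' := (101/100:ℝ)) (by norm_num [SS, BB, abs_le]) (fun _ _ _ _ _ h159 H99 => ?_) H98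
  have h160 := In_cast h159 (neg_add_eq_sub _ _)
  refine addcK_s he h102 (v' := (1:ℝ)) (by norm_num [SS, BB, abs_le]) (fun _ _ _ _ _ h161 H100 => ?_) H99
  have h162 := In_cast h161 (add_comm _ _)
  refine smulK_s he (w := (2:ℝ)) (by norm_num) (by norm_num) (by norm_num) (by norm_num) h95 (fun _ _ _ _ _ h163 H101 => ?_) H100
  refine subK_s he h162 h163 (fun _ _ _ _ _ h164 H102 => ?_) H101
  refine invK_s he h162 (fun _ _ _ _ _ h165 H103 => ?_) H102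
  refine mulK_s he h95 h165 (fun _ _ _ _ _ h166 H104 => ?_) H103
  have h167 := In_cast h166 ((div_eq_mul_inv _ _).symm)
  refine addK_s he h164 h167 (fun _ _ _ _ _ h168 H105 => ?_) H104
  have h169 := In_cast (w := (U1 u ta s)) h168 rfl
  refine mulK_s he hx2 h169 (fun _ _ _ _ _ h170 H106 => ?_) H105
  have h171 := In_cast (w := (V1 u ta s)) h170 rfl
  refine mulK_s he h160 h171 (fun _ _ _ _ _ h172 H107 => ?_) H106
  refine addK_s he h157 h172 (fun _ _ _ _ _ h173 H108 => ?_) H107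
  refine mulK_s he h95 hx2 (fun _ _ _ _ _ h174 H109 => ?_) H108
  refine smulK_s he (w := (9/1000:ℝ)) (by norm_num) (by norm_num) (by norm_num) (by norm_num) h174 (fun _ _ _ _ _ h175 H110 => ?_) H109
  refine addK_s he h173 h175 (fun _ _ _ _ _ h176 H111 => ?_) H110
  have h177 := In_cast (w := (L u ta s)) h176 rfl
  refine smulK_s he (w := (2:ℝ)) (by norm_num) (by norm_num) (by norm_num) (by norm_num) h177 (fun _ _ _ _ _ h178 H112 => ?_) H111
  refine addK_s he h138 h178 (fun _ _ _ _ _ h179 H113 => ?_) H112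
  have h180 := In_cast (w := (a u ta s)) h179 rfl
  refine posK_s he h180 (fun p0 H114 => ?_) H113
  refine mulK_s he h10 h136 (fun _ _ _ _ _ h181 H115 => ?_) H114
  refine mulK_s he h181 h180 (fun _ _ _ _ _ h182 H116 => ?_) H115
  refine mulK_s he h8 h46 (fun _ _ _ _ _ h183 H117 => ?_) H116
  refine subK_s he h156 h171 (fun _ _ _ _ _ h184 H118 => ?_) H117
  refine smulK_s he (w := (14/25:ℝ)) (by norm_num) (by norm_num) (by norm_num) (by norm_num) h184 (fun _ _ _ _ _ h185 H119 => ?_) H118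
  refine addK_s he h183 h185 (fun _ _ _ _ _ h186 H120 => ?_) H119
  have h187 := In_cast (w := (X u ta s)) h186 rfl
  refine sqK_s he h187 (fun _ _ _ _ _ h188 H121 => ?_) H120
  have h189 := In_cast h188 (sq _)
  refine subK_s he h182 h189 (fun _ _ _ _ _ h190 H122 => ?_) H121
  exact ⟨p0, pos_s he h190 H122⟩

noncomputable def alt2 (z1 w1 z2 w2 z3 w3 : ℕ) : Bool :=
  sqK z3 1152921504606846976 1152921504606846976 (Nat.add w3 1152921504606846976) 0 fun c1 a1_1 a1_2 a1_3 q1 =>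
  sqK z2 1152921504606846976 (Nat.add w2 1152921504606846976) 1152921504606846976 0 fun c3 a3_1 a3_2 a3_3 q3 =>
  negK c3 a3_1 a3_2 a3_3 q3 fun c5 a5_1 a5_2 a5_3 q5 =>
  addcK c5 a5_1 a5_2 a5_3 q5 1152922604118474752 0 fun c6 a6_1 a6_2 a6_3 q6 =>
  sqK c6 a6_1 a6_2 a6_3 q6 fun c9 a9_1 a9_2 a9_3 q9 =>
  mulK c1 a1_1 a1_2 a1_3 q1 c9 a9_1 a9_2 a9_3 q9 fun c11 a11_1 a11_2 a11_3 q11 =>
  mulK z3 1152921504606846976 1152921504606846976 (Nat.add w3 1152921504606846976) 0 c6 a6_1 a6_2 a6_3 q6 fun c12 a12_1 a12_2 a12_3 q12 =>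
  smulK 1 2 2305843009213693954 1152921504606846976 c12 a12_1 a12_2 a12_3 q12 fun c13 a13_1 a13_2 a13_3 q13 =>
  sqK c13 a13_1 a13_2 a13_3 q13 fun c16 a16_1 a16_2 a16_3 q16 =>
  addK c3 a3_1 a3_2 a3_3 q3 c16 a16_1 a16_2 a16_3 q16 fun c19 a19_1 a19_2 a19_3 q19 =>
  sqrtK c19 a19_1 a19_2 a19_3 q19 fun c20 a20_1 a20_2 a20_3 q20 =>
  addK c20 a20_1 a20_2 a20_3 q20 z2 1152921504606846976 (Nat.add w2 1152921504606846976) 1152921504606846976 0 fun c22 a22_1 a22_2 a22_3 q22 =>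
  smulK 4 1 1152921504606846977 4611686018427387904 c22 a22_1 a22_2 a22_3 q22 fun c23 a23_1 a23_2 a23_3 q23 =>
  invK c23 a23_1 a23_2 a23_3 q23 fun c24 a24_1 a24_2 a24_3 q24 =>
  addcK c3 a3_1 a3_2 a3_3 q3 1152922604118474752 0 fun c25 a25_1 a25_2 a25_3 q25 =>
  smulK 2 1 1152921504606846977 2305843009213693952 c20 a20_1 a20_2 a20_3 q20 fun c28 a28_1 a28_2 a28_3 q28 =>
  addK c25 a25_1 a25_2 a25_3 q25 c28 a28_1 a28_2 a28_3 q28 fun c29 a29_1 a29_2 a29_3 q29 =>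
  sqrtK c29 a29_1 a29_2 a29_3 q29 fun c30 a30_1 a30_2 a30_3 q30 =>
  addcK c30 a30_1 a30_2 a30_3 q30 1152922604118474752 0 fun c32 a32_1 a32_2 a32_3 q32 =>
  addK c32 a32_1 a32_2 a32_3 q32 z2 1152921504606846976 (Nat.add w2 1152921504606846976) 1152921504606846976 0 fun c33 a33_1 a33_2 a33_3 q33 =>
  invK c33 a33_1 a33_2 a33_3 q33 fun c35 a35_1 a35_2 a35_3 q35 =>
  sqK z1 (Nat.add w1 1152921504606846976) 1152921504606846976 1152921504606846976 0 fun c36 a36_1 a36_2 a36_3 q36 =>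
  addcK c36 a36_1 a36_2 a36_3 q36 1152922604118474752 0 fun c38 a38_1 a38_2 a38_3 q38 =>
  invK c38 a38_1 a38_2 a38_3 q38 fun c40 a40_1 a40_2 a40_3 q40 =>
  smulK 2 1 1152921504606846977 2305843009213693952 c40 a40_1 a40_2 a40_3 q40 fun c43 a43_1 a43_2 a43_3 q43 =>
  addcK c43 a43_1 a43_2 a43_3 q43 1152920405095219200 0 fun c44 a44_1 a44_2 a44_3 q44 =>
  sqK c44 a44_1 a44_2 a44_3 q44 fun c47 a47_1 a47_2 a47_3 q47 =>
  subK c25 a25_1 a25_2 a25_3 q25 z2 1152921504606846976 (Nat.add w2 1152921504606846976) 1152921504606846976 0 fun c50 a50_1 a50_2 a50_3 q50 =>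
  smulK 2 1 1152921504606846977 2305843009213693952 c50 a50_1 a50_2 a50_3 q50 fun c51 a51_1 a51_2 a51_3 q51 =>
  mulK c30 a30_1 a30_2 a30_3 q30 c33 a33_1 a33_2 a33_3 q33 fun c52 a52_1 a52_2 a52_3 q52 =>
  subK c51 a51_1 a51_2 a51_3 q51 c52 a52_1 a52_2 a52_3 q52 fun c53 a53_1 a53_2 a53_3 q53 =>
  mulK c47 a47_1 a47_2 a47_3 q47 c53 a53_1 a53_2 a53_3 q53 fun c54 a54_1 a54_2 a54_3 q54 =>
  smulK 2479 5000 5764607523034234885000 2858092409920373653504 c54 a54_1 a54_2 a54_3 q54 fun c55 a55_1 a55_2 a55_3 q55 =>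
  negK c55 a55_1 a55_2 a55_3 q55 fun c56 a56_1 a56_2 a56_3 q56 =>
  addcK c56 a56_1 a56_2 a56_3 q56 1152925902653358080 0 fun c58 a58_1 a58_2 a58_3 q58 =>
  mulK c58 a58_1 a58_2 a58_3 q58 c35 a35_1 a35_2 a35_3 q35 fun c60 a60_1 a60_2 a60_3 q60 =>
  mulK c47 a47_1 a47_2 a47_3 q47 c44 a44_1 a44_2 a44_3 q44 fun c62 a62_1 a62_2 a62_3 q62 =>
  mulK c62 a62_1 a62_2 a62_3 q62 c22 a22_1 a22_2 a22_3 q22 fun c63 a63_1 a63_2 a63_3 q63 =>
  mulK c47 a47_1 a47_2 a47_3 q47 c25 a25_1 a25_2 a25_3 q25 fun c64 a64_1 a64_2 a64_3 q64 =>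
  smulK 1971 10000 11529215046068469770000 2272408285580095389696 c64 a64_1 a64_2 a64_3 q64 fun c66 a66_1 a66_2 a66_3 q66 =>
  negK c66 a66_1 a66_2 a66_3 q66 fun c67 a67_1 a67_2 a67_3 q67 =>
  negK c67 a67_1 a67_2 a67_3 q67 fun c69 a69_1 a69_2 a69_3 q69 =>
  addcK c69 a69_1 a69_2 a69_3 q69 1152920892838577281 1 fun c70 a70_1 a70_2 a70_3 q70 =>
  sqK c47 a47_1 a47_2 a47_3 q47 fun c72 a72_1 a72_2 a72_3 q72 =>
  sqK c20 a20_1 a20_2 a20_3 q20 fun c75 a75_1 a75_2 a75_3 q75 =>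
  addK c75 a75_1 a75_2 a75_3 q75 c3 a3_1 a3_2 a3_3 q3 fun c77 a77_1 a77_2 a77_3 q77 =>
  smulK 2 1 1152921504606846977 2305843009213693952 c77 a77_1 a77_2 a77_3 q77 fun c78 a78_1 a78_2 a78_3 q78 =>
  mulK c72 a72_1 a72_2 a72_3 q72 c78 a78_1 a78_2 a78_3 q78 fun c79 a79_1 a79_2 a79_3 q79 =>
  sqK c64 a64_1 a64_2 a64_3 q64 fun c80 a80_1 a80_2 a80_3 q80 =>
  smulK 4 1 1152921504606846977 4611686018427387904 c80 a80_1 a80_2 a80_3 q80 fun c82 a82_1 a82_2 a82_3 q82 =>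
  subK c79 a79_1 a79_2 a79_3 q79 c82 a82_1 a82_2 a82_3 q82 fun c83 a83_1 a83_2 a83_3 q83 =>
  smulK 24 625 720575940379279360625 27670116110564327424 c83 a83_1 a83_2 a83_3 q83 fun c84 a84_1 a84_2 a84_3 q84 =>
  addK c70 a70_1 a70_2 a70_3 q70 c84 a84_1 a84_2 a84_3 q84 fun c85 a85_1 a85_2 a85_3 q85 =>
  negK c64 a64_1 a64_2 a64_3 q64 fun c87 a87_1 a87_2 a87_3 q87 =>
  addcK c87 a87_1 a87_2 a87_3 q87 1152923703630102528 0 fun c88 a88_1 a88_2 a88_3 q88 =>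
  smulK 2 1 1152921504606846977 2305843009213693952 z1 (Nat.add w1 1152921504606846976) 1152921504606846976 1152921504606846976 0 fun c91 a91_1 a91_2 a91_3 q91 =>
  mulK c91 a91_1 a91_2 a91_3 q91 c40 a40_1 a40_2 a40_3 q40 fun c92 a92_1 a92_2 a92_3 q92 =>
  mulK c44 a44_1 a44_2 a44_3 q44 z2 1152921504606846976 (Nat.add w2 1152921504606846976) 1152921504606846976 0 fun c94 a94_1 a94_2 a94_3 q94 =>
  sqK c94 a94_1 a94_2 a94_3 q94 fun c96 a96_1 a96_2 a96_3 q96 =>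
  negK c96 a96_1 a96_2 a96_3 q96 fun c98 a98_1 a98_2 a98_3 q98 =>
  addcK c98 a98_1 a98_2 a98_3 q98 1152922604118474752 0 fun c99 a99_1 a99_2 a99_3 q99 =>
  sqrtK c99 a99_1 a99_2 a99_3 q99 fun c101 a101_1 a101_2 a101_3 q101 =>
  mulK c92 a92_1 a92_2 a92_3 q92 c101 a101_1 a101_2 a101_3 q101 fun c103 a103_1 a103_2 a103_3 q103 =>
  sqK c103 a103_1 a103_2 a103_3 q103 fun c105 a105_1 a105_2 a105_3 q105 =>
  mulK c72 a72_1 a72_2 a72_3 q72 c16 a16_1 a16_2 a16_3 q16 fun c107 a107_1 a107_2 a107_3 q107 =>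
  addK c105 a105_1 a105_2 a105_3 q105 c107 a107_1 a107_2 a107_3 q107 fun c108 a108_1 a108_2 a108_3 q108 =>
  sqrtK c108 a108_1 a108_2 a108_3 q108 fun c109 a109_1 a109_2 a109_3 q109 =>
  smulK 2 1 1152921504606846977 2305843009213693952 c109 a109_1 a109_2 a109_3 q109 fun c111 a111_1 a111_2 a111_3 q111 =>
  addK c88 a88_1 a88_2 a88_3 q88 c111 a111_1 a111_2 a111_3 q111 fun c112 a112_1 a112_2 a112_3 q112 =>
  sqrtK c112 a112_1 a112_2 a112_3 q112 fun c113 a113_1 a113_2 a113_3 q113 =>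
  addK c92 a92_1 a92_2 a92_3 q92 c101 a101_1 a101_2 a101_3 q101 fun c115 a115_1 a115_2 a115_3 q115 =>
  addK c113 a113_1 a113_2 a113_3 q113 c115 a115_1 a115_2 a115_3 q115 fun c117 a117_1 a117_2 a117_3 q117 =>
  invK c117 a117_1 a117_2 a117_3 q117 fun c118 a118_1 a118_2 a118_3 q118 =>
  mulK c113 a113_1 a113_2 a113_3 q113 c115 a115_1 a115_2 a115_3 q115 fun c119 a119_1 a119_2 a119_3 q119 =>
  addK c119 a119_1 a119_2 a119_3 q119 c88 a88_1 a88_2 a88_3 q88 fun c120 a120_1 a120_2 a120_3 q120 =>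
  invK c120 a120_1 a120_2 a120_3 q120 fun c121 a121_1 a121_2 a121_3 q121 =>
  addK c88 a88_1 a88_2 a88_3 q88 c103 a103_1 a103_2 a103_3 q103 fun c122 a122_1 a122_2 a122_3 q122 =>
  mulK c122 a122_1 a122_2 a122_3 q122 c121 a121_1 a121_2 a121_3 q121 fun c123 a123_1 a123_2 a123_3 q123 =>
  addcK c123 a123_1 a123_2 a123_3 q123 1152922604118474752 0 fun c125 a125_1 a125_2 a125_3 q125 =>
  mulK c125 a125_1 a125_2 a125_3 q125 c118 a118_1 a118_2 a118_3 q118 fun c127 a127_1 a127_2 a127_3 q127 =>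
  addK c85 a85_1 a85_2 a85_3 q85 c127 a127_1 a127_2 a127_3 q127 fun c130 a130_1 a130_2 a130_3 q130 =>
  mulK c63 a63_1 a63_2 a63_3 q63 c130 a130_1 a130_2 a130_3 q130 fun c131 a131_1 a131_2 a131_3 q131 =>
  addK c60 a60_1 a60_2 a60_3 q60 c131 a131_1 a131_2 a131_3 q131 fun c132 a132_1 a132_2 a132_3 q132 =>
  mulK c132 a132_1 a132_2 a132_3 q132 c24 a24_1 a24_2 a24_3 q24 fun c134 a134_1 a134_2 a134_3 q134 =>
  mulK c11 a11_1 a11_2 a11_3 q11 c134 a134_1 a134_2 a134_3 q134 fun c137 a137_1 a137_2 a137_3 q137 =>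
  smulK 3 5 5764607523034234885 3458764513820540928 z3 1152921504606846976 1152921504606846976 (Nat.add w3 1152921504606846976) 0 fun c139 a139_1 a139_2 a139_3 q139 =>
  addcK c139 a139_1 a139_2 a139_3 q139 1152921394655684198 1 fun c140 a140_1 a140_2 a140_3 q140 =>
  addcK c92 a92_1 a92_2 a92_3 q92 1152920405095219200 0 fun c142 a142_1 a142_2 a142_3 q142 =>
  negK c44 a44_1 a44_2 a44_3 q44 fun c144 a144_1 a144_2 a144_3 q144 =>
  addcK c144 a144_1 a144_2 a144_3 q144 1152922604118474752 0 fun c145 a145_1 a145_2 a145_3 q145 =>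
  smulK 2 1 1152921504606846977 2305843009213693952 c145 a145_1 a145_2 a145_3 q145 fun c147 a147_1 a147_2 a147_3 q147 =>
  addK c142 a142_1 a142_2 a142_3 q142 c147 a147_1 a147_2 a147_3 q147 fun c149 a149_1 a149_2 a149_3 q149 =>
  addcK c92 a92_1 a92_2 a92_3 q92 1152922604118474752 0 fun c150 a150_1 a150_2 a150_3 q150 =>
  invK c150 a150_1 a150_2 a150_3 q150 fun c152 a152_1 a152_2 a152_3 q152 =>
  mulK c44 a44_1 a44_2 a44_3 q44 c152 a152_1 a152_2 a152_3 q152 fun c153 a153_1 a153_2 a153_3 q153 =>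
  addK c149 a149_1 a149_2 a149_3 q149 c153 a153_1 a153_2 a153_3 q153 fun c155 a155_1 a155_2 a155_3 q155 =>
  mulK c140 a140_1 a140_2 a140_3 q140 c155 a155_1 a155_2 a155_3 q155 fun c157 a157_1 a157_2 a157_3 q157 =>
  negK c139 a139_1 a139_2 a139_3 q139 fun c158 a158_1 a158_2 a158_3 q158 =>
  addcK c158 a158_1 a158_2 a158_3 q158 1152922615113591030 1 fun c159 a159_1 a159_2 a159_3 q159 =>
  addcK c101 a101_1 a101_2 a101_3 q101 1152922604118474752 0 fun c161 a161_1 a161_2 a161_3 q161 =>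
  smulK 2 1 1152921504606846977 2305843009213693952 c94 a94_1 a94_2 a94_3 q94 fun c163 a163_1 a163_2 a163_3 q163 =>
  subK c161 a161_1 a161_2 a161_3 q161 c163 a163_1 a163_2 a163_3 q163 fun c164 a164_1 a164_2 a164_3 q164 =>
  invK c161 a161_1 a161_2 a161_3 q161 fun c165 a165_1 a165_2 a165_3 q165 =>
  mulK c94 a94_1 a94_2 a94_3 q94 c165 a165_1 a165_2 a165_3 q165 fun c166 a166_1 a166_2 a166_3 q166 =>
  addK c164 a164_1 a164_2 a164_3 q164 c166 a166_1 a166_2 a166_3 q166 fun c168 a168_1 a168_2 a168_3 q168 =>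
  mulK z2 1152921504606846976 (Nat.add w2 1152921504606846976) 1152921504606846976 0 c168 a168_1 a168_2 a168_3 q168 fun c170 a170_1 a170_2 a170_3 q170 =>
  mulK c159 a159_1 a159_2 a159_3 q159 c170 a170_1 a170_2 a170_3 q170 fun c172 a172_1 a172_2 a172_3 q172 =>
  addK c157 a157_1 a157_2 a157_3 q157 c172 a172_1 a172_2 a172_3 q172 fun c173 a173_1 a173_2 a173_3 q173 =>
  mulK c94 a94_1 a94_2 a94_3 q94 z2 1152921504606846976 (Nat.add w2 1152921504606846976) 1152921504606846976 0 fun c174 a174_1 a174_2 a174_3 q174 =>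
  smulK 9 1000 1152921504606846977000 10376293541461622784 c174 a174_1 a174_2 a174_3 q174 fun c175 a175_1 a175_2 a175_3 q175 =>
  addK c173 a173_1 a173_2 a173_3 q173 c175 a175_1 a175_2 a175_3 q175 fun c176 a176_1 a176_2 a176_3 q176 =>
  smulK 2 1 1152921504606846977 2305843009213693952 c176 a176_1 a176_2 a176_3 q176 fun c178 a178_1 a178_2 a178_3 q178 =>
  addK c137 a137_1 a137_2 a137_3 q137 c178 a178_1 a178_2 a178_3 q178 fun c179 a179_1 a179_2 a179_3 q179 =>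
  posK c179 a179_1 a179_2 a179_3 q179 <|
  mulK c6 a6_1 a6_2 a6_3 q6 c44 a44_1 a44_2 a44_3 q44 fun c181 a181_1 a181_2 a181_3 q181 =>
  subK c155 a155_1 a155_2 a155_3 q155 c170 a170_1 a170_2 a170_3 q170 fun c182 a182_1 a182_2 a182_3 q182 =>
  smulK 14 25 28823037615171174425 16140901064495857664 c182 a182_1 a182_2 a182_3 q182 fun c183 a183_1 a183_2 a183_3 q183 =>
  addK c181 a181_1 a181_2 a181_3 q181 c183 a183_1 a183_2 a183_3 q183 fun c184 a184_1 a184_2 a184_3 q184 =>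
  mulK z3 1152921504606846976 1152921504606846976 (Nat.add w3 1152921504606846976) 0 c184 a184_1 a184_2 a184_3 q184 fun c186 a186_1 a186_2 a186_3 q186 =>
  smulK 2 1 1152921504606846977 2305843009213693952 c186 a186_1 a186_2 a186_3 q186 fun c187 a187_1 a187_2 a187_3 q187 =>
  subK c187 a187_1 a187_2 a187_3 q187 c179 a179_1 a179_2 a179_3 q179 fun c188 a188_1 a188_2 a188_3 q188 =>
  posK c188 a188_1 a188_2 a188_3 q188 <|
  smulK 1 4 4611686018427387908 1152921504606846976 c179 a179_1 a179_2 a179_3 q179 fun c189 a189_1 a189_2 a189_3 q189 =>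
  addK c137 a137_1 a137_2 a137_3 q137 c189 a189_1 a189_2 a189_3 q189 fun c191 a191_1 a191_2 a191_3 q191 =>
  subK c191 a191_1 a191_2 a191_3 q191 c186 a186_1 a186_2 a186_3 q186 fun c192 a192_1 a192_2 a192_3 q192 =>
  pos c192 a192_1 a192_2 a192_3 q192

theorem alt2_s {z1 w1 z2 w2 z3 w3 : ℕ} {e1 e2 e3 u ta s : ℝ} (he : Ev e1 e2 e3)
    (hx1 : In e1 e2 e3 z1 (Nat.add w1 1152921504606846976) 1152921504606846976 1152921504606846976 0 u)
    (hx2 : In e1 e2 e3 z2 1152921504606846976 (Nat.add w2 1152921504606846976) 1152921504606846976 0 ta)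
    (hx3 : In e1 e2 e3 z3 1152921504606846976 1152921504606846976 (Nat.add w3 1152921504606846976) 0 s)
    (H0 : alt2 z1 w1 z2 w2 z3 w3 = true) : 0 < (a u ta s) ∧ 0 < (((2:ℝ) * (s * (X u ta s))) - (a u ta s)) ∧ 0 < (((g u ta s) + ((a u ta s) / (4:ℝ))) - (s * (X u ta s))) := by
  unfold alt2 at H0
  refine sqK_s he hx3 (fun _ _ _ _ _ h1 H1 => ?_) H0
  have h2 := In_cast h1 (sq _)
  refine sqK_s he hx2 (fun _ _ _ _ _ h3 H2 => ?_) H1
  have h4 := In_cast h3 (sq _)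
  refine negK_s he h4 (fun _ _ _ _ _ h5 H3 => ?_) H2
  refine addcK_s he h5 (v' := (1:ℝ)) (by norm_num [SS, BB, abs_le]) (fun _ _ _ _ _ h6 H4 => ?_) H3
  have h7 := In_cast h6 (neg_add_eq_sub _ _)
  have h8 := In_cast (w := (d u ta s)) h7 rfl
  refine sqK_s he h8 (fun _ _ _ _ _ h9 H5 => ?_) H4
  have h10 := In_cast h9 (sq _)
  refine mulK_s he h2 h10 (fun _ _ _ _ _ h11 H6 => ?_) H5
  refine mulK_s he hx3 h8 (fun _ _ _ _ _ h12 H7 => ?_) H6
  refine smulK_s he (w := (1/2:ℝ)) (by norm_num) (by norm_num) (by norm_num) (by norm_num) h12 (fun _ _ _ _ _ h13 H8 => ?_) H7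
  have h14 := In_cast h13 (div_c (c := (2:ℝ)) (by norm_num))
  have h15 := In_cast (w := (hh u ta s)) h14 rfl
  refine sqK_s he h15 (fun _ _ _ _ _ h16 H9 => ?_) H8
  have h17 := In_cast h16 (sq _)
  have h18 := In_cast (w := (hq u ta s)) h17 rfl
  refine addK_s he h4 h18 (fun _ _ _ _ _ h19 H10 => ?_) H9
  refine sqrtK_s he h19 (fun _ _ _ _ _ h20 H11 => ?_) H10
  have h21 := In_cast (w := (om u ta s)) h20 rfl
  refine addK_s he h21 hx2 (fun _ _ _ _ _ h22 H12 => ?_) H11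
  refine smulK_s he (w := (4:ℝ)) (by norm_num) (by norm_num) (by norm_num) (by norm_num) h22 (fun _ _ _ _ _ h23 H13 => ?_) H12
  refine invK_s he h23 (fun _ _ _ _ _ h24 H14 => ?_) H13
  refine addcK_s he h4 (v' := (1:ℝ)) (by norm_num [SS, BB, abs_le]) (fun _ _ _ _ _ h25 H15 => ?_) H14
  have h26 := In_cast h25 (add_comm _ _)
  have h27 := In_cast (w := (Ph u ta s)) h26 rfl
  refine smulK_s he (w := (2:ℝ)) (by norm_num) (by norm_num) (by norm_num) (by norm_num) h21 (fun _ _ _ _ _ h28 H16 => ?_) H15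
  refine addK_s he h27 h28 (fun _ _ _ _ _ h29 H17 => ?_) H16
  refine sqrtK_s he h29 (fun _ _ _ _ _ h30 H18 => ?_) H17
  have h31 := In_cast (w := (sg u ta s)) h30 rfl
  refine addcK_s he h31 (v' := (1:ℝ)) (by norm_num [SS, BB, abs_le]) (fun _ _ _ _ _ h32 H19 => ?_) H18
  refine addK_s he h32 hx2 (fun _ _ _ _ _ h33 H20 => ?_) H19
  have h34 := In_cast (w := (ss u ta s)) h33 rfl
  refine invK_s he h34 (fun _ _ _ _ _ h35 H21 => ?_) H20
  refine sqK_s he hx1 (fun _ _ _ _ _ h36 H22 => ?_) H21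
  have h37 := In_cast h36 (sq _)
  refine addcK_s he h37 (v' := (1:ℝ)) (by norm_num [SS, BB, abs_le]) (fun _ _ _ _ _ h38 H23 => ?_) H22
  have h39 := In_cast h38 (add_comm _ _)
  refine invK_s he h39 (fun _ _ _ _ _ h40 H24 => ?_) H23
  have h41 := In_cast h40 (inv_eq_one_div _)
  have h42 := In_cast (w := (iu u ta s)) h41 rfl
  refine smulK_s he (w := (2:ℝ)) (by norm_num) (by norm_num) (by norm_num) (by norm_num) h42 (fun _ _ _ _ _ h43 H25 => ?_) H24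
  refine addcK_s he h43 (v' := (-1:ℝ)) (by norm_num [SS, BB, abs_le]) (fun _ _ _ _ _ h44 H26 => ?_) H25
  have h45 := In_cast h44 (sub_c (c := (1:ℝ)) (by norm_num))
  have h46 := In_cast (w := (R u ta s)) h45 rfl
  refine sqK_s he h46 (fun _ _ _ _ _ h47 H27 => ?_) H26
  have h48 := In_cast h47 (sq _)
  have h49 := In_cast (w := (R2 u ta s)) h48 rfl
  refine subK_s he h27 hx2 (fun _ _ _ _ _ h50 H28 => ?_) H27
  refine smulK_s he (w := (2:ℝ)) (by norm_num) (by norm_num) (by norm_num) (by norm_num) h50 (fun _ _ _ _ _ h51 H29 => ?_) H28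
  refine mulK_s he h31 h34 (fun _ _ _ _ _ h52 H30 => ?_) H29
  refine subK_s he h51 h52 (fun _ _ _ _ _ h53 H31 => ?_) H30
  refine mulK_s he h49 h53 (fun _ _ _ _ _ h54 H32 => ?_) H31
  refine smulK_s he (w := (2479/5000:ℝ)) (by norm_num) (by norm_num) (by norm_num) (by norm_num) h54 (fun _ _ _ _ _ h55 H33 => ?_) H32
  refine negK_s he h55 (fun _ _ _ _ _ h56 H34 => ?_) H33
  have h57 := In_cast h56 (neg_mul_c (c := (-2479/5000:ℝ)) (by norm_num))
  refine addcK_s he h57 (v' := (4:ℝ)) (by norm_num [SS, BB, abs_le]) (fun _ _ _ _ _ h58 H35 => ?_) H34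
  have h59 := In_cast h58 (add_comm _ _)
  refine mulK_s he h59 h35 (fun _ _ _ _ _ h60 H36 => ?_) H35
  have h61 := In_cast h60 ((div_eq_mul_inv _ _).symm)
  refine mulK_s he h49 h46 (fun _ _ _ _ _ h62 H37 => ?_) H36
  refine mulK_s he h62 h22 (fun _ _ _ _ _ h63 H38 => ?_) H37
  refine mulK_s he h49 h27 (fun _ _ _ _ _ h64 H39 => ?_) H38
  have h65 := In_cast (w := (P u ta s)) h64 rfl
  refine smulK_s he (w := (1971/10000:ℝ)) (by norm_num) (by norm_num) (by norm_num) (by norm_num) h65 (fun _ _ _ _ _ h66 H40 => ?_) H39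
  refine negK_s he h66 (fun _ _ _ _ _ h67 H41 => ?_) H40
  have h68 := In_cast h67 (neg_mul_c (c := (-1971/10000:ℝ)) (by norm_num))
  refine negK_s he h68 (fun _ _ _ _ _ h69 H42 => ?_) H41
  refine addcK_s he h69 (v' := (-1391/2500:ℝ)) (by norm_num [SS, BB, abs_le]) (fun _ _ _ _ _ h70 H43 => ?_) H42
  have h71 := In_cast h70 (neg_add_eq_sub _ _)
  refine sqK_s he h49 (fun _ _ _ _ _ h72 H44 => ?_) H43
  have h73 := In_cast h72 (sq _)
  have h74 := In_cast (w := (R4 u ta s)) h73 rfl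
  refine sqK_s he h21 (fun _ _ _ _ _ h75 H45 => ?_) H44
  have h76 := In_cast h75 (sq _)
  refine addK_s he h76 h4 (fun _ _ _ _ _ h77 H46 => ?_) H45
  refine smulK_s he (w := (2:ℝ)) (by norm_num) (by norm_num) (by norm_num) (by norm_num) h77 (fun _ _ _ _ _ h78 H47 => ?_) H46
  refine mulK_s he h74 h78 (fun _ _ _ _ _ h79 H48 => ?_) H47
  refine sqK_s he h65 (fun _ _ _ _ _ h80 H49 => ?_) H48
  have h81 := In_cast h80 (sq _)
  refine smulK_s he (w := (4:ℝ)) (by norm_num) (by norm_num) (by norm_num) (by norm_num) h81 (fun _ _ _ _ _ h82 H50 => ?_) H49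
  refine subK_s he h79 h82 (fun _ _ _ _ _ h83 H51 => ?_) H50
  refine smulK_s he (w := (24/625:ℝ)) (by norm_num) (by norm_num) (by norm_num) (by norm_num) h83 (fun _ _ _ _ _ h84 H52 => ?_) H51
  refine addK_s he h71 h84 (fun _ _ _ _ _ h85 H53 => ?_) H52
  have h86 := In_cast (w := (Gp u ta s)) h85 rfl
  refine negK_s he h65 (fun _ _ _ _ _ h87 H54 => ?_) H53
  refine addcK_s he h87 (v' := (2:ℝ)) (by norm_num [SS, BB, abs_le]) (fun _ _ _ _ _ h88 H55 => ?_) H54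
  have h89 := In_cast h88 (neg_add_eq_sub _ _)
  have h90 := In_cast (w := (Pp u ta s)) h89 rfl
  refine smulK_s he (w := (2:ℝ)) (by norm_num) (by norm_num) (by norm_num) (by norm_num) hx1 (fun _ _ _ _ _ h91 H56 => ?_) H55
  refine mulK_s he h91 h42 (fun _ _ _ _ _ h92 H57 => ?_) H56
  have h93 := In_cast (w := (t0 u ta s)) h92 rfl
  refine mulK_s he h46 hx2 (fun _ _ _ _ _ h94 H58 => ?_) H57
  have h95 := In_cast (w := (r1 u ta s)) h94 rfl
  refine sqK_s he h95 (fun _ _ _ _ _ h96 H59 => ?_) H58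
  have h97 := In_cast h96 (sq _)
  refine negK_s he h97 (fun _ _ _ _ _ h98 H60 => ?_) H59
  refine addcK_s he h98 (v' := (1:ℝ)) (by norm_num [SS, BB, abs_le]) (fun _ _ _ _ _ h99 H61 => ?_) H60
  have h100 := In_cast h99 (neg_add_eq_sub _ _)
  refine sqrtK_s he h100 (fun _ _ _ _ _ h101 H62 => ?_) H61
  have h102 := In_cast (w := (t1 u ta s)) h101 rfl
  refine mulK_s he h93 h102 (fun _ _ _ _ _ h103 H63 => ?_) H62
  have h104 := In_cast (w := (b0 u ta s)) h103 rfl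
  refine sqK_s he h104 (fun _ _ _ _ _ h105 H64 => ?_) H63
  have h106 := In_cast h105 (sq _)
  refine mulK_s he h74 h18 (fun _ _ _ _ _ h107 H65 => ?_) H64
  refine addK_s he h106 h107 (fun _ _ _ _ _ h108 H66 => ?_) H65
  refine sqrtK_s he h108 (fun _ _ _ _ _ h109 H67 => ?_) H66
  have h110 := In_cast (w := (b u ta s)) h109 rfl
  refine smulK_s he (w := (2:ℝ)) (by norm_num) (by norm_num) (by norm_num) (by norm_num) h110 (fun _ _ _ _ _ h111 H68 => ?_) H67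
  refine addK_s he h90 h111 (fun _ _ _ _ _ h112 H69 => ?_) H68
  refine sqrtK_s he h112 (fun _ _ _ _ _ h113 H70 => ?_) H69
  have h114 := In_cast (w := (v u ta s)) h113 rfl
  refine addK_s he h93 h102 (fun _ _ _ _ _ h115 H71 => ?_) H70
  have h116 := In_cast (w := (v0 u ta s)) h115 rfl
  refine addK_s he h114 h116 (fun _ _ _ _ _ h117 H72 => ?_) H71
  refine invK_s he h117 (fun _ _ _ _ _ h118 H73 => ?_) H72
  refine mulK_s he h114 h116 (fun _ _ _ _ _ h119 H74 => ?_) H73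
  refine addK_s he h119 h90 (fun _ _ _ _ _ h120 H75 => ?_) H74
  refine invK_s he h120 (fun _ _ _ _ _ h121 H76 => ?_) H75
  refine addK_s he h90 h104 (fun _ _ _ _ _ h122 H77 => ?_) H76
  refine mulK_s he h122 h121 (fun _ _ _ _ _ h123 H78 => ?_) H77
  have h124 := In_cast h123 ((div_eq_mul_inv _ _).symm)
  refine addcK_s he h124 (v' := (1:ℝ)) (by norm_num [SS, BB, abs_le]) (fun _ _ _ _ _ h125 H79 => ?_) H78
  have h126 := In_cast h125 (add_comm _ _)
  refine mulK_s he h126 h118 (fun _ _ _ _ _ h127 H80 => ?_) H79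
  have h128 := In_cast h127 ((div_eq_mul_inv _ _).symm)
  have h129 := In_cast (w := (GW u ta s)) h128 rfl
  refine addK_s he h86 h129 (fun _ _ _ _ _ h130 H81 => ?_) H80
  refine mulK_s he h63 h130 (fun _ _ _ _ _ h131 H82 => ?_) H81
  refine addK_s he h61 h131 (fun _ _ _ _ _ h132 H83 => ?_) H82
  have h133 := In_cast (w := (Ga u ta s)) h132 rfl
  refine mulK_s he h133 h24 (fun _ _ _ _ _ h134 H84 => ?_) H83
  have h135 := In_cast h134 ((div_eq_mul_inv _ _).symm)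
  have h136 := In_cast (w := (k u ta s)) h135 rfl
  refine mulK_s he h11 h136 (fun _ _ _ _ _ h137 H85 => ?_) H84
  have h138 := In_cast (w := (g u ta s)) h137 rfl
  refine smulK_s he (w := (3/5:ℝ)) (by norm_num) (by norm_num) (by norm_num) (by norm_num) hx3 (fun _ _ _ _ _ h139 H86 => ?_) H85
  refine addcK_s he h139 (v' := (-1/10:ℝ)) (by norm_num [SS, BB, abs_le]) (fun _ _ _ _ _ h140 H87 => ?_) H86
  have h141 := In_cast h140 (sub_c (c := (1/10:ℝ)) (by norm_num))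
  refine addcK_s he h93 (v' := (-1:ℝ)) (by norm_num [SS, BB, abs_le]) (fun _ _ _ _ _ h142 H88 => ?_) H87
  have h143 := In_cast h142 (sub_c (c := (1:ℝ)) (by norm_num))
  refine negK_s he h46 (fun _ _ _ _ _ h144 H89 => ?_) H88
  refine addcK_s he h144 (v' := (1:ℝ)) (by norm_num [SS, BB, abs_le]) (fun _ _ _ _ _ h145 H90 => ?_) H89
  have h146 := In_cast h145 (neg_add_eq_sub _ _)
  refine smulK_s he (w := (2:ℝ)) (by norm_num) (by norm_num) (by norm_num) (by norm_num) h146 (fun _ _ _ _ _ h147 H91 => ?_) H90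
  have h148 := In_cast h147 (mul_comm _ _)
  refine addK_s he h143 h148 (fun _ _ _ _ _ h149 H92 => ?_) H91
  refine addcK_s he h93 (v' := (1:ℝ)) (by norm_num [SS, BB, abs_le]) (fun _ _ _ _ _ h150 H93 => ?_) H92
  have h151 := In_cast h150 (add_comm _ _)
  refine invK_s he h151 (fun _ _ _ _ _ h152 H94 => ?_) H93
  refine mulK_s he h46 h152 (fun _ _ _ _ _ h153 H95 => ?_) H94
  have h154 := In_cast h153 ((div_eq_mul_inv _ _).symm)
  refine addK_s he h149 h154 (fun _ _ _ _ _ h155 H96 => ?_) H95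
  have h156 := In_cast (w := (U0 u ta s)) h155 rfl
  refine mulK_s he h141 h156 (fun _ _ _ _ _ h157 H97 => ?_) H96
  refine negK_s he h139 (fun _ _ _ _ _ h158 H98 => ?_) H97
  refine addcK_s he h158 (v' := (101/100:ℝ)) (by norm_num [SS, BB, abs_le]) (fun _ _ _ _ _ h159 H99 => ?_) H98
  have h160 := In_cast h159 (neg_add_eq_sub _ _)
  refine addcK_s he h102 (v' := (1:ℝ)) (by norm_num [SS, BB, abs_le]) (fun _ _ _ _ _ h161 H100 => ?_) H99
  have h162 := In_cast h161 (add_comm _ _)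
  refine smulK_s he (w := (2:ℝ)) (by norm_num) (by norm_num) (by norm_num) (by norm_num) h95 (fun _ _ _ _ _ h163 H101 => ?_) H100
  refine subK_s he h162 h163 (fun _ _ _ _ _ h164 H102 => ?_) H101
  refine invK_s he h162 (fun _ _ _ _ _ h165 H103 => ?_) H102
  refine mulK_s he h95 h165 (fun _ _ _ _ _ h166 H104 => ?_) H103
  have h167 := In_cast h166 ((div_eq_mul_inv _ _).symm)
  refine addK_s he h164 h167 (fun _ _ _ _ _ h168 H105 => ?_) H104
  have h169 := In_cast (w := (U1 u ta s)) h168 rfl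
  refine mulK_s he hx2 h169 (fun _ _ _ _ _ h170 H106 => ?_) H105
  have h171 := In_cast (w := (V1 u ta s)) h170 rfl
  refine mulK_s he h160 h171 (fun _ _ _ _ _ h172 H107 => ?_) H106
  refine addK_s he h157 h172 (fun _ _ _ _ _ h173 H108 => ?_) H107
  refine mulK_s he h95 hx2 (fun _ _ _ _ _ h174 H109 => ?_) H108
  refine smulK_s he (w := (9/1000:ℝ)) (by norm_num) (by norm_num) (by norm_num) (by norm_num) h174 (fun _ _ _ _ _ h175 H110 => ?_) H109
  refine addK_s he h173 h175 (fun _ _ _ _ _ h176 H111 => ?_) H110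
  have h177 := In_cast (w := (L u ta s)) h176 rfl
  refine smulK_s he (w := (2:ℝ)) (by norm_num) (by norm_num) (by norm_num) (by norm_num) h177 (fun _ _ _ _ _ h178 H112 => ?_) H111
  refine addK_s he h138 h178 (fun _ _ _ _ _ h179 H113 => ?_) H112
  have h180 := In_cast (w := (a u ta s)) h179 rfl
  refine posK_s he h180 (fun p0 H114 => ?_) H113
  refine mulK_s he h8 h46 (fun _ _ _ _ _ h181 H115 => ?_) H114
  refine subK_s he h156 h171 (fun _ _ _ _ _ h182 H116 => ?_) H115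
  refine smulK_s he (w := (14/25:ℝ)) (by norm_num) (by norm_num) (by norm_num) (by norm_num) h182 (fun _ _ _ _ _ h183 H117 => ?_) H116
  refine addK_s he h181 h183 (fun _ _ _ _ _ h184 H118 => ?_) H117
  have h185 := In_cast (w := (X u ta s)) h184 rfl
  refine mulK_s he hx3 h185 (fun _ _ _ _ _ h186 H119 => ?_) H118
  refine smulK_s he (w := (2:ℝ)) (by norm_num) (by norm_num) (by norm_num) (by norm_num) h186 (fun _ _ _ _ _ h187 H120 => ?_) H119
  refine subK_s he h187 h180 (fun _ _ _ _ _ h188 H121 => ?_) H120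
  refine posK_s he h188 (fun p1 H122 => ?_) H121
  refine smulK_s he (w := (1/4:ℝ)) (by norm_num) (by norm_num) (by norm_num) (by norm_num) h180 (fun _ _ _ _ _ h189 H123 => ?_) H122
  have h190 := In_cast h189 (div_c (c := (4:ℝ)) (by norm_num))
  refine addK_s he h138 h190 (fun _ _ _ _ _ h191 H124 => ?_) H123
  refine subK_s he h191 h186 (fun _ _ _ _ _ h192 H125 => ?_) H124
  exact ⟨p0, p1, pos_s he h192 H125⟩

noncomputable def alt3 (z1 w1 z2 w2 z3 w3 : ℕ) : Bool :=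
  sqK z1 (Nat.add w1 1152921504606846976) 1152921504606846976 1152921504606846976 0 fun c1 a1_1 a1_2 a1_3 q1 =>
  addcK c1 a1_1 a1_2 a1_3 q1 1152922604118474752 0 fun c3 a3_1 a3_2 a3_3 q3 =>
  invK c3 a3_1 a3_2 a3_3 q3 fun c5 a5_1 a5_2 a5_3 q5 =>
  smulK 2 1 1152921504606846977 2305843009213693952 c5 a5_1 a5_2 a5_3 q5 fun c8 a8_1 a8_2 a8_3 q8 =>
  addcK c8 a8_1 a8_2 a8_3 q8 1152920405095219200 0 fun c9 a9_1 a9_2 a9_3 q9 =>
  mulK c9 a9_1 a9_2 a9_3 q9 z2 1152921504606846976 (Nat.add w2 1152921504606846976) 1152921504606846976 0 fun c12 a12_1 a12_2 a12_3 q12 =>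
  smulK 100 1 1152921504606846977 115292150460684697600 c12 a12_1 a12_2 a12_3 q12 fun c14 a14_1 a14_2 a14_3 q14 =>
  addcK c14 a14_1 a14_2 a14_3 q14 1152844538792902656 0 fun c15 a15_1 a15_2 a15_3 q15 =>
  pos c15 a15_1 a15_2 a15_3 q15

theorem alt3_s {z1 w1 z2 w2 z3 w3 : ℕ} {e1 e2 e3 u ta s : ℝ} (he : Ev e1 e2 e3)
    (hx1 : In e1 e2 e3 z1 (Nat.add w1 1152921504606846976) 1152921504606846976 1152921504606846976 0 u)
    (hx2 : In e1 e2 e3 z2 1152921504606846976 (Nat.add w2 1152921504606846976) 1152921504606846976 0 ta)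
    (hx3 : In e1 e2 e3 z3 1152921504606846976 1152921504606846976 (Nat.add w3 1152921504606846976) 0 s)
    (H0 : alt3 z1 w1 z2 w2 z3 w3 = true) : 0 < (((100:ℝ) * (r1 u ta s)) - (70:ℝ)) := by
  unfold alt3 at H0
  refine sqK_s he hx1 (fun _ _ _ _ _ h1 H1 => ?_) H0
  have h2 := In_cast h1 (sq _)
  refine addcK_s he h2 (v' := (1:ℝ)) (by norm_num [SS, BB, abs_le]) (fun _ _ _ _ _ h3 H2 => ?_) H1
  have h4 := In_cast h3 (add_comm _ _)
  refine invK_s he h4 (fun _ _ _ _ _ h5 H3 => ?_) H2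
  have h6 := In_cast h5 (inv_eq_one_div _)
  have h7 := In_cast (w := (iu u ta s)) h6 rfl
  refine smulK_s he (w := (2:ℝ)) (by norm_num) (by norm_num) (by norm_num) (by norm_num) h7 (fun _ _ _ _ _ h8 H4 => ?_) H3
  refine addcK_s he h8 (v' := (-1:ℝ)) (by norm_num [SS, BB, abs_le]) (fun _ _ _ _ _ h9 H5 => ?_) H4
  have h10 := In_cast h9 (sub_c (c := (1:ℝ)) (by norm_num))
  have h11 := In_cast (w := (R u ta s)) h10 rfl
  refine mulK_s he h11 hx2 (fun _ _ _ _ _ h12 H6 => ?_) H5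
  have h13 := In_cast (w := (r1 u ta s)) h12 rfl
  refine smulK_s he (w := (100:ℝ)) (by norm_num) (by norm_num) (by norm_num) (by norm_num) h13 (fun _ _ _ _ _ h14 H7 => ?_) H6
  refine addcK_s he h14 (v' := (-70:ℝ)) (by norm_num [SS, BB, abs_le]) (fun _ _ _ _ _ h15 H8 => ?_) H7
  have h16 := In_cast h15 (sub_c (c := (70:ℝ)) (by norm_num))
  exact pos_s he h16 H8

attribute [irreducible] alt0 alt1 alt2 alt3

noncomputable def leaf (j u z1 w1 z2 w2 z3 w3 : ℕ) : Bool :=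
  sB j (alt0 z1 w1 z2 w2 z3 w3) fun j => sB j (alt1 z1 w1 z2 w2 z3 w3) fun j => sB j (alt2 z1 w1 z2 w2 z3 w3) fun j => alt3 z1 w1 z2 w2 z3 w3

theorem snd : Snd Q leaf := by
  intro j u z1 w1 z2 w2 z3 w3 e1 e2 e3 he H
  unfold leaf at H
  unfold Q
  replace H := sel H
  rcases H with H | ⟨j, H⟩
  · exact Or.inl (alt0_s he (var1 z1 w1) (var2 z2 w2) (var3 z3 w3) H)
  replace H := sel H
  rcases H with H | ⟨j, H⟩
  · exact Or.inr (Or.inl (alt1_s he (var1 z1 w1) (var2 z2 w2) (var3 z3 w3) H))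
  replace H := sel H
  rcases H with H | ⟨j, H⟩
  · exact Or.inr (Or.inr (Or.inl (alt2_s he (var1 z1 w1) (var2 z2 w2) (var3 z3 w3) H)))
  exact Or.inr (Or.inr (Or.inr (alt3_s he (var1 z1 w1) (var2 z2 w2) (var3 z3 w3) H)))

end Crest.Agent.R307.UKQ
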