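import Crest.Agent.R307.UKQ
set_option autoImplicit false
set_option maxRecDepth 100000
namespace Crest.Agent.R307.UKQ
open Crest.Agent.R307.IA Crest.Agent.R307.IA3

theorem k0 : Cov Q 1152921504606846976 1152921779484754113 1152921504606846976 1152921779484754113 1152922109338242252 1152922340235684086 :=
  cov_of snd 0 0 14 _ _ _ _ _ _ 0x55051550510550550255502155502550102550505505155102155050550515510255055050210350330255033020550451550021330330133042043301451043301341021255055025505502133032330055033025520120555025521555025501055155104515512330550102550550515510215505515025550210215525501551054255213305301025505155105550255215505102102555025501552550105515510555025501552510255055502215505505155102555021021550550255215505501055050451502550550502155255210255051551055502552155255010210550550155015505105525510550155215505055015501021 (by decide +kernel)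

theorem k1 : Cov Q 1152921504606846976 1152921642045800643 1152921779484754113 1152922054362661017 1152922109338242252 1152922340235684086 :=
  cov_of snd 0 0 9 _ _ _ _ _ _ 0x330303302441034133103302441420143301330054253201330330124305421440205505302551055055050213304034142432012550552133054212011 (by decide +kernel)

theorem k2 : Cov Q 1152921642045800643 1152921779484754113 1152921779484754113 1152921916923707700 1152922109338242252 1152922340235684086 :=
  cov_of snd 0 0 11 _ _ _ _ _ _ 0x3304233033003302133030233033030133023302033033003302330330145132033021330330301233033005503253201330330123303301201330330133023303032043023304053250143301233051330203303300210550330255033020330330025503502550550203414330102155052551055255101330330055033021203303302430330213303301330202550550502555021330330255033020550330550021255055025521552551055055021203303300430233042542033033002133033005503302133043012021550505521551033053302133051025505501551055055015510214330133024330103305501433012451330201201 (by decide +kernel)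

theorem k3 : Cov Q 1152921642045800643 1152921779484754113 1152921916923707700 1152922054362661017 1152922109338242252 1152922340235684086 :=
  cov_of snd 0 0 9 _ _ _ _ _ _ 0x330303303213303303210330330032330330330013302133032330303302321013303301333010330323303300321433013302010 (by decide +kernel)

end Crest.Agent.R307.UKQ
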