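import Crest.Agent.R307.IA1
import Crest.Agent.R307.IAx
set_option autoImplicit false
set_option linter.unusedVariables false
set_option maxRecDepth 20000
namespace Crest.Agent.R307.UMa
open Crest.Agent.R307.IA Crest.Agent.R307.IA1

theorem In_cast {e1 : ℝ} {x y1 r : ℕ} {v w : ℝ}
    (h : In e1 x y1 r v) (e : v = w) : In e1 x y1 r w := e ▸ h

noncomputable def r (u : ℝ) : ℝ := (((2:ℝ) * u) / ((1:ℝ) + (u ^ 2)))
noncomputable def t (u : ℝ) : ℝ := (((1:ℝ) - (u ^ 2)) / ((1:ℝ) + (u ^ 2)))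

def Q (u : ℝ) : Prop :=
  (
  (0 < (((((4:ℝ) + ((3:ℝ) * (r u))) - (((8:ℝ) * (((1:ℝ) + (r u)) ^ 2)) * ((((7437/20000:ℝ) - ((1391/2500:ℝ) * (r u))) + ((1971/5000:ℝ) * ((r u) ^ 3))) - ((288/625:ℝ) * ((r u) ^ 5))))) * ((1:ℝ) + (t u))) - ((((2:ℝ) + ((4:ℝ) * (r u))) + ((6:ℝ) * ((r u) ^ 2))) + ((3:ℝ) * ((r u) ^ 3))))))

noncomputable def alt0 (z1 w1 : ℕ) : Bool :=
  sqK z1 (Nat.add w1 1152921504606846976) 0 fun c1 a1_1 q1 =>
  addcK c1 a1_1 q1 1152922604118474752 0 fun c2 a2_1 q2 =>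
  invK c2 a2_1 q2 fun c4 a4_1 q4 =>
  smulK 2 1 1152921504606846977 2305843009213693952 z1 (Nat.add w1 1152921504606846976) 0 fun c5 a5_1 q5 =>
  mulK c5 a5_1 q5 c4 a4_1 q4 fun c6 a6_1 q6 =>
  smulK 3 1 1152921504606846977 3458764513820540928 c6 a6_1 q6 fun c9 a9_1 q9 =>
  addcK c9 a9_1 q9 1152925902653358080 0 fun c10 a10_1 q10 =>
  addcK c6 a6_1 q6 1152922604118474752 0 fun c12 a12_1 q12 =>
  sqK c12 a12_1 q12 fun c14 a14_1 q14 =>
  smulK 8 1 1152921504606846977 9223372036854775808 c14 a14_1 q14 fun c15 a15_1 q15 =>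
  smulK 1391 2500 2882303761517117442500 1603713812908124143616 c6 a6_1 q6 fun c16 a16_1 q16 =>
  negK c16 a16_1 q16 fun c17 a17_1 q17 =>
  addcK c17 a17_1 q17 1152921913460245765 1 fun c18 a18_1 q18 =>
  sqK c6 a6_1 q6 fun c20 a20_1 q20 =>
  mulK c20 a20_1 q20 c6 a6_1 q6 fun c21 a21_1 q21 =>
  smulK 1971 5000 5764607523034234885000 2272408285580095389696 c21 a21_1 q21 fun c23 a23_1 q23 =>
  addK c18 a18_1 q18 c23 a23_1 q23 fun c24 a24_1 q24 =>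
  sqK c20 a20_1 q20 fun c25 a25_1 q25 =>
  mulK c25 a25_1 q25 c6 a6_1 q6 fun c27 a27_1 q27 =>
  smulK 288 625 720575940379279360625 332041393326771929088 c27 a27_1 q27 fun c29 a29_1 q29 =>
  subK c24 a24_1 q24 c29 a29_1 q29 fun c30 a30_1 q30 =>
  mulK c15 a15_1 q15 c30 a30_1 q30 fun c31 a31_1 q31 =>
  subK c10 a10_1 q10 c31 a31_1 q31 fun c32 a32_1 q32 =>
  negK c1 a1_1 q1 fun c33 a33_1 q33 =>
  addcK c33 a33_1 q33 1152922604118474752 0 fun c34 a34_1 q34 =>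
  mulK c34 a34_1 q34 c4 a4_1 q4 fun c36 a36_1 q36 =>
  addcK c36 a36_1 q36 1152922604118474752 0 fun c39 a39_1 q39 =>
  mulK c32 a32_1 q32 c39 a39_1 q39 fun c41 a41_1 q41 =>
  smulK 4 1 1152921504606846977 4611686018427387904 c6 a6_1 q6 fun c42 a42_1 q42 =>
  addcK c42 a42_1 q42 1152923703630102528 0 fun c43 a43_1 q43 =>
  smulK 6 1 1152921504606846977 6917529027641081856 c20 a20_1 q20 fun c45 a45_1 q45 =>
  addK c43 a43_1 q43 c45 a45_1 q45 fun c46 a46_1 q46 =>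
  smulK 3 1 1152921504606846977 3458764513820540928 c21 a21_1 q21 fun c47 a47_1 q47 =>
  addK c46 a46_1 q46 c47 a47_1 q47 fun c48 a48_1 q48 =>
  subK c41 a41_1 q41 c48 a48_1 q48 fun c49 a49_1 q49 =>
  pos c49 a49_1 q49

theorem alt0_s {z1 w1 : ℕ} {e1 u : ℝ} (he : Ev e1)
    (hx1 : In e1 z1 (Nat.add w1 1152921504606846976) 0 u)
    (H0 : alt0 z1 w1 = true) : 0 < (((((4:ℝ) + ((3:ℝ) * (r u))) - (((8:ℝ) * (((1:ℝ) + (r u)) ^ 2)) * ((((7437/20000:ℝ) - ((1391/2500:ℝ) * (r u))) + ((1971/5000:ℝ) * ((r u) ^ 3))) - ((288/625:ℝ) * ((r u) ^ 5))))) * ((1:ℝ) + (t u))) - ((((2:ℝ) + ((4:ℝ) * (r u))) + ((6:ℝ) * ((r u) ^ 2))) + ((3:ℝ) * ((r u) ^ 3)))) := by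
  unfold alt0 at H0
  refine sqK_s he hx1 (fun _ _ _ h1 H1 => ?_) H0
  refine addcK_s he h1 (v' := (1:ℝ)) (by norm_num [SS, BB, abs_le]) (fun _ _ _ h2 H2 => ?_) H1
  have h3 := In_cast h2 (add_comm _ _)
  refine invK_s he h3 (fun _ _ _ h4 H3 => ?_) H2
  refine smulK_s he (w := (2:ℝ)) (by norm_num) (by norm_num) (by norm_num) (by norm_num) hx1 (fun _ _ _ h5 H4 => ?_) H3
  refine mulK_s he h5 h4 (fun _ _ _ h6 H5 => ?_) H4
  have h7 := In_cast h6 ((div_eq_mul_inv _ _).symm)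
  have h8 := In_cast (w := (r u)) h7 rfl
  refine smulK_s he (w := (3:ℝ)) (by norm_num) (by norm_num) (by norm_num) (by norm_num) h8 (fun _ _ _ h9 H6 => ?_) H5
  refine addcK_s he h9 (v' := (4:ℝ)) (by norm_num [SS, BB, abs_le]) (fun _ _ _ h10 H7 => ?_) H6
  have h11 := In_cast h10 (add_comm _ _)
  refine addcK_s he h8 (v' := (1:ℝ)) (by norm_num [SS, BB, abs_le]) (fun _ _ _ h12 H8 => ?_) H7
  have h13 := In_cast h12 (add_comm _ _)
  refine sqK_s he h13 (fun _ _ _ h14 H9 => ?_) H8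
  refine smulK_s he (w := (8:ℝ)) (by norm_num) (by norm_num) (by norm_num) (by norm_num) h14 (fun _ _ _ h15 H10 => ?_) H9
  refine smulK_s he (w := (1391/2500:ℝ)) (by norm_num) (by norm_num) (by norm_num) (by norm_num) h8 (fun _ _ _ h16 H11 => ?_) H10
  refine negK_s he h16 (fun _ _ _ h17 H12 => ?_) H11
  refine addcK_s he h17 (v' := (7437/20000:ℝ)) (by norm_num [SS, BB, abs_le]) (fun _ _ _ h18 H13 => ?_) H12
  have h19 := In_cast h18 (neg_add_eq_sub _ _)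
  refine sqK_s he h8 (fun _ _ _ h20 H14 => ?_) H13
  refine mulK_s he h20 h8 (fun _ _ _ h21 H15 => ?_) H14
  have h22 := In_cast h21 (pow_sc (n := 3) rfl)
  refine smulK_s he (w := (1971/5000:ℝ)) (by norm_num) (by norm_num) (by norm_num) (by norm_num) h22 (fun _ _ _ h23 H16 => ?_) H15
  refine addK_s he h19 h23 (fun _ _ _ h24 H17 => ?_) H16
  refine sqK_s he h20 (fun _ _ _ h25 H18 => ?_) H17
  have h26 := In_cast h25 (pow_dbl (n := 4) rfl)
  refine mulK_s he h26 h8 (fun _ _ _ h27 H19 => ?_) H18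
  have h28 := In_cast h27 (pow_sc (n := 5) rfl)
  refine smulK_s he (w := (288/625:ℝ)) (by norm_num) (by norm_num) (by norm_num) (by norm_num) h28 (fun _ _ _ h29 H20 => ?_) H19
  refine subK_s he h24 h29 (fun _ _ _ h30 H21 => ?_) H20
  refine mulK_s he h15 h30 (fun _ _ _ h31 H22 => ?_) H21
  refine subK_s he h11 h31 (fun _ _ _ h32 H23 => ?_) H22
  refine negK_s he h1 (fun _ _ _ h33 H24 => ?_) H23
  refine addcK_s he h33 (v' := (1:ℝ)) (by norm_num [SS, BB, abs_le]) (fun _ _ _ h34 H25 => ?_) H24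
  have h35 := In_cast h34 (neg_add_eq_sub _ _)
  refine mulK_s he h35 h4 (fun _ _ _ h36 H26 => ?_) H25
  have h37 := In_cast h36 ((div_eq_mul_inv _ _).symm)
  have h38 := In_cast (w := (t u)) h37 rfl
  refine addcK_s he h38 (v' := (1:ℝ)) (by norm_num [SS, BB, abs_le]) (fun _ _ _ h39 H27 => ?_) H26
  have h40 := In_cast h39 (add_comm _ _)
  refine mulK_s he h32 h40 (fun _ _ _ h41 H28 => ?_) H27
  refine smulK_s he (w := (4:ℝ)) (by norm_num) (by norm_num) (by norm_num) (by norm_num) h8 (fun _ _ _ h42 H29 => ?_) H28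
  refine addcK_s he h42 (v' := (2:ℝ)) (by norm_num [SS, BB, abs_le]) (fun _ _ _ h43 H30 => ?_) H29
  have h44 := In_cast h43 (add_comm _ _)
  refine smulK_s he (w := (6:ℝ)) (by norm_num) (by norm_num) (by norm_num) (by norm_num) h20 (fun _ _ _ h45 H31 => ?_) H30
  refine addK_s he h44 h45 (fun _ _ _ h46 H32 => ?_) H31
  refine smulK_s he (w := (3:ℝ)) (by norm_num) (by norm_num) (by norm_num) (by norm_num) h22 (fun _ _ _ h47 H33 => ?_) H32
  refine addK_s he h46 h47 (fun _ _ _ h48 H34 => ?_) H33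
  refine subK_s he h41 h48 (fun _ _ _ h49 H35 => ?_) H34
  exact pos_s he h49 H35

attribute [irreducible] alt0

noncomputable def leaf (j u z1 w1 : ℕ) : Bool :=
  alt0 z1 w1

theorem snd : Snd Q leaf := by
  intro j u z1 w1 e1 he H
  unfold leaf at H
  unfold Q
  exact alt0_s he (var1 z1 w1) H

end Crest.Agent.R307.UMa
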