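import Crest.Agent.R307.UMa
set_option autoImplicit false
set_option maxRecDepth 100000
namespace Crest.Agent.R307.UMa
open Crest.Agent.R307.IA Crest.Agent.R307.IA1

theorem k0 : Cov Q 1152921504606846976 1152922604118474752 :=
  cov_of snd 0 0 9 _ _ 0x110101011001101100011011011000110110011011000110110000110110011011100011011001101001101000000 (by decide +kernel)

end Crest.Agent.R307.UMa
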