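import Crest.Agent.R307.XSh
import Crest.Agent.R307.UK

/-!
# R307/UX: the single-hypothesis induction with the steps `UStepC`
-/

set_option autoImplicit false
set_option linter.unusedVariables false

namespace Crest.Agent.R307

open Crest.CubeNoise Set

/-- The Bellman inequality at `(a0, a1)` with a step `UStepC`. -/
def BAtC (ρ : ℝ) (U b : ℝ → ℝ) (a0 a1 : ℝ) : Prop :=
  ∃ K0 K1 l m : ℝ, UStepC ρ U K0 K1 l m ∧
    2 * b ((a0 + a1) / 2) ≤ K0 * b a0 + K1 * b a1 + l * (a1 - a0) - m * (1 - a1)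

theorem BAt.toC {ρ : ℝ} {U b : ℝ → ℝ} {a0 a1 : ℝ} (h : BAt ρ U b a0 a1) : BAtC ρ U b a0 a1 := by
  obtain ⟨K0, K1, l, h1, h2⟩ := h
  exact ⟨K0, K1, l, 0, h1.toC, by linarith⟩

theorem ux_conc3 {U : ℝ → ℝ} (hc : ConcaveOn ℝ (Icc 0 1) U) {x y z a : ℝ} (x0 : 0 ≤ x) (y0 : 0 ≤ y) (z0 : 0 ≤ z)
    (e : x + y + z = 1) (a0 : 0 ≤ a) (a1 : a ≤ 1) : x * U 1 + y * U a + z * U 0 ≤ U (x + y * a) := by
  have := hc.le_map_sum (t := Finset.univ) (w := ![x, y, z]) (p := ![1, a, 0])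
    (fun i _ => by fin_cases i <;> simpa) (by simpa [Fin.sum_univ_three] using e)
    (fun i _ => by fin_cases i <;> simp [a0, a1])
  simpa [Fin.sum_univ_three] using this

/-- The step at the isolated point `(0, 1)`. -/
theorem ustep01 {ρ : ℝ} (hρ0 : 0 ≤ ρ) (hρ1 : ρ ≤ 1) {U : ℝ → ℝ} (hc : ConcaveOn ℝ (Icc 0 1) U) (h0 : 0 ≤ U 0)
    (h1 : 0 ≤ U 1) : UStep ρ U 0 0 (U ((1 + ρ) / 2) + U ((1 - ρ) / 2)) := by
  refine ⟨le_rfl, le_rfl, fun p0 p1 a b c => ?_⟩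
  have k1 := ux_conc3 hc (x := p0) (y := p1 - p0) (z := 1 - p1) (a := (1 + ρ) / 2) a (by linarith) (by linarith)
    (by ring) (by linarith) (by linarith)
  have k2 := ux_conc3 hc (x := p0) (y := p1 - p0) (z := 1 - p1) (a := (1 - ρ) / 2) a (by linarith) (by linarith)
    (by ring) (by linarith) (by linarith)
  rw [show p0 + (p1 - p0) * ((1 + ρ) / 2) = (1 + ρ) / 2 * p1 + (1 - ρ) / 2 * p0 by ring] at k1
  rw [show p0 + (p1 - p0) * ((1 - ρ) / 2) = (1 + ρ) / 2 * p0 + (1 - ρ) / 2 * p1 by ring] at k2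
  have := mul_nonneg a h1
  have := mul_nonneg (sub_nonneg.2 c) h0
  linarith

theorem ux_val {ρ s : ℝ} (hρ0 : 0 ≤ ρ) (hρ1 : ρ ≤ 1) (hs : s ^ 2 = 1 - ρ ^ 2) (s0 : 0 ≤ s) :
    2 * √((1 + ρ) / 2 * (1 - (1 + ρ) / 2)) = s := by
  rw [show (1 + ρ) / 2 * (1 - (1 + ρ) / 2) = (s / 2) ^ 2 by linear_combination (-1 / 4) * hs,
    Real.sqrt_sq (by linarith)]
  ring

/-- The single-hypothesis induction for a general potential with exact splitting. -/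
theorem xcore_singleU {ρ s : ℝ} (hρ0 : 0 ≤ ρ) (hρ1 : ρ ≤ 1) (hs : s ^ 2 = 1 - ρ ^ 2) (s0 : 0 ≤ s) {U b : ℝ → ℝ}
    (hc : ConcaveOn ℝ (Icc 0 1) U) (U0 : U 0 = 0) (U1 : U 1 = 0)
    (hU : ∀ p, 0 ≤ p → p ≤ 1 → U p + U (1 - p) = 2 * √(p * (1 - p)))
    (b0 : b 0 ≤ 0) (b1 : b 1 ≤ 0) (bh : 2 * b (1 / 2) ≤ s)
    (step : ∀ a0 a1 : ℝ, 0 ≤ a0 → a0 ≤ a1 → a1 ≤ 1 → a1 - a0 ≤ 1 / 2 → SmH a0 a1 → BAtC ρ U b a0 a1)
    (fin : ∀ a : ℝ, 0 ≤ a → a ≤ 1 → s - 1 + 2 * √(a * (1 - a)) ≤ b a + b (1 - a)) : XCore ρ := by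
  have hρ : |ρ| ≤ 1 := abs_le.2 ⟨by linarith, hρ1⟩
  have key := xind_vone3 hρ0 hρ1 U b hc (by rwa [U0]) (by rwa [U1]) (fun a0 a1 e0 e1 e2 hS => by
    have : BAtC ρ U b a0 a1 := by
      rcases hS.2 with h | ⟨rfl, rfl⟩
      · exact step a0 a1 e0 e1 e2 h hS
      · refine BAt.toC ⟨0, 0, _, ustep01 hρ0 hρ1 hc U0.ge U1.ge, ?_⟩
        have := hU ((1 + ρ) / 2) (by linarith) (by linarith)
        rw [ux_val hρ0 hρ1 hs s0, show 1 - (1 + ρ) / 2 = (1 - ρ) / 2 by ring] at this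
        rw [this]
        norm_num
        linarith
    obtain ⟨K0, K1, l, m, h1, h2⟩ := this
    exact ⟨K0, K1, -l, l + m, -m, 0, 0, 0, h1.1, h1.2.1, le_rfl,
      fun p0 p1 i0 i1 i2 => by linarith [h1.2.2 p0 p1 i0 i1 i2], by linarith⟩)
  intro n u hu
  have u0 : ∀ y, 0 ≤ u y := fun y => by rcases hu y with a | a <;> simp [a]
  have u1 : ∀ y, u y ≤ 1 := fun y => by rcases hu y with a | a <;> simp [a]
  have k1 := key n u hu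
  have k2 := key n (fun y => 1 - u y) (fun y => by rcases hu y with a | a <;> simp [a])
  have en : ∀ x, noise ρ (fun y => 1 - u y) x = 1 - noise ρ u x := fun x => by
    have := noise_add ρ (fun y => 1 - u y) u x
    simp only [sub_add_cancel, noise_const] at this
    linarith
  simp only [en] at k2
  rw [avg_sub, avg_const] at k2
  have es : √(1 - ρ ^ 2) = s := by rw [← hs, Real.sqrt_sq s0]
  rw [es]
  refine (fin _ (le_avg u0) (avg_le u1)).trans ((add_le_add k1 k2).trans ?_)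
  rw [← avg_add]
  exact avg_mono fun x => (hU _ (xv_noise_nonneg hρ hu x) (xv_noise_le hρ hu x)).le

/-- The single-hypothesis induction for `Uex`. -/
theorem xcore_single {ρ s : ℝ} (hρ0 : 0 ≤ ρ) (hρ1 : ρ ≤ 1) (hs : s ^ 2 = 1 - ρ ^ 2) (s0 : 0 ≤ s) {b : ℝ → ℝ}
    (b0 : b 0 ≤ 0) (b1 : b 1 ≤ 0) (bh : 2 * b (1 / 2) ≤ s)
    (step : ∀ a0 a1 : ℝ, 0 ≤ a0 → a0 ≤ a1 → a1 ≤ 1 → a1 - a0 ≤ 1 / 2 → SmH a0 a1 → BAtC ρ Uex b a0 a1)
    (fin : ∀ a : ℝ, 0 ≤ a → a ≤ 1 → s - 1 + 2 * √(a * (1 - a)) ≤ b a + b (1 - a)) : XCore ρ :=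
  xcore_singleU hρ0 hρ1 hs s0 Uex_conc Uex_zero Uex_one (fun _ h _ => Uex_split h) b0 b1 bh step fin

end Crest.Agent.R307
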