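import Crest.Agent.R307.SLw

set_option autoImplicit false

namespace Crest.Agent.R307

/-- window L of S0471 -/
theorem win_L {ρ : ℝ} (h0 : 87 / 100 ≤ ρ) (h1 : ρ ≤ 1) : XCore ρ := sl_core (by linarith) h1

end Crest.Agent.R307
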