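import Crest.Agent.R307.LGm

set_option autoImplicit false

namespace Crest.Agent.R307

/-- window LG of S0471 -/
theorem win_LG {ρ : ℝ} (h0 : 3 / 10 ≤ ρ) (h1 : ρ ≤ 66 / 100) : XCore ρ := lg_core h0 h1

end Crest.Agent.R307
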