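import Crest.Agent.R307.MZ2

set_option autoImplicit false

namespace Crest.Agent.R307

/-- window M of S0471 -/
theorem win_M {ρ : ℝ} (h0 : 66 / 100 ≤ ρ) (h1 : ρ ≤ 4 / 5) : XCore ρ :=
  MZ.mz_core h0 h1

end Crest.Agent.R307
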