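import Mathlib

/-!
# R307/XSeg: the segment lemma (pointwise step for a potential with `(k - U')² ≤ U (-U'')`)

On a piece `[a,b]` the function `W = φ f' - (φ' + 2ψ) f + 2 K Ψ` (`Ψ' = ψ`) is antitone as soon as
`(K - f')² ≤ f (-f'')` and `ψ² ≤ φ (φ'' + 2ψ')`.
-/

set_option autoImplicit false

namespace Crest.Agent.R307

open Set

/-- Test functions on one piece `[a,b]`: `φ1 = φ'`, `ψ = Ψ'`, `ψ² ≤ φ (φ'' + 2 ψ')`. -/
structure SegPc (a b : ℝ) (φ φ1 ψ Ψ : ℝ → ℝ) : Prop where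
  c0 : ContinuousOn φ (Icc a b)
  c1 : ContinuousOn φ1 (Icc a b)
  c2 : ContinuousOn ψ (Icc a b)
  c3 : ContinuousOn Ψ (Icc a b)
  ex : ∀ t ∈ Ioo a b, ∃ φ2 ψ1 : ℝ, HasDerivAt φ (φ1 t) t ∧ HasDerivAt φ1 φ2 t ∧ HasDerivAt ψ ψ1 t ∧
    HasDerivAt Ψ (ψ t) t ∧ 0 ≤ φ t ∧ 0 ≤ φ2 + 2 * ψ1 ∧ ψ t ^ 2 ≤ φ t * (φ2 + 2 * ψ1)

theorem xseg_amgm {φ g f h ψ y : ℝ} (hφ : 0 ≤ φ) (hg : 0 ≤ g) (hf : 0 ≤ f) (hh : 0 ≤ h)
    (h1 : ψ ^ 2 ≤ φ * g) (h2 : y ^ 2 ≤ f * h) : 2 * ψ * y ≤ φ * h + g * f := by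
  have e : (ψ * y) ^ 2 ≤ (φ * g) * (f * h) := by
    rw [mul_pow]
    exact mul_le_mul h1 h2 (sq_nonneg _) (mul_nonneg hφ hg)
  have : (2 * ψ * y) ^ 2 ≤ (φ * h + g * f) ^ 2 := by nlinarith [sq_nonneg (φ * h - g * f)]
  exact (abs_le_of_sq_le_sq' this (by positivity)).2

/-- One piece. -/
theorem xseg_piece {a b K : ℝ} (hab : a ≤ b) {φ φ1 ψ Ψ f f1 : ℝ → ℝ} (P : SegPc a b φ φ1 ψ Ψ)
    (cf : ContinuousOn f (Icc a b)) (cf1 : ContinuousOn f1 (Icc a b))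
    (hf : ∀ t ∈ Ioo a b, ∃ f2 : ℝ, HasDerivAt f (f1 t) t ∧ HasDerivAt f1 f2 t ∧ 0 ≤ f t ∧ f2 ≤ 0 ∧
      (K - f1 t) ^ 2 ≤ f t * (-f2)) :
    φ b * f1 b - (φ1 b + 2 * ψ b) * f b + 2 * K * Ψ b ≤ φ a * f1 a - (φ1 a + 2 * ψ a) * f a + 2 * K * Ψ a := by
  let W : ℝ → ℝ := fun t => φ t * f1 t - (φ1 t + 2 * ψ t) * f t + 2 * K * Ψ t
  have cW : ContinuousOn W (Icc a b) :=
    ((P.c0.mul cf1).sub ((P.c1.add (continuousOn_const.mul P.c2)).mul cf)).add (continuousOn_const.mul P.c3)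
  have dW : ∀ t ∈ Ioo a b, ∃ w : ℝ, HasDerivAt W w t ∧ w ≤ 0 := by
    intro t ht
    obtain ⟨φ2, ψ1, d0, d1, d2, d3, p0, p1, p2⟩ := P.ex t ht
    obtain ⟨f2, e0, e1, q0, q1, q2⟩ := hf t ht
    refine ⟨_, ((d0.fun_mul e1).fun_sub ((d1.fun_add (d2.const_mul 2)).fun_mul e0)).fun_add (d3.const_mul (2 * K)), ?_⟩
    have := xseg_amgm p0 p1 q0 (neg_nonneg.2 q1) p2 q2
    linarith
  have hA : AntitoneOn W (Icc a b) := by
    refine antitoneOn_of_deriv_nonpos (convex_Icc a b) cW ?_ ?_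
    · intro t ht
      rw [interior_Icc] at ht
      obtain ⟨w, hw, -⟩ := dW t ht
      exact hw.differentiableAt.differentiableWithinAt
    · intro t ht
      rw [interior_Icc] at ht
      obtain ⟨w, hw, h0⟩ := dW t ht
      rwa [hw.deriv]
  exact hA (left_mem_Icc.2 hab) (right_mem_Icc.2 hab) hab

/-- A potential on `[0,1]` with `(k - U')² ≤ U (-U'')` inside. -/
structure SegPot (k : ℝ) (U U1 : ℝ → ℝ) : Prop where
  c : ContinuousOn U (Icc 0 1)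
  ex : ∀ p ∈ Ioo (0:ℝ) 1, ∃ U2 : ℝ, HasDerivAt U (U1 p) p ∧ HasDerivAt U1 U2 p ∧ 0 ≤ U p ∧ U2 ≤ 0 ∧
    (k - U1 p) ^ 2 ≤ U p * (-U2)

theorem SegPot.concaveOn {k : ℝ} {U U1 : ℝ → ℝ} (H : SegPot k U U1) : ConcaveOn ℝ (Icc 0 1) U := by
  have d1 : ∀ p ∈ Ioo (0:ℝ) 1, deriv U p = U1 p := fun p hp => by
    obtain ⟨_, h, -⟩ := H.ex p hp
    exact h.deriv
  refine AntitoneOn.concaveOn_of_deriv (convex_Icc 0 1) H.c ?_ ?_
  · intro p hp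
    rw [interior_Icc] at hp
    obtain ⟨_, h, -⟩ := H.ex p hp
    exact h.differentiableAt.differentiableWithinAt
  · rw [interior_Icc]
    have hA : AntitoneOn U1 (Ioo 0 1) := by
      refine antitoneOn_of_deriv_nonpos (convex_Ioo 0 1) (fun p hp => ?_) ?_ ?_
      · obtain ⟨_, -, h, -⟩ := H.ex p hp
        exact h.continuousAt.continuousWithinAt
      · intro p hp
        rw [interior_Ioo] at hp
        obtain ⟨_, -, h, -⟩ := H.ex p hp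
        exact h.differentiableAt.differentiableWithinAt
      · intro p hp
        rw [interior_Ioo] at hp
        obtain ⟨_, -, h, -, h0, -⟩ := H.ex p hp
        rwa [h.deriv]
    intro p hp q hq hpq
    rw [d1 p hp, d1 q hq]
    exact hA hp hq hpq

theorem xseg_open {k u v : ℝ} {U U1 : ℝ → ℝ} (H : SegPot k U U1) (hu : 0 ≤ u) (huv : u ≤ v) (hv : v ≤ 1)
    {φa φa1 ψa Ψa φb φb1 ψb Ψb φc φc1 ψc Ψc : ℝ → ℝ}
    (Pa : SegPc 0 u φa φa1 ψa Ψa) (Pb : SegPc u v φb φb1 ψb Ψb) (Pc : SegPc v 1 φc φc1 ψc Ψc)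
    (e0 : φa 0 = 0) (eu : φa u = φb u) (ev : φb v = φc v) (e1 : φc 1 = 0)
    {p0 p1 : ℝ} (h0 : 0 < p0) (h01 : p0 ≤ p1) (h1 : p1 < 1) :
    (φa1 0 + 2 * ψa 0) * U p0 + (-(φc1 1 + 2 * ψc 1)) * U p1
        + 2 * k * (Ψa u - Ψa 0 + (Ψb v - Ψb u) + (Ψc 1 - Ψc v)) * (p1 - p0) ≤
      (φa1 u + 2 * ψa u - (φb1 u + 2 * ψb u)) * U (p0 + u * (p1 - p0))
        + (φb1 v + 2 * ψb v - (φc1 v + 2 * ψc v)) * U (p0 + v * (p1 - p0)) := by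
  set δ := p1 - p0 with hδ
  have δ0 : 0 ≤ δ := sub_nonneg.2 h01
  have mem : ∀ t ∈ Icc (0:ℝ) 1, p0 + t * δ ∈ Ioo (0:ℝ) 1 := fun t ht =>
    ⟨by nlinarith [mul_nonneg ht.1 δ0], by nlinarith [mul_nonneg (sub_nonneg.2 ht.2) δ0]⟩
  let f : ℝ → ℝ := fun t => U (p0 + t * δ)
  let f1 : ℝ → ℝ := fun t => U1 (p0 + t * δ) * δ
  have dl : ∀ t : ℝ, HasDerivAt (fun t : ℝ => p0 + t * δ) δ t := fun t => by
    simpa using ((hasDerivAt_id t).mul_const δ).const_add p0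
  have hf : ∀ t ∈ Icc (0:ℝ) 1, ∃ f2 : ℝ, HasDerivAt f (f1 t) t ∧ HasDerivAt f1 f2 t ∧ 0 ≤ f t ∧ f2 ≤ 0 ∧
      (k * δ - f1 t) ^ 2 ≤ f t * (-f2) := by
    intro t ht
    obtain ⟨U2, d0, d1, q0, q1, q2⟩ := H.ex _ (mem t ht)
    refine ⟨U2 * δ * δ, d0.comp t (dl t), (d1.comp t (dl t)).mul_const δ, q0, ?_, ?_⟩
    · exact mul_nonpos_of_nonpos_of_nonneg (mul_nonpos_of_nonpos_of_nonneg q1 δ0) δ0
    · have := mul_le_mul_of_nonneg_right q2 (sq_nonneg δ)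
      simp only [f, f1]
      linarith
  have cf : ContinuousOn f (Icc 0 1) := fun t ht => by
    obtain ⟨_, h, -⟩ := hf t ht
    exact h.continuousAt.continuousWithinAt
  have cf1 : ContinuousOn f1 (Icc 0 1) := fun t ht => by
    obtain ⟨_, -, h, -⟩ := hf t ht
    exact h.continuousAt.continuousWithinAt
  have pc : ∀ {a b : ℝ} {φ φ1 ψ Ψ : ℝ → ℝ}, 0 ≤ a → a ≤ b → b ≤ 1 → SegPc a b φ φ1 ψ Ψ →
      φ b * f1 b - (φ1 b + 2 * ψ b) * f b + 2 * (k * δ) * Ψ b ≤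
        φ a * f1 a - (φ1 a + 2 * ψ a) * f a + 2 * (k * δ) * Ψ a := fun ha hab hb P =>
    xseg_piece hab P (cf.mono (Icc_subset_Icc ha hb)) (cf1.mono (Icc_subset_Icc ha hb))
      fun t ht => hf t ⟨ha.trans ht.1.le, ht.2.le.trans hb⟩
  have A := pc le_rfl hu (huv.trans hv) Pa
  have B := pc hu huv hv Pb
  have C := pc (hu.trans huv) hv le_rfl Pc
  rw [e0] at A
  rw [← eu] at B
  rw [e1, ← ev] at C
  have f0 : f 0 = U p0 := by simp [f]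
  have f1' : f 1 = U p1 := by simp [f, hδ]
  rw [f0] at A
  rw [f1'] at C
  change _ ≤ _ * f u + _ * f v
  linarith

/-- The segment lemma on the closed range `0 ≤ p0 ≤ p1 ≤ 1`; usually `u = (1-ρ)/2`, `v = (1+ρ)/2`. -/
theorem xseg {k u v : ℝ} {U U1 : ℝ → ℝ} (H : SegPot k U U1) (hu : 0 ≤ u) (huv : u ≤ v) (hv : v ≤ 1)
    {φa φa1 ψa Ψa φb φb1 ψb Ψb φc φc1 ψc Ψc : ℝ → ℝ}
    (Pa : SegPc 0 u φa φa1 ψa Ψa) (Pb : SegPc u v φb φb1 ψb Ψb) (Pc : SegPc v 1 φc φc1 ψc Ψc)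
    (e0 : φa 0 = 0) (eu : φa u = φb u) (ev : φb v = φc v) (e1 : φc 1 = 0)
    {p0 p1 : ℝ} (h0 : 0 ≤ p0) (h01 : p0 ≤ p1) (h1 : p1 ≤ 1) :
    (φa1 0 + 2 * ψa 0) * U p0 + (-(φc1 1 + 2 * ψc 1)) * U p1
        + 2 * k * (Ψa u - Ψa 0 + (Ψb v - Ψb u) + (Ψc 1 - Ψc v)) * (p1 - p0) ≤
      (φa1 u + 2 * ψa u - (φb1 u + 2 * ψb u)) * U (p0 + u * (p1 - p0))
        + (φb1 v + 2 * ψb v - (φc1 v + 2 * ψc v)) * U (p0 + v * (p1 - p0)) := by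
  let r : ℝ → ℝ → ℝ := fun p e => (1 - e) * p + e / 2
  have cr : ∀ p ∈ Icc (0:ℝ) 1, ContinuousWithinAt (fun e => U (r p e)) (Ioo 0 1) 0 := by
    intro p hp
    have m : MapsTo (r p) (Icc 0 1) (Icc 0 1) := fun e he =>
      ⟨by simp only [r]; nlinarith [mul_nonneg (sub_nonneg.2 he.2) hp.1, he.1],
        by simp only [r]; nlinarith [mul_nonneg (sub_nonneg.2 he.2) (sub_nonneg.2 hp.2), he.1]⟩
    have : ContinuousOn (fun e => U (r p e)) (Icc 0 1) :=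
      H.c.comp (by simp only [r]; fun_prop) m
    exact (this 0 (left_mem_Icc.2 zero_le_one)).mono Ioo_subset_Icc_self
  have mm : ∀ t : ℝ, 0 ≤ t → t ≤ 1 → p0 + t * (p1 - p0) ∈ Icc (0:ℝ) 1 := fun t a b =>
    ⟨by nlinarith [mul_nonneg a (sub_nonneg.2 h01)], by nlinarith [mul_nonneg (sub_nonneg.2 b) (sub_nonneg.2 h01)]⟩
  have key := ContinuousWithinAt.closure_le (s := Ioo (0:ℝ) 1) (x := 0)
    (f := fun e => (φa1 0 + 2 * ψa 0) * U (r p0 e) + (-(φc1 1 + 2 * ψc 1)) * U (r p1 e)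
        + 2 * k * (Ψa u - Ψa 0 + (Ψb v - Ψb u) + (Ψc 1 - Ψc v)) * ((1 - e) * (p1 - p0)))
    (g := fun e => (φa1 u + 2 * ψa u - (φb1 u + 2 * ψb u)) * U (r (p0 + u * (p1 - p0)) e)
        + (φb1 v + 2 * ψb v - (φc1 v + 2 * ψc v)) * U (r (p0 + v * (p1 - p0)) e))
    (by rw [closure_Ioo zero_ne_one]; exact left_mem_Icc.2 zero_le_one)
    (((continuousWithinAt_const.mul (cr p0 ⟨h0, h01.trans h1⟩)).add
      (continuousWithinAt_const.mul (cr p1 ⟨h0.trans h01, h1⟩))).add (by fun_prop))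
    ((continuousWithinAt_const.mul (cr _ (mm u hu (huv.trans hv)))).add
      (continuousWithinAt_const.mul (cr _ (mm v (hu.trans huv) hv))))
    (fun e he => by
      have a0 : 0 < r p0 e := by simp only [r]; nlinarith [mul_nonneg (sub_nonneg.2 he.2.le) h0, he.1]
      have a1 : r p0 e ≤ r p1 e := by simp only [r]; nlinarith [mul_nonneg (sub_nonneg.2 he.2.le) (sub_nonneg.2 h01)]
      have a2 : r p1 e < 1 := by simp only [r]; nlinarith [mul_nonneg (sub_nonneg.2 he.2.le) (sub_nonneg.2 h1), he.1]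
      have := xseg_open H hu huv hv Pa Pb Pc e0 eu ev e1 a0 a1 a2
      have b0 : r p1 e - r p0 e = (1 - e) * (p1 - p0) := by simp only [r]; ring
      have b1 : ∀ t : ℝ, r p0 e + t * ((1 - e) * (p1 - p0)) = r (p0 + t * (p1 - p0)) e := fun t => by
        simp only [r]; ring
      rwa [b0, b1, b1] at this)
  simpa [r] using key

end Crest.Agent.R307
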