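import Crest.Agent.R307.HPp
import Crest.Agent.R307.HNz
import Crest.Agent.R307.XVar

/-!
# R307/XSm: splitting at the coordinate of least influence after full compression (no dictator corner)
-/

set_option autoImplicit false

namespace Crest.Agent.R307

open Crest.CubeNoise Set

/-- `u'` is a set of the same measure with smaller concave potentials. -/
def XDom (ρ : ℝ) {n : ℕ} (u u' : (Fin n → Bool) → ℝ) : Prop :=
  (∀ y, u' y = 0 ∨ u' y = 1) ∧ cubeAverage u' = cubeAverage u ∧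
    ∀ Φ : ℝ → ℝ, ConcaveOn ℝ (Icc 0 1) Φ →
      (cubeAverage fun x => Φ (noise ρ u' x)) ≤ cubeAverage fun x => Φ (noise ρ u x)

theorem XDom.trans {ρ : ℝ} {n : ℕ} {u u' u'' : (Fin n → Bool) → ℝ} (h : XDom ρ u u') (h' : XDom ρ u' u'') :
    XDom ρ u u'' :=
  ⟨h'.1, h'.2.1.trans h.2.1, fun Φ hc => (h'.2.2 Φ hc).trans (h.2.2 Φ hc)⟩

theorem XDom.perm {ρ : ℝ} {n : ℕ} {u : (Fin n → Bool) → ℝ} (hu : ∀ y, u y = 0 ∨ u y = 1) (σ : Equiv.Perm (Fin n)) :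
    XDom ρ u fun x => u (x ∘ σ) := by
  refine ⟨fun y => hu _, hnz_avg σ u, fun Φ _ => ?_⟩
  simp only [hnz_noise]
  exact (hnz_avg σ fun x => Φ (noise ρ u x)).le

/-- Monotone in the coordinate `i`. -/
def XMono {n : ℕ} (u : (Fin n → Bool) → ℝ) (i : Fin n) : Prop :=
  ∀ x y : Fin n → Bool, (∀ j, j ≠ i → x j = y j) → x i = false → u x ≤ u y

theorem XMono.perm {n : ℕ} {u : (Fin n → Bool) → ℝ} {i : Fin n} (h : XMono u i) (σ : Equiv.Perm (Fin n)) :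
    XMono (fun x => u (x ∘ σ)) (σ i) := fun x y hxy hx =>
  h _ _ (fun j hj => hxy _ fun e => hj (σ.injective e)) hx

theorem xsm_id (ρ : ℝ) {n : ℕ} (u : (Fin (n + 1) → Bool) → ℝ) (Φ : ℝ → ℝ) :
    (cubeAverage fun x => Φ ((1 + ρ) / 2 * noise ρ (sl u true) x + (1 - ρ) / 2 * noise ρ (sl u false) x) +
      Φ ((1 + ρ) / 2 * noise ρ (sl u false) x + (1 - ρ) / 2 * noise ρ (sl u true) x)) =
      2 * cubeAverage fun x => Φ (noise ρ u x) := by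
  rw [avg_succ (fun x => Φ (noise ρ u x)), ← avg_add (sl (fun x => Φ (noise ρ u x)) false),
    mul_div_cancel₀ _ (by norm_num)]
  congr 1
  funext x
  have e0 := noise_sl ρ u false x
  have e1 := noise_sl ρ u true x
  have s0 : spin false = -1 := by simp [spin]
  have s1 : spin true = 1 := by simp [spin]
  rw [s0] at e0
  rw [s1] at e1
  change _ = Φ (sl (noise ρ u) false x) + Φ (sl (noise ρ u) true x)
  rw [e0, e1, add_comm]
  congr 2 <;> ring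

theorem xsm_cmp0 {ρ : ℝ} (hρ0 : 0 ≤ ρ) (hρ1 : ρ ≤ 1) {n : ℕ} (u : (Fin (n + 1) → Bool) → ℝ)
    (hu : ∀ y, u y = 0 ∨ u y = 1) :
    ∃ u' : (Fin (n + 1) → Bool) → ℝ, XDom ρ u u' ∧ XMono u' 0 ∧ ∀ i, XMono u i → XMono u' i := by
  have hρ : |ρ| ≤ 1 := abs_le.2 ⟨by linarith, hρ1⟩
  let u' : (Fin (n + 1) → Bool) → ℝ := fun x =>
    if x 0 = true then max (u (Function.update x 0 false)) (u (Function.update x 0 true))
    else min (u (Function.update x 0 false)) (u (Function.update x 0 true))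
  have m0 : XMono u' 0 := by
    intro x y hxy hx
    have e : ∀ b, Function.update x 0 b = Function.update y 0 b := fun b => by
      funext j
      by_cases hj : j = 0
      · subst hj; simp
      · simp [Function.update_of_ne hj, hxy j hj]
    simp only [u', hx, e]
    by_cases hy : y 0 = true <;> simp [hy]
  set u0 := sl u false with hu0
  set u1 := sl u true with hu1
  have ev : sl u' false = fun y => min (u0 y) (u1 y) := by
    funext y; simp [u', sl, hu0, hu1]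
  have ew : sl u' true = fun y => max (u0 y) (u1 y) := by
    funext y; simp [u', sl, hu0, hu1]
  refine ⟨u', ⟨fun y => ?_, ?_, fun Φ hc => ?_⟩, m0, fun i hi => ?_⟩
  · rcases hu (Function.update y 0 false) with a | a <;> rcases hu (Function.update y 0 true) with c | c <;>
      by_cases hy : y 0 = true <;> simp [u', a, c, hy]
  · rw [avg_succ u', avg_succ u, ev, ew, ← avg_add, ← avg_add]
    simp only [min_add_max]
    rfl
  · have i1 := xsm_id ρ u Φ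
    have i2 := xsm_id ρ u' Φ
    rw [ev, ew] at i2
    rw [← hu0, ← hu1] at i1
    refine le_of_mul_le_mul_left ?_ (by norm_num : (0:ℝ) < 2)
    rw [← i1, ← i2]
    have b0 : ∀ y, u0 y = 0 ∨ u0 y = 1 := fun y => hu _
    have b1 : ∀ y, u1 y = 0 ∨ u1 y = 1 := fun y => hu _
    set v : (Fin n → Bool) → ℝ := fun y => min (u0 y) (u1 y) with hv
    set w : (Fin n → Bool) → ℝ := fun y => max (u0 y) (u1 y) with hw
    have bv : ∀ y, v y = 0 ∨ v y = 1 := fun y => by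
      rcases b0 y with a | a <;> rcases b1 y with c | c <;> simp [hv, a, c]
    have bw : ∀ y, w y = 0 ∨ w y = 1 := fun y => by
      rcases b0 y with a | a <;> rcases b1 y with c | c <;> simp [hw, a, c]
    have hsum : ∀ y, v y + w y = u0 y + u1 y := fun y => min_add_max _ _
    refine avg_mono fun x => ?_
    have p0 := xv_noise_nonneg hρ bv x
    have q1 := xv_noise_le hρ bw x
    have a0 : noise ρ v x ≤ noise ρ u0 x := noise_mono hρ (fun y => min_le_left _ _) x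
    have a1 : noise ρ v x ≤ noise ρ u1 x := noise_mono hρ (fun y => min_le_right _ _) x
    have a2 : noise ρ v x + noise ρ w x = noise ρ u0 x + noise ρ u1 x := by
      rw [← noise_add, ← noise_add]
      simp only [hsum]
    generalize noise ρ v x = P at *
    generalize noise ρ w x = Q at *
    generalize noise ρ u0 x = X at *
    generalize noise ρ u1 x = Y at *
    have hQ : Q = X + Y - P := by linarith
    refine xind_spread hc ?_ ?_ ?_ ?_ ?_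
    · nlinarith
    · nlinarith
    · rw [hQ]; nlinarith [mul_nonneg hρ0 (sub_nonneg.2 a0)]
    · rw [hQ]; nlinarith [mul_nonneg hρ0 (sub_nonneg.2 a1)]
    · rw [hQ]; ring
  · by_cases h0 : i = 0
    · rw [h0]; exact m0
    · intro x y hxy hx
      have e0 : x 0 = y 0 := hxy 0 (Ne.symm h0)
      have k : ∀ b, u (Function.update x 0 b) ≤ u (Function.update y 0 b) := fun b =>
        hi _ _ (fun j hj => by
          by_cases hj0 : j = 0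
          · subst hj0; simp
          · simp [Function.update_of_ne hj0, hxy j hj]) (by simp [Function.update_of_ne h0, hx])
      simp only [u', e0]
      split_ifs
      · exact max_le_max (k _) (k _)
      · exact min_le_min (k _) (k _)

theorem xsm_full {ρ : ℝ} (hρ0 : 0 ≤ ρ) (hρ1 : ρ ≤ 1) {n : ℕ} (u : (Fin (n + 1) → Bool) → ℝ)
    (hu : ∀ y, u y = 0 ∨ u y = 1) (S : Finset (Fin (n + 1))) :
    ∃ u' : (Fin (n + 1) → Bool) → ℝ, XDom ρ u u' ∧ ∀ i ∈ S, XMono u' i := by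
  induction S using Finset.induction_on with
  | empty => exact ⟨u, ⟨hu, rfl, fun _ _ => le_rfl⟩, by simp⟩
  | insert i S _ ih =>
    obtain ⟨u1, d1, m1⟩ := ih
    have d2 := XDom.perm (ρ := ρ) d1.1 (Equiv.swap 0 i)
    obtain ⟨u3, d3, m0, m3⟩ := xsm_cmp0 hρ0 hρ1 _ d2.1
    refine ⟨_, ((d1.trans d2).trans d3).trans (XDom.perm d3.1 (Equiv.swap 0 i)), fun j hj => ?_⟩
    rcases Finset.mem_insert.1 hj with rfl | hj
    · simpa using m0.perm (Equiv.swap 0 j)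
    · simpa using (m3 _ ((m1 j hj).perm (Equiv.swap 0 i))).perm (Equiv.swap 0 i)

/-- Splitting at the coordinate of least influence. -/
theorem xind_splitN {ρ : ℝ} (hρ0 : 0 ≤ ρ) (hρ1 : ρ ≤ 1) {n : ℕ} (u : (Fin (n + 1) → Bool) → ℝ)
    (hu : ∀ y, u y = 0 ∨ u y = 1) :
    ∃ v w : (Fin n → Bool) → ℝ, (∀ y, v y = 0 ∨ v y = 1) ∧ (∀ y, w y = 0 ∨ w y = 1) ∧ (∀ y, v y ≤ w y) ∧
      cubeAverage u = (cubeAverage v + cubeAverage w) / 2 ∧
      ((n : ℝ) + 1) * (cubeAverage w - cubeAverage v) ^ 2 ≤ 1 - |cubeAverage v + cubeAverage w - 1| ∧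
      (((n : ℝ) + 1) * (cubeAverage w - cubeAverage v) ^ 2) ^ 2 ≤ 3 * (1 - |cubeAverage v + cubeAverage w - 1|) ^ 3 ∧
      ∀ Φ : ℝ → ℝ, ConcaveOn ℝ (Icc 0 1) Φ →
        (cubeAverage fun x => Φ ((1 + ρ) / 2 * noise ρ w x + (1 - ρ) / 2 * noise ρ v x) +
          Φ ((1 + ρ) / 2 * noise ρ v x + (1 - ρ) / 2 * noise ρ w x)) ≤
        2 * cubeAverage fun x => Φ (noise ρ u x) := by
  obtain ⟨u1, d1, m1⟩ := xsm_full hρ0 hρ1 u hu Finset.univ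
  let f : (Fin (n + 1) → Bool) → ℝ := fun y => 2 * u1 y + -1
  have hf : ∀ x, f x = 1 ∨ f x = -1 := fun y => by
    rcases d1.1 y with a | a <;> simp only [f, a] <;> norm_num
  obtain ⟨i, -, hi⟩ := Finset.exists_min_image Finset.univ (fun i => co f i ^ 2) Finset.univ_nonempty
  have hW : ((n : ℝ) + 1) * co f i ^ 2 ≤ W1 f := by
    have := Finset.card_nsmul_le_sum Finset.univ (fun i => co f i ^ 2) _ fun j hj => hi j hj
    simpa [W1] using this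
  have d2 := d1.trans (XDom.perm (ρ := ρ) d1.1 (Equiv.swap 0 i))
  set u2 : (Fin (n + 1) → Bool) → ℝ := fun x => u1 (x ∘ Equiv.swap 0 i) with hu2
  have m2 : XMono u2 0 := by simpa using (m1 i (Finset.mem_univ _)).perm (Equiv.swap 0 i)
  have hav : cubeAverage u = (cubeAverage (sl u2 false) + cubeAverage (sl u2 true)) / 2 := by
    rw [← d2.2.1, avg_succ]
  have e0 : co f i = cubeAverage (sl u2 true) - cubeAverage (sl u2 false) := by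
    have := co_swap (Equiv.swap 0 i) f i
    rw [Equiv.swap_apply_right, co_zero] at this
    rw [← this]
    have t : ∀ b, cubeAverage (sl (fun x => f (x ∘ Equiv.swap 0 i)) b) = 2 * cubeAverage (sl u2 b) + -1 := fun b => by
      rw [← avg_mul, ← avg_const (n := n) (-1), ← avg_add]
      rfl
    rw [t, t]; ring
  have e1 : cubeAverage f = cubeAverage (sl u2 false) + cubeAverage (sl u2 true) - 1 := by
    simp only [f]
    rw [avg_add, avg_mul, avg_const]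
    change 2 * cubeAverage u1 + -1 = _
    rw [d1.2.1, hav]; ring
  obtain ⟨w1, w2⟩ := W1_le_mean hf
  rw [e1] at w1 w2
  rw [e0] at hW
  refine ⟨sl u2 false, sl u2 true, fun y => d2.1 _, fun y => d2.1 _, fun y => ?_, hav, hW.trans w1,
    (pow_le_pow_left₀ (by positivity) hW 2).trans w2, fun Φ hc => ?_⟩
  · refine m2 _ _ (fun j hj => ?_) (by simp)
    obtain ⟨k, rfl⟩ := Fin.exists_succ_eq.2 hj
    simp
  · rw [xsm_id]
    linarith [d2.2.2 Φ hc]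

/-- The region in which a step is needed (three or more coordinates, and the small cases). -/
def Sm3 (a0 a1 : ℝ) : Prop :=
  (3 * (a1 - a0) ^ 2 ≤ a0 + a1 ∧ 3 * (a1 - a0) ^ 2 ≤ 2 - (a0 + a1) ∧
    3 * (a1 - a0) ^ 4 ≤ (a0 + a1) ^ 3 ∧ 3 * (a1 - a0) ^ 4 ≤ (2 - (a0 + a1)) ^ 3) ∨
  (a0 = 0 ∧ a1 = 1) ∨ (a0 = 0 ∧ a1 = 1 / 2) ∨ (a0 = 1 / 2 ∧ a1 = 1)

/-- The simpler, larger region. -/
def Sm2 (a0 a1 : ℝ) : Prop :=
  (2 * (a1 - a0) ^ 2 ≤ a0 + a1 ∧ 2 * (a1 - a0) ^ 2 ≤ 2 - (a0 + a1)) ∨ (a0 = 0 ∧ a1 = 1)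

theorem Sm3.sm2 {a0 a1 : ℝ} (h : Sm3 a0 a1) : Sm2 a0 a1 := by
  rcases h with ⟨h1, h2, -, -⟩ | h | ⟨rfl, rfl⟩ | ⟨rfl, rfl⟩
  · exact Or.inl ⟨by nlinarith [sq_nonneg (a1 - a0)], by nlinarith [sq_nonneg (a1 - a0)]⟩
  · exact Or.inr h
  · exact Or.inl (by norm_num)
  · exact Or.inl (by norm_num)

theorem Sm3.symm {a0 a1 : ℝ} (h : Sm3 a0 a1) : Sm3 (1 - a1) (1 - a0) := by
  rcases h with ⟨h1, h2, h3, h4⟩ | ⟨rfl, rfl⟩ | ⟨rfl, rfl⟩ | ⟨rfl, rfl⟩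
  · have e1 : 1 - a0 - (1 - a1) = a1 - a0 := by ring
    have e2 : 1 - a1 + (1 - a0) = 2 - (a0 + a1) := by ring
    have e3 : 2 - (2 - (a0 + a1)) = a0 + a1 := by ring
    exact Or.inl (by rw [e1, e2, e3]; exact ⟨h2, h1, h4, h3⟩)
  · exact Or.inr (Or.inl (by norm_num))
  · exact Or.inr (Or.inr (Or.inr (by norm_num)))
  · exact Or.inr (Or.inr (Or.inl (by norm_num)))

theorem Sm2.symm {a0 a1 : ℝ} (h : Sm2 a0 a1) : Sm2 (1 - a1) (1 - a0) := by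
  rcases h with ⟨h1, h2⟩ | ⟨rfl, rfl⟩
  · exact Or.inl ⟨by nlinarith, by nlinarith⟩
  · exact Or.inr (by norm_num)

theorem xsm_region {n : ℕ} {v w : (Fin n → Bool) → ℝ} (bv : ∀ y, v y = 0 ∨ v y = 1) (bw : ∀ y, w y = 0 ∨ w y = 1)
    (hvw : ∀ y, v y ≤ w y)
    (h1 : ((n : ℝ) + 1) * (cubeAverage w - cubeAverage v) ^ 2 ≤ 1 - |cubeAverage v + cubeAverage w - 1|)
    (h2 : (((n : ℝ) + 1) * (cubeAverage w - cubeAverage v) ^ 2) ^ 2 ≤
      3 * (1 - |cubeAverage v + cubeAverage w - 1|) ^ 3) : Sm3 (cubeAverage v) (cubeAverage w) := by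
  have hle := avg_mono hvw
  match n, v, w, bv, bw, hvw, h1, h2, hle with
  | 0, v, w, bv, bw, _, _, _, hle =>
    rw [avg_zero_dim, avg_zero_dim] at hle ⊢
    rcases bv default with a | a <;> rcases bw default with c | c <;> rw [a, c] at hle ⊢ <;>
      first | (simp only [Sm3]; norm_num; done) | (norm_num at hle; done)
  | 1, v, w, bv, bw, _, h1, _, hle =>
    have t : ∀ g : (Fin 1 → Bool) → ℝ, (∀ y, g y = 0 ∨ g y = 1) →
        cubeAverage g = 0 ∨ cubeAverage g = 1 / 2 ∨ cubeAverage g = 1 := fun g bg => by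
      rw [avg_succ, avg_zero_dim, avg_zero_dim]
      have a : sl g false default = 0 ∨ sl g false default = 1 := bg _
      have c : sl g true default = 0 ∨ sl g true default = 1 := bg _
      rcases a with a | a <;> rcases c with c | c <;> rw [a, c] <;> norm_num
    rcases t v bv with a | a | a <;> rcases t w bw with c | c | c <;> rw [a, c] at h1 hle ⊢ <;>
      first | (simp only [Sm3]; norm_num; done) | (norm_num at hle; done) | (norm_num at h1; done)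
  | n + 2, v, w, _, _, _, h1, h2, _ =>
    generalize cubeAverage v = a0 at *
    generalize cubeAverage w = a1 at *
    push_cast at h1 h2
    have n0 : (0 : ℝ) ≤ n := Nat.cast_nonneg n
    have q := sq_nonneg (a1 - a0)
    have k1 : 3 * (a1 - a0) ^ 2 ≤ ((n : ℝ) + 2 + 1) * (a1 - a0) ^ 2 := by nlinarith
    have k2 : (3 * (a1 - a0) ^ 2) ^ 2 ≤ 3 * (1 - |a0 + a1 - 1|) ^ 3 :=
      (pow_le_pow_left₀ (by positivity) k1 2).trans h2
    have z0 : 0 ≤ 1 - |a0 + a1 - 1| := le_trans (by positivity) h1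
    have z1 : 1 - |a0 + a1 - 1| ≤ a0 + a1 := by linarith [neg_abs_le (a0 + a1 - 1), le_abs_self (a0 + a1 - 1), neg_le_abs (a0 + a1 - 1)]
    have z2 : 1 - |a0 + a1 - 1| ≤ 2 - (a0 + a1) := by linarith [le_abs_self (a0 + a1 - 1)]
    have c1 := pow_le_pow_left₀ z0 z1 3
    have c2 := pow_le_pow_left₀ z0 z2 3
    exact Or.inl ⟨by linarith, by linarith, by nlinarith, by nlinarith⟩

/-- `xind_split` with the region `Sm3`. -/
theorem xind_split2 {ρ : ℝ} (hρ0 : 0 ≤ ρ) (hρ1 : ρ ≤ 1) {n : ℕ} (u : (Fin (n + 1) → Bool) → ℝ)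
    (hu : ∀ y, u y = 0 ∨ u y = 1) :
    ∃ v w : (Fin n → Bool) → ℝ, (∀ y, v y = 0 ∨ v y = 1) ∧ (∀ y, w y = 0 ∨ w y = 1) ∧ (∀ y, v y ≤ w y) ∧
      (∀ x, 0 ≤ noise ρ v x) ∧ (∀ x, noise ρ v x ≤ noise ρ w x) ∧ (∀ x, noise ρ w x ≤ 1) ∧
      cubeAverage u = (cubeAverage v + cubeAverage w) / 2 ∧ Sm3 (cubeAverage v) (cubeAverage w) ∧
      ∀ Φ : ℝ → ℝ, ConcaveOn ℝ (Icc 0 1) Φ →
        (cubeAverage fun x => Φ ((1 + ρ) / 2 * noise ρ w x + (1 - ρ) / 2 * noise ρ v x) +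
          Φ ((1 + ρ) / 2 * noise ρ v x + (1 - ρ) / 2 * noise ρ w x)) ≤
        2 * cubeAverage fun x => Φ (noise ρ u x) := by
  have hρ : |ρ| ≤ 1 := abs_le.2 ⟨by linarith, hρ1⟩
  obtain ⟨v, w, bv, bw, hvw, hav, h1, h2, hΦ⟩ := xind_splitN hρ0 hρ1 u hu
  exact ⟨v, w, bv, bw, hvw, xv_noise_nonneg hρ bv, noise_mono hρ hvw, xv_noise_le hρ bw, hav,
    xsm_region bv bw hvw h1 h2, hΦ⟩

/-- General induction principle: the step is needed only on `Sm3`. -/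
theorem xsm_ind {ρ : ℝ} (hρ0 : 0 ≤ ρ) (hρ1 : ρ ≤ 1) (Pr : ∀ n : ℕ, ((Fin n → Bool) → ℝ) → Prop)
    (h0 : ∀ u : (Fin 0 → Bool) → ℝ, (∀ y, u y = 0 ∨ u y = 1) → Pr 0 u)
    (step : ∀ (n : ℕ) (u : (Fin (n + 1) → Bool) → ℝ) (v w : (Fin n → Bool) → ℝ), (∀ y, u y = 0 ∨ u y = 1) →
      (∀ y, v y = 0 ∨ v y = 1) → (∀ y, w y = 0 ∨ w y = 1) → (∀ y, v y ≤ w y) →
      cubeAverage u = (cubeAverage v + cubeAverage w) / 2 → Sm3 (cubeAverage v) (cubeAverage w) →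
      (∀ Φ : ℝ → ℝ, ConcaveOn ℝ (Icc 0 1) Φ →
        (cubeAverage fun x => Φ ((1 + ρ) / 2 * noise ρ w x + (1 - ρ) / 2 * noise ρ v x) +
          Φ ((1 + ρ) / 2 * noise ρ v x + (1 - ρ) / 2 * noise ρ w x)) ≤
        2 * cubeAverage fun x => Φ (noise ρ u x)) → Pr n v → Pr n w → Pr (n + 1) u) :
    ∀ (n : ℕ) (u : (Fin n → Bool) → ℝ), (∀ y, u y = 0 ∨ u y = 1) → Pr n u := by
  intro n
  induction n with
  | zero => exact h0
  | succ n ih =>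
    intro u hu
    obtain ⟨v, w, bv, bw, hvw, -, -, -, hav, hS, hΦ⟩ := xind_split2 hρ0 hρ1 u hu
    exact step n u v w hu bv bw hvw hav hS hΦ (ih v bv) (ih w bw)

/-- `pair_primal` with the step only on `Sm3`. -/
theorem pair_primal2 {ρ : ℝ} (hρ0 : 0 ≤ ρ) (hρ1 : ρ ≤ 1) {U : ℝ → ℝ} (hc : ConcaveOn ℝ (Icc 0 1) U)
    (Rg : ℝ → ℝ → ℝ → Prop) (h0 : Rg 0 (U 0) (U 1)) (h1 : Rg 1 (U 1) (U 0))
    (step : ∀ a0 a1 X0 Y0 X1 Y1 X Y : ℝ, 0 ≤ a0 → a0 ≤ a1 → a1 ≤ 1 → Sm3 a0 a1 → Rg a0 X0 Y0 → Rg a1 X1 Y1 →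
      (∀ K0 K1 l : ℝ, UStep ρ U K0 K1 l → K0 * X0 + K1 * X1 + l * (a1 - a0) ≤ 2 * X) →
      (∀ K0 K1 l : ℝ, UStep ρ U K0 K1 l → K0 * Y1 + K1 * Y0 + l * (a1 - a0) ≤ 2 * Y) →
      Rg ((a0 + a1) / 2) X Y) :
    ∀ (n : ℕ) (u : (Fin n → Bool) → ℝ), (∀ y, u y = 0 ∨ u y = 1) →
      Rg (cubeAverage u) (cubeAverage fun x => U (noise ρ u x)) (cubeAverage fun x => U (1 - noise ρ u x)) := by
  intro n
  induction n with
  | zero =>
    intro u hu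
    rw [avg_zero_dim, avg_zero_dim, avg_zero_dim, noise_zero_dim]
    rcases hu default with h | h <;> rw [h]
    · simpa using h0
    · simpa using h1
  | succ n ih =>
    intro u hu
    obtain ⟨v, w, bv, bw, -, hP, hPQ, hQ, hav, hS, hΦ⟩ := xind_split2 hρ0 hρ1 u hu
    have c2 : ConcaveOn ℝ (Icc 0 1) (fun p => U (1 - p)) := by
      simpa using hp_conc hc (A := 0) (B := 1) le_rfl zero_le_one
    have a0 : 0 ≤ cubeAverage v := by rw [← avg_noise ρ]; exact le_avg hP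
    have a01 : cubeAverage v ≤ cubeAverage w := by rw [← avg_noise ρ v, ← avg_noise ρ w]; exact avg_mono hPQ
    have a1 : cubeAverage w ≤ 1 := by rw [← avg_noise ρ]; exact avg_le hQ
    rw [hav]
    refine step _ _ _ _ _ _ _ _ a0 a01 a1 hS (ih v bv) (ih w bw) (fun K0 K1 l h => ?_) fun K0 K1 l h => ?_
    · refine le_trans ?_ ((avg_mono fun x => h.2.2 _ _ (hP x) (hPQ x) (hQ x)).trans (hΦ U hc))
      rw [avg_add, avg_add, avg_mul, avg_mul, avg_mul, avg_sub, avg_noise, avg_noise]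
    · refine le_trans ?_ ((avg_mono (f := fun x => K0 * U (1 - noise ρ w x) + K1 * U (1 - noise ρ v x) +
        l * (noise ρ w x - noise ρ v x)) fun x => ?_).trans (hΦ _ c2))
      · rw [avg_add, avg_add, avg_mul, avg_mul, avg_mul, avg_sub, avg_noise, avg_noise]
      · have b := h.2.2 (1 - noise ρ w x) (1 - noise ρ v x) (by linarith [hQ x]) (by linarith [hPQ x])
          (by linarith [hP x])
        generalize noise ρ w x = Q at *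
        generalize noise ρ v x = P at *
        have f1 : (1 + ρ) / 2 * (1 - P) + (1 - ρ) / 2 * (1 - Q) = 1 - ((1 + ρ) / 2 * P + (1 - ρ) / 2 * Q) := by ring
        have f2 : (1 + ρ) / 2 * (1 - Q) + (1 - ρ) / 2 * (1 - P) = 1 - ((1 + ρ) / 2 * Q + (1 - ρ) / 2 * P) := by ring
        rw [f1, f2] at b
        linarith

/-- `xcore_of_primal` with the step only on `Sm3`. -/
theorem xcore_of_primal2 {ρ : ℝ} (hρ0 : 0 ≤ ρ) (hρ1 : ρ ≤ 1) (Rg : ℝ → ℝ → ℝ → Prop) (h0 : Rg 0 0 0) (h1 : Rg 1 0 0)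
    (step : ∀ a0 a1 X0 Y0 X1 Y1 X Y : ℝ, 0 ≤ a0 → a0 ≤ a1 → a1 ≤ 1 → Sm3 a0 a1 → Rg a0 X0 Y0 → Rg a1 X1 Y1 →
      (∀ K0 K1 l : ℝ, UStep ρ Uex K0 K1 l → K0 * X0 + K1 * X1 + l * (a1 - a0) ≤ 2 * X) →
      (∀ K0 K1 l : ℝ, UStep ρ Uex K0 K1 l → K0 * Y1 + K1 * Y0 + l * (a1 - a0) ≤ 2 * Y) →
      Rg ((a0 + a1) / 2) X Y)
    (fin : ∀ a X Y : ℝ, 0 ≤ a → a ≤ 1 → Rg a X Y → √(1 - ρ ^ 2) - 1 + 2 * √(a * (1 - a)) ≤ X + Y) : XCore ρ := by
  intro n u hu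
  have hρ : |ρ| ≤ 1 := abs_le.2 ⟨by linarith, hρ1⟩
  have u0 : ∀ y, 0 ≤ u y := fun y => by rcases hu y with a | a <;> simp [a]
  have u1 : ∀ y, u y ≤ 1 := fun y => by rcases hu y with a | a <;> simp [a]
  have key := pair_primal2 hρ0 hρ1 Uex_conc Rg (by simpa [Uex_zero, Uex_one] using h0)
    (by simpa [Uex_zero, Uex_one] using h1) step n u hu
  refine (fin _ _ _ (le_avg u0) (avg_le u1) key).trans ?_
  rw [← avg_add]
  refine avg_mono fun x => (Uex_split ?_).le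
  have := noise_mono hρ (u := fun _ => 0) (v := u) u0 x
  rwa [noise_const] at this

/-- `hyp_ind` with the steps only on `Sm3`. -/
theorem hyp_ind2 {ρ : ℝ} (hρ0 : 0 ≤ ρ) (hρ1 : ρ ≤ 1) {U : ℝ → ℝ} (hc : ConcaveOn ℝ (Icc 0 1) U)
    {b u v : ℝ → ℝ} (hv : ∀ a, 0 ≤ a → a ≤ 1 → 0 ≤ v a)
    (h0 : HRg b u v 0 (U 0) (U 1)) (h1 : HRg b u v 1 (U 1) (U 0))
    (sb : ∀ a0 a1 : ℝ, 0 ≤ a0 → a0 ≤ a1 → a1 ≤ 1 → Sm3 a0 a1 → BAt ρ U b a0 a1)
    (sh : ∀ a0 a1 : ℝ, 0 ≤ a0 → a0 ≤ a1 → a1 ≤ 1 → Sm3 a0 a1 → HAt ρ U b u v a0 a1)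
    (n : ℕ) (f : (Fin n → Bool) → ℝ) (hf : ∀ y, f y = 0 ∨ f y = 1) :
    HRg b u v (cubeAverage f) (cubeAverage fun x => U (noise ρ f x)) (cubeAverage fun x => U (1 - noise ρ f x)) := by
  refine pair_primal2 hρ0 hρ1 hc (HRg b u v) h0 h1
    (fun a0 a1 X0 Y0 X1 Y1 X Y a00 a01 a11 hS R0 R1 hX hY => ?_) n f hf
  have bX : b ((a0 + a1) / 2) ≤ X := by
    obtain ⟨K0, K1, l, hK, hb⟩ := sb a0 a1 a00 a01 a11 hS
    have := hX K0 K1 l hK
    have := mul_le_mul_of_nonneg_left R0.1 hK.1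
    have := mul_le_mul_of_nonneg_left R1.1 hK.2.1
    linarith
  have bY : b (1 - (a0 + a1) / 2) ≤ Y := by
    obtain ⟨K0, K1, l, hK, hb⟩ := sb (1 - a1) (1 - a0) (by linarith) (by linarith) (by linarith) hS.symm
    have := hY K0 K1 l hK
    have := mul_le_mul_of_nonneg_left R1.2.1 hK.1
    have := mul_le_mul_of_nonneg_left R0.2.1 hK.2.1
    rw [show (1 - a1 + (1 - a0)) / 2 = 1 - (a0 + a1) / 2 by ring] at hb
    linarith
  refine ⟨bX, bY, ?_⟩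
  rcases sh a0 a1 a00 a01 a11 hS with ⟨K0, K1, l, M0, M1, m, c0, e0, w0, c1, e1, w1, r0, r1, r, hK, hM, s0, s1, hP, hQ,
    g0, g1, gr, gf⟩ | ⟨g1, g2, g3⟩
  · obtain ⟨x0, y0, z0⟩ := s0.ok R0
    obtain ⟨x1, y1, z1⟩ := s1.ok R1
    exact hp_step hK.1 hK.2.1 hM.1 hM.2.1 x0 y0 z0 x1 y1 z1 (hX K0 K1 l hK) (hY M0 M1 m hM) hP hQ g0 g1 gr
      (hv _ (by linarith) (by linarith)) gf
  · exact ⟨g1.trans bX, g2.trans bY, g3.trans (mul_le_mul (by linarith) (by linarith) (by linarith) (by linarith))⟩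

/-- `xcore_of_hyp` with the steps only on `Sm3`. -/
theorem xcore_of_hyp2 {ρ : ℝ} (hρ0 : 0 ≤ ρ) (hρ1 : ρ ≤ 1) {b u v : ℝ → ℝ} (hv : ∀ a, 0 ≤ a → a ≤ 1 → 0 ≤ v a)
    (h0 : HRg b u v 0 0 0) (h1 : HRg b u v 1 0 0)
    (sb : ∀ a0 a1 : ℝ, 0 ≤ a0 → a0 ≤ a1 → a1 ≤ 1 → Sm3 a0 a1 → BAt ρ Uex b a0 a1)
    (sh : ∀ a0 a1 : ℝ, 0 ≤ a0 → a0 ≤ a1 → a1 ≤ 1 → Sm3 a0 a1 → HAt ρ Uex b u v a0 a1)
    (fin : ∀ a : ℝ, 0 ≤ a → a ≤ 1 → √(1 - ρ ^ 2) - 1 + 2 * √(a * (1 - a)) ≤ u a + u (1 - a) + 2 * v a ∨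
      √(1 - ρ ^ 2) - 1 + 2 * √(a * (1 - a)) ≤ b a + b (1 - a)) : XCore ρ := by
  intro n f hf
  have hρ : |ρ| ≤ 1 := abs_le.2 ⟨by linarith, hρ1⟩
  have u0 : ∀ y, 0 ≤ f y := fun y => by rcases hf y with a | a <;> simp [a]
  have u1 : ∀ y, f y ≤ 1 := fun y => by rcases hf y with a | a <;> simp [a]
  have key := hyp_ind2 hρ0 hρ1 Uex_conc hv (by simpa [Uex_zero, Uex_one] using h0)
    (by simpa [Uex_zero, Uex_one] using h1) sb sh n f hf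
  have e : (cubeAverage fun x => Uex (noise ρ f x)) + (cubeAverage fun x => Uex (1 - noise ρ f x)) ≤
      cubeAverage fun x => 2 * √(noise ρ f x * (1 - noise ρ f x)) := by
    rw [← avg_add]
    exact avg_mono fun x => (Uex_split (xv_noise_nonneg hρ hf x)).le
  rcases fin _ (le_avg u0) (avg_le u1) with h | h
  · exact h.trans (key.sum.trans e)
  · exact h.trans ((add_le_add key.1 key.2.1).trans e)

/-- `xind_set` with the step only on `Sm3`. -/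
theorem xind_set2 {ι : Type} {ρ : ℝ} (hρ0 : 0 ≤ ρ) (hρ1 : ρ ≤ 1) (Φ b : ι → ℝ → ℝ)
    (hc : ∀ j, ConcaveOn ℝ (Icc 0 1) (Φ j)) (h0 : ∀ j, b j 0 ≤ Φ j 0) (h1 : ∀ j, b j 1 ≤ Φ j 1)
    (step : ∀ (n : ℕ) (v w : (Fin n → Bool) → ℝ), (∀ y, v y = 0 ∨ v y = 1) → (∀ y, w y = 0 ∨ w y = 1) →
      (∀ y, v y ≤ w y) → Sm3 (cubeAverage v) (cubeAverage w) →
      (∀ i, b i (cubeAverage v) ≤ cubeAverage fun x => Φ i (noise ρ v x)) →
      (∀ i, b i (cubeAverage w) ≤ cubeAverage fun x => Φ i (noise ρ w x)) →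
      ∀ j, 2 * b j ((cubeAverage v + cubeAverage w) / 2) ≤
        cubeAverage fun x => Φ j ((1 + ρ) / 2 * noise ρ w x + (1 - ρ) / 2 * noise ρ v x) +
          Φ j ((1 + ρ) / 2 * noise ρ v x + (1 - ρ) / 2 * noise ρ w x)) :
    ∀ (n : ℕ) (u : (Fin n → Bool) → ℝ), (∀ y, u y = 0 ∨ u y = 1) →
      ∀ j, b j (cubeAverage u) ≤ cubeAverage fun x => Φ j (noise ρ u x) := by
  refine xsm_ind hρ0 hρ1 (fun n u => ∀ j, b j (cubeAverage u) ≤ cubeAverage fun x => Φ j (noise ρ u x))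
    (fun u hu j => ?_) fun n u v w _ bv bw hvw hav hS hΦ iv iw j => ?_
  · rw [avg_zero_dim, avg_zero_dim, noise_zero_dim]
    rcases hu default with h | h <;> rw [h]
    · exact h0 j
    · exact h1 j
  · have := (step n v w bv bw hvw hS iv iw j).trans (hΦ _ (hc j))
    rw [hav]
    linarith

/-- `xind_avg` / `xind_var` with the step only on `Sm3`. -/
theorem xind_var2 {ι : Type} {ρ : ℝ} (hρ0 : 0 ≤ ρ) (hρ1 : ρ ≤ 1) (Φ b : ι → ℝ → ℝ)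
    (hc : ∀ j, ConcaveOn ℝ (Icc 0 1) (Φ j)) (h0 : ∀ j, b j 0 ≤ Φ j 0) (h1 : ∀ j, b j 1 ≤ Φ j 1)
    (step : ∀ (n : ℕ) (P Q : (Fin n → Bool) → ℝ), (∀ x, 0 ≤ P x) → (∀ x, P x ≤ Q x) → (∀ x, Q x ≤ 1) →
      Sm3 (cubeAverage P) (cubeAverage Q) →
      (∀ i, b i (cubeAverage P) ≤ cubeAverage fun x => Φ i (P x)) →
      (∀ i, b i (cubeAverage Q) ≤ cubeAverage fun x => Φ i (Q x)) →
      (∀ lam mu : ℝ, (cubeAverage fun x => (lam * (P x - cubeAverage P) + mu * (Q x - cubeAverage Q)) ^ 2) ≤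
        ρ ^ 2 * xvV lam mu (cubeAverage P) (cubeAverage Q)) →
      ∀ j, 2 * b j ((cubeAverage P + cubeAverage Q) / 2) ≤
        cubeAverage fun x => Φ j ((1 + ρ) / 2 * Q x + (1 - ρ) / 2 * P x) + Φ j ((1 + ρ) / 2 * P x + (1 - ρ) / 2 * Q x)) :
    ∀ (n : ℕ) (u : (Fin n → Bool) → ℝ), (∀ y, u y = 0 ∨ u y = 1) →
      ∀ j, b j (cubeAverage u) ≤ cubeAverage fun x => Φ j (noise ρ u x) := by
  have hρ : |ρ| ≤ 1 := abs_le.2 ⟨by linarith, hρ1⟩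
  refine xind_set2 hρ0 hρ1 Φ b hc h0 h1 fun n v w bv bw hvw hS iv iw j => ?_
  have key := step n (noise ρ v) (noise ρ w) (xv_noise_nonneg hρ bv) (noise_mono hρ hvw) (xv_noise_le hρ bw)
    (by rw [avg_noise, avg_noise]; exact hS)
    (fun i => by rw [avg_noise]; exact iv i) (fun i => by rw [avg_noise]; exact iw i)
    (fun lam mu => by rw [avg_noise, avg_noise]; exact xv_var (by nlinarith) bv bw hvw lam mu) j
  rwa [avg_noise, avg_noise] at key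

/-- `xind_vmul` with the step only on `Sm3`. -/
theorem xind_vmul2 {ι : Type} [Fintype ι] {ρ : ℝ} (hρ0 : 0 ≤ ρ) (hρ1 : ρ ≤ 1) (Φ b : ι → ℝ → ℝ)
    (hc : ∀ j, ConcaveOn ℝ (Icc 0 1) (Φ j)) (h0 : ∀ j, b j 0 ≤ Φ j 0) (h1 : ∀ j, b j 1 ≤ Φ j 1)
    (step : ∀ j (a0 a1 : ℝ), 0 ≤ a0 → a0 ≤ a1 → a1 ≤ 1 → Sm3 a0 a1 → ∃ (k0 k1 : ι → ℝ) (l0 l1 c nu lam mu : ℝ),
      (∀ i, 0 ≤ k0 i) ∧ (∀ i, 0 ≤ k1 i) ∧ 0 ≤ nu ∧
      (∀ p0 p1 : ℝ, 0 ≤ p0 → p0 ≤ p1 → p1 ≤ 1 →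
        ∑ i, k0 i * Φ i p0 + ∑ i, k1 i * Φ i p1 + l0 * p0 + l1 * p1 + c -
            nu * (lam * (p0 - a0) + mu * (p1 - a1)) ^ 2 ≤
          Φ j ((1 + ρ) / 2 * p1 + (1 - ρ) / 2 * p0) + Φ j ((1 + ρ) / 2 * p0 + (1 - ρ) / 2 * p1)) ∧
      2 * b j ((a0 + a1) / 2) ≤ ∑ i, k0 i * b i a0 + ∑ i, k1 i * b i a1 + l0 * a0 + l1 * a1 + c -
        nu * (ρ ^ 2 * xvV lam mu a0 a1)) :
    ∀ (n : ℕ) (u : (Fin n → Bool) → ℝ), (∀ y, u y = 0 ∨ u y = 1) →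
      ∀ j, b j (cubeAverage u) ≤ cubeAverage fun x => Φ j (noise ρ u x) := by
  refine xind_var2 hρ0 hρ1 Φ b hc h0 h1 fun n P Q hP hPQ hQ hS iP iQ hV j => ?_
  obtain ⟨k0, k1, l0, l1, c, nu, lam, mu, hk0, hk1, hnu, hpt, hb⟩ := step j (cubeAverage P) (cubeAverage Q)
    (le_avg hP) (avg_mono hPQ) (avg_le hQ) hS
  refine hb.trans (le_trans ?_ (avg_mono fun x => hpt (P x) (Q x) (hP x) (hPQ x) (hQ x)))
  rw [avg_sub, avg_add, avg_add, avg_add, avg_add, avg_const, avg_mul, avg_mul, avg_mul,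
    xind_avg_sum k0 fun i x => Φ i (P x), xind_avg_sum k1 fun i x => Φ i (Q x)]
  have s0 : ∑ i, k0 i * b i (cubeAverage P) ≤ ∑ i, k0 i * cubeAverage fun x => Φ i (P x) :=
    Finset.sum_le_sum fun i _ => mul_le_mul_of_nonneg_left (iP i) (hk0 i)
  have s1 : ∑ i, k1 i * b i (cubeAverage Q) ≤ ∑ i, k1 i * cubeAverage fun x => Φ i (Q x) :=
    Finset.sum_le_sum fun i _ => mul_le_mul_of_nonneg_left (iQ i) (hk1 i)
  have s2 := mul_le_mul_of_nonneg_left (hV lam mu) hnu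
  change _ ≤ _ + _ + l0 * cubeAverage P + l1 * cubeAverage Q + c - _
  linarith

/-- `xind_vone` with the step only on `Sm3`. -/
theorem xind_vone2 {ρ : ℝ} (hρ0 : 0 ≤ ρ) (hρ1 : ρ ≤ 1) (Φ b : ℝ → ℝ)
    (hc : ConcaveOn ℝ (Icc 0 1) Φ) (h0 : b 0 ≤ Φ 0) (h1 : b 1 ≤ Φ 1)
    (step : ∀ a0 a1 : ℝ, 0 ≤ a0 → a0 ≤ a1 → a1 ≤ 1 → Sm3 a0 a1 → ∃ k0 k1 l0 l1 c nu lam mu : ℝ,
      0 ≤ k0 ∧ 0 ≤ k1 ∧ 0 ≤ nu ∧
      (∀ p0 p1 : ℝ, 0 ≤ p0 → p0 ≤ p1 → p1 ≤ 1 →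
        k0 * Φ p0 + k1 * Φ p1 + l0 * p0 + l1 * p1 + c - nu * (lam * (p0 - a0) + mu * (p1 - a1)) ^ 2 ≤
          Φ ((1 + ρ) / 2 * p1 + (1 - ρ) / 2 * p0) + Φ ((1 + ρ) / 2 * p0 + (1 - ρ) / 2 * p1)) ∧
      2 * b ((a0 + a1) / 2) ≤ k0 * b a0 + k1 * b a1 + l0 * a0 + l1 * a1 + c - nu * (ρ ^ 2 * xvV lam mu a0 a1))
    (n : ℕ) (u : (Fin n → Bool) → ℝ) (hu : ∀ y, u y = 0 ∨ u y = 1) :
    b (cubeAverage u) ≤ cubeAverage fun x => Φ (noise ρ u x) := by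
  refine xind_vmul2 (ι := Unit) hρ0 hρ1 (fun _ => Φ) (fun _ => b) (fun _ => hc) (fun _ => h0) (fun _ => h1)
    (fun _ a0 a1 e0 e1 e2 hS => ?_) n u hu ()
  obtain ⟨k0, k1, l0, l1, c, nu, lam, mu, g0, g1, g2, hpt, hb⟩ := step a0 a1 e0 e1 e2 hS
  exact ⟨fun _ => k0, fun _ => k1, l0, l1, c, nu, lam, mu, fun _ => g0, fun _ => g1, g2,
    fun p0 p1 i0 i1 i2 => by simpa using hpt p0 p1 i0 i1 i2, by simpa using hb⟩

end Crest.Agent.R307
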