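import Crest.Agent.R307.YUp

/-!
# R307/YB: the profile step
-/

set_option autoImplicit false

namespace Crest.Agent.R307

open Crest.CubeNoise Set

theorem yb_mul_ell (s : ℝ) : s * ell s = -Real.log (1 - s) := by
  unfold ell
  split_ifs with h
  · simp [h]
  · field_simp

theorem yb_a {r : ℝ} (h0 : 0 ≤ r) (h1 : r < 1) :
    r ^ 1 / 1 + r ^ 2 / 2 + r ^ 3 / 3 + r ^ 4 / 4 + r ^ 5 / 5 + r ^ 6 / 6 + r ^ 7 / 7 + r ^ 8 / 8 + r ^ 9 / 9 + r ^ 10 / 10 ≤ -Real.log (1 - r) := by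
  have h := Real.hasSum_pow_div_log_of_abs_lt_one (x := r) (by rwa [abs_of_nonneg h0])
  have := sum_le_hasSum (Finset.range 10) (fun i _ => by positivity) h
  simp only [Finset.sum_range_succ, Finset.sum_range_zero] at this
  norm_num at this ⊢
  linarith

theorem yb_b {r : ℝ} (h0 : 0 ≤ r) : 2 * (1 + r) * Real.log (1 + r) ≤ r * (2 + r) := by
  have h1 : Real.log (1 + r) ≤ Real.sinh (Real.log (1 + r)) :=
    Real.self_le_sinh_iff.2 (Real.log_nonneg (by linarith))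
  rw [Real.sinh_log (by linarith)] at h1
  have e : r * (2 + r) = 2 * (1 + r) * ((1 + r - (1 + r)⁻¹) / 2) := by
    field_simp
    ring
  rw [e]
  exact mul_le_mul_of_nonneg_left h1 (by linarith)

theorem yb_poly {r : ℝ} (h0 : 0 ≤ r) (h1 : r ≤ 1) :
    r * (2 + r) * (1 + 13 / 80 * r * (1 + r)) ≤ 2 * (1 + r) *
      ((r ^ 1 / 1 + r ^ 2 / 2 + r ^ 3 / 3 + r ^ 4 / 4 + r ^ 5 / 5 + r ^ 6 / 6 + r ^ 7 / 7 + r ^ 8 / 8 + r ^ 9 / 9 + r ^ 10 / 10) *
        (1 - 13 / 40 * r - 13 / 80 * r * (1 + r))) := by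
  have h2 : 0 ≤ 1 - r := by linarith
  have h3 : 0 ≤ r ^ 2 * (7 / 10 * r ^ 0 * (1 - r) ^ 11 +
      851 / 120 * r ^ 1 * (1 - r) ^ 10 +
      7709 / 240 * r ^ 2 * (1 - r) ^ 9 +
      41051 / 480 * r ^ 3 * (1 - r) ^ 8 +
      88763 / 600 * r ^ 4 * (1 - r) ^ 7 +
      194143 / 1120 * r ^ 5 * (1 - r) ^ 6 +
      1169447 / 8400 * r ^ 6 * (1 - r) ^ 5 +
      307613 / 4032 * r ^ 7 * (1 - r) ^ 4 +
      36173 / 1260 * r ^ 8 * (1 - r) ^ 3 +
      820901 / 100800 * r ^ 9 * (1 - r) ^ 2 +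
      3757 / 2016 * r ^ 10 * (1 - r) ^ 1 +
      113 / 900 * r ^ 11 * (1 - r) ^ 0) := by positivity
  refine sub_nonneg.1 (h3.trans_eq ?_)
  ring

/-- With `a = -log(1-r)`, `b = log(1+r)`: `a (1 - M r/2 - M r(1+r)/4) ≥ b (1 + M r (1+r)/4)`, `M = 13/20`;
room about 9%; `a ≥ r + r²/2 + ...`, `b ≤ r - r²/2 + r³/3 - ...`. -/
theorem b_num {r : ℝ} (h0 : 0 ≤ r) (h1 : r < 1) :
    13 / 20 * ((ell r + ell (2 * r / (1 + r))) / 2) ≤ ell (r ^ 2) := by
  rcases h0.eq_or_lt with rfl | hr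
  · norm_num [ell]
  have e1 := yb_mul_ell r
  have e2 := yb_mul_ell (2 * r / (1 + r))
  have e3 := yb_mul_ell (r ^ 2)
  rw [show 1 - 2 * r / (1 + r) = (1 - r) / (1 + r) by field_simp; ring,
    Real.log_div (by linarith) (by linarith)] at e2
  rw [show 1 - r ^ 2 = (1 - r) * (1 + r) by ring, Real.log_mul (by linarith) (by linarith)] at e3
  have e2' : 2 * r * ell (2 * r / (1 + r)) = (1 + r) * (Real.log (1 + r) - Real.log (1 - r)) := by
    rw [← neg_sub (Real.log (1 - r)), ← e2]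
    field_simp
  have ha := yb_a h0 h1
  have hb := yb_b h0
  have hp := yb_poly h0 h1.le
  have c1 : 0 ≤ 1 - 13 / 40 * r - 13 / 80 * r * (1 + r) := by nlinarith
  have c2 : 0 ≤ 1 + 13 / 80 * r * (1 + r) := by positivity
  have k1 := mul_le_mul_of_nonneg_right hb c2
  have k2 := mul_le_mul_of_nonneg_left (mul_le_mul_of_nonneg_right ha c1) (show 0 ≤ 2 * (1 + r) by linarith)
  have k3 : Real.log (1 + r) * (1 + 13 / 80 * r * (1 + r)) ≤
      -Real.log (1 - r) * (1 - 13 / 40 * r - 13 / 80 * r * (1 + r)) := by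
    refine le_of_mul_le_mul_left ?_ (show 0 < 2 * (1 + r) by linarith)
    linarith
  refine le_of_mul_le_mul_left ?_ (show 0 < r ^ 2 by positivity)
  have k4 : r ^ 2 * (13 / 20 * ((ell r + ell (2 * r / (1 + r))) / 2)) =
      13 / 40 * r * (r * ell r) + 13 / 80 * r * (2 * r * ell (2 * r / (1 + r))) := by ring
  rw [k4, e1, e2', e3]
  linarith

/-- Trapezoid rule for the convex function `y ↦ log y - log (y - β)`. -/
theorem b_trap {w Y β : ℝ} (hβ : 0 ≤ β) (hY : β < Y) (hw : Y ≤ w) :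
    w * Real.log w - Y * Real.log Y - (w - β) * Real.log (w - β) + (Y - β) * Real.log (Y - β) ≤
      (w - Y) * ((β / w * ell (β / w) + β / Y * ell (β / Y)) / 2) := by
  have hf : ∀ y, β < y → β / y * ell (β / y) = Real.log y - Real.log (y - β) := fun y hy => by
    have : 0 < y := by linarith
    rw [yb_mul_ell, show 1 - β / y = (y - β) / y by field_simp, Real.log_div (by linarith) this.ne', neg_sub]
  rw [hf w (by linarith), hf Y hY]
  set G : ℝ → ℝ := fun x => (x - Y) * ((Real.log x - Real.log (x - β) + (Real.log Y - Real.log (Y - β))) / 2) -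
    (x * Real.log x - (x - β) * Real.log (x - β)) with hG
  have hd : ∀ x, Y ≤ x → HasDerivAt G ((Real.log Y - Real.log (Y - β) - (Real.log x - Real.log (x - β)) +
      (x - Y) * (x⁻¹ - (x - β)⁻¹)) / 2) x := fun x hx => by
    have x0 : x ≠ 0 := by linarith
    have x1 : x - β ≠ 0 := by linarith
    have l0 := Real.hasDerivAt_log x0
    have i1 : HasDerivAt (fun y : ℝ => y - β) 1 x := (hasDerivAt_id x).sub_const β
    have l1 := i1.log x1
    have := (((hasDerivAt_id x).sub_const Y).mul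
      (((l0.sub l1).add_const (Real.log Y - Real.log (Y - β))).div_const 2)).sub
      (((hasDerivAt_id x).mul l0).sub (i1.mul l1))
    refine this.congr_deriv ?_
    simp only [id, Pi.sub_apply]
    field_simp
    ring
  have hm : MonotoneOn G (Ici Y) := by
    refine monotoneOn_of_deriv_nonneg (convex_Ici Y) (fun x hx => (hd x hx).continuousAt.continuousWithinAt)
      (fun x hx => (hd x (interior_subset hx)).differentiableAt.differentiableWithinAt) fun x hx => ?_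
    have hx' : Y ≤ x := interior_subset hx
    rw [(hd x hx').deriv]
    have x0 : 0 < x := by linarith
    have x1 : 0 < x - β := by linarith
    have y0 : 0 < Y := by linarith
    have y1 : 0 < Y - β := by linarith
    have a := Real.one_sub_inv_le_log_of_pos (x := Y * (x - β) / (x * (Y - β))) (by positivity)
    rw [Real.log_div (by positivity) (by positivity), Real.log_mul y0.ne' x1.ne', Real.log_mul x0.ne' y1.ne'] at a
    have e : 1 - (Y * (x - β) / (x * (Y - β)))⁻¹ + (x - Y) * (x⁻¹ - (x - β)⁻¹) =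
        β * (x - Y) ^ 2 / (x * Y * (x - β)) := by
      field_simp
      ring
    have p : 0 ≤ β * (x - Y) ^ 2 / (x * Y * (x - β)) := by positivity
    linarith
  have := hm (mem_Ici.2 le_rfl) (mem_Ici.2 hw) hw
  simp only [hG, sub_self, zero_mul] at this
  linarith

/-- `β = δ²`, `r = δ/(1+|m|)`: `β/w ≤ r`, `β/Y ≤ δ ≤ 2r/(1+r)`, `w ≤ 1`; `PP_four`, `b_trap`, `ell_mono`, `b_num`. -/
theorem b_step {m δ Y A : ℝ} (hδ : 0 ≤ δ) (hm : |m| + δ < 1) (hY0 : 0 < Y) (hY : δ ≤ Y) (hw : Y ≤ 1 - m ^ 2)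
    (hA : 0 < A) : PP (1 - m ^ 2) A ≤ PP Y A + PP (1 - m ^ 2 - δ ^ 2) A +
      ell ((δ / (1 + |m|)) ^ 2) * δ ^ 2 * (1 / Y - 1 / (1 - m ^ 2)) := by
  have m0 := abs_nonneg m
  have δ1 : δ < 1 := by linarith
  have hβ : δ ^ 2 < Y := by
    rcases hδ.eq_or_lt with rfl | h
    · simpa using hY0
    · nlinarith
  have h1 := PP_four hA (sq_nonneg δ) hβ hw
  have h2 := b_trap (sq_nonneg δ) hβ hw
  set r := δ / (1 + |m|) with hr
  set w := 1 - m ^ 2 with hw'
  have w0 : 0 < w := by linarith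
  have w1 : w ≤ 1 := by nlinarith [sq_nonneg m]
  have r0 : 0 ≤ r := by positivity
  have r1 : r < 1 := by rw [hr, div_lt_one (by linarith)]; linarith
  have h3 := b_num r0 r1
  have a1 : δ ^ 2 / w ≤ r := by
    rw [hr, div_le_div_iff₀ w0 (by linarith), hw', ← sq_abs m]
    have : 0 ≤ δ * (1 + |m|) * (1 - |m| - δ) := mul_nonneg (by positivity) (by linarith)
    nlinarith
  have a2 : δ ^ 2 / Y ≤ 2 * r / (1 + r) := by
    have b1 : δ ^ 2 / Y ≤ δ := by
      rw [div_le_iff₀ hY0]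
      nlinarith
    have b2 : 2 * r / (1 + r) = 2 * δ / (1 + |m| + δ) := by
      rw [hr]
      field_simp
    rw [b2, le_div_iff₀ (by linarith)]
    have b3 := mul_le_mul_of_nonneg_right b1 (show 0 ≤ 1 + |m| + δ by linarith)
    nlinarith
  have a3 : 2 * r / (1 + r) < 1 := by rw [div_lt_one (by linarith)]; linarith
  have p1 : 0 ≤ δ ^ 2 / w := by positivity
  have p2 : 0 ≤ δ ^ 2 / Y := by positivity
  have c1 := ell_mono ⟨p1, a1.trans_lt r1⟩ ⟨r0, r1⟩ a1
  have c2 := ell_mono ⟨p2, a2.trans_lt a3⟩ ⟨by positivity, a3⟩ a2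
  have d1 : 0 ≤ ell (δ ^ 2 / w) := by linarith [ell_ge p1 (a1.trans_lt r1)]
  have d2 : 0 ≤ ell (δ ^ 2 / Y) := by linarith [ell_ge p2 (a2.trans_lt a3)]
  have k1 : 13 / 20 * ((Y * ell (δ ^ 2 / w) + w * ell (δ ^ 2 / Y)) / 2) ≤ ell (r ^ 2) := by
    have := mul_le_mul_of_nonneg_right (hw.trans w1) d1
    have := mul_le_mul_of_nonneg_right w1 d2
    linarith
  have k2 := mul_le_mul_of_nonneg_right k1 (show 0 ≤ δ ^ 2 * (w - Y) / (Y * w) by
    have : 0 ≤ w - Y := by linarith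
    positivity)
  have e1 : 13 / 20 * ((Y * ell (δ ^ 2 / w) + w * ell (δ ^ 2 / Y)) / 2) * (δ ^ 2 * (w - Y) / (Y * w)) =
      13 / 20 * ((w - Y) * ((δ ^ 2 / w * ell (δ ^ 2 / w) + δ ^ 2 / Y * ell (δ ^ 2 / Y)) / 2)) := by
    field_simp
  have e2 : ell (r ^ 2) * (δ ^ 2 * (w - Y) / (Y * w)) = ell (r ^ 2) * δ ^ 2 * (1 / Y - 1 / w) := by
    field_simp
  rw [e1, e2] at k2
  linarith

end Crest.Agent.R307
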