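import Crest.Agent.R307.Ode

/-!
# R307/YDefs: definitions for S0472 (idea 1177)
-/

set_option autoImplicit false

namespace Crest.Agent.R307

open Crest.CubeNoise Set

/-- `S(ψ r)`. -/
noncomputable def St (r : ℝ) : ℝ := r * Real.artanh r - 2 * psi r

/-- `S'(ψ r)`. -/
noncomputable def qq (r : ℝ) : ℝ := if r = 0 then 0 else r / ((1 - r ^ 2) * Real.artanh r) - 1

/-- The inverse of `ψ` on `[0,1)`. -/
noncomputable def pinv (J : ℝ) : ℝ := Function.invFunOn psi (Ico 0 1) J

/-- The surplus `S`. -/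
noncomputable def SS (J : ℝ) : ℝ := if J ≤ 0 then 0 else St (pinv J)

/-- The derivative of the surplus. -/
noncomputable def SD (J : ℝ) : ℝ := if J ≤ 0 then 0 else qq (pinv J)

/-- The perspective `P(y,A) = y S(log 2 - A / y)`. -/
noncomputable def PP (y A : ℝ) : ℝ := y * SS (Real.log 2 - A / y)

/-- The information of the two-point field `u, v`. -/
noncomputable def jj (u v : ℝ) : ℝ := signEntropy ((u + v) / 2) - (signEntropy u + signEntropy v) / 2

/-- `ℓ s = -log (1 - s) / s`. -/
noncomputable def ell (s : ℝ) : ℝ := if s = 0 then 1 else -Real.log (1 - s) / s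

/-- Upper bound for `(1 - p) (-log (1 - p)) / p`, `p = (1 - |m|) / 2`. -/
noncomputable def kb (m : ℝ) : ℝ := 1 - (1 - |m|) / 4 - (1 - |m|) ^ 2 / 24

end Crest.Agent.R307
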