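import Mathlib

/-!
# R307/YFin: the algebraic inequality of the rate step
-/

set_option autoImplicit false

namespace Crest.Agent.R307

section yfin

variable {K : Type} [Field K] [LinearOrder K]

/-- `τ = p/(1-p)` -/
def yfT (p : K) : K := p / (1 - p)
/-- lower bound of `b` on a box -/
def yfB0 (p0 p1 x0 : K) : K :=
  yfT p0 * x0 * (1 / 2 + x0 / 12 * ((1 - p1) + p0 * yfT p0 ^ 2) +
    x0 ^ 2 / 30 * ((1 - p1) + p0 * yfT p0 ^ 4))
/-- upper bound of `b / (τ x)` on a box -/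
def yfBh (p0 p1 x1 : K) : K :=
  1 / 2 + x1 / 12 * ((1 - p0) + p1 * yfT p1 ^ 2) +
    (6932 / 10000 - 7 / 12) * x1 ^ 2 * ((1 - p0) + p1 * yfT p1 ^ 4)
/-- upper bound of `b` on a box -/
def yfB1 (p0 p1 x1 a0 : K) : K := min (yfT p1 * x1 * yfBh p0 p1 x1) (33 / 100 - a0)
/-- the entropy defect -/
def yfPs (p : K) : K := (1 - 2 * p) ^ 2 / 2 + (1 - 2 * p) ^ 4 / 12 + (1 - 2 * p) ^ 6 / 30
/-- upper bound of `Hm - a` -/
def yfD (p1 a0 : K) : K := 6932 / 10000 - yfPs p1 - a0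
/-- lower bound of `(Y-1)/a` -/
def yfU (p1 a0 a1 : K) : K := yfPs p1 / (a1 * yfD p1 a0) + 1 / yfD p1 a0
/-- lower bound of the right side divided by `ab` -/
def yfS (p0 p1 x0 x1 a0 a1 : K) : K :=
  (1 + yfT p0 ^ 2 * x0 / 2) / yfBh p0 p1 x1 / (1 - p0 / 2 - p0 ^ 2 / 6 - a0) +
    2 / 3 * yfB0 p0 p1 x0 * yfU p1 a0 a1 +
    3 / 5 * yfB0 p0 p1 x0 ^ 2 * yfU p1 a0 a1 * (1 + 6932 / 10000 / yfD p1 a0)
/-- lower bound of `L - g` -/
def yfA (p0 p1 x1 a0 a1 : K) : K := 6931 / 10000 - 137 / 100 * a1 * yfB1 p0 p1 x1 a0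
/-- lower bound of `L - I` -/
def yfC (p0 p1 x1 a0 a1 : K) : K :=
  6931 / 10000 - min (33 / 100) (a1 + yfB1 p0 p1 x1 a0 + 137 / 100 * a1 * yfB1 p0 p1 x1 a0)
/-- the check on one box -/
def yfOK (p0 p1 x0 x1 a0 a1 : K) : Prop :=
  0 ≤ p0 ∧ p1 ≤ 1 / 2 ∧ 0 ≤ x0 ∧ 0 ≤ a0 ∧
    (yfD p1 a0 ≤ yfB0 p0 p1 x0 ∨ 33 / 100 < a0 + yfB0 p0 p1 x0 ∨
      (0 ≤ yfA p0 p1 x1 a0 a1 ∧
        13 / 20 ≤ yfS p0 p1 x0 x1 a0 a1 * yfA p0 p1 x1 a0 a1 * yfC p0 p1 x1 a0 a1))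

end yfin

instance yfDec (p0 p1 x0 x1 a0 a1 : ℚ) : Decidable (yfOK p0 p1 x0 x1 a0 a1) := by
  unfold yfOK; infer_instance

/-- bisection -/
def yfChk : ℕ → ℚ → ℚ → ℚ → ℚ → ℚ → ℚ → Bool
  | 0, p0, p1, x0, x1, a0, a1 => decide (yfOK p0 p1 x0 x1 a0 a1)
  | n + 1, p0, p1, x0, x1, a0, a1 =>
    if yfOK p0 p1 x0 x1 a0 a1 then true
    else if x1 - x0 ≤ 4 * (p1 - p0) ∧ a1 - a0 ≤ p1 - p0 then
      yfChk n p0 ((p0 + p1) / 2) x0 x1 a0 a1 && yfChk n ((p0 + p1) / 2) p1 x0 x1 a0 a1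
    else if 4 * (a1 - a0) ≤ x1 - x0 then
      yfChk n p0 p1 x0 ((x0 + x1) / 2) a0 a1 && yfChk n p0 p1 ((x0 + x1) / 2) x1 a0 a1
    else yfChk n p0 p1 x0 x1 a0 ((a0 + a1) / 2) && yfChk n p0 p1 x0 x1 ((a0 + a1) / 2) a1

theorem yf_run : yfChk 20 0 (1 / 2) 0 1 0 (1 / 3) = true := by decide +kernel

theorem yf_cast {p0 p1 x0 x1 a0 a1 : ℚ} (h : yfOK p0 p1 x0 x1 a0 a1) :
    yfOK (p0 : ℝ) p1 x0 x1 a0 a1 := by
  have eB0 : ((yfB0 p0 p1 x0 : ℚ) : ℝ) = yfB0 (p0 : ℝ) p1 x0 := by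
    unfold yfB0 yfT; push_cast; rfl
  have eD : ((yfD p1 a0 : ℚ) : ℝ) = yfD (p1 : ℝ) a0 := by
    unfold yfD yfPs; push_cast; rfl
  have eA : ((yfA p0 p1 x1 a0 a1 : ℚ) : ℝ) = yfA (p0 : ℝ) p1 x1 a0 a1 := by
    unfold yfA yfB1 yfBh yfT; push_cast; rfl
  have eC : ((yfC p0 p1 x1 a0 a1 : ℚ) : ℝ) = yfC (p0 : ℝ) p1 x1 a0 a1 := by
    unfold yfC yfB1 yfBh yfT; push_cast; rfl
  have eS : ((yfS p0 p1 x0 x1 a0 a1 : ℚ) : ℝ) = yfS (p0 : ℝ) p1 x0 x1 a0 a1 := by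
    unfold yfS yfU yfD yfPs yfB0 yfBh yfT; push_cast; rfl
  obtain ⟨h1, h2, h3, h4, h5⟩ := h
  refine ⟨by exact_mod_cast h1, ?_, by exact_mod_cast h3, by exact_mod_cast h4, ?_⟩
  · have := (Rat.cast_le (K := ℝ)).2 h2
    push_cast at this; exact this
  rcases h5 with h | h | ⟨h, h'⟩
  · left; rw [← eD, ← eB0]; exact_mod_cast h
  · right; left
    have := (Rat.cast_lt (K := ℝ)).2 h
    push_cast at this; rwa [eB0] at this
  · right; right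
    refine ⟨by rw [← eA]; exact_mod_cast h, ?_⟩
    have := (Rat.cast_le (K := ℝ)).2 h'
    push_cast at this; rwa [eS, eA, eC] at this

theorem yf_cover : ∀ (n : ℕ) (p0 p1 x0 x1 a0 a1 : ℚ), yfChk n p0 p1 x0 x1 a0 a1 = true →
    ∀ p x a : ℝ, (p0 : ℝ) ≤ p → p ≤ p1 → (x0 : ℝ) ≤ x → x ≤ x1 → (a0 : ℝ) ≤ a → a ≤ a1 →
    ∃ q0 q1 y0 y1 c0 c1 : ℝ, yfOK q0 q1 y0 y1 c0 c1 ∧ q0 ≤ p ∧ p ≤ q1 ∧ y0 ≤ x ∧ x ≤ y1 ∧
      c0 ≤ a ∧ a ≤ c1 := by
  intro n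
  induction n with
  | zero =>
    intro p0 p1 x0 x1 a0 a1 h p x a h1 h2 h3 h4 h5 h6
    exact ⟨_, _, _, _, _, _, yf_cast (of_decide_eq_true h), h1, h2, h3, h4, h5, h6⟩
  | succ n ih =>
    intro p0 p1 x0 x1 a0 a1 h p x a h1 h2 h3 h4 h5 h6
    unfold yfChk at h
    split_ifs at h with c1 c2 c3
    · exact ⟨_, _, _, _, _, _, yf_cast c1, h1, h2, h3, h4, h5, h6⟩
    · rw [Bool.and_eq_true] at h
      rcases le_total p (((p0 + p1) / 2 : ℚ) : ℝ) with hm | hm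
      · exact ih _ _ _ _ _ _ h.1 p x a h1 hm h3 h4 h5 h6
      · exact ih _ _ _ _ _ _ h.2 p x a hm h2 h3 h4 h5 h6
    · rw [Bool.and_eq_true] at h
      rcases le_total x (((x0 + x1) / 2 : ℚ) : ℝ) with hm | hm
      · exact ih _ _ _ _ _ _ h.1 p x a h1 h2 h3 hm h5 h6
      · exact ih _ _ _ _ _ _ h.2 p x a h1 h2 hm h4 h5 h6
    · rw [Bool.and_eq_true] at h
      rcases le_total a (((a0 + a1) / 2 : ℚ) : ℝ) with hm | hm
      · exact ih _ _ _ _ _ _ h.1 p x a h1 h2 h3 h4 h5 hm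
      · exact ih _ _ _ _ _ _ h.2 p x a h1 h2 h3 h4 hm h6

theorem yf_T_mono {p q : ℝ} (h : p ≤ q) (hq : q ≤ 1 / 2) : yfT p ≤ yfT q := by
  unfold yfT
  rw [div_le_div_iff₀ (by linarith) (by linarith)]
  nlinarith

theorem yf_T_nonneg {p : ℝ} (h : 0 ≤ p) (hq : p ≤ 1 / 2) : 0 ≤ yfT p :=
  div_nonneg h (by linarith)

theorem yf_Ps_anti {p q : ℝ} (h : p ≤ q) (hq : q ≤ 1 / 2) : yfPs q ≤ yfPs p := by
  unfold yfPs
  have h0 : 0 ≤ 1 - 2 * q := by linarith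
  have h1 : 1 - 2 * q ≤ 1 - 2 * p := by linarith
  gcongr

theorem yf_k {p a : ℝ} (hp : 0 ≤ p) (hp' : p ≤ 1 / 2) (ha : a ≤ 33 / 100) :
    0 < 1 - p / 2 - p ^ 2 / 6 - a := by nlinarith

theorem yf_big {a b g L : ℝ} (ha : 0 < a) (hb : 0 < b) (hg : 0 ≤ g) (hL : 6931 / 10000 ≤ L)
    (hI : a + b + g ≤ 33 / 100) (hgb : 137 / 100 * a * b < g) :
    13 / 20 * (a * b / ((L - g) * (L - (a + b + g)))) ≤ 2 * g := by
  have hLg : 0 < L - g := by linarith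
  have hLI : 0 < L - (a + b + g) := by linarith
  have hab' : a * b ≤ 27225 / 1000000 := by nlinarith [sq_nonneg (a - b)]
  rw [← mul_div_assoc, div_le_iff₀ (mul_pos hLg hLI)]
  have e1 : 3631 / 10000 ≤ L - (a + b + g) := by linarith
  have e2 : g * (L - g) * (3631 / 10000) ≤ g * (L - g) * (L - (a + b + g)) :=
    mul_le_mul_of_nonneg_left e1 (by positivity)
  have e0 : 2 * g * ((L - g) * (L - (a + b + g))) = 2 * (g * (L - g) * (L - (a + b + g))) := by ring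
  rw [mul_assoc] at hgb
  rcases le_total g (39 / 1000) with h | h
  · have e3 : g * (6541 / 10000) ≤ g * (L - g) := mul_le_mul_of_nonneg_left (by linarith) hg
    linarith
  · have e3 : 0 ≤ (g - 39 / 1000) * (6541 / 10000 - g) := mul_nonneg (by linarith) (by linarith)
    have e4 : g * (6931 / 10000 - g) ≤ g * (L - g) := mul_le_mul_of_nonneg_left (by linarith) hg
    have e5 : g * (6931 / 10000 - g) - (g - 39 / 1000) * (6541 / 10000 - g) =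
        39 / 1000 * (6541 / 10000) := by ring
    linarith

/-- the inequality divided by `ab`, on one box -/
theorem yf_box {p0 p1 x0 x1 a0 a1 p x a b g Hm L : ℝ} (h : yfOK p0 p1 x0 x1 a0 a1)
    (hp0 : p0 ≤ p) (hp1 : p ≤ p1) (hx0 : x0 ≤ x) (hx1 : x ≤ x1) (ha0 : a0 ≤ a) (ha1 : a ≤ a1)
    (ha : 0 < a) (hb0 : 0 < b) (hg : 0 ≤ g) (hL : 6931 / 10000 ≤ L) (hL' : L ≤ 6932 / 10000)
    (hH : Hm ≤ L - yfPs p) (hI : a + b + g ≤ 33 / 100) (hI' : a + b + g < Hm)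
    (hb : yfB0 p p x ≤ b) (hb' : b ≤ yfT p * x * yfBh p p x) (hgb : g ≤ 137 / 100 * a * b) :
    13 / 20 ≤ ((1 + yfT p ^ 2 * x / 2) * (yfT p * x) / b / (1 - p / 2 - p ^ 2 / 6 - a) +
      2 / 3 * b * ((L / (Hm - a) - 1) / a) +
      3 / 5 * b ^ 2 * ((L / (Hm - a) - 1) / a) * (1 + L / (Hm - a))) * (L - g) * (L - (a + b + g)) := by
  obtain ⟨h1, h2, h3, h4, h5⟩ := h
  have hpp : p ≤ 1 / 2 := hp1.trans h2
  have hp : 0 ≤ p := h1.trans hp0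
  have hx : 0 ≤ x := h3.trans hx0
  have t0 : 0 ≤ yfT p0 := yf_T_nonneg h1 (hp0.trans hpp)
  have t01 : yfT p0 ≤ yfT p := yf_T_mono hp0 hpp
  have t12 : yfT p ≤ yfT p1 := yf_T_mono hp1 h2
  have t : 0 ≤ yfT p := t0.trans t01
  have hx1' : 0 ≤ x1 := hx.trans hx1
  have hp1' : 0 ≤ p1 := hp.trans hp1
  have ha1' : 0 < a1 := ha.trans_le ha1
  have q1 : 0 ≤ 1 - p1 := by linarith
  have q2 : 1 - p1 ≤ 1 - p := by linarith
  have q3 : 1 - p ≤ 1 - p0 := by linarith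
  have q4 : 0 ≤ 1 - p := by linarith
  have eB0 : yfB0 p0 p1 x0 ≤ b := by
    refine le_trans ?_ hb
    unfold yfB0
    gcongr
  have eB00 : 0 ≤ yfB0 p0 p1 x0 := by unfold yfB0; positivity
  have eBh : yfBh p p x ≤ yfBh p0 p1 x1 := by
    unfold yfBh
    have : (0 : ℝ) ≤ 6932 / 10000 - 7 / 12 := by norm_num
    gcongr
  have eBh0 : 0 < yfBh p p x := by
    unfold yfBh
    have : (0 : ℝ) ≤ 6932 / 10000 - 7 / 12 := by norm_num
    positivity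
  have eB1 : b ≤ yfB1 p0 p1 x1 a0 := by
    refine le_min (hb'.trans ?_) (by linarith)
    have := hx.trans hx1
    have := t.trans t12
    gcongr
  have ePs : yfPs p1 ≤ yfPs p := yf_Ps_anti hp1 h2
  have ePs0 : 0 ≤ yfPs p1 := by unfold yfPs; positivity
  have hHa : 0 < Hm - a := by linarith
  have eD : Hm - a ≤ yfD p1 a0 := by unfold yfD; linarith
  rcases h5 with h5 | h5 | ⟨h5, h6⟩
  · linarith
  · linarith
  have hD : 0 < yfD p1 a0 := hHa.trans_le eD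
  have hD' : 0 < L - yfPs p1 - a := by linarith
  have eD' : L - yfPs p1 - a ≤ yfD p1 a0 := by unfold yfD; linarith
  have eY0 : L / (L - yfPs p1 - a) ≤ L / (Hm - a) :=
    div_le_div_of_nonneg_left (by linarith) hHa (by linarith)
  have eY : 6932 / 10000 / yfD p1 a0 ≤ L / (Hm - a) := by
    refine le_trans ?_ eY0
    rw [div_le_div_iff₀ hD hD']
    unfold yfD
    have e1 := mul_nonneg (sub_nonneg.2 hL') (add_nonneg ePs0 h4)
    have e2 : L * (6932 / 10000 - yfPs p1 - a0) - 6932 / 10000 * (L - yfPs p1 - a) =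
        (6932 / 10000 - L) * (yfPs p1 + a0) + 6932 / 10000 * (a - a0) := by ring
    linarith
  have eU : yfU p1 a0 a1 ≤ (L / (Hm - a) - 1) / a := by
    have e1 : yfPs p1 / (a * (L - yfPs p1 - a)) + 1 / (L - yfPs p1 - a) =
        (L / (L - yfPs p1 - a) - 1) / a := by field_simp; ring
    calc yfU p1 a0 a1 ≤ yfPs p1 / (a * (L - yfPs p1 - a)) + 1 / (L - yfPs p1 - a) := by
          unfold yfU
          gcongr
      _ = (L / (L - yfPs p1 - a) - 1) / a := e1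
      _ ≤ (L / (Hm - a) - 1) / a := by gcongr
  have eU0 : 0 ≤ yfU p1 a0 a1 := by
    unfold yfU
    have := ha.trans_le ha1
    positivity
  have hk : 0 < 1 - p / 2 - p ^ 2 / 6 - a := yf_k hp hpp (by linarith)
  have hk' : 1 - p / 2 - p ^ 2 / 6 - a ≤ 1 - p0 / 2 - p0 ^ 2 / 6 - a0 := by
    have := pow_le_pow_left₀ h1 hp0 2
    linarith
  have eR : (1 + yfT p0 ^ 2 * x0 / 2) / yfBh p0 p1 x1 ≤
      (1 + yfT p ^ 2 * x / 2) * (yfT p * x) / b := by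
    calc (1 + yfT p0 ^ 2 * x0 / 2) / yfBh p0 p1 x1 ≤ (1 + yfT p ^ 2 * x / 2) / yfBh p p x := by
          gcongr
      _ ≤ (1 + yfT p ^ 2 * x / 2) * (yfT p * x) / b := by
          rw [div_le_div_iff₀ eBh0 hb0, mul_assoc (1 + yfT p ^ 2 * x / 2)]
          exact mul_le_mul_of_nonneg_left hb' (by positivity)
  have eY1 : 0 ≤ 6932 / 10000 / yfD p1 a0 := by positivity
  have eS : yfS p0 p1 x0 x1 a0 a1 ≤
      (1 + yfT p ^ 2 * x / 2) * (yfT p * x) / b / (1 - p / 2 - p ^ 2 / 6 - a) +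
      2 / 3 * b * ((L / (Hm - a) - 1) / a) +
      3 / 5 * b ^ 2 * ((L / (Hm - a) - 1) / a) * (1 + L / (Hm - a)) := by
    unfold yfS
    have := eU0.trans eU
    gcongr
  have eS0 : 0 ≤ (1 + yfT p ^ 2 * x / 2) * (yfT p * x) / b / (1 - p / 2 - p ^ 2 / 6 - a) +
      2 / 3 * b * ((L / (Hm - a) - 1) / a) +
      3 / 5 * b ^ 2 * ((L / (Hm - a) - 1) / a) * (1 + L / (Hm - a)) := by
    have := eU0.trans eU
    have := eY1.trans eY
    positivity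
  have hab : a * b ≤ a1 * yfB1 p0 p1 x1 a0 := mul_le_mul ha1 eB1 hb0.le (ha.le.trans ha1)
  rw [mul_assoc] at hgb
  have eA : yfA p0 p1 x1 a0 a1 ≤ L - g := by unfold yfA; rw [mul_assoc]; linarith
  have eC : yfC p0 p1 x1 a0 a1 ≤ L - (a + b + g) := by
    unfold yfC
    have : a + b + g ≤
        min (33 / 100) (a1 + yfB1 p0 p1 x1 a0 + 137 / 100 * a1 * yfB1 p0 p1 x1 a0) :=
      le_min hI (by rw [mul_assoc]; linarith)
    linarith
  have eC0 : 0 ≤ yfC p0 p1 x1 a0 a1 := by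
    unfold yfC
    have := min_le_left (33 / 100 : ℝ)
      (a1 + yfB1 p0 p1 x1 a0 + 137 / 100 * a1 * yfB1 p0 p1 x1 a0)
    linarith
  refine h6.trans ?_
  exact mul_le_mul (mul_le_mul eS eA h5 eS0) eC eC0 (mul_nonneg eS0 (h5.trans eA))


/-- Here `m = 1 - 2p`, `τ = p/(1-p)`, `s = τ r²`. Numerically the ratio RHS/LHS is at least `1.14` for `m ≤ 0.99`
(worst near `m = 0.56, r = 0.88, a = 0.17, b = 0.13`) and at least `1.027` as `p → 0`. Suggested: if the claim fails then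
`2g < 2.72 ab` (and `g ≤ 0.031`); divide by `a s`; RHS is antitone in `Hm`; split `p` and `r` into pieces
(everything is monotone in `p`, `r`), one or two variables remain. -/
theorem fin_alg {p r a b g Hm L τ : ℝ} (hp : 0 < p) (hp' : p ≤ 1 / 2) (hr : 0 ≤ r) (hr1 : r ≤ 1) (ha : 0 ≤ a)
    (hg : 0 ≤ g) (hL : 6931 / 10000 ≤ L) (hL' : L ≤ 6932 / 10000) (hτ : τ * (1 - p) = p)
    (hH : Hm ≤ L - ((1 - 2 * p) ^ 2 / 2 + (1 - 2 * p) ^ 4 / 12 + (1 - 2 * p) ^ 6 / 30))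
    (hI : a + b + g ≤ 33 / 100) (hI' : a + b + g < Hm)
    (hb : τ * r ^ 2 * ((1 - p) * (1 / 2 + r ^ 2 / 12 + r ^ 4 / 30) +
      p * (1 / 2 + (τ * r) ^ 2 / 12 + (τ * r) ^ 4 / 30)) ≤ b)
    (hb' : b ≤ τ * r ^ 2 * ((1 - p) * (1 / 2 + r ^ 2 / 12 + (L - 7 / 12) * r ^ 4) +
      p * (1 / 2 + (τ * r) ^ 2 / 12 + (L - 7 / 12) * (τ * r) ^ 4)))
    (hgain : (1 + (τ * r) ^ 2 / 2) * (τ * r ^ 2) * a ≤ 2 * g * (1 - p / 2 - p ^ 2 / 6 - a)) :
    13 / 20 * (a * b / ((L - g) * (L - (a + b + g)))) ≤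
      2 * g + 2 / 3 * b ^ 2 * (L / (Hm - a) - 1) + 3 / 5 * b ^ 3 * ((L / (Hm - a)) ^ 2 - 1) := by
  have hτ' : τ = yfT p := by
    unfold yfT; rw [eq_div_iff (by linarith)]; exact hτ
  have ht : 0 ≤ τ := hτ' ▸ yf_T_nonneg hp.le hp'
  have q4 : 0 ≤ 1 - p := by linarith
  have hb0 : 0 ≤ b := le_trans (by positivity) hb
  have hHa : 0 < Hm - a := by linarith
  have hPs : 0 ≤ (1 - 2 * p) ^ 2 / 2 + (1 - 2 * p) ^ 4 / 12 + (1 - 2 * p) ^ 6 / 30 := by positivity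
  have hY : 1 ≤ L / (Hm - a) := by rw [one_le_div hHa]; linarith
  have hY2 : 1 ≤ (L / (Hm - a)) ^ 2 := one_le_pow₀ hY
  have hT2 : 0 ≤ 2 / 3 * b ^ 2 * (L / (Hm - a) - 1) := mul_nonneg (by positivity) (by linarith)
  have hT3 : 0 ≤ 3 / 5 * b ^ 3 * ((L / (Hm - a)) ^ 2 - 1) := mul_nonneg (by positivity) (by linarith)
  have hLg : 0 < L - g := by linarith
  have hLI : 0 < L - (a + b + g) := by linarith
  rcases ha.eq_or_lt with rfl | ha'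
  · simp only [zero_mul, zero_div, mul_zero]; linarith
  rcases hb0.eq_or_lt with rfl | hb0'
  · simp only [mul_zero, zero_div]; linarith
  have hab : 0 < a * b := mul_pos ha' hb0'
  by_cases hgb : g ≤ 137 / 100 * a * b
  swap
  · push Not at hgb
    have key := yf_big ha' hb0' hg hL hI hgb
    linarith
  obtain ⟨q0, q1, y0, y1, c0, c1, hok, g1, g2, g3, g4, g5, g6⟩ :=
    yf_cover 20 0 (1 / 2) 0 1 0 (1 / 3) yf_run p (r ^ 2) a (by simpa using hp.le)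
      (by push_cast; exact hp') (by simpa using sq_nonneg r)
      (by push_cast; exact pow_le_one₀ hr hr1) (by simpa using ha) (by push_cast; linarith)
  have hbox := yf_box (Hm := Hm) (L := L) (b := b) (g := g) hok g1 g2 g3 g4 g5 g6 ha' hb0' hg hL hL'
    hH hI hI' (by unfold yfB0; rw [← hτ']; refine le_trans (le_of_eq ?_) hb; ring)
    (by
      unfold yfBh; rw [← hτ']
      refine hb'.trans (mul_le_mul_of_nonneg_left ?_ (by positivity))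
      have e : 0 ≤ (6932 / 10000 - L) * (r ^ 4 * ((1 - p) + p * τ ^ 4)) :=
        mul_nonneg (by linarith) (by positivity)
      refine sub_nonneg.1 (le_of_le_of_eq e ?_)
      ring) hgb
  rw [← hτ'] at hbox
  have hk : 0 < 1 - p / 2 - p ^ 2 / 6 - a := yf_k hp.le hp' (by linarith)
  have hG : a * b * ((1 + τ ^ 2 * r ^ 2 / 2) * (τ * r ^ 2) / b / (1 - p / 2 - p ^ 2 / 6 - a)) ≤
      2 * g := by
    rw [← mul_div_assoc, div_le_iff₀ hk]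
    refine le_trans (le_of_eq ?_) hgain
    field_simp
  have h2 : 13 / 20 * (a * b / ((L - g) * (L - (a + b + g)))) ≤
      a * b * ((1 + τ ^ 2 * r ^ 2 / 2) * (τ * r ^ 2) / b / (1 - p / 2 - p ^ 2 / 6 - a) +
      2 / 3 * b * ((L / (Hm - a) - 1) / a) +
      3 / 5 * b ^ 2 * ((L / (Hm - a) - 1) / a) * (1 + L / (Hm - a))) := by
    rw [← mul_div_assoc, div_le_iff₀ (mul_pos hLg hLI), mul_comm (13 / 20 : ℝ), mul_assoc (a * b),
      ← mul_assoc _ (L - g)]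
    exact mul_le_mul_of_nonneg_left hbox hab.le
  have h3 : a * b * (2 / 3 * b * ((L / (Hm - a) - 1) / a)) = 2 / 3 * b ^ 2 * (L / (Hm - a) - 1) := by
    field_simp
  have h4 : a * b * (3 / 5 * b ^ 2 * ((L / (Hm - a) - 1) / a) * (1 + L / (Hm - a))) =
      3 / 5 * b ^ 3 * ((L / (Hm - a)) ^ 2 - 1) := by
    generalize L / (Hm - a) = Y
    field_simp
    ring
  rw [mul_add, mul_add, h3, h4] at h2
  linarith

end Crest.Agent.R307
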