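import Crest.Agent.R307.YSer

/-!
# R307/YUpL: M(r) <= 13/20, large r
-/

set_option autoImplicit false

namespace Crest.Agent.R307

open Crest.CubeNoise Set

theorem yupl_poly {z E : ℝ} (hz : 2 ≤ z) (hE : 0 ≤ E) (h : E * (z - 1) ≤ 1354 / 10000) :
    ((z - 1) + (z + 1) * E ^ 2) * (1 + E + z) ^ 2 ≤ 13 / 10 * z ^ 3 := by
  obtain ⟨u, rfl⟩ : ∃ u, z = u + 2 := ⟨z - 2, by ring⟩
  have hu : 0 ≤ u := by linarith
  have huE : 0 ≤ u * E := mul_nonneg hu hE
  have h1 : E ≤ 1354 / 10000 := by nlinarith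
  have h2 : E ^ 2 ≤ (1354 / 10000) ^ 2 := pow_le_pow_left₀ hE h1 2
  have h3 : E * (u + 2 - 1) * E ≤ 1354 / 10000 * (1354 / 10000) := mul_le_mul h h1 hE (by norm_num)
  have h4 : (u + 2 - 1) + (u + 2 + 1) * E ^ 2 ≤ u + 1 + 55 / 1000 := by nlinarith
  have h5 : (1 + E + (u + 2)) ^ 2 ≤ (u + 3) ^ 2 + 2892 / 10000 + 4 * E := by nlinarith
  have h6 := mul_le_mul h4 h5 (by positivity) (by positivity)
  have h7 : 0 ≤ u ^ 3 := by positivity
  nlinarith [sq_nonneg (u - 1 / 50)]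

/-- Large range: `z = 2 artanh r ≥ 2.04`, `E = exp (-z) = (1 - r)/(1 + r)`, `H = log (1 + E) + z E / (1 + E)
≤ E (1 + z / (1 + E))`, and then `M ≤ (1 + E + z)² ((z - 1) + (z + 1) E²) / (2 z³)` (`0.648` at `z = 2`, decreasing;
`log (1 + E) ≤ E - E²/2 + E³/3` gives more room). -/
theorem up_large {r : ℝ} (h0 : 77 / 100 ≤ r) (h1 : r < 1) :
    ((1 + r ^ 2) * Real.artanh r - r) * signEntropy r ^ 2 ≤ 13 / 20 * ((1 - r ^ 2) ^ 2 * Real.artanh r ^ 3) := by
  have hp : 0 < 1 + r := by linarith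
  have hm : 0 < 1 - r := by linarith
  have hq : 0 < (1 + r) / (1 - r) := div_pos hp hm
  obtain ⟨E, hE⟩ : ∃ E, E = (1 - r) / (1 + r) := ⟨_, rfl⟩
  obtain ⟨z, hz⟩ : ∃ z, z = Real.log ((1 + r) / (1 - r)) := ⟨_, rfl⟩
  have hE0 : 0 < E := hE ▸ div_pos hm hp
  have hE1 : 0 < 1 + E := by linarith
  have ha : Real.artanh r = 1 / 2 * z := by rw [hz]; exact Real.artanh_eq_half_log ⟨by linarith, h1.le⟩
  have e2 : Real.exp 2 = Real.exp 1 * Real.exp 1 := by rw [← Real.exp_add]; norm_num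
  have l1 := Real.exp_one_gt_d9
  have l2 := Real.exp_one_lt_d9
  have hz2 : 2 ≤ z := by
    rw [hz, Real.le_log_iff_exp_le hq, le_div_iff₀ hm, e2]
    have : Real.exp 1 * Real.exp 1 ≤ 739 / 100 := by nlinarith
    nlinarith
  have hEz : E * Real.exp z = 1 := by
    rw [hz, Real.exp_log hq, hE]
    field_simp
  have hEt : E * (z - 1) ≤ 1354 / 10000 := by
    have a1 : Real.exp z = Real.exp 2 * Real.exp (z - 2) := by rw [← Real.exp_add]; congr 1; ring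
    have a2 : z - 1 ≤ Real.exp (z - 2) := by linarith [Real.add_one_le_exp (z - 2)]
    have a3 : 7388 / 1000 ≤ Real.exp 2 := by rw [e2]; nlinarith
    have a4 : 7388 / 1000 * (z - 1) ≤ Real.exp z := a1 ▸ mul_le_mul a3 a2 (by linarith) (by positivity)
    have a5 := mul_le_mul_of_nonneg_left a4 hE0.le
    nlinarith
  have hH : signEntropy r = Real.log (1 + E) + (1 - r) / 2 * z := by
    have b1 : ((1 + r) / 2)⁻¹ = 1 + E := by rw [hE]; field_simp; ring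
    have b2 : (1 - (1 + r) / 2)⁻¹ = (1 + E) * ((1 + r) / (1 - r)) := by
      rw [hE, show 1 - (1 + r) / 2 = (1 - r) / 2 by ring]; field_simp; ring
    rw [signEntropy, Real.binEntropy, b1, b2, Real.log_mul hE1.ne' hq.ne', ← hz]
    ring
  have hr : r = (1 - E) / (1 + E) := by rw [eq_div_iff hE1.ne', hE]; field_simp; ring
  have hH0 : 0 ≤ signEntropy r := (signEntropy_pos (abs_lt.2 ⟨by linarith, h1⟩)).le
  have hH1 : signEntropy r ≤ E * (1 + E + z) / (1 + E) := by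
    have c1 := Real.log_le_sub_one_of_pos hE1
    have c2 : E * (1 + E + z) / (1 + E) = E + (1 - r) / 2 * z := by rw [hr]; field_simp; ring
    rw [hH, c2]
    linarith
  have hA : (1 + r ^ 2) * Real.artanh r - r = ((z - 1) + (z + 1) * E ^ 2) / (1 + E) ^ 2 := by
    rw [ha, hr]; field_simp; ring
  have hA0 : 0 ≤ (z - 1) + (z + 1) * E ^ 2 := by
    have : 0 ≤ (z + 1) * E ^ 2 := by positivity
    linarith
  have hR : 13 / 20 * ((1 - r ^ 2) ^ 2 * Real.artanh r ^ 3) = E ^ 2 / (1 + E) ^ 4 * (13 / 10 * z ^ 3) := by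
    rw [ha, hr]; field_simp; ring
  rw [hA, hR]
  calc ((z - 1) + (z + 1) * E ^ 2) / (1 + E) ^ 2 * signEntropy r ^ 2
      ≤ ((z - 1) + (z + 1) * E ^ 2) / (1 + E) ^ 2 * (E * (1 + E + z) / (1 + E)) ^ 2 :=
        mul_le_mul_of_nonneg_left (pow_le_pow_left₀ hH0 hH1 2) (by positivity)
    _ = E ^ 2 / (1 + E) ^ 4 * (((z - 1) + (z + 1) * E ^ 2) * (1 + E + z) ^ 2) := by field_simp
    _ ≤ _ := mul_le_mul_of_nonneg_left (yupl_poly hz2 hE0.le hEt) (by positivity)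

end Crest.Agent.R307
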