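import Crest.Agent.R307.YSer

/-!
# R307/YUpS: M(r) <= 13/20, small r
-/

set_option autoImplicit false

namespace Crest.Agent.R307

open Crest.CubeNoise Set

theorem yups_poly {t : ℝ} (h0 : 0 ≤ t) (h1 : t ≤ 3 / 5) :
    (4/3 + 8/15 * t + 12/35 * t ^ 2 + 16/63 * t ^ 3 + 67/198 * t ^ 4 + 5/22 * t ^ 5) * (6932/10000 - t/2 - t^2/12 - t^3/30 - t^4/56) ^ 2 ≤
      13 / 20 * ((1 - t) ^ 2 * (1 + t/3 + t^2/5 + t^3/7 + t^4/9) ^ 3) := by
  obtain ⟨u, hu⟩ : ∃ u : ℝ, u = 3 / 5 - t := ⟨_, rfl⟩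
  have hu0 : 0 ≤ u := by rw [hu]; linarith
  have hp : 0 ≤ (340515625/28697814) * t ^ 0 * u ^ 14 + (10324838125/57395628) * t ^ 1 * u ^ 13 + (502482483875/401769396) * t ^ 2 * u ^ 12 + (303857406125/57395628) * t ^ 3 * u ^ 11 + (539175497956825/35355706848) * t ^ 4 * u ^ 10 + (1117058266464575/35355706848) * t ^ 5 * u ^ 9 + (998993336592175/20624162328) * t ^ 6 * u ^ 8 + (2293843046264725/41248324656) * t ^ 7 * u ^ 7 + (985295629029625/20624162328) * t ^ 8 * u ^ 6 + (1640875643548000/54138426111) * t ^ 9 * u ^ 5 + (23907323891289115/1732429635552) * t ^ 10 * u ^ 4 + (1058430689834135/247489947936) * t ^ 11 * u ^ 3 + (513390290646547/629974412928) * t ^ 12 * u ^ 2 + (522668811165091/6929718542208) * t ^ 13 * u ^ 1 + (19636097794457/17324296355520) * t ^ 14 * u ^ 0 := by positivity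
  have e : 13 / 20 * ((1 - t) ^ 2 * (1 + t/3 + t^2/5 + t^3/7 + t^4/9) ^ 3) - (4/3 + 8/15 * t + 12/35 * t ^ 2 + 16/63 * t ^ 3 + 67/198 * t ^ 4 + 5/22 * t ^ 5) * (6932/10000 - t/2 - t^2/12 - t^3/30 - t^4/56) ^ 2 =
      (340515625/28697814) * t ^ 0 * u ^ 14 + (10324838125/57395628) * t ^ 1 * u ^ 13 + (502482483875/401769396) * t ^ 2 * u ^ 12 + (303857406125/57395628) * t ^ 3 * u ^ 11 + (539175497956825/35355706848) * t ^ 4 * u ^ 10 + (1117058266464575/35355706848) * t ^ 5 * u ^ 9 + (998993336592175/20624162328) * t ^ 6 * u ^ 8 + (2293843046264725/41248324656) * t ^ 7 * u ^ 7 + (985295629029625/20624162328) * t ^ 8 * u ^ 6 + (1640875643548000/54138426111) * t ^ 9 * u ^ 5 + (23907323891289115/1732429635552) * t ^ 10 * u ^ 4 + (1058430689834135/247489947936) * t ^ 11 * u ^ 3 + (513390290646547/629974412928) * t ^ 12 * u ^ 2 + (522668811165091/6929718542208) * t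 ^ 13 * u ^ 1 + (19636097794457/17324296355520) * t ^ 14 * u ^ 0 := by
    rw [hu]; ring
  linarith

/-- `M(r) = H² S''` decreases from `(4/3) log² 2 = 0.6406` to `1/2`. Small range `r ≤ 0.77`: `psi_ge_sum`,
`artanh_ge`, `artanh_le`, polynomial inequality in `t = r²` (subdivide; room 1.5% at 0, 5% at 0.77). -/
theorem up_small {r : ℝ} (h0 : 0 < r) (h1 : r ≤ 77 / 100) :
    ((1 + r ^ 2) * Real.artanh r - r) * signEntropy r ^ 2 ≤ 13 / 20 * ((1 - r ^ 2) ^ 2 * Real.artanh r ^ 3) := by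
  have hr1 : r < 1 := by linarith
  obtain ⟨t, ht⟩ : ∃ t : ℝ, t = r ^ 2 := ⟨_, rfl⟩
  have ht0 : 0 ≤ t := by rw [ht]; positivity
  have ht1 : t ≤ 3 / 5 := by rw [ht]; nlinarith
  have a1 := artanh_ge h0.le hr1 5
  have a2 := artanh_le h0.le hr1 5
  have a3 := psi_ge_sum (r := r) (by rw [abs_of_pos h0]; linarith) 4
  simp only [Finset.sum_range_succ, Finset.sum_range_zero] at a1 a2 a3
  norm_num at a1 a2 a3
  have b1 : r * (1 + t/3 + t^2/5 + t^3/7 + t^4/9) ≤ Real.artanh r := by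
    rw [ht]; linarith [a1, show r * (1 + r ^ 2 / 3 + (r ^ 2) ^ 2 / 5 + (r ^ 2) ^ 3 / 7 + (r ^ 2) ^ 4 / 9) =
      r + r ^ 3 / 3 + r ^ 5 / 5 + r ^ 7 / 7 + r ^ 9 / 9 by ring]
  have b2 : r ^ 11 / (11 * (1 - r ^ 2)) ≤ 5 / 22 * r ^ 11 := by
    rw [div_le_iff₀ (by nlinarith), ← ht]
    have : 0 ≤ r ^ 11 := by positivity
    nlinarith [mul_nonneg this (sub_nonneg.2 ht1)]
  have b3 : Real.artanh r ≤ r + r ^ 3 / 3 + r ^ 5 / 5 + r ^ 7 / 7 + r ^ 9 / 9 + 5 / 22 * r ^ 11 := by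
    linarith
  have b4 : (1 + r ^ 2) * Real.artanh r - r ≤ r ^ 3 * (4/3 + 8/15 * t + 12/35 * t ^ 2 + 16/63 * t ^ 3 + 67/198 * t ^ 4 + 5/22 * t ^ 5) := by
    have := mul_le_mul_of_nonneg_left b3 (show 0 ≤ 1 + r ^ 2 by positivity)
    rw [ht]; linarith [this, show (1 + r ^ 2) * (r + r ^ 3 / 3 + r ^ 5 / 5 + r ^ 7 / 7 + r ^ 9 / 9 + 5 / 22 * r ^ 11) - r =
      r ^ 3 * (4/3 + 8/15 * (r ^ 2) + 12/35 * (r ^ 2) ^ 2 + 16/63 * (r ^ 2) ^ 3 + 67/198 * (r ^ 2) ^ 4 + 5/22 * (r ^ 2) ^ 5) by ring]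
  have c0 : 0 ≤ signEntropy r := by
    unfold signEntropy
    exact Real.binEntropy_nonneg (by linarith) (by linarith)
  have c1 : signEntropy r ≤ (6932/10000 - t/2 - t^2/12 - t^3/30 - t^4/56) := by
    have l2 := Real.log_two_lt_d9
    unfold psi at a3
    rw [ht]; linarith [show (r ^ 2) ^ 2 = r ^ 4 by ring, show (r ^ 2) ^ 3 = r ^ 6 by ring,
      show (r ^ 2) ^ 4 = r ^ 8 by ring]
  have c2 : signEntropy r ^ 2 ≤ (6932/10000 - t/2 - t^2/12 - t^3/30 - t^4/56) ^ 2 := pow_le_pow_left₀ c0 c1 2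
  have c3 : (r * (1 + t/3 + t^2/5 + t^3/7 + t^4/9)) ^ 3 ≤ Real.artanh r ^ 3 := pow_le_pow_left₀ (by positivity) b1 3
  have g0 : 0 ≤ r ^ 3 * (4/3 + 8/15 * t + 12/35 * t ^ 2 + 16/63 * t ^ 3 + 67/198 * t ^ 4 + 5/22 * t ^ 5) := by positivity
  have hp := yups_poly ht0 ht1
  rw [← ht]
  calc ((1 + t) * Real.artanh r - r) * signEntropy r ^ 2
      ≤ (r ^ 3 * (4/3 + 8/15 * t + 12/35 * t ^ 2 + 16/63 * t ^ 3 + 67/198 * t ^ 4 + 5/22 * t ^ 5)) * signEntropy r ^ 2 := by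
        rw [← ht] at b4
        exact mul_le_mul_of_nonneg_right b4 (by positivity)
    _ ≤ (r ^ 3 * (4/3 + 8/15 * t + 12/35 * t ^ 2 + 16/63 * t ^ 3 + 67/198 * t ^ 4 + 5/22 * t ^ 5)) * (6932/10000 - t/2 - t^2/12 - t^3/30 - t^4/56) ^ 2 := mul_le_mul_of_nonneg_left c2 g0
    _ = r ^ 3 * ((4/3 + 8/15 * t + 12/35 * t ^ 2 + 16/63 * t ^ 3 + 67/198 * t ^ 4 + 5/22 * t ^ 5) * (6932/10000 - t/2 - t^2/12 - t^3/30 - t^4/56) ^ 2) := by ring
    _ ≤ r ^ 3 * (13 / 20 * ((1 - t) ^ 2 * (1 + t/3 + t^2/5 + t^3/7 + t^4/9) ^ 3)) := mul_le_mul_of_nonneg_left hp (by positivity)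
    _ = 13 / 20 * ((1 - t) ^ 2 * (r * (1 + t/3 + t^2/5 + t^3/7 + t^4/9)) ^ 3) := by ring
    _ ≤ 13 / 20 * ((1 - t) ^ 2 * Real.artanh r ^ 3) :=
        mul_le_mul_of_nonneg_left (mul_le_mul_of_nonneg_left c3 (by positivity)) (by norm_num)

end Crest.Agent.R307
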