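import Crest.Agent.R307.YS
import Crest.Agent.R307.YUpS
import Crest.Agent.R307.YUpL

/-!
# R307/YUp: concavity of S + M log (log 2 - J) and four-point inequalities
-/

set_option autoImplicit false

namespace Crest.Agent.R307

open Crest.CubeNoise Set

theorem yup_deriv {r : ℝ} (h0 : 0 < r) (h1 : r < 1) : HasDerivAt (fun r => qq r - 13 / 20 / signEntropy r)
    (((1 + r ^ 2) * Real.artanh r - r) / ((1 - r ^ 2) ^ 2 * Real.artanh r ^ 2)
      - 13 / 20 * Real.artanh r / signEntropy r ^ 2) r := by
  have habs : |r| < 1 := abs_lt.2 ⟨by linarith, h1⟩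
  have hH := signEntropy_pos habs
  have h2 := (hasDerivAt_const r (13 / 20 : ℝ)).div (hasDerivAt_signEntropy habs) hH.ne'
  refine ((hasDerivAt_qq h0 h1).sub h2).congr_deriv ?_
  ring

theorem up_anti : AntitoneOn (fun r => qq r - 13 / 20 / signEntropy r) (Ico 0 1) := by
  refine antitoneOn_of_deriv_nonpos (convex_Ico 0 1) ?_ ?_ ?_
  · refine continuousOn_qq.sub (continuousOn_const.div continuous_signEntropy.continuousOn fun r hr => ?_)
    exact (signEntropy_pos (abs_lt.2 ⟨by linarith [hr.1], hr.2⟩)).ne'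
  · rw [interior_Ico]
    exact fun r hr => (yup_deriv hr.1 hr.2).differentiableAt.differentiableWithinAt
  · rw [interior_Ico]
    intro r hr
    rw [(yup_deriv hr.1 hr.2).deriv]
    have habs : |r| < 1 := abs_lt.2 ⟨by linarith [hr.1], hr.2⟩
    have hH := signEntropy_pos habs
    have ha : 0 < Real.artanh r := lt_of_lt_of_le hr.1 (le_artanh hr.1.le hr.2)
    have hr2 : 0 < 1 - r ^ 2 := by nlinarith [hr.1, hr.2]
    have key : ((1 + r ^ 2) * Real.artanh r - r) * signEntropy r ^ 2
        ≤ 13 / 20 * ((1 - r ^ 2) ^ 2 * Real.artanh r ^ 3) := by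
      rcases le_total r (77 / 100) with h | h
      · exact up_small hr.1 h
      · exact up_large h hr.2
    rw [sub_nonpos, div_le_div_iff₀ (by positivity) (by positivity)]
    refine key.trans (le_of_eq ?_)
    ring

theorem yup_deriv2 {J : ℝ} (h : J < Real.log 2) :
    HasDerivAt (fun J => SS J + 13 / 20 * Real.log (Real.log 2 - J)) (SD J - 13 / 20 / (Real.log 2 - J)) J := by
  have h1 : HasDerivAt (fun J : ℝ => Real.log 2 - J) (-1) J := by
    simpa using (hasDerivAt_id J).const_sub (Real.log 2)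
  have h2 := (h1.log (sub_pos.2 h).ne').const_mul (13 / 20 : ℝ)
  refine ((hasDerivAt_SS h).add h2).congr_deriv ?_
  ring

theorem yup_eq {J : ℝ} (h0 : 0 ≤ J) (h : J < Real.log 2) :
    SD J - 13 / 20 / (Real.log 2 - J) = qq (pinv J) - 13 / 20 / signEntropy (pinv J) := by
  obtain ⟨hm, he⟩ := pinv_mem h0 h
  have h1 : SD J = qq (pinv J) := by
    conv_lhs => rw [← he]
    exact SD_psi hm.1 hm.2
  have h2 : Real.log 2 - J = signEntropy (pinv J) := by
    unfold psi at he; linarith
  rw [h1, h2]

theorem yup_anti2 : AntitoneOn (fun J => SD J - 13 / 20 / (Real.log 2 - J)) (Iio (Real.log 2)) := by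
  have hL : 0 < Real.log 2 := Real.log_pos one_lt_two
  have hneg : ∀ a b : ℝ, a ≤ b → b ≤ 0 →
      SD b - 13 / 20 / (Real.log 2 - b) ≤ SD a - 13 / 20 / (Real.log 2 - a) := by
    intro a b hab hb
    rw [SD_nonpos hb, SD_nonpos (hab.trans hb)]
    have : (13 / 20 : ℝ) / (Real.log 2 - a) ≤ 13 / 20 / (Real.log 2 - b) :=
      div_le_div_of_nonneg_left (by norm_num) (by linarith) (by linarith)
    linarith
  have hpos : ∀ a b : ℝ, 0 ≤ a → a ≤ b → b < Real.log 2 →
      SD b - 13 / 20 / (Real.log 2 - b) ≤ SD a - 13 / 20 / (Real.log 2 - a) := by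
    intro a b ha hab hb
    have ha' : a < Real.log 2 := hab.trans_lt hb
    rw [yup_eq ha ha', yup_eq (ha.trans hab) hb]
    exact up_anti (pinv_mem ha ha').1 (pinv_mem (ha.trans hab) hb).1
      (pinv_mono ⟨ha, ha'⟩ ⟨ha.trans hab, hb⟩ hab)
  intro a _ b hb hab
  rcases le_total b 0 with h | h
  · exact hneg a b hab h
  · rcases le_total 0 a with h' | h'
    · exact hpos a b h' hab hb
    · exact (hpos 0 b le_rfl h hb).trans (hneg a 0 h' le_rfl)

theorem up_concave : ConcaveOn ℝ (Iio (Real.log 2)) fun J => SS J + 13 / 20 * Real.log (Real.log 2 - J) := by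
  refine AntitoneOn.concaveOn_of_deriv (convex_Iio _)
    (fun J hJ => (yup_deriv2 hJ).continuousAt.continuousWithinAt) ?_ ?_
  · rw [interior_Iio]
    exact fun J hJ => (yup_deriv2 hJ).differentiableAt.differentiableWithinAt
  · rw [interior_Iio]
    intro a ha b hb hab
    rw [(yup_deriv2 ha).deriv, (yup_deriv2 hb).deriv]
    exact yup_anti2 ha hb hab

/-- four-point inequality for concave functions -/
theorem yup_four {s : Set ℝ} {f : ℝ → ℝ} (hf : ConcaveOn ℝ s f) {x a b : ℝ} (ha : 0 ≤ a) (hb : 0 ≤ b)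
    (hx : x ∈ s) (hx' : x + a + b ∈ s) : f (x + a + b) + f x ≤ f (x + a) + f (x + b) := by
  rcases eq_or_lt_of_le (add_nonneg ha hb) with h | h
  · have ha0 : a = 0 := by linarith
    have hb0 : b = 0 := by linarith
    simp [ha0, hb0]
  · have h1 : b / (a + b) + a / (a + b) = 1 := by field_simp; ring
    have h2 : a / (a + b) + b / (a + b) = 1 := by field_simp
    have e1 := hf.2 hx hx' (div_nonneg hb h.le) (div_nonneg ha h.le) h1
    have e2 := hf.2 hx hx' (div_nonneg ha h.le) (div_nonneg hb h.le) h2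
    simp only [smul_eq_mul] at e1 e2
    have p1 : b / (a + b) * x + a / (a + b) * (x + a + b) = x + a := by field_simp; ring
    have p2 : a / (a + b) * x + b / (a + b) * (x + a + b) = x + b := by field_simp; ring
    rw [p1] at e1
    rw [p2] at e2
    have q : b / (a + b) = 1 - a / (a + b) := by linarith
    rw [q] at e1 e2
    nlinarith

/-- Concavity gives `φ(g+a+b) + φ(g) ≤ φ(g+a) + φ(g+b)`; then `SS g ≥ 0` and `log (1 + x) ≤ x` with
`(c-a)(c-b) = c (c-a-b) + ab`, `c = log 2 - g`. -/
theorem SS_four {a b g : ℝ} (ha : 0 ≤ a) (hb : 0 ≤ b) (hg : 0 ≤ g) (h : a + b + g < Real.log 2) :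
    SS (a + b + g) ≤ SS (a + g) + SS (b + g) +
      13 / 20 * (a * b / ((Real.log 2 - g) * (Real.log 2 - (a + b + g)))) := by
  have hg' : g < Real.log 2 := by linarith
  have h4 := yup_four up_concave ha hb (x := g) hg' (show g + a + b < Real.log 2 by linarith)
  have hS := SS_nonneg hg'
  rw [show g + a + b = a + b + g by ring, add_comm g a, add_comm g b] at h4
  have c0 : 0 < Real.log 2 - g := by linarith
  have c1 : 0 < Real.log 2 - (a + g) := by linarith
  have c2 : 0 < Real.log 2 - (b + g) := by linarith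
  have c3 : 0 < Real.log 2 - (a + b + g) := by linarith
  have hl := Real.log_le_sub_one_of_pos (div_pos (mul_pos c1 c2) (mul_pos c0 c3))
  rw [Real.log_div (mul_pos c1 c2).ne' (mul_pos c0 c3).ne', Real.log_mul c1.ne' c2.ne',
    Real.log_mul c0.ne' c3.ne'] at hl
  have e : (Real.log 2 - (a + g)) * (Real.log 2 - (b + g)) / ((Real.log 2 - g) * (Real.log 2 - (a + b + g))) - 1
      = a * b / ((Real.log 2 - g) * (Real.log 2 - (a + b + g))) := by
    field_simp; ring
  rw [e] at hl
  linarith

/-- `y ↦ PP y A - M y log y` is concave on `(0, ∞)`: perspective of `t ↦ SS (log 2 - t) + M log t`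
(or derivative `SS J + SD J * (A / y) - M (log y + 1)`). -/
theorem PP_concave {A : ℝ} (hA : 0 < A) : ConcaveOn ℝ (Ioi 0) fun y => PP y A - 13 / 20 * (y * Real.log y) := by
  refine ⟨convex_Ioi 0, fun x hx y hy a b ha hb hab => ?_⟩
  have hx0 : 0 < x := hx
  have hy0 : 0 < y := hy
  have hz : 0 < a * x + b * y := by
    simpa only [smul_eq_mul, mem_Ioi] using (convex_Ioi (0 : ℝ)) hx hy ha hb hab
  simp only [smul_eq_mul]
  set z := a * x + b * y with hzdef
  have hw : a * x / z + b * y / z = 1 := by rw [← add_div]; exact div_self hz.ne'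
  have e := up_concave.2 (x := Real.log 2 - A / x) (y := Real.log 2 - A / y)
    (show Real.log 2 - A / x < Real.log 2 by linarith [div_pos hA hx0])
    (show Real.log 2 - A / y < Real.log 2 by linarith [div_pos hA hy0])
    (div_nonneg (mul_nonneg ha hx0.le) hz.le) (div_nonneg (mul_nonneg hb hy0.le) hz.le) hw
  simp only [smul_eq_mul] at e
  have p : a * x / z * (Real.log 2 - A / x) + b * y / z * (Real.log 2 - A / y) = Real.log 2 - A / z := by
    have p1 : a * x / z * (A / x) = a * (A / z) := by field_simp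
    have p2 : b * y / z * (A / y) = b * (A / z) := by field_simp
    calc a * x / z * (Real.log 2 - A / x) + b * y / z * (Real.log 2 - A / y)
        = (a * x / z + b * y / z) * Real.log 2 - (a * x / z * (A / x) + b * y / z * (A / y)) := by ring
      _ = Real.log 2 - (a + b) * (A / z) := by rw [hw, p1, p2]; ring
      _ = Real.log 2 - A / z := by rw [hab, one_mul]
  rw [p] at e
  simp only [sub_sub_cancel] at e
  rw [Real.log_div hA.ne' hx0.ne', Real.log_div hA.ne' hy0.ne', Real.log_div hA.ne' hz.ne'] at e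
  have e2 := mul_le_mul_of_nonneg_left e hz.le
  have q : z * (a * x / z * (SS (Real.log 2 - A / x) + 13 / 20 * (Real.log A - Real.log x)) +
      b * y / z * (SS (Real.log 2 - A / y) + 13 / 20 * (Real.log A - Real.log y)))
      = a * x * (SS (Real.log 2 - A / x) + 13 / 20 * (Real.log A - Real.log x)) +
      b * y * (SS (Real.log 2 - A / y) + 13 / 20 * (Real.log A - Real.log y)) := by
    field_simp
  rw [q] at e2
  unfold PP
  have q2 : z * Real.log A = a * x * Real.log A + b * y * Real.log A := by rw [hzdef]; ring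
  nlinarith

theorem PP_nonneg {y A : ℝ} (hy : 0 < y) (hA : 0 < A) : 0 ≤ PP y A :=
  mul_nonneg hy.le (SS_nonneg (by linarith [div_pos hA hy]))

theorem PP_mono {A : ℝ} (hA : 0 < A) : MonotoneOn (fun y => PP y A) (Ioi 0) := by
  intro x hx y hy hxy
  have hx0 : 0 < x := hx
  have hy0 : 0 < y := hy
  have h1 : Real.log 2 - A / x < Real.log 2 := by linarith [div_pos hA hx0]
  have h2 : Real.log 2 - A / y < Real.log 2 := by linarith [div_pos hA hy0]
  have h3 : A / y ≤ A / x := div_le_div_of_nonneg_left hA.le hx0 hxy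
  exact mul_le_mul hxy (SS_mono h1 h2 (by linarith)) (SS_nonneg h1) hy0.le

theorem PP_four {A w Y β : ℝ} (hA : 0 < A) (hβ : 0 ≤ β) (hY : β < Y) (hw : Y ≤ w) :
    PP w A ≤ PP Y A + PP (w - β) A + 13 / 20 *
      (w * Real.log w - Y * Real.log Y - (w - β) * Real.log (w - β) + (Y - β) * Real.log (Y - β)) := by
  have h0 : 0 < Y - β := sub_pos.2 hY
  have h4 := yup_four (PP_concave hA) (x := Y - β) hβ (sub_nonneg.2 hw) h0
    (show 0 < Y - β + β + (w - Y) by linarith)
  rw [show Y - β + β + (w - Y) = w by ring, show Y - β + β = Y by ring,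
    show Y - β + (w - Y) = w - β by ring] at h4
  have h5 := PP_nonneg h0 hA
  linarith

end Crest.Agent.R307
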