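import Crest.Agent.R307.YLo
import Crest.Agent.R307.YUp
import Crest.Agent.R307.YFin

/-!
# R307/YF: the rate step
-/

set_option autoImplicit false

namespace Crest.Agent.R307

open Crest.CubeNoise Set

theorem yf_jj {m δ : ℝ} (hδ : 0 ≤ δ) (hm : |m| + δ < 1) :
    jj (m + δ) (m - δ) = (1 + |m|) / 2 * psi (δ / (1 + |m|)) + (1 - |m|) / 2 * psi (δ / (1 - |m|)) := by
  rw [jj_eq (by rwa [abs_of_nonneg hδ])]
  rcases abs_choice m with e | e <;> rw [e]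
  rw [show 1 + -m = 1 - m by ring, show 1 - -m = 1 + m by ring, add_comm]

theorem yf_gain {w Y k a : ℝ} (hw : 0 < w) (hY : 0 < Y) (hk : 0 < k) (h : a ≤ k / w * (w - Y)) :
    0 < k - a ∧ a / w ≤ (1 / Y - 1 / w) * (k - a) := by
  have h1 : a * w ≤ k * (w - Y) := by
    have := mul_le_mul_of_nonneg_right h hw.le
    rwa [show k / w * (w - Y) * w = k * (w - Y) by field_simp] at this
  have h2 : 0 < k - a := by
    by_contra hc
    push Not at hc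
    nlinarith [mul_pos hk hY]
  refine ⟨h2, ?_⟩
  rw [show (1 / Y - 1 / w) * (k - a) = (w - Y) * (k - a) / Y / w by field_simp]
  refine div_le_div_of_nonneg_right ?_ hw.le
  rw [le_div_iff₀ hY]
  nlinarith

set_option maxHeartbeats 800000 in
/-- `b = jj (m+δ) (m-δ)`, `w = 1 - m²`, `p = (1-|m|)/2`, `r = δ/(1-|m|)`. From `ha'`: `Y ≤ w (kb - a)/kb`, so
`1/Y - 1/w ≥ a/(w (kb - a))` and `δ²/w = τ r²`, `δ/(1+|m|) = τ r` (`ell_ge`); `jj_eq`, `psi_ge`, `psi_le` bound `b`;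
then `SS_four`, `SS_persp` (with `j = b + g ≥ b`) and `fin_alg`. -/
theorem f_step {m δ Y a g : ℝ} (hδ : 0 ≤ δ) (hm : |m| + δ < 1) (hY0 : 0 < Y) (ha : 0 ≤ a) (hg : 0 ≤ g)
    (ha' : a ≤ kb m / (1 - m ^ 2) * (1 - m ^ 2 - Y))
    (hgain : ell ((δ / (1 + |m|)) ^ 2) * δ ^ 2 * (1 / Y - 1 / (1 - m ^ 2)) ≤ 2 * g)
    (hI : a + jj (m + δ) (m - δ) + g ≤ 33 / 100) (hI' : a + jj (m + δ) (m - δ) + g < signEntropy m) :
    SS (a + jj (m + δ) (m - δ) + g) ≤ 2 * g + SS (a + g) + (signEntropy m - a) / Real.log 2 *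
      SS ((jj (m + δ) (m - δ) + g) / ((signEntropy m - a) / Real.log 2)) := by
  have hμ := abs_nonneg m
  have hμ1 : |m| < 1 := by linarith
  have hsq : m ^ 2 = |m| ^ 2 := (sq_abs m).symm
  have hb0 := yf_jj hδ hm
  have hH : signEntropy m = Real.log 2 - psi |m| := by rw [psi_abs, psi]; ring
  have hL1 := Real.log_two_gt_d9
  have hL2 := Real.log_two_lt_d9
  have hHle := signEntropy_le m
  generalize jj (m + δ) (m - δ) = b at *
  generalize signEntropy m = Hm at *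
  unfold kb at ha'
  rw [hsq] at ha' hgain
  generalize |m| = μ at *
  obtain ⟨p, hp⟩ : ∃ p, p = (1 - μ) / 2 := ⟨_, rfl⟩
  obtain ⟨r, hr⟩ : ∃ r, r = δ / (1 - μ) := ⟨_, rfl⟩
  obtain ⟨τ, hτ⟩ : ∃ τ, τ = (1 - μ) / (1 + μ) := ⟨_, rfl⟩
  have h1μ : 0 < 1 - μ := by linarith
  have h1μ' : 0 < 1 + μ := by linarith
  have hr0 : 0 ≤ r := hr ▸ div_nonneg hδ h1μ.le
  have hr1 : r < 1 := by rw [hr, div_lt_one h1μ]; linarith
  have hτ0 : 0 ≤ τ := hτ ▸ div_nonneg h1μ.le h1μ'.le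
  have hτ1 : τ ≤ 1 := by rw [hτ, div_le_one h1μ']; linarith
  have hτp : τ * (1 - p) = p := by rw [hτ, hp]; field_simp; ring
  have hτr : δ / (1 + μ) = τ * r := by rw [hτ, hr]; field_simp
  have hτr0 : 0 ≤ τ * r := mul_nonneg hτ0 hr0
  have hτr1 : τ * r < 1 := by nlinarith
  have hw : 0 < 1 - μ ^ 2 := by nlinarith
  have hδw : δ ^ 2 / (1 - μ ^ 2) = τ * r ^ 2 := by
    rw [hτ, hr, show 1 - μ ^ 2 = (1 - μ) * (1 + μ) by ring]; field_simp
  have hp0 : 0 < p := by linarith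
  have hp1 : p ≤ 1 / 2 := by linarith
  rw [hτr, ← hr, show (1 + μ) / 2 = 1 - p by linarith, ← hp] at hb0
  rw [hτr] at hgain
  have ar : |r| ≤ 1 := by rw [abs_of_nonneg hr0]; exact hr1.le
  have aτ : |τ * r| ≤ 1 := by rw [abs_of_nonneg hτr0]; exact hτr1.le
  have e1 : ∀ x y : ℝ, τ * r ^ 2 * ((1 - p) * x + p * y) = p * (r ^ 2 * x) + (1 - p) * ((τ * r) ^ 2 * y) := by
    intro x y
    linear_combination (r ^ 2 * x - τ * r ^ 2 * y) * hτp
  have hb : τ * r ^ 2 * ((1 - p) * (1 / 2 + r ^ 2 / 12 + r ^ 4 / 30) +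
      p * (1 / 2 + (τ * r) ^ 2 / 12 + (τ * r) ^ 4 / 30)) ≤ b := by
    rw [e1, hb0, add_comm]
    refine add_le_add (mul_le_mul_of_nonneg_left ?_ (by linarith)) (mul_le_mul_of_nonneg_left ?_ hp0.le)
    · refine le_trans (le_of_eq ?_) (psi_ge aτ); ring
    · refine le_trans (le_of_eq ?_) (psi_ge ar); ring
  have hb' : b ≤ τ * r ^ 2 * ((1 - p) * (1 / 2 + r ^ 2 / 12 + (Real.log 2 - 7 / 12) * r ^ 4) +
      p * (1 / 2 + (τ * r) ^ 2 / 12 + (Real.log 2 - 7 / 12) * (τ * r) ^ 4)) := by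
    rw [e1, hb0, add_comm]
    refine add_le_add (mul_le_mul_of_nonneg_left ?_ hp0.le) (mul_le_mul_of_nonneg_left ?_ (by linarith))
    · refine le_trans (psi_le ar) (le_of_eq ?_); ring
    · refine le_trans (psi_le aτ) (le_of_eq ?_); ring
  have hbn : 0 ≤ b := by
    rw [hb0]
    exact add_nonneg (mul_nonneg (by linarith) (psi_nonneg _)) (mul_nonneg hp0.le (psi_nonneg _))
  have hk : 1 - (1 - μ) / 4 - (1 - μ) ^ 2 / 24 = 1 - p / 2 - p ^ 2 / 6 := by rw [hp]; ring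
  rw [hk] at ha'
  have hkp : 0 < 1 - p / 2 - p ^ 2 / 6 := by
    have := pow_le_pow_left₀ hp0.le hp1 2
    linarith
  obtain ⟨g1, g2⟩ := yf_gain hw hY0 hkp ha'
  have hgain' : (1 + (τ * r) ^ 2 / 2) * (τ * r ^ 2) * a ≤ 2 * g * (1 - p / 2 - p ^ 2 / 6 - a) := by
    have l1 : 1 + (τ * r) ^ 2 / 2 ≤ ell ((τ * r) ^ 2) := ell_ge (sq_nonneg _) (pow_lt_one₀ hτr0 hτr1 two_ne_zero)
    have l0 : 0 ≤ ell ((τ * r) ^ 2) := le_trans (by positivity) l1
    calc (1 + (τ * r) ^ 2 / 2) * (τ * r ^ 2) * a = (1 + (τ * r) ^ 2 / 2) * (δ ^ 2 * (a / (1 - μ ^ 2))) := by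
          rw [← hδw]; ring
      _ ≤ ell ((τ * r) ^ 2) * (δ ^ 2 * ((1 / Y - 1 / (1 - μ ^ 2)) * (1 - p / 2 - p ^ 2 / 6 - a))) :=
          mul_le_mul l1 (mul_le_mul_of_nonneg_left g2 (sq_nonneg _))
            (mul_nonneg (sq_nonneg _) (div_nonneg ha hw.le)) l0
      _ = ell ((τ * r) ^ 2) * δ ^ 2 * (1 / Y - 1 / (1 - μ ^ 2)) * (1 - p / 2 - p ^ 2 / 6 - a) := by ring
      _ ≤ _ := mul_le_mul_of_nonneg_right hgain g1.le
  have hHb : Hm ≤ Real.log 2 - ((1 - 2 * p) ^ 2 / 2 + (1 - 2 * p) ^ 4 / 12 + (1 - 2 * p) ^ 6 / 30) := by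
    have := psi_ge (r := μ) (by rw [abs_of_nonneg hμ]; exact hμ1.le)
    rw [show 1 - 2 * p = μ by linarith]
    linarith
  have key := fin_alg (L := Real.log 2) hp0 hp1 hr0 hr1.le ha hg (by norm_num at hL1 ⊢; linarith)
    (by norm_num at hL2 ⊢; linarith) hτp hHb hI hI' hb hb' hgain'
  have hL : 0 < Real.log 2 := Real.log_pos one_lt_two
  have hHa : 0 < Hm - a := by linarith
  have f4 := SS_four ha hbn hg (lt_of_lt_of_le hI' hHle)
  have fp := SS_persp (j := b + g) (Y := (Hm - a) / Real.log 2) (by linarith) (div_pos hHa hL)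
    (by rw [div_le_one hL]; linarith) (by
      rw [div_div_eq_mul_div, div_lt_iff₀ hHa, mul_comm (Real.log 2)]
      exact mul_lt_mul_of_pos_right (by linarith) hL)
  rw [one_div_div, show 1 / ((Hm - a) / Real.log 2) ^ 2 = (Real.log 2 / (Hm - a)) ^ 2 by field_simp] at fp
  have x1 : 1 ≤ Real.log 2 / (Hm - a) := by rw [le_div_iff₀ hHa]; linarith
  have x2 : 1 ≤ (Real.log 2 / (Hm - a)) ^ 2 := one_le_pow₀ x1
  have y2 : b ^ 2 ≤ (b + g) ^ 2 := pow_le_pow_left₀ hbn (by linarith) 2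
  have y3 : b ^ 3 ≤ (b + g) ^ 3 := pow_le_pow_left₀ hbn (by linarith) 3
  have z2 := mul_le_mul_of_nonneg_right y2 (sub_nonneg.2 x1)
  have z3 := mul_le_mul_of_nonneg_right y3 (sub_nonneg.2 x2)
  linarith

end Crest.Agent.R307
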