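import Crest.Agent.R307.YPin

/-!
# R307/YGap: the Jensen gap of jj
-/

set_option autoImplicit false

namespace Crest.Agent.R307

open Crest.CubeNoise Set

variable {n : ℕ}

theorem gap_jj {m d : ℝ} (h : |m| + |d| < 1) :
    jj (m + d) (m - d) = (1 + m) / 2 * psi (|d| / (1 + m)) + (1 - m) / 2 * psi (|d| / (1 - m)) := by
  have h1 := le_abs_self m
  have h2 := neg_abs_le m
  have h3 := abs_nonneg d
  rw [jj_eq h, ← psi_abs (d / (1 + m)), ← psi_abs (d / (1 - m)), abs_div, abs_div,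
    abs_of_pos (by linarith : 0 < 1 + m), abs_of_pos (by linarith : 0 < 1 - m)]

theorem gap_one {a b y z e : ℝ} (ha : 0 ≤ a) (hy : a < y) (hb : 0 ≤ b) (hz : b < z) (he : z ≤ e) :
    psi (b / z) + Real.artanh (b / z) * (a / y - b / z) + ell ((b / e) ^ 2) * (a / y - b / z) ^ 2 / 2 ≤
      psi (a / y) := by
  have y0 : 0 < y := by linarith
  have z0 : 0 < z := by linarith
  have e0 : 0 < e := by linarith
  have r1 : b / z < 1 := (div_lt_one z0).2 hz
  have r0 : 0 ≤ b / z := div_nonneg hb z0.le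
  have s0 : 0 ≤ b / e := div_nonneg hb e0.le
  have s1 : b / e ≤ b / z := div_le_div_of_nonneg_left hb z0 he
  have p := pinsker (r := a / y) (r0 := b / z) (div_nonneg ha y0.le) ((div_lt_one y0).2 hy) r0 r1
  have q : ell ((b / e) ^ 2) ≤ ell ((b / z) ^ 2) :=
    ell_mono ⟨by positivity, by nlinarith⟩ ⟨by positivity, by nlinarith⟩ (pow_le_pow_left₀ s0 s1 2)
  have := mul_le_mul_of_nonneg_right q (sq_nonneg (a / y - b / z))
  linarith

theorem gap_abs_avg (d : (Fin n → Bool) → ℝ) : |cubeAverage d| ≤ cubeAverage fun x => |d x| := by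
  rw [abs_le]
  constructor
  · rw [← avg_neg]
    exact avg_mono fun x => neg_abs_le (d x)
  · exact avg_mono fun x => le_abs_self (d x)

/-- Pointwise, with `r± = |d|/(1 ± μ)`, `ρ± = δ/(1 ± m)`, `π± = (1 ± μ)/2`, `c = ell (ρ²)`, `ρ = δ/(1+|m|)`:
`jj = ∑ π± ψ(r±) ≥ ∑ π± (ψ ρ± + artanh ρ± (r± - ρ±) + c (r± - ρ±)²/2)` (`jj_eq`, `pinsker`, `ell_mono`);
`π± r± = |d|/2`, `∑ π± r±² = d²/(1-μ²)`. -/
theorem gap_pt {μ d m δ : ℝ} (h : |μ| + |d| < 1) (hδ : 0 ≤ δ) (hm : |m| + δ < 1) :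
    (1 + μ) / 2 * (psi (δ / (1 + m)) - Real.artanh (δ / (1 + m)) * (δ / (1 + m))) +
      (1 - μ) / 2 * (psi (δ / (1 - m)) - Real.artanh (δ / (1 - m)) * (δ / (1 - m))) +
      (Real.artanh (δ / (1 + m)) + Real.artanh (δ / (1 - m))) * (|d| / 2) +
      ell ((δ / (1 + |m|)) ^ 2) / 2 * (d ^ 2 / (1 - μ ^ 2) - 2 * δ * |d| / (1 - m ^ 2) +
        ((1 + μ) / 2 * (δ / (1 + m)) ^ 2 + (1 - μ) / 2 * (δ / (1 - m)) ^ 2)) ≤ jj (μ + d) (μ - d) := by
  have h1 := le_abs_self μ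
  have h2 := neg_abs_le μ
  have h3 := abs_nonneg d
  have g1 := le_abs_self m
  have g2 := neg_abs_le m
  have p1 := gap_one (a := |d|) (b := δ) (y := 1 + μ) (z := 1 + m) (e := 1 + |m|) h3 (by linarith) hδ
    (by linarith) (by linarith)
  have p2 := gap_one (a := |d|) (b := δ) (y := 1 - μ) (z := 1 - m) (e := 1 + |m|) h3 (by linarith) hδ
    (by linarith) (by linarith)
  have a1 : 0 < 1 + μ := by linarith
  have a2 : 0 < 1 - μ := by linarith
  have b1 : 0 < 1 + m := by linarith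
  have b2 : 0 < 1 - m := by linarith
  have q1 := mul_le_mul_of_nonneg_left p1 (by positivity : 0 ≤ (1 + μ) / 2)
  have q2 := mul_le_mul_of_nonneg_left p2 (by positivity : 0 ≤ (1 - μ) / 2)
  rw [gap_jj h]
  refine le_trans (le_of_eq ?_) (add_le_add q1 q2)
  rw [← sq_abs d, show 1 - μ ^ 2 = (1 + μ) * (1 - μ) by ring, show 1 - m ^ 2 = (1 + m) * (1 - m) by ring]
  generalize ell ((δ / (1 + |m|)) ^ 2) = c
  generalize psi (δ / (1 + m)) = P1
  generalize psi (δ / (1 - m)) = P2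
  generalize Real.artanh (δ / (1 + m)) = A1
  generalize Real.artanh (δ / (1 - m)) = A2
  generalize |d| = D
  field_simp
  ring

/-- Average `gap_pt` with `δ = |E d| ≤ δ' = E|d|`; `E d²/(1-μ²) ≥ δ'²/Y` (tangent: `d²/y ≥ 2 t |d| - t² y`,
`t = δ'/Y`), `δ'²/Y - 2δδ'/w + δ²/w ≥ δ²(1/Y - 1/w)` as `Y ≤ w`; `jj` is symmetric. -/
theorem gap (μ d : (Fin n → Bool) → ℝ) (h : ∀ x, |μ x| + |d x| < 1) :
    ell ((|cubeAverage d| / (1 + |cubeAverage μ|)) ^ 2) * cubeAverage d ^ 2 *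
        (1 / cubeAverage (fun x => 1 - μ x ^ 2) - 1 / (1 - cubeAverage μ ^ 2)) ≤
      2 * (cubeAverage (fun x => jj (μ x + d x) (μ x - d x)) -
        jj (cubeAverage μ + cubeAverage d) (cubeAverage μ - cubeAverage d)) := by
  set m := cubeAverage μ with hm
  set D := cubeAverage d with hD
  set Y := cubeAverage (fun x => 1 - μ x ^ 2) with hY
  set δ' := cubeAverage (fun x => |d x|) with hδ'
  have k1 : |D| ≤ δ' := gap_abs_avg d
  have k2 : |m| + δ' < 1 := by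
    have a := avg_lt (f := fun x => |μ x| + |d x|) (g := fun _ => 1) h
    rw [avg_add, avg_const] at a
    have b := gap_abs_avg μ
    linarith
  have k3 : |m| + |D| < 1 := by linarith
  have hy : ∀ x, 0 < 1 - μ x ^ 2 := fun x => by
    have a := h x
    have b := abs_nonneg (d x)
    have c := abs_nonneg (μ x)
    rw [← sq_abs]
    nlinarith
  have Y0 : 0 < Y := by
    have := avg_lt (f := fun _ => 0) hy
    rwa [avg_const] at this
  have Yw : Y ≤ 1 - m ^ 2 := avg_sq_le μ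
  have D0 := abs_nonneg D
  have g1 := le_abs_self m
  have g2 := neg_abs_le m
  have m0 := abs_nonneg m
  have b1 : 0 < 1 + m := by linarith
  have b2 : 0 < 1 - m := by linarith
  have c0 : 0 ≤ ell ((|D| / (1 + |m|)) ^ 2) := by
    have s0 : 0 ≤ |D| / (1 + |m|) := by positivity
    have s1 : |D| / (1 + |m|) < 1 := (div_lt_one (by positivity)).2 (by linarith)
    have := ell_ge (s := (|D| / (1 + |m|)) ^ 2) (by positivity) (by nlinarith)
    have := sq_nonneg (|D| / (1 + |m|))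
    linarith
  have A1 : 0 ≤ Real.artanh (|D| / (1 + m)) :=
    le_trans (by positivity) (le_artanh (by positivity) ((div_lt_one b1).2 (by linarith)))
  have A2 : 0 ≤ Real.artanh (|D| / (1 - m)) :=
    le_trans (by positivity) (le_artanh (by positivity) ((div_lt_one b2).2 (by linarith)))
  have pt := fun x => gap_pt (h x) D0 k3
  rw [gap_jj k3, ← sq_abs D]
  generalize ell ((|D| / (1 + |m|)) ^ 2) = c at *
  generalize psi (|D| / (1 + m)) = P1 at *
  generalize psi (|D| / (1 - m)) = P2 at *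
  generalize Real.artanh (|D| / (1 + m)) = a1 at *
  generalize Real.artanh (|D| / (1 - m)) = a2 at *
  generalize |D| = δ at *
  set w := 1 - m ^ 2 with hw
  have w0 : 0 < w := by linarith
  set t := δ' / Y with ht
  set u1 := P1 - a1 * (δ / (1 + m)) + c / 2 * (δ / (1 + m)) ^ 2 with hu1
  set u2 := P2 - a2 * (δ / (1 - m)) + c / 2 * (δ / (1 - m)) ^ 2 with hu2
  have pt2 : ∀ x, (u1 + u2) / 2 + (u1 - u2) / 2 * μ x + ((a1 + a2) / 2 + c * t - c * δ / w) * |d x| -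
      c / 2 * t ^ 2 * (1 - μ x ^ 2) ≤ jj (μ x + d x) (μ x - d x) := fun x => by
    refine le_trans ?_ (pt x)
    have e : 2 * t * |d x| - t ^ 2 * (1 - μ x ^ 2) ≤ d x ^ 2 / (1 - μ x ^ 2) := by
      rw [le_div_iff₀ (hy x), ← sq_abs (d x)]
      nlinarith [sq_nonneg (|d x| - t * (1 - μ x ^ 2))]
    have e2 := mul_le_mul_of_nonneg_left e (by positivity : 0 ≤ c / 2)
    have e3 : (u1 + u2) / 2 + (u1 - u2) / 2 * μ x + ((a1 + a2) / 2 + c * t - c * δ / w) * |d x| -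
        c / 2 * t ^ 2 * (1 - μ x ^ 2) - c / 2 * (2 * t * |d x| - t ^ 2 * (1 - μ x ^ 2)) =
        (1 + μ x) / 2 * (P1 - a1 * (δ / (1 + m))) + (1 - μ x) / 2 * (P2 - a2 * (δ / (1 - m))) +
          (a1 + a2) * (|d x| / 2) + c / 2 * (d x ^ 2 / (1 - μ x ^ 2) - 2 * δ * |d x| / w +
            ((1 + μ x) / 2 * (δ / (1 + m)) ^ 2 + (1 - μ x) / 2 * (δ / (1 - m)) ^ 2)) -
          c / 2 * (d x ^ 2 / (1 - μ x ^ 2)) := by
      rw [hu1, hu2]
      ring
    linarith
  have av := avg_mono pt2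
  rw [avg_sub, avg_add, avg_add, avg_const, avg_mul, avg_mul, avg_mul, ← hm, ← hδ', ← hY] at av
  have e1 : (u1 + u2) / 2 + (u1 - u2) / 2 * m =
      (1 + m) / 2 * P1 + (1 - m) / 2 * P2 - (a1 + a2) / 2 * δ + c / 2 * (δ ^ 2 / w) := by
    rw [hu1, hu2, hw, show 1 - m ^ 2 = (1 + m) * (1 - m) by ring]
    field_simp
    ring
  have e2 : ((a1 + a2) / 2 + c * t - c * δ / w) * δ' - c / 2 * t ^ 2 * Y =
      (a1 + a2) / 2 * δ' + c / 2 * (δ' ^ 2 / Y - 2 * δ * δ' / w) := by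
    rw [ht]
    field_simp
    ring
  have e3 : δ ^ 2 * (1 / Y - 1 / w) ≤ δ' ^ 2 / Y - 2 * δ * δ' / w + δ ^ 2 / w := by
    have f1 : 1 / w ≤ 1 / Y := one_div_le_one_div_of_le Y0 Yw
    have f2 : 0 < 1 / w := by positivity
    have f3 : δ' ^ 2 / Y - 2 * δ * δ' / w + δ ^ 2 / w - δ ^ 2 * (1 / Y - 1 / w) =
        (δ' - δ) * ((δ' + δ) * (1 / Y) - 2 * δ * (1 / w)) := by ring
    have f4 : 2 * δ * (1 / w) ≤ (δ' + δ) * (1 / Y) :=
      mul_le_mul (by linarith) f1 f2.le (by linarith)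
    have := mul_nonneg (sub_nonneg.2 k1) (sub_nonneg.2 f4)
    linarith
  have e4 := mul_le_mul_of_nonneg_left e3 c0
  have e5 := mul_le_mul_of_nonneg_left k1 (by positivity : 0 ≤ (a1 + a2) / 2)
  nlinarith

end Crest.Agent.R307
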