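import Crest.Agent.R307.YHypQ

/-!
# R307/YHyp: the inequality (a'')
-/

set_option autoImplicit false

namespace Crest.Agent.R307

open Crest.CubeNoise Set

theorem yhyp_tanh_deriv (x : ℝ) : HasDerivAt Real.tanh (2 / (1 + Real.cosh (2 * x))) x := by
  have h := (Real.hasDerivAt_sinh x).fun_div (Real.hasDerivAt_cosh x) (Real.cosh_pos x).ne'
  have e : Real.tanh = fun x => Real.sinh x / Real.cosh x := funext Real.tanh_eq_sinh_div_cosh
  rw [e]
  refine h.congr_deriv ?_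
  have h1 := Real.cosh_sq' x
  have h2 := Real.cosh_pos x
  rw [Real.cosh_two_mul, show 1 + (Real.cosh x ^ 2 + Real.sinh x ^ 2) = 2 * Real.cosh x ^ 2 by linarith]
  field_simp
  linarith

theorem yhyp_tanh_lim : Filter.Tendsto Real.tanh Filter.atTop (nhds 1) := by
  refine tendsto_order.2 ⟨fun r hr => ?_, fun r hr => Filter.Eventually.of_forall fun x =>
    (Real.tanh_lt_one x).trans hr⟩
  have h0 : max r 0 < 1 := max_lt hr one_pos
  have h1 : -1 < max r 0 := lt_of_lt_of_le (by norm_num) (le_max_right _ _)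
  filter_upwards [Filter.eventually_gt_atTop (Real.artanh (max r 0))] with x hx
  refine (le_max_left r 0).trans_lt ?_
  rw [← Real.artanh_lt_artanh_iff ⟨h1, h0⟩ ⟨Real.neg_one_lt_tanh x, Real.tanh_lt_one x⟩, Real.artanh_tanh]
  exact hx

/-- the mean -/
noncomputable def yhypM (θ φ : ℝ) : ℝ := Real.sinh (2 * φ) / (Real.cosh (2 * φ) + Real.cosh (2 * θ))

theorem yhyp_mean (θ φ : ℝ) : (Real.tanh (φ + θ) + Real.tanh (φ - θ)) / 2 = yhypM θ φ := by
  have h1 := Real.cosh_pos (φ + θ)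
  have h2 := Real.cosh_pos (φ - θ)
  have h3 : Real.sinh (2 * φ) = Real.sinh (φ + θ) * Real.cosh (φ - θ) + Real.cosh (φ + θ) * Real.sinh (φ - θ) := by
    rw [← Real.sinh_add]; congr 1; ring
  have h4 : Real.cosh (2 * φ) = Real.cosh (φ + θ) * Real.cosh (φ - θ) + Real.sinh (φ + θ) * Real.sinh (φ - θ) := by
    rw [← Real.cosh_add]; congr 1; ring
  have h5 : Real.cosh (2 * θ) = Real.cosh (φ + θ) * Real.cosh (φ - θ) - Real.sinh (φ + θ) * Real.sinh (φ - θ) := by
    rw [← Real.cosh_sub]; congr 1; ring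
  rw [yhypM, h3, h4, h5, Real.tanh_eq_sinh_div_cosh, Real.tanh_eq_sinh_div_cosh,
    show Real.cosh (φ + θ) * Real.cosh (φ - θ) + Real.sinh (φ + θ) * Real.sinh (φ - θ) +
      (Real.cosh (φ + θ) * Real.cosh (φ - θ) - Real.sinh (φ + θ) * Real.sinh (φ - θ)) =
      2 * (Real.cosh (φ + θ) * Real.cosh (φ - θ)) by ring]
  field_simp

theorem yhyp_abs_tanh (x : ℝ) : |Real.tanh x| < 1 := abs_lt.2 ⟨Real.neg_one_lt_tanh x, Real.tanh_lt_one x⟩

theorem yhyp_abs_M (θ φ : ℝ) : |yhypM θ φ| < 1 := by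
  rw [← yhyp_mean]
  have h1 := abs_lt.1 (yhyp_abs_tanh (φ + θ))
  have h2 := abs_lt.1 (yhyp_abs_tanh (φ - θ))
  rw [abs_lt]
  constructor <;> linarith [h1.1, h1.2, h2.1, h2.2]

theorem yhyp_sinh2 (φ : ℝ) : HasDerivAt (fun φ => Real.sinh (2 * φ)) (2 * Real.cosh (2 * φ)) φ := by
  have := ((hasDerivAt_id φ).const_mul 2).sinh
  simpa [mul_comm] using this

theorem yhyp_cosh2 (φ : ℝ) : HasDerivAt (fun φ => Real.cosh (2 * φ)) (2 * Real.sinh (2 * φ)) φ := by
  have := ((hasDerivAt_id φ).const_mul 2).cosh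
  simpa [mul_comm] using this

theorem yhyp_M_deriv (θ φ : ℝ) : HasDerivAt (yhypM θ)
    (2 * (1 + Real.cosh (2 * φ) * Real.cosh (2 * θ)) / (Real.cosh (2 * φ) + Real.cosh (2 * θ)) ^ 2) φ := by
  have h1 := Real.cosh_pos (2 * φ)
  have h2 := Real.cosh_pos (2 * θ)
  have h := (yhyp_sinh2 φ).fun_div ((yhyp_cosh2 φ).add_const (Real.cosh (2 * θ))) (by positivity)
  refine h.congr_deriv ?_
  congr 1
  have := Real.cosh_sq' (2 * φ)
  linear_combination 2 * this

/-- the function `Γ` -/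
noncomputable def yhypGam (θ e φ : ℝ) : ℝ :=
  -φ + θ * Real.sinh (2 * θ) * (Real.sinh (2 * φ) / (1 + Real.cosh (2 * φ) * Real.cosh (2 * θ))) +
    e * Real.artanh (yhypM θ φ)

/-- the function `G` -/
noncomputable def yhypG (θ e φ : ℝ) : ℝ :=
  (signEntropy (Real.tanh (φ + θ)) + signEntropy (Real.tanh (φ - θ))) / 2 - e * signEntropy (yhypM θ φ)

theorem yhyp_G_deriv (θ e φ : ℝ) : HasDerivAt (yhypG θ e)
    (2 * (1 + Real.cosh (2 * φ) * Real.cosh (2 * θ)) / (Real.cosh (2 * φ) + Real.cosh (2 * θ)) ^ 2 *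
      yhypGam θ e φ) φ := by
  have t1 : HasDerivAt (fun φ => Real.tanh (φ + θ)) (2 / (1 + Real.cosh (2 * (φ + θ)))) φ :=
    (yhyp_tanh_deriv (φ + θ)).comp_add_const φ θ
  have t2 : HasDerivAt (fun φ => Real.tanh (φ - θ)) (2 / (1 + Real.cosh (2 * (φ - θ)))) φ :=
    (yhyp_tanh_deriv (φ - θ)).comp_sub_const φ θ
  have s1 := (hasDerivAt_signEntropy (yhyp_abs_tanh (φ + θ))).comp φ t1
  have s2 := (hasDerivAt_signEntropy (yhyp_abs_tanh (φ - θ))).comp φ t2
  have s3 := (hasDerivAt_signEntropy (yhyp_abs_M θ φ)).comp φ (yhyp_M_deriv θ φ)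
  have h := ((s1.add s2).div_const 2).sub (s3.const_mul e)
  refine HasDerivAt.congr_deriv h ?_
  rw [Real.artanh_tanh, Real.artanh_tanh, yhypGam]
  have p1 := Real.cosh_pos (2 * (φ + θ))
  have p2 := Real.cosh_pos (2 * (φ - θ))
  rw [mul_add, Real.cosh_add] at p1
  rw [mul_sub, Real.cosh_sub] at p2
  rw [mul_add 2 φ θ, mul_sub 2 φ θ, Real.cosh_add, Real.cosh_sub]
  have h1 := Real.cosh_pos (2 * φ)
  have h2 := Real.cosh_pos (2 * θ)
  have q1 := Real.cosh_sq' (2 * φ)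
  have q2 := Real.cosh_sq' (2 * θ)
  generalize Real.cosh (2 * φ) = X at *
  generalize Real.cosh (2 * θ) = T at *
  generalize Real.sinh (2 * φ) = S at *
  generalize Real.sinh (2 * θ) = U at *
  generalize Real.artanh (yhypM θ φ) = w at *
  have k : (X + T) ^ 2 = (1 + (X * T + S * U)) * (1 + (X * T - S * U)) := by
    have a : S ^ 2 = X ^ 2 - 1 := by linarith
    have b : U ^ 2 = T ^ 2 - 1 := by linarith
    have c : (1 + (X * T + S * U)) * (1 + (X * T - S * U)) = (1 + X * T) ^ 2 - S ^ 2 * U ^ 2 := by ring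
    rw [c, a, b]; ring
  rw [k]
  have n1 : 1 + (X * T + S * U) ≠ 0 := by positivity
  have n2 : 1 + (X * T - S * U) ≠ 0 := by positivity
  have n3 : 1 + X * T ≠ 0 := by positivity
  field_simp
  ring

theorem yhyp_Gam_deriv (θ φ : ℝ) : HasDerivAt (yhypGam θ (signEntropy (Real.tanh θ) / Real.log 2))
    (hypQ θ (Real.cosh (2 * φ) - 1) / ((1 + Real.cosh (2 * φ) * Real.cosh (2 * θ)) ^ 2 *
      (1 + 2 * Real.cosh (2 * φ) * Real.cosh (2 * θ) + Real.cosh (2 * θ) ^ 2))) φ := by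
  have h1 := Real.cosh_pos (2 * φ)
  have h2 := Real.cosh_pos (2 * θ)
  have a1 := (yhyp_sinh2 φ).fun_div (((yhyp_cosh2 φ).mul_const (Real.cosh (2 * θ))).const_add 1) (by positivity)
  have a2 := (hasDerivAt_artanh' (yhyp_abs_M θ φ)).comp φ (yhyp_M_deriv θ φ)
  have h := (((hasDerivAt_id φ).neg).add (a1.const_mul (θ * Real.sinh (2 * θ)))).add
    (a2.const_mul (signEntropy (Real.tanh θ) / Real.log 2))
  refine HasDerivAt.congr_deriv h ?_
  rw [hypQ, yhypM]
  have q1 := Real.cosh_sq' (2 * φ)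
  generalize signEntropy (Real.tanh θ) / Real.log 2 = e at *
  generalize Real.cosh (2 * φ) = X at *
  generalize Real.cosh (2 * θ) = T at *
  generalize Real.sinh (2 * φ) = S at *
  generalize Real.sinh (2 * θ) = U at *
  have a : S ^ 2 = X ^ 2 - 1 := by linarith
  have b : 1 - (S / (X + T)) ^ 2 = (1 + 2 * X * T + T ^ 2) / (X + T) ^ 2 := by
    rw [div_pow, a]; field_simp; ring
  have c : 2 * X * (1 + X * T) - S * (2 * S * T) = 2 * (X + T) := by
    linear_combination (-2 * T) * a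
  rw [b, c]
  field_simp
  ring

theorem yhyp_nonneg {θ φ : ℝ} (hθ : 0 ≤ θ) (hφ : 0 ≤ φ) :
    0 ≤ yhypG θ (signEntropy (Real.tanh θ) / Real.log 2) φ := by
  set e := signEntropy (Real.tanh θ) / Real.log 2 with he
  have hl : 0 < Real.log 2 := Real.log_pos one_lt_two
  have M0 : yhypM θ 0 = 0 := by simp [yhypM]
  have G0 : yhypG θ e 0 = 0 := by
    have h0 : signEntropy 0 = Real.log 2 := by
      have := psi_zero; unfold psi at this; linarith
    rw [yhypG, M0, zero_add, zero_sub, Real.tanh_neg, signEntropy_neg, h0, he]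
    field_simp
    ring
  have Γ0 : yhypGam θ e 0 = 0 := by simp [yhypGam, M0]
  have pos : ∀ φ, 0 < 2 * (1 + Real.cosh (2 * φ) * Real.cosh (2 * θ)) /
      (Real.cosh (2 * φ) + Real.cosh (2 * θ)) ^ 2 := fun φ => by
    have h1 := Real.cosh_pos (2 * φ)
    have h2 := Real.cosh_pos (2 * θ)
    positivity
  have pos2 : ∀ φ, 0 < (1 + Real.cosh (2 * φ) * Real.cosh (2 * θ)) ^ 2 *
      (1 + 2 * Real.cosh (2 * φ) * Real.cosh (2 * θ) + Real.cosh (2 * θ) ^ 2) := fun φ => by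
    have h1 := Real.cosh_pos (2 * φ)
    have h2 := Real.cosh_pos (2 * θ)
    positivity
  have cG : Continuous (yhypG θ e) := continuous_iff_continuousAt.2 fun x => (yhyp_G_deriv θ e x).continuousAt
  have cΓ : Continuous (yhypGam θ e) := continuous_iff_continuousAt.2 fun x => (yhyp_Gam_deriv θ x).continuousAt
  by_contra hneg
  rw [not_le] at hneg
  have hφ0 : 0 < φ := by
    rcases hφ.eq_or_lt with rfl | h
    · rw [G0] at hneg; exact absurd hneg (lt_irrefl _)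
    · exact h
  obtain ⟨φ1, hφ1, e1⟩ := exists_hasDerivAt_eq_slope (yhypG θ e) _ hφ0 cG.continuousOn
    fun x _ => yhyp_G_deriv θ e x
  have hΓ1 : yhypGam θ e φ1 < 0 := by
    rw [G0, sub_zero, sub_zero] at e1
    have : yhypG θ e φ / φ < 0 := div_neg_of_neg_of_pos hneg hφ0
    rw [← e1] at this
    exact neg_of_mul_neg_right this (pos φ1).le
  obtain ⟨φ2, hφ2, e2⟩ := exists_hasDerivAt_eq_slope (yhypGam θ e) _ hφ1.1 cΓ.continuousOn
    fun x _ => yhyp_Gam_deriv θ x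
  have hQ2 : hypQ θ (Real.cosh (2 * φ2) - 1) < 0 := by
    rw [Γ0, sub_zero, sub_zero] at e2
    have : yhypGam θ e φ1 / φ1 < 0 := div_neg_of_neg_of_pos hΓ1 hφ1.1
    rw [← e2, div_lt_iff₀ (pos2 φ2), zero_mul] at this
    exact this
  have hQ : ∀ x, φ2 ≤ x → hypQ θ (Real.cosh (2 * x) - 1) < 0 := fun x hx => by
    refine hypQ_sign hθ (sub_nonneg.2 (Real.one_le_cosh _)) (sub_le_sub_right ?_ 1) hQ2
    rw [Real.cosh_le_cosh, abs_of_nonneg (by linarith [hφ2.1]), abs_of_nonneg (by linarith [hφ2.1])]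
    linarith
  have aΓ : AntitoneOn (yhypGam θ e) (Ici φ1) := by
    refine antitoneOn_of_deriv_nonpos (convex_Ici _) cΓ.continuousOn
      (fun x _ => (yhyp_Gam_deriv θ x).differentiableAt.differentiableWithinAt) fun x hx => ?_
    rw [interior_Ici] at hx
    rw [(yhyp_Gam_deriv θ x).deriv]
    exact (div_neg_of_neg_of_pos (hQ x (hφ2.2.le.trans (le_of_lt hx))) (pos2 x)).le
  have aG : AntitoneOn (yhypG θ e) (Ici φ1) := by
    refine antitoneOn_of_deriv_nonpos (convex_Ici _) cG.continuousOn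
      (fun x _ => (yhyp_G_deriv θ e x).differentiableAt.differentiableWithinAt) fun x hx => ?_
    rw [interior_Ici] at hx
    rw [(yhyp_G_deriv θ e x).deriv]
    exact mul_nonpos_of_nonneg_of_nonpos (pos x).le
      ((aΓ (mem_Ici.2 le_rfl) (mem_Ici.2 (mem_Ioi.1 hx).le) (mem_Ioi.1 hx).le).trans hΓ1.le)
  have l1 : Filter.Tendsto (fun x => Real.tanh (x + θ)) Filter.atTop (nhds 1) :=
    yhyp_tanh_lim.comp (Filter.tendsto_atTop_add_const_right _ θ Filter.tendsto_id)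
  have l2 : Filter.Tendsto (fun x => Real.tanh (x - θ)) Filter.atTop (nhds 1) :=
    yhyp_tanh_lim.comp (Filter.tendsto_atTop_add_const_right _ (-θ) Filter.tendsto_id)
  have l3 : Filter.Tendsto (yhypM θ) Filter.atTop (nhds 1) := by
    have := (l1.add l2).div_const 2
    simp only [yhyp_mean] at this
    rwa [show ((1 : ℝ) + 1) / 2 = 1 by norm_num] at this
  have h1 : signEntropy 1 = 0 := by
    have := psi_one; unfold psi at this; linarith
  have hc : Filter.Tendsto signEntropy (nhds 1) (nhds 0) := by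
    rw [← h1]; exact continuous_signEntropy.tendsto 1
  have l4 : Filter.Tendsto (yhypG θ e) Filter.atTop (nhds ((0 + 0) / 2 - e * 0)) :=
    (((hc.comp l1).add (hc.comp l2)).div_const 2).sub ((hc.comp l3).const_mul e)
  have := le_of_tendsto l4 (b := yhypG θ e φ) (by
    filter_upwards [Filter.eventually_ge_atTop φ] with x hx
    exact aG hφ1.2.le (hφ1.2.le.trans hx) hx)
  norm_num at this
  linarith

/-- `μ φ = (tanh(φ+θ) + tanh(φ-θ))/2 = sinh 2φ/(X+T)`, `X = cosh 2φ`; `G φ = (H(tanh(φ+θ)) + H(tanh(φ-θ)))/2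
- e H(μ φ)` is even, `G 0 = 0`, `G → 0` at `∞`, `G' = μ' Γ` with `μ' = 2(1+XT)/(X+T)² > 0`,
`Γ φ = -φ + θ sinh 2θ sinh 2φ/(1+XT) + e artanh (μ φ)`, `Γ 0 = 0`,
`Γ' = hypQ θ (X-1) / ((1+XT)² (1+2XT+T²))`, using `1 - μ² = (1+2XT+T²)/(X+T)²`. If `G φ0 < 0` then `Γ φ1 < 0` for
some `φ1 < φ0`, `Γ' φ2 < 0` for some `φ2 < φ1`, so `Γ < 0` on `[φ1, ∞)` and `G ≤ G φ0 < 0` on `[φ0, ∞)`. -/
theorem hyp_main (φ θ : ℝ) (hθ : 0 ≤ θ) :
    signEntropy ((Real.tanh (φ + θ) + Real.tanh (φ - θ)) / 2) * signEntropy (Real.tanh θ) ≤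
      Real.log 2 * ((signEntropy (Real.tanh (φ + θ)) + signEntropy (Real.tanh (φ - θ))) / 2) := by
  have hl : 0 < Real.log 2 := Real.log_pos one_lt_two
  have key : ∀ φ : ℝ, 0 ≤ φ →
      signEntropy ((Real.tanh (φ + θ) + Real.tanh (φ - θ)) / 2) * signEntropy (Real.tanh θ) ≤
      Real.log 2 * ((signEntropy (Real.tanh (φ + θ)) + signEntropy (Real.tanh (φ - θ))) / 2) := fun φ hφ => by
    have h := yhyp_nonneg hθ hφ
    rw [yhypG, sub_nonneg, div_mul_eq_mul_div, div_le_iff₀ hl] at h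
    rw [yhyp_mean]
    linarith
  rcases le_total 0 φ with h | h
  · exact key φ h
  · have h1 := key (-φ) (neg_nonneg.2 h)
    rw [show -φ + θ = -(φ - θ) by ring, show -φ - θ = -(φ + θ) by ring, Real.tanh_neg, Real.tanh_neg,
      signEntropy_neg, signEntropy_neg,
      show (-Real.tanh (φ - θ) + -Real.tanh (φ + θ)) / 2 = -((Real.tanh (φ + θ) + Real.tanh (φ - θ)) / 2) by ring,
      signEntropy_neg] at h1
    linarith

end Crest.Agent.R307
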