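import Crest.Agent.R307.YSer

/-!
# R307/YHypQ: the cubic
-/

set_option autoImplicit false

namespace Crest.Agent.R307

open Crest.CubeNoise Set

/-- The cubic whose sign is the sign of the second derivative (`x = cosh 2φ - 1`). -/
noncomputable def hypQ (θ x : ℝ) : ℝ :=
  (2 * θ * Real.sinh (2 * θ) * (1 + Real.cosh (2 * θ) + x) - (1 + Real.cosh (2 * θ) + Real.cosh (2 * θ) * x) ^ 2) *
      ((1 + Real.cosh (2 * θ)) ^ 2 + 2 * Real.cosh (2 * θ) * x) +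
    2 * (signEntropy (Real.tanh θ) / Real.log 2) * (1 + Real.cosh (2 * θ) + Real.cosh (2 * θ) * x) ^ 3

theorem hypQ_cubic {q0 q1 q2 q3 x y : ℝ} (h0 : 0 ≤ q0) (h2 : q2 ≤ 0) (h3 : q3 ≤ 0) (hx : 0 ≤ x) (hxy : x ≤ y)
    (h : q0 + q1 * x + q2 * x ^ 2 + q3 * x ^ 3 < 0) : q0 + q1 * y + q2 * y ^ 2 + q3 * y ^ 3 < 0 := by
  have hx0 : 0 < x := by
    rcases hx.eq_or_lt with e | e
    · subst e
      simp at h
      linarith
    · exact e
  have hy0 : 0 < y := hx0.trans_le hxy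
  have hd : 0 ≤ y - x := sub_nonneg.2 hxy
  have a0 : 0 ≤ q0 * (y - x) := mul_nonneg h0 hd
  have a2 : 0 ≤ -q2 * (x * y * (y - x)) := mul_nonneg (neg_nonneg.2 h2) (by positivity)
  have a3 : 0 ≤ -q3 * (x * y * (y - x) * (y + x)) := mul_nonneg (neg_nonneg.2 h3) (by positivity)
  have a4 : y * (q0 + q1 * x + q2 * x ^ 2 + q3 * x ^ 3) < 0 := mul_neg_of_pos_of_neg hy0 h
  have a5 : x * (q0 + q1 * y + q2 * y ^ 2 + q3 * y ^ 3) < 0 := by nlinarith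
  by_contra hc
  exact absurd a5 (not_lt.2 (mul_nonneg hx (not_lt.1 hc)))

theorem hypQ_alg {θ r k e x y : ℝ} (hr : 0 ≤ r) (hk : 1 ≤ k) (hrk : r ^ 2 * k = k - 1) (h1 : r ≤ θ)
    (h2 : θ ≤ r * k) (he1 : 1 - r ^ 2 ≤ e) (he2 : 6 * e ≤ 6 - 4 * r ^ 2) (hx : 0 ≤ x) (hxy : x ≤ y)
    (h : (2 * θ * (2 * r * k) * (1 + (2 * k - 1) + x) - (1 + (2 * k - 1) + (2 * k - 1) * x) ^ 2) *
      ((1 + (2 * k - 1)) ^ 2 + 2 * (2 * k - 1) * x) + 2 * e * (1 + (2 * k - 1) + (2 * k - 1) * x) ^ 3 < 0) :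
    (2 * θ * (2 * r * k) * (1 + (2 * k - 1) + y) - (1 + (2 * k - 1) + (2 * k - 1) * y) ^ 2) *
      ((1 + (2 * k - 1)) ^ 2 + 2 * (2 * k - 1) * y) + 2 * e * (1 + (2 * k - 1) + (2 * k - 1) * y) ^ 3 < 0 := by
  have hk0 : 0 < k := by linarith
  have b0 : 0 ≤ 4 * θ * r * k - 2 * k + 2 * e := by
    have c1 : r * (r * k) ≤ θ * (r * k) := mul_le_mul_of_nonneg_right h1 (by positivity)
    have c2 : 0 ≤ k * (k - 1 - r ^ 2) := by nlinarith [sq_nonneg (k - 1)]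
    have c3 : 0 ≤ k - 1 - r ^ 2 := by
      by_contra hc
      exact absurd c2 (not_le.2 (mul_neg_of_pos_of_neg hk0 (not_le.1 hc)))
    nlinarith
  have b2 : 4 * θ * r + (2 * k - 1) * (6 * e - 2 * k - 4) ≤ 0 := by
    have c1 : θ * r ≤ r * k * r := mul_le_mul_of_nonneg_right h2 hr
    have c2 : (2 * k - 1) * (6 * e - 2 * k - 4) ≤ (2 * k - 1) * (-4 * r ^ 2) :=
      mul_le_mul_of_nonneg_left (by linarith) (by linarith)
    have c3 : 0 ≤ (k - 1) * r ^ 2 := mul_nonneg (by linarith) (sq_nonneg r)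
    nlinarith
  have b3 : e ≤ 1 := by nlinarith [sq_nonneg r]
  have hT : 0 < 2 * k - 1 := by linarith
  have key := hypQ_cubic (q0 := (2 * k) ^ 3 * (4 * θ * r * k - 2 * k + 2 * e))
    (q1 := 2 * (2 * k - 1) * (4 * θ * r * k * (2 * k) - (2 * k) ^ 2) +
      (2 * k) ^ 2 * (4 * θ * r * k - 2 * (2 * k) * (2 * k - 1)) + 6 * e * (2 * k) ^ 2 * (2 * k - 1))
    (q2 := (2 * k - 1) * (2 * k) * (4 * θ * r + (2 * k - 1) * (6 * e - 2 * k - 4)))
    (q3 := 2 * (2 * k - 1) ^ 3 * (e - 1)) (x := x) (y := y) (mul_nonneg (by positivity) b0)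
    (mul_nonpos_of_nonneg_of_nonpos (by positivity) b2)
    (mul_nonpos_of_nonneg_of_nonpos (by positivity) (by linarith)) hx hxy (by convert h using 1; ring)
  convert key using 1
  ring

/-- `T = cosh 2θ`, `A = 1 + T`, `c = 2θ sinh 2θ`, `e = H(tanh θ)/log 2 ∈ [1 - r², 1 - r²/(2 log 2)]`, `r = tanh θ`.
Coefficients: `x⁰ : A³ (c - A + 2e) ≥ 0` (divide by `2cosh²θ`: `2θ r + e (1 - r²) ≥ 1`, `θ ≥ r`);
`x² : T (2c + 6 e A T - T A² - 4 A T) ≤ 0` (divide by `A T²`: `4 θ r / T + 6 e ≤ T + 5`, `θ (1 - r²) ≤ r`,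
`T = (1 + r²)/(1 - r²)`); `x³ : -2T³(1 - e) ≤ 0`. So `hypQ θ` is concave on `[0,∞)`, nonnegative at `0`. -/
theorem hypQ_sign {θ x y : ℝ} (hθ : 0 ≤ θ) (hx : 0 ≤ x) (hxy : x ≤ y) (h : hypQ θ x < 0) : hypQ θ y < 0 := by
  have hC : 0 < Real.cosh θ := Real.cosh_pos θ
  have hS : 0 ≤ Real.sinh θ := Real.sinh_nonneg_iff.2 hθ
  have hCS : Real.cosh θ ^ 2 = Real.sinh θ ^ 2 + 1 := Real.cosh_sq θ
  have hr : Real.tanh θ = Real.sinh θ / Real.cosh θ := Real.tanh_eq_sinh_div_cosh θ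
  have hr0 : 0 ≤ Real.tanh θ := by rw [hr]; positivity
  have hr1 : Real.tanh θ < 1 := Real.tanh_lt_one θ
  have hra : |Real.tanh θ| ≤ 1 := by rw [abs_of_nonneg hr0]; exact hr1.le
  have hk : 1 ≤ Real.cosh θ ^ 2 := by nlinarith [sq_nonneg (Real.sinh θ)]
  have hrk : Real.tanh θ ^ 2 * Real.cosh θ ^ 2 = Real.cosh θ ^ 2 - 1 := by
    rw [hr, div_pow, div_mul_cancel₀ _ (by positivity)]
    linarith
  have e1 : Real.cosh (2 * θ) = 2 * Real.cosh θ ^ 2 - 1 := by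
    rw [Real.cosh_two_mul]
    linarith
  have e2 : Real.sinh (2 * θ) = 2 * Real.tanh θ * Real.cosh θ ^ 2 := by
    rw [Real.sinh_two_mul, hr]
    field_simp
  have h1 : Real.tanh θ ≤ θ := by
    have := le_artanh hr0 hr1
    rwa [Real.artanh_tanh] at this
  have h2 : θ ≤ Real.tanh θ * Real.cosh θ ^ 2 := by
    have := artanh_le_div hr0 hr1
    rw [Real.artanh_tanh] at this
    have e : Real.tanh θ / (1 - Real.tanh θ ^ 2) = Real.tanh θ * Real.cosh θ ^ 2 := by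
      have h0 : 0 < 1 - Real.tanh θ ^ 2 := by nlinarith
      rw [div_eq_iff h0.ne']
      have : Real.cosh θ ^ 2 * (1 - Real.tanh θ ^ 2) = 1 := by linarith
      rw [mul_assoc, this, mul_one]
    rwa [e] at this
  have hl : 0 < Real.log 2 := Real.log_pos (by norm_num)
  have hl2 : Real.log 2 < 0.6931471808 := Real.log_two_lt_d9
  have p1 := psi_le_sq hra
  have p2 := psi_ge hra
  unfold psi at p1 p2
  have he1 : 1 - Real.tanh θ ^ 2 ≤ signEntropy (Real.tanh θ) / Real.log 2 := by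
    rw [le_div_iff₀ hl]
    linarith
  have he2 : 6 * (signEntropy (Real.tanh θ) / Real.log 2) ≤ 6 - 4 * Real.tanh θ ^ 2 := by
    rw [← mul_div_assoc, div_le_iff₀ hl]
    have a1 : 0 ≤ Real.tanh θ ^ 4 := by positivity
    have a2 : 0 ≤ Real.tanh θ ^ 6 := by positivity
    have a3 : Real.tanh θ ^ 2 * Real.log 2 ≤ Real.tanh θ ^ 2 * (3 / 4) :=
      mul_le_mul_of_nonneg_left (by linarith) (sq_nonneg _)
    nlinarith
  unfold hypQ at h ⊢
  rw [e1, e2] at h ⊢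
  exact hypQ_alg hr0 hk hrk h1 h2 he1 he2 hx hxy h

end Crest.Agent.R307
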