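import Crest.Agent.R307.YS

/-!
# R307/YLo: lower bound for the second derivative of S
-/

set_option autoImplicit false

namespace Crest.Agent.R307

open Crest.CubeNoise Set

theorem ylo_series {x : ℝ} (hx : 0 ≤ x) : x ^ 3 / 3 + x ^ 5 / 30 ≤ x * Real.cosh x - Real.sinh x := by
  have h := ((Real.hasSum_cosh x).mul_left x).sub (Real.hasSum_sinh x)
  have h2 := sum_le_hasSum (Finset.range 3) (fun k _ => by
    have e : x * (x ^ (2 * k) / ((2 * k).factorial : ℝ)) = x ^ (2 * k + 1) / ((2 * k).factorial : ℝ) := by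
      rw [pow_succ]
      ring
    rw [e, sub_nonneg]
    exact div_le_div_of_nonneg_left (pow_nonneg hx _) (by exact_mod_cast Nat.factorial_pos _)
      (by exact_mod_cast Nat.factorial_le (Nat.le_succ _))) h
  simp only [Finset.sum_range_succ, Finset.sum_range_zero] at h2
  norm_num [Nat.factorial] at h2
  linarith

theorem ylo_psi_le {r : ℝ} (h0 : 0 ≤ r) (h1 : r < 1) : psi r ≤ Real.artanh r ^ 2 / 2 := by
  have hd : ∀ u ∈ Icc (0 : ℝ) r, HasDerivAt (fun u => Real.artanh u ^ 2 / 2 - psi u)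
      (Real.artanh u * (1 / (1 - u ^ 2) - 1)) u := by
    intro u hu
    have hu' : |u| < 1 := by
      rw [abs_of_nonneg hu.1]
      exact hu.2.trans_lt h1
    refine ((((hasDerivAt_artanh' hu').pow 2).div_const 2).sub (hasDerivAt_psi hu')).congr_deriv ?_
    simp
    ring
  have hm : MonotoneOn (fun u => Real.artanh u ^ 2 / 2 - psi u) (Icc 0 r) :=
    monotoneOn_of_deriv_nonneg (convex_Icc _ _) (fun u hu => (hd u hu).continuousAt.continuousWithinAt)
      (fun u hu => (hd u (interior_subset hu)).differentiableAt.differentiableWithinAt) fun u hu => by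
        have hu' := interior_subset hu
        rw [(hd u hu').deriv]
        have p : 0 < 1 - u ^ 2 := by nlinarith [hu'.1, hu'.2]
        refine mul_nonneg (Real.artanh_nonneg hu'.1) (sub_nonneg.2 ?_)
        rw [le_div_iff₀ p]
        nlinarith [sq_nonneg u]
  have := hm (left_mem_Icc.2 h0) (right_mem_Icc.2 h0) h0
  simp only [Real.artanh_zero, psi_zero] at this
  linarith

/-- With `a = artanh r`: `(1 + r²) a - r ≥ (2/3 r³ + ...)`; in `θ = a`:
`q' / ψ' = cosh²θ (2θ cosh 2θ - sinh 2θ) / (2θ³) ≥ (1 + θ²)(4/3 + 8θ²/15) ≥ 4/3 + 1.8 θ²`, and `ψ ≤ θ²/2`. -/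
theorem lo_deriv {r : ℝ} (h0 : 0 < r) (h1 : r < 1) : (4 / 3 + 18 / 5 * psi r) * Real.artanh r ≤
    ((1 + r ^ 2) * Real.artanh r - r) / ((1 - r ^ 2) ^ 2 * Real.artanh r ^ 2) := by
  have hp := ylo_psi_le h0.le h1
  have hθ : 0 < Real.artanh r := Real.artanh_pos ⟨h0, h1⟩
  have ht : Real.tanh (Real.artanh r) = r := Real.tanh_artanh ⟨by linarith, h1⟩
  generalize psi r = p at hp ⊢
  generalize Real.artanh r = θ at *
  have hc := Real.cosh_pos θ
  have hs := ylo_series (x := 2 * θ) (by linarith)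
  rw [Real.cosh_two_mul, Real.sinh_two_mul] at hs
  have hcs := Real.cosh_sq θ
  have hθs : θ ≤ Real.sinh θ := Real.self_le_sinh_iff.2 hθ.le
  rw [Real.tanh_eq_sinh_div_cosh] at ht
  generalize Real.cosh θ = c at *
  generalize Real.sinh θ = s at *
  subst ht
  have e1 : 1 - (s / c) ^ 2 = 1 / c ^ 2 := by
    field_simp
    linarith
  have e2 : ((1 + (s / c) ^ 2) * θ - s / c) / ((1 / c ^ 2) ^ 2 * θ ^ 2) =
      c ^ 2 * ((c ^ 2 + s ^ 2) * θ - s * c) / θ ^ 2 := by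
    field_simp
  rw [e1, e2, le_div_iff₀ (by positivity)]
  have k1 : 1 + θ ^ 2 ≤ c ^ 2 := by nlinarith
  have k2 : θ ^ 3 * (4 / 3 + 8 / 15 * θ ^ 2) ≤ (c ^ 2 + s ^ 2) * θ - s * c := by nlinarith
  have k3 := mul_le_mul k1 k2 (by positivity) (by positivity)
  have k4 : (4 / 3 + 18 / 5 * p) * θ ^ 3 ≤ (4 / 3 + 9 / 5 * θ ^ 2) * θ ^ 3 :=
    mul_le_mul_of_nonneg_right (by linarith) (by positivity)
  have k5 : 0 ≤ θ ^ 5 := by positivity
  have k6 : 0 ≤ θ ^ 7 := by positivity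
  nlinarith

theorem lo_mono : MonotoneOn (fun r => qq r - 4 / 3 * psi r - 9 / 5 * psi r ^ 2) (Ico 0 1) := by
  have hi : interior (Ico (0 : ℝ) 1) = Ioo 0 1 := interior_Ico
  have hd : ∀ u ∈ Ioo (0 : ℝ) 1, HasDerivAt (fun r => qq r - 4 / 3 * psi r - 9 / 5 * psi r ^ 2)
      (((1 + u ^ 2) * Real.artanh u - u) / ((1 - u ^ 2) ^ 2 * Real.artanh u ^ 2) -
        (4 / 3 + 18 / 5 * psi u) * Real.artanh u) u := by
    intro u hu
    have hu' : |u| < 1 := by
      rw [abs_of_nonneg hu.1.le]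
      exact hu.2
    refine (((hasDerivAt_qq hu.1 hu.2).sub ((hasDerivAt_psi hu').const_mul (4 / 3))).sub
      (((hasDerivAt_psi hu').pow 2).const_mul (9 / 5))).congr_deriv ?_
    simp
    ring
  refine monotoneOn_of_deriv_nonneg (convex_Ico _ _)
    ((continuousOn_qq.sub (continuous_const.mul continuous_psi).continuousOn).sub
      (continuous_const.mul (continuous_psi.pow 2)).continuousOn) (fun u hu => ?_) fun u hu => ?_
  · rw [hi] at hu ⊢
    exact (hd u hu).differentiableAt.differentiableWithinAt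
  · rw [hi] at hu
    rw [(hd u hu).deriv]
    exact sub_nonneg.2 (lo_deriv hu.1 hu.2)

/-- `T J = SS J - 2/3 J² - 3/5 J³` is convex on `[0, log 2)` (`hasDerivAt_SS`, `lo_mono`) with `T 0 = 0`,
so `T j ≤ Y T (j / Y)`. -/
theorem SS_persp {j Y : ℝ} (hj : 0 ≤ j) (hY : 0 < Y) (hY1 : Y ≤ 1) (h : j / Y < Real.log 2) :
    SS j + 2 / 3 * j ^ 2 * (1 / Y - 1) + 3 / 5 * j ^ 3 * (1 / Y ^ 2 - 1) ≤ Y * SS (j / Y) := by
  have hd : ∀ J ∈ Ico (0 : ℝ) (Real.log 2), HasDerivAt (fun J => SS J - 2 / 3 * J ^ 2 - 3 / 5 * J ^ 3)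
      (SD J - 4 / 3 * J - 9 / 5 * J ^ 2) J := by
    intro J hJ
    refine (((hasDerivAt_SS hJ.2).sub (((hasDerivAt_id J).pow 2).const_mul (2 / 3))).sub
      (((hasDerivAt_id J).pow 3).const_mul (3 / 5))).congr_deriv ?_
    simp
    ring
  have hv : ∀ J ∈ Ico (0 : ℝ) (Real.log 2), SD J - 4 / 3 * J - 9 / 5 * J ^ 2 =
      qq (pinv J) - 4 / 3 * psi (pinv J) - 9 / 5 * psi (pinv J) ^ 2 := by
    intro J hJ
    obtain ⟨a1, a2⟩ := pinv_mem hJ.1 hJ.2
    rw [← SD_psi a1.1 a1.2, a2]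
  have hc : ConvexOn ℝ (Ico (0 : ℝ) (Real.log 2)) fun J => SS J - 2 / 3 * J ^ 2 - 3 / 5 * J ^ 3 := by
    refine MonotoneOn.convexOn_of_deriv (convex_Ico _ _) (fun J hJ => (hd J hJ).continuousAt.continuousWithinAt)
      (fun J hJ => (hd J (interior_subset hJ)).differentiableAt.differentiableWithinAt) fun a ha b hb hab => ?_
    have ha' := interior_subset ha
    have hb' := interior_subset hb
    rw [(hd a ha').deriv, (hd b hb').deriv, hv a ha', hv b hb']
    exact lo_mono (pinv_mem ha'.1 ha'.2).1 (pinv_mem hb'.1 hb'.2).1 (pinv_mono ha' hb' hab)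
  have h2 := hc.2 (x := j / Y) (y := 0) ⟨div_nonneg hj hY.le, h⟩ ⟨le_rfl, Real.log_pos one_lt_two⟩ hY.le
    (sub_nonneg.2 hY1) (by ring)
  have e : Y * (j / Y) = j := by field_simp
  simp only [smul_eq_mul, mul_zero, add_zero, e, SS_nonpos le_rfl] at h2
  have e2 : Y * (SS (j / Y) - 2 / 3 * (j / Y) ^ 2 - 3 / 5 * (j / Y) ^ 3) =
      Y * SS (j / Y) - 2 / 3 * j ^ 2 * (1 / Y) - 3 / 5 * j ^ 3 * (1 / Y ^ 2) := by
    field_simp
  rw [e2] at h2
  norm_num at h2 ⊢
  linarith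

end Crest.Agent.R307
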