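import Crest.Agent.R307.YS

/-!
# R307/YThr: the threshold
-/

set_option autoImplicit false

namespace Crest.Agent.R307

open Crest.CubeNoise Set

theorem thr_artanh : Real.artanh (19 / 25) ≤ 997 / 1000 := by
  refine (artanh_le (r := 19 / 25) (by norm_num) (by norm_num) 6).trans ?_
  simp only [Finset.sum_range_succ, Finset.sum_range_zero]
  norm_num

theorem thr_psi_ge : 326 / 1000 ≤ psi (19 / 25) := by
  refine le_trans ?_ (psi_ge_sum (r := 19 / 25) (by rw [abs_of_pos] <;> norm_num) 6)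
  simp only [Finset.sum_range_succ, Finset.sum_range_zero]
  norm_num

theorem thr_psi_le : psi (19 / 25) ≤ 33 / 100 := by
  rw [psi_eq (by rw [abs_of_pos] <;> norm_num)]
  have h1 : Real.log (1 - (19 / 25 : ℝ) ^ 2) ≤ Real.log ((9588 / 10000 : ℝ) ^ 4 / 2) :=
    Real.log_le_log (by norm_num) (by norm_num)
  rw [Real.log_div (by norm_num) (by norm_num), Real.log_pow] at h1
  have h2 := Real.log_le_sub_one_of_pos (x := 9588 / 10000) (by norm_num)
  have h3 := Real.log_two_gt_d9
  have h4 := thr_artanh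
  push_cast at h1
  linarith

theorem thr_qq : 8046 / 10000 ≤ qq (19 / 25) := by
  have h1 := le_artanh (r := 19 / 25) (by norm_num) (by norm_num)
  have h2 := thr_artanh
  unfold qq
  rw [if_neg (by norm_num), le_sub_iff_add_le, le_div_iff₀ (by nlinarith)]
  nlinarith

/-- `r ↦ qq r (1/2 - H r) - St r` has derivative `qq' (1/2 - H r) ≥ 0` on `[0.76, 1)` and is `0.0026 > 0` at `0.76`;
`ψ 0.76 = 0.3262 < 0.33`. -/
theorem thr_num {r : ℝ} (h0 : 0 ≤ r) (h1 : r < 1) (h : 33 / 100 ≤ psi r) : St r ≤ qq r * (1 / 2 - signEntropy r) := by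
  have hL : ∀ s : ℝ, 0 ≤ s → s < 1 → psi s < Real.log 2 := by
    intro s s0 s1
    have := signEntropy_pos (r := s) (by rwa [abs_of_nonneg s0])
    unfold psi
    linarith
  have hr : 19 / 25 ≤ r := by
    by_contra hc
    have := strictMonoOn_psi ⟨h0, h1.le⟩ (show (19 / 25 : ℝ) ∈ Icc (0 : ℝ) 1 by constructor <;> norm_num)
      (not_le.1 hc)
    linarith [thr_psi_le]
  have ht := SS_tan (hL (19 / 25) (by norm_num) (by norm_num)) (hL r h0 h1)
  rw [SS_psi h0 h1, SD_psi h0 h1, SS_psi (by norm_num) (by norm_num)] at ht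
  have hq : 8046 / 10000 ≤ qq r :=
    thr_qq.trans (qq_mono (show (19 / 25 : ℝ) ∈ Ico (0 : ℝ) 1 by constructor <;> norm_num) ⟨h0, h1⟩ hr)
  have e : 1 / 2 - signEntropy r = psi r - (Real.log 2 - 1 / 2) := by unfold psi; ring
  have h3 := Real.log_two_lt_d9
  have h4 := thr_artanh
  have h5 := thr_psi_ge
  have h6 : St (19 / 25) ≤ 19 / 25 * (997 / 1000) - 2 * (326 / 1000) := by unfold St; linarith
  have h7 : 8046 / 10000 * (1328 / 10000) ≤ qq r * (psi (19 / 25) - (Real.log 2 - 1 / 2)) :=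
    mul_le_mul hq (by linarith) (by norm_num) (by linarith)
  rw [e]
  linarith

/-- `I = ψ r`, `SS_tan` at `I`: `w log 2 - A - w I = ψ m - m² H r ≥ m² (1/2 - H r)`. -/
theorem thr {m A : ℝ} (hm : |m| < 1) (hA : 0 < A) (h : 33 / 100 ≤ signEntropy m - A) :
    SS (signEntropy m - A) ≤ PP (1 - m ^ 2) A := by
  set I := signEntropy m - A with hI
  have hIL : I < Real.log 2 := by linarith [signEntropy_le m]
  obtain ⟨⟨r0, r1⟩, hr⟩ := pinv_mem (J := I) (by linarith) hIL
  set r := pinv I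
  have hm2 : m ^ 2 < 1 := by
    rw [← sq_abs]
    nlinarith [abs_nonneg m]
  have hw : 0 < 1 - m ^ 2 := by linarith
  have hJ : Real.log 2 - A / (1 - m ^ 2) < Real.log 2 := by
    have := div_pos hA hw
    linarith
  have ht := SS_tan hJ hIL
  have e1 : SS I = St r := by rw [← hr, SS_psi r0 r1]
  have e2 : SD I = qq r := by rw [← hr, SD_psi r0 r1]
  have hn := thr_num r0 r1 (by linarith)
  have hq := qq_nonneg r0 r1
  have hp : m ^ 2 / 2 ≤ psi m := by
    have := psi_ge hm.le
    have h4 : 0 ≤ m ^ 4 := by positivity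
    have h6 : 0 ≤ m ^ 6 := by positivity
    linarith
  rw [e1, e2] at ht
  rw [e1]
  unfold PP
  have h2 := mul_le_mul_of_nonneg_left ht hw.le
  have e3 : (1 - m ^ 2) * (Real.log 2 - A / (1 - m ^ 2) - I) = psi m - m ^ 2 * signEntropy r := by
    have a1 : signEntropy r = Real.log 2 - I := by rw [← hr]; unfold psi; ring
    have a2 : psi m = Real.log 2 - I - A := by unfold psi; rw [hI]; ring
    rw [a1, a2]
    field_simp
    ring
  have h3 : m ^ 2 * St r ≤ qq r * (psi m - m ^ 2 * signEntropy r) := by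
    have a1 := mul_le_mul_of_nonneg_left hn (sq_nonneg m)
    have a2 := mul_le_mul_of_nonneg_left hp hq
    nlinarith
  rw [← e3] at h3
  nlinarith

end Crest.Agent.R307
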