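import Crest.Agent.R307.YOne
import Crest.Agent.R307.YGap
import Crest.Agent.R307.YB
import Crest.Agent.R307.YThr
import Crest.Agent.R307.YF

/-!
# R307/YMain: the two inductions
-/

set_option autoImplicit false

namespace Crest.Agent.R307

open Crest.CubeNoise Set

variable {n : ℕ}

/-- Jensen for the perspective, from `SS_tan` at `J0 = E j / E y`. -/
theorem persp_avg (y j : (Fin n → Bool) → ℝ) (hy : ∀ x, 0 < y x) (h : ∀ x, j x / y x < Real.log 2) :
    cubeAverage y * SS (cubeAverage j / cubeAverage y) ≤ cubeAverage fun x => y x * SS (j x / y x) := by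
  have hY : 0 < cubeAverage y := by simpa [avg_const] using avg_lt (f := fun _ => 0) hy
  have hJ : cubeAverage j / cubeAverage y < Real.log 2 := by
    rw [div_lt_iff₀ hY, ← avg_mul]
    exact avg_lt fun x => (div_lt_iff₀ (hy x)).1 (h x)
  have h1 : ∀ x, (SS (cubeAverage j / cubeAverage y) - SD (cubeAverage j / cubeAverage y) *
      (cubeAverage j / cubeAverage y)) * y x + SD (cubeAverage j / cubeAverage y) * j x ≤ y x * SS (j x / y x) := by
    intro x
    have h2 := mul_le_mul_of_nonneg_left (SS_tan (h x) hJ) (hy x).le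
    have h3 : y x * (j x / y x) = j x := mul_div_cancel₀ _ (hy x).ne'
    refine le_of_eq_of_le ?_ h2
    linear_combination (-SD (cubeAverage j / cubeAverage y)) * h3
  have h2 := avg_mono h1
  rw [avg_add, avg_mul, avg_mul] at h2
  have h3 : cubeAverage j / cubeAverage y * cubeAverage y = cubeAverage j := div_mul_cancel₀ _ hY.ne'
  refine le_of_eq_of_le ?_ h2
  linear_combination (SD (cubeAverage j / cubeAverage y)) * h3

theorem PP_avg {y0 y1 A0 A1 : ℝ} (h0 : 0 < y0) (h1 : 0 < y1) (g0 : 0 < A0) (g1 : 0 < A1) :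
    PP ((y0 + y1) / 2) ((A0 + A1) / 2) ≤ (PP y0 A0 + PP y1 A1) / 2 := by
  have hy : 0 < (y0 + y1) / 2 := by linarith
  have hJ : Real.log 2 - (A0 + A1) / 2 / ((y0 + y1) / 2) < Real.log 2 := sub_lt_self _ (by positivity)
  have a0 := mul_le_mul_of_nonneg_left (SS_tan (sub_lt_self (Real.log 2) (div_pos g0 h0)) hJ) h0.le
  have a1 := mul_le_mul_of_nonneg_left (SS_tan (sub_lt_self (Real.log 2) (div_pos g1 h1)) hJ) h1.le
  have e0 : y0 * (A0 / y0) = A0 := mul_div_cancel₀ _ h0.ne'
  have e1 : y1 * (A1 / y1) = A1 := mul_div_cancel₀ _ h1.ne'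
  have e2 : (y0 + y1) / 2 * ((A0 + A1) / 2 / ((y0 + y1) / 2)) = (A0 + A1) / 2 := mul_div_cancel₀ _ hy.ne'
  unfold PP
  generalize (A0 + A1) / 2 / ((y0 + y1) / 2) = t at *
  have e3 : y0 * (SS (Real.log 2 - t) + SD (Real.log 2 - t) * (Real.log 2 - A0 / y0 - (Real.log 2 - t))) +
      y1 * (SS (Real.log 2 - t) + SD (Real.log 2 - t) * (Real.log 2 - A1 / y1 - (Real.log 2 - t))) =
      (y0 + y1) * SS (Real.log 2 - t) := by
    linear_combination (-SD (Real.log 2 - t)) * e0 + (-SD (Real.log 2 - t)) * e1 + (2 * SD (Real.log 2 - t)) * e2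
  linarith

theorem ymain_sq {m : ℝ} (h : |m| < 1) : 0 < 1 - m ^ 2 := by
  have := pow_lt_one₀ (abs_nonneg m) h two_ne_zero
  rw [sq_abs] at this
  linarith

theorem ymain_H {m : ℝ} (h : |m| < 1) : Real.log 2 * (1 - m ^ 2) ≤ signEntropy m := by
  have := psi_le_sq h.le
  unfold psi at this
  linarith

theorem ymain_A {g : (Fin n → Bool) → ℝ} (hg : ∀ x, |g x| < 1) : 0 < cubeAverage fun x => signEntropy (g x) := by
  simpa [avg_const] using avg_lt (f := fun _ => 0) fun x => signEntropy_pos (hg x)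

theorem ymain_abs {u v : ℝ} (hu : |u| < 1) (hv : |v| < 1) : |(u + v) / 2| + |(u - v) / 2| < 1 := by
  obtain ⟨a, b⟩ := abs_lt.1 hu
  obtain ⟨c, d⟩ := abs_lt.1 hv
  rcases abs_cases ((u + v) / 2) with e | e <;> rcases abs_cases ((u - v) / 2) with f | f <;> linarith [e.1, f.1]

theorem ymain_jj (m δ : ℝ) : jj (m + |δ|) (m - |δ|) = jj (m + δ) (m - δ) := by
  rcases abs_choice δ with e | e <;> rw [e]
  unfold jj
  rw [show m + -δ = m - δ by ring, show m - -δ = m + δ by ring, add_comm (m - δ), add_comm (signEntropy (m - δ))]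

/-- The facts on a pair of slices used by both inductions. -/
theorem ymain_step {u v : (Fin n → Bool) → ℝ} (hu : ∀ x, |u x| < 1) (hv : ∀ x, |v x| < 1) :
    ∃ m δ Y Hμ : ℝ, cubeAverage u = m + δ ∧ cubeAverage v = m - δ ∧ |m| + |δ| < 1 ∧ 0 < Y ∧ |δ| ≤ Y ∧
      Y ≤ 1 - m ^ 2 ∧ Y ≤ Hμ / Real.log 2 ∧
      2 * (Hμ - ((cubeAverage fun x => signEntropy (u x)) + cubeAverage fun x => signEntropy (v x)) / 2) +
        Hμ / Real.log 2 * SS ((Hμ - ((cubeAverage fun x => signEntropy (u x)) +
          cubeAverage fun x => signEntropy (v x)) / 2) / (Hμ / Real.log 2)) ≤ (cubeAverage fun x => kap (u x) (v x)) ∧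
      ell ((|δ| / (1 + |m|)) ^ 2) * |δ| ^ 2 * (1 / Y - 1 / (1 - m ^ 2)) ≤
        2 * (Hμ - ((cubeAverage fun x => signEntropy (u x)) + cubeAverage fun x => signEntropy (v x)) / 2 -
          jj (m + δ) (m - δ)) ∧
      Hμ ≤ signEntropy m ∧ signEntropy m - Hμ ≤ kb m / (1 - m ^ 2) * (1 - m ^ 2 - Y) := by
  have hL := Real.log_pos one_lt_two
  have h1 : ∀ x, |(u x + v x) / 2| + |(u x - v x) / 2| < 1 := fun x => ymain_abs (hu x) (hv x)
  have h2 : ∀ x, |(u x + v x) / 2| < 1 := fun x => by linarith [h1 x, abs_nonneg ((u x - v x) / 2)]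
  have em : (cubeAverage fun x => (u x + v x) / 2) = (cubeAverage u + cubeAverage v) / 2 := by rw [avg_div, avg_add]
  have ed : (cubeAverage fun x => (u x - v x) / 2) = (cubeAverage u - cubeAverage v) / 2 := by rw [avg_div, avg_sub]
  have ej : (cubeAverage fun x => jj (u x) (v x)) = (cubeAverage fun x => signEntropy ((u x + v x) / 2)) -
      ((cubeAverage fun x => signEntropy (u x)) + cubeAverage fun x => signEntropy (v x)) / 2 := by
    unfold jj
    rw [avg_sub, avg_div, avg_add]
  refine ⟨cubeAverage fun x => (u x + v x) / 2, cubeAverage fun x => (u x - v x) / 2,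
    cubeAverage fun x => 1 - ((u x + v x) / 2) ^ 2, cubeAverage fun x => signEntropy ((u x + v x) / 2),
    by rw [em, ed]; ring, by rw [em, ed]; ring, ?_, ?_, abs_avg_le_Y _ _ h1, avg_sq_le _, ?_, ?_, ?_,
    info_nonneg _ h2, var_bound _ h2⟩
  · rw [em, ed]
    exact ymain_abs (abs_avg_lt hu) (abs_avg_lt hv)
  · simpa [avg_const] using avg_lt (f := fun _ => 0) fun x => ymain_sq (h2 x)
  · rw [← avg_div]
    exact avg_mono fun x => (le_div_iff₀' hL).2 (ymain_H (h2 x))
  · have hy : ∀ x, 0 < signEntropy ((u x + v x) / 2) / Real.log 2 := fun x => div_pos (signEntropy_pos (h2 x)) hL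
    have a1 := persp_avg (fun x => signEntropy ((u x + v x) / 2) / Real.log 2) (fun x => jj (u x) (v x)) hy
      fun x => by
        rw [div_lt_iff₀ (hy x), mul_div_cancel₀ _ hL.ne', jj]
        linarith [signEntropy_pos (hu x), signEntropy_pos (hv x)]
    have a2 := avg_mono fun x => one_dim (hu x) (hv x)
    rw [avg_sub, avg_mul] at a2
    rw [avg_div] at a1
    rw [← ej]
    linarith
  · have a1 := gap _ _ h1
    have a2 : (fun x => jj ((u x + v x) / 2 + (u x - v x) / 2) ((u x + v x) / 2 - (u x - v x) / 2)) =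
        fun x => jj (u x) (v x) := funext fun x => by congr 1 <;> ring
    rw [a2, ej] at a1
    rwa [sq_abs]

/-- Induction on `n` (`production_succ`, `one_dim`, `persp_avg`, `PP_mono` with `H μ / log 2 ≥ 1 - μ²`, `gap`,
`b_step`, `PP_avg`); slices `u = μ + d`, `v = μ - d`. -/
theorem profile (n : ℕ) (g : (Fin n → Bool) → ℝ) (hg : ∀ x, |g x| < 1) :
    2 * information g + PP (1 - cubeAverage g ^ 2) (cubeAverage fun x => signEntropy (g x)) ≤ production g := by
  induction n with
  | zero =>
    have hm := hg default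
    rw [production_zero_dim, information, avg_zero_dim, avg_zero_dim, PP,
      SS_nonpos (sub_nonpos.2 ((le_div_iff₀ (ymain_sq hm)).2 (ymain_H hm)))]
    simp
  | succ n ih =>
    have hu : ∀ x, |sl g false x| < 1 := fun x => hg _
    have hv : ∀ x, |sl g true x| < 1 := fun x => hg _
    have i0 := ih _ hu
    have i1 := ih _ hv
    have eA : (cubeAverage fun x => signEntropy (g x)) = ((cubeAverage fun x => signEntropy (sl g false x)) +
        cubeAverage fun x => signEntropy (sl g true x)) / 2 := avg_succ _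
    have hA0 := ymain_A hu
    have hA1 := ymain_A hv
    have hm0 := abs_avg_lt hu
    have hm1 := abs_avg_lt hv
    obtain ⟨m, δ, Y, Hμ, e0, e1, hm, hY0, hY1, hY2, hY3, hk, hgap, -, -⟩ := ymain_step hu hv
    rw [production_succ, information, eA, avg_succ g]
    unfold information at i0 i1
    rw [e0] at hm0 i0
    rw [e1] at hm1 i1
    rw [e0, e1]
    generalize (cubeAverage fun x => signEntropy (sl g false x)) = A0 at *
    generalize (cubeAverage fun x => signEntropy (sl g true x)) = A1 at *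
    have hA : 0 < (A0 + A1) / 2 := by linarith
    have p1 := PP_avg (ymain_sq hm0) (ymain_sq hm1) hA0 hA1
    have p2 := b_step (abs_nonneg δ) hm hY0 hY1 hY2 hA
    have p3 : PP Y ((A0 + A1) / 2) ≤ PP (Hμ / Real.log 2) ((A0 + A1) / 2) :=
      PP_mono hA hY0 (hY0.trans_le hY3) hY3
    have hL := Real.log_pos one_lt_two
    have hH : 0 < Hμ := (div_pos_iff_of_pos_right hL).1 (hY0.trans_le hY3)
    have e2 : (Hμ - (A0 + A1) / 2) / (Hμ / Real.log 2) = Real.log 2 - (A0 + A1) / 2 / (Hμ / Real.log 2) := by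
      field_simp
    have e3 : 1 - m ^ 2 - |δ| ^ 2 = (1 - (m + δ) ^ 2 + (1 - (m - δ) ^ 2)) / 2 := by
      rw [sq_abs]; ring
    have e4 : (m + δ + (m - δ)) / 2 = m := by ring
    rw [e2, ← PP] at hk
    rw [e3] at p2
    rw [jj, e4] at hgap
    rw [e4]
    linarith

/-- Induction on `n`: `thr` and `profile` if `I ≥ 0.33`, else `f_step`. -/
theorem rate (n : ℕ) (g : (Fin n → Bool) → ℝ) (hg : ∀ x, |g x| < 1) :
    2 * information g + SS (information g) ≤ production g := by
  induction n with
  | zero =>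
    have e : information g = 0 := by rw [information, avg_zero_dim, avg_zero_dim, sub_self]
    rw [production_zero_dim, e, SS_nonpos le_rfl]
    simp
  | succ n ih =>
    by_cases hI : 33 / 100 ≤ information g
    · have h1 := thr (abs_avg_lt hg) (ymain_A hg) hI
      have h2 := profile _ g hg
      unfold information at h2 ⊢
      linarith
    have hu : ∀ x, |sl g false x| < 1 := fun x => hg _
    have hv : ∀ x, |sl g true x| < 1 := fun x => hg _
    have i0 := ih _ hu
    have i1 := ih _ hv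
    have eA : (cubeAverage fun x => signEntropy (g x)) = ((cubeAverage fun x => signEntropy (sl g false x)) +
        cubeAverage fun x => signEntropy (sl g true x)) / 2 := avg_succ _
    have hA0 := ymain_A hu
    have hA1 := ymain_A hv
    obtain ⟨m, δ, Y, Hμ, e0, e1, hm, hY0, hY1, hY2, hY3, hk, hgap, ha, ha'⟩ := ymain_step hu hv
    rw [information, eA, avg_succ g, e0, e1] at hI
    rw [production_succ, information, eA, avg_succ g, e0, e1]
    unfold information at i0 i1
    rw [e0] at i0
    rw [e1] at i1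
    generalize (cubeAverage fun x => signEntropy (sl g false x)) = A0 at *
    generalize (cubeAverage fun x => signEntropy (sl g true x)) = A1 at *
    have e4 : (m + δ + (m - δ)) / 2 = m := by ring
    rw [e4] at hI ⊢
    have ej : jj (m + δ) (m - δ) = signEntropy m - (signEntropy (m + δ) + signEntropy (m - δ)) / 2 := by
      rw [jj, e4]
    rw [← ymain_jj] at hgap ej
    have hm' : |m| < 1 := by linarith [abs_nonneg δ]
    have hg0 : 0 ≤ Hμ - (A0 + A1) / 2 - jj (m + |δ|) (m - |δ|) := by
      have r0 : 0 ≤ |δ| / (1 + |m|) := by positivity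
      have r1 : |δ| / (1 + |m|) < 1 := by
        rw [div_lt_one (by positivity)]
        linarith [abs_nonneg m]
      have r2 := ell_ge (sq_nonneg _) (pow_lt_one₀ r0 r1 two_ne_zero)
      have r3 : 0 ≤ ell ((|δ| / (1 + |m|)) ^ 2) := le_trans (by positivity) r2
      have r4 : 0 ≤ 1 / Y - 1 / (1 - m ^ 2) := sub_nonneg.2 (one_div_le_one_div_of_le hY0 hY2)
      have r5 := mul_nonneg (mul_nonneg r3 (sq_nonneg |δ|)) r4
      linarith
    have eI : signEntropy m - Hμ + jj (m + |δ|) (m - |δ|) + (Hμ - (A0 + A1) / 2 - jj (m + |δ|) (m - |δ|)) =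
        signEntropy m - (A0 + A1) / 2 := by ring
    have f := f_step (abs_nonneg δ) hm hY0 (sub_nonneg.2 ha) hg0 ha' hgap (by rw [eI]; linarith)
      (by rw [eI]; linarith)
    have e5 : signEntropy m - (signEntropy m - Hμ) = Hμ := by ring
    have e6 : jj (m + |δ|) (m - |δ|) + (Hμ - (A0 + A1) / 2 - jj (m + |δ|) (m - |δ|)) = Hμ - (A0 + A1) / 2 := by ring
    have e7 : signEntropy m - Hμ + (Hμ - (A0 + A1) / 2 - jj (m + |δ|) (m - |δ|)) =
        (signEntropy (m + δ) - A0 + (signEntropy (m - δ) - A1)) / 2 := by rw [ej]; ring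
    rw [eI, e5, e6, e7] at f
    have b0 : signEntropy (m + δ) - A0 < Real.log 2 := by linarith [signEntropy_le (m + δ)]
    have b1 : signEntropy (m - δ) - A1 < Real.log 2 := by linarith [signEntropy_le (m - δ)]
    have b2 : (signEntropy (m + δ) - A0 + (signEntropy (m - δ) - A1)) / 2 < Real.log 2 := by linarith
    have t0 := SS_tan b0 b2
    have t1 := SS_tan b1 b2
    linarith

theorem rate_all (n : ℕ) : Rate n := by
  intro g hg r h0 h1 hr
  have h := rate n g hg
  have e : psi r = information g := hr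
  rw [← e, SS_psi h0 h1, St] at h
  linarith

end Crest.Agent.R307
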