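import Crest.Agent.R307.YS
import Crest.Agent.R307.YHyp

/-!
# R307/YOne: the improved one-dimensional inequality (N1)
-/

set_option autoImplicit false

namespace Crest.Agent.R307

open Crest.CubeNoise Set

theorem yone_cosh (x : ℝ) : 1 / (1 - Real.tanh x ^ 2) = Real.cosh x ^ 2 := by
  have h := Real.cosh_pos x
  have e : 1 - Real.tanh x ^ 2 = 1 / Real.cosh x ^ 2 := by
    rw [Real.tanh_eq_sinh_div_cosh]; field_simp; exact Real.cosh_sq_sub_sinh_sq x
  rw [e, one_div_one_div]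

theorem yone_key {u v : ℝ} (hu : |u| < 1) (hv : |v| < 1) (h : v ≤ u) :
    jj u v / (signEntropy ((u + v) / 2) / Real.log 2) < Real.log 2 ∧
    SD (jj u v / (signEntropy ((u + v) / 2) / Real.log 2)) * ((Real.artanh u - Real.artanh v) / 2) ≤
      (u - v) / 2 * ((1 / (1 - u ^ 2) + 1 / (1 - v ^ 2)) / 2) - (Real.artanh u - Real.artanh v) / 2 := by
  obtain ⟨u1, u2⟩ := abs_lt.1 hu
  obtain ⟨v1, v2⟩ := abs_lt.1 hv
  have hL : 0 < Real.log 2 := Real.log_pos one_lt_two
  have hH : 0 < signEntropy ((u + v) / 2) := signEntropy_pos (abs_lt.2 ⟨by linarith, by linarith⟩)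
  have hab := Real.artanh_le_artanh v1 u2 h
  obtain ⟨a, rfl⟩ : ∃ a, Real.tanh a = u := ⟨_, Real.tanh_artanh ⟨u1, u2⟩⟩
  obtain ⟨b, rfl⟩ : ∃ b, Real.tanh b = v := ⟨_, Real.tanh_artanh ⟨v1, v2⟩⟩
  simp only [Real.artanh_tanh] at hab ⊢
  set θ := (a - b) / 2 with hθ
  have hθ0 : 0 ≤ θ := by rw [hθ]; linarith
  have hm := hyp_main ((a + b) / 2) θ hθ0
  rw [show (a + b) / 2 + θ = a by rw [hθ]; ring, show (a + b) / 2 - θ = b by rw [hθ]; ring] at hm
  have r0 : 0 ≤ Real.tanh θ := by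
    rw [Real.tanh_eq_sinh_div_cosh]; exact div_nonneg (Real.sinh_nonneg_iff.2 hθ0) (Real.cosh_pos _).le
  have r1 := Real.tanh_lt_one θ
  have h1 : jj (Real.tanh a) (Real.tanh b) / (signEntropy ((Real.tanh a + Real.tanh b) / 2) / Real.log 2) ≤
      psi (Real.tanh θ) := by
    rw [div_le_iff₀ (by positivity), ← mul_div_assoc, le_div_iff₀ hL, jj, psi]
    nlinarith
  have h2 : psi (Real.tanh θ) < Real.log 2 := sub_lt_self _ (signEntropy_pos (Real.abs_tanh_lt_one θ))
  refine ⟨h1.trans_lt h2, (mul_le_mul_of_nonneg_right (SD_mono (h1.trans_lt h2) h2 h1) hθ0).trans ?_⟩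
  have h3 := qq_mul r0 r1
  rw [Real.artanh_tanh] at h3
  rw [SD_psi r0 r1, h3, yone_cosh, yone_cosh, div_eq_mul_one_div, yone_cosh]
  have ca := Real.cosh_pos a
  have cb := Real.cosh_pos b
  have h4 : Real.tanh θ * Real.cosh θ ^ 2 = (Real.tanh a - Real.tanh b) / 2 * (Real.cosh a * Real.cosh b) := by
    have c := Real.cosh_pos θ
    have e1 : Real.tanh θ * Real.cosh θ ^ 2 = Real.sinh (2 * θ) / 2 := by
      rw [Real.sinh_two_mul, Real.tanh_eq_sinh_div_cosh]; field_simp
    rw [e1, show 2 * θ = a - b by rw [hθ]; ring, Real.sinh_sub, Real.tanh_eq_sinh_div_cosh,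
      Real.tanh_eq_sinh_div_cosh]
    field_simp
  rw [h4]
  refine sub_le_sub_right (mul_le_mul_of_nonneg_left ?_ (by linarith)) _
  nlinarith [sq_nonneg (Real.cosh a - Real.cosh b)]

theorem yone_le {μ d : ℝ} (hd : 0 ≤ d) (h : |μ| + d < 1) :
    signEntropy μ / Real.log 2 * SS (jj (μ + d) (μ - d) / (signEntropy μ / Real.log 2)) ≤
      kap (μ + d) (μ - d) - 2 * jj (μ + d) (μ - d) := by
  have m1 := le_abs_self μ
  have m2 := neg_abs_le μ
  have hy : 0 < signEntropy μ / Real.log 2 :=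
    div_pos (signEntropy_pos (by linarith)) (Real.log_pos one_lt_two)
  set y := signEntropy μ / Real.log 2 with hy'
  have hD : ∀ t ∈ Icc 0 d, ∃ D, 0 ≤ D ∧ HasDerivAt (fun t => kap (μ + t) (μ - t) - 2 * jj (μ + t) (μ - t) -
      y * SS (jj (μ + t) (μ - t) / y)) D t := by
    intro t ht
    have hu : |μ + t| < 1 := abs_lt.2 ⟨by linarith [ht.1], by linarith [ht.2]⟩
    have hv : |μ - t| < 1 := abs_lt.2 ⟨by linarith [ht.2], by linarith [ht.1]⟩
    obtain ⟨k1, k2⟩ := yone_key hu hv (by linarith [ht.1])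
    rw [show (μ + t + (μ - t)) / 2 = μ by ring, ← hy'] at k1 k2
    have du : HasDerivAt (fun t => μ + t) 1 t := (hasDerivAt_id t).const_add μ
    have dv : HasDerivAt (fun t => μ - t) (-1) t := (hasDerivAt_id t).const_sub μ
    have dj : HasDerivAt (fun t => jj (μ + t) (μ - t)) ((Real.artanh (μ + t) - Real.artanh (μ - t)) / 2) t := by
      have e : (fun t => jj (μ + t) (μ - t)) =
          fun t => signEntropy μ - (signEntropy (μ + t) + signEntropy (μ - t)) / 2 := by
        ext t; rw [jj, show (μ + t + (μ - t)) / 2 = μ by ring]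
      rw [e]
      exact (((((hasDerivAt_signEntropy hu).comp t du).add
        ((hasDerivAt_signEntropy hv).comp t dv)).div_const 2).const_sub _).congr_deriv (by ring)
    have dk : HasDerivAt (fun t => kap (μ + t) (μ - t)) _ t :=
      ((dv.sub du).mul (((hasDerivAt_artanh' hv).comp t dv).sub ((hasDerivAt_artanh' hu).comp t du))).div_const 4
    have ds := HasDerivAt.comp t (h₂ := SS) (h := fun t => jj (μ + t) (μ - t) / y) (hasDerivAt_SS k1)
      (dj.div_const y)
    refine ⟨_, ?_, (dk.sub (dj.const_mul 2)).sub (ds.const_mul y)⟩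
    simp only [Pi.sub_apply, Function.comp_apply]
    rw [mul_div_assoc' (SD _), mul_div_cancel₀ _ hy.ne']
    linarith
  choose! D hD0 hD using hD
  have hm : MonotoneOn (fun t => kap (μ + t) (μ - t) - 2 * jj (μ + t) (μ - t) -
      y * SS (jj (μ + t) (μ - t) / y)) (Icc 0 d) :=
    monotoneOn_of_deriv_nonneg (convex_Icc _ _) (fun t ht => (hD t ht).continuousAt.continuousWithinAt)
      (fun t ht => (hD t (interior_subset ht)).differentiableAt.differentiableWithinAt)
      fun t ht => by rw [(hD t (interior_subset ht)).deriv]; exact hD0 t (interior_subset ht)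
  have := hm (left_mem_Icc.2 hd) (right_mem_Icc.2 hd) hd
  have e : jj μ μ = 0 := by rw [jj, show (μ + μ) / 2 = μ by ring]; ring
  simp only [add_zero, sub_zero, e, zero_div, SS_nonpos le_rfl, kap, sub_self, mul_zero] at this
  simp only [kap]
  linarith

/-- Fix `μ`, `y = H μ / log 2`, `u = μ + d`, `v = μ - d`, `0 ≤ d < 1 - |μ|`, `θ = (artanh u - artanh v)/2`,
`φ = (artanh u + artanh v)/2`. Then `kap = dθ`, `∂ jj = θ`, `∂ kap = θ + d (1/(1-u²) + 1/(1-v²))/2 ≥ θ + sinh(2θ)/2`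
(`d = sinh 2θ/(X+T)`, `1/(1-u²)+1/(1-v²) = 1+XT ≥ X+T`), `qq (tanh θ) θ = sinh(2θ)/2 - θ` and, by `hyp_main`,
`jj / y ≤ ψ (tanh θ)`, so `SD (jj/y) ≤ qq (tanh θ)`. Hence `d ↦ kap - 2 jj - y SS (jj / y)` is monotone, `0` at `0`. -/
theorem one_dim {u v : ℝ} (hu : |u| < 1) (hv : |v| < 1) :
    signEntropy ((u + v) / 2) / Real.log 2 * SS (jj u v / (signEntropy ((u + v) / 2) / Real.log 2)) ≤
      kap u v - 2 * jj u v := by
  obtain ⟨u1, u2⟩ := abs_lt.1 hu
  obtain ⟨v1, v2⟩ := abs_lt.1 hv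
  have key : ∀ {u v : ℝ}, -1 < v → v ≤ u → u < 1 → signEntropy ((u + v) / 2) / Real.log 2 *
      SS (jj u v / (signEntropy ((u + v) / 2) / Real.log 2)) ≤ kap u v - 2 * jj u v := by
    intro u v h1 h2 h3
    have := yone_le (μ := (u + v) / 2) (d := (u - v) / 2) (by linarith) (by
      rcases abs_cases ((u + v) / 2) with h | h <;> linarith [h.1])
    rwa [show (u + v) / 2 + (u - v) / 2 = u by ring, show (u + v) / 2 - (u - v) / 2 = v by ring] at this
  rcases le_total v u with h | h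
  · exact key v1 h u2
  · have := key u1 h v2
    rwa [show jj v u = jj u v by rw [jj, jj, add_comm v u, add_comm (signEntropy v)],
      show kap v u = kap u v by rw [kap, kap]; ring, add_comm v u] at this

end Crest.Agent.R307
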