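import Crest.Agent.R307.YSer

/-!
# R307/YPin: one-sided Pinsker, the Jensen gap and the variance bound
-/

set_option autoImplicit false

namespace Crest.Agent.R307

open Crest.CubeNoise Set

variable {n : ℕ}

/-- The Bregman divergence of `psi` minus a quadratic. -/
noncomputable def ypinF (c m r : ℝ) : ℝ := psi r - psi m - Real.artanh m * (r - m) - c * (r - m) ^ 2

/-- Its derivative. -/
noncomputable def ypinG (c m r : ℝ) : ℝ := Real.artanh r - Real.artanh m - 2 * c * (r - m)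

theorem ypin_F_self (c m : ℝ) : ypinF c m m = 0 := by simp [ypinF]

theorem ypin_G_self (c m : ℝ) : ypinG c m m = 0 := by simp [ypinG]

theorem ypin_mvtF (c m : ℝ) {a b : ℝ} (ha : -1 ≤ a) (hab : a < b) (hb : b ≤ 1) :
    ∃ x, a < x ∧ x < b ∧ ypinF c m b - ypinF c m a = ypinG c m x * (b - a) := by
  have hc : Continuous (ypinF c m) := by
    have := continuous_psi
    unfold ypinF
    fun_prop
  have hd : ∀ x ∈ Ioo a b, HasDerivAt (ypinF c m) (ypinG c m x) x := by
    intro x hx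
    have hx' : |x| < 1 := abs_lt.2 ⟨by linarith [hx.1], by linarith [hx.2]⟩
    have h1 := hasDerivAt_psi hx'
    have h2 : HasDerivAt (fun r : ℝ => r - m) 1 x := (hasDerivAt_id x).sub_const m
    have h3 := ((h1.sub_const (psi m)).sub (h2.const_mul (Real.artanh m))).sub ((h2.pow 2).const_mul c)
    refine HasDerivAt.congr_deriv h3 ?_
    simp only [ypinG]
    push_cast
    ring
  obtain ⟨x, hx, e⟩ := exists_hasDerivAt_eq_slope (ypinF c m) (ypinG c m) hab hc.continuousOn hd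
  refine ⟨x, hx.1, hx.2, ?_⟩
  rw [e, div_mul_cancel₀ _ (sub_pos.2 hab).ne']

theorem ypin_mvtG (c m : ℝ) {a b : ℝ} (ha : -1 < a) (hab : a < b) (hb : b < 1) :
    ∃ x, a < x ∧ x < b ∧ ypinG c m b - ypinG c m a = (1 / (1 - x ^ 2) - 2 * c) * (b - a) := by
  have hd : ∀ x ∈ Icc a b, HasDerivAt (ypinG c m) (1 / (1 - x ^ 2) - 2 * c) x := by
    intro x hx
    have hx' : |x| < 1 := abs_lt.2 ⟨by linarith [hx.1], by linarith [hx.2]⟩
    have h1 := hasDerivAt_artanh' hx'
    have h2 : HasDerivAt (fun r : ℝ => r - m) 1 x := (hasDerivAt_id x).sub_const m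
    have h3 := (h1.sub_const (Real.artanh m)).sub (h2.const_mul (2 * c))
    refine HasDerivAt.congr_deriv h3 ?_
    ring
  obtain ⟨x, hx, e⟩ := exists_hasDerivAt_eq_slope (ypinG c m) (fun x => 1 / (1 - x ^ 2) - 2 * c) hab
    (fun x hx => (hd x hx).continuousAt.continuousWithinAt) (fun x hx => hd x (Ioo_subset_Icc_self hx))
  refine ⟨x, hx.1, hx.2, ?_⟩
  rw [e, div_mul_cancel₀ _ (sub_pos.2 hab).ne']

theorem ypin_inv_mono {s t : ℝ} (h : s ^ 2 ≤ t ^ 2) (ht : t ^ 2 < 1) : 1 / (1 - s ^ 2) ≤ 1 / (1 - t ^ 2) :=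
  one_div_le_one_div_of_le (by linarith) (by linarith)

theorem ypin_neg_of_mul {x y z : ℝ} (h : z = x * y) (hy : 0 < y) (hz : z < 0) : x < 0 := by
  by_contra hx
  have := mul_nonneg (not_lt.1 hx) hy.le
  linarith

theorem ypin_pos_of_mul {x y z : ℝ} (h : z = x * y) (hy : 0 < y) (hz : 0 < z) : 0 < x := by
  by_contra hx
  have := mul_nonpos_of_nonpos_of_nonneg (not_lt.1 hx) hy.le
  linarith

theorem ypin_log {q : ℝ} (h0 : 0 ≤ q) (h1 : q < 1) :
    -Real.log (1 - q) ≤ q / (1 - q) * (1 - q / 2 - q ^ 2 / 6) := by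
  have h2 : 0 < 2 - q := by linarith
  have h3 : 0 < 1 - q := by linarith
  have r0 : 0 ≤ q / (2 - q) := div_nonneg h0 h2.le
  have r1 : q / (2 - q) < 1 := by rw [div_lt_one h2]; linarith
  have hA := artanh_le r0 r1 1
  rw [Real.artanh_eq_half_log ⟨by linarith, r1.le⟩] at hA
  have e1 : (1 + q / (2 - q)) / (1 - q / (2 - q)) = (1 - q)⁻¹ := by
    have : (1 - q / (2 - q)) = 2 * (1 - q) / (2 - q) := by field_simp; ring
    rw [this]
    field_simp
    ring
  rw [e1, Real.log_inv] at hA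
  have e2 : ∑ k ∈ Finset.range 1, (q / (2 - q)) ^ (2 * k + 1) / (2 * (k : ℝ) + 1) +
      (q / (2 - q)) ^ (2 * 1 + 1) / ((2 * ((1 : ℕ) : ℝ) + 1) * (1 - (q / (2 - q)) ^ 2)) =
      q / (1 - q) * ((12 * (1 - q) + q ^ 2) / (12 * (2 - q))) := by
    have : (1 - (q / (2 - q)) ^ 2) = 4 * (1 - q) / (2 - q) ^ 2 := by field_simp; ring
    rw [this]
    simp only [Finset.sum_range_one]
    push_cast
    field_simp
    ring
  rw [e2] at hA
  have h4 : (12 * (1 - q) + q ^ 2) / (12 * (2 - q)) ≤ (1 - q / 2 - q ^ 2 / 6) / 2 := by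
    rw [div_le_iff₀ (by positivity)]
    nlinarith [pow_nonneg h0 3]
  have h5 := mul_le_mul_of_nonneg_left h4 (div_nonneg h0 h3.le)
  linarith

theorem ypin_kb_ge (m : ℝ) (hm : |m| < 1) : 1 / 2 < kb m := by
  have := abs_nonneg m
  unfold kb
  nlinarith

theorem ypin_F_one {m : ℝ} (hm : |m| < 1) : ypinF (kb m / (1 - m ^ 2)) m 1 ≤ 0 := by
  obtain ⟨hm1, hm2⟩ := abs_lt.1 hm
  have a1 : 0 < 1 + m := by linarith
  have a2 : 0 < 1 - m := by linarith
  have hL := ypin_log (q := (1 - m) / 2) (by linarith) (by linarith)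
  have e1 : 1 - (1 - m) / 2 = (1 + m) / 2 := by ring
  rw [e1, Real.log_div a1.ne' two_ne_zero] at hL
  have hk : 1 - (1 - m) / 2 / 2 - ((1 - m) / 2) ^ 2 / 6 ≤ kb m := by
    have := le_abs_self m
    unfold kb
    nlinarith
  have hq : 0 ≤ (1 - m) / 2 / ((1 + m) / 2) := by positivity
  have h5 := mul_le_mul_of_nonneg_left hk hq
  have e2 : kb m / (1 - m ^ 2) * (1 - m) ^ 2 = (1 - m) / 2 / ((1 + m) / 2) * kb m := by
    have : 1 - m ^ 2 = (1 - m) * (1 + m) := by ring
    rw [this]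
    field_simp
  have e3 : Real.log (1 - m ^ 2) = Real.log (1 - m) + Real.log (1 + m) := by
    rw [← Real.log_mul a2.ne' a1.ne']
    congr 1
    ring
  have e4 : Real.artanh m = (Real.log (1 + m) - Real.log (1 - m)) / 2 := by
    rw [Real.artanh_eq_half_log ⟨hm1.le, hm2.le⟩, Real.log_div a1.ne' a2.ne']
    ring
  have e5 : psi m + Real.artanh m * (1 - m) = Real.log (1 + m) := by
    rw [psi_eq hm, e3]
    have : m * Real.artanh m + Real.artanh m * (1 - m) = Real.artanh m := by ring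
    linarith
  unfold ypinF
  rw [psi_one, e2]
  linarith

theorem ypin_kl_right {μ m : ℝ} (hμ : |μ| < 1) (hm : |m| < 1) (h : m < μ) :
    ypinF (kb m / (1 - m ^ 2)) m μ ≤ 0 := by
  obtain ⟨hm1, hm2⟩ := abs_lt.1 hm
  obtain ⟨hμ1, hμ2⟩ := abs_lt.1 hμ
  set K := kb m / (1 - m ^ 2) with hK
  by_contra hc
  push Not at hc
  have hF1 : ypinF K m 1 ≤ 0 := ypin_F_one hm
  obtain ⟨a, a1, a2, ea⟩ := ypin_mvtF K m hm1.le h hμ2.le
  obtain ⟨b, b1, b2, eb⟩ := ypin_mvtF K m hμ1.le hμ2 le_rfl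
  rw [ypin_F_self] at ea
  have ga : 0 < ypinG K m a := ypin_pos_of_mul ea (by linarith) (by linarith)
  have gb : ypinG K m b < 0 := ypin_neg_of_mul eb (by linarith) (by linarith)
  obtain ⟨s, s1, s2, es⟩ := ypin_mvtG K m hm1 a1 (by linarith)
  obtain ⟨t, t1, t2, et⟩ := ypin_mvtG K m (a := a) (b := b) (by linarith) (by linarith) b2
  rw [ypin_G_self] at es
  have hs : 0 < 1 / (1 - s ^ 2) - 2 * K := ypin_pos_of_mul es (by linarith) (by linarith)
  have ht : 1 / (1 - t ^ 2) - 2 * K < 0 := ypin_neg_of_mul et (by linarith) (by linarith)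
  have hm3 : m ^ 2 < 1 := by nlinarith
  have ht3 : t ^ 2 < 1 := by nlinarith
  have hmK : 1 / (1 - m ^ 2) < 2 * K := by
    rw [hK, ← mul_div_assoc]
    exact div_lt_div_of_pos_right (by linarith [ypin_kb_ge m hm]) (by linarith)
  rcases le_total 0 s with h0 | h0
  · have := ypin_inv_mono (s := s) (t := t) (by nlinarith) ht3
    linarith
  · have := ypin_inv_mono (s := s) (t := m) (by nlinarith) hm3
    linarith

theorem ypin_artanh_neg {m : ℝ} (hm : |m| < 1) : Real.artanh (-m) = -Real.artanh m := by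
  obtain ⟨hm1, hm2⟩ := abs_lt.1 hm
  rw [Real.artanh_eq_half_log ⟨hm1.le, hm2.le⟩, Real.artanh_eq_half_log ⟨by linarith, by linarith⟩,
    Real.log_div (by linarith) (by linarith), Real.log_div (by linarith) (by linarith), sub_neg_eq_add,
    ← sub_eq_add_neg]
  ring

theorem ypin_breg_nonneg {μ m : ℝ} (hμ : |μ| < 1) (hm : |m| < 1) :
    0 ≤ psi μ - psi m - Real.artanh m * (μ - m) := by
  obtain ⟨hm1, hm2⟩ := abs_lt.1 hm
  obtain ⟨hμ1, hμ2⟩ := abs_lt.1 hμ
  have key : 0 ≤ ypinF 0 m μ := by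
    rcases lt_trichotomy m μ with h | h | h
    · obtain ⟨a, a1, a2, ea⟩ := ypin_mvtF 0 m hm1.le h hμ2.le
      rw [ypin_F_self, sub_zero] at ea
      rw [ea]
      refine mul_nonneg ?_ (by linarith)
      have := Real.artanh_le_artanh hm1 (a2.trans hμ2) a1.le
      simp only [ypinG]
      linarith
    · rw [h, ypin_F_self]
    · obtain ⟨a, a1, a2, ea⟩ := ypin_mvtF 0 m hμ1.le h hm2.le
      rw [ypin_F_self] at ea
      have h1 : ypinG 0 m a ≤ 0 := by
        have := Real.artanh_le_artanh (hμ1.trans a1) hm2 a2.le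
        simp only [ypinG]
        linarith
      have := mul_nonpos_of_nonpos_of_nonneg h1 (sub_pos.2 h).le
      linarith
  simpa [ypinF] using key

theorem ypin_avg_var (μ : (Fin n → Bool) → ℝ) :
    cubeAverage (fun x => (μ x - cubeAverage μ) ^ 2) =
      1 - cubeAverage μ ^ 2 - cubeAverage fun x => 1 - μ x ^ 2 := by
  have e : (fun x => (μ x - cubeAverage μ) ^ 2) =
      fun x => (1 + cubeAverage μ ^ 2 - (2 * cubeAverage μ) * μ x) - (1 - μ x ^ 2) := by
    funext x
    ring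
  rw [e, avg_sub, avg_sub, avg_const, avg_mul]
  ring

theorem ypin_avg_breg (μ : (Fin n → Bool) → ℝ) :
    cubeAverage (fun x => psi (μ x) - psi (cubeAverage μ) - Real.artanh (cubeAverage μ) * (μ x - cubeAverage μ)) =
      signEntropy (cubeAverage μ) - cubeAverage (fun x => signEntropy (μ x)) := by
  rw [avg_sub, avg_mul, avg_sub, avg_sub, avg_const, avg_const]
  unfold psi
  rw [avg_sub, avg_const]
  ring

/-- `f r = LHS - RHS`, `c = ell (r0²) ≤ 1/(1 - r0²)`: `f r0 = f' r0 = 0`, `f 0 = 0` (`psi_eq`),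
`f'' = 1/(1-r²) - c` is `≤ 0` on `[0, r*]` and `≥ 0` on `[r*, 1)` with `r* ≤ r0`. -/
theorem pinsker {r r0 : ℝ} (h0 : 0 ≤ r) (h1 : r < 1) (g0 : 0 ≤ r0) (g1 : r0 < 1) :
    ell (r0 ^ 2) * (r - r0) ^ 2 / 2 ≤ psi r - psi r0 - Real.artanh r0 * (r - r0) := by
  set c := ell (r0 ^ 2) / 2 with hc
  suffices h : 0 ≤ ypinF c r0 r by
    unfold ypinF at h
    have e : c * (r - r0) ^ 2 = ell (r0 ^ 2) * (r - r0) ^ 2 / 2 := by rw [hc]; ring
    linarith
  rcases g0.eq_or_lt with hz | hz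
  · subst hz
    have h2 := psi_ge (r := r) (abs_le.2 ⟨by linarith, h1.le⟩)
    have e : c = 1 / 2 := by simp [hc, ell]
    have h4 : 0 ≤ r ^ 4 := by positivity
    have h6 : 0 ≤ r ^ 6 := by positivity
    simp only [ypinF, e, psi_zero, Real.artanh_zero]
    linarith
  have hF0 : ypinF c r0 0 = 0 := by
    have hr : |r0| < 1 := abs_lt.2 ⟨by linarith, g1⟩
    have hne : r0 ^ 2 ≠ 0 := by positivity
    have e : c * (0 - r0) ^ 2 = -Real.log (1 - r0 ^ 2) / 2 := by
      rw [hc, ell, if_neg hne]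
      field_simp
      ring
    unfold ypinF
    rw [psi_zero, psi_eq hr, e]
    ring
  by_contra hneg
  push Not at hneg
  rcases lt_trichotomy r r0 with h | h | h
  · rcases h0.eq_or_lt with hr | hr
    · subst hr
      linarith
    obtain ⟨a, a1, a2, ea⟩ := ypin_mvtF c r0 (a := 0) (by norm_num) hr h1.le
    obtain ⟨b, b1, b2, eb⟩ := ypin_mvtF c r0 (a := r) (by linarith) h g1.le
    rw [ypin_F_self] at eb
    have ga : ypinG c r0 a < 0 := ypin_neg_of_mul ea (by linarith) (by linarith)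
    have gb : 0 < ypinG c r0 b := ypin_pos_of_mul eb (by linarith) (by linarith)
    obtain ⟨s, s1, s2, es⟩ := ypin_mvtG c r0 (a := a) (b := b) (by linarith) (by linarith) (by linarith)
    obtain ⟨t, t1, t2, et⟩ := ypin_mvtG c r0 (a := b) (b := r0) (by linarith) b2 g1
    rw [ypin_G_self] at et
    have hs := ypin_pos_of_mul es (by linarith) (by linarith)
    have ht := ypin_neg_of_mul et (by linarith) (by linarith)
    have := ypin_inv_mono (s := s) (t := t) (by nlinarith) (by nlinarith)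
    linarith
  · rw [h, ypin_F_self] at hneg
    exact lt_irrefl _ hneg
  · obtain ⟨a, a1, a2, ea⟩ := ypin_mvtF c r0 (a := 0) (by norm_num) hz g1.le
    obtain ⟨b, b1, b2, eb⟩ := ypin_mvtF c r0 (a := r0) (by linarith) h h1.le
    rw [ypin_F_self] at ea eb
    have ga : ypinG c r0 a = 0 := by
      rw [hF0, sub_zero, sub_zero] at ea
      exact (mul_eq_zero.1 ea.symm).resolve_right hz.ne'
    have gb : ypinG c r0 b < 0 := ypin_neg_of_mul eb (by linarith) (by linarith)
    obtain ⟨s, s1, s2, es⟩ := ypin_mvtG c r0 (a := a) (b := r0) (by linarith) a2 g1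
    obtain ⟨t, t1, t2, et⟩ := ypin_mvtG c r0 (a := r0) (b := b) (by linarith) b1 (by linarith)
    rw [ypin_G_self] at es et
    have hs : 1 / (1 - s ^ 2) - 2 * c = 0 := by
      rw [ga, sub_zero] at es
      exact (mul_eq_zero.1 es.symm).resolve_right (sub_pos.2 a2).ne'
    have ht := ypin_neg_of_mul et (by linarith) (by linarith)
    have := ypin_inv_mono (s := s) (t := t) (by nlinarith) (by nlinarith)
    linarith

/-- `f μ = K (μ-m)² - KL` with `K = kb m/(1-m²)`: `f m = f' m = 0`, `f'' = 2K - 1/(1-μ²)` is positive in the middle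
(which contains `m` as `kb ≥ 1/2`), negative outside, and `f(±1) ≥ 0`: for `m ≥ 0`, `p = (1-m)/2`:
`-log(1-p) ≤ kb p/(1-p)` (series `(1-p)(-log(1-p))/p = 1 - p/2 - p²/6 - ...`), `-log p ≤ 0.7 (1-p)/p`. -/
theorem kl_le {μ m : ℝ} (hμ : |μ| < 1) (hm : |m| < 1) :
    psi μ - psi m - Real.artanh m * (μ - m) ≤ kb m / (1 - m ^ 2) * (μ - m) ^ 2 := by
  rcases lt_trichotomy m μ with h | h | h
  · have := ypin_kl_right hμ hm h
    unfold ypinF at this
    linarith
  · subst h
    simp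
  · have := ypin_kl_right (μ := -μ) (m := -m) (by rwa [abs_neg]) (by rwa [abs_neg]) (by linarith)
    unfold ypinF at this
    have ek : kb (-m) = kb m := by simp [kb]
    rw [psi_neg, psi_neg, ypin_artanh_neg hm, ek, neg_sq] at this
    have e : (-μ - -m) ^ 2 = (μ - m) ^ 2 := by ring
    rw [e] at this
    linarith

theorem avg_sq_le (μ : (Fin n → Bool) → ℝ) :
    cubeAverage (fun x => 1 - μ x ^ 2) ≤ 1 - cubeAverage μ ^ 2 := by
  have h := ypin_avg_var μ
  have h2 : 0 ≤ cubeAverage (fun x => (μ x - cubeAverage μ) ^ 2) := avg_nonneg fun x => sq_nonneg _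
  linarith

theorem var_bound (μ : (Fin n → Bool) → ℝ) (h : ∀ x, |μ x| < 1) :
    signEntropy (cubeAverage μ) - cubeAverage (fun x => signEntropy (μ x)) ≤
      kb (cubeAverage μ) / (1 - cubeAverage μ ^ 2) *
        (1 - cubeAverage μ ^ 2 - cubeAverage fun x => 1 - μ x ^ 2) := by
  rw [← ypin_avg_breg, ← ypin_avg_var, ← avg_mul]
  exact avg_mono fun x => kl_le (h x) (abs_avg_lt h)

theorem info_nonneg (μ : (Fin n → Bool) → ℝ) (h : ∀ x, |μ x| < 1) :
    cubeAverage (fun x => signEntropy (μ x)) ≤ signEntropy (cubeAverage μ) := by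
  have h2 := avg_nonneg fun x => ypin_breg_nonneg (h x) (abs_avg_lt h)
  rw [ypin_avg_breg] at h2
  linarith

theorem abs_avg_le_Y (μ d : (Fin n → Bool) → ℝ) (h : ∀ x, |μ x| + |d x| < 1) :
    |cubeAverage d| ≤ cubeAverage fun x => 1 - μ x ^ 2 := by
  have key : ∀ x, |d x| ≤ 1 - μ x ^ 2 := by
    intro x
    have h1 := h x
    have h2 := abs_nonneg (μ x)
    have h3 := abs_nonneg (d x)
    rw [← sq_abs (μ x)]
    nlinarith
  refine abs_le.2 ⟨?_, avg_mono fun x => (le_abs_self _).trans (key x)⟩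
  rw [← avg_neg]
  exact avg_mono fun x => (abs_le.1 (key x)).1

end Crest.Agent.R307
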