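import Crest.Agent.R307.YSer

/-!
# R307/YQ: calculus of St, qq
-/

set_option autoImplicit false

namespace Crest.Agent.R307

open Crest.CubeNoise Set

theorem hasDerivAt_St {r : ℝ} (h : |r| < 1) : HasDerivAt St (r / (1 - r ^ 2) - Real.artanh r) r := by
  have h1 := ((hasDerivAt_id r).mul (hasDerivAt_artanh' h)).sub ((hasDerivAt_psi h).const_mul 2)
  refine h1.congr_deriv ?_
  simp only [id]
  ring

theorem St_zero : St 0 = 0 := by
  simp [St, psi_zero]

theorem qq_mul {r : ℝ} (h0 : 0 ≤ r) (h1 : r < 1) : qq r * Real.artanh r = r / (1 - r ^ 2) - Real.artanh r := by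
  unfold qq
  split_ifs with h
  · simp [h]
  · have hp : 0 < r := lt_of_le_of_ne h0 (Ne.symm h)
    have ha : 0 < Real.artanh r := Real.artanh_pos ⟨hp, h1⟩
    have hs : 0 < 1 - r ^ 2 := by nlinarith
    field_simp

theorem hasDerivAt_qq {r : ℝ} (h0 : 0 < r) (h1 : r < 1) : HasDerivAt qq
    (((1 + r ^ 2) * Real.artanh r - r) / ((1 - r ^ 2) ^ 2 * Real.artanh r ^ 2)) r := by
  have ha : 0 < Real.artanh r := Real.artanh_pos ⟨h0, h1⟩
  have hs : 0 < 1 - r ^ 2 := by nlinarith
  have hr : |r| < 1 := abs_lt.2 ⟨by linarith, h1⟩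
  have d1 : HasDerivAt (fun x : ℝ => 1 - x ^ 2) (-(2 * r)) r := by
    simpa using (hasDerivAt_pow 2 r).const_sub 1
  have d2 := d1.mul (hasDerivAt_artanh' hr)
  have d3 := ((hasDerivAt_id r).div d2 (mul_pos hs ha).ne').sub_const 1
  have e : qq =ᶠ[nhds r] fun x : ℝ => x / ((1 - x ^ 2) * Real.artanh x) - 1 := by
    filter_upwards [lt_mem_nhds h0] with x hx
    simp [qq, hx.ne']
  refine HasDerivAt.congr_of_eventuallyEq (d3.congr_deriv ?_) e
  simp only [id, Pi.mul_apply]
  field_simp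
  ring

theorem yq_bounds {r : ℝ} (h0 : 0 ≤ r) (h1 : r < 1) : 0 ≤ qq r ∧ qq r ≤ 1 / (1 - r ^ 2) - 1 := by
  have hs : 0 < 1 - r ^ 2 := by nlinarith
  unfold qq
  split_ifs with h
  · simp [h]
  · have hp : 0 < r := lt_of_le_of_ne h0 (Ne.symm h)
    have ha : 0 < Real.artanh r := Real.artanh_pos ⟨hp, h1⟩
    have h2 := le_artanh h0 h1
    have h3 := artanh_le_div h0 h1
    rw [le_div_iff₀ hs] at h3
    constructor
    · rw [sub_nonneg, le_div_iff₀ (mul_pos hs ha)]
      linarith
    · rw [sub_le_sub_iff_right, div_le_div_iff₀ (mul_pos hs ha) hs]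
      nlinarith

/-- At `0`: `0 ≤ qq r ≤ 1 / (1 - r²) - 1` by `le_artanh`, `artanh_le_div`. -/
theorem continuousOn_qq : ContinuousOn qq (Ico 0 1) := by
  intro r hr
  rcases hr.1.eq_or_lt with h | h
  · subst h
    have hq : qq 0 = 0 := by simp [qq]
    unfold ContinuousWithinAt
    rw [hq]
    have hu : Filter.Tendsto (fun x : ℝ => 1 / (1 - x ^ 2) - 1) (nhdsWithin 0 (Ico 0 1)) (nhds 0) := by
      have : ContinuousAt (fun x : ℝ => 1 / (1 - x ^ 2) - 1) 0 := by
        refine ContinuousAt.sub (ContinuousAt.div continuousAt_const (by fun_prop) (by norm_num)) continuousAt_const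
      have h2 := this.tendsto.mono_left (nhdsWithin_le_nhds (s := Ico (0 : ℝ) 1))
      simpa using h2
    refine tendsto_of_tendsto_of_tendsto_of_le_of_le' tendsto_const_nhds hu ?_ ?_
    · filter_upwards [self_mem_nhdsWithin] with x hx
      exact (yq_bounds hx.1 hx.2).1
    · filter_upwards [self_mem_nhdsWithin] with x hx
      exact (yq_bounds hx.1 hx.2).2
  · exact (hasDerivAt_qq h hr.2).continuousAt.continuousWithinAt

theorem qq_nonneg {r : ℝ} (h0 : 0 ≤ r) (h1 : r < 1) : 0 ≤ qq r := (yq_bounds h0 h1).1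

theorem qq_mono : MonotoneOn qq (Ico 0 1) := by
  refine monotoneOn_of_deriv_nonneg (convex_Ico 0 1) continuousOn_qq ?_ ?_
  · rw [interior_Ico]
    exact fun x hx => (hasDerivAt_qq hx.1 hx.2).differentiableAt.differentiableWithinAt
  · rw [interior_Ico]
    intro x hx
    rw [(hasDerivAt_qq hx.1 hx.2).deriv]
    have h := le_artanh hx.1.le hx.2
    have ha : 0 < Real.artanh x := Real.artanh_pos hx
    refine div_nonneg ?_ (by positivity)
    nlinarith [mul_nonneg (sq_nonneg x) ha.le]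

end Crest.Agent.R307
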