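import Crest.Agent.R307.YQ

/-!
# R307/YS: calculus of SS
-/

set_option autoImplicit false

namespace Crest.Agent.R307

open Crest.CubeNoise Set

theorem pinv_mem {J : ℝ} (h0 : 0 ≤ J) (h1 : J < Real.log 2) : pinv J ∈ Ico (0 : ℝ) 1 ∧ psi (pinv J) = J := by
  have h : J ∈ psi '' Ico 0 1 :=
    intermediate_value_Ico zero_le_one continuous_psi.continuousOn (by rw [psi_zero, psi_one]; exact ⟨h0, h1⟩)
  obtain ⟨r, hr, e⟩ := h
  exact ⟨Function.invFunOn_mem ⟨r, hr, e⟩, Function.invFunOn_eq ⟨r, hr, e⟩⟩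

theorem pinv_psi {r : ℝ} (h0 : 0 ≤ r) (h1 : r < 1) : pinv (psi r) = r := by
  exact (strictMonoOn_psi.injOn.mono Ico_subset_Icc_self).leftInvOn_invFunOn ⟨h0, h1⟩

theorem pinv_mono : MonotoneOn pinv (Ico 0 (Real.log 2)) := by
  intro a ha b hb hab
  obtain ⟨a1, a2⟩ := pinv_mem ha.1 ha.2
  obtain ⟨b1, b2⟩ := pinv_mem hb.1 hb.2
  rw [← strictMonoOn_psi.le_iff_le (Ico_subset_Icc_self a1) (Ico_subset_Icc_self b1), a2, b2]
  exact hab

theorem ys_zero {r : ℝ} (h0 : 0 ≤ r) (h1 : r < 1) (h : psi r ≤ 0) : r = 0 := by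
  rw [← psi_zero, strictMonoOn_psi.le_iff_le ⟨h0, h1.le⟩ ⟨le_rfl, zero_le_one⟩] at h
  exact le_antisymm h h0

theorem ys_qq_zero : qq 0 = 0 := if_pos rfl

theorem SS_psi {r : ℝ} (h0 : 0 ≤ r) (h1 : r < 1) : SS (psi r) = St r := by
  unfold SS
  split_ifs with h
  · rw [ys_zero h0 h1 h, St_zero]
  · rw [pinv_psi h0 h1]

theorem SD_psi {r : ℝ} (h0 : 0 ≤ r) (h1 : r < 1) : SD (psi r) = qq r := by
  unfold SD
  split_ifs with h
  · rw [ys_zero h0 h1 h, ys_qq_zero]
  · rw [pinv_psi h0 h1]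

theorem SS_nonpos {J : ℝ} (h : J ≤ 0) : SS J = 0 := if_pos h

theorem SD_nonpos {J : ℝ} (h : J ≤ 0) : SD J = 0 := if_pos h

theorem ys_p {J : ℝ} (h : J < Real.log 2) : pinv (max J 0) ∈ Ico (0 : ℝ) 1 ∧ psi (pinv (max J 0)) = max J 0 ∧
    SS J = St (pinv (max J 0)) ∧ SD J = qq (pinv (max J 0)) := by
  obtain ⟨h1, h2⟩ := pinv_mem (le_max_right J 0) (max_lt h (Real.log_pos one_lt_two))
  refine ⟨h1, h2, ?_, ?_⟩
  · rw [← SS_psi h1.1 h1.2, h2]
    rcases le_total J 0 with h3 | h3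
    · rw [max_eq_right h3, SS_nonpos h3, SS_nonpos le_rfl]
    · rw [max_eq_left h3]
  · rw [← SD_psi h1.1 h1.2, h2]
    rcases le_total J 0 with h3 | h3
    · rw [max_eq_right h3, SD_nonpos h3, SD_nonpos le_rfl]
    · rw [max_eq_left h3]

theorem SD_mono : MonotoneOn SD (Iio (Real.log 2)) := by
  intro a ha b hb hab
  rw [(ys_p ha).2.2.2, (ys_p hb).2.2.2]
  refine qq_mono (ys_p ha).1 (ys_p hb).1 (pinv_mono ⟨le_max_right _ _, ?_⟩ ⟨le_max_right _ _, ?_⟩ (max_le_max_right 0 hab))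
  · exact max_lt ha (Real.log_pos one_lt_two)
  · exact max_lt hb (Real.log_pos one_lt_two)

theorem SD_nonneg {J : ℝ} (h : J < Real.log 2) : 0 ≤ SD J := by
  rw [(ys_p h).2.2.2]
  exact qq_nonneg (ys_p h).1.1 (ys_p h).1.2

theorem ys_core {r r0 : ℝ} (h : r ∈ Ico (0 : ℝ) 1) (h0 : r0 ∈ Ico (0 : ℝ) 1) :
    St r0 + qq r0 * (psi r - psi r0) ≤ St r := by
  have hd : ∀ u ∈ Ico (0 : ℝ) 1, HasDerivAt (fun u => St u - qq r0 * psi u) ((qq u - qq r0) * Real.artanh u) u := by
    intro u hu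
    have hu' : |u| < 1 := by rw [abs_of_nonneg hu.1]; exact hu.2
    refine ((hasDerivAt_St hu').sub ((hasDerivAt_psi hu').const_mul (qq r0))).congr_deriv ?_
    rw [sub_mul, qq_mul hu.1 hu.2]
  rcases le_total r0 r with hr | hr
  · have hs : Icc r0 r ⊆ Ico 0 1 := fun u hu => ⟨h0.1.trans hu.1, hu.2.trans_lt h.2⟩
    have hm : MonotoneOn (fun u => St u - qq r0 * psi u) (Icc r0 r) :=
      monotoneOn_of_deriv_nonneg (convex_Icc _ _) (fun u hu => (hd u (hs hu)).continuousAt.continuousWithinAt)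
        (fun u hu => (hd u (hs (interior_subset hu))).differentiableAt.differentiableWithinAt) fun u hu => by
          have hu' := interior_subset hu
          rw [(hd u (hs hu')).deriv]
          exact mul_nonneg (sub_nonneg.2 (qq_mono h0 (hs hu') hu'.1)) (Real.artanh_nonneg (hs hu').1)
    have := hm (left_mem_Icc.2 hr) (right_mem_Icc.2 hr) hr
    simp only at this
    linarith
  · have hs : Icc r r0 ⊆ Ico 0 1 := fun u hu => ⟨h.1.trans hu.1, hu.2.trans_lt h0.2⟩
    have hm : AntitoneOn (fun u => St u - qq r0 * psi u) (Icc r r0) :=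
      antitoneOn_of_deriv_nonpos (convex_Icc _ _) (fun u hu => (hd u (hs hu)).continuousAt.continuousWithinAt)
        (fun u hu => (hd u (hs (interior_subset hu))).differentiableAt.differentiableWithinAt) fun u hu => by
          have hu' := interior_subset hu
          rw [(hd u (hs hu')).deriv]
          exact mul_nonpos_of_nonpos_of_nonneg (sub_nonpos.2 (qq_mono (hs hu') h0 hu'.2))
            (Real.artanh_nonneg (hs hu').1)
    have := hm (left_mem_Icc.2 hr) (right_mem_Icc.2 hr) hr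
    simp only at this
    linarith

/-- Supporting lines. For `J = ψ r`, `J0 = ψ r0`: `r ↦ St r - qq r0 * ψ r` has derivative
`(qq r - qq r0) * artanh r`. -/
theorem SS_tan {J J0 : ℝ} (h : J < Real.log 2) (h0 : J0 < Real.log 2) : SS J0 + SD J0 * (J - J0) ≤ SS J := by
  obtain ⟨a1, a2, a3, -⟩ := ys_p h
  obtain ⟨b1, b2, b3, b4⟩ := ys_p h0
  have k := ys_core a1 b1
  rw [a2, b2, ← a3, ← b3, ← b4] at k
  rcases le_total J0 0 with h3 | h3
  · rw [SD_nonpos h3] at k ⊢
    linarith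
  · rw [max_eq_left h3] at k
    have := mul_le_mul_of_nonneg_left (le_max_left J 0) (SD_nonneg h0)
    linarith

theorem SS_nonneg {J : ℝ} (h : J < Real.log 2) : 0 ≤ SS J := by
  have := SS_tan h (J0 := 0) (Real.log_pos one_lt_two)
  simpa [SS_nonpos le_rfl, SD_nonpos le_rfl] using this

theorem SS_mono : MonotoneOn SS (Iio (Real.log 2)) := by
  intro a ha b hb hab
  have := SS_tan hb ha
  nlinarith [SD_nonneg ha]

theorem ys_tendsto {J : ℝ} (h : J < Real.log 2) :
    Filter.Tendsto (fun b => pinv (max b 0)) (nhds J) (nhds (pinv (max J 0))) := by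
  obtain ⟨a1, a2, -⟩ := ys_p h
  have hc : Filter.Tendsto (fun b : ℝ => max b 0) (nhds J) (nhds (max J 0)) :=
    (continuous_id.max continuous_const).tendsto J
  rw [tendsto_order]
  constructor
  · intro a ha
    rcases lt_or_ge a 0 with h0 | h0
    · filter_upwards [Iio_mem_nhds h] with b hb
      exact h0.trans_le (ys_p hb).1.1
    · have ha' : a ∈ Icc (0 : ℝ) 1 := ⟨h0, (ha.trans a1.2).le⟩
      have h2 : psi a < max J 0 := a2 ▸ strictMonoOn_psi ha' (Ico_subset_Icc_self a1) ha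
      filter_upwards [Iio_mem_nhds h, hc.eventually (lt_mem_nhds h2)] with b hb hb2
      rwa [← (ys_p hb).2.1, strictMonoOn_psi.lt_iff_lt ha' (Ico_subset_Icc_self (ys_p hb).1)] at hb2
  · intro a ha
    rcases le_or_gt 1 a with h0 | h0
    · filter_upwards [Iio_mem_nhds h] with b hb
      exact (ys_p hb).1.2.trans_le h0
    · have ha' : a ∈ Icc (0 : ℝ) 1 := ⟨a1.1.trans ha.le, h0.le⟩
      have h2 : max J 0 < psi a := a2 ▸ strictMonoOn_psi (Ico_subset_Icc_self a1) ha' ha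
      filter_upwards [Iio_mem_nhds h, hc.eventually (gt_mem_nhds h2)] with b hb hb2
      rwa [← (ys_p hb).2.1, strictMonoOn_psi.lt_iff_lt (Ico_subset_Icc_self (ys_p hb).1) ha'] at hb2

theorem continuousAt_SD {J : ℝ} (h : J < Real.log 2) : ContinuousAt SD J := by
  have h1 : Filter.Tendsto (fun b => pinv (max b 0)) (nhds J) (nhdsWithin (pinv (max J 0)) (Ico 0 1)) :=
    tendsto_nhdsWithin_iff.2 ⟨ys_tendsto h, by filter_upwards [Iio_mem_nhds h] with b hb using (ys_p hb).1⟩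
  have h2 := (continuousOn_qq _ (ys_p h).1).tendsto.comp h1
  rw [← (ys_p h).2.2.2] at h2
  refine h2.congr' ?_
  filter_upwards [Iio_mem_nhds h] with b hb
  exact (ys_p hb).2.2.2.symm

/-- From the two supporting-line inequalities `SD a ≤ (SS b - SS a)/(b - a) ≤ SD b` and continuity of `SD`
(`pinv` is monotone and onto `[0,1)`, `continuousOn_qq`). -/
theorem hasDerivAt_SS {J : ℝ} (h : J < Real.log 2) : HasDerivAt SS (SD J) J := by
  rw [hasDerivAt_iff_isLittleO, Asymptotics.isLittleO_iff]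
  intro c hc
  have h1 := (Metric.tendsto_nhds.1 (continuousAt_SD h)) c hc
  filter_upwards [h1, Iio_mem_nhds h] with b hb hbL
  rw [Real.dist_eq] at hb
  have t1 := SS_tan hbL h
  have t2 := SS_tan h hbL
  rw [smul_eq_mul, Real.norm_eq_abs, Real.norm_eq_abs, abs_of_nonneg (by linarith)]
  calc SS b - SS J - (b - J) * SD J ≤ (SD b - SD J) * (b - J) := by linarith
    _ ≤ |(SD b - SD J) * (b - J)| := le_abs_self _
    _ ≤ c * |b - J| := by rw [abs_mul]; exact mul_le_mul_of_nonneg_right hb.le (abs_nonneg _)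

end Crest.Agent.R307
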