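import Crest.Agent.R307.YDefs

/-!
# R307/YSer: series bounds
-/

set_option autoImplicit false

namespace Crest.Agent.R307

open Crest.CubeNoise Set

theorem yser_artanh {r : ℝ} (h : |r| < 1) : Real.artanh r = (Real.log (1 + r) - Real.log (1 - r)) / 2 := by
  obtain ⟨h1, h2⟩ := abs_lt.1 h
  rw [Real.artanh_eq_half_log ⟨h1.le, h2.le⟩, Real.log_div (by linarith) (by linarith)]
  ring

theorem yser_psi {r : ℝ} (h : |r| < 1) :
    psi r = ((1 + r) * Real.log (1 + r) + (1 - r) * Real.log (1 - r)) / 2 := by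
  obtain ⟨h1, h2⟩ := abs_lt.1 h
  unfold psi signEntropy Real.binEntropy
  rw [show 1 - (1 + r) / 2 = (1 - r) / 2 by ring, Real.log_inv, Real.log_inv,
    Real.log_div (by linarith : 1 + r ≠ 0) (by norm_num), Real.log_div (by linarith : 1 - r ≠ 0) (by norm_num)]
  ring

theorem hasDerivAt_artanh' {r : ℝ} (h : |r| < 1) : HasDerivAt Real.artanh (1 / (1 - r ^ 2)) r := by
  obtain ⟨h1, h2⟩ := abs_lt.1 h
  have a1 : 1 + r ≠ 0 := by linarith
  have a2 : 1 - r ≠ 0 := by linarith
  have a3 : 1 - r ^ 2 ≠ 0 := by nlinarith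
  have d1 := ((((hasDerivAt_id r).const_add 1).log a1).sub (((hasDerivAt_id r).const_sub 1).log a2)).div_const 2
  refine (d1.congr_deriv ?_).congr_of_eventuallyEq ?_
  · simp only [id]
    field_simp
    ring
  · filter_upwards [Ioo_mem_nhds h1 h2] with x hx
    exact yser_artanh (abs_lt.2 hx)

theorem psi_neg (r : ℝ) : psi (-r) = psi r := by
  unfold psi
  rw [signEntropy_neg]

theorem psi_abs (r : ℝ) : psi |r| = psi r := by
  rcases abs_choice r with e | e <;> rw [e]
  exact psi_neg r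

theorem psi_eq {r : ℝ} (h : |r| < 1) : psi r = r * Real.artanh r + Real.log (1 - r ^ 2) / 2 := by
  obtain ⟨h1, h2⟩ := abs_lt.1 h
  rw [yser_psi h, yser_artanh h, show 1 - r ^ 2 = (1 + r) * (1 - r) by ring,
    Real.log_mul (by linarith) (by linarith)]
  ring

theorem yser_sum_artanh {r : ℝ} (h : |r| < 1) :
    HasSum (fun k : ℕ => r ^ (2 * k + 1) / (2 * k + 1)) (Real.artanh r) := by
  rw [yser_artanh h]
  convert! (Real.hasSum_log_sub_log_of_abs_lt_one h).div_const 2 using 2 with k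
  ring

theorem yser_sum_psi {r : ℝ} (h : |r| < 1) :
    HasSum (fun k : ℕ => r ^ (2 * k + 2) / ((2 * k + 1) * (2 * k + 2))) (psi r) := by
  have h2 : |r ^ 2| < 1 := by
    rw [abs_of_nonneg (sq_nonneg r)]
    exact (sq_lt_one_iff_abs_lt_one r).2 h
  rw [psi_eq h]
  convert! ((yser_sum_artanh h).mul_left r).sub ((Real.hasSum_pow_div_log_of_abs_lt_one h2).div_const 2)
    using 1
  · funext k
    rw [← pow_mul]
    field_simp
    ring
  · ring

/-- Partial sums of `artanh r = ∑ r^(2k+1)/(2k+1)`. -/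
theorem artanh_ge {r : ℝ} (h0 : 0 ≤ r) (h1 : r < 1) (N : ℕ) :
    ∑ k ∈ Finset.range N, r ^ (2 * k + 1) / (2 * k + 1) ≤ Real.artanh r :=
  sum_le_hasSum _ (fun k _ => by positivity) (yser_sum_artanh (by rwa [abs_of_nonneg h0]))

/-- Partial sums plus a geometric tail. -/
theorem artanh_le {r : ℝ} (h0 : 0 ≤ r) (h1 : r < 1) (N : ℕ) : Real.artanh r ≤
    ∑ k ∈ Finset.range N, r ^ (2 * k + 1) / (2 * k + 1) + r ^ (2 * N + 1) / ((2 * N + 1) * (1 - r ^ 2)) := by
  have a1 := (hasSum_nat_add_iff' N).2 (yser_sum_artanh (by rwa [abs_of_nonneg h0] : |r| < 1))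
  have a2 : r ^ 2 < 1 := by nlinarith
  have a3 := (hasSum_geometric_of_lt_one (sq_nonneg r) a2).mul_left (r ^ (2 * N + 1) / (2 * N + 1))
  have a4 := hasSum_le (fun k => ?_) a1 a3
  · rw [← div_eq_mul_inv, div_div] at a4
    linarith
  · rw [← pow_mul, div_mul_eq_mul_div, ← pow_add, show 2 * N + 1 + 2 * k = 2 * (k + N) + 1 by ring]
    push_cast
    have : (0 : ℝ) ≤ k := Nat.cast_nonneg k
    exact div_le_div_of_nonneg_left (by positivity) (by positivity) (by linarith)

theorem le_artanh {r : ℝ} (h0 : 0 ≤ r) (h1 : r < 1) : r ≤ Real.artanh r := by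
  simpa using artanh_ge h0 h1 1

theorem artanh_le_div {r : ℝ} (h0 : 0 ≤ r) (h1 : r < 1) : Real.artanh r ≤ r / (1 - r ^ 2) := by
  simpa using artanh_le h0 h1 0

/-- Partial sums of `ψ r = ∑ r^(2k+2)/((2k+1)(2k+2))` (for `|r| = 1` by continuity). -/
theorem psi_ge_sum {r : ℝ} (h : |r| ≤ 1) (N : ℕ) :
    ∑ k ∈ Finset.range N, r ^ (2 * k + 2) / ((2 * k + 1) * (2 * k + 2)) ≤ psi r := by
  have hc : IsClosed {r : ℝ | ∑ k ∈ Finset.range N, r ^ (2 * k + 2) / ((2 * k + 1) * (2 * k + 2)) ≤ psi r} :=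
    isClosed_le (by fun_prop) continuous_psi
  have hs : Ioo (-1 : ℝ) 1 ⊆ _ := fun r hr => show r ∈ {r : ℝ | ∑ k ∈ Finset.range N,
      r ^ (2 * k + 2) / ((2 * k + 1) * (2 * k + 2)) ≤ psi r} from
    sum_le_hasSum _ (fun k _ => div_nonneg (Even.pow_nonneg ⟨k + 1, by ring⟩ r) (by positivity))
      (yser_sum_psi (abs_lt.2 hr))
  have := hc.closure_subset_iff.2 hs
  rw [closure_Ioo (by norm_num)] at this
  exact this (abs_le.1 h)

theorem yser_tail {r : ℝ} (h : |r| ≤ 1) (j : ℕ) :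
    psi r ≤ ∑ k ∈ Finset.range j, r ^ (2 * k + 2) / ((2 * k + 1) * (2 * k + 2)) +
      (Real.log 2 - ∑ k ∈ Finset.range j, (1 : ℝ) / ((2 * k + 1) * (2 * k + 2))) * r ^ (2 * j + 2) := by
  have e1 : ∀ k : ℕ, r ^ (2 * k + 2) = (r ^ 2) ^ (k + 1) := fun k => by rw [← pow_mul]; rfl
  have h2 : r ^ 2 ≤ 1 := (sq_le_one_iff_abs_le_one r).2 h
  rcases h.eq_or_lt with h1 | h1
  · have e : r ^ 2 = 1 := by rw [← sq_abs, h1, one_pow]
    rw [← psi_abs, h1, psi_one]
    simp only [e1, e, one_pow]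
    linarith
  refine le_of_tendsto (yser_sum_psi h1).tendsto_sum_nat ?_
  filter_upwards [Filter.eventually_ge_atTop j] with N hN
  have b1 := psi_ge_sum (r := 1) (by simp) N
  simp only [psi_one, one_pow] at b1
  rw [← Finset.sum_range_add_sum_Ico _ hN] at b1 ⊢
  have b2 : ∑ k ∈ Finset.Ico j N, r ^ (2 * k + 2) / ((2 * k + 1) * (2 * k + 2)) ≤
      (∑ k ∈ Finset.Ico j N, (1 : ℝ) / ((2 * k + 1) * (2 * k + 2))) * r ^ (2 * j + 2) := by
    rw [Finset.sum_mul]
    refine Finset.sum_le_sum fun k hk => ?_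
    rw [div_mul_eq_mul_div, one_mul, e1, e1]
    exact div_le_div_of_nonneg_right
      (pow_le_pow_of_le_one (sq_nonneg r) h2 (by linarith [(Finset.mem_Ico.1 hk).1])) (by positivity)
  have b3 : 0 ≤ r ^ (2 * j + 2) := by rw [e1]; positivity
  have b4 := mul_le_mul_of_nonneg_right (le_sub_iff_add_le'.2 b1) b3
  linarith

theorem psi_ge {r : ℝ} (h : |r| ≤ 1) : r ^ 2 / 2 + r ^ 4 / 12 + r ^ 6 / 30 ≤ psi r := by
  have := psi_ge_sum h 3
  simp only [Finset.sum_range_succ, Finset.sum_range_zero] at this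
  norm_num at this
  linarith

/-- `(ψ r - r²/2 - r⁴/12) / r⁶` is a power series with nonnegative coefficients, hence at most its value at any
`r' ∈ [r, 1)`; let `r' → 1` (`continuous_psi`, `psi_one`). -/
theorem psi_le {r : ℝ} (h : |r| ≤ 1) : psi r ≤ r ^ 2 / 2 + r ^ 4 / 12 + (Real.log 2 - 7 / 12) * r ^ 6 := by
  have := yser_tail h 2
  simp only [Finset.sum_range_succ, Finset.sum_range_zero] at this
  norm_num at this
  linarith

theorem psi_le_sq {r : ℝ} (h : |r| ≤ 1) : psi r ≤ Real.log 2 * r ^ 2 := by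
  simpa using yser_tail h 0

theorem yser_sum_ell {s : ℝ} (h0 : 0 ≤ s) (h1 : s < 1) : HasSum (fun n : ℕ => s ^ n / (n + 1)) (ell s) := by
  unfold ell
  split_ifs with h
  · subst h
    simpa using hasSum_single (f := fun n : ℕ => (0 : ℝ) ^ n / (n + 1)) 0 fun n hn => by simp [hn]
  · convert! (Real.hasSum_pow_div_log_of_abs_lt_one (by rwa [abs_of_nonneg h0] : |s| < 1)).div_const s using 2 with n
    field_simp
    ring

theorem ell_ge {s : ℝ} (h0 : 0 ≤ s) (h1 : s < 1) : 1 + s / 2 ≤ ell s := by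
  have := sum_le_hasSum (Finset.range 2) (fun k _ => by positivity) (yser_sum_ell h0 h1)
  simp only [Finset.sum_range_succ, Finset.sum_range_zero] at this
  norm_num at this
  linarith

theorem ell_mono : MonotoneOn ell (Ico 0 1) := fun _ ha _ hb hab =>
  hasSum_le (fun n => div_le_div_of_nonneg_right (pow_le_pow_left₀ ha.1 hab n) (by positivity))
    (yser_sum_ell ha.1 ha.2) (yser_sum_ell hb.1 hb.2)

/-- `jj` as a sum of two perspectives. -/
theorem jj_eq {m d : ℝ} (h : |m| + |d| < 1) :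
    jj (m + d) (m - d) = (1 + m) / 2 * psi (d / (1 + m)) + (1 - m) / 2 * psi (d / (1 - m)) := by
  have m1 := le_abs_self m
  have m2 := neg_abs_le m
  have d1 := le_abs_self d
  have d2 := neg_abs_le d
  have d0 := abs_nonneg d
  have p1 : 0 < 1 + m := by linarith
  have p2 : 0 < 1 - m := by linarith
  have e : jj (m + d) (m - d) = (psi (m + d) + psi (m - d)) / 2 - psi m := by
    unfold jj psi
    rw [show (m + d + (m - d)) / 2 = m by ring]
    ring
  have k : ∀ {y : ℝ}, 0 < y → |d| < y → y / 2 * psi (d / y) =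
      ((y + d) * Real.log (y + d) + (y - d) * Real.log (y - d)) / 4 - y * Real.log y / 2 := fun {y} hy hd => by
    rw [yser_psi (by rwa [abs_div, abs_of_pos hy, div_lt_one hy]),
      show 1 + d / y = (y + d) / y by field_simp, show 1 - d / y = (y - d) / y by field_simp,
      Real.log_div (by linarith) hy.ne', Real.log_div (by linarith) hy.ne']
    field_simp
    ring
  rw [e, k p1 (by linarith), k p2 (by linarith), yser_psi (r := m + d) (abs_lt.2 ⟨by linarith, by linarith⟩),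
    yser_psi (r := m - d) (abs_lt.2 ⟨by linarith, by linarith⟩), yser_psi (r := m) (by linarith),
    show 1 + (m + d) = 1 + m + d by ring, show 1 - (m + d) = 1 - m - d by ring,
    show 1 + (m - d) = 1 + m - d by ring, show 1 - (m - d) = 1 - m + d by ring]
  ring

theorem jj_nonneg {u v : ℝ} (hu : |u| < 1) (hv : |v| < 1) : 0 ≤ jj u v := by
  obtain ⟨u1, u2⟩ := abs_lt.1 hu
  obtain ⟨v1, v2⟩ := abs_lt.1 hv
  have h : |(u + v) / 2| + |(u - v) / 2| < 1 := by
    rcases abs_choice ((u + v) / 2) with e | e <;> rcases abs_choice ((u - v) / 2) with e' | e' <;>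
      rw [e, e'] <;> linarith
  have e := jj_eq h
  rw [show (u + v) / 2 + (u - v) / 2 = u by ring, show (u + v) / 2 - (u - v) / 2 = v by ring] at e
  rw [e]
  exact add_nonneg (mul_nonneg (by linarith) (psi_nonneg _)) (mul_nonneg (by linarith) (psi_nonneg _))

end Crest.Agent.R307
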